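import Crest.Agent.T156.R1CoA_65
import Crest.Agent.T156.R1Lo4_73

/-!
Row 156 (helper65): the table `Co2 Co3 CoL CoF CoG` of the site coefficients.
-/

set_option autoImplicit false
set_option linter.unusedSectionVars false

noncomputable section

namespace Crest.Agent.T156.Alt.Co65

open Real
open Crest.Agent.T156.Cas Crest.Agent.T156.Cas.C40 Crest.Agent.T156.Alt.CIn12
open Crest.Agent.T156.Alt.Alg77 Crest.Agent.T156.Alt.R77 Crest.Agent.T156.Alt.R82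
open Crest.Agent.T156.Alt.Md67 Crest.Agent.T156.Alt.Gr29 Crest.Agent.T156.Alt.Mem37

theorem sml_up {β : ℝ} {R : ℝ → Pm → Prop} (k : ℕ)
    (H : Sml β fun Λ p => ∀ L, Λ ^ k ≤ L → R L p) : Sml β R :=
  (Sml.loss (R := fun x p => ∀ L, x ≤ L → R L p) k H
    fun _ _ _ _ h g L hL => g L (h.trans hL)).sml.mono fun Λ _ h => h Λ le_rfl

/-- the numbers of a node -/
structure Nn (Λ : ℝ) (p : Pm) (P : Pl) (t : ℝ) (m k : ℕ) (x : ℝ) : Prop where
  s0 : 0 < (p.gst P t).s k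
  ms0 : 0 < p.msG t ((p.gst P t).s k)
  om : p.omG t k ≤ 16 * mt p t ((p.gst P t).s k)
  xm : max ((p.gst P t).s k) p.r * p.muG t ≤ Λ ^ 2 * mt p t ((p.gst P t).s k)
  u0 : 0 ≤ p.bG t / (m + 1)
  u1 : p.bG t / (m + 1) ≤ p.r ^ 3
  u2 : p.bG t / (m + 1) ≤ Λ * (1 / p.n)
  lo : min 1 (p.jf * p.v) * p.msG t (p.jf * p.v) ≤ 2 * Λ * (mt p t ((p.gst P t).s k) * p.r ^ 2)
  par : min 1 ((p.gst P t).z k + ((p.gst P t).s k + hd p P t m k)) ≤ 12 * Λ * (p.gst P t).s k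
  cas : (p.omG t k = 0 ∧ p.msG t ((p.gst P t).s k) = p.muG t) ∨ (k < p.J ∧ (p.gst P t).G k = 0)
  bulk : k < p.J → p.msG t (k * p.v) ≤ 4 * p.msG t ((p.gst P t).s k) ∧
    p.msG t ((p.gst P t).s k) ≤ max ((p.gst P t).s k) p.r ^ 2 ∧ (p.gst P t).dz m x k ≤ p.r ^ 2 ∧
    |(p.gst P t).G k| ≤ 6 * max ((p.gst P t).s k) p.r ^ 2
  top : p.J ≤ k → 1 ≤ Λ * (p.gst P t).s k
  sv0 : 2 * p.ye ≤ (p.gst P t).s k → sv p t k = 0

variable {β c0 C0 c η K : ℝ} {A : ℕ} {p : Pm} {P : Pl} {σ σ' t a a' Q Λ : ℝ} {m k : ℕ}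

theorem ms_max (p : Pm) (t s : ℝ) : p.msG t (max s p.r) = p.msG t s := by
  rcases le_total s p.r with h | h
  · rw [max_eq_right h, Reg.msG_lo t h, Reg.msG_lo t le_rfl]
  · rw [max_eq_left h]

theorem xm_le (H : Reg β c0 C0 A c η K p) (t0 : 0 < t) {X : ℝ} (h0 : 0 < X) (h1 : 1 ≤ Λ)
    (h : X ≤ Λ) : X ^ 2 * p.muG t ≤ Λ ^ 2 * p.msG t X := by
  have m0 := (H.msG0 t0 X).le
  rcases le_total X p.ye with b | b
  · have e := H.msG_mul t0 ((one_le_div h0).2 b) X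
    rw [div_mul_cancel₀ _ h0.ne', H.msG_hi t le_rfl, div_pow, div_mul_eq_mul_div,
      le_div_iff₀' (pow_pos h0 2)] at e
    exact e.trans (mul_le_mul_of_nonneg_right (pow_le_pow_left₀ H.ye0.le (H.ye1.trans h1) 2) m0)
  · rw [← H.msG_hi t b]
    exact mul_le_mul_of_nonneg_right (pow_le_pow_left₀ h0.le h 2) m0

theorem xe_le (H : Reg β c0 C0 A c η K p) (t0 : 0 < t) {X : ℝ} (h0 : p.r ≤ X) (h1 : 1 ≤ Λ)
    (h : X ≤ Λ) : X * p.epsG t ≤ 2 * Λ * (p.r * p.msG t X) := by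
  have r0 := H.r0
  have y0 := H.ye0
  have k0 := H.κ0
  have m0 := mul_pos r0 (H.msG0 t0 X)
  rcases le_total X p.ye with b | b
  · have e := mul_le_mul_of_nonneg_left (gS_mono t0.le h0)
      (show 0 ≤ p.κ * p.r * X from mul_nonneg (by positivity) (r0.le.trans h0))
    refine le_trans ?_ (le_mul_of_one_le_left m0.le (by linarith))
    rw [msG_eq, xc_mid h0 b, Pm.epsG]
    linarith
  · have a : p.r ≤ p.ye ^ 2 * p.ye := H.le_of_lg r0 (by positivity) (by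
      lg_norm
      linarith [H.lg_r, H.lg_ye, H.lg_s.2, H.c_le])
    have a1 : √p.r ≤ p.ye * √p.ye := by
      have := sqrt_le_sqrt a
      rwa [sqrt_mul (sq_nonneg _), sqrt_sq y0.le] at this
    have a2 : min p.r (t * √p.r) ≤ p.ye * min p.ye (t * √p.ye) := by
      rw [mul_min_of_nonneg _ _ y0.le]
      refine min_le_min (a.trans ?_) ((mul_le_mul_of_nonneg_left a1 t0.le).trans_eq (by ring))
      nlinarith [H.ye1, sq_nonneg p.ye]
    have a3 : gS t p.r ≤ 2 * (p.ye * gS t p.ye) := by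
      linarith [(gS_bds t0.le r0.le).2, mul_le_mul_of_nonneg_left (gS_bds t0.le y0.le).1 y0.le]
    have a4 := mul_le_mul h (mul_le_mul_of_nonneg_left a3 (mul_pos k0 r0).le)
      (H.epsG0 t0).le (by linarith)
    rw [H.msG_hi t b, Pm.muG, Pm.epsG]
    linarith

theorem nn_of {η' ν lo hi : ℝ} (H : Reg β c0 C0 A c η K p) (hη : 40 * η ≤ c)
    (X : Cx p σ σ' P t a a' Q m) (F : Fx Λ p P t a a' Q m)
    (L : St56.LD c0 C0 η' (2 * p.ye) (p.muG σ) ν p.ye lo hi p P (p.omG t) (p.bG t))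
    (k0 : p.jf < k) (k1 : k ≤ p.Jp P) (x : ℝ) : Nn ((p.n : ℝ) ^ η) p P t m k x := by
  have g := L.geo
  have v0 := H.v0
  have r0 := H.r0
  have y0 := H.ye0
  have y1 := H.ye1
  have L0 := H.Λ0
  have L1 := H.Λ1
  have n0 := H.N0
  have t0 := F.t0
  have C1 := H.C01
  have hA : (2 : ℝ) ≤ A := by exact_mod_cast H.A2
  have βΛ : p.β ^ 2 ≤ (p.n : ℝ) ^ η := H.hβ ▸ H.β_le
  obtain ⟨s, hs⟩ : ∃ s, s = (p.gst P t).s k := ⟨_, rfl⟩
  have sl : k ≤ p.J → k * p.v / 2 ≤ s ∧ s ≤ k * p.v := fun h => by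
    rw [hs, show (p.gst P t).s k = _ from sP_lo h]
    exact ⟨g.hom.sig_ge v0 le_rfl k, g.hom.sig_le k⟩
  have sh : p.J ≤ k → s = p.J * p.v := fun h => by
    rw [hs, show (p.gst P t).s k = _ from g.sP_hi h, F.g, Nat.sub_eq_zero_of_le k1]
    simp
  have mo : ∀ {i j : ℕ}, i ≤ j → (i : ℝ) * p.v ≤ j * p.v := fun h =>
    mul_le_mul_of_nonneg_right (Nat.cast_le.2 h) v0.le
  have j0 := H.jfv0
  have j1 := mo k0.le
  have j2 := St56.jf_le H hη
  have sj : p.jf * p.v / 2 ≤ s ∧ s ≤ p.J * p.v ∧ s ≤ k * p.v := by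
    rcases le_total k p.J with h | h
    · exact ⟨by linarith [(sl h).1], (sl h).2.trans (mo h), (sl h).2⟩
    · exact ⟨by linarith [sh h, mo F.jJ.le], (sh h).le, (sh h).le.trans (mo h)⟩
  have s0 : 0 < s := by linarith [sj.1]
  have X0 : 0 < max s p.r := r0.trans_le (le_max_right _ _)
  have XΛ : max s p.r ≤ (p.n : ℝ) ^ η :=
    max_le (sj.2.1.trans (g.base.hi.trans βΛ)) (H.r_le_ye.trans (y1.trans L1))
  have ys : 2 * p.ye ≤ k * p.v → p.ye ≤ s := fun h => by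
    rcases le_total k p.J with b | b
    · linarith [(sl b).1]
    · linarith [sh b, g.hY]
  have eG : (p.gst P t).G k = p.muG σ * p.rF ν (p.xP P k) := by
    simp only [Md.G, Md.q, Pm.gst, Pm.famO, Pm.HO, Pm.qO, if_neg k0.not_ge, L.hs, Pi.zero_apply]
    ring
  have G0 : k * p.v < 2 * p.ye → k < p.J ∧ (p.gst P t).G k = 0 := fun h => by
    have b : k < p.J := by exact_mod_cast lt_of_mul_lt_mul_right (h.trans_le g.hY) v0.le
    obtain ⟨j, rfl⟩ : ∃ j, k = j + 1 := ⟨k - 1, by omega⟩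
    rw [eG, L.xP_succ (by omega), L.rF0 (by omega) ((mo j.le_succ).trans h.le), mul_zero]
    exact ⟨b, rfl⟩
  have G6 : |(p.gst P t).G k| ≤ 6 * p.ye ^ 2 := by
    have b : p.xP P k ≤ P.x P.I := g.zP_x le_rfl ▸ g.zP_mono (by unfold Pm.Jp; omega)
    have μ0 := H.muG0 (H.σ0 (oct_mem X.oct).1)
    have l0 : 0 < log (p.n : ℝ) := by linarith [H.log1]
    have d : p.muG σ * log p.n ≤ p.ye ^ 2 := H.le_of_lg (by positivity) (by positivity) (by
      lg_norm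
      linarith [(H.lg_muG' (oct_mem X.oct).1).2, H.lg_log.2, H.lg_ye, H.η_pos])
    rw [eG, abs_mul, abs_of_pos μ0]
    linarith [mul_le_mul_of_nonneg_left (L.nm.abs_rF_log (x := p.xP P k) (by linarith [L.xe])) μ0.le]
  have GX : |(p.gst P t).G k| ≤ 6 * min s (s ^ 2) := by
    rcases lt_or_ge (k * p.v) (2 * p.ye) with h | h
    · rw [(G0 h).2, abs_zero]
      positivity
    · have := ys h
      exact G6.trans (mul_le_mul_of_nonneg_left (le_min (by nlinarith)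
        (pow_le_pow_left₀ y0.le this 2)) (by norm_num))
  have m4 : k ≤ p.J → p.msG t (k * p.v) ≤ 4 * p.msG t s := fun h =>
    (H.msG_mono t0 (by linarith [(sl h).1])).trans (H.msG_two t0 s)
  have ms0 := H.msG0 t0 s
  have u2 : p.bG t / (m + 1) ≤ (p.n : ℝ) ^ η * (1 / p.n) := by
    rw [mul_one_div]
    exact div_le_div₀ L0.le (F.b1.trans βΛ) n0 (by linarith [(Nat.cast_le (α := ℝ)).2 X.m1])
  have u1 : (p.n : ℝ) ^ η * (1 / p.n) ≤ p.r ^ 3 := H.le_of_lg (by positivity) (by positivity) (by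
    lg_norm
    rw [H.lg_n]
    linarith [H.lg_r, H.lg_s.1, H.c_le, H.c_pos])
  have u3 : p.r ^ 3 ≤ p.jf * p.v / 2 := H.le_of_lg (by positivity) (by positivity) (by
    rw [logb_div j0.ne' two_ne_zero, logb_pow]
    push_cast
    linarith [H.lg_r, H.lg_s.2, H.lg_jf.1, H.lg_two.2, H.c_le, H.c_pos])
  have top : p.J ≤ k → 1 ≤ (p.n : ℝ) ^ η * s := fun h => by
    have b := H.c0_le
    rw [div_le_iff₀ H.c00] at b
    exact b.trans (mul_le_mul_of_nonneg_left (g.base.lo.trans (sh h).ge) L0.le)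
  subst hs
  refine ⟨s0, ms0, ?_, ?_, div_nonneg F.b0 (by positivity), u2.trans u1, u2, ?_, ?_, ?_,
    fun h => ⟨m4 h.le, ?_, ?_, ?_⟩, top, fun h => F.sv_hi (h.trans sj.2.2)⟩
  · rw [R82.mt, ← mul_div_assoc, le_div_iff₀ X0]
    rcases le_total k p.J with h | h
    · have := mul_le_mul_of_nonneg_right (max_le_max (le_refl p.r) sj.2.2) (g.hom.nn k)
      rw [max_comm] at this
      linarith [F.o2 k, m4 h]
    · rw [g.hom.supp k (g.hY.trans (mo h)), zero_mul]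
      positivity
  · have := xm_le H t0 X0 L1 XΛ
    rw [ms_max] at this
    rw [R82.mt, ← mul_div_assoc, le_div_iff₀ X0]
    linarith
  · have b := mul_le_mul_of_nonneg_left (xe_le H t0 (le_max_right _ _) L1 XΛ) r0.le
    have d := mul_le_mul_of_nonneg_right ((min_le_right 1 _).trans j2)
      (mul_pos X0 (H.epsG0 t0)).le
    rw [ms_max] at b
    rw [Reg.msG_lo t j2, R82.mt, div_mul_eq_mul_div, ← mul_div_assoc, le_div_iff₀ X0]
    linarith
  · rcases lt_or_ge k p.J with h | h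
    · have b := (PP3.z_bds g.base k h).2
      have d := mul_le_mul_of_nonneg_left (mo (show 1 ≤ k by omega)) (zero_le_one.trans C1)
      have e := mul_le_mul H.C0_le (sl h.le).1 (by positivity) L0.le
      have f := le_mul_of_one_le_left s0.le L1
      refine (min_le_right _ _).trans ?_
      rw [gst_z p P t k0.le, zP_lo h, hd]
      rw [Nat.cast_one, one_mul] at d
      linarith [min_le_left ((p.gst P t).s k) ((p.gst P t).s k ^ 2), sj.1]
    · linarith [min_le_left 1 ((p.gst P t).z k + ((p.gst P t).s k + hd p P t m k)), top h]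
  · rcases lt_or_ge (k * p.v) (2 * p.ye) with h | h
    exacts [Or.inr (G0 h), Or.inl ⟨g.hom.supp k h, H.msG_hi t (ys h)⟩]
  · refine (H.msG_le_sq t _).trans ((mul_le_of_le_one_left (sq_nonneg _) H.κ1).trans
      (pow_le_pow_left₀ (H.xc0 _).le ?_ 2))
    rw [max_comm]
    exact max_le_max le_rfl (min_le_left _ _)
  · have b := (g.base.slo (k - 1) (by omega)).2
    rw [Pr.dm, Nat.sub_add_cancel (by omega)] at b
    rw [F.dz_eq x k0 h]
    refine b.trans (H.le_of_lg (by positivity) (by positivity) ?_)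
    lg_norm
    linarith [(H.lg_cst C1 H.C0_le).2, H.lg_v_le, H.lg_r, H.lg_s.1, H.c_le, H.c_pos]
  · exact GX.trans (mul_le_mul_of_nonneg_left ((min_le_right _ _).trans
      (pow_le_pow_left₀ s0.le (le_max_left _ _) 2)) (by norm_num))

theorem lin_fin {p' μ Γ om g u lo mt r s X : ℝ} (L : 1000 ≤ Λ) (p1 : p' ≤ s + (g + u))
    (μ0 : 0 ≤ μ) (Γ0 : 0 ≤ Γ) (Γ1 : Γ ≤ 3 * r ^ 2) (o1 : om ≤ 16 * mt) (og : om * g = 0)
    (g0 : 0 ≤ g) (u0 : 0 ≤ u) (u1 : u ≤ r ^ 3) (l1 : lo ≤ 2 * Λ * (mt * r ^ 2)) (m0 : 0 ≤ mt)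
    (r0 : 0 < r) (r1 : r ≤ 1) (sX : s ≤ X) (rX : r ≤ X) (xm : X * μ ≤ Λ ^ 2 * mt) :
    p' * (μ * Γ) + om * (Γ + (g + u)) + (g + u) * μ + 0 + lo ≤ Λ ^ 3 * (mt * r ^ 2 + μ * g) := by
  have a2 : r ^ 2 ≤ 1 := pow_le_one₀ r0.le r1
  have a3 : u ≤ r ^ 2 := u1.trans (pow_le_pow_of_le_one r0.le r1 (by norm_num))
  have a4 : u ≤ r := u1.trans (pow_le_of_le_one r0.le r1 (by norm_num))
  have t1 := mul_le_mul (show p' ≤ 2 * X + g by linarith) (mul_le_mul_of_nonneg_left Γ1 μ0)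
    (mul_nonneg μ0 Γ0) (by linarith)
  have t2 := mul_le_mul_of_nonneg_right xm (sq_nonneg r)
  have t3 := mul_le_of_le_one_right (mul_nonneg μ0 g0) a2
  have t4 := mul_le_mul o1 Γ1 Γ0 (by linarith)
  have t5 := mul_le_mul o1 a3 u0 (by linarith)
  have t6 := mul_le_mul_of_nonneg_right u1 μ0
  have t7 := mul_le_mul_of_nonneg_right rX (mul_nonneg μ0 (sq_nonneg r))
  have b0 : 1000 * Λ ≤ Λ ^ 2 := by nlinarith
  have b1 : 1000 * Λ ^ 2 ≤ Λ ^ 3 := by nlinarith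
  have c1 := mul_le_mul_of_nonneg_right (show 7 * Λ ^ 2 + 2 * Λ + 64 ≤ Λ ^ 3 by linarith)
    (mul_nonneg m0 (sq_nonneg r))
  have c2 := mul_le_mul_of_nonneg_right (show 4 ≤ Λ ^ 3 by linarith) (mul_nonneg μ0 g0)
  linarith

theorem c3_fin {τ W C f n mt μ X s L : ℝ} (t0 : 0 < t) (L1 : 1000 ≤ Λ) (hL : Λ ^ 9 ≤ L)
    (τ0 : 0 ≤ τ) (τ1 : τ ≤ Λ) (C1 : 1 ≤ C) (CL : C ≤ Λ) (w : |W| ≤ C * (|f| + 12 * Λ * s * n))
    (f1 : t * |f| ≤ 16 * mt) (n1 : t * n ≤ Λ * μ) (s0 : 0 ≤ s) (sX : s ≤ X) (μ0 : 0 ≤ μ)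
    (m0 : 0 ≤ mt) (xm : X * μ ≤ Λ ^ 2 * mt) : t * |τ ^ 3 / 12 * W| ≤ L * mt := by
  have L0 : 0 ≤ Λ := by linarith
  have a1 := mul_le_mul_of_nonneg_left n1 (show 0 ≤ 12 * Λ * s by positivity)
  have a2 := mul_le_mul_of_nonneg_left ((mul_le_mul_of_nonneg_right sX μ0).trans xm)
    (show 0 ≤ 12 * Λ ^ 2 by positivity)
  have a3 := mul_le_mul_of_nonneg_right
    (one_le_pow₀ (n := 4) (show 1 ≤ Λ by linarith)) m0
  have a4 : t * |W| ≤ Λ * (28 * (Λ ^ 4 * mt)) := by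
    refine (mul_le_mul_of_nonneg_left w t0.le).trans ?_
    rw [mul_left_comm]
    exact (mul_le_mul_of_nonneg_left (by linarith) (by linarith)).trans
      (mul_le_mul_of_nonneg_right CL (by positivity))
  have a5 := mul_le_mul (pow_le_pow_left₀ τ0 τ1 3) a4 (by positivity) (by positivity)
  have a6 := mul_le_mul_of_nonneg_right L1 (show 0 ≤ Λ ^ 8 * mt by positivity)
  have a7 := mul_le_mul_of_nonneg_right hL m0
  have a8 : 0 ≤ Λ ^ 8 * mt := by positivity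
  rw [abs_mul, abs_of_nonneg (show 0 ≤ τ ^ 3 / 12 by positivity)]
  linarith

/-- **the five node tables** -/
theorem co5 (hβ : 1 < β) : Sml β fun L p => Co2 L p ∧ Co3 L p ∧ CoL L p ∧ CoF L p ∧ CoG L p := by
  obtain ⟨C', c1, hR⟩ := coR
  have key : Sml β fun Λ p => ∀ L, Λ ^ 9 ≤ L → Nds (fun p P t m x k =>
      t * |c2 (D0 p P t m x) (fd p t) (deriv p.bG t) (k + 1)| ≤ L * p.msG t ((p.gst P t).s k) ∧
      t * |c3 (D0 p P t m x) (fd p t) (k + 1)| ≤ L * mt p t ((p.gst P t).s k) ∧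
      t * |lin (D0 p P t m x) (fd p t) (sh (bq p P t)) (k + 1)| ≤
        L * (mt p t ((p.gst P t).s k) * p.r ^ 2 + p.muG t * |(p.gst P t).G k|) ∧
      (t * |sv p t k| ≤ L * mt p t ((p.gst P t).s k) ∧
        (2 * p.ye ≤ (p.gst P t).s k → sv p t k = 0) ∧
        t * R1J.n1 (D0 p P t m x).S (fd p t) ≤ L * p.muG t ∧
        min 1 ((p.gst P t).z k + (D0 p P t m x).sig (k + 1)) ≤ L * (p.gst P t).s k) ∧
      |1 - (D0 p P t m x).τ (k + 1) * R1J.G (D0 p P t m x).S (k + 1)| ≤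
        L * max ((p.gst P t).s k) p.r ^ 2 ∧
      (D0 p P t m x).gq (k + 1) ≤
        |(p.gst P t).G k| + L * ((p.gst P t).s k * p.r ^ 2 + 1 / p.n)) p := by
    refine Sml.glueC hβ (p1G β hβ) ((((St56.nm_sml hβ).and (fxS hβ)).and (P73.gmS hβ)).and
      (coQ β hβ).sml) fun C hC c0 C0 h0 h1 =>
      ⟨0, fun A _ => ⟨1, one_pos, fun c _ hc => ⟨c / 40, by positivity, fun η hη _ =>
        ⟨max C' (exp (3 * C0 * C)), fun p H G ⟨⟨⟨N, f⟩, g⟩, B, B1, BL, hQ⟩ L hL σ σ' P t a a' Q m X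
          x hx k k0 k1 => ?_⟩⟩⟩⟩
    have hη' : 40 * η ≤ c := by linarith
    have M0 := (oct_mem X.oct).1
    obtain ⟨n0, n1⟩ := H.mtG_mem M0
    have F := f σ σ' P t a a' Q m X
    have Z := nn_of H hη' X F (St56.ld_gst H hη' hC (le_max_right _ _) G X.mem (N _ n0 n1) n0
      (H.muG0 (H.σ0 M0)).le (H.oct_mu X.oct').1 X.pl.ok X.pl.hs) k0 k1 x
    obtain ⟨lab, -, -, -, g⟩ := g σ σ' P t a a' Q m X
    have lg := F.lg hx.1 hx.2
    have x0 := F.a0.trans_le hx.1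
    obtain ⟨g1, g2, -⟩ := g x lg
    have kN : k < p.NP P := by have := Nr_pos H; rw [NP_eq]; omega
    have CL : C' ≤ (p.n : ℝ) ^ η := (le_max_left _ _).trans H.K_le
    have βL : p.β ^ 2 ≤ (p.n : ℝ) ^ η := H.hβ ▸ H.β_le
    have L3 := H.num_le
    have n0 := H.N0
    have r0 := H.r0
    have r1 := H.r_le_ye.trans H.ye1
    have t0 := F.t0
    have μ0 := (H.muG0 t0).le
    have o0 := (F.op.hom t t0).nn k
    obtain ⟨q1, q2⟩ := hQ t X.mem P F.g lab F.jJ m x lg x0 F.top (P73.rf_gst F.op t0 F.g) _ E0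
      (D0 p P t m x) rfl
    obtain ⟨q2, q3, q4⟩ := q2 k k0 kN
    have τe : (D0 p P t m x).τ (k + 1) = tp (p.gst P t) m k := cd_tau m x _ _ E0 kN.le
    obtain ⟨τ0, τ1⟩ := F.tp_le k
    have fs := F.t_sv k
    generalize (p.n : ℝ) ^ η = Λ at *
    have s0 := Z.s0
    have m0 := Z.ms0
    obtain ⟨w1, w2, w3, Γ0, w4⟩ := hR p P t _ x m F.op t0 F.g lab F.jJ lg x0 F.top _ E0
      (D0 p P t m x) rfl k k0 kN _ (by positivity) Z.par
    have b1 : 1000 * Λ ≤ Λ ^ 2 := by nlinarith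
    have b2 : 1000 * Λ ^ 2 ≤ Λ ^ 3 := by nlinarith
    have b3 : 1000 * Λ ^ 3 ≤ Λ ^ 4 := by nlinarith
    have b4 : 1000 * Λ ^ 4 ≤ Λ ^ 5 := by nlinarith
    have b5 : Λ ^ 5 ≤ L := (pow_le_pow_right₀ (by linarith) (by norm_num)).trans hL
    have up : ∀ {x y z a : ℝ}, x ≤ B * z → z ≤ a * y → 0 ≤ a → 0 ≤ y → Λ * a ≤ L → x ≤ L * y :=
      fun a b d e h => (a.trans (mul_le_mul_of_nonneg_left b (by linarith))).trans
        ((mul_le_mul_of_nonneg_right BL (mul_nonneg d e)).trans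
          ((mul_assoc _ _ _).ge.trans (mul_le_mul_of_nonneg_right h e)))
    have rX := le_max_right ((p.gst P t).s k) p.r
    have sX := le_max_left ((p.gst P t).s k) p.r
    have e : mt p t ((p.gst P t).s k) * max ((p.gst P t).s k) p.r = p.msG t ((p.gst P t).s k) :=
      div_mul_cancel₀ _ (r0.trans_le rX).ne'
    have mt0 : 0 ≤ mt p t ((p.gst P t).s k) := div_nonneg m0.le (r0.le.trans rX)
    have r2 := pow_le_pow_left₀ r0.le rX 2
    have u2 := Z.u1.trans (pow_le_pow_of_le_one r0.le r1 (show 2 ≤ 3 by norm_num))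
    have g0 := abs_nonneg ((p.gst P t).G k)
    rw [hd, g1] at q2 q4
    rw [hd] at w1
    refine ⟨?_, c3_fin t0 L3 hL (τe ▸ τ0) (τe ▸ τ1.trans βL) c1 CL (w4 _ (fd_lo p t (Nat.zero_le _)))
      (by rw [fd_succ p t k0]; exact fs.trans Z.om)
      (q1.trans (mul_le_mul_of_nonneg_right BL μ0)) s0.le sX μ0 mt0 Z.xm,
      up q2 (lin_fin L3 (min_le_right _ _) μ0 Γ0 g2 Z.om ?_ g0 Z.u0 Z.u1 Z.lo mt0 r0 r1 sX rX Z.xm)
        (by linarith) (by positivity) (by linarith),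
      ⟨(fs.trans Z.om).trans (mul_le_mul_of_nonneg_right (by linarith) mt0), Z.sv0,
        q1.trans (mul_le_mul_of_nonneg_right (by linarith) μ0),
        w3.trans (mul_le_mul_of_nonneg_right (by linarith) s0.le)⟩, ?_, ?_⟩
    · rcases Z.cas with ⟨a, b⟩ | ⟨a, b⟩
      · exact up (a := 1) q3 (by rw [a, b]; linarith) zero_le_one m0.le (by linarith)
      · refine up (a := Λ ^ 3) (q4 a).1 ?_ (by linarith) m0.le (by linarith)
        have d1 := mul_le_mul_of_nonneg_left (show Gm p P t m x + (|(p.gst P t).G k| +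
          p.bG t / (m + 1)) ≤ 4 * p.r ^ 2 by rw [b, abs_zero]; linarith) (add_nonneg μ0 o0)
        have d2 := mul_le_mul_of_nonneg_left r2 μ0
        have d3 := mul_le_mul_of_nonneg_right Z.xm (r0.le.trans rX)
        have d4 := mul_le_mul Z.om ((pow_le_of_le_one r0.le r1 two_ne_zero).trans rX)
          (sq_nonneg _) (by linarith)
        have d5 := mul_le_mul_of_nonneg_right (show 4 * Λ ^ 2 + 68 ≤ Λ ^ 3 by linarith) m0.le
        rw [mul_assoc (Λ ^ 2), e] at d3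
        rw [mul_assoc, e] at d4
        linarith [(Z.bulk a).1]
    · rcases Z.cas with ⟨a, -⟩ | ⟨-, a⟩ <;> simp [a]
    · rcases lt_or_ge k p.J with h | h
      · obtain ⟨d1, d2, d3, d4⟩ := Z.bulk h
        exact up (a := 15) (q4 h).2 (by linarith) (by norm_num) (sq_nonneg _) (by linarith)
      · have d1 := one_le_pow₀ (n := 2)
          ((Z.top h).trans (mul_le_mul_of_nonneg_left sX (by linarith)))
        have d2 := mul_le_mul (τ1.trans βL) (w2.trans CL) (abs_nonneg _) (by linarith)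
        have d3 := mul_le_mul_of_nonneg_left d1 (show 0 ≤ 2 * Λ ^ 2 by linarith)
        have d4 := mul_le_mul_of_nonneg_right (show 2 * Λ ^ 4 ≤ L by linarith)
          (sq_nonneg (max ((p.gst P t).s k) p.r))
        refine (abs_sub _ _).trans ?_
        rw [abs_one, abs_mul, τe, abs_of_nonneg τ0]
        linarith
    · have d1 := mul_le_mul CL (mul_le_mul_of_nonneg_left g2
        (show 0 ≤ 12 * Λ * (p.gst P t).s k by positivity)) (by positivity) (by linarith)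
      have d2 := mul_le_mul_of_nonneg_right (show 36 * Λ ^ 2 ≤ L by linarith)
        (show 0 ≤ (p.gst P t).s k * p.r ^ 2 by positivity)
      have d3 := mul_le_mul_of_nonneg_right (show Λ ≤ L by linarith)
        (show 0 ≤ 1 / (p.n : ℝ) by positivity)
      linarith [Z.u2]
  refine (sml_up 9 key).mono fun L p H => ⟨?_, ?_, ?_, ?_, ?_⟩ <;>
    intro σ σ' P t a a' Q m X x hx k k0 k1 <;> obtain ⟨h1, h2, h3, h4, h5⟩ :=
      H σ σ' P t a a' Q m X x hx k k0 k1 <;> assumption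

theorem co2 (hβ : 1 < β) : Sml β Co2 := (co5 hβ).mono fun _ _ h => h.1
theorem co3 (hβ : 1 < β) : Sml β Co3 := (co5 hβ).mono fun _ _ h => h.2.1
theorem coL (hβ : 1 < β) : Sml β CoL := (co5 hβ).mono fun _ _ h => h.2.2.1
theorem coF (hβ : 1 < β) : Sml β CoF := (co5 hβ).mono fun _ _ h => h.2.2.2.1
theorem coG (hβ : 1 < β) : Sml β CoG := (co5 hβ).mono fun _ _ h => h.2.2.2.2

/-- **all coefficients** -/
theorem co (hβ : 1 < β) : Sml β Co := (P73.coLo hβ).and (co5 hβ)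

end Crest.Agent.T156.Alt.Co65

end
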