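import Crest.Agent.T156.R1Def_82
import Crest.Agent.T156.R1Cx_77

/-!
# Row 156 (helper6): the root atom of the tested stage (`R77.LoR`)
-/

set_option autoImplicit false
set_option linter.unusedSectionVars false

noncomputable section

namespace Crest.Agent.T156.Alt.R77

open Real Set Filter Topology
open Crest.Agent.T156.Cas Crest.Agent.T156.Cas.C40 Crest.Agent.T156.Alt.Alg77
open Crest.Agent.T156.Alt.CIn12 Crest.Agent.T156.Alt.Md67

/-- crude location of the root atom, with the line of the table -/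
def RootN (Λ : ℝ) (p : Pm) : Prop := ∀ σ σ' P t a a' Q m, Cx p σ σ' P t a a' Q m →
  ∀ x, x = a ∨ x = a' → ∃ l, 0 < l ∧ Λ ^ 6 * (p.n * (p.msG t p.r * (p.jf * p.v * l ^ 2))) ≤
    (p.n : ℝ) ^ ((1 : ℝ) / 6) * p.s ^ 5 ∧ (p.gst P t).E2 m x (fun r => r ^ 2) 0 ≤ (Λ * l) ^ 2

/-- the coefficient at the root atom -/
def C2Lo (Λ : ℝ) (p : Pm) : Prop := ∀ σ σ' P t a a' Q m, Cx p σ σ' P t a a' Q m →
  t * |c2lo (D0 p P t m a) (deriv p.bG t)| ≤ Λ * p.msG t p.r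

namespace Lo6

variable {β c0 C0 c η K : ℝ} {A : ℕ} {p : Pm} (H : Reg β c0 C0 A c η K p) {t l : ℝ}
include H

theorem jf_lt (hη : 40 * η ≤ c) (h : 2 * p.ye ≤ p.J * p.v) : p.jf < p.J := by
  have a1 := St56.jf_le H hη
  have a3 := H.r_le_ye
  have a4 := H.r0
  exact_mod_cast lt_of_mul_lt_mul_right (show (p.jf : ℝ) * p.v < p.J * p.v by linarith) H.v0.le

omit H in
theorem z_zero (P : Pl) (t : ℝ) (hj : p.jf < p.J) : (p.gst P t).z 0 = p.z p.jf := by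
  show p.zP P (max 0 p.jf) = _
  rw [Nat.zero_max, Pm.zP, if_pos hj]

theorem z_jf (hj : p.jf < p.J) : p.z p.jf ≤ 2 * C0 * (p.jf * p.v) := by
  have a := (PP3.z_bds H.ok.base _ hj).2
  have b : (1 : ℝ) ≤ p.jf := by exact_mod_cast H.jf_pos
  have := H.v0
  have := H.C01
  nlinarith [mul_le_mul_of_nonneg_left (le_mul_of_one_le_left H.v0.le b) (by linarith : 0 ≤ C0)]

/-- the second moment on the root atom -/
theorem S0_mem {P : Pl} {m : ℕ} {x B : ℝ} (hj : p.jf < p.J) (L : (p.gst P t).Leg x) (x0 : 0 ≤ x)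
    (hB : (p.gst P t).E2 m x (fun r => r ^ 2) 0 ≤ B) :
    0 ≤ S0 (p.gst P t) m x ∧ S0 (p.gst P t) m x ≤ 2 * C0 * (p.jf * p.v) * B := by
  have e := E2_nonneg (M := p.gst P t) (m := m) (a := x) (f := fun r => r ^ 2)
    (fun r _ => sq_nonneg r) 0
  have d := dz_zero (m := m) (a := x) L
  have z := L.z0
  have z1 := z_jf H hj
  rw [← z_zero P t hj] at z1
  rw [S0, d]
  exact ⟨mul_nonneg (by linarith) e, mul_le_mul (by linarith) hB e (by linarith)⟩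

end Lo6

/-- **the root atom** -/
theorem loR_ofN {β : ℝ} (hβ : 1 < β) (h1 : Sml β RootN) (h2 : Sml β C2Lo) : Gain β LoR := by
  refine Sml.gain (Sml.glue' hβ (((h1.and h2).and (legG hβ)).and (GB92.pD β hβ).sml) 2
    (c1 := 1 / 1000) (by norm_num) 1000 ?_)
  intro c0 C0 A c η _ _ _ _
  refine ⟨0, fun p H _ _ hη ⟨⟨⟨g1, g2⟩, gL⟩, _, _, _, gD⟩ σ σ' P t a a' Q m cx => ?_⟩
  have hη' : 1000 * η ≤ c := by exact_mod_cast hη
  have η0 := H.η_pos
  have M := cx.mem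
  have M0 := (Gr29.oct_mem cx.oct).1
  have hj := Lo6.jf_lt H (by linarith) (gD t M).1.1.hY
  have lg := (gL t _ P M (H.μ0_le_muG M0) (H.oct_mu cx.oct').1 cx.pl).1
  have am := H.am0
  have w1 : a' ≤ p.am := cx.win.hi
  have w0 : 0 ≤ a := le_trans (by positivity) cx.win.lo
  have w := cx.win.le
  obtain ⟨l, l0, n, l2⟩ := g1 σ σ' P t a a' Q m cx a (.inl rfl)
  obtain ⟨l', l0', n', l2'⟩ := g1 σ σ' P t a a' Q m cx a' (.inr rfl)
  have c2 := g2 σ σ' P t a a' Q m cx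
  have s := Lo6.S0_mem H hj (Leg_mono lg (by linarith)) w0 l2
  have s' := Lo6.S0_mem H hj (Leg_mono lg (by linarith)) (w0.trans w) l2'
  have C0Λ := H.C0_le
  have nΛ := H.num_le
  have m2 : (m : ℝ) ≤ 2 * p.n := by exact_mod_cast cx.m2
  have t0 := (H.σ0 M).le
  have ms := H.msG0 (H.σ0 M) p.r
  have jv := H.jfv0
  have N0 := H.N0
  have s0 := H.s0
  have Q0 := cx.Q0
  have C1 := H.C01
  generalize (p.n : ℝ) ^ η = Λ at *
  have Λ0 : 0 < Λ := by linarith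
  have key : ∀ {S x : ℝ}, 0 < x → S ≤ 2 * C0 * (p.jf * p.v) * (Λ * x) ^ 2 →
      Λ ^ 6 * (p.n * (p.msG t p.r * (p.jf * p.v * x ^ 2))) ≤ (p.n : ℝ) ^ ((1 : ℝ) / 6) * p.s ^ 5 →
      0 ≤ S → m * S * (Λ * p.msG t p.r) ≤ Λ⁻¹ * Bud p Q := fun {S x} x0 h1 h2 S0 => by
    have e1 : m * S * (Λ * p.msG t p.r) ≤
        2 * p.n * (2 * Λ * (p.jf * p.v) * (Λ * x) ^ 2) * (Λ * p.msG t p.r) := by
      gcongr
      exact h1.trans (by gcongr)
    have e2 : (p.n : ℝ) ^ ((1 : ℝ) / 6) * p.s ^ 5 ≤ Bud p Q := by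
      unfold Bud
      gcongr
      exact le_add_of_nonneg_left (by positivity)
    rw [le_inv_mul_iff₀ Λ0]
    refine (mul_le_mul_of_nonneg_left e1 Λ0.le).trans (le_trans ?_ (h2.trans e2))
    have e3 : 4 * Λ ^ 5 ≤ Λ ^ 6 := by
      have : 4 * Λ ^ 5 ≤ Λ * Λ ^ 5 := by gcongr; linarith
      linarith [pow_succ' Λ 5]
    calc _ = 4 * Λ ^ 5 * (p.n * (p.msG t p.r * (p.jf * p.v * x ^ 2))) := by ring
      _ ≤ _ := by gcongr
  have k := key l0 s.2 n s.1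
  have k' := key l0' s'.2 n' s'.1
  have e : |S0 (p.gst P t) m a' - S0 (p.gst P t) m a| ≤
      max (S0 (p.gst P t) m a) (S0 (p.gst P t) m a') :=
    abs_le.2 ⟨by linarith [le_max_left (S0 (p.gst P t) m a) (S0 (p.gst P t) m a')],
      by linarith [le_max_right (S0 (p.gst P t) m a) (S0 (p.gst P t) m a')]⟩
  calc t * (m * |c2lo (D0 p P t m a) (deriv p.bG t) * (S0 (p.gst P t) m a' - S0 (p.gst P t) m a)|)
      = m * |S0 (p.gst P t) m a' - S0 (p.gst P t) m a| *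
          (t * |c2lo (D0 p P t m a) (deriv p.bG t)|) := by rw [abs_mul]; ring
    _ ≤ m * max (S0 (p.gst P t) m a) (S0 (p.gst P t) m a') * (Λ * p.msG t p.r) := by
        gcongr
        exact mul_nonneg m.cast_nonneg (le_max_of_le_left s.1)
    _ ≤ _ := by
        rcases le_total (S0 (p.gst P t) m a) (S0 (p.gst P t) m a') with h | h
        · rwa [max_eq_right h]
        · rwa [max_eq_left h]

end Crest.Agent.T156.Alt.R77

namespace Crest.Agent.T156.Alt.R82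

open Real Set Filter Topology
open Crest.Agent.T156.Alt.R77 Crest.Agent.T156.Alt.Md67

/-- a second moment from the sixteenth -/
theorem sq_of_16 {M : Md} {m k : ℕ} {a B : ℝ} (hB : 0 < B)
    (h : M.E2 m a (fun R => R ^ 16) k ≤ B ^ 16) : M.E2 m a (fun R => R ^ 2) k ≤ 2 * B ^ 2 := by
  have e : ∀ r : ℝ, |r| ≤ 1 → r ^ 2 ≤ B ^ 2 + (B ^ 14)⁻¹ * r ^ 16 := fun r _ => by
    have p : 0 ≤ (B ^ 14)⁻¹ * r ^ 16 := by positivity
    rcases le_total (r ^ 2) (B ^ 2) with g | g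
    · linarith
    · have g7 : (B ^ 2) ^ 7 ≤ (r ^ 2) ^ 7 := pow_le_pow_left₀ (sq_nonneg _) g 7
      have : r ^ 2 ≤ (B ^ 14)⁻¹ * r ^ 16 := by
        rw [le_inv_mul_iff₀ (by positivity)]
        calc B ^ 14 * r ^ 2 = (B ^ 2) ^ 7 * r ^ 2 := by ring
          _ ≤ (r ^ 2) ^ 7 * r ^ 2 := mul_le_mul_of_nonneg_right g7 (sq_nonneg _)
          _ = r ^ 16 := by ring
      linarith [sq_nonneg B]
  refine (E2_mono e k).trans ?_
  rw [E2_add (fun _ => B ^ 2) (fun r => (B ^ 14)⁻¹ * r ^ 16), E2_const,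
    E2_mul _ (fun r => r ^ 16)]
  have : (B ^ 14)⁻¹ * M.E2 m a (fun r => r ^ 16) k ≤ B ^ 2 := by
    rw [inv_mul_le_iff₀ (by positivity)]
    exact h.trans_eq (by ring)
  linarith

theorem ScG.inn {E t σ σ' a a' Q x : ℝ} {p : Pm} {P : Pl} {S : Sc} {m : ℕ} (h : ScG E p P t S)
    (c : Cx p σ σ' P t a a' Q m) (h1 : a ≤ x) (h2 : x ≤ a') : S.In m x :=
  ⟨h.n ▸ c.m1, h.n ▸ c.m2, h.n ▸ c.win.lo.trans h1, h.am ▸ h2.trans c.win.hi⟩

theorem rootN_kit {β : ℝ} (hβ : 1 < β) (hK : Sml β Kit) : Sml β RootN := by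
  refine Sml.glue' hβ (hK.and (fxS hβ)) 2 one_pos 40 ?_
  intro c0 C0 A c η _ _ _ _
  refine ⟨0, fun p H _ _ _ ⟨g, gF⟩ σ σ' P t a a' Q m cx x hx => ?_⟩
  have F := gF σ σ' P t a a' Q m cx
  obtain ⟨S, l, Φ, Pf, l0, Λ₀, Pt, u1, V4, sc, nr, hb⟩ := g σ t P cx.oct' cx.pl
  have w := cx.win.le
  obtain ⟨G, bk⟩ := hb m x (sc.inn cx (by rcases hx with h | h <;> linarith)
    (by rcases hx with h | h <;> linarith))
  have lo := bk.low 0 (Nat.zero_le _)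
  have zj := Lo6.z_jf H F.jJ
  rw [Lo6.z_zero P t F.jJ] at lo
  have na := nr.a
  rw [sc.ms, ← nr.l3] at na
  have r0 := H.r0
  have rl : p.r ≤ l := nr.r0.trans nr.l0l
  have jr := F.jr
  have jv := H.jfv0
  have mm := H.msG_mono F.t0 nr.r0
  have ms := H.msG0 F.t0 p.r
  have C0Λ := H.C0_le
  have nΛ := H.num_le
  have C1 := H.C01
  have N0 := H.N0
  have s0 := H.s0
  have e5 : (p.n : ℝ) * n5 p = (p.n : ℝ) ^ ((1 : ℝ) / 6) * p.s ^ 5 := by
    rw [n5, ← mul_assoc, ← rpow_one_add' N0.le (by norm_num)]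
    norm_num
  have n50 : 0 < n5 p := by unfold n5; positivity
  generalize (p.n : ℝ) ^ η = Λ at *
  have Λ0 : 0 < Λ := by linarith
  have l0' : 0 < l := by linarith
  have mx : max (p.z p.jf) l ≤ 2 * Λ * l := max_le (zj.trans (by gcongr; linarith)) (by nlinarith)
  have m0 : 0 < max (p.z p.jf) l := lt_max_of_lt_right l0'
  refine ⟨Λ ^ 2 * l, by positivity, ?_, (sq_of_16 (by positivity) lo).trans ?_⟩
  · have a1 : p.msG t p.r * (p.jf * p.v * l ^ 2) ≤ 1 / Λ ^ 200 * n5 p :=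
      le_trans (by
        calc p.msG t p.r * (p.jf * p.v * l ^ 2) ≤ p.msG t l0 * (l * l ^ 2) := by
              gcongr
              · linarith
              · linarith
          _ = _ := by ring) na
    have a2 : Λ ^ 10 ≤ Λ ^ 200 := pow_le_pow_right₀ (by linarith) (by norm_num)
    calc _ = Λ ^ 10 * p.n * (p.msG t p.r * (p.jf * p.v * l ^ 2)) := by ring
      _ ≤ Λ ^ 200 * p.n * (1 / Λ ^ 200 * n5 p) := by gcongr
      _ = p.n * n5 p := by field_simp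
      _ = _ := e5
  · calc 2 * (Λ * max (p.z p.jf) l) ^ 2 ≤ 2 * (Λ * (2 * Λ * l)) ^ 2 := by gcongr
      _ = 8 * (Λ * Λ * l) ^ 2 := by ring
      _ ≤ Λ ^ 2 * (Λ * Λ * l) ^ 2 := by gcongr; nlinarith
      _ = _ := by ring

theorem c2Lo_co {β : ℝ} (hβ : 1 < β) (h : Sml β CoLo) : Sml β C2Lo := by
  refine Sml.glue' hβ h 2 one_pos 1 ?_
  intro c0 C0 A c η _ _ _ _
  refine ⟨0, fun p H _ _ _ g σ σ' P t a a' Q m cx => (g σ σ' P t a a' Q m cx).trans ?_⟩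
  exact mul_le_mul_of_nonneg_left (H.msG_mono (H.σ0 cx.mem) H.r0.le) H.Λ0.le

/-- **the root atom** -/
theorem from_LoR : From LoR := fun _ hβ hC hK =>
  loR_ofN hβ (rootN_kit hβ hK) (c2Lo_co hβ (hC.mono fun _ _ h => h.1))

end Crest.Agent.T156.Alt.R82

end
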