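import Crest.Agent.T156.R1SDB_56
import Crest.Agent.T156.R1Def_82
import Crest.Agent.T156.R1Cx_77

/-!
# Row 156, R1: the common frame of the SD budgets (helper56)
-/

set_option autoImplicit false
set_option linter.unusedSectionVars false

noncomputable section

namespace Crest.Agent.T156.Alt.SD56

open Real Finset
open Crest.Agent.T156.Alt.Md67 Crest.Agent.T156.Alt.R62 Crest.Agent.T156.Alt.R77
open Crest.Agent.T156.Alt.R82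

/-- `n^{-5/6} s²` -/
def n2 (p : Pm) : ℝ := (p.n : ℝ) ^ (-(5 : ℝ) / 6) * p.s ^ 2

/-- **the frame**: window, kit, number of blocks -/
structure Fr (E : ℝ) (p : Pm) (P : Pl) (t a a' Q : ℝ) (m : ℕ) (S : Sc) (l Φ : ℝ) (Pf : ℝ → ℝ)
    (l0 Λ₀ Pt u1 V4 : ℝ) (I : ℕ) : Prop where
  fx : Fx E p P t a a' Q m
  W : Wn (p.gst P t) m a a' Q
  sc : ScG E p P t S
  nr : NR E (1 / E ^ 200) p S (p.gst P t) l Φ Pf l0 Λ₀ Pt u1 V4
  bk : ∀ x ∈ Set.Icc a a', ∃ G, BK E S (p.gst P t) m x l Φ Pf l0 Λ₀ Pt u1 V4 G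
  hI : T0 S (p.gst P t) ≤ l0 * 2 ^ I
  I1 : (I : ℝ) + 1 ≤ E ^ 2
  E1 : 1000 ≤ E
  n0 : (0 : ℝ) < p.n
  m2 : (m : ℝ) ≤ 2 * p.n
  s1 : 1 ≤ p.s
  r0 : 0 < p.r
  ry : p.r ≤ p.ye
  y1 : p.ye ≤ 1
  th : S.θ = p.muG t

/-- the frame at every context -/
def FrG (E : ℝ) (p : Pm) : Prop := ∀ σ σ' P t a a' Q m, Cx p σ σ' P t a a' Q m →
  ∃ S l Φ Pf l0 Λ₀ Pt u1 V4 I, Fr E p P t a a' Q m S l Φ Pf l0 Λ₀ Pt u1 V4 I

theorem frS {β : ℝ} (hβ : 1 < β) (hK : Sml β Kit) : Sml β FrG := by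
  refine Sml.glue' hβ (hK.and (fxS hβ)) 2 one_pos 1 ?_
  intro c0 C0 A c η _ _ _ _
  refine ⟨1000, fun p H _ _ _ ⟨K, F⟩ σ σ' P t a a' Q m x => ?_⟩
  obtain ⟨S, l, Φ, Pf, l0, Λ₀, Pt, u1, V4, sc, nr, bk⟩ := K σ t P x.oct' x.pl
  have f := F σ σ' P t a a' Q m x
  have N1 := H.N1
  have E1 : (1000 : ℝ) ≤ (p.n : ℝ) ^ η := H.K_le
  have En : (p.n : ℝ) ^ η ≤ p.n := by
    simpa using rpow_le_rpow_of_exponent_le N1.le (show η ≤ 1 by linarith [H.η_le, H.c_le])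
  refine ⟨S, l, Φ, Pf, l0, Λ₀, Pt, u1, V4, 2 * (Nat.log 2 p.n + 1), f,
    ⟨Leg_mono f.leg (by linarith [f.a1, f.am0]), f.m0, f.a0.le, f.aa, x.Q0, f.W⟩, sc, nr,
    fun y hy => bk m y ⟨sc.n ▸ x.m1, sc.n ▸ x.m2, sc.n ▸ x.win.lo.trans hy.1,
      sc.am ▸ hy.2.trans f.a1⟩, ?_, ?_, E1, H.N0, by exact_mod_cast x.m2, H.ok.s1, H.r0,
    H.r_le_ye, H.ye1, by rw [Sc.θ, sc.ms, H.msG_hi t H.ye1]⟩
  · have a1 : (p.n : ℝ) ≤ 2 ^ (Nat.log 2 p.n + 1) := by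
      exact_mod_cast (Nat.lt_pow_succ_log_self one_lt_two p.n).le
    have a2 : (p.n : ℝ)⁻¹ ≤ l0 := by
      refine le_trans ?_ nr.r0
      rw [← rpow_neg_one, Pm.r]
      exact (rpow_le_rpow_of_exponent_le N1.le (by linarith [H.c_pos, H.hc])).trans
        (le_mul_of_one_le_left (H.rp0 _).le H.ok.s1)
    have a3 := (sc.cl.s_le_C sc.cl.i3).trans sc.C
    calc T0 S (p.gst P t) ≤ (p.n : ℝ)⁻¹ * (p.n : ℝ) ^ 2 := by
          rw [T0, show (p.n : ℝ)⁻¹ * (p.n : ℝ) ^ 2 = p.n by field_simp]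
          linarith
      _ ≤ _ := by
          rw [pow_mul']
          have := (inv_pos.2 H.N0).le.trans a2
          gcongr
  · have a1 : (2 : ℝ) ^ Nat.log 2 p.n ≤ p.n := by
      exact_mod_cast Nat.pow_log_le_self 2 H.n0.ne'
    have a2 := log_le_log (by positivity) a1
    rw [log_pow] at a2
    have a3 : (Nat.log 2 p.n : ℝ) * (1 / 2) ≤ Nat.log 2 p.n * log 2 :=
      mul_le_mul_of_nonneg_left (by linarith [log_two_gt_d9]) (Nat.cast_nonneg _)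
    push_cast
    nlinarith [H.log_le]

namespace Fr

variable {E t a a' Q l Φ l0 Λ₀ Pt u1 V4 : ℝ} {p : Pm} {P : Pl} {m I : ℕ} {S : Sc} {Pf : ℝ → ℝ}
  (F : Fr E p P t a a' Q m S l Φ Pf l0 Λ₀ Pt u1 V4 I)
include F

theorem cl : Cl S (p.gst P t) := F.sc.cl
theorem E0 : 0 < E := by linarith [F.E1]
theorem E1' : 1 ≤ E := by linarith [F.E1]
theorem l00 : 0 < l0 := F.r0.trans_le F.nr.r0
theorem l0' : 0 < l := F.l00.trans_le F.nr.l0l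
theorem n20 : 0 < n2 p := by have := F.n0; have := F.s1; unfold n2; positivity
theorem n50 : 0 < n5 p := by have := F.n0; have := F.s1; unfold n5; positivity
theorem n40 : 0 < n4 p := by have := F.n0; have := F.s1; unfold n4; positivity
theorem θ0 : 0 < S.θ := F.cl.θ0
theorem fn : C33.Fn S (p.gst P t) m a := (F.bk a F.W.lo).elim fun _ K => K.fn
theorem θ1 : S.θ ≤ 1 := F.fn.ms_le_one 1
theorem rt : √(I + 1) ≤ E := sqrt_le_iff.2 ⟨F.E0.le, F.I1⟩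

theorem n2_sq : n2 p ^ 2 = n4 p / p.n := by
  have := F.n0
  rw [n2, n4, mul_pow, ← rpow_natCast, ← rpow_mul this.le, ← pow_mul, mul_div_right_comm,
    ← rpow_sub_one this.ne']
  norm_num

theorem up_eq : Ico (p.jf + 1) (p.gst P t).N = Ioo S.jl (p.gst P t).N := by
  rw [F.sc.jl]; rfl

theorem w3_eq (τ : ℝ) : S.w3 τ = 1 / (p.n * τ * S.ms τ) := by rw [Sc.w3, F.sc.F, F.sc.n]

theorem w3_one : S.w3 1 = 1 / (p.n * S.θ) := by rw [F.w3_eq, mul_one]; rfl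

theorem T0_ge : 1 ≤ 48 * E ^ 4 * T0 S (p.gst P t) := by
  have a1 := F.fn.J_lo
  have a2 := (F.fn.s_mem le_rfl).1
  have C0 := F.cl.C0
  have s0 := F.cl.s_nn S.J
  have a3 : S.C ^ 4 ≤ E ^ 4 := pow_le_pow_left₀ C0.le F.sc.C 4
  have a4 := mul_le_mul_of_nonneg_left a2 (show 0 ≤ 3 * S.C ^ 3 by positivity)
  have a5 := mul_le_mul_of_nonneg_right a3 s0
  unfold T0
  nlinarith

/-- mass on a block -/
theorem ms_blk {τ : ℝ} (h : l0 ≤ τ) {k : ℕ} (hk : k ∈ sb S (p.gst P t) τ (2 * τ)) :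
    S.ms ((p.gst P t).s k) ≤ 4 * S.ms τ :=
  (F.cl.msm (mem_sb.1 hk).2.2).trans (F.cl.ms2 τ (F.l00.le.trans h))

theorem ms_low {k : ℕ} (hk : k ∈ lz S (p.gst P t) l0) : S.ms ((p.gst P t).s k) ≤ S.ms l0 :=
  F.cl.msm (mem_filter.1 hk).2.le

theorem T0_le {k : ℕ} (hk : k ∈ tz S (p.gst P t) u1 ∪ en S (p.gst P t) u1) :
    T0 S (p.gst P t) ≤ (p.gst P t).s k := by
  have a : ∀ k, S.J ≤ k → T0 S (p.gst P t) ≤ (p.gst P t).s k := fun k h => by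
    have := F.cl.sm h
    have := F.cl.s_nn S.J
    unfold T0
    linarith
  rcases mem_union.1 hk with e | e
  · rcases mem_union.1 e with e | e
    exacts [(mem_sb.1 e).2.1, a k (mem_pl.1 e).1.1]
  · exact a k (mem_Ico.1 (mem_sdiff.1 e).1).1

theorem rng_lz {k : ℕ} (hk : k ∈ lz S (p.gst P t) l0) : p.jf < k ∧ k ≤ p.Jp P := by
  have := mem_Ioo.1 (mem_filter.1 hk).1
  have := F.cl.i3
  rw [← F.sc.jl, ← F.sc.Jp]
  omega

theorem rng_sb {τ τ' : ℝ} {k : ℕ} (hk : k ∈ sb S (p.gst P t) τ τ') : p.jf < k ∧ k ≤ p.Jp P := by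
  have := (mem_sb.1 hk).1
  have := F.cl.i3
  rw [← F.sc.jl, ← F.sc.Jp]
  omega

theorem rng_top {k : ℕ} (hk : k ∈ tz S (p.gst P t) u1 ∪ en S (p.gst P t) u1) : p.jf < k := by
  have := F.cl.jl_lt
  rw [← F.sc.jl]
  rcases mem_union.1 hk with e | e
  · exact (mem_Ioo.1 (tz_sub F.cl e)).1
  · have := (mem_Ico.1 (mem_sdiff.1 e).1).1
    omega

/-- **a profile from a node-wise bound** `|c k| ≤ B (s k)` -/
theorem pf_of {c : ℕ → ℝ} {B A : ℝ → ℝ} {Al At : ℝ}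
    (hc : ∀ k, p.jf < k → k ≤ p.Jp P → |c k| ≤ B ((p.gst P t).s k))
    (h1 : ∀ y, 0 ≤ y → y ≤ l0 → B y ≤ Al) (h2 : ∀ τ y, l0 ≤ τ → τ ≤ y → y ≤ 2 * τ → B y ≤ A τ)
    (h3 : ∀ y, T0 S (p.gst P t) ≤ y → B y ≤ At) (Al0 : 0 ≤ Al) (A0 : ∀ τ, 0 ≤ A τ) (At0 : 0 ≤ At) :
    SD56.Pf S (p.gst P t) l0 u1 c Al A At :=
  ⟨fun k hk => (hc k (F.rng_lz hk).1 (F.rng_lz hk).2).trans
      (h1 _ (F.cl.s_nn k) (mem_filter.1 hk).2.le),
    fun τ h _ k hk => (hc k (F.rng_sb hk).1 (F.rng_sb hk).2).trans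
      (h2 τ _ h (mem_sb.1 hk).2.1 (mem_sb.1 hk).2.2),
    fun k hk h => (hc k (F.rng_top hk) (F.sc.Jp ▸ h)).trans (h3 _ (F.T0_le hk)), Al0, A0, At0⟩

theorem mkk (x : ℝ) (hx : x ∈ Set.Icc a a') :
    ∃ G, MK S (p.gst P t) 8 E m x l Φ Pf l0 Λ₀ Pt u1 V4 G := (F.bk x hx).imp fun _ K => K.mk'

theorem pk (x : ℝ) (hx : x ∈ Set.Icc a a') : PK S (p.gst P t) E m x l l0 Λ₀ u1 ∧
    ∃ G, MK S (p.gst P t) 8 E m x l Φ Pf l0 Λ₀ Pt u1 V4 G :=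
  ⟨(F.bk x hx).elim fun _ K => ⟨K.pfb, K.pft⟩, F.mkk x hx⟩

/-- **the budget**: `x ≤ α (Q n2 + n5)`, `α ≤ E^{190} δ` -/
theorem bud {x α : ℝ} (hx : x ≤ α * (1 / E ^ 200) * (Q * n2 p + n5 p)) (hα : α ≤ E ^ 190) :
    m * x ≤ E⁻¹ * Bud p Q := by
  have E0 := F.E0
  have n0 := F.n0
  have Q0 := F.W.Q0
  have a2 := F.n20
  have a5 := F.n50
  have e : (p.n : ℝ) * (Q * n2 p + n5 p) = Bud p Q := by
    have : (p.n : ℝ) * (p.n : ℝ) ^ (-(5 : ℝ) / 6) = (p.n : ℝ) ^ ((1 : ℝ) / 6) := by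
      rw [mul_comm, ← rpow_add_one n0.ne']; norm_num
    rw [Bud, ← this, n2, n5]; ring
  have b : 2 * (E ^ 190 * (1 / E ^ 200)) ≤ E⁻¹ := by
    rw [show 2 * (E ^ 190 * (1 / E ^ 200)) = 2 / E ^ 9 * E⁻¹ by field_simp]
    refine mul_le_of_le_one_left (by positivity) ((div_le_one (by positivity)).2 ?_)
    exact le_trans (by linarith [F.E1]) (le_self_pow₀ F.E1' (by norm_num))
  calc m * x ≤ 2 * p.n * (E ^ 190 * (1 / E ^ 200) * (Q * n2 p + n5 p)) := by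
        refine (mul_le_mul_of_nonneg_left (hx.trans ?_) m.cast_nonneg).trans
          (mul_le_mul_of_nonneg_right F.m2 (by positivity))
        gcongr
    _ = 2 * (E ^ 190 * (1 / E ^ 200)) * Bud p Q := by rw [← e]; ring
    _ ≤ _ := mul_le_mul_of_nonneg_right b (Bud_nonneg (by linarith [F.s1]) Q0)

/-- `t |I (c Δ)| = |Da (t c ..)|` -/
theorem t_Da (T : Finset ℕ) (c : ℕ → ℝ) (X : ℝ → ℕ → ℝ) :
    t * (m * |Da (p.gst P t) m a a' T fun s k => c k * X s k|) =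
      m * |Da (p.gst P t) m a a' T fun s k => t * c k * X s k| := by
  rw [mul_left_comm, ← abs_of_pos F.fx.t0, ← abs_mul, abs_of_pos F.fx.t0]
  simp only [Da, mul_sub, mul_sum]
  congr 3 <;> exact sum_congr rfl fun k _ => by ring

end Fr

end Crest.Agent.T156.Alt.SD56

end
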