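import Crest.Agent.T156.R1LwA_76
import Crest.Agent.T156.R1Fr_56

/-!
# Row 156, R1 (helper76): the low words `LwR` from root moments and two location numbers
-/

set_option autoImplicit false
set_option linter.unusedSectionVars false

noncomputable section

namespace Crest.Agent.T156.Alt.R77

open Real Finset Filter Topology
open Crest.Agent.T156.Cas Crest.Agent.T156.Cas.C40 Crest.Agent.T156.Alt.Alg77
open Crest.Agent.T156.Alt.CIn12 Crest.Agent.T156.Alt.Md67 Crest.Agent.T156.Cas.C40.Lw76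

namespace Lw76

variable {M : Md} {m J : ℕ} {a x X τ0 : ℝ} {ρ : ℕ → ℝ} {W : Option (ℕ → ℝ)} {E : CIn12.Ev}

theorem lt_cd (h : Cut M x J) (G : Lg M m a) (hρ : Rf M ρ) (hτ : tp M m M.N ≤ τ0) :
    Lt (cd M m a ρ J W E) τ0 where
  ook := (rf_cq hρ J).ook h.leg
  mono := G.monoL
  cut := by rw [cd_K, cd_J]; exact Nat.lt_succ_of_le h.JN
  top := by rw [cd_K, cd_dx]; exact dz_last h.leg h.top
  tau := by rw [cd_K, cd_tau m a ρ W E le_rfl]; exact hτ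

theorem Sa_cd (h : Cut M x J) (i : ℕ) :
    Sa (cd M m a ρ J W E) i = M.dz m a 0 * M.E2 m a (fun r => |r| ^ i) 0 := by
  rw [Sa, h.sum_low]; rfl

theorem Sa_two (h : Cut M x J) : Sa (cd M m a ρ J W E) 2 = S0 M m a := by
  rw [Sa_cd h, S0]; simp only [sq_abs]

theorem mom_low (hX : 0 < X) {k : ℕ} (H : M.E2 m a (fun r => r ^ 4) k ≤ X ^ 4) :
    M.E2 m a (fun r => |r| ^ 2) k ≤ X ^ 2 ∧ M.E2 m a (fun r => |r| ^ 3) k ≤ X ^ 3 ∧
      M.E2 m a (fun r => |r| ^ 4) k ≤ X ^ 4 := by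
  have e : ∀ r : ℝ, r ^ 4 = |r| ^ 4 := fun r => ((by decide : Even 4).pow_abs r).symm
  have k2 := E2_mono (M := M) (m := m) (a := a) (f := fun r => 2 * X ^ 2 * |r| ^ 2)
    (g := fun r => X ^ 4 + r ^ 4) (fun r _ => by
      rw [e r]; nlinarith [sq_nonneg (|r| ^ 2 - X ^ 2)]) k
  have k3 := E2_mono (M := M) (m := m) (a := a) (f := fun r => 4 * X * |r| ^ 3)
    (g := fun r => X ^ 4 + 3 * r ^ 4) (fun r _ => by
      rw [e r]
      nlinarith [mul_nonneg (sq_nonneg (|r| - X)) (show 0 ≤ 3 * |r| ^ 2 + 2 * |r| * X + X ^ 2 by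
        positivity)]) k
  rw [E2_mul, E2_add, E2_const] at k2
  rw [E2_mul, E2_add, E2_const, E2_mul] at k3
  refine ⟨le_of_mul_le_mul_left (a := 2 * X ^ 2) (by linarith) (by positivity),
    le_of_mul_le_mul_left (a := 4 * X) (by linarith) (by positivity), by simpa only [← e] using H⟩

/-- **the low words on a cut above the root atom** -/
theorem abs_lw_cd (h : Cut M x J) (G : Lg M m a) (hρ : Rf M ρ) (hτ : tp M m M.N ≤ τ0)
    (hW : W.isSome = true) (hX : 0 < X) (hz : M.z 0 ≤ X) (H : M.E2 m a (fun r => r ^ 4) 0 ≤ X ^ 4)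
    (D : CD) (hD : D = cd M m a ρ J W E) : |lw D| ≤ 2 * 10 ^ 6 * (1 + τ0) ^ 4 * (D.wt * X ^ 5 +
      X ^ 3 * (D.wt * D.I (fun j => |D.del j|) + D.Iw fun j => |D.del j|)) := by
  have L : Lt D τ0 := hD ▸ lt_cd h G hρ hτ
  obtain ⟨m2, m3, m4⟩ := mom_low hX H
  have z1 : M.dz m a 0 ≤ X := by rw [dz_zero h.leg]; linarith [G.a0]
  have s : ∀ i, M.E2 m a (fun r => |r| ^ i) 0 ≤ X ^ i → Sa D i ≤ X ^ (i + 1) := fun i e => by
    rw [hD, Sa_cd h, pow_succ']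
    exact mul_le_mul z1 e (E2_nonneg (fun _ _ => by positivity) _) hX.le
  have x1 : T157.Casc.ex D.B D.J ≤ X := by
    obtain ⟨k, rfl⟩ := Nat.exists_eq_add_of_le' h.J0
    have : ∀ i ≤ k, M.z i = M.z 0 := fun i hi => by
      induction i with
      | zero => rfl
      | succ i ih => exact (h.low (i + 1) (by omega) (by omega)).trans (ih (by omega))
    rw [hD]
    exact ((ex_succ (m := m) (a := a) h.leg k).trans (this k le_rfl)).trans_le hz
  have t0 := L.tau0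
  have w0 := D.wt0
  have B0 := add_nonneg (mul_nonneg w0 (L.I0 fun j _ => abs_nonneg (D.del j)))
    (D.Iw0 fun j _ => abs_nonneg (D.del j))
  have a1 := mul_le_mul x1 (s 3 m3) (L.Sa0 3) hX.le
  have a2 := mul_le_mul_of_nonneg_left (add_le_add a1 (s 4 m4)) w0
  have a3 := mul_le_mul_of_nonneg_right (s 2 m2) B0
  have a4 := mul_nonneg (pow_nonneg hX.le 3) B0
  simp only [Nat.reduceAdd] at a2 a3
  refine (L.abs_lw (hD ▸ (cd_some ..).trans hW)).trans ?_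
  calc _ ≤ 10 ^ 6 * (1 + τ0) ^ 4 * (2 * (D.wt * X ^ 5 +
      X ^ 3 * (D.wt * D.I (fun j => |D.del j|) + D.Iw fun j => |D.del j|))) :=
        mul_le_mul_of_nonneg_left (by linarith) (by positivity)
    _ = _ := by ring

end Lw76

/-- the input: root moments and two location numbers -/
def LwIn (δ : ℝ) (p : Pm) : Prop := ∀ σ σ' P t a a' Q m, Cx p σ σ' P t a a' Q m →
  ∀ x, x = a ∨ x = a' → Rf (p.gst P t) (p.gst P t).q ∧ ∃ X N a1 : ℝ, 0 < X ∧ p.z p.jf ≤ X ∧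
    (p.gst P t).E2 m x (fun r => r ^ 4) 0 ≤ X ^ 4 ∧
    ∑ k ∈ Ico (p.jf + 1) (p.NP P), (p.gst P t).dz m x k * |(p.gst P t).del m x k| ≤ N ∧
    t * ∑ k ∈ Ico (p.jf + 1) (p.NP P),
      (p.gst P t).dz m x k * (|sv p t k| * |(p.gst P t).del m x k|) ≤ a1 ∧
    p.muG t * X ^ 5 + X ^ 3 * (p.muG t * N + a1) ≤ δ * ((p.n : ℝ) ^ (-(5 : ℝ) / 6) * p.s ^ 5)

theorem mo_LwIn : Mo fun δ p => 0 ≤ p.s → LwIn δ p :=
  fun _ _ _ _ h H hs σ σ' P t a a' Q m c x hx => by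
    obtain ⟨r, X, N, a1, b1, b2, b3, b4, b5, b6⟩ := H hs σ σ' P t a a' Q m c x hx
    exact ⟨r, X, N, a1, b1, b2, b3, b4, b5, b6.trans
      (mul_le_mul_of_nonneg_right h (by positivity))⟩

/-- **the low words** -/
theorem lwR_of {β : ℝ} (hβ : 1 < β) (h : Gain β LwIn) : Gain β LwR := by
  refine Sml.gain (Sml.glue' hβ (((h.mono fun _ p _ _ H (_ : 0 ≤ p.s) => H).sml 3 mo_LwIn).and
    (fxS hβ)) 2 one_pos 1 ?_)
  intro c0 C0 A c η _ _ _ _
  refine ⟨8 * 10 ^ 6 * (1 + β ^ 2) ^ 4, fun p H _ _ _ ⟨g, f⟩ σ σ' P t a a' Q m cx => ?_⟩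
  have F := f σ σ' P t a a' Q m cx
  have L1 := H.Λ1
  have L0 := H.Λ0
  have hK := H.K_le
  have s0 := H.s0
  have N0 := H.N0
  have t0 := F.t0
  have mu := (H.muG0 t0).le
  set Λ := (p.n : ℝ) ^ η with hΛ
  set B := (p.n : ℝ) ^ (-(5 : ℝ) / 6) * p.s ^ 5 with hB
  have B0 : 0 ≤ B := by positivity
  have key : ∀ x, x = a ∨ x = a' → t * |lw (D0 p P t m x)| ≤
      2 * 10 ^ 6 * (1 + β ^ 2) ^ 4 * (Λ * (Λ⁻¹ ^ 3 * B)) := fun x hx => by
    obtain ⟨r, X, N, a1, b1, b2, b3, b4, b5, b6⟩ := g s0.le σ σ' P t a a' Q m cx x hx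
    have G : Lg (p.gst P t) m x := by
      rcases hx with rfl | rfl
      exacts [F.lga, F.lga']
    have z0 : (p.gst P t).z 0 ≤ X := by
      refine le_trans (le_of_eq ?_) b2
      simp only [Pm.gst, Pm.famO, max_eq_right (Nat.zero_le p.jf), Pm.zP, if_pos F.jJ]
    have e := Lw76.abs_lw_cd (E := E0) F.cut G r (H.hβ ▸ (F.tp_le _).2) rfl b1 z0 b3
      (D0 p P t m x) rfl
    have w := F.wt x E0
    have d : ∀ k ∈ Ico (p.jf + 1) (p.NP P), (D0 p P t m x).del (k + 1) = (p.gst P t).del m x k :=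
      fun k hk => cd_del m x _ _ E0 (mem_Ico.1 hk).1 (mem_Ico.1 hk).2
    have i1 : (D0 p P t m x).I (fun j => |(D0 p P t m x).del j|) ≤ N := by
      rw [cd_I]
      exact (sum_congr rfl fun k hk => by rw [d k hk]).trans_le b4
    have i2 : t * (D0 p P t m x).Iw (fun j => |(D0 p P t m x).del j|) ≤ a1 := by
      rw [F.Iw_eq]
      exact (congrArg _ (sum_congr rfl fun k hk => by rw [d k hk])).trans_le b5
    have i0 : 0 ≤ (D0 p P t m x).I (fun j => |(D0 p P t m x).del j|) :=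
      (Lw76.lt_cd F.cut G r (F.tp_le _).2).I0 fun j _ => abs_nonneg _
    have i3 : 0 ≤ a1 := (mul_nonneg t0.le (CD.Iw0 _ fun j _ => abs_nonneg _)).trans i2
    have j1 := mul_le_mul_of_nonneg_right w (pow_nonneg b1.le 5)
    have j2 := mul_le_mul_of_nonneg_left (add_le_add (mul_le_mul w i1 i0 (by positivity))
      (i2.trans (le_mul_of_one_le_left i3 L1))) (pow_nonneg b1.le 3)
    have j3 := mul_le_mul_of_nonneg_left b6 L0.le
    rw [← hB] at j3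
    refine (mul_le_mul_of_nonneg_left e t0.le).trans ?_
    rw [mul_left_comm t]
    exact mul_le_mul_of_nonneg_left (by linarith) (by positivity)
  have k1 := key a (.inl rfl)
  have k2 := key a' (.inr rfl)
  have k3 := mul_le_mul_of_nonneg_left (abs_sub (lw (D0 p P t m a')) (lw (D0 p P t m a))) t0.le
  have m2 : (m : ℝ) ≤ 2 * p.n := by exact_mod_cast cx.m2
  have e1 : p.n * B = (p.n : ℝ) ^ ((1 : ℝ) / 6) * p.s ^ 5 := by
    rw [hB, ← mul_assoc, mul_comm (p.n : ℝ), ← rpow_add_one N0.ne']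
    norm_num
  have e2 : p.n * B ≤ Bud p Q := by
    have := cx.Q0
    rw [e1, Bud]
    gcongr
    exact le_add_of_nonneg_left (by positivity)
  calc t * (m * |lw (D0 p P t m a') - lw (D0 p P t m a)|)
      = m * (t * |lw (D0 p P t m a') - lw (D0 p P t m a)|) := by ring
    _ ≤ 2 * p.n * (4 * 10 ^ 6 * (1 + β ^ 2) ^ 4 * (Λ * (Λ⁻¹ ^ 3 * B))) :=
        mul_le_mul m2 (by linarith) (by positivity) (by positivity)
    _ = 8 * 10 ^ 6 * (1 + β ^ 2) ^ 4 * (Λ⁻¹ ^ 2 * (p.n * B)) := by field_simp; ring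
    _ ≤ Λ * (Λ⁻¹ ^ 2 * Bud p Q) := by gcongr
    _ = Λ⁻¹ * Bud p Q := by field_simp

/-! ### from the kit -/

namespace Lw76

open SD56 R62 R82

/-- **weighted first moments from the moment kit** -/
theorem loc1 {S : Sc} {M : Md} {m I e : ℕ} {a a' x Q l Φ l0 Λ Λ₀ Pt u1 V4 v Al At : ℝ}
    {P A : ℝ → ℝ} {c G : ℕ → ℝ} (W : Wn M m a a' Q) (h : Cl S M)
    (K : MK S M e Λ m x l Φ P l0 Λ₀ Pt u1 V4 G) (H : Pf S M l0 u1 c Al A At) (l00 : 0 < l0)
    (hI : T0 S M ≤ l0 * 2 ^ I) (he : 1 ≤ e) (v0 : 0 ≤ v)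
    (n1 : ∀ t, l0 ≤ t → t ≤ T0 S M → A t ^ 2 * (S.C ^ 2 * (3 * t) * (Λ * P t)) ≤ v ^ 2)
    (n2 : At ^ 2 * (Λ * Pt) ≤ v ^ 2) :
    ∑ k ∈ Ioo S.jl M.N, M.dz m x k * |c k * M.del m x k| ≤
      4 * ((I + 1) * v) + 4 * (Al * (Λ * l) * (S.C ^ 2 * l0) + At * 2 * (2 * u1)) := by
  have d0 : ∀ k ∈ Ioo S.jl M.N, 0 ≤ M.dz m x k := fun k hk => W.dz0 x (pos_of S M k hk)
  have hF : ∀ k, |M.del m x k| ≤ M.E2 m x (fun R => |R - M.q k| ^ 1) k := fun k => by
    simp only [pow_one]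
    refine le_trans (le_of_eq ?_) (abs_E2_le (fun R => R - M.q k) k)
    rw [E2_sub, E2_const]; rfl
  have cs : ∀ (U : Finset ℕ) (w b : ℝ), U ⊆ Ioo S.jl M.N → ∑ k ∈ U, M.dz m x k ≤ w →
      ∑ k ∈ U, M.dz m x k * G k ^ 2 ≤ b → ∑ k ∈ U, M.dz m x k * G k ≤ √(w * b) :=
    fun U w b hU h1 h2 => by
      have u0 := sum_nonneg fun k hk => d0 k (hU hk)
      refine le_sqrt_of_sq_le ((sum_sq_le_sum_mul_sum_of_sq_le_mul U (fun k hk => d0 k (hU hk))
        (fun k hk => mul_nonneg (d0 k (hU hk)) (sq_nonneg (G k))) fun k _ => le_of_eq (by ring)).trans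
          (mul_le_mul h1 h2 (sum_nonneg fun k hk => mul_nonneg (d0 k (hU hk)) (sq_nonneg _))
            (u0.trans h1)))
  have rt : ∀ y z : ℝ, 0 ≤ y → y ^ 2 * z ≤ v ^ 2 → y ^ 1 * √z ≤ v := fun y z hy e => by
    rw [pow_one, ← sqrt_sq hy, ← sqrt_mul (sq_nonneg y)]
    exact sqrt_le_iff.2 ⟨v0, e⟩
  have b1 := bad K h H l00.le (i := 1) (by omega) hF
  have b2 := H.sum h 1 (g := fun k => M.dz m x k * G k)
    (fun k hk => mul_nonneg (d0 k hk) (K.pos k).le) v0 hI l00.le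
    (fun t h1 h2 => cs _ _ _ (sb_sub h) ((sum_le_sum_of_subset_of_nonneg (t := lz S M (3 * t))
      (fun k hk => mem_filter.2 ⟨mem_Ioo.2 (mem_sb.1 hk).1, by linarith [(mem_sb.1 hk).2.2]⟩)
      fun k hk _ => W.dz0 x (by have := mem_Ioo.1 (mem_filter.1 hk).1; omega)).trans
        (lz_wt h (by linarith))) (K.b2 t h1 h2))
    (cs _ 1 _ (tz_sub h) (W.wt_le x (tz_sub h)) ((sum_le_sum_of_subset_of_nonneg
      (union_subset_union_right fun k hk => by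
        have := (mem_pl.1 hk).1; have := h.i4; exact mem_Ico.2 (by omega))
      fun k hk _ => mul_nonneg (W.dz0 x (by
        have := h.jl_lt
        rcases mem_union.1 hk with e | e
        exacts [by have := (mem_sb.1 e).1; omega, by have := mem_Ico.1 e; omega]))
        (sq_nonneg _)).trans K.t2))
    (fun t h1 h2 => rt _ _ (H.A0 t) (n1 t h1 h2)) (rt _ _ H.At0 (by rwa [one_mul]))
  have b3 : ∑ k ∈ gd S M l0 u1, M.dz m x k * |c k * M.del m x k| ≤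
      4 * ∑ k ∈ gd S M l0 u1, |c k| ^ 1 * (M.dz m x k * G k) := by
    rw [mul_sum]
    refine sum_le_sum fun k hk => ?_
    have := mul_le_mul_of_nonneg_left ((hF k).trans (mom K (i := 1) (by omega) (gd_sub h hk)))
      (mul_nonneg (d0 k (gd_sub h hk)) (abs_nonneg (c k)))
    simp only [Nat.reduceAdd] at this
    rw [abs_mul]
    linarith
  simp only [Nat.reduceAdd] at b1
  rw [← sum_sdiff (gd_sub (l0 := l0) (u1 := u1) h)]
  linarith

variable {E t a a' Q l Φ l0 Λ₀ Pt u1 V4 x : ℝ} {p : Pm} {P : Pl} {m I : ℕ} {S : Sc} {Pf : ℝ → ℝ}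
  (F : Fr E p P t a a' Q m S l Φ Pf l0 Λ₀ Pt u1 V4 I)
include F

theorem l_le : l ≤ p.ye := F.nr.ly.trans (mul_le_of_le_one_left (F.r0.le.trans F.ry)
  ((div_le_one (pow_pos F.E0 _)).2 (one_le_pow₀ F.E1')))

theorem Φ_mem : 0 ≤ Φ ∧ Φ ≤ 1 :=
  F.nr.l3 ▸ ⟨pow_nonneg F.l0'.le 3, pow_le_one₀ F.l0'.le ((l_le F).trans F.y1)⟩

theorem mt_low {y : ℝ} (h : y ≤ l0) : R82.mt p t y * l0 ≤ S.ms l0 := by
  have a := F.nr.l0l.trans (l_le F)
  have b : 0 < max y p.r := lt_max_of_lt_right F.r0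
  rw [R82.mt, F.sc.ms, Pm.msG, Pm.msG, min_eq_left a, min_eq_left (h.trans a),
    max_eq_right F.nr.r0, max_comm p.r, mul_right_comm p.κ, mul_div_cancel_right₀ _ b.ne',
    mul_right_comm p.κ l0]
  exact mul_le_mul_of_nonneg_right (mul_le_mul_of_nonneg_left
    (Gr29.gS_mono F.fx.t0.le (max_le h F.nr.r0)) (rpow_nonneg p.n.cast_nonneg _)) F.l00.le

theorem mt_blk {τ y : ℝ} (h : l0 ≤ τ) (h1 : τ ≤ y) (h2 : y ≤ 2 * τ) :
    R82.mt p t y ≤ 4 * (S.ms τ / τ) := by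
  have t0 := F.l00.trans_le h
  rw [R82.mt, ← F.sc.ms, ← mul_div_assoc]
  exact div_le_div₀ (by have := F.cl.ms_pos t0.le; positivity)
    ((F.cl.msm h2).trans (F.cl.ms2 τ t0.le)) t0 (h1.trans (le_max_left _ _))

theorem mt_top {y : ℝ} (h : T0 S (p.gst P t) ≤ y) : R82.mt p t y ≤ 48 * E ^ 4 * S.θ := by
  have b : 0 < max y p.r := lt_max_of_lt_right F.r0
  have E0 := F.E0
  have a1 : 1 ≤ 48 * E ^ 4 * max y p.r :=
    F.T0_ge.trans (mul_le_mul_of_nonneg_left (h.trans (le_max_left _ _)) (by positivity))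
  rw [R82.mt, ← F.sc.ms, div_le_iff₀ b, mul_right_comm]
  exact (F.cl.ms1 y).trans (le_mul_of_one_le_left F.θ0.le a1)

/-- the lines `n`, `i`, `j`, `c` combined -/
theorem sq_line {y : ℝ} (h : Λ₀ * y ≤ S.θ * ((1 / E ^ 200) ^ 2 * n4 p)) :
    Φ ^ 2 * y ≤ (1 / E ^ 200 * n5 p) ^ 2 := by
  have n0 := F.n0
  have L0 : 0 < Λ₀ := one_pos.trans_le F.nr.L1
  have e : n5 p ^ 2 = n4 p * (p.s ^ 6 / p.n) := by
    have := F.n2_sq
    have e : n5 p = n2 p * p.s ^ 3 := by rw [n5, n2]; ring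
    rw [e, mul_pow, this]; ring
  have a1 := mul_le_mul_of_nonneg_left h (sq_nonneg Φ)
  have a2 := mul_le_mul_of_nonneg_left F.nr.n (mul_nonneg (sq_nonneg (1 / E ^ 200)) F.n40.le)
  refine le_of_mul_le_mul_left ?_ L0
  rw [mul_pow, e]
  calc _ = Φ ^ 2 * (Λ₀ * y) := by ring
    _ ≤ _ := a1
    _ = (1 / E ^ 200) ^ 2 * n4 p * (S.θ * Φ ^ 2) := by ring
    _ ≤ _ := a2
    _ = _ := by ring

/-- **`Φ (θ N₁ + a₁)`** for any density below the profile -/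
theorem loc_kit (hx : x ∈ Set.Icc a a') {f : ℕ → ℝ}
    (hf : ∀ k, p.jf < k → k ≤ p.Jp P → |f k| ≤ E * (S.θ + R82.mt p t ((p.gst P t).s k))) :
    Φ * ∑ k ∈ Ico (p.jf + 1) (p.NP P), (p.gst P t).dz m x k * (|f k| * |(p.gst P t).del m x k|) ≤
      E ^ 10 * (1 / E ^ 200 * n5 p) := by
  obtain ⟨G, K⟩ := F.mkk x hx
  obtain ⟨Φ0, Φ1⟩ := Φ_mem F
  have E0 := F.E0
  have E1 := F.E1
  have θ0 := F.θ0
  have l00 := F.l00
  have l0' := F.l0'
  have m0 := F.cl.ms_pos l00.le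
  have C0 := F.cl.C0
  have C2 : S.C ^ 2 ≤ E ^ 2 := pow_le_pow_left₀ C0.le F.sc.C 2
  have u0 := F.nr.Pt0.1
  set B := 1 / E ^ 200 * n5 p with hB
  have B0 : 0 ≤ B := by have := F.n50; positivity
  have H := F.pf_of (c := fun k => Φ * f k) (B := fun y => Φ * (E * (S.θ + R82.mt p t y)))
    (Al := Φ * (E * (S.θ + S.ms l0 / l0))) (A := fun τ => Φ * (E * (S.θ + 4 * |S.ms τ / τ|)))
    (At := Φ * (E * (49 * E ^ 4 * S.θ)))
    (fun k h1 h2 => by
      rw [abs_mul, abs_of_nonneg Φ0]; exact mul_le_mul_of_nonneg_left (hf k h1 h2) Φ0)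
    (fun y _ h => by gcongr; exact (le_div_iff₀ l00).2 (mt_low F h))
    (fun τ y h h1 h2 => by
      have := (mt_blk F h h1 h2).trans
        (mul_le_mul_of_nonneg_left (le_abs_self _) (by norm_num : (0 : ℝ) ≤ 4))
      gcongr)
    (fun y h => by
      have := mt_top F h
      have := le_mul_of_one_le_left θ0.le (one_le_pow₀ (n := 4) F.E1')
      gcongr; linarith) (by positivity) (fun _ => by positivity) (by positivity)
  have p1 : ∀ k : ℕ, 1 ≤ E ^ k := fun k => one_le_pow₀ F.E1'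
  have a := loc1 (v := E ^ 7 * B) F.W F.cl K H l00 F.hI (by norm_num) (by positivity)
    (fun τ h1 h2 => by
      have t0 := l00.trans_le h1
      have P0 := (F.nr.P0 τ).1
      have a1 := sq_line F (y := S.θ ^ 2 * (τ * Pf τ)) (by
        have := mul_le_mul_of_nonneg_left (F.nr.i τ h1 h2) θ0.le; linarith)
      have a2 := sq_line F (y := (S.ms τ / τ) ^ 2 * (τ * Pf τ))
        (le_of_eq_of_le (by field_simp) (F.nr.j τ h1 h2))
      have a3 : (S.θ + 4 * |S.ms τ / τ|) ^ 2 ≤ 2 * S.θ ^ 2 + 32 * (S.ms τ / τ) ^ 2 := by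
        rw [← sq_abs (S.ms τ / τ)]; nlinarith [sq_nonneg (S.θ - 4 * |S.ms τ / τ|)]
      rw [← hB] at a1 a2
      calc _ = 3 * E ^ 3 * S.C ^ 2 * (Φ ^ 2 * ((S.θ + 4 * |S.ms τ / τ|) ^ 2 * (τ * Pf τ))) := by ring
        _ ≤ 3 * E ^ 3 * E ^ 2 * (Φ ^ 2 * ((2 * S.θ ^ 2 + 32 * (S.ms τ / τ) ^ 2) * (τ * Pf τ))) := by
          gcongr
        _ ≤ 3 * E ^ 3 * E ^ 2 * (34 * B ^ 2) :=
          mul_le_mul_of_nonneg_left (by linarith) (by positivity)
        _ = 102 * 1 * (E ^ 5 * B ^ 2) := by ring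
        _ ≤ E * E ^ 8 * (E ^ 5 * B ^ 2) := by gcongr; exacts [by linarith, p1 8]
        _ = _ := by ring)
    (by
      have a1 := sq_line F (y := S.θ ^ 2 * Pt) (by
        have := mul_le_mul_of_nonneg_left F.nr.c θ0.le
        have := mul_nonneg (mul_nonneg (sq_nonneg S.θ) (zero_le_one.trans F.nr.L1))
          (add_nonneg (u0.trans F.nr.Pt0.2.2.2) (pow_nonneg F.r0.le 4))
        linarith)
      rw [← hB] at a1
      calc _ = 49 * 49 * 1 * E ^ 11 * (Φ ^ 2 * (S.θ ^ 2 * Pt)) := by ring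
        _ ≤ E * E * E * E ^ 11 * B ^ 2 := by
          have : 0 ≤ Pt := u0.trans F.nr.Pt0.2.1
          gcongr <;> linarith
        _ = _ := by ring)
  have b1 : S.θ * Φ * (l * l0) ≤ B := by
    refine le_trans ?_ F.nr.l5
    have := mul_le_mul_of_nonneg_left F.nr.l0l (show 0 ≤ S.θ * l ^ 4 by positivity)
    rw [← F.nr.l3]; linarith
  have b2 : S.ms l0 * Φ * l ≤ B :=
    (mul_le_of_le_one_right (by positivity) ((l_le F).trans F.y1)).trans F.nr.a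
  have b3 : S.θ * u1 * Φ ≤ B := (mul_le_of_le_one_right (by positivity) Φ1).trans
    ((mul_le_mul_of_nonneg_left F.nr.Pt0.2.2.2 θ0.le).trans F.nr.d)
  have c1 : Φ * (E * (S.θ + S.ms l0 / l0)) * (E * l) * (S.C ^ 2 * l0) ≤ E ^ 9 * B := by
    calc _ = E ^ 2 * S.C ^ 2 * (S.θ * Φ * (l * l0) + S.ms l0 * Φ * l) := by field_simp
      _ ≤ E ^ 2 * E ^ 2 * (B + B) := by gcongr
      _ = 2 * 1 * (E ^ 4 * B) := by ring
      _ ≤ E * E ^ 4 * (E ^ 4 * B) := by gcongr; exacts [by linarith, p1 4]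
      _ = _ := by ring
  have c2 : Φ * (E * (49 * E ^ 4 * S.θ)) * 2 * (2 * u1) ≤ E ^ 9 * B := by
    calc _ = 196 * 1 * (E ^ 5 * (S.θ * u1 * Φ)) := by ring
      _ ≤ E * E ^ 3 * (E ^ 5 * B) := by gcongr; exacts [by linarith, p1 3]
      _ = _ := by ring
  have c3 : ((I : ℝ) + 1) * (E ^ 7 * B) ≤ E ^ 9 * B :=
    (mul_le_mul_of_nonneg_right F.I1 (by positivity)).trans_eq (by ring)
  have c4 := mul_le_mul_of_nonneg_right (show 12 ≤ E by linarith) (show 0 ≤ E ^ 9 * B by positivity)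
  rw [← gst_N, F.up_eq, mul_sum]
  refine (le_of_eq (sum_congr rfl fun k _ => ?_)).trans (a.trans (by linarith))
  rw [abs_mul, abs_mul, abs_of_nonneg Φ0]; ring

/-- the root -/
theorem root_kit (hx : x ∈ Set.Icc a a') : (p.gst P t).z 0 ≤ E ^ 2 * l ∧
    (p.gst P t).E2 m x (fun r => r ^ 16) 0 ≤ (E ^ 3 * l) ^ 16 := by
  obtain ⟨G, K⟩ := F.bk x hx
  have h := F.cl
  have C0 := h.C0
  have C1 := h.C1
  have E0 := F.E0
  have l0' := F.l0'
  have z1 : (p.gst P t).z 0 ≤ E ^ 2 * l := by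
    have a1 := (h.z_s le_rfl h.j0_lt).2
    have a2 := (h.s_bds h.j0_lt.le).1
    have a3 : (1 : ℝ) ≤ S.j0 := by exact_mod_cast h.i0
    have a4 := (le_mul_of_one_le_left (div_pos h.v0 C0).le a3).trans a2
    have a5 := (mul_le_mul_of_nonneg_left (h.sm h.i1) (by norm_num : (0 : ℝ) ≤ 8)).trans
      (F.nr.jl.trans F.nr.l0l)
    have s0 := h.s_nn S.j0
    rw [div_le_iff₀' C0] at a4
    rw [h.low 0 (Nat.zero_le _)]
    calc _ ≤ S.C * (S.C * (8 * (p.gst P t).s S.j0)) := a1.trans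
          (mul_le_mul_of_nonneg_left (by nlinarith) C0.le)
      _ ≤ E * (E * l) := by have := F.sc.C; gcongr
      _ = _ := by ring
  refine ⟨z1, (K.low 0 (Nat.zero_le _)).trans (pow_le_pow_left₀
    (mul_nonneg E0.le (l0'.le.trans (le_max_right _ _))) ?_ _)⟩
  rw [pow_succ' E 2, mul_assoc]
  exact mul_le_mul_of_nonneg_left
    (max_le z1 (le_mul_of_one_le_left l0'.le (one_le_pow₀ F.E1'))) E0.le

theorem lw_kit (hβ : p.β ^ 2 ≤ E) (hx : x ∈ Set.Icc a a')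
    (hf : ∀ k, p.jf < k → k ≤ p.Jp P → t * |sv p t k| ≤ E * R82.mt p t ((p.gst P t).s k)) :
    t * |lw (D0 p P t m x)| ≤ E ^ 27 * (1 / E ^ 200 * n5 p) := by
  obtain ⟨z1, z2⟩ := root_kit F hx
  obtain ⟨Φ0, Φ1⟩ := Φ_mem F
  have E0 := F.E0
  have E1 := F.E1
  have l0' := F.l0'
  have t0 := F.fx.t0
  have θ0 := F.θ0
  have p1 : ∀ k : ℕ, 1 ≤ E ^ k := fun k => one_le_pow₀ F.E1'
  have G := F.fx.lg hx.1 hx.2
  have r := rf_q F.cl
  have hτ := (F.fx.tp_le (p.gst P t).N).2.trans hβ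
  have z3 : (p.gst P t).E2 m x (fun r => r ^ 4) 0 ≤ (3 * (E ^ 3 * l)) ^ 4 := by
    have := mom_pair (M := p.gst P t) (m := m) (a := x) (k := 0) (p := 8) (i := 4) (c := 0) (q := 0)
      (B := E ^ 3 * l) (by positivity) (by norm_num) (by simpa only [sub_zero] using z2)
    simp only [sub_zero, abs_zero, add_zero, (by decide : Even 4).pow_abs, Nat.reduceAdd] at this
    have := pow_pos (show 0 < E ^ 3 * l by positivity) 4
    rw [mul_pow]; linarith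
  have e := abs_lw_cd (E := R77.E0) F.fx.cut G r hτ rfl (by positivity) (z1.trans (by
    have := mul_le_mul_of_nonneg_right F.E1' (show 0 ≤ E ^ 2 * l by positivity)
    have : 0 ≤ E ^ 3 * l := by positivity
    linarith)) z3 (D0 p P t m x) rfl
  have w := F.fx.wt x R77.E0
  rw [← F.th] at w
  have k := loc_kit F hx (f := fun k => E * S.θ + t * |sv p t k|) fun k h1 h2 => by
    rw [abs_of_nonneg (by positivity)]; linarith [hf k h1 h2]
  have d : ∀ k ∈ Ico (p.jf + 1) (p.NP P), (D0 p P t m x).del (k + 1) = (p.gst P t).del m x k :=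
    fun k hk => cd_del m x _ _ R77.E0 (mem_Ico.1 hk).1 (mem_Ico.1 hk).2
  have i1 : E * S.θ * (D0 p P t m x).I (fun j => |(D0 p P t m x).del j|) +
      t * (D0 p P t m x).Iw (fun j => |(D0 p P t m x).del j|) = ∑ k ∈ Ico (p.jf + 1) (p.NP P),
        (p.gst P t).dz m x k * (|E * S.θ + t * abs (sv p t k)| * |(p.gst P t).del m x k|) := by
    rw [F.fx.Iw_eq, cd_I, mul_sum, mul_sum, gst_N, ← sum_add_distrib]
    exact sum_congr rfl fun k hk => by
      rw [d k hk, abs_of_nonneg (a := E * S.θ + t * |sv p t k|) (by positivity)]; ring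
  have i0 : 0 ≤ (D0 p P t m x).I (fun j => |(D0 p P t m x).del j|) :=
    (lt_cd F.fx.cut G r hτ).I0 fun j _ => abs_nonneg _
  have i2 : 0 ≤ (D0 p P t m x).Iw (fun j => |(D0 p P t m x).del j|) :=
    CD.Iw0 _ fun j _ => abs_nonneg _
  have w0 := (D0 p P t m x).wt0
  have l5 := F.nr.l5
  rw [← i1, ← F.nr.l3] at k
  set B := 1 / E ^ 200 * n5 p with hB
  have B0 : 0 ≤ B := by have := F.n50; positivity
  generalize (D0 p P t m x).I _ = y1 at *
  generalize (D0 p P t m x).Iw _ = y2 at *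
  generalize (D0 p P t m x).wt = y3 at *
  calc _ ≤ t * _ := mul_le_mul_of_nonneg_left e t0.le
    _ = 2 * 10 ^ 6 * (1 + E) ^ 4 * (243 * E ^ 15 * (t * y3 * l ^ 5) +
        27 * E ^ 9 * (l ^ 3 * (t * y3 * y1 + t * y2))) := by ring
    _ ≤ 2 * 10 ^ 6 * (2 * E) ^ 4 * (243 * E ^ 15 * (E * S.θ * l ^ 5) +
        27 * E ^ 9 * (l ^ 3 * (E * S.θ * y1 + t * y2))) := by gcongr; linarith
    _ ≤ 2 * 10 ^ 6 * (2 * E) ^ 4 * (243 * E ^ 15 * (E * B) + 27 * E ^ 9 * (E ^ 10 * B)) := by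
      rw [mul_assoc E]; gcongr
    _ = 32 * 1000 * 1000 * (E ^ 20 * B) * (243 + 27 * E ^ 3) := by ring
    _ ≤ 32 * E * E * (E ^ 20 * B) * (28 * E ^ 3) := by
      have : 1000 * 1 ≤ E * E ^ 2 := by gcongr; exact p1 2
      gcongr; linarith
    _ = 896 * 1 * (E ^ 25 * B) := by ring
    _ ≤ E * E * (E ^ 25 * B) := by gcongr <;> linarith
    _ = _ := by ring

end Lw76

/-- **the low words from the kit** -/
theorem lwR : R82.From LwR := fun β hβ hC hK => by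
  refine Sml.gain (Sml.glue' hβ ((SD56.frS hβ hK).and hC) 2 one_pos 1 ?_)
  intro c0 C0 A c η _ _ _ _
  refine ⟨0, fun p H _ _ _ ⟨f, g⟩ σ σ' P t a a' Q m cx => ?_⟩
  obtain ⟨S, l, Φ, Pf, l0, Λ₀, Pt, u1, V4, I, F⟩ := f σ σ' P t a a' Q m cx
  have k := fun x hx => Lw76.lw_kit F (H.hβ ▸ H.β_le) hx fun k h1 h2 =>
    (g.2.2.2.2.1 σ σ' P t a a' Q m cx x hx k h1 h2).1
  have k1 := k a F.W.lo
  have k2 := k a' F.W.hi
  have k3 := mul_le_mul_of_nonneg_left (abs_sub (lw (D0 p P t m a')) (lw (D0 p P t m a))) F.fx.t0.le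
  have E0 := F.E0
  have a1 : 0 ≤ ((p.n : ℝ) ^ η) ^ 27 * (1 / ((p.n : ℝ) ^ η) ^ 200 * (Q * SD56.n2 p)) := by
    have := F.n20; have := cx.Q0; positivity
  rw [mul_left_comm]
  refine F.bud (α := 2 * ((p.n : ℝ) ^ η) ^ 27) (by linarith) ?_
  exact (mul_le_mul_of_nonneg_right (show 2 ≤ (p.n : ℝ) ^ η by linarith [F.E1])
    (by positivity)).trans ((pow_succ' _ _).symm.trans_le (pow_le_pow_right₀ F.E1' (by norm_num)))

end Crest.Agent.T156.Alt.R77

end
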