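import Crest.Agent.T156.R1Kit_82
import Crest.Agent.T156.R1C3_79
import Crest.Agent.T156.R1Lo_6
import Crest.Agent.T156.R1C2_56
import Crest.Agent.T156.R1Co_65
import Crest.Agent.T156.R1Lw_76

/-!
# Row 156 (helper79): one octave from the full kit and the three remaining budgets
-/

set_option autoImplicit false

namespace Crest.Agent.T156.Alt.C379

open Crest.Agent.T156.Alt.R77 Crest.Agent.T156.Alt.R82

theorem from'_C3R (h : From' ErrR) : From' C3R := fun β hβ hC hK =>
  c3R_of hβ (h β hβ hC hK) (hC.mono fun _ _ h => h.2.2.1)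
    (k3_kit hβ (hK.mono fun _ _ => Kit'.kit))

/-- **one octave** -/
theorem octG_3 {β : ℝ} (hβ : 1 < β) (hT : Cas.C40.HT) (hK : Sml β Kit') (h1 : From' ErrR)
    (h3 : From' LwR) (h6 : From' PhiR) : Gain β OctG :=
  octG_kit' hβ hT (Co65.co hβ) hK h1 from_LoR.from' h3 SD56.from_C2R.from' SD56.from_LinR.from' h6
    (from'_C3R h1)

theorem octG_2 {β : ℝ} (hβ : 1 < β) (hT : Cas.C40.HT) (hK : Sml β Kit') (h1 : From' ErrR)
    (h6 : From' PhiR) : Gain β OctG :=
  octG_3 hβ hT hK h1 lwR.from' h6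

end Crest.Agent.T156.Alt.C379
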