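import Crest.Agent.T156.R1C2_56
import Crest.Agent.T156.R1PD_60

/-!
# Row 156, R1: the SD half of the budget `PhiR` (helper56)
-/

set_option autoImplicit false
set_option linter.unusedSectionVars false
set_option maxRecDepth 8000

noncomputable section

namespace Crest.Agent.T156.Alt.SD56

open Real Finset
open Crest.Agent.T156.Cas Crest.Agent.T156.Cas.C40 Crest.Agent.T156.Alt.CIn12
open Crest.Agent.T156.Alt.Md67 Crest.Agent.T156.Alt.R62 Crest.Agent.T156.Alt.R77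
open Crest.Agent.T156.Alt.R82 Crest.Agent.T156.Alt.Alg77 Crest.Agent.T156.Alt.P60

theorem clip {c b1 b2 : ℝ} (h1 : 0 ≤ b1) (h2 : 0 ≤ b2) (h : |c| ≤ b1 + b2) :
    |max (-b1) (min c b1)| ≤ b1 ∧ |c - max (-b1) (min c b1)| ≤ b2 := by
  rw [abs_le] at h
  simp only [abs_le, max_def, min_def]
  split_ifs <;> refine ⟨⟨?_, ?_⟩, ?_, ?_⟩ <;> linarith [h.1, h.2]

theorem dz_le {S : Sc} {M : Md} {m : ℕ} {a : ℝ} (h : Cl S M) {i : ℕ} (h1 : S.jl ≤ i)
    (h2 : i + 1 < S.J) : M.dz m a (i + 1) ≤ S.C ^ 2 * (M.s (i + 1) - M.s i) := by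
  have C0 := h.C0
  have a1 := (h.zs i (h.i1.trans h1) h2).2
  have a2 := (h.ss i (by omega)).1
  rw [div_le_iff₀' C0] at a2
  rw [dz_succ h.leg]
  nlinarith

/-- `∑ dz / max (s, l)² ≤ 2 C² / l` -/
theorem inv_wt {S : Sc} {M : Md} {m : ℕ} {a l : ℝ} (h : Cl S M) (l0 : 0 < l) :
    ∑ k ∈ Ioo S.jl S.J, M.dz m a k / max (M.s k) l ^ 2 ≤ 2 * S.C ^ 2 / l := by
  let g : ℝ → ℝ := fun y => min y l / l ^ 2 + 1 / l - 1 / max y l
  have x0 : ∀ y, 0 < max y l := fun y => l0.trans_le (le_max_right _ _)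
  have g0 : ∀ y, 0 ≤ y → 0 ≤ g y := fun y hy => by
    have := one_div_le_one_div_of_le l0 (le_max_right y l)
    have : 0 ≤ min y l / l ^ 2 := div_nonneg (le_min hy l0.le) (sq_nonneg _)
    simp only [g]
    linarith
  have g1 : ∀ y, g y ≤ 2 / l := fun y => by
    have a : min y l / l ^ 2 ≤ 1 / l := by
      rw [div_le_div_iff₀ (by positivity) l0]
      nlinarith [min_le_right y l]
    have := one_div_pos.2 (x0 y)
    have e : 2 / l = 1 / l + 1 / l := by ring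
    simp only [g]
    linarith
  have g2 : ∀ y y', y' ≤ y → (y - y') / max y l ^ 2 ≤ g y - g y' := fun y y' hy => by
    have a := x0 y
    have b := x0 y'
    have c : max y' l ≤ max y l := max_le_max hy le_rfl
    have d : min y' l ≤ min y l := min_le_min hy le_rfl
    have e1 : (min y l - min y' l) / max y l ^ 2 ≤ (min y l - min y' l) / l ^ 2 := by
      have := sub_nonneg.2 d
      gcongr
      exact le_max_right _ _
    have e2 : (max y l - max y' l) / max y l ^ 2 ≤ (max y l - max y' l) / (max y' l * max y l) := by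
      rw [sq]
      gcongr
    have e3 : (max y l - max y' l) / (max y' l * max y l) = 1 / max y' l - 1 / max y l := by
      field_simp
    have e4 : y - y' = (min y l - min y' l) + (max y l - max y' l) := by
      linarith [min_add_max y l, min_add_max y' l]
    rw [e4, add_div]
    simp only [g]
    rw [sub_div _ _ (l ^ 2)] at e1
    linarith
  have k : ∀ j, j ≤ S.J → ∑ k ∈ Ioo S.jl j, M.dz m a k / max (M.s k) l ^ 2 ≤
      S.C ^ 2 * g (M.s (j - 1)) := fun j => by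
    induction j with
    | zero => exact fun _ => by simpa using mul_nonneg (sq_nonneg _) (g0 _ (h.s_nn _))
    | succ j ih =>
      intro hj
      rcases le_or_gt j S.jl with c | c
      · rw [show Ioo S.jl (j + 1) = ∅ from by ext; simp; omega]
        simpa using mul_nonneg (sq_nonneg _) (g0 _ (h.s_nn _))
      rw [show Ioo S.jl (j + 1) = insert j (Ioo S.jl j) from by ext; simp; omega,
        sum_insert (by simp), Nat.add_sub_cancel]
      have ih := ih (by omega)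
      obtain ⟨i, rfl⟩ : ∃ i, j = i + 1 := ⟨j - 1, by omega⟩
      rw [Nat.add_sub_cancel] at ih
      have a1 := div_le_div_of_nonneg_right (dz_le (m := m) (a := a) h (by omega) hj)
        (sq_nonneg (max (M.s (i + 1)) l))
      have a2 := mul_le_mul_of_nonneg_left (g2 _ _ (h.sm (Nat.le_succ i))) (sq_nonneg S.C)
      rw [mul_div_assoc] at a1
      linarith
  exact (k _ le_rfl).trans ((mul_le_mul_of_nonneg_left (g1 _) (sq_nonneg _)).trans_eq (by ring))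

/-- facts on the majorant of the density -/
structure Lam (E : ℝ) (p : Pm) (t : ℝ) (S : Sc) : Prop where
  mono : Monotone (p.lamG t)
  nn : ∀ y, 0 ≤ y → 0 ≤ p.lamG t y
  ms : ∀ y, 0 ≤ y → p.lamG t y * min y p.ye ≤ S.ms y
  hi : ∀ y, p.ye ≤ y → S.ms y = S.θ
  ye : E ^ 5 * p.ye ≤ 1

theorem sq3 {c x y z W u : ℝ} (h : |c| ≤ x + y + z) (W0 : 0 ≤ W) (hx : x ^ 2 * W ≤ u)
    (hy : y ^ 2 * W ≤ u) (hz : z ^ 2 * W ≤ u) : c ^ 2 * W ≤ 9 * u := by
  have a := pow_le_pow_left₀ (abs_nonneg _) h 2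
  rw [sq_abs] at a
  have b : c ^ 2 ≤ 3 * (x ^ 2 + y ^ 2 + z ^ 2) := by
    nlinarith [sq_nonneg (x - y), sq_nonneg (y - z), sq_nonneg (x - z)]
  nlinarith [mul_le_mul_of_nonneg_right b W0]

section num

variable {E n θ τ y l mτ my lam R B D u X : ℝ} (E1 : 1 ≤ E) (n0 : 0 < n) (τ0 : 0 < τ) (m1 : 0 < mτ)
  (vv : ∀ x c : ℝ, 0 ≤ c → c ≤ 64 → x ≤ D → c * E ^ 2 * x / n ≤ u ^ 2)
include E1 n0 τ0 m1 vv

theorem nx1 (y0 : 0 < y) (m2 : 0 < my) (s3 : my ≤ 4 * mτ) (hl : max τ l ≤ 2 * τ)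
    (h : my * R ^ 2 ≤ D * y ^ 2) :
    (2 * my / y * R) ^ 2 * (E * (1 / (n * τ * mτ)) * max τ l) ≤ u ^ 2 := by
  have EE : E ≤ E ^ 2 := le_self_pow₀ E1 (by norm_num)
  have x0 : 0 < max τ l := τ0.trans_le (le_max_left _ _)
  have j3 : my * R ^ 2 / y ^ 2 ≤ D := by rwa [div_le_iff₀ (by positivity)]
  refine le_trans ?_ (vv _ 32 (by norm_num) (by norm_num) j3)
  calc _ = 4 * E * (my * R ^ 2 / y ^ 2) / n * (my * max τ l / (τ * mτ)) := by field_simp; ring
    _ ≤ 4 * E ^ 2 * (my * R ^ 2 / y ^ 2) / n * (4 * mτ * (2 * τ) / (τ * mτ)) := by gcongr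
    _ = _ := by field_simp; ring

theorem nx2 (s1 : τ ≤ y) (m2 : 0 < my) (s3 : my ≤ 4 * mτ) (hl : τ ≤ l) (R0 : 0 ≤ R)
    (hR : R ≤ X * l ^ 2) (h : X ^ 2 * (mτ * l ^ 3 * l ^ 3 / τ ^ 4) ≤ D) :
    (2 * my / y * R) ^ 2 * (E * (1 / (n * τ * mτ)) * max τ l) ≤ u ^ 2 := by
  have EE : E ≤ E ^ 2 := le_self_pow₀ E1 (by norm_num)
  have l0 := τ0.trans_le hl
  have y0 := τ0.trans_le s1
  have E0 : 0 ≤ E := by linarith
  refine le_trans ?_ (vv _ 64 (by norm_num) le_rfl h)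
  rw [max_eq_right hl]
  calc _ ≤ (2 * (4 * mτ) / τ * (X * l ^ 2)) ^ 2 * (E ^ 2 * (1 / (n * τ * mτ)) * (l * (l / τ))) := by
        gcongr
        exact le_mul_of_one_le_right l0.le ((one_le_div τ0).2 hl)
    _ = _ := by field_simp; ring

theorem nx3 (θ0 : 0 < θ) (x0 : 0 ≤ X) (hx : X ≤ 2 * τ) (B0 : 0 ≤ B) (hk : τ * max τ l * θ ≤ E * mτ)
    (h : B ^ 2 / θ ≤ D) : (X * B) ^ 2 * (E * (1 / (n * τ * mτ)) * max τ l) ≤ u ^ 2 := by
  have x0 : 0 < max τ l := τ0.trans_le (le_max_left _ _)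
  have E0 : 0 ≤ E := by linarith
  refine le_trans ?_ (vv _ 4 (by norm_num) (by norm_num) h)
  have j2 : τ * max τ l / mτ ≤ E / θ := by rwa [div_le_div_iff₀ m1 θ0]
  calc _ ≤ (2 * τ * B) ^ 2 * (E * (1 / (n * τ * mτ)) * max τ l) := by gcongr
    _ = 4 * E * B ^ 2 / n * (τ * max τ l / mτ) := by field_simp; ring
    _ ≤ 4 * E * B ^ 2 / n * (E / θ) := by gcongr
    _ = _ := by field_simp

theorem nx4 (θ0 : 0 < θ) (s3 : θ ≤ 4 * mτ) (hl : max τ l ≤ 2 * τ) (h : B ^ 2 / θ ≤ D) :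
    (1 * B) ^ 2 * (E * (1 / (n * τ * mτ)) * max τ l) ≤ u ^ 2 := by
  have EE : E ≤ E ^ 2 := le_self_pow₀ E1 (by norm_num)
  have x0 : 0 < max τ l := τ0.trans_le (le_max_left _ _)
  refine le_trans ?_ (vv _ 8 (by norm_num) (by norm_num) h)
  calc _ = 4 * E * B ^ 2 / n * (max τ l / (τ * (4 * mτ))) := by field_simp
    _ ≤ 4 * E ^ 2 * B ^ 2 / n * (2 * τ / (τ * θ)) := by gcongr
    _ = _ := by field_simp; ring

end num

namespace Fr

variable {E t a a' Q l Φ l0 Λ₀ Pt u1 V4 e B : ℝ} {p : Pm} {P : Pl} {m I : ℕ} {S : Sc} {Pf : ℝ → ℝ}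
  (F : Fr E p P t a a' Q m S l Φ Pf l0 Λ₀ Pt u1 V4 I)
include F

theorem l_lt : l < p.ye := by
  have y0 := F.fx.y0
  refine F.nr.ly.trans_lt (mul_lt_of_lt_one_left y0 ((div_lt_one (pow_pos F.E0 _)).2 ?_))
  exact one_lt_pow₀ (by linarith [F.E1]) (by norm_num)

/-- the part that is paid absolutely -/
theorem ph_abs {c : ℕ → ℝ} (e0 : 0 ≤ e) (e1 : m * e ≤ 1 / E ^ 10 * Bud p Q)
    (hs : ∀ x ∈ Set.Icc a a', ∀ k, S.jl < k → k < S.J → |(p.gst P t).del m x k| ≤ 4 * E * l)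
    (hc : ∀ k, |c k| ≤ if k < p.J then e / max ((p.gst P t).s k) l ^ 2 else 0) :
    m * (2 * |Da (p.gst P t) m a a' (Ioo S.jl (p.gst P t).N) fun s k =>
      c k * ((p.gst P t).rb m s k - (p.gst P t).q k)|) ≤ E⁻¹ * Bud p Q := by
  have E0 := F.E0
  have l0' := F.l0'
  have i3 := F.cl.i3
  have i4 := F.cl.i4
  have K := F.W.Da_abs (pos_of S (p.gst P t)) (B := 8 * E ^ 3 * e)
    (F := fun s k => c k * ((p.gst P t).rb m s k - (p.gst P t).q k)) fun s h => by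
      rw [← sum_subset (s₁ := Ioo S.jl S.J) (fun k hk => mem_Ioo.2 (by
        have := mem_Ioo.1 hk; omega)) fun k h1 h2 => by
          have := hc k
          rw [if_neg (by rw [mem_Ioo, F.sc.J] at *; omega)] at this
          rw [abs_nonpos_iff.1 this, zero_mul, abs_zero, mul_zero]]
      refine (sum_le_sum (g := fun k => 4 * E * l * e *
        ((p.gst P t).dz m s k / max ((p.gst P t).s k) l ^ 2)) fun k hk => ?_).trans ?_
      · have hk' := mem_Ioo.1 hk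
        have := hc k
        rw [if_pos (F.sc.J ▸ hk'.2)] at this
        rw [abs_mul]
        exact (mul_le_mul_of_nonneg_left (mul_le_mul this (hs s h k hk'.1 hk'.2) (abs_nonneg _)
          (by positivity)) (F.W.dz0 s (by omega))).trans_eq (by ring)
      · rw [← mul_sum]
        calc _ ≤ 4 * E * l * e * (2 * E ^ 2 / l) := mul_le_mul_of_nonneg_left ((inv_wt F.cl l0').trans
              (div_le_div_of_nonneg_right (by linarith [F.C2]) l0'.le)) (by positivity)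
          _ = _ := by field_simp; ring
  have b0 := Bud_nonneg (p := p) (by linarith [F.s1]) F.W.Q0
  calc _ ≤ m * (2 * (2 * (8 * E ^ 3 * e))) := by gcongr
    _ = 32 * E ^ 3 * (m * e) := by ring
    _ ≤ E * E ^ 8 * (1 / E ^ 10 * Bud p Q) :=
        mul_le_mul (mul_le_mul (by linarith [F.E1]) (F.pw (by norm_num)) (by positivity) E0.le) e1
          (by positivity) (by positivity)
    _ = _ := by field_simp

theorem n5_sq : n4 p * (p.s ^ 6 / p.n) = n5 p ^ 2 := by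
  have := F.n2_sq
  have e : n5 p = n2 p * p.s ^ 3 := by rw [n5, n2]; ring
  rw [e, mul_pow, this]
  ring

theorem vv (x c : ℝ) (c0 : 0 ≤ c) (c1 : c ≤ 64) (h : x ≤ E ^ 300 * ((1 / E ^ 200) ^ 2 * n4 p)) :
    c * E ^ 2 * x / p.n ≤ (E ^ 152 * (1 / E ^ 200) * n2 p) ^ 2 := by
  have E1 := F.E1
  refine le_trans (div_le_div_of_nonneg_right ((mul_le_mul_of_nonneg_left h
    (by positivity)).trans_eq ?_) F.n0.le)
    (F.var_le (i := 302) (j := 152) le_rfl c0 (by nlinarith) (by norm_num))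
  rw [show (302 : ℕ) = 2 + 300 from rfl, pow_add]
  simp only [mul_assoc]

/-- node profile without the absolute part -/
def Nd (E d : ℝ) (p : Pm) (t : ℝ) (S : Sc) (l B y c : ℝ) : Prop := ∃ R, 0 ≤ R ∧
  (2 * p.ye < y → R = 0) ∧ S.ms (max y l) * R ^ 2 ≤ E ^ 300 * d * max y l ^ 2 ∧
    R ≤ E ^ 150 * max y l ^ 2 ∧ |c| ≤ p.lamG t y * R + (min 1 y + if p.ye ≤ y then 1 else 0) * B

theorem nd_blk {τ y c : ℝ} (L : Lam E p t S) (B0 : 0 ≤ B)
    (B3 : B ^ 2 / S.θ ≤ E ^ 300 * ((1 / E ^ 200) ^ 2 * n4 p)) (h1 : l0 ≤ τ)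
    (h2 : τ ≤ T0 S (p.gst P t)) (s1 : τ ≤ y) (s2 : y ≤ 2 * τ)
    (h : Nd E ((1 / E ^ 200) ^ 2 * n4 p) p t S l B y c) :
    c ^ 2 * (E * S.w3 τ * max τ l) ≤ 9 * (E ^ 152 * (1 / E ^ 200) * n2 p) ^ 2 := by
  obtain ⟨R, R0, R1, R3, R2, h⟩ := h
  have E0 := F.E0
  have n0 := F.n0
  have τ0 := F.l00.trans_le h1
  have y0 := τ0.trans_le s1
  have m1 := F.cl.ms_pos τ0.le
  have m2 := F.cl.ms_pos y0.le
  have s3 := (F.cl.msm s2).trans (F.cl.ms2 τ τ0.le)
  have x0 : 0 < max τ l := τ0.trans_le (le_max_left _ _)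
  rw [add_mul, ← add_assoc] at h
  rw [F.w3_eq]
  have W0 : 0 ≤ E * (1 / (p.n * τ * S.ms τ)) * max τ l := by positivity
  refine sq3 h W0 ?_ (nx3 F.E1' n0 τ0 m1 F.vv F.θ0 (le_min zero_le_one y0.le)
    ((min_le_right _ _).trans s2) B0 (F.nr.k τ h1 h2) B3) ?_
  · rcases lt_or_ge (2 * p.ye) y with c | c
    · rw [R1 c, mul_zero, sq, zero_mul, zero_mul]
      exact sq_nonneg _
    have j0 := L.nn y y0.le
    have j1 : p.lamG t y ≤ 2 * S.ms y / y := by
      rw [le_div_iff₀ y0]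
      have : y ≤ 2 * min y p.ye := by
        rw [← div_le_iff₀' two_pos]; exact le_min (by linarith) (by linarith)
      exact (mul_le_mul_of_nonneg_left this j0).trans (by linarith [L.ms y y0.le])
    refine (mul_le_mul_of_nonneg_right (pow_le_pow_left₀ (mul_nonneg j0 R0)
      (mul_le_mul_of_nonneg_right j1 R0) 2) W0).trans ?_
    rcases le_total l y with c | c
    · rw [max_eq_left c] at R3
      exact nx1 F.E1' n0 τ0 m1 F.vv y0 m2 s3 (max_le (by linarith) (c.trans s2)) R3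
    · rw [max_eq_right c] at R2
      have c' := s1.trans c
      have j3 := F.nr.b τ h1 h2
      rw [F.nr.Plo τ c', max_eq_right c', ← F.nr.l3] at j3
      refine nx2 F.E1' n0 τ0 m1 F.vv s1 m2 s3 c' R0 R2 ?_
      rw [← pow_mul]
      exact mul_le_mul_of_nonneg_left j3 (by positivity)
  · split_ifs with c
    · exact nx4 F.E1' n0 τ0 m1 F.vv F.θ0 (L.hi y c ▸ s3)
        (max_le (by linarith) (by linarith [F.l_lt])) B3
    · rw [zero_mul, sq, zero_mul, zero_mul]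
      exact sq_nonneg _

theorem nd_pf {c : ℕ → ℝ} (L : Lam E p t S) (B0 : 0 ≤ B)
    (B3 : B ^ 2 / S.θ ≤ E ^ 300 * ((1 / E ^ 200) ^ 2 * n4 p))
    (hc : ∀ k, p.jf < k → k ≤ p.Jp P →
      Nd E ((1 / E ^ 200) ^ 2 * n4 p) p t S l B ((p.gst P t).s k) (c k)) :
    SD56.Pf S (p.gst P t) l0 u1 c (p.lamG t l0 * (E ^ 150 * l ^ 2) + l0 * B)
      (fun τ => 3 * (E ^ 152 * (1 / E ^ 200) * n2 p) / √(E * S.w3 τ * max τ l)) (2 * B) := by
  have E0 := F.E0
  have n0 := F.n0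
  have l00 := F.l00
  have a2 := F.n20
  have j0 := L.nn l0 l00.le
  refine ⟨fun k hk => ?_, fun τ h1 h2 k hk => ?_, fun k hk h => ?_, by positivity,
    fun _ => by positivity, by positivity⟩
  · obtain ⟨R, R0, -, -, R2, h⟩ := hc k (F.rng_lz hk).1 (F.rng_lz hk).2
    have s1 := (mem_filter.1 hk).2.le
    rw [max_eq_right (s1.trans F.nr.l0l)] at R2
    rw [if_neg (by linarith [F.nr.l0l, F.l_lt]), add_zero] at h
    exact h.trans (add_le_add (mul_le_mul (L.mono s1) R2 R0 j0)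
      (mul_le_mul_of_nonneg_right ((min_le_right _ _).trans s1) B0))
  · have h := F.nd_blk L B0 B3 h1 h2 (mem_sb.1 hk).2.1 (mem_sb.1 hk).2.2
      (hc k (F.rng_sb hk).1 (F.rng_sb hk).2)
    have τ0 := l00.trans_le h1
    have m1 := F.cl.ms_pos τ0.le
    have x0 : 0 < max τ l := τ0.trans_le (le_max_left _ _)
    have W0 : 0 < E * S.w3 τ * max τ l := by rw [F.w3_eq]; positivity
    refine abs_le.2 (abs_le_of_sq_le_sq' ?_ (by positivity))
    rw [div_pow, sq_sqrt W0.le, le_div_iff₀ W0, mul_pow 3]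
    exact h.trans_eq (by norm_num)
  · obtain ⟨R, -, R1, -, -, h⟩ := hc k (F.rng_top hk) (F.sc.Jp ▸ h)
    have j : 2 * p.ye < (p.gst P t).s k := by
      refine lt_of_lt_of_le (lt_of_mul_lt_mul_left ?_ (show 0 ≤ 48 * E ^ 4 by positivity))
        (F.T0_le hk)
      have a := L.ye
      have b := mul_pos (pow_pos E0 4) F.fx.y0
      have c := mul_le_mul_of_nonneg_right F.E1 b.le
      linarith [F.T0_ge]
    rw [R1 j, mul_zero, zero_add] at h
    refine h.trans (mul_le_mul_of_nonneg_right ?_ B0)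
    split_ifs <;> linarith [min_le_left 1 ((p.gst P t).s k)]

theorem B_le (B1 : Λ₀ * B ^ 2 ≤ E ^ 300 * (S.θ * ((1 / E ^ 200) ^ 2 * n4 p))) :
    B * l ^ 3 ≤ E ^ 150 * (1 / E ^ 200 * n5 p) := by
  have E0 := F.E0
  have a4 := F.n40
  have a5 := F.n50
  refine (abs_le_of_sq_le_sq' ?_ (by positivity)).2
  refine le_of_mul_le_mul_left ?_ (show 0 < Λ₀ by linarith [F.nr.L1])
  calc Λ₀ * (B * l ^ 3) ^ 2 = Λ₀ * B ^ 2 * Φ ^ 2 := by rw [F.nr.l3]; ring
    _ ≤ E ^ 300 * (S.θ * ((1 / E ^ 200) ^ 2 * n4 p)) * Φ ^ 2 :=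
        mul_le_mul_of_nonneg_right B1 (sq_nonneg _)
    _ = E ^ 300 * ((1 / E ^ 200) ^ 2 * n4 p) * (S.θ * Φ ^ 2) := by ring
    _ ≤ E ^ 300 * ((1 / E ^ 200) ^ 2 * n4 p) * (Λ₀ * p.s ^ 6 / p.n) :=
        mul_le_mul_of_nonneg_left F.nr.n (by positivity)
    _ = _ := by
      rw [mul_pow, mul_pow, ← F.n5_sq, ← pow_mul]
      generalize (1 / E ^ 200) ^ 2 = x
      ring

/-- the part that is paid by the SD lemma -/
theorem ph_sd {c : ℕ → ℝ} (L : Lam E p t S) (B0 : 0 ≤ B)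
    (B1 : Λ₀ * B ^ 2 ≤ E ^ 300 * (S.θ * ((1 / E ^ 200) ^ 2 * n4 p))) (B2 : B ≤ E ^ 150 * S.θ)
    (hc : ∀ k, p.jf < k → k ≤ p.Jp P →
      Nd E ((1 / E ^ 200) ^ 2 * n4 p) p t S l B ((p.gst P t).s k) (c k)) :
    m * (2 * |Da (p.gst P t) m a a' (Ioo S.jl (p.gst P t).N) fun s k =>
      c k * ((p.gst P t).rb m s k - (p.gst P t).q k)|) ≤ E⁻¹ * Bud p Q := by
  have E0 := F.E0
  have E1 := F.E1
  have n0 := F.n0
  have θ0 := F.θ0
  have l00 := F.l00
  have l0' := F.l0'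
  have a2 := F.n20
  have a5 := F.n50
  have Q0 := F.W.Q0
  have m0 := F.cl.ms_pos l00.le
  have P0 := F.nr.Pt0
  have j : Λ₀ * B ^ 2 / S.θ ≤ E ^ 300 * ((1 / E ^ 200) ^ 2 * n4 p) := by
    rw [div_le_iff₀ θ0]; exact B1.trans_eq (by rw [mul_comm S.θ, ← mul_assoc])
  have H := F.nd_pf L B0 (le_trans (div_le_div_of_nonneg_right
    (le_mul_of_one_le_left (sq_nonneg B) F.nr.L1) θ0.le) j) hc
  have j4 := F.vv _ 4 (by norm_num) (by norm_num) j
  have j2 := F.B_le B1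
  have j5 := F.lo_le
  have j6 := F.en_le
  have bd := @F.bud
  generalize 1 / E ^ 200 = δ at *
  have δ0 : 0 ≤ δ := (mul_pos_iff_of_pos_right a5).1 (lt_of_lt_of_le (by positivity) j5) |>.le
  have K := F.W.lin_MK F.cl H l00.le F.hI (v := 3 * (E ^ 152 * δ * n2 p)) (by positivity)
    (by norm_num) F.mkk
    (fun τ h1 _ => by
      have τ0 := l00.trans_le h1
      have m1 := F.cl.ms_pos τ0.le
      have x0 : 0 < max τ l := l0'.trans_le (le_max_right _ _)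
      have W0 : 0 < E * S.w3 τ * max τ l := by rw [F.w3_eq]; positivity
      rw [div_pow, sq_sqrt W0.le, div_mul_cancel₀ _ W0.ne'])
    (by
      refine le_trans ?_ (j4.trans (pow_le_pow_left₀ (by positivity)
        (le_mul_of_one_le_left (by positivity) (by norm_num)) 2))
      have L0 : 0 ≤ Λ₀ := by linarith [F.nr.L1]
      calc _ = 4 * E * (Λ₀ * B ^ 2 / S.θ) / p.n := by rw [F.w3_one]; field_simp; ring
        _ ≤ _ := by gcongr; exact le_self_pow₀ F.E1' (by norm_num))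
  refine bd (α := E ^ 156) ((mul_le_mul_of_nonneg_left K zero_le_two).trans ?_)
    (F.pw (by norm_num))
  have j0 := L.nn l0 l00.le
  have j1 : p.lamG t l0 * l0 ≤ S.ms l0 := by
    simpa only [min_eq_left (F.nr.l0l.trans F.l_lt.le)] using L.ms l0 l00.le
  have C2 := F.C2
  have l1 := F.nr.l0l
  have b1 : (p.lamG t l0 * (E ^ 150 * l ^ 2) + l0 * B) * (E * l) * (S.C ^ 2 * l0) ≤
      2 * (E ^ 153 * (δ * n5 p)) :=
    calc _ ≤ (p.lamG t l0 * (E ^ 150 * l ^ 2) + l0 * B) * (E * l) * (E ^ 2 * l0) :=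
          mul_le_mul_of_nonneg_left (mul_le_mul_of_nonneg_right C2 l00.le) (by positivity)
      _ = E ^ 153 * (p.lamG t l0 * l0 * l ^ 3) + E ^ 3 * (B * (l0 * l0 * l)) := by ring
      _ ≤ E ^ 153 * (S.ms l0 * l ^ 3) + E ^ 3 * (B * (l * l * l)) := by gcongr
      _ = E ^ 153 * (S.ms l0 * l ^ 3) + E ^ 3 * (B * l ^ 3) := by ring
      _ ≤ E ^ 153 * (δ * n5 p) + E ^ 3 * (E ^ 150 * (δ * n5 p)) :=
          add_le_add (mul_le_mul_of_nonneg_left j5 (by positivity))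
            (mul_le_mul_of_nonneg_left j2 (by positivity))
      _ = _ := by ring
  have b2 : B * u1 ≤ E ^ 153 * (δ * n5 p) :=
    calc _ ≤ E ^ 150 * (S.θ * u1) := (mul_le_mul_of_nonneg_right B2 P0.1).trans_eq (by ring)
      _ ≤ _ := mul_le_mul (F.pw (by norm_num)) j6 (mul_nonneg θ0.le P0.1) (by positivity)
  have e3 : 1000 ≤ E ^ 3 := E1.trans (le_self_pow₀ F.E1' (by norm_num))
  have b4 : Q * (12 * (√(I + 1) * (E ^ 152 * δ * n2 p))) ≤
      Q * (E ^ 3 * (E * (E ^ 152 * δ * n2 p))) := mul_le_mul_of_nonneg_left (mul_le_mul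
    (by linarith) (mul_le_mul_of_nonneg_right F.rt (by positivity)) (by positivity)
      (by positivity)) Q0
  have b5 : 160 * (E ^ 153 * (δ * n5 p)) ≤ E ^ 3 * (E ^ 153 * (δ * n5 p)) :=
    mul_le_mul_of_nonneg_right (by linarith) (by positivity)
  have b6 : 0 ≤ E ^ 153 * (δ * n5 p) := by positivity
  linarith only [b1, b2, b4, b5, b6]

/-- **the SD half** -/
theorem ph_le {c : ℕ → ℝ} (L : Lam E p t S)
    (hs : ∀ x ∈ Set.Icc a a', ∀ k, S.jl < k → k < S.J → |(p.gst P t).del m x k| ≤ 4 * E * l)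
    (K : PhK E ((1 / E ^ 200) ^ 2 * n4 p) p P t Q m S l Λ₀ c e B) :
    m * |Da (p.gst P t) m a a' (Ioo S.jl (p.gst P t).N) fun s k =>
      c k * ((p.gst P t).rb m s k - (p.gst P t).q k)| ≤ E⁻¹ * Bud p Q := by
  set b : ℕ → ℝ := fun k => if k < p.J then e / max ((p.gst P t).s k) l ^ 2 else 0 with hb
  have b0 : ∀ k, 0 ≤ b k := fun k => by
    have := K.e0
    simp only [hb]
    split_ifs <;> positivity
  have h1 := F.ph_abs (c := fun k => max (-b k) (min (c k) (b k))) K.e0 K.e1 hs fun k =>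
    (clip (b0 k) (abs_nonneg (c k)) (le_add_of_nonneg_left (b0 k))).1
  have h2 := F.ph_sd (c := fun k => c k - max (-b k) (min (c k) (b k))) L K.B0 K.B1 K.B2
    fun k k1 k2 => (K.nd k k1 k2).imp fun R h => ⟨h.1, h.2.1, h.2.2.1, h.2.2.2.1, (clip (b0 k) (by
      have := L.nn _ (F.cl.s_nn k)
      have := le_min zero_le_one (F.cl.s_nn k)
      have := h.1
      have := K.B0
      split_ifs <;> positivity) (h.2.2.2.2.trans_eq (add_assoc _ _ _))).2⟩
  rw [Da_congr (G := fun s k => max (-b k) (min (c k) (b k)) *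
    ((p.gst P t).rb m s k - (p.gst P t).q k) + (c k - max (-b k) (min (c k) (b k))) *
      ((p.gst P t).rb m s k - (p.gst P t).q k)) fun s k _ => by ring, Da_add]
  refine (mul_le_mul_of_nonneg_left (abs_add_le _ _) m.cast_nonneg).trans ?_
  linarith

end Fr

theorem lam_of {β c0 C0 c η K t : ℝ} {A : ℕ} {p : Pm} {S : Sc} (H : Reg β c0 C0 A c η K p)
    (hη : 2 * η ≤ c) (t0 : 0 < t) (ms : S.ms = p.msG t) : Lam ((p.n : ℝ) ^ η) p t S := by
  have κ0 := H.κ0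
  have nn : ∀ y, 0 ≤ y → 0 ≤ p.lamG t y := fun y hy => by
    have := le_min hy H.ye0.le
    unfold Pm.lamG
    positivity
  refine ⟨Pm.lamG_mono κ0.le t0.le, nn, fun y hy => ?_, fun y hy => ?_, ?_⟩
  · have x0 := le_min hy H.ye0.le
    have x1 : min y p.ye ≤ Gr29.xc p y := le_max_right _ _
    rw [ms]
    refine le_trans ?_ (H.msG_bds t0 y).1
    rw [Pm.lamG, mul_right_comm]
    have := x0.trans x1
    gcongr
  · rw [Sc.θ, ms, H.msG_hi t hy, H.msG_one]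
  · refine H.le_of_lg (mul_pos (pow_pos H.Λ0 5) H.ye0) one_pos ?_
    rw [logb_mul (pow_pos H.Λ0 5).ne' H.ye0.ne', logb_pow, H.lg_rp, H.lg_ye, logb_one]
    push_cast
    linarith [H.η_pos]

/-- **the SD half of `PhiR`** -/
theorem phSD : PhSD := fun _ hβ hK hM hP =>
  Sml.gain (Sml.glue' hβ ((hM.and hP).and (frS hβ hK)) 2 one_pos 2 fun _ _ _ _ _ _ _ _ _ =>
    ⟨0, fun p H _ _ hη ⟨⟨M, Ph⟩, F⟩ σ σ' P t a a' Q m x => by
      obtain ⟨S, l, Φ, Pf, l0, Λ₀, Pt, u1, V4, I, F⟩ := F σ σ' P t a a' Q m x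
      obtain ⟨e, B, K⟩ := Ph σ σ' P t a a' Q m x S l Φ Pf l0 Λ₀ Pt u1 V4 I F
      beta_reduce
      rw [F.W.I_del (Nat.succ_pos _), F.t_Da, F.up_eq]
      exact F.ph_le (lam_of H (by exact_mod_cast hη) F.fx.t0 F.sc.ms)
        (fun y hy => (M σ σ' P t a a' Q m x S l Φ Pf l0 Λ₀ Pt u1 V4 I F y hy).sup) K⟩)

end Crest.Agent.T156.Alt.SD56

end
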