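import Crest.Agent.T156.R1Po_60
import Crest.Agent.T156.R1PS_56
import Crest.Agent.T156.R1Ms_4
import Crest.Agent.T156.R1Oct_79

/-!
# Row 156 (helper60): `PhiR`, `ErrR` and the octave from the error table
-/

set_option autoImplicit false

namespace Crest.Agent.T156.Alt.P60

open Crest.Agent.T156.Cas.C40 Crest.Agent.T156.Alt.R77 Crest.Agent.T156.Alt.R82

/-- **`PhiR`** -/
theorem phiR (hT : HT) {β : ℝ} (hβ : 1 < β) (hC : Sml β Co) (hK : Sml β Kit) (hE : Gain β ErrG) :
    Gain β PhiR := phiR_of SD56.phSD phOff60 msS hT hβ hC hK hE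

theorem from'_ErrR (h : From' ErrG) : From' ErrR := fun β hβ hC hK => errR_of hβ (h β hβ hC hK)

theorem from'_PhiR (hT : HT) (h : From' ErrG) : From' PhiR := fun β hβ hC hK =>
  phiR hT hβ hC (hK.mono fun _ _ => Kit'.kit) (h β hβ hC hK)

/-- **one octave from the kit and the error table** -/
theorem octG_1 {β : ℝ} (hβ : 1 < β) (hT : HT) (hK : Sml β Kit') (h : From' ErrG) : Gain β OctG :=
  C379.octG_2 hβ hT hK (from'_ErrR h) (from'_PhiR hT h)

end Crest.Agent.T156.Alt.P60
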