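import Crest.Agent.T156.R2Def_30
import Crest.Agent.T156.FamSm_28
import Crest.Agent.T156.GrReg_29
import Crest.Agent.T156.ClReg_29
import Crest.Agent.T156.SprL_11

/-!
# Row 156, R2 (helper26): the thick low level `ThS`
-/

set_option autoImplicit false
set_option linter.unusedSectionVars false
set_option linter.unusedVariables false

noncomputable section

namespace Crest.Agent.T156.Alt.R2

open Real Finset
open Crest.Agent.T156.Cas Crest.Agent.T156.Cas.C40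
open Crest.Agent.T157.E Crest.Agent.T157.Casc Crest.Agent.T157.SL

namespace T26

variable {S : Sc} {M : Md} {m : ℕ} {a : ℝ}

/-- class form -/
theorem th_cl (h : Cl S M) (c : Cei S M) (H0 : M.H S.jl = 0) (hm : 0 < m) {J : ℕ}
    (hJ : J ≤ S.Jp) (ρ : ℕ → ℝ) (W : Option (ℕ → ℝ)) (E : CIn12.Ev) :
    E42.Th (CIn12.cd M m a ρ J W E) ≤
      M.z S.jl * M.H (S.jl + 1) * M.rb m a (S.jl + 1) + S.C * S.F * S.θ * S.v := by
  have rm := Md67.rb_mono (M := M) (a := a) hm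
  have r0 := Md67.rb_nonneg (M := M) (a := a) hm
  have r1 := Md67.rb_le_one (M := M) (a := a) hm
  have i4 := h.i4
  have A0 : 0 ≤ M.z S.jl * M.H (S.jl + 1) * M.rb m a (S.jl + 1) :=
    mul_nonneg (mul_nonneg (h.z_pos _).le (h.H_nn _)) (r0 _)
  have B0 : 0 ≤ S.C * S.F * S.θ * S.v :=
    mul_nonneg (mul_nonneg (mul_nonneg h.C0.le (zero_le_one.trans h.F1)) h.θ0.le) h.v0.le
  rcases J with _ | J
  · exact (sum_range_zero _).le.trans (add_nonneg A0 B0)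
  have f : ∀ k ≤ M.N, fAcc (M.Mx a) (k + 1) = M.H k := fun k hk => Md67.fAcc_Mx h.leg hk
  have key : ∀ k ∈ range J, ex (M.L m a) (k + 1) * (fAcc (M.Mx a) (k + 1 + 1) -
      fAcc (M.Mx a) (k + 1)) * (M.rb m a (k + 1) - M.rb m a k) ≤
      (if k = S.jl then M.z S.jl * M.H (S.jl + 1) * M.rb m a (S.jl + 1) else 0) +
        S.C * S.F * S.θ * S.v * (M.rb m a (k + 1) - M.rb m a k) := fun k hk => by
    have hk := mem_range.1 hk
    have d0 : 0 ≤ M.rb m a (k + 1) - M.rb m a k := sub_nonneg.2 (rm k.le_succ)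
    have b0 := mul_nonneg B0 d0
    rw [Md67.ex_succ h.leg, f _ (by omega), f _ (by omega)]
    rcases lt_trichotomy k S.jl with l | l | l
    · have e1 : M.H (k + 1) = 0 := le_antisymm ((h.leg.Hm l).trans H0.le) (h.H_nn _)
      have e2 : M.H k = 0 := le_antisymm ((h.leg.Hm l.le).trans H0.le) (h.H_nn _)
      rw [if_neg l.ne, e1, e2, sub_self, mul_zero, zero_mul, zero_add]
      exact b0
    · subst l
      rw [if_pos rfl, H0, sub_zero]
      have := mul_nonneg (mul_nonneg (h.z_pos S.jl).le (h.H_nn (S.jl + 1))) (r0 S.jl)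
      nlinarith
    · rw [if_neg l.ne', zero_add]
      refine mul_le_mul_of_nonneg_right ?_ d0
      have h1 := c.up k l (by omega)
      have h2 : S.C * S.F * S.ms (M.s k) * S.v ≤ S.C * S.F * S.θ * S.v :=
        mul_le_mul_of_nonneg_right (mul_le_mul_of_nonneg_left (h.ms1 _)
          (mul_nonneg h.C0.le (zero_le_one.trans h.F1))) h.v0.le
      have h3 := mul_le_mul_of_nonneg_right (h.leg.z1 k) (sub_nonneg.2 (h.leg.Hm k.le_succ))
      linarith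
  have e0 : fAcc (M.Mx a) (0 + 1) - fAcc (M.Mx a) 0 = 0 := by
    rw [f 0 (Nat.zero_le _), h.leg.H0]
    simp [fAcc]
  have s1 := sum_le_sum key
  rw [sum_add_distrib, ← mul_sum, sum_range_sub, sum_ite_eq'] at s1
  have s2 := mul_le_mul_of_nonneg_left
    (show M.rb m a J - M.rb m a 0 ≤ 1 by linarith [r0 0, r1 J]) B0
  have e : E42.Th (CIn12.cd M m a ρ (J + 1) W E) = ∑ k ∈ range J, ex (M.L m a) (k + 1) *
      (fAcc (M.Mx a) (k + 1 + 1) - fAcc (M.Mx a) (k + 1)) * (M.rb m a (k + 1) - M.rb m a k) := by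
    refine (sum_range_succ' _ J).trans ?_
    refine (congrArg _ ?_).trans (add_zero _)
    exact mul_eq_zero_of_left (mul_eq_zero_of_right _ e0) _
  rw [e]
  split_ifs at s1 <;> linarith

/-- crude location of the first marked node from the total energy -/
theorem rb_low (h : Cl S M) (hm : 0 < m) {l : ℝ} {n : ℕ} (l0 : 0 < l) (hn : S.C * l ≤ n * S.v)
    (hJ : S.jl + n < S.J)
    (hE : ∑ k ∈ Ioc S.jl S.Jp, (M.z k - M.z (k - 1)) * M.del m a k ^ 2 ≤ l ^ 3) :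
    M.rb m a (S.jl + 1) ≤ M.s (S.jl + n) + l := by
  by_contra hc
  have rm := Md67.rb_mono (M := M) (a := a) hm
  have i1 := h.i1
  have i3 := h.i3
  have i4 := h.i4
  have C0 := h.C0
  have v0 := h.v0
  obtain ⟨d, hd⟩ : ∃ d, d = M.rb m a (S.jl + 1) - M.s (S.jl + n) := ⟨_, rfl⟩
  have d1 : l < d := by linarith [not_le.1 hc]
  have a1 : ∑ k ∈ Ioc S.jl (S.jl + n), S.v / S.C * d ^ 2 ≤
      ∑ k ∈ Ioc S.jl (S.jl + n), (M.z k - M.z (k - 1)) * M.del m a k ^ 2 :=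
    sum_le_sum fun k hk => by
      obtain ⟨k1, k2⟩ := mem_Ioc.1 hk
      have w := (h.zs (k - 1) (by omega) (by omega)).1
      rw [Nat.sub_add_cancel (by omega)] at w
      have e : d ≤ M.del m a k := by
        have := rm (show S.jl + 1 ≤ k by omega)
        have := h.q_le_s (k := k) (by omega)
        have := h.sm k2
        rw [Md.del]
        linarith
      exact mul_le_mul w (pow_le_pow_left₀ (by linarith) e 2) (sq_nonneg _)
        ((div_pos v0 C0).le.trans w)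
  have a2 := sum_le_sum_of_subset_of_nonneg
    (f := fun k => (M.z k - M.z (k - 1)) * M.del m a k ^ 2)
    (Ioc_subset_Ioc_right (a := S.jl) (show S.jl + n ≤ S.Jp by omega)) fun k _ _ =>
      mul_nonneg (sub_nonneg.2 (h.leg.zm (Nat.sub_le k 1))) (sq_nonneg _)
  rw [sum_const, Nat.card_Ioc, Nat.add_sub_cancel_left, nsmul_eq_mul, ← mul_assoc,
    ← mul_div_assoc] at a1
  have a3 : l ≤ n * S.v / S.C := by rw [le_div_iff₀ C0]; linarith
  have a4 : l ^ 2 < d ^ 2 := pow_lt_pow_left₀ d1 l0.le two_ne_zero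
  have a5 := mul_le_mul_of_nonneg_right a3 (sq_nonneg d)
  nlinarith [mul_lt_mul_of_pos_left a4 l0]

/-- the length of the sloped part -/
theorem J_ge (h : Cl S M) : 1 ≤ S.C ^ 3 * (((S.J : ℝ) + 1) * S.v) := by
  have i2 := h.i2
  have i1 := h.i1
  have a1 := h.atom.1
  have a2 := (h.z_s (k := S.J - 1) (by omega) (by omega)).2
  have a3 := (h.s_bds (k := S.J - 1) (by omega)).2
  have e : ((S.J - 1 : ℕ) : ℝ) = S.J - 1 := by rw [Nat.cast_sub (by omega)]; simp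
  have C0 := h.C0
  have v0 := h.v0
  rw [e] at a3
  rw [div_le_iff₀ C0] at a1
  have a4 : 2 * S.v ≤ 2 * (S.C * S.v) := by nlinarith [h.C1]
  have a5 : M.z (S.J - 1) ≤ S.C * (((S.J : ℝ) + 1) * (S.C * S.v)) :=
    a2.trans (mul_le_mul_of_nonneg_left (by linarith) C0.le)
  nlinarith [mul_le_mul_of_nonneg_right a5 C0.le]

variable {β c0 C0 c η K C : ℝ} {A : ℕ} {p : Pm} {P : Pl}

theorem lg_t1 (H : Reg β c0 C0 A c η K p) :
    0 < t1 p ∧ logb p.n (t1 p) = logb p.n p.s + c / 7 - 1 / 6 + 1 / 60 :=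
  ⟨mul_pos H.r0 (H.rp0 _), by rw [t1, logb_mul H.r0.ne' (H.rp0 _).ne', H.lg_r, H.lg_rp]⟩

theorem r_le_t1 (H : Reg β c0 C0 A c η K p) : p.r ≤ t1 p :=
  le_mul_of_one_le_right H.r0.le (one_le_rpow H.N1.le (by norm_num))

/-- the cut lies in the sloped part -/
theorem jc_le (H : Reg β c0 C0 A c η K p) (hK : 3 * C ^ 3 ≤ K)
    (h : Cl (p.spS C p.ye P) (Me p P)) : jc p ≤ p.J := by
  have C1 : 1 ≤ C := h.C1
  have v0 := H.v0
  obtain ⟨t0, lt⟩ := lg_t1 H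
  have a1 : 1 ≤ C ^ 3 * (((p.J : ℝ) + 1) * p.v) := J_ge h
  have k1 : 1 ≤ 3 * C ^ 3 := by linarith [one_le_pow₀ (n := 3) C1]
  have a2 : 3 * C ^ 3 * t1 p ≤ 1 := H.le_of_lg (by positivity) one_pos (by
    rw [logb_mul (by positivity) t0.ne', lt, logb_one]
    linarith [(H.lg_cst k1 (hK.trans H.K_le)).2, H.lg_s.2, H.η_le, H.c_le])
  have a3 := H.v_le_r.trans (r_le_t1 H)
  refine Nat.ceil_le.2 ((div_le_iff₀ v0).2 ?_)
  have a4 : C ^ 3 * (3 * t1 p) ≤ C ^ 3 * (((p.J : ℝ) + 1) * p.v) := by linarith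
  have := le_of_mul_le_mul_left a4 (by positivity)
  linarith

/-- numbers -/
theorem th_end (H : Reg β c0 C0 A c η K p) (hK : 6 * C ^ 4 ≤ K) (hη : 60 * η ≤ c)
    (h : Cl (p.spS C p.ye P) (Me p P)) (g : Cei (p.spS C p.ye P) (Me p P)) (hm : 0 < m)
    (hr : (Me p P).rb m a (p.jf + 1) ≤ p.s * (p.n : ℝ) ^ (p.c / 2 - 1 / 6)) (E : CIn12.Ev) :
    E42.Th (D p P m a E) ≤ p.κ ^ ((1 : ℝ) / 100) * un p := by
  have C1 : 1 ≤ C := h.C1
  have C0' : 0 < C := h.C0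
  have v0 := H.v0
  have s0 := H.s0
  have k0 := H.κ0
  have r0 := H.r0
  have j0 := H.jfv0
  have c34 : C ^ 3 ≤ C ^ 4 := pow_le_pow_right₀ C1 (by norm_num)
  have c14 : C ≤ C ^ 4 := le_self_pow₀ C1 (by norm_num)
  have k1 : 1 ≤ 6 * C ^ 4 := by linarith
  have lK := H.lg_cst k1 (hK.trans H.K_le)
  have H0 : (Me p P).H p.jf = 0 := by simp [Me, Pm.tst, Pm.fam, Pm.HP]
  have t := th_cl (a := a) h g H0 hm ((jc_le H (by nlinarith) h).trans h.i3) (Me p P).q none E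
  have jl : p.jf < p.J := h.jl_lt
  have b1 : (Me p P).s p.jf ≤ p.jf * (C * p.v) := (h.s_bds (k := p.jf) jl.le).2
  have b2 : (Me p P).z p.jf ≤ C * ((Me p P).s p.jf + 2 * p.v) := (h.z_s (k := p.jf) le_rfl jl).2
  have b3 : (Me p P).H (p.jf + 1) ≤
      C * 1 * p.ms 1 p.ye ((Me p P).s p.jf) * (Me p P).s p.jf := g.bot
  have b4 : p.v ≤ p.jf * p.v := le_mul_of_one_le_left v0.le (by exact_mod_cast H.jf_pos)
  have b5 : C * (p.jf * p.v) ≤ p.r := H.le_of_lg (by positivity) r0 (by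
    rw [logb_mul C0'.ne' j0.ne', H.lg_r]
    linarith [H.lg_jf.2, (H.lg_cst C1 (by linarith [H.K_le])).2, H.c_pos])
  have b6 : p.ms 1 p.ye ((Me p P).s p.jf) = p.κ * p.r ^ 2 := by
    rw [Pm.ms, one_mul, max_eq_left ((min_le_left _ _).trans (by linarith))]
  have b7 : (Me p P).z p.jf ≤ 3 * C ^ 2 * (p.jf * p.v) := by
    refine b2.trans ?_
    have := mul_le_mul_of_nonneg_right C1 j0.le
    have : (Me p P).s p.jf + 2 * p.v ≤ 3 * C * (p.jf * p.v) := by linarith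
    nlinarith
  have b8 : (Me p P).H (p.jf + 1) ≤ C ^ 2 * (p.κ * p.r ^ 2) * (p.jf * p.v) := by
    refine b3.trans ?_
    rw [b6]
    have := mul_le_mul_of_nonneg_left b1 (show 0 ≤ C * (p.κ * p.r ^ 2) by positivity)
    linarith
  have n0 := H.rp0 (p.c / 2 - 1 / 6)
  have b9 := mul_le_mul (mul_le_mul b7 b8 (h.H_nn _) (by positivity)) hr
    (Md67.rb_nonneg hm _) (by positivity)
  have u0 : 0 < p.κ ^ ((1 : ℝ) / 100) * un p :=
    mul_pos (rpow_pos_of_pos k0 _) (mul_pos (H.rp0 _) (pow_pos s0 _))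
  have lu : logb p.n (p.κ ^ ((1 : ℝ) / 100) * un p) = -(c / 100) - 5 / 6 + 5 * logb p.n p.s := by
    rw [un, logb_mul (rpow_pos_of_pos k0 _).ne' (mul_pos (H.rp0 _) (pow_pos s0 _)).ne',
      logb_mul (H.rp0 _).ne' (pow_pos s0 _).ne', logb_rpow_eq_mul_logb_of_pos k0, H.lg_κ, H.lg_rp,
      logb_pow]
    push_cast
    ring
  have d1 : 6 * C ^ 4 * (p.κ * (p.r ^ 2 * ((p.jf * p.v) ^ 2 *
      (p.s * (p.n : ℝ) ^ (p.c / 2 - 1 / 6))))) ≤ p.κ ^ ((1 : ℝ) / 100) * un p :=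
    H.le_of_lg (by positivity) u0 (by
      rw [lu, logb_mul (zero_lt_one.trans_le k1).ne' (by positivity), logb_mul k0.ne' (by positivity),
        logb_mul (pow_pos r0 2).ne' (by positivity), logb_mul (pow_pos j0 2).ne' (by positivity),
        logb_mul s0.ne' n0.ne', logb_pow p.n p.r, logb_pow p.n (p.jf * p.v), H.lg_κ, H.lg_r,
        H.lg_rp, H.hc]
      push_cast
      linarith [H.lg_jf.2, H.c_pos])
  have d2 : 6 * C ^ 4 * p.v ≤ p.κ ^ ((1 : ℝ) / 100) * un p :=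
    H.le_of_lg (by positivity) u0 (by
      have : (2 : ℝ) ≤ A := by exact_mod_cast H.A2
      rw [lu, logb_mul (zero_lt_one.trans_le k1).ne' v0.ne']
      linarith [H.lg_v_le, H.lg_s.1, H.c_le, H.η_le])
  have d3 : p.ms 1 p.ye 1 ≤ 1 := by
    have := h.msθ
    have l1 : 1 ≤ log (p.n : ℝ) := H.log1
    have θ0 : 0 < p.ms 1 p.ye 1 := h.θ0
    change p.ms 1 p.ye 1 * log (p.n : ℝ) ≤ 1 at this
    nlinarith
  have d4 : C * 1 * p.ms 1 p.ye 1 * p.v ≤ C ^ 4 * p.v :=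
    mul_le_mul_of_nonneg_right ((mul_le_of_le_one_right (by positivity) d3).trans (by linarith))
      v0.le
  have d5 : 0 ≤ C ^ 4 * p.v := by positivity
  refine t.trans ?_
  change (Me p P).z p.jf * (Me p P).H (p.jf + 1) * (Me p P).rb m a (p.jf + 1) +
    C * 1 * p.ms 1 p.ye 1 * p.v ≤ _
  linarith

theorem rb_end (H : Reg β c0 C0 A c η K p) (hK : 6 * C ^ 4 ≤ K) (hη : 60 * η ≤ c)
    (h : Cl (p.spS C p.ye P) (Me p P)) (hm : 0 < m)
    (hE : p.ph2 P (Me p P) m a ≤ p.s ^ 3 * (p.n : ℝ) ^ (p.c - 1 / 2)) :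
    (Me p P).rb m a (p.jf + 1) ≤ p.s * (p.n : ℝ) ^ (p.c / 2 - 1 / 6) := by
  have C1 : 1 ≤ C := h.C1
  have C0' : 0 < C := h.C0
  have v0 := H.v0
  have s0 := H.s0
  have j0 := H.jfv0
  have c34 : C ^ 3 ≤ C ^ 4 := pow_le_pow_right₀ C1 (by norm_num)
  have c24 : C ^ 2 ≤ C ^ 4 := pow_le_pow_right₀ C1 (by norm_num)
  have c12 : C ≤ C ^ 2 := le_self_pow₀ C1 (by norm_num)
  have k1 : 1 ≤ 6 * C ^ 4 := by linarith
  have lK := H.lg_cst k1 (hK.trans H.K_le)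
  obtain ⟨l, hl⟩ : ∃ l, l = p.s * (p.n : ℝ) ^ (p.c / 3 - 1 / 6) := ⟨_, rfl⟩
  have l0 : 0 < l := hl ▸ mul_pos s0 (H.rp0 _)
  have ll : logb p.n l = logb p.n p.s + c / 3 - 1 / 6 := by
    rw [hl, logb_mul s0.ne' (H.rp0 _).ne', H.lg_rp, H.hc]; ring
  have l3 : p.s ^ 3 * (p.n : ℝ) ^ (p.c - 1 / 2) = l ^ 3 := by
    rw [hl, mul_pow, Pre29.rp_pow]; congr 2; push_cast; ring
  have jl : p.jf * p.v ≤ l := H.le_of_lg j0 l0 (by linarith [H.lg_jf.2, H.c_pos])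
  have b4 : p.v ≤ p.jf * p.v := le_mul_of_one_le_left v0.le (by exact_mod_cast H.jf_pos)
  have n1 : C * l ≤ ⌈C * l / p.v⌉₊ * p.v := (div_le_iff₀ v0).1 (Nat.le_ceil _)
  have n2 : ⌈C * l / p.v⌉₊ * p.v ≤ C * l + p.v := by
    have := (lt_div_iff₀ v0).1 (sub_lt_iff_lt_add.2
      (Nat.ceil_lt_add_one (div_pos (mul_pos C0' l0) v0).le))
    linarith
  generalize ⌈C * l / p.v⌉₊ = n at n1 n2
  have Cl : l ≤ C * l := le_mul_of_one_le_left l0.le C1
  have a1 : 1 ≤ C ^ 3 * (((p.J : ℝ) + 1) * p.v) := J_ge h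
  have a2 : 6 * C ^ 4 * l ≤ 1 := H.le_of_lg (by positivity) one_pos (by
    rw [logb_mul (by positivity) l0.ne', ll, logb_one]
    linarith [H.lg_s.2, H.η_le, H.c_le])
  have a3 : p.jf + n < p.J := by
    have b1 : C ^ 3 * (6 * (C * l)) ≤ C ^ 3 * (((p.J : ℝ) + 1) * p.v) := by linarith
    have b2 := le_of_mul_le_mul_left b1 (by positivity)
    have b3 : ((p.jf + n : ℕ) : ℝ) * p.v < p.J * p.v := by push_cast; linarith
    exact_mod_cast lt_of_mul_lt_mul_right b3 v0.le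
  have r := rb_low (a := a) h hm l0 n1 a3 (hE.trans_eq l3)
  have s1 : (Me p P).s (p.jf + n) ≤ ((p.jf + n : ℕ) : ℝ) * (C * p.v) := (h.s_bds a3.le).2
  have s2 : ((p.jf + n : ℕ) : ℝ) * (C * p.v) ≤ 3 * C ^ 2 * l := by
    have := mul_le_mul_of_nonneg_left
      (show p.jf * p.v + n * p.v ≤ 3 * (C * l) by linarith) C0'.le
    push_cast
    linarith
  have s3 : 6 * C ^ 4 * l ≤ p.s * (p.n : ℝ) ^ (p.c / 2 - 1 / 6) :=
    H.le_of_lg (by positivity) (mul_pos s0 (H.rp0 _)) (by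
      rw [logb_mul (by positivity) l0.ne', ll, logb_mul s0.ne' (H.rp0 _).ne', H.lg_rp, H.hc]
      linarith [H.c_pos])
  refine le_trans r ?_
  change (Me p P).s (p.jf + n) + l ≤ _
  nlinarith [mul_le_mul_of_nonneg_right c24 l0.le, mul_le_mul_of_nonneg_right (C1.trans (c12.trans c24)) l0.le]

end T26

/-- the location input of `ThS` -/
def RbS (β : ℝ) : Prop := Sml β fun _ p => ∀ P m a, p.SpOk (7 / 20) P → In p m a →
  (Me p P).rb m a (p.jf + 1) ≤ p.s * (p.n : ℝ) ^ (p.c / 2 - 1 / 6)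

/-- **the thick low level** -/
theorem thS_of {β : ℝ} (hβ : 1 < β) (h : RbS β) : ThS β := by
  unfold ThS EvA
  refine Sml.glueC hβ (clSp β hβ) h fun C _ c0 C0 _ _ => ⟨0, fun A _ => ⟨1, one_pos, fun c _ hc =>
    ⟨c / 60, by positivity, fun η hη _ => ⟨6 * C ^ 4, fun p H G R P m a E x => ?_⟩⟩⟩⟩
  have g := G p.ye P H.r_le_ye le_rfl x.sp
  exact T26.th_end H le_rfl (by linarith) g.1 g.2 (H.n0.trans_le x.inn.m1) (R P m a x.sp x.inn) E

/-- the input from the total energy -/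
theorem rbS_of {β : ℝ} (hβ : 1 < β) (h : Sml β fun _ p => ∀ P, p.SpOk (7 / 20) P → ∀ m a,
    p.InW m a → p.ph2 P (p.tst P p.ye) m a ≤ p.s ^ 3 * (p.n : ℝ) ^ (2 / 3 * p.c - 1 / 2)) :
    RbS β := by
  unfold RbS
  refine Sml.glueC hβ (clSp β hβ) h fun C _ c0 C0 _ _ => ⟨0, fun A _ => ⟨1, one_pos, fun c _ hc =>
    ⟨c / 60, by positivity, fun η hη _ => ⟨6 * C ^ 4, fun p H G R P m a sp x => ?_⟩⟩⟩⟩
  refine T26.rb_end H le_rfl (by linarith) (G p.ye P H.r_le_ye le_rfl sp).1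
    (H.n0.trans_le x.m1) ((R P sp m a ⟨x.m1, x.m2, x.a1, x.a2⟩).trans ?_)
  refine mul_le_mul_of_nonneg_left (Pre29.rp_le H.n1 ?_) (pow_pos H.s0 3).le
  rw [H.hc]
  linarith

/-- **`ThS` from the output of SR on the END model** (`Sp41.srE`) -/
theorem thS_sr {β : ℝ} (hβ : 1 < β) (h : Sml β fun _ p => ∀ P, p.SpOk (7 / 20) P → ∀ m a,
    p.InW m a → p.ph2 P (p.tst P p.ye) m a ≤ p.s ^ 3 * (p.n : ℝ) ^ (2 / 3 * p.c - 1 / 2)) :
    ThS β := thS_of hβ (rbS_of hβ h)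

end Crest.Agent.T156.Alt.R2

end
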