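import Crest.Agent.T156.R2VD_23
import Crest.Agent.T156.R2Th_26

/-!
# Row 156, R2 (helper26): the crude location `CrE` of the END model
-/

set_option autoImplicit false
set_option linter.unusedSectionVars false
set_option linter.unusedVariables false

noncomputable section

namespace Crest.Agent.T156.Alt.R2

open Real Finset

namespace T26

variable {S : Sc} {M : Md} {m : ℕ} {a : ℝ}

/-- one window of `n` sloped nodes above `j` -/
theorem rb_win (h : Cl S M) (hm : 0 < m) {l : ℝ} {n j : ℕ} (l0 : 0 < l) (hn : S.C * l ≤ n * S.v)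
    (hj : S.jl ≤ j) (hJ : j + n < S.J)
    (hE : ∑ k ∈ Ioc S.jl S.Jp, (M.z k - M.z (k - 1)) * M.del m a k ^ 2 ≤ l ^ 3) :
    M.rb m a j ≤ M.s (j + n) + l := by
  by_contra hc
  have rm := Md67.rb_mono (M := M) (a := a) hm
  have i1 := h.i1
  have i3 := h.i3
  have i4 := h.i4
  have C0 := h.C0
  have v0 := h.v0
  obtain ⟨d, hd⟩ : ∃ d, d = M.rb m a j - M.s (j + n) := ⟨_, rfl⟩
  have d1 : l < d := by linarith [not_le.1 hc]
  have a1 : ∑ k ∈ Ioc j (j + n), S.v / S.C * d ^ 2 ≤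
      ∑ k ∈ Ioc j (j + n), (M.z k - M.z (k - 1)) * M.del m a k ^ 2 :=
    sum_le_sum fun k hk => by
      obtain ⟨k1, k2⟩ := mem_Ioc.1 hk
      have w := (h.zs (k - 1) (by omega) (by omega)).1
      rw [Nat.sub_add_cancel (by omega)] at w
      have e : d ≤ M.del m a k := by
        have := rm k1.le
        have := h.q_le_s (k := k) (by omega)
        have := h.sm k2
        rw [Md.del]
        linarith
      exact mul_le_mul w (pow_le_pow_left₀ (by linarith) e 2) (sq_nonneg _)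
        ((div_pos v0 C0).le.trans w)
  have a2 := sum_le_sum_of_subset_of_nonneg
    (f := fun k => (M.z k - M.z (k - 1)) * M.del m a k ^ 2)
    (Ioc_subset_Ioc hj (show j + n ≤ S.Jp by omega)) fun k _ _ =>
      mul_nonneg (sub_nonneg.2 (h.leg.zm (Nat.sub_le k 1))) (sq_nonneg _)
  rw [sum_const, Nat.card_Ioc, Nat.add_sub_cancel_left, nsmul_eq_mul, ← mul_assoc,
    ← mul_div_assoc] at a1
  have a3 : l ≤ n * S.v / S.C := by rw [le_div_iff₀ C0]; linarith
  have a4 : l ^ 2 < d ^ 2 := pow_lt_pow_left₀ d1 l0.le two_ne_zero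
  have a5 := mul_le_mul_of_nonneg_right a3 (sq_nonneg d)
  nlinarith [mul_lt_mul_of_pos_left a4 l0]

/-- **crude location from the total energy**, any spread -/
theorem cru_cl (h : Cl S M) (hm : 0 < m) {l : ℝ} (vl : S.v ≤ l) (l1 : 4 * S.C ^ 3 * l ≤ 1)
    (hE : ∑ k ∈ Ioc S.jl S.Jp, (M.z k - M.z (k - 1)) * M.del m a k ^ 2 ≤ l ^ 3) {k : ℕ}
    (hk : S.jl ≤ k) : M.rb m a k ≤ 5 * S.C ^ 2 * max (M.z k) l := by
  have C0 := h.C0
  have C1 := h.C1
  have v0 := h.v0
  have l0 := v0.trans_le vl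
  have i1 := h.i1
  have i2 := h.i2
  have z0 := h.z_pos k
  have m1 := le_max_left (M.z k) l
  have m2 := le_max_right (M.z k) l
  have c2 : S.C ≤ S.C ^ 2 := le_self_pow₀ C1 two_ne_zero
  have n1 : S.C * l ≤ ⌈S.C * l / S.v⌉₊ * S.v := (div_le_iff₀ v0).1 (Nat.le_ceil _)
  have n2 : ⌈S.C * l / S.v⌉₊ * S.v ≤ S.C * l + S.v := by
    have := (lt_div_iff₀ v0).1 (sub_lt_iff_lt_add.2
      (Nat.ceil_lt_add_one (div_pos (mul_pos C0 l0) v0).le))
    linarith
  generalize ⌈S.C * l / S.v⌉₊ = n at n1 n2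
  generalize max (M.z k) l = x at m1 m2
  have Cl : l ≤ S.C * l := le_mul_of_one_le_left l0.le C1
  have n3 : (n : ℝ) * (S.C * S.v) ≤ 2 * S.C ^ 2 * l := by
    have := mul_le_mul_of_nonneg_left (show n * S.v ≤ 2 * (S.C * l) by linarith) C0.le
    linarith
  have x1 := mul_le_mul_of_nonneg_left m1 C0.le
  have x2 := mul_le_mul_of_nonneg_left m2 (pow_pos C0 2).le
  have x3 := mul_le_mul_of_nonneg_right c2 (l0.le.trans m2)
  rcases lt_or_ge (k + n) S.J with c | c
  · have a1 := rb_win (a := a) h hm l0 n1 hk c hE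
    have a2 := (h.s_tel (Nat.le_add_right k n) c.le).2
    have a3 := (h.z_s (k := k) (by omega) (by omega)).1
    rw [Nat.cast_add, add_sub_cancel_left] at a2
    rw [sub_le_iff_le_add, div_le_iff₀ C0] at a3
    have a4 := mul_le_mul_of_nonneg_left vl (pow_pos C0 2).le
    have a5 := mul_le_mul_of_nonneg_right (C1.trans c2) l0.le
    linarith
  · have r1 := Md67.rb_le_one (M := M) (a := a) hm k
    have a1 := h.atom.1
    have a2 : M.z (S.J - 1) ≤ M.z k + 2 * S.C ^ 2 * l := by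
      rcases le_total k (S.J - 1) with d | d
      · have b1 := (h.z_tel (i := k) (j := S.J - 1) (by omega) d (by omega)).2
        have b2 : ((S.J - 1 : ℕ) : ℝ) - k ≤ n := by
          have : ((S.J - 1 : ℕ) : ℝ) ≤ k + n := by exact_mod_cast (by omega : S.J - 1 ≤ k + n)
          linarith
        have := mul_le_mul_of_nonneg_right b2 (mul_pos C0 v0).le
        linarith
      · have := h.leg.zm d
        have : 0 ≤ 2 * S.C ^ 2 * l := by positivity
        linarith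
    rw [div_le_iff₀ C0] at a1
    have a3 := mul_le_mul_of_nonneg_right a2 C0.le
    have a4 : 0 ≤ S.C ^ 2 * x := mul_nonneg (pow_pos C0 2).le (l0.le.trans m2)
    linarith

end T26

/-- **crude location of the END model** from the output of SR (`En91.SrE`) -/
theorem crE_of {β : ℝ} (hβ : 1 < β) (h : Sml β fun _ p => ∀ P, p.SpOk (7 / 20) P → ∀ m a,
    p.InW m a → p.ph2 P (p.tst P p.ye) m a ≤ p.s ^ 3 * (p.n : ℝ) ^ (2 * p.c - 1 / 2)) :
    CrE β := by
  unfold CrE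
  refine Sml.glueC hβ (clSp β hβ) h fun C C1 c0 C0 _ _ => ⟨0, fun A _ => ⟨1, one_pos, fun c _ hc =>
    ⟨c, hc, fun η hη _ => ⟨5 * C ^ 3, fun p H G R P m a sp x k k1 k2 => ?_⟩⟩⟩⟩
  have g := (G p.ye P H.r_le_ye le_rfl sp).1
  have s0 := H.s0
  have l0 : 0 < p.r / p.κ := div_pos H.r0 H.κ0
  have ll : logb p.n (p.r / p.κ) = logb p.n p.s + c / 7 - 1 / 6 + c := by
    rw [logb_div H.r0.ne' H.κ0.ne', H.lg_r, H.lg_κ]; ring
  have c23 : C ^ 2 ≤ C ^ 3 := pow_le_pow_right₀ C1 (by norm_num)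
  have k0 : 1 ≤ 5 * C ^ 3 := by linarith [one_le_pow₀ (n := 3) C1]
  have a1 : 5 * C ^ 3 * (p.r / p.κ) ≤ 1 := H.le_of_lg (by positivity) one_pos (by
    rw [logb_mul (by positivity) l0.ne', ll, logb_one]
    linarith [(H.lg_cst k0 H.K_le).2, H.lg_s.2, H.c_le])
  have a2 : p.s ^ 3 * (p.n : ℝ) ^ (2 * p.c - 1 / 2) ≤ (p.r / p.κ) ^ 3 :=
    H.le_of_lg (mul_pos (pow_pos s0 3) (H.rp0 _)) (pow_pos l0 3) (by
      rw [logb_mul (pow_pos s0 3).ne' (H.rp0 _).ne', logb_pow, logb_pow, ll, H.lg_rp, H.hc]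
      push_cast
      linarith)
  have a3 := T26.cru_cl (a := a) g (H.n0.trans_le x.m1) (l := p.r / p.κ)
    (H.v_le_r.trans (le_div_self H.r0.le H.κ0 H.κ1))
    (le_trans (by
      change 4 * C ^ 3 * (p.r / p.κ) ≤ _
      have : 0 ≤ C ^ 3 * (p.r / p.κ) := by positivity
      linarith) a1)
    ((R P sp m a ⟨x.m1, x.m2, x.a1, x.a2⟩).trans a2) k1
  refine a3.trans (mul_le_mul_of_nonneg_right ?_ (l0.le.trans (le_max_right _ _)))
  change 5 * C ^ 2 ≤ _
  linarith [H.K_le]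

end Crest.Agent.T156.Alt.R2

end
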