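import Crest.Agent.T156.R2GO_90
import Crest.Agent.T156.EnFe_13
import Crest.Agent.T156.EnD_91

/-!
# Row 156, R2 (helper90): the inputs `Eq78.EI` on the END model
-/

set_option autoImplicit false
set_option linter.unusedSectionVars false

noncomputable section

namespace Crest.Agent.T156.Alt.R2.J90

open Real Finset
open Crest.Agent.T156.Alt.Md67 Crest.Agent.T156.Alt.R62

variable {β c0 C0 c η K0 K x ε : ℝ} {A : ℕ} {p : Pm} {P : Pl} {m : ℕ} {a : ℝ} {S : Sc}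

theorem sJ90 {M : Md} (c : Cl S M) : 1 ≤ 3 * S.C ^ 3 * M.s S.J := by
  have C0 := c.C0
  have a := c.atom.1
  have i0 := c.i0
  have i1 := c.i1
  have i2 := c.i2
  have b1 := (c.z_s (k := S.J - 1) (by omega) (by omega)).2
  have b2 := (c.s_bds (k := S.J - 1) (by omega)).1
  have b3 : (1 : ℝ) ≤ ((S.J - 1 : ℕ) : ℝ) := by exact_mod_cast (by omega : 1 ≤ S.J - 1)
  have b4 := mul_le_mul_of_nonneg_right b3 (div_pos c.v0 C0).le
  have b5 : S.v ≤ S.C * M.s (S.J - 1) := by rw [← div_le_iff₀' C0]; linarith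
  have b6 := mul_le_mul_of_nonneg_left b5 C0.le
  have b7 := mul_le_mul_of_nonneg_right c.C1 (mul_nonneg C0.le (c.s_nn (S.J - 1)))
  have b := (show M.z (S.J - 1) ≤ 3 * S.C ^ 2 * M.s (S.J - 1) by linarith).trans
    (mul_le_mul_of_nonneg_left (c.sm (Nat.sub_le S.J 1)) (by positivity))
  rw [div_le_iff₀ C0] at a
  linarith [mul_le_mul_of_nonneg_right b C0.le]

theorem ei_end (H : Reg β c0 C0 A c η K0 p) (hc : c ≤ 1 / 10 ^ 5) (hη : 100 * η ≤ c) (hε : ε ≤ c)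
    (F : Fe0 K p P S (Me p P)) (hC : S.C ≤ (p.n : ℝ) ^ η) (sp : p.SpOk (7 / 20) P)
    (L : En91.LocE p P (Me p P) m a) (x0 : 0 < x)
    (hx : x ^ 3 = p.s ^ 4 * (p.n : ℝ) ^ (22 * p.c - 13 / 20)) :
    Eq78.EI ((p.n : ℝ) ^ ε) S (Me p P) m a x ((p.n : ℝ) ^ (-(7 / 20) - c))
      ((p.n : ℝ) ^ (c - 7 / 20)) := by
  have cl := F.cl
  have s0 := H.s0
  have N0 := H.N0
  have c0' := H.c_pos
  have η0 := H.η_pos
  have C0' := cl.C0
  have κ0 := H.κ0
  have y0 := H.ye0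
  have v0 := H.v0
  have ls := H.lg_s
  have ln := H.lg_n
  have lκ := H.lg_κ
  have ly := H.lg_ye
  have lv := H.lg_v_le
  have lC := H.lg_cst cl.C1 hC
  have l4 := H.lg_num (x := 4) (by norm_num) (by norm_num)
  have l7 := H.lg_num (x := 768) (by norm_num) (by norm_num)
  have A2 : (2 : ℝ) ≤ A := by exact_mod_cast H.A2
  have i0 := cl.i0
  have i1 := cl.i1
  have i2 := cl.i2
  have i3 := cl.i3
  have hcc := H.hc
  have lx : 3 * logb p.n x = 4 * logb p.n p.s + 22 * c - 13 / 20 := by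
    have := congrArg (logb p.n) hx
    rw [logb_pow, logb_mul (by positivity) (by positivity), logb_pow, H.lg_rp, H.hc] at this
    push_cast at this
    linarith
  have sJ := sJ90 cl
  have sJ' : ∀ {y : ℝ}, 0 < y → logb p.n y + 4 * η ≤ 0 → 256 * y ≤ (Me p P).s S.J := by
    intro y h0 h1
    have b : 768 * S.C ^ 3 * y ≤ 1 := H.le_of_lg (by positivity) one_pos (by lg_norm; linarith)
    refine le_of_mul_le_mul_left ?_ (show 0 < 3 * S.C ^ 3 by positivity)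
    linarith
  have u0 : 0 < S.u0 := (H.rp0 _).trans_le F.u0'.1
  have lu : -(71 / 200) ≤ logb p.n S.u0 := (H.lg_rp _).ge.trans (H.lg_mono (H.rp0 _) F.u0'.1)
  have w3 : S.w3 1 = 1 / (p.n * (p.κ * p.ye ^ 2)) := by
    have e : S.ms 1 = p.κ * p.ye ^ 2 := F.θ.trans (by rw [Pm.μe, Pm.μ, one_mul])
    rw [Sc.w3, e, F.eF, F.en, mul_one]
  have γγ : (p.n : ℝ) ^ (-(7 / 20 : ℝ)) ≤ (p.n : ℝ) ^ (c - 7 / 20) :=
    Pre29.rp_le H.n1 (by linarith)
  have L6 := F.lL.1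
  have Lc := F.lL.2.2
  have yJ : 256 * p.ye ≤ (Me p P).s S.J := sJ' y0 (by linarith)
  refine ⟨x0, ?_, ?_, ?_, ?_, u0, ?_, ?_, F.spr.trans γγ, fun k k1 k2 => ?_, fun k k1 k2 => ?_, ?_,
    F.dj.2, F.rev, ?_, ?_, ?_⟩
  · exact H.le_of_lg (by positivity) one_pos (by lg_norm; rw [ln]; linarith)
  · rw [F.ev]
    exact H.le_of_lg v0 (by positivity) (by lg_norm; linarith)
  · rw [F.ue]
    exact H.le_of_lg (by positivity) (by positivity) (by lg_norm; rw [ln]; linarith)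
  · have b0 : 0 < p.s * (p.n : ℝ) ^ (p.c / 13 - 1 / 6) := by positivity
    have b1 := sJ' b0 (by lg_norm; rw [ln]; linarith)
    linarith [F.sj]
  · rw [F.u0, div_le_iff₀ (by linarith), show c - 7 / 20 = -(7 / 20) + p.c by linarith,
      rpow_add N0]
    have b0 := H.rp0 (-(7 / 20 : ℝ))
    have b1 : 64 ≤ (p.n : ℝ) ^ p.c * p.lL := by nlinarith
    nlinarith
  · exact H.le_of_lg (by positivity) (by positivity) (by lg_norm; rw [ln]; linarith)
  · have e : ∀ k, (Me p P).ck k = (Me p P).q k := fun k => by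
      change _ + P.rs _ = _
      rw [sp.rs]
      exact add_zero _
    rw [← e, ← e]
    exact (cl.ckm k (by omega) k2).2
  · have b1 : p.xs ≤ (Me p P).z (k - 1) := F.ex ▸ cl.leg.zm (by omega)
    have b2 : (p.n : ℝ) ^ (-(3 : ℝ)) ≤ 1 - (Me p P).z (k - 1) := by
      have j1 := F.eJ
      have j2 := F.eP
      have j3 := F.el
      have e : (Me p P).z (S.Jp - 1) = P.x P.I := by
        change p.zP P (max (S.Jp - 1) p.jf) = _
        rw [max_eq_left (by omega), Pm.zP, if_neg (by omega), if_pos (by omega)]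
        congr 1
        unfold Pm.Jp at j2
        omega
      linarith [sp.e1, cl.leg.zm (show k - 1 ≤ S.Jp - 1 by omega)]
    have b3 := F.d1 _ b1 b2
    have e : R62.ls S (Me p P) k = S.den ((Me p P).z (k - 1)) *
        min ((Me p P).z (k - 1) - p.xs + S.u0) (1 - (Me p P).z (k - 1)) := by
      rw [← F.ex]; rfl
    rw [e]
    refine ⟨le_trans ?_ b3.1, b3.2.trans γγ⟩
    rw [rpow_sub N0, ← hcc]
    exact div_le_div_of_nonneg_left (H.rp0 _).le (by linarith) Lc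
  · rw [F.ev]
    exact H.le_of_lg (by positivity) (by positivity) (by lg_norm; rw [ln]; linarith)
  · rw [w3]
    exact H.le_of_lg (by positivity) (by positivity) (by lg_norm; rw [ln]; linarith)
  · rw [w3]
    exact H.le_of_lg (by positivity) (by positivity) (by lg_norm; rw [ln]; linarith)
  · rw [hx]
    refine (sum_le_sum_of_subset_of_nonneg (fun k hk => ?_) fun k _ _ =>
      mul_nonneg (sub_nonneg.2 (cl.leg.zm (Nat.sub_le k 1))) (sq_nonneg _)).trans L.top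
    rw [← F.el, ← F.eP]
    rcases mem_union.1 hk with h | h
    · obtain ⟨h1, h2, -⟩ := mem_filter.1 h
      have h3 := mem_Ioo.1 h1
      refine mem_filter.2 ⟨mem_Ioc.2 ⟨h3.1, by omega⟩, le_trans ?_ h2⟩
      unfold T0
      linarith
    · have h3 := mem_Icc.1 h
      exact mem_filter.2 ⟨mem_Ioc.2 ⟨by omega, h3.2⟩, le_trans (by linarith) (cl.sm h3.1)⟩

/-- **`GhX`** -/
theorem ghX90 (hβ : 1 < β) (hL : En91.LocS β) (hE : Eq78.EqS) : GhX β := by
  refine Sml.glueCL hβ (feE hβ) hL hE (fun K => 8 * K ^ 2) (fun c => c) (fun c hc => hc)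
    fun K hK c0 C0 _ _ => ⟨5, fun A hA => ⟨1 / 10 ^ 5, by norm_num, fun c hc c0' =>
      ⟨c / 100, by positivity, fun η hη _ => ⟨8 * K ^ 2, fun p H hf hs L P m a sp hi => ?_⟩⟩⟩⟩
  have f := hf (H.hA ▸ hA) P sp
  have hη' : 100 * η ≤ c := by linarith
  have hC := f.eC.trans_le H.K_le
  have s0 := H.s0
  have N0 := H.N0
  have Y0 : 0 < p.s ^ 4 * (p.n : ℝ) ^ (22 * p.c - 13 / 20) := by positivity
  obtain ⟨x, x0, hx⟩ : ∃ x : ℝ, 0 < x ∧ x ^ 3 = p.s ^ 4 * (p.n : ℝ) ^ (22 * p.c - 13 / 20) :=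
    ⟨_, rpow_pos_of_pos Y0 _, rpow_inv_natCast_pow Y0.le (by norm_num)⟩
  have sc : (p.alS K 0 P).In m a := ⟨hi.m1, hi.m2, hi.a1, hi.a2⟩
  obtain ⟨G, O⟩ := L _ _ f.eC f.eA f.en f.cl m a sc x _ _
    (ei_end H hc hη' H.hc.le f hC sp (hs P sp m a ⟨hi.m1, hi.m2, hi.a1, hi.a2⟩) x0 hx)
  exact gx_out H hc hη' f.cl hC f.eJ f.eP f.en f.eA (lg_cl f.cl H.n0 sc) f.mesh f.ue.le x0 hx O

end Crest.Agent.T156.Alt.R2.J90

end
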