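import Crest.Agent.T156.Yd_50
import Crest.Agent.T156.CHd_50
import Crest.Agent.T156.R2EDef_42
import Crest.Agent.T156.AltOne_23

/-!
# Row 156, R2 (helper50): the site inputs `H1`, `H2` of (EE)
-/

set_option autoImplicit false
set_option linter.all false

noncomputable section

namespace Crest.Agent.T156.Cas.C40.E42

open MeasureTheory Real Set Filter Topology
open Crest.Agent.T157.E Crest.Agent.T157.Casc Crest.Agent.T157.SL
open Crest.ProbabilityR.SpinGlassDynamics (spin)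
open Yd50
open Ker15 (R1 tm)

namespace H50

variable {D : CD} {τ0 η : ℝ}

theorem lenS (D : CD) : D.S.length = D.K := opS_length

theorem len (D : CD) (i : ℕ) : (D.S.drop i).length = D.K - i := by rw [List.length_drop, lenS]

theorem r1S (H : OOk D.M D.q) : R1 D.S := Ker15.r1_of (rk_opS H)

theorem tmS (H : OOk D.M D.q) {j : ℕ} (hj : j ≤ D.K) : tm D.S j = D.sig j :=
  (Ker15.tm_eq (rk_opS H) j).trans (TT_opV hj)

theorem tm_drop (H : OOk D.M D.q) {i j : ℕ} (hj : j + i ≤ D.K) :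
    tm (D.S.drop i) j = D.sig (j + i) - D.sig i := by
  rw [← tmS H hj, ← tmS H (by omega : i ≤ D.K), add_comm j]
  simp only [tm, cacc, List.take_add, List.map_append, List.sum_append]
  ring

theorem ex_drop (D : CD) (i j : ℕ) : ex (D.S.drop i) j = ex D.B (j + i) := by
  rw [← Cav22.ex_tilt (tilt_opS (q := D.q))]
  simp only [T157.Casc.ex, List.getElem?_drop, add_comm i]

theorem dm_drop (D : CD) (i j : ℕ) : dm (D.S.drop i) 0 (j + 1) = D.dx (j + 1 + i) := by
  rw [add_right_comm, dm, CD.dx, dm, exP, exP, ex_drop, ex_drop, add_right_comm]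

theorem sig_mono (H : OOk D.M D.q) {i j : ℕ} (h : i ≤ j) (hj : j ≤ D.K) : D.sig i ≤ D.sig j := by
  rw [← tmS H hj, ← tmS H (h.trans hj)]
  exact (r1S H).tm_mono h

theorem sig_nn (H : OOk D.M D.q) {j : ℕ} (hj : j ≤ D.K) : 0 ≤ D.sig j := by
  rw [← tmS H hj, ← tm0 D.S]
  exact (r1S H).tm_mono (Nat.zero_le j)

theorem La1 (H : OOk D.M D.q) : 1 ≤ La D := le_add_of_nonneg_right (sig_nn H le_rfl)

theorem eta_pos (h : Hm D η) (H : OOk D.M D.q) : 0 < η := by
  obtain ⟨i, U, -, -, -, -, -, e⟩ := h.ent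
  refine h.η0.lt_of_ne fun z => ?_
  have := mul_pos (exp_pos (-U / 4)) (pow_pos (one_pos.trans_le (La1 H)) 2)
  rw [← z] at e
  norm_num at e
  linarith

theorem eu (ok : D.Ok τ0) (h : Hm D η) : Eu (D.S.drop D.J) (2 * η ^ 8) := by
  have H := ok.ook
  have c := ok.cut
  have l2 : 1 ≤ La D ^ 2 := one_le_pow₀ (La1 H)
  have p8 : 0 ≤ η ^ 8 := by positivity
  have r1 : R1 (D.S.drop D.J) := fun l hl => r1S H l (List.mem_of_mem_drop hl)
  refine ⟨r1, One15.mono_drop _ (Cav22.mono_tilt tilt_opS.symm ok.mono), by rw [len]; omega, ?_,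
    fun j hj => ?_, fun z => ?_⟩
  · obtain ⟨r, hr⟩ : ∃ r, D.K - D.J = r + 1 := ⟨D.K - D.J - 1, by omega⟩
    rw [len, hr, dm_drop, show r + 1 + D.J = D.K by omega, ok.top]
  · rw [len, Finset.mem_Ico] at hj
    have a := h.mesh (j + D.J) (by omega) (by omega)
    have b := sub_nonneg.2 (sig_mono H (Nat.le_succ (j + D.J)) (by omega))
    rw [tm_drop H (by omega), tm_drop H (by omega), add_right_comm]
    nlinarith
  · obtain ⟨i, U, i0, i1, hm, hU, -, e⟩ := h.ent
    obtain ⟨a, d, M', hM, h0⟩ := h.root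
    obtain ⟨k, rfl⟩ : ∃ k, i = k + D.J := ⟨i - D.J, by omega⟩
    set W := D.sig D.K - D.sig (k + D.J) with hW
    have u : U ≤ W := by
      have t : ∀ j, 0 < j → D.τ j = bb D.n D.β ^ 2 * d := fun j hj => by
        obtain ⟨j, rfl⟩ := Nat.exists_eq_succ_of_ne_zero hj.ne'
        rw [CD.τ, oTau, hM, Kid68.dAcc_root h0]
      have d0 : 0 ≤ d := (H.nn (a, d, 0) (hM ▸ List.mem_cons_self)).1
      have q1 := (H.mem i1.le).2
      have := mul_le_of_le_one_right (by positivity : 0 ≤ bb D.n D.β ^ 2 * d) q1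
      rw [hW, CD.sig, CD.sig, t _ (by omega), t _ (by omega), H.top]
      linarith
    have b : exp (-W / 2) ≤ η ^ 8 := by
      have e1 : exp (-U / 4) ≤ η ^ 8 := (le_mul_of_one_le_right (exp_pos _).le l2).trans e
      have e2 : exp (-W / 2) ≤ exp (-U / 4) * exp (-U / 4) := by
        rw [← exp_add]; exact exp_le_exp.2 (by linarith)
      exact e2.trans ((mul_le_of_le_one_right (exp_pos _).le
        (e1.trans (pow_le_one₀ h.η0 h.η1))).trans e1)
    have e2 := Kid68.node_Sn_tail One15.w1 (fun _ => Or.inr rfl) (L := D.S.drop D.J) (i := k)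
      (by rw [len]; omega) (fun j hj => (ex_drop D _ j).trans (hm _ (by omega)))
      (c := fun e e' => W * (spin e * spin e')) (v := W) (b := η ^ 8) (fun x y => by
        rw [r1.cacc, r1.cacc, tm_drop H (by rw [len]; omega), tm_drop H i1.le, len,
          Nat.sub_add_cancel c.le]
        ring) (fun x _ => by rw [← sq, One15.spin_sq, mul_one]) (fun x _ => by
        have h4 : ∀ (s : Finset Bool), s = {!x} →
            ∑ y ∈ s, 1 * exp (-(W - W * (spin x * spin y)) / 4) ≤ η ^ 8 := by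
          rintro _ rfl
          rw [Finset.sum_singleton, one_mul]
          refine le_of_eq_of_le (congrArg exp ?_) b
          cases x <;> simp [spin] <;> ring
        exact h4 _ (by ext y; cases x <;> cases y <;> simp)) z
    exact abs_le.2 ⟨by linarith [e2.1], e2.2⟩

theorem lam_eq (D : CD) : D.lam = mg (D.S.drop D.J) 1 0 := congrFun ((ch_xc _).itD 2) 0

theorem k4_eq (D : CD) : D.k4 = mg (D.S.drop D.J) 3 0 := congrFun ((ch_xc _).itD 4) 0

/-- `dP r []` in any test direction -/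
theorem dP_nil {a : ℕ → ℝ} (hW : D.W = some a) (r : ℕ) :
    D.dP (r + 1) [] = -∑ j ∈ D.up, a j * gam (D.S.drop D.J) (j - D.J) (r + 1) 0 := by
  have c := Ch.sum D.up a fun j => ch_gam (D.S.drop D.J) (j - D.J)
  have e : (fun y => ∑ j ∈ D.up, a j * Hd50.Tc D D.J y j []) = fun y => -∑ j ∈ D.up, a j * D.q j +
      ∑ j ∈ D.up, a j * gam (D.S.drop D.J) (j - D.J) 0 y := funext fun y => by
    rw [neg_add_eq_sub, ← Finset.sum_sub_distrib]
    exact Finset.sum_congr rfl fun j _ => by rw [Hd50.Tc_nil, Hd50.T_nil, gam_zero, mul_sub]; rfl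
  have := Hd50.dP_test hW (r + 1) (fs := []) (by simp)
  rw [e, iteratedDeriv_const_add (Nat.succ_pos r), c.itD] at this
  exact this

theorem star_dP (ok : D.Ok τ0) {r : ℕ} (hr : r ≤ 4) :
    |(star D).dP (r + 1) [] + AA (D.S.drop D.J) (r + 1) 0| ≤ 14 ^ 5 * D.sig D.J := by
  have H := ok.ook
  have c := ok.cut
  have e : AA (D.S.drop D.J) (r + 1) 0 = ∑ j ∈ D.up, (omS D j - D.sig D.J * D.dx j) *
      gam (D.S.drop D.J) (j - D.J) (r + 1) 0 := by
    rw [show D.up = Finset.Ico (1 + D.J) (D.K - D.J + D.J) from by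
      ext j; simp only [Finset.mem_Ioo, Finset.mem_Ico]; omega, ← Finset.sum_Ico_add', AA, len]
    refine Finset.sum_congr rfl fun j hj => ?_
    rw [Finset.mem_Ico] at hj
    obtain ⟨j, rfl⟩ := Nat.exists_eq_add_of_le' hj.1
    rw [wt, dm_drop, ex_drop, tm_drop H (by omega), tm_drop H (by omega), Nat.add_sub_cancel, omS,
      mv, add_right_comm (j + 1) 1]
    ring
  have d : ∀ j, 0 ≤ D.dx j := dm_nonneg ok.mono
  have u : ∑ j ∈ D.up, D.dx j ≤ 1 := by
    have := sum_dm D.B 0 D.K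
    rw [sub_zero] at this
    exact (Finset.sum_le_sum_of_subset_of_nonneg (fun j hj => Finset.mem_range.2 (by
      have := (Finset.mem_Ioo.1 hj).2; omega)) fun j _ _ => d j).trans
      (this.trans_le (Kid68.ex_mem ok.mono _).2)
  have s0 := sig_nn H c.le
  have m : Mono 0 (D.S.drop D.J) := One15.mono_drop _ (Cav22.mono_tilt tilt_opS.symm ok.mono)
  have e' : (star D).dP (r + 1) [] =
      -∑ j ∈ D.up, omS D j * gam (D.S.drop D.J) (j - D.J) (r + 1) 0 := dP_nil (D := star D) rfl r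
  rw [e', e, neg_add_eq_sub, ← Finset.sum_sub_distrib]
  refine (Finset.abs_sum_le_sum_abs _ _).trans ((Finset.sum_le_sum
    (g := fun j => 14 ^ 5 * D.sig D.J * D.dx j) fun j _ => ?_).trans ?_)
  · have := mul_le_mul_of_nonneg_left (abs_gam m (j - D.J) (i := r + 1) (by omega) 0)
      (mul_nonneg s0 (d j))
    rw [← abs_of_nonneg (mul_nonneg s0 (d j)), ← abs_mul, abs_of_nonneg (mul_nonneg s0 (d j)),
      ← abs_neg] at this
    exact (le_of_eq (congrArg _ (by ring))).trans (this.trans_eq (by ring))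
  · rw [← Finset.mul_sum]
    exact mul_le_of_le_one_right (by positivity) u

theorem nums (ok : D.Ok τ0) (h : Hm D η) : 0 ≤ D.sig D.J ∧ D.sig D.J ≤ D.X ^ 3 ∧ 0 ≤ x1 D ∧
    x1 D ≤ D.X ∧ ex (D.S.drop D.J) 0 = x1 D ∧ tm (D.S.drop D.J) 1 = s1 D - D.sig D.J ∧
    D.sig D.J ≤ s1 D ∧ 1 + tm (D.S.drop D.J) (D.S.drop D.J).length ≤ La D := by
  have H := ok.ook
  have c := ok.cut
  refine ⟨sig_nn H c.le, ?_, (Kid68.ex_mem ok.mono _).1, ok.x1, by rw [ex_drop, zero_add, x1],
    by rw [tm_drop H (by omega), add_comm, s1], sig_mono H (Nat.le_succ _) c, ?_⟩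
  · rw [CD.sig, ok.qlo _ le_rfl, mul_zero, zero_add]
    exact ok.h1
  · rw [tm_drop H (by rw [len]; omega), len, Nat.sub_add_cancel c.le, La]
    linarith [sig_nn H c.le]

end H50

open H50

theorem h1 : H1 := fun τ0 => ⟨3 * 14 ^ 10, by norm_num, fun D η ok h => by
  obtain ⟨a0, a1, x0, xX, ex0, t1, t0, T⟩ := nums ok h
  have p := eta_pos h ok.ook
  have E := eu ok h
  have k := (E.der (h := η ^ 2) (by positivity) (pow_le_one₀ h.η0 h.η1)).1
  have s := abs_le.1 (star_dP ok (r := 1) (by norm_num))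
  have l := abs_mg E.mono (i := 1) (by norm_num) 0
  have l2 : D.lam ^ 2 ≤ 14 ^ 10 := by
    rw [lam_eq, ← sq_abs]
    exact (pow_le_pow_left₀ (abs_nonneg _) l 2).trans_eq (by norm_num)
  rw [← lam_eq, ex0, t1] at k
  have X0 := x0.trans xX
  have L1 := La1 ok.ook
  have b1 : x1 D * (s1 D - D.sig D.J) ^ 2 ≤ D.X ^ 3 :=
    (mul_le_mul xX (pow_le_pow_left₀ (by linarith) (by linarith [h.sX] : _ ≤ D.X) 2) (sq_nonneg _)
      X0).trans_eq (by ring)
  have b2 : x1 D * D.sig D.J * D.lam ^ 2 ≤ D.X ^ 3 * 14 ^ 10 :=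
    mul_le_mul ((mul_le_of_le_one_left a0 (xX.trans ok.X1)).trans a1) l2 (sq_nonneg _)
      (by positivity)
  have b3 : 0 ≤ x1 D * D.sig D.J * D.lam ^ 2 := by positivity
  have z : |AA (D.S.drop D.J) 2 0 - D.lam + x1 D * (s1 D - D.sig D.J) * D.lam ^ 2| ≤
      16 * η + 14 ^ 5 * (13 * (La D * η) + D.X ^ 3) := by
    refine le_of_mul_le_mul_left (k.trans ?_) (by positivity : 0 < (η ^ 2) ^ 2)
    have e1 : η ^ 8 ≤ η ^ 5 := pow_le_pow_of_le_one h.η0 h.η1 (by norm_num)
    have e2 : (1 + tm (D.S.drop D.J) (D.S.drop D.J).length) * η ^ 6 ≤ La D * η ^ 5 :=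
      mul_le_mul T (pow_le_pow_of_le_one h.η0 h.η1 (by norm_num)) (by positivity) (by linarith)
    have e3 := mul_le_mul_of_nonneg_left b1 (by positivity : 0 ≤ η ^ 4)
    linarith
  have z' := abs_le.1 z
  have X3 : 0 ≤ D.X ^ 3 := by positivity
  have c1 := le_mul_of_one_le_left X3 L1
  have c2 := le_mul_of_one_le_left h.η0 L1
  exact abs_le.2 ⟨by linarith [z'.2, s.1, h.η0], by linarith [z'.1, s.2, h.η0]⟩⟩

theorem h2 : H2 := fun τ0 => ⟨14 ^ 10, by norm_num, fun D η ok h => by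
  obtain ⟨a0, a1, x0, xX, ex0, t1, t0, T⟩ := nums ok h
  have p := eta_pos h ok.ook
  have E := eu ok h
  have k := (E.der h.η0 h.η1).2
  have s := abs_le.1 (star_dP ok (r := 3) (by norm_num))
  rw [← k4_eq, ex0, t1] at k
  have X0 := x0.trans xX
  have L1 := La1 ok.ook
  have b1 : x1 D * (s1 D - D.sig D.J) ≤ D.X :=
    (mul_le_of_le_one_right x0 (by linarith [h.sX, ok.X1])).trans xX
  have b2 : D.X ^ 3 ≤ D.X := pow_le_of_le_one X0 ok.X1 (by norm_num)
  have z : |AA (D.S.drop D.J) 4 0 - 3 * D.k4| ≤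
      64 * η + 14 ^ 5 * (432 * (La D * η) + 37 * D.X) := by
    refine le_of_mul_le_mul_left (k.trans ?_) (by positivity : 0 < η ^ 4)
    have e1 : η ^ 8 ≤ η ^ 5 := pow_le_pow_of_le_one h.η0 h.η1 (by norm_num)
    have e2 := mul_le_mul_of_nonneg_right T (by positivity : 0 ≤ η ^ 5)
    have e3 := mul_le_mul_of_nonneg_left b1 (by positivity : 0 ≤ η ^ 4)
    linarith
  have z' := abs_le.1 z
  have c1 := le_mul_of_one_le_left X0 L1
  have c2 := le_mul_of_one_le_left h.η0 L1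
  exact abs_le.2 ⟨by linarith [z'.2, s.1, h.η0], by linarith [z'.1, s.2, h.η0]⟩⟩

end Crest.Agent.T156.Cas.C40.E42

end
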