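import Crest.Agent.T156.R2H4_26
import Crest.Agent.T156.R2H12_50

/-!
# Row 156, R2 (helper26): the site input `H4`
-/

namespace Crest.Agent.T156.Cas.C40.E42

/-- **site input `H4`** -/
theorem h4 : H4 := h4_of h1

end Crest.Agent.T156.Cas.C40.E42
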