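import Crest.Agent.T156.CL3_76
import Crest.Agent.T156.R2EDef_42

/-!
# Row 156, R2 (helper76): size of the Euler measure, site input `H7`
-/

set_option autoImplicit false
set_option linter.unusedSectionVars false

noncomputable section

namespace Crest.Agent.T156.Cas.C40.E42

open MeasureTheory Real Set Filter Topology
open Crest.Agent.T157.E Crest.Agent.T157.Casc Crest.Agent.T157.SL

namespace H76

variable {D : CD} {τ0 : ℝ} (H : D.Ok τ0)
include H

theorem La1 : 1 ≤ La D := le_add_of_nonneg_right (H.sig0 le_rfl)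

theorem dsig0 {t : ℕ} (ht : t < D.K) : 0 ≤ D.sig (t + 1) - D.sig t :=
  sub_nonneg.2 (H.sig_le t.le_succ ht)

theorem dx_le_ck {t : ℕ} (ht : t < D.K) : D.dx t ≤ ck D t := le_add_of_nonneg_right (dsig0 H ht)

theorem ck0 {t : ℕ} (ht : t < D.K) : 0 ≤ ck D t := (H.dx0 t).trans (dx_le_ck H ht)

theorem omS0 {t : ℕ} (ht : t < D.K) : 0 ≤ omS D t :=
  add_nonneg (mul_nonneg (H.dx0 t) (H.sig0 ht.le))
    (div_nonneg (mul_nonneg (H.ex0 t) (dsig0 H ht)) zero_le_two)

theorem ex_le {t : ℕ} (ht : t ∈ D.up) : ex D.B t ≤ D.e t :=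
  (le_min (Tay38.ex_le_one H.mono t)
    (le_add_of_nonneg_right (H.sig0 (CD.mem_up.1 ht).2.le))).trans (H.esc t ht)

theorem sig_le {t : ℕ} (ht : t ∈ D.up) : D.sig t ≤ La D * D.e t := by
  have hK := (CD.mem_up.1 ht).2.le
  have h1 := La1 H
  have h2 : D.sig t ≤ La D := (H.sig_le hK le_rfl).trans (le_add_of_nonneg_left zero_le_one)
  rcases min_le_iff.1 (H.esc t ht) with h | h
  · nlinarith
  · nlinarith [H.ex0 t, H.e0 t]

/-- `ω*_t ≤ La e_t ck_t` -/
theorem omS_le {t : ℕ} (ht : t ∈ D.up) : omS D t ≤ La D * (D.e t * ck D t) := by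
  have hK := (CD.mem_up.1 ht).2
  have h1 := mul_le_mul_of_nonneg_left (sig_le H ht) (H.dx0 t)
  have h2 := mul_le_mul_of_nonneg_right (ex_le H ht) (dsig0 H hK)
  have h3 := mul_nonneg (H.e0 t) (dsig0 H hK)
  have h4 := mul_le_mul_of_nonneg_right (La1 H) h3
  rw [omS, mv, ck]
  linarith

/-- `ω*_t ≤ La ck_t` -/
theorem omS_le' {t : ℕ} (ht : t < D.K) : omS D t ≤ La D * ck D t := by
  have h1 := mul_le_mul_of_nonneg_left ((H.sig_le ht.le le_rfl).trans
    (le_add_of_nonneg_left zero_le_one)) (H.dx0 t)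
  have h2 := mul_le_mul_of_nonneg_right (Tay38.ex_le_one H.mono t) (dsig0 H ht)
  have h4 := mul_le_mul_of_nonneg_right (La1 H) (dsig0 H ht)
  have h5 := dsig0 H ht
  rw [omS, mv, ck]
  rw [La] at h4 ⊢
  linarith

theorem sum_dsig : ∑ t ∈ D.up, (D.sig (t + 1) - D.sig t) ≤ D.sig D.K := by
  refine (Finset.sum_le_sum_of_subset_of_nonneg (t := Finset.range D.K)
    (fun t ht => Finset.mem_range.2 (CD.mem_up.1 ht).2)
    fun t ht _ => dsig0 H (Finset.mem_range.1 ht)).trans ?_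
  rw [Finset.sum_range_sub]
  linarith [H.sig0 (Nat.zero_le _)]

/-- total mass of `ω*` -/
theorem sum_omS : ∑ t ∈ D.up, |omS D t| ≤ 2 * La D := by
  have h1 : D.I D.sig ≤ D.sig D.K :=
    H.I_le (H.sig0 le_rfl) fun j hj => H.sig_le (CD.mem_up.1 hj).2.le le_rfl
  refine (Finset.sum_le_sum (g := fun t => D.dx t * D.sig t + (D.sig (t + 1) - D.sig t))
    fun t ht => ?_).trans ?_
  · have hK := (CD.mem_up.1 ht).2
    have h2 := mul_le_mul_of_nonneg_right (Tay38.ex_le_one H.mono t) (dsig0 H hK)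
    rw [abs_of_nonneg (omS0 H hK), omS, mv]
    linarith [dsig0 H hK]
  · rw [Finset.sum_add_distrib, La]
    linarith [sum_dsig H, show ∑ t ∈ D.up, D.dx t * D.sig t = D.I D.sig from rfl]

end H76

open H76

/-- **site input `H7`** -/
theorem h7 : H7 := fun τ0 => by
  refine ⟨3 * c76, mul_nonneg (by norm_num) c76_nonneg, fun D η H _ t ht => ?_⟩
  have hK := (CD.mem_up.1 ht).2
  rw [sL_eq76]
  refine ((star D).abs_sum_om fun j hj => H.word3_le ht (CD.mem_up.1 hj).2.le).trans ?_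
  rw [CD.Iw_mul, CD.Iw_add, CD.Iw_const, mul_comm 3, mul_assoc c76, mul_assoc c76]
  refine mul_le_mul_of_nonneg_left ?_ c76_nonneg
  have h1 : (star D).Iw (fun j => if j = t then 1 else 0) = omS D t := by
    simp only [CD.Iw, mul_ite, mul_one, mul_zero, Finset.sum_ite_eq']
    exact (if_pos ht).trans (abs_of_nonneg (omS0 H hK))
  have h2 : (star D).Iw (fun _ => 1) ≤ 2 * La D :=
    (Finset.sum_congr rfl fun _ _ => mul_one _).trans_le (sum_omS (D := D) H)
  have h3 := mul_le_mul (mul_le_mul_of_nonneg_right (dx_le_ck H hK) (H.e0 t)) h2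
    ((star D).Iw0 fun _ _ => zero_le_one) (mul_nonneg (ck0 H hK) (H.e0 t))
  rw [h1]
  linarith [omS_le H ht]

end Crest.Agent.T156.Cas.C40.E42

end
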