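import Crest.Agent.T156.R2F_42
import Crest.Agent.T156.R2H4b_26
import Crest.Agent.T156.R2H6_95
import Crest.Agent.T156.R2H7_76
import Crest.Agent.T156.HbH3_16

/-!
# Row 156, R2: the head (EE), unconditional (helper42)
-/

set_option autoImplicit false

namespace Crest.Agent.T156.Cas.C40.E42

/-- **(EE)** -/
theorem he : HE := he_of h0 h1 h2 Hb68.h3 h4 Hb68.h5 h6 h7

end Crest.Agent.T156.Cas.C40.E42
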