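import Mathlib.Tactic
import Mathlib.Algebra.BigOperators.Intervals
import Mathlib.Data.Real.Basic

/-!
Row 156, ALT (helper58): the algebra of R2 (docs/T156_58.md, note #7453), frame-free.
`alg`: the three reduced heads give `6 P - EE`; `low_lin`, `low_abs`, `low`: the low-zone sums.
-/

set_option autoImplicit false

namespace Crest.Agent.T156.R2a58

open Finset

/-- **the identity** `6 P - EE - 3 (W)` -/
theorem alg {P EE Pc C1 S2 Sh S3 S4 Jh O S0 τ lam k4 x1 G1 q1 E1 E2 E3 : ℝ}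
    (hP : |P - Pc - (τ / 4 * (1 - τ * lam ^ 2) * S2 - τ * lam ^ 2 / 2 * Sh + τ ^ 3 * lam ^ 3 / 6 * S3
      - k4 / 4 * S4) - τ ^ 3 * lam / 4 * (S0 - S2) * O| ≤ E1)
    (hW : |2 * (τ / 4 * (1 - τ * lam ^ 2) * S2) - τ * lam ^ 2 / 2 * Sh + 3 * (τ ^ 3 * lam ^ 3 / 6 * S3)
      - 4 * (k4 / 4 * S4) - τ ^ 3 * lam * S2 * O| ≤ E2)
    (hE : |EE - C1 + 2 * (τ / 4 * (1 - τ * lam ^ 2) * S2) + 3 * (τ ^ 3 * lam ^ 3 / 6 * S3)
      - 6 * (k4 / 4 * S4) + τ ^ 2 * lam / 2 * x1 * G1 * S2 + Jh / 2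
      - τ ^ 3 * lam / 2 * (x1 * q1 ^ 2 + 3 * S2) * O| ≤ E3) :
    |6 * P - EE - (6 * Pc - C1) -
      (τ / 2 * (1 - τ * lam ^ 2 + τ * lam * x1 * G1) * S2 + (Jh - 3 * (τ * lam ^ 2) * Sh) / 2
        - τ ^ 3 * lam / 2 * (x1 * q1 ^ 2 - 3 * S0) * O)| ≤ 6 * E1 + 3 * E2 + E3 := by
  have a := abs_le.1 hP
  have b := abs_le.1 hW
  have c := abs_le.1 hE
  refine abs_le.2 ⟨?_, ?_⟩ <;> linarith [a.1, a.2, b.1, b.2, c.1, c.2]

/-- Abel: small partial sums against a monotone sequence -/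
theorem abel_mono (c r : ℕ → ℝ) {δ ρ : ℝ} (N : ℕ) (hc : ∀ k ≤ N, |∑ i ∈ range k, c i| ≤ δ)
    (hr : ∀ i < N, r i ≤ r (i + 1)) (h0 : 0 ≤ r 0) (h1 : r N ≤ ρ) :
    |∑ i ∈ range N, c i * r (i + 1)| ≤ 2 * δ * ρ := by
  have hδ : 0 ≤ δ := by simpa using hc 0 (Nat.zero_le _)
  have key : ∀ k ≤ N, |∑ i ∈ range k, c i * r (i + 1) - (∑ i ∈ range k, c i) * r k| ≤
      δ * (r k - r 0) := by
    intro k
    induction k with
    | zero => intro _; simp
    | succ k ih =>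
      intro hk
      have h := ih (Nat.le_of_succ_le hk)
      have h2 := hc k (Nat.le_of_succ_le hk)
      have h3 := hr k hk
      rw [sum_range_succ, sum_range_succ]
      have e : ∑ i ∈ range k, c i * r (i + 1) + c k * r (k + 1) -
          (∑ i ∈ range k, c i + c k) * r (k + 1) =
          (∑ i ∈ range k, c i * r (i + 1) - (∑ i ∈ range k, c i) * r k) -
            (∑ i ∈ range k, c i) * (r (k + 1) - r k) := by ring
      rw [e]
      refine (abs_sub _ _).trans ?_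
      rw [abs_mul, abs_of_nonneg (sub_nonneg.2 h3)]
      have := mul_le_mul_of_nonneg_right h2 (sub_nonneg.2 h3)
      linarith
  have hm : ∀ k ≤ N, r 0 ≤ r k := by
    intro k
    induction k with
    | zero => intro _; exact le_rfl
    | succ k ih => intro hk; exact (ih (Nat.le_of_succ_le hk)).trans (hr k hk)
  have h := key N le_rfl
  have h2 := hc N le_rfl
  have h3 : 0 ≤ r N := h0.trans (hm N le_rfl)
  have h4 : |(∑ i ∈ range N, c i) * r N| ≤ δ * r N := by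
    rw [abs_mul, abs_of_nonneg h3]; exact mul_le_mul_of_nonneg_right h2 h3
  have h5 := abs_add_le (∑ i ∈ range N, c i * r (i + 1) - (∑ i ∈ range N, c i) * r N)
    ((∑ i ∈ range N, c i) * r N)
  rw [sub_add_cancel] at h5
  nlinarith [mul_le_mul_of_nonneg_left h1 hδ, mul_nonneg hδ h0]

theorem mono_le {s : ℕ → ℝ} {N : ℕ} (hs : ∀ i < N, s i ≤ s (i + 1)) {i j : ℕ} (hij : i ≤ j)
    (hj : j ≤ N) : s i ≤ s j := by
  induction hij with
  | refl => exact le_rfl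
  | step _ ih => exact (ih (Nat.le_of_succ_le hj)).trans (hs _ hj)

/-- data of the linear zone: nodes `0..N`, level `i` between the nodes `i`, `i + 1` has tilt `z i` -/
structure Lin (z s H q : ℕ → ℝ) (N : ℕ) (τ ct K A s1 X v dx de dq : ℝ) : Prop where
  zm : ∀ i < N, z i ≤ z (i + 1)
  z0 : 0 ≤ z 0
  z1 : z N ≤ X
  sm : ∀ i < N, s i ≤ s (i + 1)
  s0 : 0 ≤ s 0
  sN : s N ≤ s1
  mesh : ∀ i < N, s (i + 1) - s i ≤ v
  ct0 : 0 ≤ ct
  hx : ∀ i ≤ N, |z i - ct * s i| ≤ dx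
  hH : ∀ i < N, |H (i + 1) - H i - (K * (s (i + 1) ^ 3 - s i ^ 3) / 3 + A * (s (i + 1) - s i))| ≤
    de * (s (i + 1) - s i)
  hq : ∀ i ≤ N, |τ * q i - s i| ≤ dq

/-- the constant part of the marks -/
noncomputable def Hs (s H : ℕ → ℝ) (K A : ℝ) : ℝ := H 0 - K * s 0 ^ 3 / 3 - A * s 0

/-- the error of the partial sums -/
noncomputable def dl (ct K A s1 X v dx de dq : ℝ) : ℝ :=
  4 * de * s1 * X + 2 * |A| * dq * X + (6 * dx + 6 * ct * v) * (|K| * s1 ^ 2 + |A|) * s1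

section lin

variable {z s H q : ℕ → ℝ} {N : ℕ} {τ ct K A s1 X v dx de dq : ℝ}

theorem Lin.s_mem (h : Lin z s H q N τ ct K A s1 X v dx de dq) {i : ℕ} (hi : i ≤ N) :
    0 ≤ s i ∧ s i ≤ s1 :=
  ⟨h.s0.trans (mono_le h.sm (Nat.zero_le _) hi), (mono_le h.sm hi le_rfl).trans h.sN⟩

theorem Lin.z_mem (h : Lin z s H q N τ ct K A s1 X v dx de dq) {i : ℕ} (hi : i ≤ N) :
    0 ≤ z i ∧ z i ≤ X :=
  ⟨h.z0.trans (mono_le h.zm (Nat.zero_le _) hi), (mono_le h.zm hi le_rfl).trans h.z1⟩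

theorem Lin.H_near (h : Lin z s H q N τ ct K A s1 X v dx de dq) (hde : 0 ≤ de) : ∀ i ≤ N,
    |H i - (K * s i ^ 3 / 3 + A * s i + Hs s H K A)| ≤ de * (s i - s 0)
  | 0, _ => by simp [Hs]
  | i + 1, hi => by
    have a := abs_le.1 (h.H_near hde i (Nat.le_of_succ_le hi))
    have b := abs_le.1 (h.hH i hi)
    exact abs_le.2 ⟨by linarith [a.1, b.1], by linarith [a.2, b.2]⟩

theorem G_bound {a s1 K A : ℝ} (h0 : 0 ≤ a) (h1 : a ≤ s1) :
    |K * a ^ 3 + A * a| ≤ (|K| * s1 ^ 2 + |A|) * s1 := by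
  have e : K * a ^ 3 + A * a = (K * a ^ 2 + A) * a := by ring
  rw [e, abs_mul, abs_of_nonneg h0]
  have h2 : |K * a ^ 2 + A| ≤ |K| * s1 ^ 2 + |A| := by
    refine (abs_add_le _ _).trans ?_
    rw [abs_mul, abs_of_nonneg (sq_nonneg a)]
    have := mul_le_mul_of_nonneg_left (pow_le_pow_left₀ h0 h1 2) (abs_nonneg K)
    linarith
  exact mul_le_mul h2 h1 h0 (by positivity)

theorem step_bound {a b s1 K A z ct dx v : ℝ} (h0 : 0 ≤ a) (hab : a ≤ b) (h1 : b ≤ s1)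
    (hv : b - a ≤ v) (hct : 0 ≤ ct) (hz : |z - ct * a| ≤ dx) :
    |z * (4 * K * (b ^ 3 - a ^ 3) / 3 + 2 * A * (b - a)) -
      ct * (K * (b ^ 4 - a ^ 4) + A * (b ^ 2 - a ^ 2))| ≤
      (4 * dx + 4 * ct * v) * (|K| * s1 ^ 2 + |A|) * (b - a) := by
  have hb : 0 ≤ b := h0.trans hab
  have hd : 0 ≤ b - a := sub_nonneg.2 hab
  have hdx : 0 ≤ dx := (abs_nonneg _).trans hz
  have hv0 : 0 ≤ v := hd.trans hv
  have ha1 : a ≤ s1 := hab.trans h1
  have hs1 : 0 ≤ s1 := hb.trans h1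
  have p1 : a * a ≤ s1 ^ 2 := by nlinarith
  have p2 : a * b ≤ s1 ^ 2 := by nlinarith
  have p3 : b * b ≤ s1 ^ 2 := by nlinarith
  have e : z * (4 * K * (b ^ 3 - a ^ 3) / 3 + 2 * A * (b - a)) -
      ct * (K * (b ^ 4 - a ^ 4) + A * (b ^ 2 - a ^ 2)) =
      (z - ct * a) * (K * (4 * (b * b + a * b + a * a) / 3) + A * 2) * (b - a) -
        ct * (b - a) * (K * ((3 * (b * b) + 2 * (a * b) + a * a) / 3) + A) * (b - a) := by ring
  have q1 : |K * (4 * (b * b + a * b + a * a) / 3) + A * 2| ≤ 4 * (|K| * s1 ^ 2 + |A|) := by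
    refine (abs_add_le _ _).trans ?_
    rw [abs_mul, abs_mul, abs_of_nonneg (by positivity : 0 ≤ 4 * (b * b + a * b + a * a) / 3),
      abs_two]
    have := mul_le_mul_of_nonneg_left
      (show 4 * (b * b + a * b + a * a) / 3 ≤ 4 * s1 ^ 2 by linarith) (abs_nonneg K)
    nlinarith [abs_nonneg A]
  have q2 : |K * ((3 * (b * b) + 2 * (a * b) + a * a) / 3) + A| ≤ 4 * (|K| * s1 ^ 2 + |A|) := by
    refine (abs_add_le _ _).trans ?_
    rw [abs_mul, abs_of_nonneg (by positivity : 0 ≤ (3 * (b * b) + 2 * (a * b) + a * a) / 3)]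
    have := mul_le_mul_of_nonneg_left
      (show (3 * (b * b) + 2 * (a * b) + a * a) / 3 ≤ 2 * s1 ^ 2 by linarith) (abs_nonneg K)
    nlinarith [abs_nonneg A, mul_nonneg (abs_nonneg K) (sq_nonneg s1)]
  rw [e]
  refine (abs_sub _ _).trans ?_
  rw [abs_mul, abs_mul, abs_mul, abs_mul, abs_mul, abs_of_nonneg hd, abs_of_nonneg hct]
  have r1 := mul_le_mul hz q1 (abs_nonneg _) hdx
  have r2 := mul_le_mul (mul_le_mul_of_nonneg_left hv hct) q2 (abs_nonneg _) (mul_nonneg hct hv0)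
  have := mul_le_mul_of_nonneg_right (add_le_add r1 r2) hd
  linarith

/-- the signed weights `x dh - 3 (h - Hs) dx + 2 τ A q dx` have small partial sums -/
theorem Lin.partial (h : Lin z s H q N τ ct K A s1 X v dx de dq) (hde : 0 ≤ de) (hv : 0 ≤ v) :
    ∀ k ≤ N, |∑ i ∈ range k, (z i * (H (i + 1) - H i) -
      3 * (z (i + 1) - z i) * (H (i + 1) - Hs s H K A) +
      2 * τ * A * (z (i + 1) - z i) * q (i + 1))| ≤ dl ct K A s1 X v dx de dq := by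
  have hdx : 0 ≤ dx := (abs_nonneg _).trans (h.hx 0 (Nat.zero_le _))
  have hdq : 0 ≤ dq := (abs_nonneg _).trans (h.hq 0 (Nat.zero_le _))
  set B := |K| * s1 ^ 2 + |A| with hB
  have hB0 : 0 ≤ B := by positivity
  have hs1 : 0 ≤ s1 := (h.s_mem (Nat.zero_le N)).1.trans (h.s_mem (Nat.zero_le N)).2
  have hX : 0 ≤ X := (h.z_mem (Nat.zero_le N)).1.trans (h.z_mem (Nat.zero_le N)).2
  have key : ∀ k ≤ N, |∑ i ∈ range k, (z i * (H (i + 1) - H i) -
      3 * (z (i + 1) - z i) * (H (i + 1) - Hs s H K A) +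
      2 * τ * A * (z (i + 1) - z i) * q (i + 1)) +
      ((z k - ct * s k) * (K * s k ^ 3 + A * s k) - (z 0 - ct * s 0) * (K * s 0 ^ 3 + A * s 0))| ≤
      (de * X + (4 * dx + 4 * ct * v) * B) * (s k - s 0) +
        (3 * de * s1 + 2 * |A| * dq) * (z k - z 0) := by
    intro k
    induction k with
    | zero => intro _; simp
    | succ k ih =>
      intro hk
      have hk' := Nat.le_of_succ_le hk
      have i0 := ih hk'
      have sa := h.s_mem hk'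
      have sb := h.s_mem hk
      have za := h.z_mem hk'
      have hab := h.sm k hk
      have hzz := h.zm k hk
      have t1 := step_bound (K := K) (A := A) sa.1 hab sb.2 (h.mesh k hk) h.ct0 (h.hx k hk')
      have t2 : |z k * (H (k + 1) - H k -
          (K * (s (k + 1) ^ 3 - s k ^ 3) / 3 + A * (s (k + 1) - s k)))| ≤
          de * X * (s (k + 1) - s k) := by
        rw [abs_mul, abs_of_nonneg za.1]
        have := mul_le_mul za.2 (h.hH k hk) (abs_nonneg _) hX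
        linarith
      have t3 : |3 * (z (k + 1) - z k) * (H (k + 1) -
          (K * s (k + 1) ^ 3 / 3 + A * s (k + 1) + Hs s H K A))| ≤
          3 * de * s1 * (z (k + 1) - z k) := by
        rw [abs_mul, abs_of_nonneg (by linarith : 0 ≤ 3 * (z (k + 1) - z k))]
        have a := h.H_near hde (k + 1) hk
        have b : de * (s (k + 1) - s 0) ≤ de * s1 :=
          mul_le_mul_of_nonneg_left (by linarith [h.s0]) hde
        have := mul_le_mul_of_nonneg_left (a.trans b) (by linarith : 0 ≤ 3 * (z (k + 1) - z k))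
        linarith
      have t4 : |2 * A * (z (k + 1) - z k) * (τ * q (k + 1) - s (k + 1))| ≤
          2 * |A| * dq * (z (k + 1) - z k) := by
        rw [abs_mul, abs_mul, abs_mul, abs_two, abs_of_nonneg (sub_nonneg.2 hzz)]
        have := mul_le_mul_of_nonneg_left (h.hq (k + 1) hk)
          (mul_nonneg (mul_nonneg zero_le_two (abs_nonneg A)) (sub_nonneg.2 hzz))
        linarith
      rw [sum_range_succ]
      have u0 := abs_le.1 i0
      have u1 := abs_le.1 t1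
      have u2 := abs_le.1 t2
      have u3 := abs_le.1 t3
      have u4 := abs_le.1 t4
      refine abs_le.2 ⟨?_, ?_⟩ <;> linarith [u0.1, u0.2, u1.1, u1.2, u2.1, u2.2, u3.1, u3.2, u4.1, u4.2]
  intro k hk
  have a := abs_le.1 (key k hk)
  have sk := h.s_mem hk
  have s0 := h.s_mem (Nat.zero_le N)
  have zk := h.z_mem hk
  have b1 : |(z k - ct * s k) * (K * s k ^ 3 + A * s k)| ≤ dx * (B * s1) := by
    rw [abs_mul]; exact mul_le_mul (h.hx k hk) (G_bound sk.1 sk.2) (abs_nonneg _) hdx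
  have b2 : |(z 0 - ct * s 0) * (K * s 0 ^ 3 + A * s 0)| ≤ dx * (B * s1) := by
    rw [abs_mul]; exact mul_le_mul (h.hx 0 (Nat.zero_le _)) (G_bound s0.1 s0.2) (abs_nonneg _) hdx
  have c1 : (de * X + (4 * dx + 4 * ct * v) * B) * (s k - s 0) ≤
      (de * X + (4 * dx + 4 * ct * v) * B) * s1 :=
    mul_le_mul_of_nonneg_left (by linarith [s0.1]) (by have := h.ct0; positivity)
  have c2 : (3 * de * s1 + 2 * |A| * dq) * (z k - z 0) ≤ (3 * de * s1 + 2 * |A| * dq) * X :=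
    mul_le_mul_of_nonneg_left (by linarith [h.z0]) (by positivity)
  have c3 : 0 ≤ ct * v * (B * s1) := by have := h.ct0; positivity
  have b1' := abs_le.1 b1
  have b2' := abs_le.1 b2
  rw [dl, ← hB]
  refine abs_le.2 ⟨?_, ?_⟩ <;> linarith [a.1, a.2, b1'.1, b1'.2, b2'.1, b2'.2]

/-- **linear zone**: the low terms of `6 P - EE` are a constant up to location errors -/
theorem Lin.low (h : Lin z s H q N τ ct K A s1 X v dx de dq) (hde : 0 ≤ de) (hv : 0 ≤ v)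
    (hτ : 0 ≤ τ) (r r2 : ℕ → ℝ) {θ μ Hm ρ V1 V2 : ℝ} (hr : ∀ i < N, r i ≤ r (i + 1))
    (hr0 : 0 ≤ r 0) (hr1 : r N ≤ ρ) (hθ : |1 - θ| ≤ μ) (hHm : ∀ i ≤ N, |H i| ≤ Hm)
    (hV1 : |∑ i ∈ range N, (z (i + 1) - z i) * (r (i + 1) - q (i + 1))| ≤ V1)
    (hV2 : |∑ i ∈ range N, (z (i + 1) - z i) *
      (r2 (i + 1) - 2 * q (i + 1) * r (i + 1) + q (i + 1) ^ 2)| ≤ V2) :
    |τ / 2 * A * ∑ i ∈ range N, (z (i + 1) - z i) * r2 (i + 1) +
      (∑ i ∈ range N, z i * (H (i + 1) - H i) * r (i + 1) -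
        3 * θ * ∑ i ∈ range N, (z (i + 1) - z i) * (H (i + 1) * r (i + 1))) / 2 +
      (τ / 2 * A * ∑ i ∈ range N, (z (i + 1) - z i) * q (i + 1) ^ 2 +
        3 / 2 * Hs s H K A * ∑ i ∈ range N, (z (i + 1) - z i) * q (i + 1))| ≤
      τ / 2 * |A| * V2 + 3 / 2 * |Hs s H K A| * V1 + dl ct K A s1 X v dx de dq * ρ +
        3 / 2 * μ * Hm * X * ρ := by
  have a := abel_mono _ r N (h.partial hde hv) hr hr0 hr1
  have rm : ∀ i ≤ N, 0 ≤ r i ∧ r i ≤ ρ := fun i hi =>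
    ⟨hr0.trans (mono_le hr (Nat.zero_le _) hi), (mono_le hr hi le_rfl).trans hr1⟩
  have hρ : 0 ≤ ρ := (rm 0 (Nat.zero_le _)).1.trans (rm 0 (Nat.zero_le _)).2
  have hH0 : 0 ≤ Hm := (abs_nonneg _).trans (hHm 0 (Nat.zero_le _))
  have b : |∑ i ∈ range N, (z (i + 1) - z i) * (H (i + 1) * r (i + 1))| ≤ Hm * X * ρ := by
    refine (abs_sum_le_sum_abs _ _).trans ?_
    have : ∑ i ∈ range N, |(z (i + 1) - z i) * (H (i + 1) * r (i + 1))| ≤
        ∑ i ∈ range N, (z (i + 1) - z i) * (Hm * ρ) := sum_le_sum fun i hi => by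
      have hi' := mem_range.1 hi
      rw [abs_mul, abs_mul, abs_of_nonneg (sub_nonneg.2 (h.zm i hi')),
        abs_of_nonneg (rm (i + 1) hi').1]
      exact mul_le_mul_of_nonneg_left
        (mul_le_mul (hHm _ hi') (rm _ hi').2 (rm _ hi').1 hH0) (sub_nonneg.2 (h.zm i hi'))
    refine this.trans ?_
    rw [← sum_mul, sum_range_sub]
    have := mul_le_mul_of_nonneg_right (show z N - z 0 ≤ X by linarith [h.z0, h.z1])
      (mul_nonneg hH0 hρ)
    linarith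
  have e : τ / 2 * A * ∑ i ∈ range N, (z (i + 1) - z i) * r2 (i + 1) +
      (∑ i ∈ range N, z i * (H (i + 1) - H i) * r (i + 1) -
        3 * θ * ∑ i ∈ range N, (z (i + 1) - z i) * (H (i + 1) * r (i + 1))) / 2 +
      (τ / 2 * A * ∑ i ∈ range N, (z (i + 1) - z i) * q (i + 1) ^ 2 +
        3 / 2 * Hs s H K A * ∑ i ∈ range N, (z (i + 1) - z i) * q (i + 1)) =
      τ / 2 * A * ∑ i ∈ range N, (z (i + 1) - z i) *
        (r2 (i + 1) - 2 * q (i + 1) * r (i + 1) + q (i + 1) ^ 2) + τ * A * ∑ i ∈ range N,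
          (z (i + 1) - z i) * q (i + 1) ^ 2 * 0 -
      3 / 2 * Hs s H K A * ∑ i ∈ range N, (z (i + 1) - z i) * (r (i + 1) - q (i + 1)) +
      (∑ i ∈ range N, (z i * (H (i + 1) - H i) -
        3 * (z (i + 1) - z i) * (H (i + 1) - Hs s H K A) +
        2 * τ * A * (z (i + 1) - z i) * q (i + 1)) * r (i + 1)) / 2 +
      3 / 2 * (1 - θ) * ∑ i ∈ range N, (z (i + 1) - z i) * (H (i + 1) * r (i + 1)) := by
    simp only [mul_sum, sum_div, ← sum_add_distrib, ← sum_sub_distrib]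
    exact sum_congr rfl fun i _ => by ring
  rw [e]
  have c1 : |τ / 2 * A * ∑ i ∈ range N, (z (i + 1) - z i) *
      (r2 (i + 1) - 2 * q (i + 1) * r (i + 1) + q (i + 1) ^ 2)| ≤ τ / 2 * |A| * V2 := by
    rw [abs_mul, abs_mul, abs_of_nonneg (by linarith : 0 ≤ τ / 2)]
    exact mul_le_mul_of_nonneg_left hV2 (by positivity)
  have c2 : |3 / 2 * Hs s H K A * ∑ i ∈ range N, (z (i + 1) - z i) * (r (i + 1) - q (i + 1))| ≤
      3 / 2 * |Hs s H K A| * V1 := by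
    rw [abs_mul, abs_mul, abs_of_nonneg (by norm_num : (0:ℝ) ≤ 3 / 2)]
    exact mul_le_mul_of_nonneg_left hV1 (by positivity)
  have c3 : |3 / 2 * (1 - θ) * ∑ i ∈ range N, (z (i + 1) - z i) * (H (i + 1) * r (i + 1))| ≤
      3 / 2 * μ * (Hm * X * ρ) := by
    rw [abs_mul, abs_mul, abs_of_nonneg (by norm_num : (0:ℝ) ≤ 3 / 2)]
    exact mul_le_mul (by linarith) b (abs_nonneg _) (by linarith [abs_nonneg (1 - θ)])
  have a' := abs_le.1 a
  have d1 := abs_le.1 c1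
  have d2 := abs_le.1 c2
  have d3 := abs_le.1 c3
  simp only [mul_zero, sum_const_zero, add_zero]
  refine abs_le.2 ⟨?_, ?_⟩ <;> linarith [a'.1, a'.2, d1.1, d1.2, d2.1, d2.2, d3.1, d3.2]

end lin

/-- **bottom zone** (root node and taper): absolute bound -/
theorem low_abs (z H r r2 : ℕ → ℝ) (N : ℕ) {τ A θ X Hm ρ ρ2 : ℝ} (hτ : 0 ≤ τ)
    (zm : ∀ i < N, z i ≤ z (i + 1)) (z0 : 0 ≤ z 0) (z1 : z N ≤ X)
    (Hm' : ∀ i < N, H i ≤ H (i + 1)) (H0 : 0 ≤ H 0) (H1 : H N ≤ Hm) (hθ : |θ| ≤ 2)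
    (hr : ∀ i ≤ N, |r i| ≤ ρ) (hr2 : ∀ i ≤ N, |r2 i| ≤ ρ2) :
    |τ / 2 * A * ∑ i ∈ range N, (z (i + 1) - z i) * r2 (i + 1) +
      (∑ i ∈ range N, z i * (H (i + 1) - H i) * r (i + 1) -
        3 * θ * ∑ i ∈ range N, (z (i + 1) - z i) * (H (i + 1) * r (i + 1))) / 2| ≤
      τ / 2 * |A| * X * ρ2 + 4 * X * Hm * ρ := by
  have zb : ∀ i ≤ N, 0 ≤ z i ∧ z i ≤ X := fun i hi =>
    ⟨z0.trans (mono_le zm (Nat.zero_le _) hi), (mono_le zm hi le_rfl).trans z1⟩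
  have Hb : ∀ i ≤ N, 0 ≤ H i ∧ H i ≤ Hm := fun i hi =>
    ⟨H0.trans (mono_le Hm' (Nat.zero_le _) hi), (mono_le Hm' hi le_rfl).trans H1⟩
  have hX : 0 ≤ X := (zb 0 (Nat.zero_le _)).1.trans (zb 0 (Nat.zero_le _)).2
  have hH : 0 ≤ Hm := (Hb 0 (Nat.zero_le _)).1.trans (Hb 0 (Nat.zero_le _)).2
  have hρ : 0 ≤ ρ := (abs_nonneg _).trans (hr 0 (Nat.zero_le _))
  have hρ2 : 0 ≤ ρ2 := (abs_nonneg _).trans (hr2 0 (Nat.zero_le _))
  have gen : ∀ (u f : ℕ → ℝ) (U B : ℝ), (∀ i < N, u i ≤ u (i + 1)) → u N - u 0 ≤ U → 0 ≤ B →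
      (∀ i < N, |f i| ≤ B) → |∑ i ∈ range N, (u (i + 1) - u i) * f i| ≤ U * B := by
    intro u f U B hu hU hB hf
    refine (abs_sum_le_sum_abs _ _).trans ?_
    have : ∑ i ∈ range N, |(u (i + 1) - u i) * f i| ≤ ∑ i ∈ range N, (u (i + 1) - u i) * B :=
      sum_le_sum fun i hi => by
        have hi' := mem_range.1 hi
        rw [abs_mul, abs_of_nonneg (sub_nonneg.2 (hu i hi'))]
        exact mul_le_mul_of_nonneg_left (hf i hi') (sub_nonneg.2 (hu i hi'))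
    refine this.trans ?_
    rw [← sum_mul, sum_range_sub]
    exact mul_le_mul_of_nonneg_right hU hB
  have a1 := gen z (fun i => r2 (i + 1)) X ρ2 zm (by linarith) hρ2 fun i hi => hr2 _ hi
  have a2 := gen H (fun i => z i * r (i + 1)) Hm (X * ρ) Hm' (by linarith) (by positivity)
    fun i hi => by
      rw [abs_mul, abs_of_nonneg (zb i hi.le).1]
      exact mul_le_mul (zb i hi.le).2 (hr _ hi) (abs_nonneg _) hX
  have a3 := gen z (fun i => H (i + 1) * r (i + 1)) X (Hm * ρ) zm (by linarith) (by positivity)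
    fun i hi => by
      rw [abs_mul, abs_of_nonneg (Hb (i + 1) hi).1]
      exact mul_le_mul (Hb _ hi).2 (hr _ hi) (abs_nonneg _) hH
  have e : ∑ i ∈ range N, z i * (H (i + 1) - H i) * r (i + 1) =
      ∑ i ∈ range N, (H (i + 1) - H i) * (z i * r (i + 1)) := sum_congr rfl fun i _ => by ring
  rw [e]
  have b1 : |τ / 2 * A * ∑ i ∈ range N, (z (i + 1) - z i) * r2 (i + 1)| ≤ τ / 2 * |A| * (X * ρ2) := by
    rw [abs_mul, abs_mul, abs_of_nonneg (by linarith : 0 ≤ τ / 2)]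
    exact mul_le_mul_of_nonneg_left a1 (by positivity)
  have b3 : |3 * θ * ∑ i ∈ range N, (z (i + 1) - z i) * (H (i + 1) * r (i + 1))| ≤
      6 * (X * (Hm * ρ)) := by
    rw [abs_mul, abs_mul, abs_of_nonneg (by norm_num : (0:ℝ) ≤ 3)]
    exact mul_le_mul (by linarith) a3 (abs_nonneg _) (by norm_num)
  have c1 := abs_le.1 b1
  have c2 := abs_le.1 a2
  have c3 := abs_le.1 b3
  have c4 : 0 ≤ X * (Hm * ρ) := by positivity
  refine abs_le.2 ⟨?_, ?_⟩ <;> linarith [c1.1, c1.2, c2.1, c2.2, c3.1, c3.2]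

/-- the slice values `ι i ∈ [r i, r (i + 1)]` may be replaced by the node values -/
theorem ins_node (c r ι : ℕ → ℝ) (N : ℕ) {m : ℝ} (hc : ∀ i < N, |c i| ≤ m)
    (h1 : ∀ i < N, r i ≤ ι i) (h2 : ∀ i < N, ι i ≤ r (i + 1)) :
    |∑ i ∈ range N, c i * ι i - ∑ i ∈ range N, c i * r (i + 1)| ≤ m * (r N - r 0) := by
  rw [← sum_sub_distrib, ← sum_range_sub, mul_sum]
  refine (abs_sum_le_sum_abs _ _).trans (sum_le_sum fun i hi => ?_)
  have hi' := mem_range.1 hi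
  rw [← mul_sub, abs_mul]
  refine mul_le_mul (hc i hi') (abs_le.2 ⟨?_, ?_⟩) (abs_nonneg _) ((abs_nonneg _).trans (hc i hi')) <;>
    linarith [h1 i hi', h2 i hi']

/-- the `a`-free constant of the low zone (only indices `≥ k0` enter) -/
noncomputable def Clow (z s H q : ℕ → ℝ) (k0 N : ℕ) (τ K A : ℝ) : ℝ :=
  -(τ / 2 * A * ∑ i ∈ range N, (z (k0 + (i + 1)) - z (k0 + i)) * q (k0 + (i + 1)) ^ 2 +
    3 / 2 * Hs (fun i => s (k0 + i)) (fun i => H (k0 + i)) K A *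
      ∑ i ∈ range N, (z (k0 + (i + 1)) - z (k0 + i)) * q (k0 + (i + 1)))

/-- **whole low zone**: nodes `1..k0` absolutely, nodes `k0+1..k0+N` on the linear zone -/
theorem low (z s H q r r2 : ℕ → ℝ) (k0 N : ℕ) {τ ct K A s1 X v dx de dq θ μ Hm ρ V1 V2 X0 H0 ρ0 ρ2 : ℝ}
    (h : Lin (fun i => z (k0 + i)) (fun i => s (k0 + i)) (fun i => H (k0 + i)) (fun i => q (k0 + i))
      N τ ct K A s1 X v dx de dq) (hde : 0 ≤ de) (hv : 0 ≤ v) (hτ : 0 ≤ τ)
    (hr : ∀ i < N, r (k0 + i) ≤ r (k0 + (i + 1))) (hr0 : 0 ≤ r k0) (hr1 : r (k0 + N) ≤ ρ)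
    (hθ : |1 - θ| ≤ μ) (hμ : μ ≤ 1) (hHm : ∀ i ≤ N, |H (k0 + i)| ≤ Hm)
    (hV1 : |∑ i ∈ range N, (z (k0 + (i + 1)) - z (k0 + i)) *
      (r (k0 + (i + 1)) - q (k0 + (i + 1)))| ≤ V1)
    (hV2 : |∑ i ∈ range N, (z (k0 + (i + 1)) - z (k0 + i)) * (r2 (k0 + (i + 1)) -
      2 * q (k0 + (i + 1)) * r (k0 + (i + 1)) + q (k0 + (i + 1)) ^ 2)| ≤ V2)
    (zm : ∀ i < k0, z i ≤ z (i + 1)) (z0 : 0 ≤ z 0) (z1 : z k0 ≤ X0)
    (Hm' : ∀ i < k0, H i ≤ H (i + 1)) (H00 : 0 ≤ H 0) (H1 : H k0 ≤ H0)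
    (hb : ∀ i ≤ k0, |r i| ≤ ρ0) (hb2 : ∀ i ≤ k0, |r2 i| ≤ ρ2) :
    |τ / 2 * A * ∑ i ∈ range (k0 + N), (z (i + 1) - z i) * r2 (i + 1) +
      (∑ i ∈ range (k0 + N), z i * (H (i + 1) - H i) * r (i + 1) -
        3 * θ * ∑ i ∈ range (k0 + N), (z (i + 1) - z i) * (H (i + 1) * r (i + 1))) / 2 -
      Clow z s H q k0 N τ K A| ≤
      (τ / 2 * |A| * X0 * ρ2 + 4 * X0 * H0 * ρ0) +
      (τ / 2 * |A| * V2 + 3 / 2 * |Hs (fun i => s (k0 + i)) (fun i => H (k0 + i)) K A| * V1 +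
        dl ct K A s1 X v dx de dq * ρ + 3 / 2 * μ * Hm * X * ρ) := by
  have hθ2 : |θ| ≤ 2 := by
    have := abs_le.1 hθ
    exact abs_le.2 ⟨by linarith, by linarith⟩
  have a := abs_le.1 (low_abs z H r r2 k0 (A := A) hτ zm z0 z1 Hm' H00 H1 hθ2 hb hb2)
  have b := abs_le.1 (h.low hde hv hτ (fun i => r (k0 + i)) (fun i => r2 (k0 + i)) hr hr0 hr1 hθ hHm
    hV1 hV2)
  simp only [sum_range_add, Clow, add_assoc] at a b ⊢
  refine abs_le.2 ⟨?_, ?_⟩ <;> linarith [a.1, a.2, b.1, b.2]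

/-- the input of the flow: `P - EE / 6 = const ± e` -/
theorem flow_in {P EE C e : ℝ} (h : |6 * P - EE - C| ≤ e) : |P - EE / 6 - C / 6| ≤ e / 6 := by
  have := abs_le.1 h
  exact abs_le.2 ⟨by linarith, by linarith⟩

end Crest.Agent.T156.R2a58
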