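import Crest.Agent.T156.R2M_81
import Crest.Agent.T156.R2a_58
import Crest.Agent.T156.CIn_12

/-!
Row 156, R2 (helper81): (A), (B) on the data `CD`, the link on the class, the linear zone.
-/

set_option autoImplicit false

noncomputable section

namespace Crest.Agent.T156.Pr.Ref81

open MeasureTheory Set Filter
open Crest.Agent.R164.GC Crest.Agent.R339.B Crest.Agent.R339.Var Crest.Agent.T157.Pf
open Exp50 (Iz Z1 M1 eps0 ev hv Aq)
open Pp.Ode3 (AP)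

/-- linear tilts on `[0, s1]` -/
structure LinT (l : List (ℝ × ℝ)) (b α K K' δ s1 : ℝ) : Prop where
  ok : Ok l
  sT : s1 ≤ TT l
  K0 : 0 ≤ K
  K1 : K ≤ K'
  δ0 : 0 ≤ δ
  α0 : 0 ≤ α
  lv : ∀ r, 0 ≤ r → r < s1 → |lvr 1 l r - α * r| ≤ K * (r ^ 2 + δ)
  ref : ∀ t, 0 ≤ t → t ≤ s1 → ∀ x, 0 ≤ x → |x - α * t| ≤ K * (t ^ 2 + δ) → LinRef l b α K' δ t x

variable {l : List (ℝ × ℝ)} {b α K K' δ s1 : ℝ}

theorem LinT.mono (h : LinT l b α K K' δ s1) {s2 : ℝ} (hs : s2 ≤ s1) : LinT l b α K K' δ s2 :=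
  ⟨h.ok, hs.trans h.sT, h.K0, h.K1, h.δ0, h.α0, fun r a c => h.lv r a (c.trans_le hs),
    fun t a c => h.ref t a (c.trans hs)⟩

theorem LinT.at (h : LinT l b α K K' δ s1) {t : ℝ} (t0 : 0 ≤ t) (t1 : t ≤ s1) :
    LinRef l b α K' δ t (α * t) :=
  h.ref t t0 t1 _ (mul_nonneg h.α0 t0) (by
    rw [sub_self, abs_zero]; have := h.K0; have := h.δ0; positivity)

theorem LinT.hv_le (h : LinT l b α K K' δ s1) {t : ℝ} (t0 : 0 ≤ t) (t1 : t ≤ s1) :
    |hv b l t| ≤ |eps0 b l| * s1 + |k3 l b α| * s1 ^ 3 + K' * (s1 ^ 4 + δ) := by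
  have K0 := h.K0.trans h.K1
  have a := abs_le.1 ((h.at t0 t1).h.trans (show _ ≤ K' * (s1 ^ 4 + δ) by gcongr))
  have c := abs_le.1 (amul (le_refl |eps0 b l|) ((abs_of_nonneg t0).le.trans t1))
  have e := abs_le.1 (amul (le_refl |k3 l b α|) ((abs_of_nonneg (pow_nonneg t0 3)).le.trans
    (pow_le_pow_left₀ t0 t1 3)))
  have f : 0 ≤ |k3 l b α| * s1 ^ 3 := mul_nonneg (abs_nonneg _) (pow_nonneg (t0.trans t1) 3)
  rw [abs_le]; constructor <;> linarith [a.1, a.2, c.1, c.2, e.1, e.2]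

/-- **the linear zone of `R2a58.low`**, for any coefficient `A` close to `ε₀` -/
theorem LinT.lin (h : LinT l b α K K' δ s1) {z s H q : ℕ → ℝ} {N : ℕ} {τ A a d X v : ℝ}
    (zm : ∀ i < N, z i ≤ z (i + 1)) (z0 : 0 ≤ z 0) (z1 : z N ≤ X) (sm : ∀ i < N, s i ≤ s (i + 1))
    (s0 : 0 ≤ s 0) (sN : s N ≤ s1) (mesh : ∀ i < N, s (i + 1) - s i ≤ v)
    (hx : ∀ i ≤ N, |z i - α * s i| ≤ K * (s i ^ 2 + δ)) (hq : ∀ i ≤ N, q i = Gam l (s i))
    (hH : ∀ i ≤ N, H i = s i - b * q i) (hA : |A - eps0 b l| ≤ a) (hτ : |b - τ| ≤ d) :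
    R2a58.Lin z s H q N τ α (k3 l b α) A s1 X v (K' * (s1 ^ 2 + δ)) (K' * (s1 ^ 3 + δ) + a)
      (|eps0 b l| * s1 + |k3 l b α| * s1 ^ 3 + K' * (s1 ^ 4 + δ) + d * s1) ∧
    |R2a58.Hs s H (k3 l b α) A| ≤ K' * (s 0 ^ 4 + δ) + a * s 0 ∧
    ∀ i ≤ N, |H i| ≤ |eps0 b l| * s1 + |k3 l b α| * s1 ^ 3 + K' * (s1 ^ 4 + δ) := by
  have ap := AP.of_ok h.ok
  have K0 := h.K0.trans h.K1
  have m : ∀ i ≤ N, 0 ≤ s i ∧ s i ≤ s1 := fun i hi =>
    ⟨s0.trans (R2a58.mono_le sm (Nat.zero_le _) hi), (R2a58.mono_le sm hi le_rfl).trans sN⟩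
  have e : ∀ i ≤ N, H i = hv b l (s i) := fun i hi => by rw [hH i hi, hq i hi]; rfl
  have hm : ∀ i ≤ N, |H i| ≤ |eps0 b l| * s1 + |k3 l b α| * s1 ^ 3 + K' * (s1 ^ 4 + δ) :=
    fun i hi => e i hi ▸ h.hv_le (m i hi).1 (m i hi).2
  refine ⟨⟨zm, z0, z1, sm, s0, sN, mesh, h.α0, fun i hi => (hx i hi).trans ?_, fun i hi => ?_,
    fun i hi => ?_⟩, ?_, hm⟩
  · have := m i hi
    have := h.δ0
    exact mul_le_mul h.K1 (add_le_add (pow_le_pow_left₀ (m i hi).1 (m i hi).2 2) le_rfl)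
      (by positivity) K0
  · have m0 := m i hi.le
    have m1 := m (i + 1) hi
    have sub : Icc (s i) (s (i + 1)) ⊆ Icc 0 (TT l) := Icc_subset_Icc m0.1 (m1.2.trans h.sT)
    have hg : ∀ r : ℝ, HasDerivAt (fun r => k3 l b α * r ^ 3 / 3 + A * r) (k3 l b α * r ^ 2 + A) r :=
      fun r => by
        have := (((hasDerivAt_pow 3 r).const_mul (k3 l b α)).div_const 3).add
          ((hasDerivAt_id' r).const_mul A)
        refine HasDerivAt.congr_deriv this ?_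
        norm_num
        ring
    have k := mvt_cmp (f := hv b l) (f' := ev b l) (E := K' * (s1 ^ 3 + δ) + a) (sm i hi)
      ((continuousOn_id.sub (continuousOn_const.mul (Pp.Ode3.Gam_cont ap))).mono sub)
      (fun u hu => (hasDerivWithinAt_id u _).sub ((Pp.Ode3.Gam_rder ap (m0.1.trans hu.1)
        (hu.2.trans_le (m1.2.trans h.sT))).const_mul b)) hg fun u hu => by
        have u0 := m0.1.trans hu.1
        have u1 := hu.2.le.trans m1.2
        have c := abs_le.1 ((h.at u0 u1).e.trans (show _ ≤ K' * (s1 ^ 3 + δ) by gcongr))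
        have f := abs_le.1 hA
        rw [abs_le]; constructor <;> linarith [c.1, c.2, f.1, f.2]
    rw [e _ hi, e _ hi.le]
    refine le_trans (le_of_eq ?_) k
    congr 1; ring
  · have m0 := m i hi
    have c := abs_le.1 (hm i hi)
    have g : |q i| ≤ s1 := by
      rw [hq i hi]
      exact (abs_of_nonneg (Pp.Ode3.Gam_nonneg l _)).le.trans
        ((Pp.Ode3.Gam_le ap ⟨m0.1, m0.2.trans h.sT⟩).trans m0.2)
    have f := abs_le.1 (amul hτ g)
    rw [hH i hi] at c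
    rw [abs_le]; constructor <;> linarith [c.1, c.2, f.1, f.2]
  · have c := abs_le.1 (h.at s0 (m 0 (Nat.zero_le _)).2).h
    have f := abs_le.1 (amul hA (abs_of_nonneg s0).le)
    rw [R2a58.Hs, e 0 (Nat.zero_le _), abs_le]
    constructor <;> linarith [c.1, c.2, f.1, f.2]

end Crest.Agent.T156.Pr.Ref81

namespace Crest.Agent.T156.Cas.C40.R81

open MeasureTheory Real Set Filter Topology
open Crest.Agent.T157.E Crest.Agent.T157.Casc Crest.Agent.T157.SL Crest.Agent.T157.Casc.C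
open Crest.Agent.R339.B Crest.Agent.R339.Var Crest.Agent.T157.Pf
open Crest.Agent.T156.Pp R85 Pr.Ref81 Pr.Exp50 Alt Alt.CIn12 Alt.Md67

/-- **(A), (B)**: the left sides are `E42.Aq D τ - ε₀` and `τ² E42.Bq D τ (S0l D l τ)` -/
theorem AB (T K' B : ℝ) (k2 : 0 ≤ K') (B1 : 1 ≤ B) : ∃ C : ℝ, 1 ≤ C ∧ ∀ (D : CD) (τ τ0 d b α δ K : ℝ) (P : ℕ)
    (l : List (ℝ × ℝ)) (t : ℕ → ℝ), D.Ok τ0 → St D τ T P → LkD D l t P d →
    LinT l b α K K' δ (t (D.J + 1)) → 0 ≤ b → b ≤ B → |b - τ| ≤ d → t (D.J + 1) ≤ D.X →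
    |ex D.B D.J - α * t (D.J + 1)| ≤ K * (t (D.J + 1) ^ 2 + δ) →
    |1 - τ * D.lam ^ 2 + τ * D.lam * ex D.B D.J * (D.lam ^ 2 * D.sig (D.J + 1)) - eps0 b l| ≤
      C * (|eps0 b l| * D.X ^ 2 + D.X ^ 3 + δ + d) ∧
    |τ ^ 2 * (ex D.B D.J * (D.sig (D.J + 1) / τ) ^ 2 - 3 * S0l D l τ)| ≤ C * (D.X ^ 4 + δ + d) ∧
    0 < D.lam ∧ D.lam ≤ 1 := by
  obtain ⟨C, c1, H⟩ := link T
  have p1 : 1 ≤ 6 * B * (K' + 1) := by nlinarith
  have p2 : 0 ≤ 6 * B * (K' + 1) * (2 * C) := by positivity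
  refine ⟨6 * B * (K' + 1) * (1 + 2 * C) + 8 * K' + 8, by linarith,
    fun D τ τ0 d b α δ K P l t ok s k h b0 b1 hτ tX hx => ?_⟩
  obtain ⟨-, a1, a2, -⟩ := H D τ τ0 d _ P l t ok s k le_rfl
  obtain ⟨L, -⟩ := k.lk ok s
  have JK : D.J + 1 < D.K := lt_of_le_of_lt s.JP k.PK
  have m1 := (k.mem ok (Nat.lt_succ_self _) JK).2
  have s0 := k.s0.le
  have t0 := s0.trans m1.1
  have x0 := L.x0.le
  have x1 := ok.x1
  have X1 := ok.X1
  have X0 := x0.trans x1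
  have d0 := k.d0
  have δ0 := h.δ0
  have K0 := h.K0
  have l0 : 0 < D.lam := by rw [lam_eq ok]; exact Ode3.D1_pos (s.adm ok) _ _
  have l1 : D.lam ≤ 1 := by rw [lam_eq ok]; exact Ode3.D1_le (s.adm ok) _ _
  refine ⟨?_, ?_, l0, l1⟩
  · have q : D.X * D.sig (D.J + 1) ^ 2 ≤ D.X ^ 3 :=
      (mul_le_mul_of_nonneg_left (pow_le_pow_left₀ s0 (m1.1.trans tX) 2) X0).trans_eq (by ring)
    have a := A_link (h.ref _ t0 le_rfl _ x0 hx) k.ok k2 b0 b1 B1 hτ l0.le l1 (e := 2 * C *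
      (D.X ^ 3 + d)) (a1.trans (by
        have := mul_le_mul_of_nonneg_left q (zero_le_one.trans c1)
        linarith [mul_nonneg (zero_le_one.trans c1) d0])) x0 x1 s0 m1.1 m1.2 tX X1 δ0
    refine a.trans ?_
    have e0 : 0 ≤ |eps0 b l| * D.X ^ 2 := by positivity
    have e1 : 0 ≤ D.X ^ 3 := by positivity
    have f1 := mul_nonneg p2 (add_nonneg e0 δ0)
    have f2 : 0 ≤ (8 * K' + 8) * (|eps0 b l| * D.X ^ 2 + D.X ^ 3 + δ + d) := by positivity
    linarith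
  · have a := abs_le.1 (B_lin (E := K * (t (D.J + 1) ^ 2 + δ)) k.ok t0 h.sT (fun r r0 r1 =>
      (h.lv r r0 r1).trans (by have := r1.le; gcongr)) hx)
    have c := abs_le.1 a2
    have e : τ ^ 2 * (ex D.B D.J * (D.sig (D.J + 1) / τ) ^ 2 - 3 * S0l D l τ) =
        ex D.B D.J * D.sig (D.J + 1) ^ 2 - 3 * (τ ^ 2 * S0l D l τ) := by
      have := s.pos.ne'
      field_simp
    have t1 := tX.trans X1
    have g1 : K * (t (D.J + 1) ^ 2 + δ) * t (D.J + 1) ^ 2 ≤ K' * (D.X ^ 4 + δ) := by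
      have i1 := mul_le_mul (pow_le_pow_left₀ t0 tX 2) (pow_le_pow_left₀ t0 tX 2) (by positivity)
        (by positivity)
      have i2 := mul_le_of_le_one_right δ0 (pow_le_one₀ (n := 2) t0 t1)
      rw [mul_assoc]
      exact mul_le_mul h.K1 (by linarith) (by positivity) k2
    have g2 : D.X * (D.X ^ 6 + t (D.J + 1) * d) ≤ D.X ^ 4 + d := by
      have i1 : D.X ^ 6 ≤ D.X ^ 4 := pow_le_pow_of_le_one X0 X1 (by norm_num)
      have i2 := mul_le_of_le_one_left d0 t1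
      exact (mul_le_of_le_one_left (by positivity) X1).trans (by linarith)
    have g3 := abs_le.1 (amul ((abs_of_nonneg x0).le.trans L.x1) (amul (A := d) (B := 2)
      (a := t (D.J + 1) - D.sig (D.J + 1)) (b := t (D.J + 1) + D.sig (D.J + 1))
      (abs_le.2 ⟨by linarith [m1.1], by linarith [m1.2]⟩)
      (abs_le.2 ⟨by linarith, by linarith [m1.1]⟩)))
    have e4 : 0 ≤ D.X ^ 4 := by positivity
    have f1 : 0 ≤ 6 * B * (K' + 1) * (1 + 2 * C) * (D.X ^ 4 + δ + d) := by positivity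
    have f2 := mul_nonneg k2 d0
    rw [e, abs_le]
    constructor <;> linarith [a.1, a.2, c.1, c.2, g3.1, g3.2]

variable {S : Sc} {M : Md} {m i : ℕ} {a : ℝ} {W : Option (ℕ → ℝ)} {E : Ev}

theorem cd_ex {J : ℕ} {ρ : ℕ → ℝ} (hL : M.Leg a) (k : ℕ) :
    ex (cd M m a ρ J W E).B (k + 1) = M.z k := ex_succ hL k

theorem cl_cells (h : Cl S M) (hi : S.j0 ≤ i) (hs : M.s i < M.s (i + 1)) :
    (∀ k, i ≤ k → ∀ u, u < M.s (k + 1) → lvr 1 M.lr u ≤ M.z k) ∧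
    ∀ k, i ≤ k → k ≤ S.Jp → ∀ u, M.s k ≤ u → M.z k ≤ lvr 1 M.lr u := by
  constructor
  · intro k hk
    induction k, hk using Nat.le_induction with
    | base =>
      exact fun u hu => (Ode3.lvr_mono h.ok.1 (le_max_left u (M.s i))).trans_eq
        (h.lv i hi _ (le_max_right _ _) (max_lt hu hs))
    | succ k hk ih =>
      intro u hu
      rcases le_or_gt (M.s (k + 1)) u with c | c
      · exact (h.lv _ (by omega) u c hu).le
      · exact (ih u c).trans (h.leg.zm (Nat.le_succ k))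
  · intro k hk hJ
    induction hJ using Nat.decreasingInduction with
    | self => exact fun u hu => (h.leg.z1 _).trans (h.lv1 u hu).ge
    | of_succ k _ ih =>
      intro u hu
      rcases le_or_gt (M.s (k + 1)) u with c | c
      · exact (h.leg.zm (Nat.le_succ k)).trans (ih (by omega) u c)
      · exact (h.lv _ (by omega) u hu c).ge

/-- **the link on the class**: no residual above the cut `i + 1`, reference `M.q` -/
theorem lkD_cl (h : Cl S M) (hL : M.Leg a) (hi : S.j0 ≤ i) (hJ : i + 1 ≤ S.Jp)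
    (hs : M.s i < M.s (i + 1)) (hG : ∀ k, i < k → k ≤ M.N → M.G k = 0)
    (hd : ∀ k, i < k → k ≤ M.N → M.d k = M.b) (hb : M.b / (m + 1) ≤ 1 / 2)
    (hN : M.s S.Jp + 1 / 2 ≤ M.s M.N) :
    LkD (cd M m a M.q (i + 1) W E) M.lr (CIn12.sh M.s) (S.Jp + 1) (M.b / (m + 1)) := by
  obtain ⟨c1, c2⟩ := cl_cells h hi hs
  have i4 := h.i4
  have d0 : 0 ≤ M.b / (m + 1) := div_nonneg (d_nonneg hL _) (by positivity)
  have key : ∀ k, i < k → k ≤ M.N → M.s k = tp M m k * M.q k + M.H k + M.b / (m + 1) * M.q k :=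
    fun k h1 h2 => by
      have e := hG k h1 h2
      have f := (tp_mem (m := m) hL k).2.2
      rw [Md.G] at e
      rw [← hd k h1 h2, ← f]
      linarith
  have sT : ∀ k ≤ M.N, M.s k ≤ R339.Var.TT M.lr := fun k hk => (h.sm hk).trans h.sN
  have s0 : ∀ k, 0 ≤ M.s k := fun k => h.s0 ▸ h.sm (Nat.zero_le k)
  have dec : ∀ j, i + 1 < j → j < (cd M m a M.q (i + 1) W E).K → ∃ k, j = k + 1 ∧ i + 1 ≤ k ∧ k < M.N :=
    fun j h1 h2 => ⟨j - 1, by omega, by omega, by rw [cd_K] at h2; omega⟩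
  refine ⟨h.ok, ?_, by rw [cd_K]; omega, d0, hb, fun j h1 h2 => ?_, fun j h1 h2 => ?_,
    fun j h1 h2 => ?_, ?_, fun j h1 h2 u hu => ?_, fun j h1 h2 u hu => ?_⟩
  · rw [cd_J, cd_sig m M.q W E hL le_rfl (by omega)]
    have e := key (i + 1) (Nat.lt_succ_self i) (by omega)
    have g : M.q (i + 1) ≤ M.s (i + 1) :=
      Ode3.Gam_le (Ode3.AP.of_ok h.ok) ⟨s0 _, sT _ (by omega)⟩
    have := mul_le_mul hb g (q_nonneg _) (by norm_num)
    linarith [s0 i]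
  · obtain ⟨k, rfl, k1, k2⟩ := dec j h1 h2
    rw [cd_sig m M.q W E hL k1 k2, cd_q m a M.q W E k1 k2]
    exact key k k1 k2.le
  · obtain ⟨k, rfl, -, k2⟩ := dec j h1 h2
    exact sT k k2.le
  · obtain ⟨k, rfl, k1, k2⟩ := dec j h1 h2
    exact cd_q m a M.q W E k1 k2
  · rw [cd_K, CD.sig, cd_tau m a M.q W E le_rfl]
    change M.s S.Jp ≤ tp M m M.N * qx M _ (M.N + 1) + fAcc (M.Mx a) (M.N + 1)
    rw [qx_top le_rfl, fAcc_Mx hL le_rfl]
    have e := key M.N (by omega) le_rfl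
    have f1 := mul_le_of_le_one_right (tp_mem (m := m) hL M.N).1 (q_le_one (M := M) M.N)
    have f2 := mul_le_of_le_one_right d0 (q_le_one (M := M) M.N)
    linarith
  · obtain ⟨k, rfl⟩ : ∃ k, j = k + 1 := ⟨j - 1, by rw [cd_J] at h1; omega⟩
    rw [cd_ex hL]
    exact c2 k (by rw [cd_J] at h1; omega) (by omega) u hu
  · obtain ⟨k, rfl⟩ : ∃ k, j = k + 1 := ⟨j - 1, by rw [cd_J] at h1; omega⟩
    rw [cd_ex hL]
    exact c1 k (by rw [cd_J] at h1; omega) u hu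

/-- the reference value of `S0` against `∫_low q² dx` -/
theorem S0_Sq (h : Cl S M) (hL : M.Leg a) (hi : S.j0 ≤ i) (hN : i < M.N)
    (hs : M.s S.j0 < M.s (S.j0 + 1)) {τ dq : ℝ}
    (hq : ∀ k, S.j0 < k → k ≤ i → |τ * M.q k - M.s k| ≤ dq) :
    |M.z i * M.s (i + 1) ^ 2 - 2 * M1 M.lr (M.s (i + 1)) -
      τ ^ 2 * ∑ k ∈ Finset.range (i + 1), M.dz m a k * M.q k ^ 2| ≤
      2 * (M.z S.j0 * M.s S.j0 ^ 2) + (M.z i - M.z S.j0) * (dq * (2 * M.s i + dq)) := by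
  have sT : ∀ k ≤ M.N, M.s k ≤ R339.Var.TT M.lr := fun k hk => (h.sm hk).trans h.sN
  have s0 : ∀ k, 0 ≤ M.s k := fun k => h.s0 ▸ h.sm (Nat.zero_le k)
  have cel : ∀ k, S.j0 ≤ k → k < M.N → M1 M.lr (M.s (k + 1)) - M1 M.lr (M.s k) =
      M.z k * (M.s (k + 1) ^ 2 - M.s k ^ 2) / 2 := fun k h1 h2 => by
    have := m1_cmp h.ok (c := M.z k) (e := 0) (E := 0) (s0 k) (h.sm (Nat.le_succ k)) (sT _ h2)
      fun r r0 r1 => by rw [h.lv k h1 r r0 r1]; simp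
    have := abs_le.1 this
    simp only [Nat.succ_eq_add_one] at this
    linarith [this.1, this.2]
  induction i, hi using Nat.le_induction with
  | base =>
    have e : ∑ k ∈ Finset.range (S.j0 + 1), M.dz m a k * M.q k ^ 2 = 0 :=
      Finset.sum_eq_zero fun k hk => by
        rcases k with _ | k
        · rw [show M.q 0 = 0 by rw [Md.q, h.s0]; exact Ode3.Gam_zero (Ode3.AP.of_ok h.ok)]; simp
        · have := Finset.mem_range.1 hk
          rw [dz_succ hL, h.low _ (by omega), h.low k (by omega), sub_self, zero_mul]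
    have c := m1_cmp h.ok (c := M.z S.j0) (e := 0) (E := M.z S.j0) le_rfl (s0 S.j0) (sT _ hN.le)
      fun r _ r1 => by
        have := (cl_cells h le_rfl hs).1 _ le_rfl r (r1.trans hs)
        rw [abs_le]; constructor <;> linarith [Ode3.lvr_pos h.ok.1 r]
    rw [show M1 M.lr 0 = 0 from Iz_zero _ _] at c
    have c' := abs_le.1 c
    rw [e, sub_self, abs_le]
    constructor <;> linarith [c'.1, c'.2, cel _ le_rfl hN]
  | succ i hi ih =>
    have c := abs_le.1 (ih (by omega) fun k h1 h2 => hq k h1 (by omega))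
    have g := hq (i + 1) (by omega) le_rfl
    have d0 := (abs_nonneg _).trans g
    have z1 := sub_nonneg.2 (hL.zm (Nat.le_succ i))
    have z0 := sub_nonneg.2 (hL.zm hi)
    have g' := abs_le.1 g
    have f := abs_le.1 (amul (abs_of_nonneg z1).le (amul g (b := τ * M.q (i + 1) + M.s (i + 1))
      (B := 2 * M.s (i + 1) + dq) (abs_le.2 ⟨by linarith [s0 (i + 1)], by linarith⟩)))
    have w := mul_nonneg z0 (mul_nonneg d0 (sub_nonneg.2 (h.sm (Nat.le_succ i))))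
    rw [Finset.sum_range_succ, dz_succ hL, abs_le]
    constructor <;> linarith [c.1, c.2, f.1, f.2, cel (i + 1) (by omega) hN]

/-- `St` on the class: constant `W` variance -/
theorem st_cd {J : ℕ} {ρ : ℕ → ℝ} (h : Cl S M) (hL : M.Leg a) (ha : 0 < a) (hm : 0 < m)
    (hJ : J ≤ S.Jp) (hd : ∀ k ≤ M.N, M.d k = M.b) {T : ℝ}
    (hT : tp M m S.Jp * ρ S.Jp + M.H S.Jp + 1 ≤ T) :
    St (cd M m a ρ J W E) (M.b * m / (m + 1)) T (S.Jp + 1) := by
  have i4 := h.i4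
  refine ⟨fun j h1 h2 => ?_, ?_, Mx_pos hL ha, Nat.lt_succ_of_le hJ, by rw [cd_K]; omega, ?_, ?_⟩
  · obtain ⟨k, rfl⟩ : ∃ k, j = k + 1 := ⟨j - 1, by omega⟩
    have k1 : k ≤ M.N := by rw [cd_K] at h2; omega
    rw [cd_tau m a ρ W E k1, tp, hd k k1]
  · have : 0 < M.b := by rw [← hd 0 (Nat.zero_le _)]; exact zero_lt_one.trans_le h.b0
    positivity
  · rw [cd_ex hL]; exact h.top _ le_rfl
  · rw [cd_sig m ρ W E hL hJ i4]; exact hT

end Crest.Agent.T156.Cas.C40.R81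

end
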