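import Crest.Agent.T156.R2Def_30
import Crest.Agent.T156.R2N_81
import Crest.Agent.T156.FamSm_28
import Crest.Agent.T156.GrReg_29

/-!
# Row 156, R2 (helper30): the shape of the END model
-/

set_option autoImplicit false
set_option linter.unusedSectionVars false

noncomputable section

namespace Crest.Agent.T156.Alt.R2

open Real Finset Filter
open Crest.Agent.T157.E Crest.Agent.T157.Casc Crest.Agent.T157.SL
open Crest.Agent.T156.Cas Crest.Agent.T156.Cas.C40 Md67 CIn12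

/-- the scales of the END model -/
abbrev Se (p : Pm) (C : ℝ) (P : Pl) : Sc := p.spS C p.ye P

/-- class membership and the clock -/
structure En (C : ℝ) (p : Pm) (P : Pl) : Prop where
  cl : Cl (Se p C P) (Me p P)
  cei : Cei (Se p C P) (Me p P)
  lo : ∀ k < p.J, p.v / 2 ≤ (Me p P).s (k + 1) - (Me p P).s k ∧
    (Me p P).s (k + 1) - (Me p P).s k ≤ 3 / 2 * p.v
  mid : ∀ k, p.J ≤ k → k < p.Jp P → p.v / 2 ≤ (Me p P).s (k + 1) - (Me p P).s k ∧
    (Me p P).s (k + 1) - (Me p P).s k ≤ 3 * p.v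
  hi : ∀ k, p.Jp P ≤ k → (Me p P).s (k + 1) - (Me p P).s k = p.v
  sJ : (Me p P).s p.J = p.J * p.v
  gam : (Me p P).s (p.Jp P) - (Me p P).s p.J ≤ P.γ
  sN : (Me p P).s (Me p P).N = (Me p P).s (p.Jp P) + p.Nr * p.v
  bβ : (Me p P).b ≤ C

def EnS (C : ℝ) (p : Pm) : Prop := p.r ≤ p.ye → ∀ P, p.SpOk (7 / 20) P → En C p P

theorem enS {β : ℝ} (hβ : 1 < β) : Cst β EnS := by
  intro c0 C0 hc0 hC0
  obtain ⟨K, -, H⟩ := memSp β hβ c0 C0 hc0 hC0
  obtain ⟨C, C1, G⟩ := clSp β hβ c0 C0 hc0 hC0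
  refine ⟨C, C1, fun A hA c hc hc' => ?_⟩
  filter_upwards [H A hA c hc hc', G A hA c hc hc'] with n h g p e1 e2 e3 e4 hp y1 P hP
  obtain ⟨⟨_, _, _, a⟩, -⟩ := h p e1 e2 e3 e4 hp _ P y1 le_rfl hP
  obtain ⟨g1, g2⟩ := g p e1 e2 e3 e4 hp _ P y1 le_rfl hP
  refine ⟨g1, g2, fun k hk => a.geo.ds_lo hk, fun k h1 h2 => ?_, fun k hk => a.geo.ds_hi hk,
    a.geo.sP_J, ?_, a.geo.sP_N, g1.b1⟩
  · obtain ⟨i, rfl⟩ := Nat.exists_eq_add_of_le h1
    have hi : i < P.I := by unfold Pm.Jp at h2; omega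
    exact (a.geo.ds_mid hi).symm ▸ hP.st i hi
  · have e : _ - _ ≤ P.γ := sub_le_iff_le_add'.2 (a.geo.sP_Jp_le.trans_eq (by rw [← a.geo.sP_J]))
    exact e

variable {β c0 C0 c η K C : ℝ} {A : ℕ} {p : Pm} {P : Pl} {m : ℕ} {a : ℝ} {E : CIn12.Ev}

theorem In.sc (h : In p m a) : (Se p C P).In m a := ⟨h.m1, h.m2, h.a1, h.a2⟩

theorem d_eq (k : ℕ) : (Me p P).d k = (Me p P).b := by
  simp [Md.b, Pm.tst, Pm.fam]

theorem G_zero (h : p.SpOk (7 / 20) P) {k : ℕ} (hk : p.jf < k) : (Me p P).G k = 0 := by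
  have : ¬ k ≤ p.jf := by omega
  simp [Md.G, Md.q, Pm.tst, Pm.fam, Pm.HP, Pm.qP, this, h.hs]

theorem tp_eq (k : ℕ) : tp (Me p P) m k = τ p P m := by rw [τ, tp, tp, d_eq, d_eq]

theorem τ_eq : τ p P m = (Me p P).b * m / (m + 1) := by rw [τ, tp, d_eq]

theorem τ_D : E42.τ (D p P m a E) = τ p P m := by
  rw [E42.τ, cd_K, cd_tau m a _ _ E le_rfl, tp_eq]

section reg
variable (H : Reg β c0 C0 A c η K p)
include H

theorem t10 : 0 < t1 p := mul_pos H.r0 (H.rp0 _)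
theorem un0 : 0 < un p := mul_pos (H.rp0 _) (pow_pos H.s0 5)
theorem gn0 (i : ℝ) : 0 < gn p i := H.rp0 _
theorem kk0 : 0 < kk p := inv_pos.2 (pow_pos H.κ0 _)
theorem ηH0 : 0 < ηH p := H.rp0 _

theorem lg_t1 : logb p.n (t1 p) = logb p.n p.s + c / 7 - 3 / 20 := by
  rw [t1, logb_mul H.r0.ne' (H.rp0 _).ne', H.lg_r, H.lg_rp]; ring
theorem lg_un : logb p.n (un p) = 5 * logb p.n p.s - 5 / 6 := by
  rw [un, logb_mul (H.rp0 _).ne' (pow_pos H.s0 5).ne', H.lg_rp, logb_pow]; push_cast; ring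
theorem lg_gn (i : ℝ) : logb p.n (gn p i) = -1 / i := H.lg_rp _
theorem lg_kk : logb p.n (kk p) = 20 * c := by
  rw [kk, logb_inv, logb_pow, H.lg_κ]; push_cast; ring
theorem lg_ηH : logb p.n (ηH p) = -9 / 10 := H.lg_rp _

theorem jc_bds : t1 p ≤ jc p * p.v ∧ jc p * p.v ≤ t1 p + p.v := by
  have h1 := Nat.le_ceil (t1 p / p.v)
  have h2 := (Nat.ceil_lt_add_one (div_pos (t10 H) H.v0).le).le
  rw [div_le_iff₀ H.v0] at h1
  rw [div_add_one H.v0.ne', le_div_iff₀ H.v0] at h2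
  exact ⟨h1, h2⟩

theorem r_le_t1 : p.r ≤ t1 p :=
  le_mul_of_one_le_right H.r0.le (one_le_rpow H.N1.le (by norm_num))

theorem jf_lt : p.jf + 1 < jc p := by
  have a1 : 3 * (p.jf * p.v) ≤ t1 p := by
    have := H.jfv0
    refine H.le_of_lg (by positivity) (t10 H) ?_
    rw [logb_mul (by norm_num) this.ne']
    linarith [H.lg_jf.2, lg_t1 H, (H.lg_num (x := 3) (by norm_num) (by norm_num)).2, H.c_le,
      H.η_le, H.c_pos]
  have a2 : (1 : ℝ) ≤ p.jf := by exact_mod_cast H.jf_pos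
  have a3 := mul_le_mul_of_nonneg_right a2 H.v0.le
  exact_mod_cast lt_of_mul_lt_mul_right (show ((p.jf : ℝ) + 1) * p.v < jc p * p.v by
    linarith [(jc_bds H).1, H.v0]) H.v0.le

theorem jc_lt : 4 * jc p ≤ p.J := by
  have a0 := H.c00
  have a1 : 8 * t1 p ≤ c0 := by
    have := t10 H
    refine H.le_of_lg (by positivity) a0 ?_
    have b := H.lg_le (by positivity) H.c0_le
    rw [one_div, logb_inv] at b
    rw [logb_mul (by norm_num) this.ne']
    linarith [lg_t1 H, (H.lg_num (x := 8) (by norm_num) (by norm_num)).2, H.c_le,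
      H.η_le, H.c_pos, H.lg_s.2]
  exact_mod_cast le_of_mul_le_mul_right (show (4 * (jc p : ℝ)) * p.v ≤ p.J * p.v by
    linarith [(jc_bds H).2, H.v_le_r, r_le_t1 H, H.ok.base.lo]) H.v0

theorem In.a0 (h : In p m a) : 0 < a := (half_pos (H.rp0 _)).trans_le h.a1
theorem In.m0 (h : In p m a) : 0 < m := H.n0.trans_le h.m1

variable (e : En C p P)
include e

theorem En.lg (h : In p m a) : Lg (Me p P) m a := lg_cl e.cl H.n0 h.sc

theorem En.τ_mem (h : In p m a) : 1 / 2 ≤ τ p P m ∧ τ p P m ≤ C := by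
  have m1 : (1 : ℝ) ≤ m := by exact_mod_cast h.m0 H
  have b0 : 1 ≤ (Me p P).b := d_eq (p := p) (P := P) 0 ▸ e.cl.b0
  refine ⟨?_, (tp_mem e.cl.leg 0).2.1.trans ((d_eq 0).trans_le e.bβ)⟩
  rw [τ_eq, le_div_iff₀ (by positivity)]
  nlinarith

/-- `σ` on UP against the reference clock -/
theorem En.sig (sp : p.SpOk (7 / 20) P) (h : In p m a) {k : ℕ} (h1 : jc p ≤ k) (h2 : k < (Me p P).N) :
    (D p P m a E).sig (k + 1) = (Me p P).s k - (Me p P).b / (m + 1) * (Me p P).q k := by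
  have g := G_zero sp (show p.jf < k by have := jf_lt H; omega)
  have t := (tp_mem (m := m) e.cl.leg k).2.2
  rw [Md.G] at g
  rw [cd_sig m _ _ E (e.lg H h).toLeg h1 h2, ← d_eq k, ← t]
  linarith

theorem En.st (sp : p.SpOk (7 / 20) P) (h : In p m a) :
    R85.St (D p P m a E) (τ p P m) (C + 1) (p.Jp P + 1) := by
  have hJ : jc p ≤ p.Jp P := by have := jc_lt H; unfold Pm.Jp; omega
  rw [τ_eq]
  refine R81.st_cd e.cl (e.lg H h).toLeg (h.a0 H) (h.m0 H) hJ (fun k _ => d_eq k) ?_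
  have a1 := e.sig (E := E) H sp h hJ e.cl.i4
  rw [cd_sig m _ _ E (e.lg H h).toLeg hJ e.cl.i4] at a1
  have a2 : 0 ≤ (Me p P).b / (m + 1) * (Me p P).q (p.Jp P) :=
    mul_nonneg (div_nonneg (d_nonneg e.cl.leg _) (by positivity)) (q_nonneg _)
  have a3 : (Me p P).s (p.Jp P) ≤ C := e.cl.sT
  exact add_le_add_left (a1.trans_le (by linarith)) 1

theorem En.tot : (Me p P).b + (Me p P).H (Me p P).N ≤ C + C * A * log p.n := by
  have : (Me p P).H (Me p P).N ≤ C * p.A * log p.n := e.cl.HN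
  rw [H.hA] at this
  linarith [e.bβ]

theorem En.La_le (h : In p m a) : E42.La (D p P m a E) ≤ 1 + (C + C * A * log p.n) := by
  rw [E42.La, cd_K, CD.sig, cd_tau m a _ _ E le_rfl, show (D p P m a E).q ((Me p P).N + 1) = 1 from
    qx_top le_rfl, show fAcc (D p P m a E).M ((Me p P).N + 1) = (Me p P).H (Me p P).N from
    fAcc_Mx (e.lg H h).toLeg le_rfl]
  linarith [(tp_mem (m := m) e.cl.leg (Me p P).N).2.1, e.tot H, d_eq (p := p) (P := P) (Me p P).N]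

/-- the reference clock on the slope -/
theorem En.s_lo {k : ℕ} (hk : k ≤ p.J) :
    k * p.v / 2 ≤ (Me p P).s k ∧ (Me p P).s k ≤ 3 / 2 * (k * p.v) := by
  induction k with
  | zero => simp [e.cl.s0]
  | succ k ih =>
    have := ih (by omega)
    have := e.lo k hk
    push_cast
    constructor <;> linarith [this.1, this.2]

/-- the variance of the jump level -/
theorem En.sJ_ge (hC : C ≤ (p.n : ℝ) ^ η) (h : Ad p P m a E) :
    t1 p / 4 ≤ (D p P m a E).sig ((D p P m a E).J + 1) - (D p P m a E).sig (D p P m a E).J := by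
  have j1 := jc_lt H
  have i3 : p.J ≤ p.Jp P := e.cl.i3
  have i4 : p.Jp P < (Me p P).N := e.cl.i4
  have a1 := e.sig (E := E) H h.sp h.inn le_rfl (by omega)
  have a2 : (D p P m a E).sig (D p P m a E).J ≤ E.X ^ 3 := by
    rw [CD.sig, h.ok.qlo _ le_rfl, mul_zero, zero_add]; exact h.ok.h1
  have t0 := t10 H
  have k0 := H.κ0
  have N0 := H.N0
  have a3 : E.X ^ 3 ≤ t1 p / 8 := by
    rw [h.env.X]
    refine H.le_of_lg (by positivity) (by positivity) ?_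
    lg_norm
    linarith [lg_t1 H, (H.lg_num (x := 8) (by norm_num) (by norm_num)).2, H.c_le,
      H.η_le, H.c_pos, H.lg_s.2, H.lg_κ]
  have a4 : (p.n : ℝ) ^ η / p.n ≤ t1 p / 8 := by
    refine H.le_of_lg (by positivity) (by positivity) ?_
    lg_norm
    linarith [lg_t1 H, (H.lg_num (x := 8) (by norm_num) (by norm_num)).2, H.c_le,
      H.η_le, H.c_pos, H.lg_s.1, H.lg_n, mul_one η ▸ congrArg (η * ·) H.lg_n]
  have m1 : (p.n : ℝ) ≤ m := by exact_mod_cast h.inn.m1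
  have b0 : 0 ≤ (Me p P).b := d_nonneg e.cl.leg _
  have a5 : (Me p P).b / (m + 1) * (Me p P).q (jc p) ≤ (p.n : ℝ) ^ η / p.n :=
    (mul_le_of_le_one_right (by positivity) (q_le_one _)).trans
      (div_le_div₀ H.Λ0.le (e.bβ.trans hC) N0 (by linarith))
  have a6 := (e.s_lo H (k := jc p) (by omega)).1
  rw [cd_J, a1]
  rw [cd_J] at a2
  linarith [(jc_bds H).1]

/-- the last reveal node -/
theorem En.q_top (hA : 8 ≤ A) : 1 - (Me p P).q ((Me p P).N - 1) ≤ 1 / (p.n : ℝ) ^ 2 := by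
  have i4 : p.Jp P < (Me p P).N := e.cl.i4
  have s0 := s_nonneg e.cl (p.Jp P)
  have a1 := (Pr.platS _ e.cl.ok _ _ s0 (e.cl.sm (show p.Jp P ≤ (Me p P).N - 1 by omega))
    (s_mem e.cl (Nat.sub_le _ _)).2 e.cl.lv1).2
  have a2 := e.hi ((Me p P).N - 1) (by omega)
  rw [Nat.sub_add_cancel (by omega), e.sN] at a2
  have a3 := H.Nr_bds.1
  have a4 : (8 : ℝ) ≤ A := by exact_mod_cast hA
  have a5 : p.v ≤ 1 := H.v_le_r.trans (H.r_le_ye.trans H.ye1)
  have l1 := H.log1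
  refine a1.trans ((mul_le_of_le_one_right (exp_pos _).le 
    (sub_le_self _ (q_nonneg (M := Me p P) (p.Jp P)))).trans ?_)
  rw [show 1 / (p.n : ℝ) ^ 2 = exp (-(2 * log p.n)) by
    rw [exp_neg, show (2 : ℝ) = (2 : ℕ) by norm_num, exp_nat_mul, exp_log H.N0, one_div]]
  exact exp_le_exp.2 (by nlinarith)

end reg

end Crest.Agent.T156.Alt.R2

end
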