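import Crest.Agent.T156.R2GD_78
import Crest.Agent.T156.R2K_30

/-!
# Row 156, R2: the cubic sum of the top zone from the two passes (helper42)
-/

set_option autoImplicit false

noncomputable section

namespace Crest.Agent.T156.Alt.R2

open Real Finset Md67

/-- **`GhB`** -/
theorem ghB_of {β : ℝ} (hβ : 1 < β) (h1 : GhX β) (h2 : TopL β) : GhB β := by
  unfold GhX TopL GhB EvA at *
  refine Sml.glueC hβ (enS hβ) (h1.and h2) fun C _ c0 C0 _ _ => ⟨0, fun A _ => ⟨1 / 2000,
    by norm_num, fun c hc c0' => ⟨c, c0', fun η _ _ => ⟨1, fun p H e W => ?_⟩⟩⟩⟩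
  intro P m a E ad iu r0
  have G := (e H.r_le_ye P ad.sp).lg H ad.inn
  obtain ⟨-, i, i1, i2, d, a1, a2⟩ := W.1 P m a ad.sp ad.inn
  have a3 := W.2 P m a E ad iu r0 i i1 i2 d
  have a4 : ∑ k ∈ (Thi p P).filter (fun k => ¬ k < i), (Me p P).dz m a k * U3 p P m a k ≤
      ∑ k ∈ Ico i (Me p P).N, (Me p P).dz m a k * U3 p P m a k :=
    sum_le_sum_of_subset_of_nonneg (fun k hk => by
      obtain ⟨h, h'⟩ := mem_filter.1 hk
      exact mem_Ico.2 ⟨not_lt.1 h', (mem_Ico.1 (mem_filter.1 h).1).2⟩)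
      fun k _ _ => mul_nonneg (G.dz_nonneg k) (E2_nonneg (fun r _ => by positivity) k)
  rw [← sum_filter_add_sum_filter_not (Thi p P) (· < i)]
  have s0 := H.s0
  have N0 := H.N0
  have l2 := (H.lg_num (x := 2) (by norm_num) (by norm_num)).2
  have l3 := (H.lg_num (x := 1000) (by norm_num) (by norm_num)).2
  have b1 : 2 * 2 * 1000 * cb p (848 / 1000) ≤ cb p (169 / 200) := by
    unfold cb
    refine H.le_of_lg (by positivity) (by positivity) ?_
    simp (disch := positivity) only [logb_mul, H.lg_rp]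
    linarith [H.η_le]
  have b2 : 2 * cb p (847 / 1000) ≤ cb p (169 / 200) := by
    unfold cb
    refine H.le_of_lg (by positivity) (by positivity) ?_
    simp (disch := positivity) only [logb_mul, H.lg_rp]
    linarith [H.η_le]
  have b3 : 0 ≤ cb p (848 / 1000) := by unfold cb; positivity
  linarith

end Crest.Agent.T156.Alt.R2

end
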