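import Crest.Agent.T156.R2Def_30
import Crest.Agent.T156.CLfC_24

/-!
# Row 156, R2 (helper23): what the value record of the END model reads (statements)
-/

set_option autoImplicit false

noncomputable section

namespace Crest.Agent.T156.Alt.R2

open Real Finset

variable (p : Pm) (P : Pl) (m : ℕ) (a : ℝ)

/-- envelope `G` and cubic size `g` of `R - q k` on the nodes `T` -/
structure GZ (T : Finset ℕ) (G g : ℕ → ℝ) : Prop where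
  pos : ∀ k ∈ T, 0 < G k
  sq : ∀ k ∈ T, (Me p P).E2 m a (fun R => (R - (Me p P).q k) ^ 2) k ≤ G k ^ 2
  env : ∀ k ∈ T, (Me p P).E2 m a (fun R => max (|R - (Me p P).q k| - G k) 0) k ≤
    (p.n : ℝ) ^ (-(2 * (p.A : ℝ) + 5))
  g0 : ∀ k ∈ T, 0 ≤ g k
  u3 : ∀ k ∈ T, (Me p P).E2 m a (fun R => |R - (Me p P).q k| ^ 3) k ≤ g k ^ 3
  s1 : ∑ k ∈ T, (Me p P).dz m a k * G k ≤ kk p ^ 5 * (p.s ^ 2 * (p.n : ℝ) ^ (-(13 : ℝ) / 40))
  n1 : ∑ k ∈ T, (Me p P).dz m a k * g k ≤ kk p ^ 5 * (p.s ^ 2 * (p.n : ℝ) ^ (-(13 : ℝ) / 40))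
  n2 : ∑ k ∈ T, (Me p P).dz m a k * g k ^ 2 ≤ kk p ^ 5 * (p.s ^ 3 * (p.n : ℝ) ^ (-(31 : ℝ) / 60))
  n3 : ∑ k ∈ T, (Me p P).dz m a k * (max (t1 p) ((Me p P).z k) * g k ^ 3) ≤
    kk p ^ 5 * (p.s ^ 5 * (p.n : ℝ) ^ (-(17 : ℝ) / 20))
  n4 : ∑ k ∈ T, (Me p P).dz m a k * (Me p P).E2 m a (fun R => |R - (Me p P).q k| ^ 4) k ≤
    kk p ^ 5 * (p.s ^ 5 * (p.n : ℝ) ^ (-(17 : ℝ) / 20))

/-- sloped part and top part of UP -/
def Tlo : Finset ℕ := (Ico (jc p) (Me p P).N).filter fun k => (Me p P).s k < (Me p P).s p.J / 16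
def Thi : Finset ℕ := (Ico (jc p) (Me p P).N).filter fun k => ¬ (Me p P).s k < (Me p P).s p.J / 16

/-- crude location at the level `r / κ` -/
def CrE (β : ℝ) : Prop := Sml β fun Λ p => ∀ P m a, p.SpOk (7 / 20) P → In p m a →
  ∀ k, p.jf ≤ k → k ≤ p.Jp P → (Me p P).rb m a k ≤ Λ * max ((Me p P).z k) (p.r / p.κ)

def GlS (β : ℝ) : Prop := Sml β fun _ p => ∀ P m a, p.SpOk (7 / 20) P → In p m a →
  ∃ G g, GZ p P m a (Tlo p P) G g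

def GhS (β : ℝ) : Prop := Sml β fun _ p => ∀ P m a, p.SpOk (7 / 20) P → In p m a →
  ∃ G g, GZ p P m a (Thi p P) G g

/-- Riccati sums of the top block -/
def TpS (β : ℝ) : Prop := Sml β fun _ p => ∀ P m a, p.SpOk (7 / 20) P → In p m a →
  ∃ N, Lb24.Top (Me p P) m a (p.J - 1) N (kk p ^ 5 * (p.s ^ 5 * (p.n : ℝ) ^ (-(17 : ℝ) / 20)))
    (kk p ^ 5 * (p.s ^ 5 * (p.n : ℝ) ^ (-(17 : ℝ) / 20)))

/-- the low variance -/
def LvS (β : ℝ) : Prop := EvA β fun p P m a E =>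
  (D p P m a E).vL ≤ kk p ^ 5 * (p.s ^ 6 * (p.n : ℝ) ^ (-(59 : ℝ) / 60))

end Crest.Agent.T156.Alt.R2

end
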