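import Crest.Agent.T156.R2LvA_21
import Crest.Agent.T156.R2VD_23
import Crest.Agent.T156.R2K_30

/-!
# Row 156, R2: the low variance of the END model (helper21)
-/

set_option autoImplicit false

noncomputable section

namespace Crest.Agent.T156.Alt.R2

open Real Finset
open Crest.Agent.T156.Cas Crest.Agent.T156.Cas.C40

variable {β c0 C0 c η K C : ℝ} {A : ℕ} {p : Pm} {P : Pl}

/-- the Riccati weight of the END model below `ye` -/
theorem w3_end (H : Reg β c0 C0 A c η K p) {t : ℝ} (t0 : 0 < t) (ht : t ≤ p.ye) :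
    (Se p C P).w3 t = 1 / (p.n * t * (p.κ * max p.r t ^ 2)) := by
  show 1 / (p.n * t * p.ms 1 p.ye t) = _
  rw [Pm.ms, one_mul, min_eq_left ht]

theorem lv_end (H : Reg β c0 C0 A c η K p) (hK : 2 * C ≤ K) (hη : 60 * η ≤ c) (e : En C p P)
    {m : ℕ} {a : ℝ} {E : CIn12.Ev} (x : Ad p P m a E)
    (cr : ∀ k, p.jf ≤ k → k ≤ p.Jp P →
      (Me p P).rb m a k ≤ (p.n : ℝ) ^ η * max ((Me p P).z k) (p.r / p.κ))
    (L : (Se p C P).F ≤ (Se p C P).n → ∀ Λ₀ l, 0 < l → (Me p P).s (Se p C P).jl ≤ l →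
      (Se p C P).w3 l ≤ l ^ 3 → Crude Λ₀ (Se p C P) (Me p P) m a l (Se p C P).jl →
      ∀ (b : ℕ) (ρ : ℕ → ℝ) (W : Option (ℕ → ℝ)) (E : CIn12.Ev) (τ0 U : ℝ),
        4 * (Se p C P).jl ≤ b → b < (Se p C P).J → (CIn12.cd (Me p P) m a ρ b W E).Ok τ0 → 0 ≤ U →
        (∀ t, 4 * (Se p C P).jl * (Se p C P).v ≤ t → t ≤ (Se p C P).C * (b * (Se p C P).v) →
          (Se p C P).w3 t * max t l ^ 3 ≤ U) →
        (CIn12.cd (Me p P) m a ρ b W E).vL ≤ τ0 ^ 4 * (((p.n : ℝ) ^ η) ^ 5 * Λ₀ ^ 4 *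
          (max ((Se p C P).jl * (Se p C P).v) l ^ 6 + U +
            b * (Se p C P).v / ((Se p C P).jl * (Se p C P).v) * U) + 192 * CIn12.tlD (Se p C P) 1)) :
    (D p P m a E).vL ≤ kk p ^ 5 * (p.s ^ 6 * (p.n : ℝ) ^ (-(59 : ℝ) / 60)) := by
  have C1 : 1 ≤ C := e.cl.C1
  have r0 := H.r0
  have k0 := H.κ0
  have k1 := H.κ1
  have N0 := H.N0
  have v0 := H.v0
  have s0 := H.s0
  have j0 := H.jfv0
  have t0 := t10 H
  have b0 := H.β0
  have L0 := H.Λ0
  have cp := H.c_pos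
  have cl := H.c_le
  have ηp := H.η_pos
  have ls := H.lg_s
  have lj := H.lg_jf
  have lr := H.lg_r
  have lk := H.lg_κ
  have ln := H.lg_n
  have lt := lg_t1 H
  have lL := H.lg_rp η
  have l2 := H.lg_num (x := 2) (by norm_num) (by norm_num)
  have l4 := H.lg_num (x := 4) (by norm_num) (by norm_num)
  have lC := H.lg_cst (x := 2 * C) (by linarith) (hK.trans H.K_le)
  have j1 := jc_lt H
  have j2 := jf_lt H
  have jb := jc_bds H
  have jb2 : jc p * p.v ≤ 2 * t1 p := by linarith [H.v_le_r, r_le_t1 H]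
  have rl : p.r ≤ p.r / p.κ := le_div_self r0.le k0 k1
  have jr : 2 * (p.jf * p.v) ≤ p.r := H.le_of_lg (by positivity) r0 (by
    rw [logb_mul (by norm_num) j0.ne']; linarith)
  have j4 : 4 * p.jf ≤ jc p := by
    have a1 : 4 * (p.jf * p.v) ≤ t1 p := H.le_of_lg (by positivity) t0 (by
      rw [logb_mul (by norm_num) j0.ne']; linarith)
    exact_mod_cast le_of_mul_le_mul_right (show (4 * (p.jf : ℝ)) * p.v ≤ jc p * p.v by linarith) v0
  have ly : p.r / p.κ ≤ p.ye := H.le_of_lg (by positivity) H.ye0 (by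
    lg_norm; linarith [H.lg_ye])
  have ty : 2 * C * t1 p ≤ p.ye := H.le_of_lg (by positivity) H.ye0 (by
    rw [logb_mul (by positivity) t0.ne']; linarith [H.lg_ye])
  obtain ⟨U, hU⟩ : ∃ U, U = p.r / (p.jf * p.v) / (p.n * p.κ ^ 4) := ⟨_, rfl⟩
  have U0 : 0 < U := by rw [hU]; positivity
  have lU : logb p.n U ≤ c / 7 - c / 13 + 4 * c - 1 := by
    rw [hU, logb_div (by positivity) (by positivity), logb_div r0.ne' j0.ne']
    lg_norm
    linarith
  have key := L (show (1 : ℝ) ≤ p.n from H.N1.le) ((p.n : ℝ) ^ η) (p.r / p.κ) (by positivity)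
    (show (Me p P).s p.jf ≤ _ by linarith [(e.s_lo H (k := p.jf) (by omega)).2])
    (by
      rw [w3_end H (by positivity) ly, max_eq_right rl]
      refine H.le_of_lg (by positivity) (by positivity) ?_
      lg_norm
      linarith)
    ⟨H.Λ1, cr⟩ (jc p) _ none E _ U j4 (show jc p < p.J by omega) x.ok U0.le
    (fun t h1 h2 => by
      change 4 * (p.jf : ℝ) * p.v ≤ t at h1
      change t ≤ C * (jc p * p.v) at h2
      have t0 : 0 < t := by linarith
      have m0 : 0 < max p.r t := lt_max_of_lt_left r0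
      have a1 : max t (p.r / p.κ) ≤ max p.r t / p.κ := max_le
        ((le_max_right _ _).trans (le_div_self m0.le k0 k1)) (by gcongr; exact le_max_left _ _)
      have a2 : max p.r t / t ≤ p.r / (p.jf * p.v) := by
        rw [div_le_div_iff₀ t0 j0]
        rcases le_total p.r t with g | g
        · rw [max_eq_right g, mul_comm p.r]; gcongr; linarith
        · rw [max_eq_left g]; gcongr; linarith
      rw [w3_end H t0 (h2.trans (le_trans ?_ ty)), hU]
      · calc _ ≤ 1 / (p.n * t * (p.κ * max p.r t ^ 2)) * (max p.r t / p.κ) ^ 3 := by gcongr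
          _ = max p.r t / t / (p.n * p.κ ^ 4) := by field_simp
          _ ≤ _ := by gcongr
      · linarith [mul_le_mul_of_nonneg_left jb2 (zero_le_one.trans C1)])
  refine key.trans ?_
  change (p.β ^ 2) ^ 4 * (((p.n : ℝ) ^ η) ^ 5 * ((p.n : ℝ) ^ η) ^ 4 *
    (max (p.jf * p.v) (p.r / p.κ) ^ 6 + U + jc p * p.v / (p.jf * p.v) * U) +
      192 * ((p.n : ℝ) ^ (1 * (p.A + 1)))⁻¹) ≤ _
  rw [max_eq_right (by linarith)]
  obtain ⟨T, hT⟩ : ∃ T, T = kk p ^ 5 * (p.s ^ 6 * (p.n : ℝ) ^ (-(59 : ℝ) / 60)) := ⟨_, rfl⟩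
  have kk0 := kk0 H
  have n0 := H.rp0 (-(59 : ℝ) / 60)
  have T0 : 0 < T := by rw [hT]; positivity
  have lT : logb p.n T = 100 * c + 6 * logb p.n p.s - 59 / 60 := by
    rw [hT, logb_mul (by positivity) (by positivity), logb_mul (by positivity) n0.ne', logb_pow,
      logb_pow, lg_kk H, H.lg_rp]
    push_cast
    ring
  rw [← hT]
  have lb := H.lg_β
  generalize (p.n : ℝ) ^ η = Λ at *
  have d1 : 4 * ((p.β ^ 2) ^ 4 * (Λ ^ 5 * Λ ^ 4 * (p.r / p.κ) ^ 6)) ≤ T :=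
    H.le_of_lg (by positivity) T0 (by lg_norm; linarith)
  have d2 : 4 * ((p.β ^ 2) ^ 4 * (Λ ^ 5 * Λ ^ 4 * U)) ≤ T :=
    H.le_of_lg (by positivity) T0 (by lg_norm; linarith)
  have d3 : 4 * ((p.β ^ 2) ^ 4 * (Λ ^ 5 * Λ ^ 4 * (2 * t1 p / (p.jf * p.v) * U))) ≤ T := by
    generalize p.jf * p.v = j at *
    exact H.le_of_lg (by positivity) T0 (by lg_norm; linarith)
  have d4 : 768 * ((p.β ^ 2) ^ 4 * ((p.n : ℝ) ^ (1 * (p.A + 1)))⁻¹) ≤ T := by
    have l7 := H.lg_num (x := 768) (by norm_num) (by norm_num)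
    have : (2 : ℝ) ≤ p.A := by rw [H.hA]; exact_mod_cast H.A2
    refine H.le_of_lg (by positivity) T0 ?_
    lg_norm
    push_cast
    rw [ln]
    linarith
  have d5 : (p.β ^ 2) ^ 4 * (Λ ^ 5 * Λ ^ 4 * (jc p * p.v / (p.jf * p.v) * U)) ≤
      (p.β ^ 2) ^ 4 * (Λ ^ 5 * Λ ^ 4 * (2 * t1 p / (p.jf * p.v) * U)) := by gcongr
  linarith

/-- **the low variance** -/
theorem lvS_of {β : ℝ} (hβ : 1 < β) (h : CrE β) : LvS β := by
  unfold LvS EvA
  refine Sml.glueCL hβ (enS hβ) h Lv21.lvC (fun C => C) (fun _ => 1) (fun _ _ => one_pos)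
    fun C _ c0 C0 _ _ => ⟨0, fun A _ => ⟨1, one_pos, fun c _ hc => ⟨c / 60, by positivity,
      fun η hη _ => ⟨2 * C, fun p H G R L P m a E x => ?_⟩⟩⟩⟩
  have e := G H.r_le_ye P x.sp
  exact lv_end H le_rfl (by linarith) e x (R P m a x.sp x.inn)
    (L (Se p C P) (Me p P) rfl rfl rfl e.cl m a x.inn.sc)

end Crest.Agent.T156.Alt.R2

end
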