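import Crest.Agent.T156.R2N_81

/-!
Row 156, R2 (helper81): the reference lists of the family have linear tilts on `[0, y / 2]`.
-/

set_option autoImplicit false

noncomputable section

namespace Crest.Agent.T156.Alt

open Real Set Filter Topology
open Crest.Agent.R164.GC Crest.Agent.R339.B Crest.Agent.R339.Var Crest.Agent.T157.Pf
open Pr.Ref81 Pr.Exp50

/-- the linear zone of the family -/
def LinQ (K : ℝ) (p : Pm) : Prop := ∀ τ y, p.Mem τ y → ∀ P : Pl, 0 ≤ P.γ → P.γ ≤ 1 → P.x 0 = p.xs →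
  (∀ i < P.I, P.x i < P.x (i + 1)) → P.x P.I ≤ 1 → ∃ K₀,
  LinT (p.lP P τ y) (p.b τ y) (p.al τ) K₀ K (√p.v) (y / 2) ∧ (0 ≤ p.b τ y ∧ p.b τ y ≤ K) ∧
  (1 / K ≤ p.al τ ∧ p.al τ ≤ K) ∧ |eps0 (p.b τ y) (p.lP P τ y) - p.eps τ| ≤ K * P.γ ∧
  |k3 (p.lP P τ y) (p.b τ y) (p.al τ)| ≤ K * (p.κ + P.γ) ∧
  ∀ k : ℕ, k * p.v ≤ y / 2 → k + 1 < p.J ∧ p.zP P k = p.z k ∧ k * p.v / 2 ≤ p.sP P τ y k ∧
    p.sP P τ y k ≤ k * p.v ∧ p.sP P τ y k < p.sP P τ y (k + 1) ∧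
    p.sP P τ y (k + 1) - p.sP P τ y k ≤ 2 * p.v ∧ ∀ x, x = p.z k ∨ x = p.z (k - 1) →
      |x - p.al τ * p.sP P τ y k| ≤ K₀ * (p.sP P τ y k ^ 2 + √p.v)

theorem linQ (β : ℝ) (hβ : 1 < β) : Cst β LinQ := by
  intro c0 C0 hc0 hC0
  have hb : 1 ≤ β ^ 2 := one_le_pow₀ hβ.le
  obtain ⟨K0, η0, k0, p0, H⟩ := lin_ref (β ^ 2) c0 C0 hb hc0 hC0
  obtain ⟨C1, c1, h1⟩ := p1 β hβ c0 C0 hc0 hC0
  obtain ⟨K1, k1, h2⟩ := linP β hβ c0 C0 hc0 hC0
  have q0 : 0 ≤ K0 * (C0 + 1) := by positivity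
  obtain ⟨K, j1, j2, j3⟩ : ∃ K, K0 * (C0 + 1) ≤ K ∧ K1 ≤ K ∧ 2 * β ^ 2 ≤ K :=
    ⟨K0 * (C0 + 1) + K1 + 2 * β ^ 2, by linarith, by linarith, by linarith⟩
  obtain ⟨K2, η2, k2, k2', p2, H2⟩ := linRef_tp (β ^ 2 + 1) K
  have j4 := j2.trans k2'
  obtain ⟨δ, hδ, d0, d1, d2, d3, d4⟩ : ∃ δ : ℝ, 0 < δ ∧ δ ≤ 1 / 8 ∧ δ ≤ η0 ∧ δ ≤ c0 / 2 ∧ δ ≤ η2 ∧
      δ ≤ η2 ^ 2 :=
    ⟨min (min (1 / 8) (min η0 (c0 / 2))) (min η2 (η2 ^ 2)), by positivity,
      (min_le_left _ _).trans (min_le_left _ _),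
      (min_le_left _ _).trans ((min_le_right _ _).trans (min_le_left _ _)),
      (min_le_left _ _).trans ((min_le_right _ _).trans (min_le_right _ _)),
      (min_le_right _ _).trans (min_le_left _ _), (min_le_right _ _).trans (min_le_right _ _)⟩
  refine ⟨K2, k2, fun A hA c hc hc' => ?_⟩
  filter_upwards [PP3.ev_small β c0 C0 hA hc hc' hδ, h1 A hA c hc hc', h2 A hA c hc hc',
    eventually_ge_atTop 3] with n hS hP hQ n3 p hβ' hn hA' hc'' hp τ y hm P g0 g1 x0 xm x1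
  have S := hS p hβ' hn hA' hc'' hp
  obtain ⟨ho, -, ⟨b1, -⟩, -⟩ := hP p hβ' hn hA' hc'' hp τ y hm
  obtain ⟨⟨a1, a2⟩, a3, a4, a5, -⟩ := hQ p hβ' hn hA' hc'' hp τ y hm P g0 g1 x0 xm x1
  clear hS hP hQ h1 h2
  subst hβ'
  obtain ⟨κ0, r0, m0, t0, t1, ry, yd, -⟩ := PP3.mem_facts S hp.s1 hm
  have hB := hp.base
  have v0 := hB.v_pos
  have y0 : 0 < y := r0.trans_le ry
  have l0 : 0 ≤ τ * p.κ := by positivity
  have l1 : τ * p.κ ≤ p.κ := mul_le_of_le_one_left κ0.le t1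
  have kd := S.κ
  have hL : 4 * p.κ ≤ 1 / 2 := by linarith only [kd, d0]
  have e0 := Pr.Sharp81.eta_nn hB
  have ηv : C0 / (p.n : ℝ) ^ p.A + p.v ≤ δ := S.ηv.trans (mul_le_of_le_one_right hδ.le S.μ1)
  have yJ : 2 * y ≤ p.J * p.v := by linarith only [yd, d2, hB.lo]
  have J0 : 0 < (p.J : ℝ) * p.v := hc0.trans_le hB.lo
  have G : Mem37.Geo c0 C0 _ (2 * y) p P (p.om τ y) := ⟨hB, ⟨ho.zero, ho.nn, ho.supp, fun j =>
    (ho.lip j).trans (mul_le_mul_of_nonneg_right hL v0.le)⟩, yJ,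
    Nat.pos_of_ne_zero (fun h => by simp [h] at J0), g0, x0, xm, x1⟩
  have ep : p.eps τ ≤ 1 := by
    have : p.r ^ 2 ≤ 1 := pow_le_one₀ r0.le (by linarith only [ry, yd, d0])
    unfold Pm.eps
    exact mul_le_one₀ (by linarith only [l1, hL]) (sq_nonneg _) this
  have b0 : 0 ≤ p.b τ y := div_nonneg (sub_nonneg.2 ep) (sq_nonneg _)
  have b2 : p.b τ y ≤ 2 * p.β ^ 2 := by
    have a : 0 ≤ p.μ τ y / C1 := by unfold Pm.μ; positivity
    have : p.b τ y / p.β ^ 2 ≤ 1 := by linarith only [a, b1]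
    rw [div_le_one (by positivity)] at this
    linarith only [this, hb]
  obtain ⟨-, a6, -⟩ := H _ _ _ _ hB (by linarith only [ηv, v0, d1])
    (by linarith only [ηv, e0, d1]) (p.om τ y) (2 * y) (4 * p.κ) (τ * p.κ) y (p.b τ y)
    (p.J + p.Nr) ho hL yJ l0 (by linarith only [l1, hL, κ0])
    (by linarith only [yJ, y0]) (yd.trans d1) (fun j hj => by
      unfold Pm.om
      rw [PP3.sm_lo (by rw [sub_nonpos, div_le_one y0]; exact hj)]; ring) b0 b2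
    (Nat.le_add_right _ _)
  have sp := G.spr (g1.trans (p.one_le_Nr v0 (by omega) (by omega)))
  have w0 := Real.sqrt_nonneg p.v
  have sv : √(C0 / (p.n : ℝ) ^ p.A) + p.v ≤ (C0 + 1) * √p.v := by
    have v1 : p.v ≤ √p.v := Real.le_sqrt_of_sq_le (by nlinarith only [v0, ηv, e0, d0])
    have s2 : √p.v ^ 2 = p.v := Real.sq_sqrt v0.le
    have n0 : 0 < (p.n : ℝ) ^ p.A := by have := S.n1; positivity
    have u : C0 / (p.n : ℝ) ^ p.A ≤ (C0 * √p.v) ^ 2 := by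
      rw [mul_pow, s2, Pm.v, ← mul_div_assoc]
      exact div_le_div_of_nonneg_right (by
        nlinarith only [hC0, hb, mul_nonneg (sub_nonneg.2 hC0) (sub_nonneg.2 hb),
          mul_nonneg (sq_nonneg C0) (sub_nonneg.2 hb)]) n0.le
    have := Real.sqrt_le_iff.2 ⟨by positivity, u⟩
    linarith only [this, v1]
  have K10 : 0 < K1 := by linarith only [k1]
  have α0 : 0 ≤ p.al τ := le_trans (by positivity) a1
  have yT : y / 2 ≤ p.J * p.v + P.γ := by linarith only [yJ, y0, g0]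
  have lv : ∀ r, 0 ≤ r → r < y / 2 → |lvr 1 (p.lP P τ y) r - p.al τ * r| ≤ K * (r ^ 2 + √p.v) :=
    fun r r0 r1 => by
      have e : lvr 1 (p.lP P τ y) r = _ := G.lv_lo r0 (by linarith only [r1, yJ, y0])
      rw [e]
      refine (a6 r r0 r1).trans (le_trans (mul_le_mul_of_nonneg_left (show _ ≤ (C0 + 1) *
        (r ^ 2 + √p.v) by linarith only [sv, mul_nonneg (zero_le_one.trans hC0) (sq_nonneg r)])
        (zero_le_one.trans k0)) ?_)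
      rw [← mul_assoc]
      exact mul_le_mul_of_nonneg_right j1 (by positivity)
  refine ⟨K, ⟨G.ok, yT.trans sp.tp2.mem.2, q0.trans j1, k2', w0, α0, lv, fun t u0 u1 x z0 hx => ?_⟩,
    ⟨b0, (b2.trans j3).trans k2'⟩, ⟨(one_div_le_one_div_of_le K10 j4).trans a1, a2.trans j4⟩,
    a3.trans (mul_le_mul_of_nonneg_right j4 g0),
    a4.trans (mul_le_mul_of_nonneg_right j4 (by positivity)), fun k hk => ?_⟩
  · have := H2 (p.lP P τ y) _ (p.b τ y) (p.al τ) (√p.v) 0 (y / 2) t x sp.tp2 (add_le_add hB.hi g1)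
      (by simpa only [add_zero] using lv) b0 (b2.trans j3) α0 (a2.trans j2) w0 le_rfl
      (Real.sqrt_le_iff.2 ⟨p2.le, by linarith only [ηv, e0, d4]⟩) p2.le yT
      (by linarith only [yd, d3, y0]) u0 u1 z0 (by simpa only [add_zero] using hx)
    rwa [add_zero] at this
  · obtain ⟨u1, u2, u3, u4, u5⟩ := a5 k hk
    have ds : p.v / 2 ≤ p.sP P τ y (k + 1) - p.sP P τ y k ∧
        p.sP P τ y (k + 1) - p.sP P τ y k ≤ 3 / 2 * p.v := G.ds_lo (by omega)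
    exact ⟨u1, u2, u3, u4, by linarith only [ds.1, v0], by linarith only [ds.2, v0], fun x hx =>
      (u5 x hx).xa.trans (mul_le_mul_of_nonneg_right j2 (by positivity))⟩

end Crest.Agent.T156.Alt

end
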