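import Crest.Agent.T156.R2Def_30
import Crest.Agent.T156.R2O_81
import Crest.Agent.T156.FamSm_28

/-!
Row 156, R2 (helper81): location of the END datum (`Kt`), the leaf `TwS`.
-/

set_option autoImplicit false

noncomputable section

namespace Crest.Agent.T156.Alt.R2

open Real Set Filter Topology
open Crest.Agent.T156.Cas Crest.Agent.T156.Cas.C40 Crest.Agent.T156.Cas.C40.R81
open Pr.Ref81 Pr.Exp50 Pre29
open Crest.Agent.T157.Casc (ex)

/-- the time of the first mark -/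
def rf (p : Pm) : ℝ := p.s * (p.n : ℝ) ^ (p.c / 13 - 1 / 6)
/-- the clock defect -/
def dd (p : Pm) (m : ℕ) : ℝ := p.b 1 p.ye / (m + 1)

/-- **location of the END datum** -/
structure Kt (C K : ℝ) (p : Pm) (P : Pl) (m : ℕ) (a : ℝ) (E : CIn12.Ev) : Prop where
  cl : Cl (p.spS C p.ye P) (Me p P)
  leg : (Me p P).Leg a
  a0 : 0 < a
  m0 : 0 < m
  j1 : p.jf < jc p
  j2 : jc p + 1 < p.J
  f1 : p.jf * p.v ≤ 2 * rf p
  c1 : t1 p ≤ jc p * p.v
  c2 : jc p * p.v ≤ 2 * t1 p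
  c3 : 2 * t1 p ≤ p.ye / 2
  hd : ∀ k, (Me p P).d k = p.b 1 p.ye
  hG : ∀ k, p.jf < k → (Me p P).G k = 0
  b1 : 1 ≤ p.b 1 p.ye
  b2 : p.b 1 p.ye ≤ C
  τ1 : 1 / 2 ≤ τ p P m
  τ2 : p.b 1 p.ye - τ p P m = dd p m
  d0 : 0 ≤ dd p m
  d1 : dd p m ≤ C / p.n
  x1 : ex (D p P m a E).B (jc p) = p.z (jc p - 1)
  st : R85.St (D p P m a E) (τ p P m) (C + 2) (p.Jp P + 1)
  lk : LkD (D p P m a E) (Me p P).lr (CIn12.sh (Me p P).s) (p.Jp P + 1) (dd p m)
  al : 1 / K ≤ p.al 1 ∧ p.al 1 ≤ K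
  eps : |eps0 (p.b 1 p.ye) (Me p P).lr - p.κ * p.r ^ 2| ≤ K * P.γ
  k3 : |k3 (Me p P).lr (p.b 1 p.ye) (p.al 1)| ≤ K * (p.κ + P.γ)
  lo : ∀ k ≤ jc p, p.zP P k = p.z k ∧ k * p.v / 2 ≤ (Me p P).s k ∧ (Me p P).s k ≤ k * p.v ∧
    (Me p P).s k < (Me p P).s (k + 1) ∧ (Me p P).s (k + 1) - (Me p P).s k ≤ 2 * p.v
  lin : ∃ K₀, LinT (Me p P).lr (p.b 1 p.ye) (p.al 1) K₀ K (√p.v) (p.ye / 2) ∧ ∀ k ≤ jc p, ∀ x,
    x = p.z k ∨ x = p.z (k - 1) →
      |x - p.al 1 * (Me p P).s k| ≤ K₀ * ((Me p P).s k ^ 2 + √p.v)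

/-- length of the reveal -/
def SN (p : Pm) : Prop := ∀ P, p.r ≤ p.ye → p.SpOk (7 / 20) P →
  (Me p P).s (p.NP P) = (Me p P).s (p.Jp P) + p.Nr * p.v

variable {β c0 C0 c η K0 C K a : ℝ} {A m : ℕ} {p : Pm} {P : Pl} {E : CIn12.Ev}

theorem tc_pos (R : Reg β c0 C0 A c η K0 p) : 0 < t1 p := mul_pos R.r0 (rp_pos R.n1 _)
theorem rf_pos (R : Reg β c0 C0 A c η K0 p) : 0 < rf p := mul_pos R.s0 (rp_pos R.n1 _)

theorem lg_tc (R : Reg β c0 C0 A c η K0 p) :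
    logb p.n (t1 p) = logb p.n p.s + c / 7 - 3 / 20 := by
  rw [t1, logb_mul R.r0.ne' (rp_pos R.n1 _).ne', R.lg_rp, R.lg_r]; ring

theorem lg_rf (R : Reg β c0 C0 A c η K0 p) :
    logb p.n (rf p) = logb p.n p.s + c / 13 - 1 / 6 := by
  rw [rf, logb_mul R.s0.ne' (rp_pos R.n1 _).ne', R.lg_rp, R.hc]; ring

theorem kit (R : Reg β c0 C0 A c η K0 p) (hC : C ≤ (p.n : ℝ) ^ η) (g1 : ClSp C p) (g2 : LinQ K p)
    (g3 : SN p) (ad : Ad p P m a E) : Kt C K p P m a E := by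
  have v0 := R.v0
  have r0 := R.r0
  have t0 := tc_pos R
  have f0 := rf_pos R
  have N0 := R.N0
  have A2 : (2 : ℝ) ≤ A := by exact_mod_cast R.A2
  have cl := (g1 p.ye P R.r_le_ye le_rfl ad.sp).1
  have a0 : 0 < a := (half_pos (rp_pos R.n1 _)).trans_le ad.inn.a1
  have leg : (Me p P).Leg a :=
    Md67.Leg_mono cl.leg (show a ≤ 2 * p.am by linarith only [ad.inn.a2, a0])
  have m0 : 0 < m := R.n0.trans_le ad.inn.m1
  have nm : (p.n : ℝ) ≤ m := Nat.cast_le.2 ad.inn.m1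
  have rt : p.r * 1000 ≤ t1 p := mul_le_mul_of_nonneg_left
    (R.num_le.trans (rp_le R.n1 (by linarith only [R.η_le, R.c_le]))) r0.le
  have c1 : t1 p ≤ jc p * p.v := (div_le_iff₀ v0).1 (Nat.le_ceil _)
  have c2 : jc p * p.v ≤ t1 p + p.v := by
    have h2 := (Nat.ceil_lt_add_one (div_pos t0 v0).le).le
    rwa [div_add_one v0.ne', le_div_iff₀ v0] at h2
  have f1 : p.jf * p.v ≤ rf p + p.v := by
    have h2 := (Nat.ceil_lt_add_one (div_pos f0 v0).le).le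
    rwa [div_add_one v0.ne', le_div_iff₀ v0] at h2
  have f2 : p.v ≤ rf p := R.le_of_lg v0 f0 (by
    linarith only [lg_rf R, R.lg_v_le, R.lg_s.1, R.c_pos, R.η_le, R.c_le, A2])
  have f3 : rf p ≤ p.r := R.le_of_lg f0 r0 (by linarith only [lg_rf R, R.lg_r, R.c_pos])
  have j1 : p.jf < jc p := by
    have : (p.jf : ℝ) * p.v < jc p * p.v := by linarith only [f1, f2, f3, rt, c1, r0]
    exact_mod_cast lt_of_mul_lt_mul_right this v0.le
  have c3 : 4 * t1 p ≤ p.ye := R.le_of_lg (by positivity) R.ye0 (by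
    lg_norm
    linarith only [lg_tc R, R.lg_ye, R.lg_s.2, (R.lg_num (x := 4) (by norm_num) (by norm_num)).2,
      R.η_le, R.c_le])
  have c4 : jc p * p.v ≤ 2 * t1 p := by linarith only [c2, f2, f3, rt, r0]
  obtain ⟨K₀, lt, -, a1, a3, a4, a5⟩ := g2 1 p.ye (Or.inr ⟨rfl, R.r_le_ye, le_rfl⟩) P
    (ad.sp.γ0 R.n1).le (ad.sp.γ1 R.n1 (by norm_num)) ad.sp.x0
    (fun i _ => ad.sp.xm (Nat.lt_succ_self i)) (ad.sp.x_lt R.n1 le_rfl).le
  replace a5 := fun k (hk : k ≤ jc p) => a5 k (by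
    have := mul_le_mul_of_nonneg_right (Nat.cast_le (α := ℝ).2 hk) v0.le
    linarith only [this, c3, c4])
  have hd : ∀ k, (Me p P).d k = p.b 1 p.ye := fun k => by
    change (if _ then _ else _) = _
    split_ifs <;> simp
  have hb : (Me p P).b = p.b 1 p.ye := hd _
  have hG : ∀ k, p.jf < k → (Me p P).G k = 0 := fun k hk => by
    have e : (Me p P).H k = (Me p P).s k - p.b 1 p.ye * (Me p P).q k := by
      change (if _ then _ else _) + _ = _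
      rw [if_neg (not_le.2 hk), ad.sp.hs]
      simp only [add_zero, Pi.zero_apply]
      rfl
    rw [Md.G, hd, e]; ring
  have b1 : 1 ≤ p.b 1 p.ye := hd 0 ▸ cl.b0
  have b2 : p.b 1 p.ye ≤ C := hb ▸ cl.b1
  have te : τ p P m = p.b 1 p.ye * m / (m + 1) := by rw [τ, Md67.tp, hd]
  have m1 : (1 : ℝ) ≤ m := Nat.one_le_cast.2 m0
  have d1 : dd p m ≤ C / p.n :=
    div_le_div₀ (by linarith only [b1, b2]) b2 N0 (by linarith only [nm])
  have d2 : C / p.n ≤ 1 / 2 := by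
    have := R.Λ0
    refine (div_le_div_of_nonneg_right hC N0.le).trans (R.le_of_lg (by positivity) (by norm_num) ?_)
    lg_norm
    rw [R.lg_n]
    linarith only [(R.lg_num (x := 2) (by norm_num) (by norm_num)).2, R.η_le, R.c_le]
  have j2 := (a5 _ le_rfl).1
  have jJ : p.J ≤ p.Jp P := Nat.le_add_right _ _
  obtain ⟨i, hi⟩ : ∃ i, jc p = i + 1 := ⟨jc p - 1, by omega⟩
  have lk := lkD_cl (m := m) (i := i) (W := none) (E := E) cl leg (show p.jf ≤ i by omega)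
    (show i + 1 ≤ p.Jp P by omega) (a5 i (by omega)).2.2.2.2.1 (fun k h _ => hG k (by omega))
    (fun k _ _ => (hd k).trans hb.symm) (by rw [hb]; exact d1.trans d2) (by
      have := g3 P R.r_le_ye ad.sp
      have e := mul_le_mul A2 R.log1 zero_le_one (by linarith only [A2])
      change (Me p P).s (p.Jp P) + 1 / 2 ≤ (Me p P).s (p.NP P)
      linarith only [this, e, R.Nr_bds.1])
  rw [← hi, hb] at lk
  have st := st_cd (m := m) (J := jc p) (ρ := (Me p P).q) (W := none) (E := E) (T := C + 2) cl leg a0 m0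
    (show jc p ≤ p.Jp P by omega) (fun k _ => (hd k).trans hb.symm) (by
      have e := hG (p.Jp P) (by omega)
      have f := mul_le_mul_of_nonneg_right (Md67.tp_mem (m := m) leg (p.Jp P)).2.1
        (Md67.q_nonneg (M := Me p P) (p.Jp P))
      have g : (Me p P).s (p.Jp P) ≤ C := cl.sT
      rw [Md.G] at e
      change Md67.tp (Me p P) m (p.Jp P) * (Me p P).q (p.Jp P) + (Me p P).H (p.Jp P) + 1 ≤ _
      linarith only [e, f, g])
  rw [hb, ← te] at st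
  refine ⟨cl, leg, a0, m0, j1, j2, by linarith only [f1, f2], c1, c4, by linarith only [c3], hd, hG,
    b1, b2, ?_, ?_, div_nonneg (by linarith only [b1]) (by positivity), d1, ?_, st, lk, a1,
    by rw [Pm.eps, one_mul] at a3; exact a3, a4, fun k hk => ?_,
    K₀, lt, fun k hk => (a5 k hk).2.2.2.2.2.2⟩
  · rw [te, le_div_iff₀ (by positivity)]
    nlinarith only [b1, m1]
  · rw [te, dd]; field_simp; ring
  · rw [hi, cd_ex leg, Nat.add_sub_cancel, ← (a5 i (by omega)).2.1]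
    exact congrArg (p.zP P) (max_eq_left (show p.jf ≤ i by omega))
  · obtain ⟨-, u1, u2, u3, u4, u5, -⟩ := a5 k hk
    exact ⟨u1, u2, u3, u4, u5⟩

theorem sn (hβ : 1 < β) : Sml β fun _ p => SN p := (memSp β hβ).sml.mono
  fun _ p ⟨_, _, _, h⟩ P r hP => by
    obtain ⟨⟨_, _, _, a⟩, -⟩ := h p.ye P r le_rfl hP
    exact a.geo.sP_N

/-- **leaves may use the location `Kt`**; `C`, `K` are fixed before all thresholds -/
theorem EvA.of_kit (hβ : 1 < β) {Q : Pm → Pl → ℕ → ℝ → CIn12.Ev → Prop} (A0 : ℕ) {c1 : ℝ}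
    (hc1 : 0 < c1) (j : ℕ) (h : ∀ C K : ℝ, 1 ≤ C → 1 ≤ K → ∃ K' : ℝ,
      ∀ (c0 C0 : ℝ) (A : ℕ) (c η : ℝ) (p : Pm) (P : Pl) (m : ℕ) (a : ℝ) (E : CIn12.Ev),
      Reg β c0 C0 A c η K' p → A0 ≤ A → c ≤ c1 → j * η ≤ c → C ≤ (p.n : ℝ) ^ η →
      K ≤ (p.n : ℝ) ^ η → Ad p P m a E → Kt C K p P m a E → Q p P m a E) : EvA β Q := by
  intro c0 C0 h0 h1
  obtain ⟨C, hC, G1⟩ := clSp β hβ c0 C0 h0 h1
  obtain ⟨K, hK, G2⟩ := linQ β hβ c0 C0 h0 h1
  obtain ⟨K', h⟩ := h C K hC hK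
  have T : Sml β fun _ p => ClSp C p → LinQ K p → ∀ P m a E, Ad p P m a E → Q p P m a E :=
    (sn hβ).glue' hβ A0 hc1 j fun c0 C0 A c η _ _ _ _ => ⟨max (max C K) K',
      fun p R a1 a2 a3 g3 g1 g2 P m a E ad => by
        have e := (le_max_left _ _).trans R.K_le
        exact h c0 C0 A c η p P m a E (R.mono_K (le_max_right _ _)) a1 a2 a3
          ((le_max_left _ _).trans e) ((le_max_right _ _).trans e) ad
          (kit R ((le_max_left _ _).trans e) g1 g2 g3 ad)⟩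
  filter_upwards [T c0 C0 h0 h1, eventually_ge_atTop 2] with A T hA
  filter_upwards [T, ev_pos, ev_le (by norm_num : (0 : ℝ) < 1 / 200)] with c T hc hc'
  filter_upwards [T] with η T
  filter_upwards [T, G1 A hA c hc hc', G2 A hA c hc hc'] with n T G1 G2 p b1 b2 b3 b4 b5
  exact T p b1 b2 b3 b4 b5 (G1 p b1 b2 b3 b4 b5) (G2 p b1 b2 b3 b4 b5)

/-- the monomial inequalities; `u = L / n`, `g = n^{-1/10}` -/
structure Nm (p : Pm) (L X u g : ℝ) : Prop where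
  κ : L ^ 2 * p.κ ^ 2 ≤ 1
  κ2 : 2 * p.κ ≤ 1
  uX : L ^ 2 * u ≤ X ^ 5
  Xr : L ^ 2 * X ^ 4 ≤ p.r ^ 3
  ur : L ^ 2 * u ≤ p.r ^ 3
  fr : L ^ 2 * rf p ^ 3 ≤ p.r ^ 3
  uf : u ≤ rf p
  f1 : 2 * rf p ≤ 1
  vu : √p.v ≤ u
  rg : p.r ^ 2 ≤ g
  γg : L * (p.n : ℝ) ^ (-(7 / 20 : ℝ)) ≤ g
  tg : L * t1 p ^ 2 ≤ g
  ug : L * u ≤ t1 p * g
  g1 : g ≤ 1
  gr : L ^ 2 * (X * t1 p ^ 2 * g) ≤ p.r ^ 3

theorem nm (R : Reg β c0 C0 A c η K0 p) (hj : 100 * η ≤ c) : Nm p ((p.n : ℝ) ^ η) (t1 p / p.κ)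
    ((p.n : ℝ) ^ η / p.n) ((p.n : ℝ) ^ (-(1 / 10 : ℝ))) := by
  have v0 := R.v0
  have r0 := R.r0
  have t0 := tc_pos R
  have f0 := rf_pos R
  have N0 := R.N0
  have k0 := R.κ0
  have A2 : (2 : ℝ) ≤ A := by exact_mod_cast R.A2
  have e1 := lg_tc R
  have e2 := lg_rf R
  have e3 := R.lg_r
  have e4 := R.lg_κ
  have e5 := R.lg_v_le
  have e6 := R.lg_s.1
  have e7 := R.lg_s.2
  have e8 := R.c_le
  have e9 := R.η_pos
  have e0 := (R.lg_num (x := 2) (by norm_num) (by norm_num)).2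
  constructor <;> refine R.le_of_lg (by positivity) (by positivity) ?_ <;> lg_norm <;>
    (try simp only [R.lg_n]) <;> linarith only [A2, e0, e1, e2, e3, e4, e5, e6, e7, e8, e9, hj]

theorem Kt.z (k : Kt C K p P m a E) {i : ℕ} (h1 : p.jf ≤ i) (h2 : i ≤ jc p) :
    (Me p P).z i = p.z i := (congrArg (p.zP P) (max_eq_left h1)).trans (k.lo i h2).1

theorem Kt.s_le (k : Kt C K p P m a E) (v0 : 0 < p.v) {i : ℕ} (h2 : i ≤ jc p) :
    0 ≤ (Me p P).s i ∧ (Me p P).s i ≤ 2 * t1 p :=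
  ⟨le_trans (by positivity) (k.lo i h2).2.1, (k.lo i h2).2.2.1.trans
    ((mul_le_mul_of_nonneg_right (Nat.cast_le.2 h2) v0.le).trans k.c2)⟩

theorem tw_num {C L X s κ d u : ℝ} (CL : C ≤ L) (L1 : 1000 ≤ L) (X0 : 0 ≤ X) (X1 : X ≤ 1)
    (s0 : 0 ≤ s) (k1 : κ ≤ 1) (hs : s ≤ 2 * (κ * X)) (d0 : 0 ≤ d) (du : d ≤ u)
    (h1 : L ^ 2 * κ ^ 2 ≤ 1) (h2 : L ^ 2 * u ≤ X ^ 5) :
    C * (X * s ^ 2 * (s * (X + s) + X ^ 3) + d) ≤ X ^ 5 := by
  have L0 : 0 ≤ L := by linarith only [L1]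
  have a1 : s ≤ 2 * X := by linarith only [hs, mul_le_of_le_one_left X0 k1]
  have a3 : s * (X + s) + X ^ 3 ≤ 7 * X ^ 2 := by
    have a := mul_le_mul a1 (show X + s ≤ 3 * X by linarith only [a1]) (by positivity) (by positivity)
    linarith only [a, pow_le_pow_of_le_one X0 X1 (show 2 ≤ 3 by norm_num)]
  have a5 : C * (X * s ^ 2 * (s * (X + s) + X ^ 3) + d) ≤
      L * (X * (2 * (κ * X)) ^ 2 * (7 * X ^ 2) + u) := by gcongr
  have b1 := mul_le_mul_of_nonneg_right h1 (pow_nonneg X0 5)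
  have b2 := mul_le_mul_of_nonneg_right L1 (show 0 ≤ L * (κ ^ 2 * X ^ 5) by positivity)
  have b3 := mul_le_mul_of_nonneg_right L1 (mul_nonneg L0 (d0.trans du))
  linarith only [a5, b1, b2, b3, h2, pow_nonneg X0 5]

theorem dq_num {e k3 K L t g r κ γ δ u : ℝ} (K0 : 0 ≤ K) (KL : K ≤ L) (t0 : 0 ≤ t) (t1 : t ≤ 1)
    (k0 : 0 ≤ κ) (k1 : κ ≤ 1) (g0 : 0 ≤ γ) (g1 : γ ≤ 1) (d0 : 0 ≤ δ) (du : δ ≤ u)
    (he : |e - κ * r ^ 2| ≤ K * γ) (hk : |k3| ≤ K * (κ + γ)) (h1 : r ^ 2 ≤ g) (h2 : L * γ ≤ g)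
    (h3 : L * t ^ 2 ≤ g) (h4 : L * u ≤ t * g) :
    |e| ≤ 2 * g ∧ |e| * (2 * t) + |k3| * (2 * t) ^ 3 + K * ((2 * t) ^ 4 + δ) ≤ 37 * (t * g) := by
  have L0 := K0.trans KL
  have a1 : |e| ≤ 2 * g := by
    have := abs_le.1 he
    have := mul_le_of_le_one_left (sq_nonneg r) k1
    have := mul_nonneg k0 (sq_nonneg r)
    have := mul_le_mul_of_nonneg_right KL g0
    rw [abs_le]; constructor <;> linarith [sq_nonneg r]
  have a2 : |k3| ≤ L * (1 + 1) := hk.trans (by gcongr)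
  have a3 := mul_le_mul_of_nonneg_right a1 t0
  have a4 := mul_le_mul_of_nonneg_right a2 (pow_nonneg t0 3)
  have a5 := mul_le_mul_of_nonneg_right h3 t0
  have a6 : K * t ^ 4 ≤ L * t ^ 3 :=
    mul_le_mul KL (pow_le_pow_of_le_one t0 t1 (by norm_num)) (by positivity) L0
  have a7 := mul_le_mul KL du d0 L0
  exact ⟨a1, by linarith only [a3, a4, a5, a6, a7, h4]⟩

/-- **(TWIN), (B)** -/
theorem twS (hβ : 1 < β) : TwS β := EvA.of_kit hβ 2 one_pos 100 fun C K hC hK => by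
  obtain ⟨C1, c1, H1⟩ := link (C + 2)
  obtain ⟨C2, c2, H2⟩ := AB (C + 2) K C (zero_le_one.trans hK) hC
  refine ⟨max C1 C2, fun c0 C0 A c η p P m a E R _ _ hj CL KL ad k => ?_⟩
  have N := nm R hj
  have L1 := R.num_le
  have l1 := (le_max_left _ _).trans R.K_le
  have l2 := (le_max_right _ _).trans R.K_le
  have du : dd p m ≤ (p.n : ℝ) ^ η / p.n := k.d1.trans (div_le_div_of_nonneg_right CL R.N0.le)
  have v0 := R.v0
  have t0 := tc_pos R
  have f0 := rf_pos R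
  have k0 := R.κ0
  have hX : t1 p = p.κ * E.X := by rw [ad.env.X]; field_simp
  have γg := N.γg
  rw [← ad.env.X] at N
  rw [← ad.sp.g'] at γg
  generalize (p.n : ℝ) ^ η / p.n = u at N du
  generalize (p.n : ℝ) ^ (-(1 / 10 : ℝ)) = g at N γg
  generalize (p.n : ℝ) ^ η = L at N L1 l1 l2 CL KL γg
  have L0 : 0 ≤ L := by linarith only [L1]
  have d0 := k.d0
  have u0 := d0.trans du
  have w0 := sqrt_nonneg p.v
  have X0 : 0 < E.X := by rw [ad.env.X]; positivity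
  have X1 : E.X ≤ 1 := ad.ok.X1
  have tX : 2 * t1 p ≤ E.X := by
    linarith only [hX, mul_le_mul_of_nonneg_right N.κ2 X0.le]
  obtain ⟨K₀, lt, hx⟩ := k.lin
  have sj := k.s_le v0 le_rfl
  have x1 : ex (D p P m a E).B (D p P m a E).J = p.z (jc p - 1) := k.x1
  have s1 : (D p P m a E).sig ((D p P m a E).J + 1) ≤ (Me p P).s (jc p) :=
    (k.lk.mem ad.ok (Nat.lt_succ_self _) (lt_of_le_of_lt k.st.JP k.lk.PK)).2.1
  obtain ⟨tw, -, sq, -⟩ := H1 _ _ _ _ _ _ _ _ ad.ok k.st k.lk le_rfl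
  obtain ⟨-, bq, -⟩ := H2 _ _ _ _ _ _ _ _ _ _ _ ad.ok k.st k.lk (lt.mono (sj.2.trans k.c3))
    (zero_le_one.trans k.b1) k.b2 (by rw [k.τ2, abs_of_nonneg d0]) (sj.2.trans tX)
    (by rw [x1]; exact hx _ le_rfl _ (Or.inr rfl))
  have τ4 : ∀ x : ℝ, 4 * |τ p P m ^ 2 * x| ≤ p.r ^ 3 → |x| ≤ p.r ^ 3 := fun x h => by
    rw [abs_mul, abs_of_nonneg (sq_nonneg _)] at h
    have := mul_le_mul_of_nonneg_right (pow_le_pow_left₀ (by norm_num) k.τ1 2) (abs_nonneg x)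
    linarith only [h, this]
  have L2 : ∀ x, 0 ≤ x → 1000 * (L * x) ≤ L ^ 2 * x ∧ 1000 * x ≤ L * x := fun x hx =>
    ⟨by linarith only [mul_le_mul_of_nonneg_right L1 (mul_nonneg L0 hx)],
      mul_le_mul_of_nonneg_right L1 hx⟩
  have r3 := pow_pos R.r0 3
  have X4 := L2 _ (pow_nonneg X0.le 4)
  have U := L2 _ u0
  refine ⟨_, fun j hj => (tw j hj).trans (tw_num l1 L1 X0.le X1 k.lk.s0.le R.κ1
    (hX ▸ s1.trans sj.2) d0 du N.κ N.uX), τ4 _ ?_, τ4 _ ?_⟩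
  · have : C2 * (E.X ^ 4 + √p.v + dd p m) ≤ L * (E.X ^ 4 + u + u) := by
      have := N.vu
      gcongr
    have e : |τ p P m ^ 2 * E42.Bq (D p P m a E) (τ p P m) _| ≤ _ := bq.trans this
    linarith only [e, X4.1, U.1, N.Xr, N.ur, r3]
  · obtain ⟨i, hi⟩ : ∃ i, jc p = i + 1 := ⟨jc p - 1, by have := k.j1; omega⟩
    have ji : p.jf ≤ i := by have := k.j1; omega
    have t1' : t1 p ≤ 1 := by linarith only [tX, X1, t0]
    have dq := (dq_num (zero_le_one.trans hK) KL t0.le t1' k0.le R.κ1 (ad.sp.γ0 R.n1).le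
      (ad.sp.γ1 R.n1 (by norm_num)) w0 N.vu k.eps k.k3 N.rg γg N.tg N.ug).2
    have g0 := (sq_nonneg _).trans N.rg
    have hq := S0_Sq (m := m) (τ := τ p P m) (dq := 38 * (t1 p * g)) k.cl k.leg ji
      (by have := k.j2; have := k.cl.i4; have : p.J ≤ (p.spS C p.ye P).Jp := k.cl.i3; omega)
      (k.lo p.jf k.j1.le).2.2.2.1 fun j _ h2 => by
        have sj := k.s_le v0 (show j ≤ jc p by omega)
        have a := abs_le.1 (((lt.mono k.c3).hv_le sj.1 sj.2).trans dq)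
        have b := mul_le_of_le_one_right d0 (Md67.q_le_one (M := Me p P) j)
        have c := mul_nonneg d0 (Md67.q_nonneg (M := Me p P) j)
        have e : τ p P m * (Me p P).q j - (Me p P).s j =
            -hv (p.b 1 p.ye) (Me p P).lr ((Me p P).s j) - dd p m * (Me p P).q j := by
          rw [← k.τ2, hv, Md.q]; ring
        rw [e, abs_le]
        constructor <;> linarith only [a.1, a.2, b, c, du, U.2, N.ug, u0]
    have zi : (Me p P).z i = p.z (jc p - 1) := by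
      rw [k.z ji (by omega), hi, Nat.add_sub_cancel]
    have zX : p.z (jc p - 1) ≤ E.X := x1 ▸ ad.ok.x1
    rw [← hi, zi] at hq
    rw [x1] at sq
    change |_ - (_ * (Me p P).s (jc p) ^ 2 - 2 * M1 _ ((Me p P).s (jc p)))| ≤
      2 * E.X * (E.X ^ 6 + (Me p P).s (jc p) * _) at sq
    change |_ - _ * Sq p P m a| ≤ 2 * ((Me p P).z p.jf * (Me p P).s p.jf ^ 2) +
      (_ - (Me p P).z p.jf) * _ at hq
    have z0 : 0 ≤ (Me p P).z p.jf := (k.a0.le.trans k.leg.z0).trans (k.leg.zm (Nat.zero_le _))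
    have sf0 := (k.s_le v0 k.j1.le).1
    have sf : (Me p P).s p.jf ≤ 2 * rf p := (k.lo _ k.j1.le).2.2.1.trans k.f1
    have zf : (Me p P).z p.jf ≤ L * (2 * rf p) + L * (2 * rf p + rf p) := by
      have a := (abs_le.1 (hx _ k.j1.le _ (Or.inl rfl))).2
      have b := mul_le_mul (k.al.2.trans KL) sf sf0 L0
      have c := mul_le_mul (lt.K1.trans KL) (add_le_add ((pow_le_of_le_one sf0 (sf.trans N.f1)
        two_ne_zero).trans sf) (N.vu.trans N.uf)) (by positivity) L0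
      rw [k.z le_rfl k.j1.le]
      linarith only [a, b, c]
    have a1 := mul_le_mul zf (pow_le_pow_left₀ sf0 sf 2) (sq_nonneg _) (by positivity)
    have si := k.s_le v0 (show i ≤ jc p by omega)
    have a2 : (p.z (jc p - 1) - (Me p P).z p.jf) * (38 * (t1 p * g) * (2 * (Me p P).s i +
        38 * (t1 p * g))) ≤ E.X * (38 * (t1 p * g) * (2 * (2 * t1 p) + 38 * (t1 p * 1))) := by
      have := si.1
      have := si.2
      have := N.g1
      gcongr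
      linarith only [zX, z0]
    have a3 : 2 * E.X * (E.X ^ 6 + (Me p P).s (jc p) * dd p m) ≤ 2 * 1 * (E.X ^ 4 + 1 * u) := by
      have := sj.1
      have := (sj.2.trans tX).trans X1
      have := pow_le_pow_of_le_one X0.le X1 (show 4 ≤ 6 by norm_num)
      gcongr
    have F := L2 _ (pow_nonneg f0.le 3)
    have G := L2 (E.X * t1 p ^ 2 * g) (by positivity)
    have b1 := abs_le.1 (sq.trans a3)
    have b2 := abs_le.1 hq
    have : |τ p P m ^ 2 * (S0l (D p P m a E) (Me p P).lr (τ p P m) - Sq p P m a)| ≤ p.r ^ 3 / 4 := by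
      rw [abs_le]
      constructor <;> linarith only [b1.1, b1.2, b2.1, b2.2, a1, a2, F.1, G.1, G.2, X4.1, X4.2, U.1,
        U.2, N.Xr, N.ur, N.fr, N.gr, r3]
    linarith only [this]

end Crest.Agent.T156.Alt.R2

end
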