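import Crest.Agent.T156.R2K_30
import Crest.Agent.T156.R2S_81
import Crest.Agent.T156.R2Th_26

/-!
# Row 156, R2 (helper30): the low zone `LwS`
-/

set_option autoImplicit false
set_option linter.unusedSectionVars false

noncomputable section

namespace Crest.Agent.T156.Alt.R2

open Real Finset Filter
open Crest.Agent.T157.E Crest.Agent.T157.Casc Crest.Agent.T157.SL
open Crest.Agent.T156.Cas Crest.Agent.T156.Cas.C40 Md67 CIn12 R2a58 Pr.Ref81 Pr.Exp50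

/-- the second moments on the low zone -/
def LwIn (β : ℝ) : Prop := EvA β fun p P m a _ =>
  ∑ k ∈ range (jc p), (Me p P).dz m a k * (Me p P).E2 m a (fun R => (R - (Me p P).q k) ^ 2) k ≤
    p.κ ^ (-(7 : ℝ) / 10) * (p.s ^ 3 * (p.n : ℝ) ^ (-(1 : ℝ) / 2))

namespace Lw30

variable {M : Md} {m k N : ℕ} {a : ℝ} {E : CIn12.Ev}

theorem dz_nn (G : Lg M m a) (k : ℕ) : 0 ≤ M.dz m a k := by
  rcases k with _ | k
  · rw [dz_zero G.toLeg]; exact sub_nonneg.2 G.z0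
  · rw [dz_succ G.toLeg]; exact sub_nonneg.2 (G.zm (Nat.le_succ k))

theorem s2_eq (J : ℕ) : R85.s2 (cd M m a M.q J none E) =
    ∑ i ∈ range J, M.dz m a i * M.E2 m a (fun R => R ^ 2) i := by
  rw [R85.s2, CIn12.sum_lo]; rfl

theorem sh_eq (G : Lg M m a) {J : ℕ} (hJ : J ≤ M.N) : R85.sh (cd M m a M.q (J + 1) none E) =
    ∑ i ∈ range J, (M.z (i + 1) - M.z i) * (M.H (i + 1) * M.rb m a (i + 1)) := by
  have e : ∀ i ≤ M.N, fAcc (cd M m a M.q (J + 1) none E).M (i + 1) = M.H i := fun i hi =>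
    fAcc_Mx G.toLeg hi
  rw [R85.sh, CIn12.sum_lo, sum_range_succ', e 0 (Nat.zero_le _), G.H0, zero_mul, mul_zero,
    add_zero]
  exact sum_congr rfl fun i hi => by
    rw [e _ (by have := mem_range.1 hi; omega), cd_dx, cd_rb, dz_succ G.toLeg]

theorem Jh_eq (G : Lg M m a) {J : ℕ} (hJ : J ≤ M.N) : E42.Jh (cd M m a M.q (J + 1) none E) =
    ∑ i ∈ range J, M.z i * (M.H (i + 1) - M.H i) * M.rb m a (i + 1) := by
  have e : ∀ i ≤ M.N, fAcc (cd M m a M.q (J + 1) none E).M (i + 1) = M.H i := fun i hi =>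
    fAcc_Mx G.toLeg hi
  rw [E42.Jh, cd_J, sum_range_succ', e 0 (Nat.zero_le _), G.H0,
    show fAcc (cd M m a M.q (J + 1) none E).M 0 = 0 from rfl, sub_zero, mul_zero, zero_mul, add_zero]
  exact sum_congr rfl fun i hi => by
    have := mem_range.1 hi
    rw [e _ (by omega), e _ (by omega), R81.cd_ex G.toLeg, cd_rb]

/-- **the low zone of a model** -/
theorem low_md (G : Lg M m a) (hJ : k + N ≤ M.N) {τ ct K A X v dx de dq θ μ Hm ρ V X0 H0 ρ0 q0 : ℝ}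
    (h : Lin (fun i => M.z (k + i)) (fun i => M.s (k + i)) (fun i => M.H (k + i))
      (fun i => M.q (k + i)) N τ ct K A X X v dx de dq) (hde : 0 ≤ de) (hv : 0 ≤ v) (hτ : 0 ≤ τ)
    (hr : M.rb m a (k + N) ≤ ρ) (hθ : |1 - θ| ≤ μ) (hμ : μ ≤ 1) (hH : ∀ i ≤ N, |M.H (k + i)| ≤ Hm)
    (hq : ∀ i ≤ k + N, M.q i ≤ X) (hV : ∑ i ∈ range (k + N + 1), M.dz m a i *
      M.E2 m a (fun R => (R - M.q i) ^ 2) i ≤ V) (z1 : M.z k ≤ X0) (H1 : M.H k ≤ H0)
    (r1 : M.rb m a k ≤ ρ0) (q1 : ∀ i ≤ k, M.q i ≤ q0) :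
    |τ / 2 * A * R85.s2 (cd M m a M.q (k + N + 1) none E) +
      (E42.Jh (cd M m a M.q (k + N + 1) none E) -
        3 * θ * R85.sh (cd M m a M.q (k + N + 1) none E)) / 2 - Clow M.z M.s M.H M.q k N τ K A| ≤
      τ / 2 * |A| * (3 * V + 2 * (X0 * q0 ^ 2)) + 4 * X0 * H0 * ρ0 +
        3 / 2 * |Hs (fun i => M.s (k + i)) (fun i => M.H (k + i)) K A| * (X * (ρ + X)) +
        dl ct K A X X v dx de dq * ρ + 3 / 2 * μ * Hm * X * ρ := by
  have rm := rb_mono (M := M) (a := a) G.m0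
  have r0 := rb_nonneg (M := M) (a := a) G.m0
  have d0 := dz_nn G
  have z0 : 0 ≤ M.z 0 := G.a0.trans G.z0
  have U0 : ∀ i, 0 ≤ M.dz m a i * M.E2 m a (fun R => (R - M.q i) ^ 2) i := fun i =>
    mul_nonneg (d0 i) (E2_nonneg (fun _ _ => sq_nonneg _) i)
  rw [show k + N + 1 = (k + 1) + N by ring, sum_range_add] at hV
  have V1 := sum_nonneg (s := range (k + 1)) fun i _ => U0 i
  have V2 := sum_nonneg (s := range N) fun i _ => U0 (k + 1 + i)
  have e1 : ∀ i, k + (i + 1) = k + i + 1 := fun _ => rfl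
  have e2 : ∀ i, k + 1 + i = k + i + 1 := fun _ => by ring
  have L := low M.z M.s M.H M.q (M.rb m a)
    (fun i => if i ≤ k then 0 else M.E2 m a (fun R => R ^ 2) i) k N (V1 := X * (ρ + X)) (V2 := V)
    (ρ2 := 0) h hde hv hτ (fun i _ => rm (by omega)) (r0 k) hr hθ hμ hH ?_ ?_
    (fun i _ => G.zm (Nat.le_succ i)) z0 z1 (fun i _ => G.Hm (Nat.le_succ i)) G.H0.ge H1
    (fun i hi => (abs_of_nonneg (r0 i)).trans_le ((rm hi).trans r1))
    fun i hi => by rw [if_pos hi, abs_zero]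
  · have b1 : ∑ i ∈ range (k + 1), M.dz m a i * M.E2 m a (fun R => R ^ 2) i ≤
        2 * V + 2 * (X0 * q0 ^ 2) := by
      have s1 : ∑ i ∈ range (k + 1), M.dz m a i ≤ X0 := by
        rw [sum_range_succ', dz_zero G.toLeg, sum_congr rfl fun i _ => dz_succ G.toLeg i,
          sum_range_sub]
        linarith [G.a0]
      have s2 : ∑ i ∈ range (k + 1), M.dz m a i * M.E2 m a (fun R => R ^ 2) i ≤
          ∑ i ∈ range (k + 1), (2 * (M.dz m a i * M.E2 m a (fun R => (R - M.q i) ^ 2) i) +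
            2 * (M.dz m a i * q0 ^ 2)) := sum_le_sum fun i hi => by
        have c1 := E2_mono (M := M) (m := m) (a := a) (f := fun R => R ^ 2)
          (g := fun R => 2 * (R - M.q i) ^ 2 + 2 * q0 ^ 2) (fun r _ => by
            linarith [sq_nonneg (r - 2 * M.q i), pow_le_pow_left₀ (q_nonneg i)
              (q1 i (Nat.lt_succ_iff.1 (mem_range.1 hi))) 2]) i
        rw [E2_add, E2_mul, E2_const] at c1
        linarith [mul_le_mul_of_nonneg_left c1 (d0 i)]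
      rw [sum_add_distrib, ← mul_sum, ← mul_sum, ← sum_mul] at s2
      linarith [mul_le_mul_of_nonneg_right s1 (sq_nonneg q0)]
    have b0 : 0 ≤ ∑ i ∈ range (k + 1), M.dz m a i * M.E2 m a (fun R => R ^ 2) i :=
      sum_nonneg fun i _ => mul_nonneg (d0 i) (E2_nonneg (fun _ _ => sq_nonneg _) i)
    have e3 : ∑ i ∈ range (k + N + 1), M.dz m a i * M.E2 m a (fun R => R ^ 2) i =
        ∑ i ∈ range (k + 1), M.dz m a i * M.E2 m a (fun R => R ^ 2) i +
        ∑ i ∈ range (k + N), (M.z (i + 1) - M.z i) *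
          if i + 1 ≤ k then 0 else M.E2 m a (fun R => R ^ 2) (i + 1) := by
      rw [show k + N + 1 = (k + 1) + N by ring, sum_range_add, sum_range_add _ k N,
        sum_eq_zero (s := range k) fun i hi => by rw [if_pos (Nat.succ_le_of_lt (mem_range.1 hi)), mul_zero], zero_add]
      exact congrArg _ (sum_congr rfl fun i _ => by
        rw [if_neg (by omega), e2, dz_succ G.toLeg])
    have b2 := mul_le_mul_of_nonneg_left ((abs_of_nonneg b0).trans_le b1)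
      (show 0 ≤ τ / 2 * |A| by positivity)
    rw [← abs_of_nonneg (show 0 ≤ τ / 2 by positivity), ← abs_mul, ← abs_mul, abs_mul (τ / 2),
      abs_of_nonneg (show 0 ≤ τ / 2 by positivity)] at b2
    rw [s2_eq, sh_eq G hJ, Jh_eq G hJ, e3]
    have b3 := abs_le.1 b2
    have L' := abs_le.1 L
    exact abs_le.2 ⟨by linarith [b3.1, L'.1], by linarith [b3.2, L'.2]⟩
  · have X0 := (q_nonneg 0).trans (hq 0 (Nat.zero_le _))
    have ρ0 := (r0 _).trans hr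
    refine (abs_sum_le_sum_abs _ _).trans ((sum_le_sum (g := fun i =>
      (M.z (k + (i + 1)) - M.z (k + i)) * (ρ + X)) fun i hi => ?_).trans ?_)
    · have i1 := mem_range.1 hi
      have z2 : 0 ≤ M.z (k + (i + 1)) - M.z (k + i) := sub_nonneg.2 (G.zm (by omega))
      rw [abs_mul, abs_of_nonneg z2]
      refine mul_le_mul_of_nonneg_left (abs_le.2 ⟨?_, ?_⟩) z2
      · linarith [r0 (k + (i + 1)), hq (k + (i + 1)) (by omega)]
      · linarith [rm (show k + (i + 1) ≤ k + N by omega), q_nonneg (M := M) (k + (i + 1))]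
    · rw [← sum_mul, sum_range_sub fun i => M.z (k + i)]
      exact mul_le_mul_of_nonneg_right (by linarith [h.z1, h.z0]) (by linarith)
  · rw [sum_congr rfl (g := fun i => M.dz m a (k + 1 + i) *
      M.E2 m a (fun R => (R - M.q (k + 1 + i)) ^ 2) (k + 1 + i)) fun i _ => by
      rw [if_neg (by omega), e1, e2, dz_succ G.toLeg, E2_sq_expand], abs_of_nonneg V2]
    linarith

theorem dl_num {ct K A X v dx de dq L : ℝ} (X0 : 0 ≤ X) (X1 : X ≤ 1) (L1 : 1 ≤ L)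
    (h1 : de ≤ 2 * L * X ^ 3) (h2 : |A| ≤ X ^ 2) (q0 : 0 ≤ dq) (h3 : dq ≤ 6 * L * X ^ 3)
    (h4 : dx ≤ 2 * L * X ^ 2) (h5 : ct ≤ L) (v0 : 0 ≤ v) (h6 : v ≤ X ^ 2) (h7 : |K| ≤ 2 * L) :
    dl ct K A X X v dx de dq ≤ 74 * (L ^ 2 * X ^ 5) := by
  have L0 : 0 ≤ L := by linarith
  have a1 : dl ct K A X X v dx de dq ≤ 4 * (2 * L * X ^ 3) * X * X + 2 * X ^ 2 * (6 * L * X ^ 3) * X +
      (6 * (2 * L * X ^ 2) + 6 * L * X ^ 2) * (2 * L * X ^ 2 + X ^ 2) * X := by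
    unfold dl; gcongr
  have a2 := mul_le_mul_of_nonneg_left (pow_le_pow_of_le_one X0 X1 (show 5 ≤ 6 by norm_num)) L0
  have a3 := mul_le_mul_of_nonneg_right L1 (show 0 ≤ L * X ^ 5 by positivity)
  linarith

variable {β c0 C0 c η K' C K : ℝ} {A : ℕ} {p : Pm} {P : Pl}

/-- the monomials; `e = κ r²`, `f = rf`, `w = κ^{1/100} un` -/
structure Nw (p : Pm) (L X e f w : ℝ) : Prop where
  κ2 : 2 * p.κ ≤ 1
  Xy : 2 * X ≤ p.ye
  v1 : √p.v ≤ X ^ 6
  v2 : 2 * p.v ≤ X ^ 2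
  v3 : √p.v ≤ e * f
  nX : L / p.n ≤ X ^ 6
  γe : L * (p.n : ℝ) ^ (-(7 / 20 : ℝ)) ≤ e
  γκ : (p.n : ℝ) ^ (-(7 / 20 : ℝ)) ≤ p.κ
  eX : 2 * e ≤ X ^ 2
  e1 : e ≤ 1
  tl : (p.n : ℝ) ^ (-(2 * (p.A : ℝ) + 5)) ≤ X ^ 3
  LX : L ^ 2 * X ^ 2 ≤ 1
  f1 : f ≤ 1
  fe : f ^ 3 ≤ e
  κf : p.κ * f ^ 2 ≤ e
  y1 : L * (L ^ 2 * X ^ 6) ≤ w
  y2 : L * (L * (e * (p.κ ^ (-(7 : ℝ) / 10) * (p.s ^ 3 * (p.n : ℝ) ^ (-(1 : ℝ) / 2))))) ≤ w
  y3 : L * (L ^ 3 * (e * f ^ 3)) ≤ w
  y4 : L * (L ^ 4 * (e * f ^ 2 * (p.s * (p.n : ℝ) ^ (p.c / 2 - 1 / 6)))) ≤ w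

theorem nw (R : Reg β c0 C0 A c η K' p) (hc : c ≤ 1 / 10 ^ 4) (hj : 10000 * η ≤ c) :
    Nw p ((p.n : ℝ) ^ η) (t1 p / p.κ) (p.κ * p.r ^ 2) (rf p) (p.κ ^ ((1 : ℝ) / 100) * un p) := by
  have v0 := R.v0
  have r0 := R.r0
  have t0 := t10 R
  have f0 := rf_pos R
  have N0 := R.N0
  have k0 := R.κ0
  have s0 := R.s0
  have u0 := un0 R
  have y0 := R.ye0
  have A2 : (2 : ℝ) ≤ A := by exact_mod_cast R.A2
  have e0 := (R.lg_num (x := 2) (by norm_num) (by norm_num)).2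
  constructor <;> refine R.le_of_lg (by positivity) (by positivity) ?_ <;> lg_norm <;>
    (try simp only [R.lg_n, lg_t1 R, lg_rf R, R.lg_r, R.lg_κ, lg_un R, R.lg_ye, R.hc, R.hA]) <;>
    linarith only [A2, e0, R.lg_v_le, R.lg_s.1, R.lg_s.2, hc, R.η_pos, hj]

/-- the constant of the low zone -/
def cL (p : Pm) (P : Pl) (m : ℕ) : ℝ := Clow (Me p P).z (Me p P).s (Me p P).H (Me p P).q (p.jf + 1)
  (jc p - (p.jf + 2)) (τ p P m) (k3 (Me p P).lr (p.b 1 p.ye) (p.al 1)) (eps0 (p.b 1 p.ye) (Me p P).lr)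

set_option maxHeartbeats 800000 in
theorem lw_kit (hβ : 1 < β) : EvA β fun p P m a E =>
    (Me p P).rb m a (p.jf + 1) ≤ p.s * (p.n : ℝ) ^ (p.c / 2 - 1 / 6) →
    ∑ k ∈ range (jc p), (Me p P).dz m a k * (Me p P).E2 m a (fun R => (R - (Me p P).q k) ^ 2) k ≤
      p.κ ^ (-(7 : ℝ) / 10) * (p.s ^ 3 * (p.n : ℝ) ^ (-(1 : ℝ) / 2)) →
    |LowT (D p P m a E) (τ p P m) - cL p P m| ≤ p.κ ^ ((1 : ℝ) / 100) * un p := by
  refine EvA.of_kit hβ 0 (c1 := 1 / 10 ^ 4) (by positivity) 10000 fun C K hC hK => ?_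
  obtain ⟨CA, a1, hA⟩ := R81.AB (C + 2) K C (by linarith) hC
  refine ⟨CA, fun c0 C0 A c η p P m a E R _ hc hj CL KL ad k hr hV => ?_⟩
  have n := nw R hc (by exact_mod_cast hj)
  have AL := R.K_le
  have L3 := R.num_le
  have ok := ad.ok
  have G : Lg (Me p P) m a := ⟨k.leg, k.m0, k.a0.le⟩
  obtain ⟨K₀, lt, hx⟩ := k.lin
  have eX := ad.env.X
  have t0 := t10 R
  have k0 := R.κ0
  have v0 := R.v0
  have f0 := rf_pos R
  have r0 := R.r0
  have tX : 2 * t1 p ≤ E.X := by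
    rw [eX, le_div_iff₀ k0]
    linarith [mul_le_mul_of_nonneg_left n.κ2 t0.le]
  have e1 := k.eps
  have e2 := k.k3
  have tl : E.tl ≤ E.X ^ 3 := by rw [ad.env.tl, eX]; exact n.tl
  rw [ad.sp.g'] at e1 e2
  rw [← eX] at n
  have X1 : E.X ≤ 1 := ok.X1
  have X0 : 0 ≤ E.X := ok.X0
  have i3 : p.J ≤ p.Jp P := k.cl.i3
  have i4 : p.Jp P < (Me p P).N := k.cl.i4
  have j2 := k.j2
  obtain ⟨N, hN⟩ : ∃ N, jc p = p.jf + 1 + N + 1 := ⟨jc p - (p.jf + 2), by have := jf_lt R; omega⟩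
  have sX : ∀ i ≤ jc p, 0 ≤ (Me p P).s i ∧ (Me p P).s i ≤ E.X := fun i hi =>
    ⟨(k.s_le v0 hi).1, (k.s_le v0 hi).2.trans tX⟩
  have qs : ∀ i ≤ jc p, (Me p P).q i ≤ (Me p P).s i := fun i hi =>
    Pp.Ode3.Gam_le (lr_ap k.cl) (s_mem k.cl (by omega))
  have hd : |p.b 1 p.ye - τ p P m| ≤ dd p m := (congrArg _ k.τ2).trans_le (abs_of_nonneg k.d0).le
  have τL : τ p P m ≤ C := by linarith [k.τ2, k.d0, k.b2]
  have τ0 : 0 ≤ τ p P m := by linarith [k.τ1]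
  have dX : dd p m ≤ E.X ^ 6 :=
    (k.d1.trans (div_le_div_of_nonneg_right CL R.N0.le)).trans n.nX
  have ltX := lt.mono (show E.X ≤ p.ye / 2 by linarith [n.Xy])
  obtain ⟨b1, -, l0, l1⟩ := hA _ _ _ _ _ _ _ K₀ _ _ _ ok k.st k.lk (ltX.mono (sX _ le_rfl).2)
    (by linarith [k.b1]) k.b2 hd (sX _ le_rfl).2 (k.x1 ▸ hx _ le_rfl _ (.inr rfl))
  have g1 : (D p P m a E).sig (jc p + 1) ≤ E.X :=
    (k.lk.mem ok (Nat.lt_succ_self _) (lt_of_le_of_lt k.st.JP k.lk.PK)).2.1.trans (sX _ le_rfl).2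
  have g0 : 0 ≤ (D p P m a E).sig (jc p + 1) := k.lk.s0.le
  have x1 : ex (D p P m a E).B (jc p) ≤ E.X := ok.x1
  have x0 : 0 ≤ ex (D p P m a E).B (jc p) := ok.ex0 _
  have zX : (Me p P).z (p.jf + 1 + N) ≤ E.X := by
    rw [k.x1, ← k.z (by omega) (by omega), hN, Nat.add_sub_cancel] at x1; exact x1
  have hH : ∀ i, p.jf < i → (Me p P).H i = (Me p P).s i - p.b 1 p.ye * (Me p P).q i := fun i hi => by
    have := k.hG i hi
    rw [Md.G, k.hd] at this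
    linarith
  obtain ⟨c1, c2, c3⟩ := ltX.lin (z := fun i => (Me p P).z (p.jf + 1 + i))
    (s := fun i => (Me p P).s (p.jf + 1 + i)) (H := fun i => (Me p P).H (p.jf + 1 + i))
    (q := fun i => (Me p P).q (p.jf + 1 + i)) (N := N) (A := eps0 (p.b 1 p.ye) (Me p P).lr) (a := 0)
    (v := 2 * p.v) (fun i _ => k.leg.zm (by omega))
    (k.a0.le.trans (k.leg.z0.trans (k.leg.zm (Nat.zero_le _)))) zX
    (fun i _ => k.cl.sm (by omega)) (sX _ (by omega)).1 (sX _ (by omega)).2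
    (fun i hi => (k.lo (p.jf + 1 + i) (by omega)).2.2.2.2)
    (fun i hi => hx _ (by omega) _ (.inl (k.z (by omega) (by omega)))) (fun _ _ => rfl)
    (fun i _ => hH _ (by omega)) (by simp) hd
  have sf : ∀ i ≤ p.jf + 1, (Me p P).s i ≤ 4 * rf p := fun i hi => by
    have u1 : (i : ℝ) ≤ 2 * p.jf := by have := R.jf_pos; exact_mod_cast (by omega)
    linarith [(k.lo i (by omega)).2.2.1, mul_le_mul_of_nonneg_right u1 v0.le, k.f1]
  have s0 := (sX (p.jf + 1) (by omega)).1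
  have s1 := sf _ le_rfl
  have s3 := (sX (p.jf + 1) (by omega)).2
  have hv := (ltX.mono (sX (p.jf + 1) (by omega)).2).hv_le s0 le_rfl
  have hz := abs_le.1 (hx (p.jf + 1) (by omega) _ (.inl (k.z (by omega) (by omega))))
  have rX : (Me p P).rb m a (p.jf + 1 + N) ≤ 2 * E.X := by
    have u1 : (Me p P).E2 m a (fun R => max (|R| - E.X) 0) (p.jf + 1 + N) ≤ E.tl :=
      ok.envL (p.jf + 1 + N + 1) (CD.mem_lo.2 ⟨by omega, hN.ge⟩)
    have u2 := E2_mono (M := Me p P) (m := m) (a := a) (f := id)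
      (g := fun R => E.X + max (|R| - E.X) 0) (fun r _ => by
        linarith [le_max_left (|r| - E.X) 0, le_abs_self r, id_eq r]) (p.jf + 1 + N)
    rw [E2_add, E2_const] at u2
    linarith [pow_le_of_le_one X0 X1 (show 3 ≠ 0 by norm_num), show (Me p P).rb m a (p.jf + 1 + N) =
      (Me p P).E2 m a id (p.jf + 1 + N) from rfl]
  have s2 : 0 ≤ R85.s2 (D p P m a E) ∧ R85.s2 (D p P m a E) ≤ 3 * E.X ^ 3 := by
    have u1 := ok.sum_u_lo 1
    have u2 : R85.s2 (D p P m a E) = ∑ j ∈ (D p P m a E).lo, (D p P m a E).dx j *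
        (D p P m a E).u 2 j := sum_congr rfl fun j hj => congrArg _ (R85.E2_lo ok hj 1)
    rw [u2]
    refine ⟨sum_nonneg fun j _ => mul_nonneg (ok.dx0 j) (CD.u0 _ _ _), u1.trans ?_⟩
    change E.X ^ 3 + _ * E.tl ≤ _
    push_cast
    linarith
  have K0 := lt.K0
  have K1 := lt.K1
  have α0 := lt.α0
  have αK := k.al.2
  have δ0 := sqrt_nonneg p.v
  change |E42.Aq (D p P m a E) (τ p P m) - _| ≤ CA * (_ * E.X ^ 2 + E.X ^ 3 + _ + _) at b1
  have aq : E42.Aq (D p P m a E) (τ p P m) = 1 - τ p P m * (D p P m a E).lam ^ 2 + τ p P m *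
    (D p P m a E).lam * ex (D p P m a E).B (jc p) * ((D p P m a E).lam ^ 2 *
      (D p P m a E).sig (jc p + 1)) := rfl
  have eH : Pr.Exp50.hv (p.b 1 p.ye) (Me p P).lr ((Me p P).s (p.jf + 1)) = (Me p P).H (p.jf + 1) :=
    (hH _ (Nat.lt_succ_self _)).symm
  rw [eH] at hv
  rw [hN] at hV
  have main := fun {μ X0 H0 : ℝ} h1 h2 h3 h4 => low_md (E := E) (θ := τ p P m * (D p P m a E).lam ^ 2)
    (μ := μ) (X0 := X0) (H0 := H0) G (by omega) c1 (by positivity) (by positivity) τ0 rX h1 h2 c3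
    (fun i hi => (qs i (by omega)).trans (sX i (by omega)).2) hV h3 h4 hr
    fun i hi => (qs i (by omega)).trans (sf i hi)
  rw [← hN] at main
  rw [cL, show jc p - (p.jf + 2) = N by omega, LowT]
  have d0 := k.d0
  generalize Clow _ _ _ _ _ _ _ _ _ = cc at main ⊢
  generalize Hs _ _ _ _ = hs at main c2
  generalize R85.s2 (D p P m a E) = S2 at *
  generalize E42.Jh (D p P m a E) = Jh at *
  generalize R85.sh (D p P m a E) = Sh at *
  generalize E42.Aq (D p P m a E) (τ p P m) = Aq at *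
  generalize (D p P m a E).lam = l at *
  generalize ex (D p P m a E).B (jc p) = x at *
  generalize (D p P m a E).sig (jc p + 1) = g at *
  generalize eps0 (p.b 1 p.ye) (Me p P).lr = ε at *
  generalize k3 (Me p P).lr (p.b 1 p.ye) (p.al 1) = k' at *
  generalize τ p P m = τ at *
  generalize (p.n : ℝ) ^ η = L at *
  generalize p.κ ^ ((1 : ℝ) / 100) * un p = w at *
  have e0 : 0 < p.κ * p.r ^ 2 := by positivity
  generalize p.κ * p.r ^ 2 = e at *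
  obtain ⟨κ2, -, v1, v2, v3, -, γe, γκ, eX', e1', -, LX, f1, fe, κf, y1, y2, y3, y4⟩ := n
  have V0 : 0 ≤ p.κ ^ (-(7 : ℝ) / 10) * (p.s ^ 3 * (p.n : ℝ) ^ (-(1 : ℝ) / 2)) := by
    have := R.s0; positivity
  have ρ0 : 0 ≤ p.s * (p.n : ℝ) ^ (p.c / 2 - 1 / 6) := by have := R.s0; positivity
  have γ0 : 0 ≤ (p.n : ℝ) ^ (-(7 / 20 : ℝ)) := by positivity
  generalize p.κ ^ (-(7 : ℝ) / 10) * (p.s ^ 3 * (p.n : ℝ) ^ (-(1 : ℝ) / 2)) = V at *
  generalize p.s * (p.n : ℝ) ^ (p.c / 2 - 1 / 6) = ρ at *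
  generalize (p.n : ℝ) ^ (-(7 / 20 : ℝ)) = γ at *
  generalize E.X = X at *
  generalize rf p = f at *
  generalize √p.v = δ at *
  generalize dd p m = d at *
  generalize (Me p P).s (p.jf + 1) = s at *
  clear hA hx lt ltX c1 c3 sX qs sf hH hV hd k ad ok G
  have L0 : 0 ≤ L := by linarith
  have L1 : 1 ≤ L := by linarith
  have xp : ∀ i j : ℕ, i ≤ j → X ^ j ≤ X ^ i := fun i j h => pow_le_pow_of_le_one X0 X1 h
  have ε1 : |ε| ≤ 2 * e := by
    have := abs_le.1 (e1.trans ((mul_le_mul_of_nonneg_right KL γ0).trans γe))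
    exact abs_le.2 ⟨by linarith only [this.1, e0], by linarith only [this.2]⟩
  have ε2 := ε1.trans eX'
  have k1 : |k'| ≤ L * (2 * p.κ) := e2.trans (by gcongr; linarith only [γκ])
  have k2 : |k'| ≤ 2 * L := by linarith only [k1, mul_le_mul_of_nonneg_left κ2 L0, L0]
  have kδ : ∀ i ≤ 6, K * (X ^ i + δ) ≤ 2 * L * X ^ i := fun i hi =>
    (mul_le_mul KL (show _ ≤ 2 * X ^ i by linarith only [v1, xp i 6 hi]) (by positivity) L0).trans_eq
      (by ring)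
  have p1 : |ε| * X ≤ X ^ 3 := (mul_le_mul_of_nonneg_right ε2 X0).trans_eq (by ring)
  have p2 := mul_le_mul_of_nonneg_right k2 (pow_nonneg X0 3)
  have p3 := mul_le_mul_of_nonneg_left (xp 3 4 (by norm_num)) L0
  have p4 := mul_le_mul_of_nonneg_right L1 (pow_nonneg X0 3)
  have p5 : d * X ≤ X ^ 3 := (mul_le_of_le_one_right d0 X1).trans (dX.trans (xp 3 6 (by norm_num)))
  have p6 := kδ 4 (by norm_num)
  have q1 : |Aq - ε| ≤ L * (4 * X ^ 3) := b1.trans (mul_le_mul AL (by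
    linarith only [mul_le_mul_of_nonneg_right ε2 (sq_nonneg X), xp 3 4 (by norm_num), v1, dX,
      xp 3 6 (by norm_num)]) (by positivity) L0)
  have q2 : |1 - τ * l ^ 2| ≤ 6 * L * X ^ 2 := by
    have u1 : τ * l * x * (l ^ 2 * g) ≤ L * 1 * X * (1 ^ 2 * X) := by gcongr; linarith only [τL, CL]
    have u0 : 0 ≤ τ * l * x * (l ^ 2 * g) := by positivity
    have u2 := abs_le.1 q1
    have u3 := abs_le.1 ε2
    have u4 := mul_le_mul_of_nonneg_left (xp 2 3 (by norm_num)) L0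
    have u5 := mul_le_mul_of_nonneg_right L1 (sq_nonneg X)
    exact abs_le.2 ⟨by linarith only [aq, u1, u2.1, u3.1, u4, u5],
      by linarith only [aq, u0, u2.2, u3.2, u4, u5, sq_nonneg X]⟩
  have q3 : 6 * L * X ^ 2 ≤ 1 := by
    linarith only [LX, mul_le_mul_of_nonneg_right L3 (show 0 ≤ L * X ^ 2 by positivity),
      show 0 ≤ L * X ^ 2 by positivity]
  have ef := mul_le_of_le_one_left f0.le e1'
  have q4 : (Me p P).z (p.jf + 1) ≤ L ^ 2 * f := by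
    have u1 : p.al 1 * s ≤ L * (4 * f) := by gcongr; linarith only [αK, KL]
    have u2 : K₀ * (s ^ 2 + δ) ≤ L * (17 * f) := mul_le_mul (K1.trans KL) (by
      linarith only [pow_le_pow_left₀ s0 s1 2, mul_le_of_le_one_left f0.le f1, v3, ef])
      (by positivity) L0
    linarith only [hz.2, u1, u2, mul_le_mul_of_nonneg_right L3 (show 0 ≤ L * f by positivity),
      show 0 ≤ L * f by positivity]
  have q5 : (Me p P).H (p.jf + 1) ≤ L ^ 2 * (e * f) := by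
    have u1 : |ε| * s ≤ 2 * e * (4 * f) := by gcongr
    have u2 : |k'| * s ^ 3 ≤ L * (2 * p.κ) * (4 * f) ^ 3 := by gcongr
    have u3 : K * (s ^ 4 + δ) ≤ L * (257 * (e * f)) := mul_le_mul KL (by
      linarith only [pow_le_pow_left₀ s0 s1 4, mul_le_mul_of_nonneg_right fe f0.le, v3])
      (by positivity) L0
    have u4 := mul_le_mul_of_nonneg_right κf (show 0 ≤ L * f by positivity)
    have u5 := mul_le_mul_of_nonneg_right L1 (show 0 ≤ e * f by positivity)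
    linarith only [(le_abs_self _).trans hv, u1, u2, u3, u4, u5,
      mul_le_mul_of_nonneg_right L3 (show 0 ≤ L * (e * f) by positivity),
      show 0 ≤ L * (e * f) by positivity]
  have M := abs_le.1 (main q2 q3 q4 q5)
  have t1 : τ / 2 * |ε| * (3 * V + 2 * (L ^ 2 * f * (4 * f) ^ 2)) ≤
      L / 2 * (2 * e) * (3 * V + 2 * (L ^ 2 * f * (4 * f) ^ 2)) := by
    gcongr; linarith only [τL, CL]
  have t3 : 3 / 2 * |hs| * (X * (2 * X + X)) ≤ 3 / 2 * (2 * L * X ^ 4) * (X * (2 * X + X)) := by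
    gcongr
    refine c2.trans (le_trans ?_ p6)
    rw [zero_mul, add_zero]
    gcongr
  have t4 := mul_le_mul_of_nonneg_right (dl_num (ct := p.al 1) (K := k') (v := 2 * p.v)
    (dq := |ε| * X + |k'| * X ^ 3 + K * (X ^ 4 + δ) + d * X) X0 X1 L1
    (show K * (X ^ 3 + δ) + 0 ≤ _ by linarith only [kδ 3 (by norm_num)]) ε2
    (by have := K0.trans K1; positivity) (by linarith only [p1, p2, p3, p4, p5, p6])
    (kδ 2 (by norm_num)) (αK.trans KL) (by positivity) v2 k2) (show 0 ≤ 2 * X by positivity)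
  have t5 : 3 / 2 * (6 * L * X ^ 2) * (|ε| * X + |k'| * X ^ 3 + K * (X ^ 4 + δ)) * X * (2 * X) ≤
      3 / 2 * (6 * L * X ^ 2) * (5 * L * X ^ 3) * X * (2 * X) := by
    gcongr; linarith only [p1, p2, p3, p4, p6]
  have t6 : |τ / 2 * (Aq - ε) * S2| ≤ L / 2 * (L * (4 * X ^ 3)) * (3 * X ^ 3) := by
    rw [abs_mul, abs_mul, abs_of_nonneg s2.1, abs_of_nonneg (show 0 ≤ τ / 2 by positivity)]
    gcongr
    exacts [s2.1, by linarith only [τL, CL], s2.2]
  have t7 := abs_le.1 t6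
  have w1 := mul_le_mul_of_nonneg_left (xp 6 7 (by norm_num)) (sq_nonneg L)
  have w2 := mul_le_mul_of_nonneg_right L1 (show 0 ≤ L * X ^ 6 by positivity)
  have z1 : 0 ≤ L ^ 2 * X ^ 6 := by positivity
  have z2 : 0 ≤ L * (e * V) := by positivity
  have z3 : 0 ≤ L ^ 3 * (e * f ^ 3) := by positivity
  have z4 : 0 ≤ L ^ 4 * (e * f ^ 2 * ρ) := by positivity
  have o1 := (mul_le_mul_of_nonneg_right L3 z1).trans y1
  have o2 := (mul_le_mul_of_nonneg_right L3 z2).trans y2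
  have o3 := (mul_le_mul_of_nonneg_right L3 z3).trans y3
  have o4 := (mul_le_mul_of_nonneg_right L3 z4).trans y4
  exact abs_le.2 ⟨by linarith only [M.1, t1, t3, t4, t5, t7.1, w1, w2, o1, o2, o3, o4, z1],
    by linarith only [M.2, t1, t3, t4, t5, t7.2, w1, w2, o1, o2, o3, o4, z1]⟩

end Lw30

/-- **the low zone** -/
theorem lwS_of {β : ℝ} (hβ : 1 < β) (h1 : RbS β) (h2 : LwIn β) : LwS β := by
  have h3 := Lw30.lw_kit hβ
  unfold RbS LwIn LwS EvA at *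
  exact ((h1.and h2).and h3).mono fun _ p ⟨⟨g1, g2⟩, g3⟩ P m =>
    ⟨_, fun a E h => g3 P m a E h (g1 P m a h.sp h.inn) (g2 P m a E h)⟩

end Crest.Agent.T156.Alt.R2

end
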