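import Crest.Agent.T156.R2Def_30

/-!
# Row 156, R2: the value record with the numbers read by the test head (helper42)
-/

set_option autoImplicit false

noncomputable section

namespace Crest.Agent.T156.Alt.R2

open Real

/-- `ValS` with the three numbers read by `R40.dT_om` -/
def ValX (β : ℝ) : Prop := Sml β fun _ p => ∀ P m a, p.SpOk (7 / 20) P → In p m a →
  ∃ E, Ad p P m a E ∧ (D p P m a E).Err ≤ gn p 200 * un p ∧
    (D p P m a E).N1 ≤ p.s ^ 2 * (p.n : ℝ) ^ (-(3 : ℝ) / 10) ∧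
    (D p P m a E).N1 * (D p P m a E).N2 ≤ gn p 300 * un p ∧
    (∃ A, (D p P m a E).Add A ∧
      (D p P m a E).I (fun t => (D p P m a E).e t * A t) ≤ gn p 300 * un p) ∧
    E.F0 (jc p) ≤ kk p

theorem ValX.valS {β : ℝ} (h : ValX β) : ValS β :=
  Sml.mono h fun _ _ h P m a sp i =>
    let ⟨E, a1, a2, a3, _⟩ := h P m a sp i
    ⟨E, a1, a2, a3⟩

end Crest.Agent.T156.Alt.R2

end
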