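import Crest.Agent.T156.ErrL_35
import Crest.Agent.T156.ErrT_5

/-!
# Row 156, R2 (helper23): the error table in the value direction, from numbers
-/

set_option autoImplicit false
set_option linter.unusedSectionVars false

noncomputable section

namespace Crest.Agent.T156.Cas.C40.V23

open Real Finset
open Crest.Agent.T157.E Crest.Agent.T157.Casc Crest.Agent.T157.SL
open Mul55 CD Et5 ErrL

/-- block data with homogeneous sizes -/
structure Vb (D : CD) (B : ℕ) (lev : ℕ → ℕ) (t A : ℕ → ℝ) (L t0 y w : ℝ) : Prop where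
  bd : BD D B lev t (fun i => L * t i) (fun i => L * t i) (fun i => t0 * y / t i + w) A
  tm : Monotone t
  p0 : 0 < t0
  p1 : t0 ≤ 1
  lo : ∀ i, t0 ≤ t i
  hi : ∀ i, t i ≤ L
  BL : (B : ℝ) ≤ L
  L1 : 1 ≤ L
  y0 : 0 ≤ y
  w0 : 0 ≤ w
  w2 : w ^ 2 = t0 * y ^ 2
  dJ : D.dx (D.J + 1) ≠ 0
  JK : D.J + 1 < D.K

theorem u5_le {D : CD} {τ0 : ℝ} (h : D.Ok τ0) {j : ℕ} (hj : j ≤ D.K) : D.u 5 j ≤ 2 * D.u 4 j := by
  have h1 := pi2_mono (Ω := Cube D.n) wt_one90 D.B j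
    (K := fun x y => |oU D.q j x y| ^ 5) (K' := fun x y => 2 * |oU D.q j x y| ^ 4)
    (fun x y => by
      rw [pow_succ']
      exact mul_le_mul_of_nonneg_right (abs_oU_le h.ook hj x y) (by positivity)) 0
  rw [pi2_const_mul] at h1
  exact h1

namespace Vb

variable {D : CD} {B : ℕ} {lev : ℕ → ℕ} {t A : ℕ → ℝ} {L t0 y w τ0 : ℝ}
  (V : Vb D B lev t A L t0 y w)
include V

theorem tp (i : ℕ) : 0 < t i := V.p0.trans_le (V.lo i)

theorem L0 : 0 ≤ L := zero_le_one.trans V.L1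

theorem wy : w ≤ y := le_of_pow_le_pow_left₀ two_ne_zero V.y0
  (V.w2.trans_le (mul_le_of_le_one_left (sq_nonneg _) V.p1))

theorem tw : t0 * y ≤ w := le_of_pow_le_pow_left₀ two_ne_zero V.w0 (by
  rw [V.w2, mul_pow]
  exact mul_le_mul_of_nonneg_right (by nlinarith [V.p0, V.p1]) (sq_nonneg _))

theorem al0 (i : ℕ) : 0 ≤ t0 * y / t i + w := V.bd.al0 i

theorem al2 (i : ℕ) : t0 * y / t i + w ≤ 2 * y := by
  have : t0 * y / t i ≤ y := by
    rw [div_le_iff₀' (V.tp i)]; exact mul_le_mul_of_nonneg_right (V.lo i) V.y0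
  linarith [V.wy]

theorem tal (i : ℕ) : t i * (t0 * y / t i + w) ≤ 2 * L * w := by
  rw [mul_add, mul_div_cancel₀ _ (V.tp i).ne']
  linarith [V.tw, mul_le_mul_of_nonneg_right (V.hi i) V.w0, mul_le_mul_of_nonneg_right V.L1 V.w0]

theorem tal2 (i : ℕ) : t i * (t0 * y / t i + w) ^ 2 ≤ 4 * L * w ^ 2 := by
  have p := V.tp i
  have e : t i * (t0 * y / t i) ^ 2 = t0 / t i * w ^ 2 := by rw [V.w2]; field_simp
  have a1 : t0 / t i * w ^ 2 ≤ w ^ 2 :=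
    mul_le_of_le_one_left (sq_nonneg _) ((div_le_one p).2 (V.lo i))
  have a2 := mul_le_mul_of_nonneg_left (add_sq_le (a := t0 * y / t i) (b := w)) p.le
  linarith [mul_le_mul_of_nonneg_right (V.hi i) (sq_nonneg w),
    mul_le_mul_of_nonneg_right V.L1 (sq_nonneg w)]

theorem ph_al (i : ℕ) : ph B (fun i => t0 * y / t i + w) i ≤ L * (t0 * y / t i + w) :=
  (ph_le (V.al0 i) fun _ hk _ => add_le_add (div_le_div_of_nonneg_left (mul_nonneg V.p0.le V.y0)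
    (V.tp i) (V.tm hk)) le_rfl).trans (mul_le_mul_of_nonneg_right V.BL (V.al0 i))

theorem Sg' {f : ℕ → ℝ} {x : ℝ} (hx : 0 ≤ x) (h : ∀ i, f i ≤ x) : Sg B f ≤ L * x :=
  (Sg_le fun i _ => h i).trans (mul_le_mul_of_nonneg_right V.BL hx)

theorem SV_le : SV B (fun i => L * t i) (fun i => t0 * y / t i + w) ≤ 2 * L ^ 4 * w := by
  have L0 := V.L0
  have w0 := V.w0
  refine (V.Sg' (x := L * (L * (2 * L * w))) (by positivity) fun i => ?_).trans_eq (by ring)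
  rw [mul_assoc]
  refine mul_le_mul_of_nonneg_left ((mul_le_mul_of_nonneg_left (V.ph_al i) (V.tp i).le).trans ?_) L0
  rw [mul_left_comm]
  exact mul_le_mul_of_nonneg_left (V.tal i) L0

theorem eal : Sg B (fun i => L * t i * (t0 * y / t i + w) ^ 2) ≤ 4 * L ^ 3 * w ^ 2 := by
  have L0 := V.L0
  refine (V.Sg' (x := L * (4 * L * w ^ 2)) (by positivity) fun i => ?_).trans_eq (by ring)
  rw [mul_assoc]
  exact mul_le_mul_of_nonneg_left (V.tal2 i) L0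

theorem VF_le : D.VF ≤ 8 * L ^ 8 * w ^ 2 := by
  have L0 := V.L0
  have a1 := pow_le_pow_left₀ V.bd.SV0 V.SV_le 2
  have a2 := V.Sg' (f := fun i => L * t i * ph B (fun i => t0 * y / t i + w) i ^ 2)
    (x := L * (L ^ 2 * (4 * L * w ^ 2))) (by positivity) fun i => by
      rw [mul_assoc]
      refine mul_le_mul_of_nonneg_left ((mul_le_mul_of_nonneg_left (pow_le_pow_left₀
        (ph0 V.al0 i) (V.ph_al i) 2) (V.tp i).le).trans ?_) L0
      rw [mul_pow, mul_left_comm]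
      exact mul_le_mul_of_nonneg_left (V.tal2 i) (sq_nonneg _)
  have a3 := mul_le_mul_of_nonneg_right (pow_le_pow_right₀ V.L1 (show 5 ≤ 8 by norm_num))
    (sq_nonneg w)
  linarith [V.bd.VF_le]

theorem Lad0_le : D.Lad0 ≤ D.X ^ 2 * D.Lv1 + 8 * L ^ 4 * w ^ 2 := by
  have L0 := V.L0
  have a2 := V.Sg' (f := fun i => (L * t i) ^ 2 * ((t0 * y / t i + w) ^ 2 / t i))
    (x := L ^ 2 * (4 * L * w ^ 2)) (by positivity) fun i => by
      have := (V.tp i).ne'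
      rw [show (L * t i) ^ 2 * ((t0 * y / t i + w) ^ 2 / t i) =
        L ^ 2 * (t i * (t0 * y / t i + w) ^ 2) by field_simp]
      exact mul_le_mul_of_nonneg_left (V.tal2 i) (sq_nonneg _)
  have a3 := mul_le_mul_of_nonneg_right (pow_le_pow_right₀ V.L1 (show 3 ≤ 4 by norm_num))
    (sq_nonneg w)
  linarith [V.bd.Lad0_le, V.eal]

theorem Lv1_le : t0 * D.Lv1 ≤ 4 * y ^ 2 := by
  have a := V.bd.lad _ (mem_up.2 ⟨Nat.lt_succ_self _, V.JK⟩) V.dJ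
  have a0 := V.bd.lad0 (D.J + 1)
  have e : D.Lv1 = ∑ y ∈ Ico 1 (D.J + 1), D.dx y * D.v y (D.J + 1) := rfl
  have a1 := pow_le_pow_left₀ (V.al0 _) (V.al2 (lev (D.J + 1))) 2
  rw [e]
  linarith [mul_le_mul_of_nonneg_right (V.lo (lev (D.J + 1))) a0]

theorem fs_f0 : D.fs D.f0 D.J ≤ 4 * L ^ 4 * y := by
  have L0 := V.L0
  have a1 := (V.bd.f0 _ (mem_up.2 ⟨Nat.lt_succ_self _, V.JK⟩)).trans ((V.ph_al _).trans
    (mul_le_mul_of_nonneg_left (V.al2 _) L0))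
  have a2 := (V.bd.sv_f0 le_rfl).trans V.SV_le
  have a3 := mul_le_mul_of_nonneg_left V.wy (pow_nonneg L0 4)
  have a4 := mul_le_mul_of_nonneg_right (le_self_pow₀ V.L1 (show 4 ≠ 0 by norm_num)) V.y0
  rw [fs]
  linarith

theorem sv_one : D.sv (fun _ => 1) D.J ≤ L ^ 3 := V.bd.sv_one.trans
  ((V.Sg' (x := L * L) (mul_nonneg V.L0 V.L0)
    fun i => mul_le_mul_of_nonneg_left (V.hi i) V.L0).trans_eq (by ring))

theorem IeA : D.I (fun j => D.e j * A j) ≤ 4 * L ^ 3 * w ^ 2 :=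
  (V.bd.I_A V.bd.env V.bd.ee0).trans V.eal

/-- **the table** -/
theorem err (h : D.Ok τ0) (hW : D.W.isSome = false) {N Φ dm U3 U4 l1 l2 : ℝ}
    (eB : ∀ j ∈ D.up, D.e j ≤ L) (n1 : D.N1 ≤ N) (n2 : D.N2 ≤ Φ) (F0 : D.F0 (D.J + 1) ≤ N)
    (hd : D.I D.dx ≤ dm) (h3 : D.I (fun j => D.e j * D.g j ^ 3) ≤ U3) (h4 : D.I (D.u 4) ≤ U4)
    (k1 : D.Lv1 ≤ l1) (k2 : D.Lv2 ≤ l2) :
    D.Err ≤ D.X ^ 6 + 1 / D.n + (D.K + 1) ^ 2 * D.tl + dm + D.X ^ 4 * N + 2 * (D.X ^ 3 * Φ) +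
      4 * L ^ 3 * (Φ * N) + 3 * U4 + U3 + D.X ^ 2 * l1 + 16 * L ^ 8 * w ^ 2 +
      2 * L ^ 3 * (l1 * N) + 4 * L ^ 4 * (l2 * y) := by
  have L0 := V.L0
  have X0 := h.X0
  have N0 := h.N10.trans n1
  have Φ0 := h.N20.trans n2
  have l10 := h.Lv10.trans k1
  have L3 := one_le_pow₀ (n := 3) V.L1
  have h1 : D.T3 ≤ D.I fun j => L * Φ * D.g j + L * N * D.g j ^ 2 := h.I_mono fun j hj => by
    have hJ := (mem_up.1 hj).1.le
    have a1 := (hi_le h (fun t => sq_nonneg (D.g t)) hJ).trans n2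
    have a2 := (hi_le h D.g0 hJ).trans n1
    have a3 := mul_le_mul_of_nonneg_left a1 (D.g0 j)
    have a4 := mul_le_mul_of_nonneg_left a2 (sq_nonneg (D.g j))
    have a5 := mul_le_mul (eB j hj) (add_le_add a3 a4) (add_nonneg
      (mul_nonneg (D.g0 j) (h.hi0 (fun _ => sq_nonneg _) j))
      (mul_nonneg (sq_nonneg _) (h.hi0 D.g0 j))) L0
    linarith
  rw [D.I_add, D.I_mul, D.I_mul] at h1
  have a1 := mul_le_mul_of_nonneg_left n1 (mul_nonneg L0 Φ0)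
  have a2 := mul_le_mul_of_nonneg_left n2 (mul_nonneg L0 N0)
  change D.T3 ≤ L * Φ * D.N1 + L * N * D.N2 at h1
  have a3 := mul_le_mul_of_nonneg_right (le_self_pow₀ V.L1 (show 3 ≠ 0 by norm_num))
    (mul_nonneg Φ0 N0)
  have fF : ∀ j, D.J ≤ j → D.fs D.F0 j ≤ 2 * L ^ 3 * N := fun j hj =>
    (fs_le h h.F00 h.wk0.F_anti F0 V.sv_one hj).trans (by nlinarith)
  have b1 : D.I (fun j => D.u 2 j * D.fs D.F0 j) ≤ D.I fun j => 2 * L ^ 3 * N * D.g j ^ 2 :=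
    h.I_mono fun j hj => (mul_le_mul (u2_le D j) (fF j (mem_up.1 hj).1.le) (h.fs0 h.F00 j)
      (sq_nonneg _)).trans_eq (mul_comm _ _)
  rw [D.I_mul] at b1
  have b2 := mul_le_mul_of_nonneg_left n2 (show 0 ≤ 2 * L ^ 3 * N by positivity)
  change _ ≤ 2 * L ^ 3 * N * D.N2 at b1
  have b3 := mul_le_mul k1 (fF _ le_rfl) (h.fs0 h.F00 _) l10
  have b4 := mul_le_mul k2 V.fs_f0 (h.fs0 h.f00 _) (h.Lv20.trans k2)
  have b5 : D.I (fun j => D.u 4 j + D.u 5 j) ≤ D.I fun j => 3 * D.u 4 j :=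
    h.I_mono fun j hj => by linarith [u5_le h (mem_up.1 hj).2.le]
  rw [D.I_mul] at b5
  have b6 := mul_le_mul_of_nonneg_left n1 (pow_nonneg X0 4)
  have b7 := mul_le_mul_of_nonneg_left (add_le_add n2 ((N1_sq h).trans n2)) (pow_nonneg X0 3)
  have b8 := mul_le_mul_of_nonneg_left k1 (sq_nonneg D.X)
  have b9 := mul_le_mul_of_nonneg_right (pow_le_pow_right₀ V.L1 (show 4 ≤ 8 by norm_num))
    (sq_nonneg w)
  rw [Err_val hW, E0]
  linarith [V.VF_le, V.Lad0_le]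

end Vb

end Crest.Agent.T156.Cas.C40.V23

end
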