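import Crest.Agent.T156.R2GD_78
import Crest.Agent.T156.R2VA_23
import Crest.Agent.T156.R2TD_42

/-!
# Row 156, R2 (helper23): `ValX` from three pieces (record, moments, exponents)
-/

set_option autoImplicit false

noncomputable section

namespace Crest.Agent.T156.Alt.R2

open Real Finset
open Crest.Agent.T156.Cas Crest.Agent.T156.Cas.C40

/-- weighted variance sum on the slope -/
def GlE (β : ℝ) : Prop := Sml β fun _ p => ∀ P m a, p.SpOk (7 / 20) P → In p m a →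
  ∑ k ∈ Tlo p P, (Me p P).dz m a k * (max (t1 p) ((Me p P).z k) ^ 2 *
    (Me p P).E2 m a (fun R => (R - (Me p P).q k) ^ 2) k) ≤
    kk p ^ 5 * (p.s ^ 4 * (p.n : ℝ) ^ (-(13 : ℝ) / 20))

variable (p : Pm)

/-- sizes -/
def nV : ℝ := kk p ^ 6 * (p.s ^ 2 * (p.n : ℝ) ^ (-(13 : ℝ) / 40))
def yV : ℝ := kk p ^ 3 * (p.s ^ 2 * (p.n : ℝ) ^ (-(7 : ℝ) / 20))

/-- the moment numbers -/
structure MnV (X : CD) : Prop where
  n1 : X.N1 ≤ nV p
  n2 : X.N2 ≤ kk p ^ 6 * (p.s ^ 3 * (p.n : ℝ) ^ (-(31 : ℝ) / 60))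
  u4 : X.I (X.u 4) ≤ kk p ^ 6 * cb p (169 / 200)
  u3 : X.I (fun j => X.e j * X.g j ^ 3) ≤ kk p ^ 6 * cb p (169 / 200)

/-- the block numbers -/
def BkV (X : CD) : Prop :=
  (∃ B lev t A, V23.Vb X B lev t A (p.κ ^ 2)⁻¹ (t1 p) (yV p) √(t1 p * yV p ^ 2)) ∧
    X.F0 (X.J + 1) ≤ nV p

/-- piece A: the record -/
def RcS (β : ℝ) : Prop := Sml β fun _ p => ∀ P m a, p.SpOk (7 / 20) P → In p m a →
  ∃ E, Ad p P m a E ∧ BkV p (D p P m a E)

/-- piece C: the moments -/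
def MnS (β : ℝ) : Prop := EvA β fun p P m a E => MnV p (D p P m a E)

/-- piece B: the exponents -/
def VfS (β : ℝ) : Prop := EvA β fun p P m a E => MnV p (D p P m a E) → BkV p (D p P m a E) →
  (D p P m a E).vL ≤ kk p ^ 5 * (p.s ^ 6 * (p.n : ℝ) ^ (-(59 : ℝ) / 60)) →
  (D p P m a E).Err ≤ gn p 200 * un p ∧
    (D p P m a E).N1 ≤ p.s ^ 2 * (p.n : ℝ) ^ (-(3 : ℝ) / 10) ∧
    (D p P m a E).N1 * (D p P m a E).N2 ≤ gn p 300 * un p ∧
    (∃ A, (D p P m a E).Add A ∧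
      (D p P m a E).I (fun t => (D p P m a E).e t * A t) ≤ gn p 300 * un p) ∧
    E.F0 (jc p) ≤ kk p

theorem valX_glue {β : ℝ} (a : RcS β) (c : MnS β) (b : VfS β) (l : LvS β) : ValX β := by
  unfold RcS at a
  unfold MnS EvA at c
  unfold VfS EvA at b
  unfold LvS EvA at l
  refine (a.and (c.and (b.and l))).mono fun _ _ h P m x sp i => ?_
  obtain ⟨a, c, b, l⟩ := h
  obtain ⟨E, ad, bk⟩ := a P m x sp i
  exact ⟨E, ad, b P m x E ad (c P m x E ad) bk (l P m x E ad)⟩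

end Crest.Agent.T156.Alt.R2

end
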