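import Crest.Agent.T156.R2MZ_90
import Crest.Agent.T156.R2VG_23
import Crest.Agent.T156.R2Lw_30

/-!
# Row 156, R2 (helper90): the sloped leaves from SR and the location
-/

set_option autoImplicit false

noncomputable section

namespace Crest.Agent.T156.Alt.R2

open J90

variable {β : ℝ}

theorem soE90 (hβ : 1 < β) (h : SrF β) : SoE β := soE_of hβ R62.S39.slM h

theorem lwIn_of (hβ : 1 < β) (h : SrF β) : LwIn β := by
  unfold LwIn EvA
  exact (lw_of hβ (soE90 hβ h)).mono fun _ _ g P m a _ ad => g P m a ad.sp ad.inn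

theorem jS_end (hβ : 1 < β) (h : SrF β) (L : En91.LocS β) : JS β := jS_loc hβ (soE90 hβ h) L

theorem glS_end (hβ : 1 < β) (h : SrF β) (L : En91.LocS β) : GlS β := glS_of hβ (soE90 hβ h) L

theorem glE_end (hβ : 1 < β) (h : SrF β) (L : En91.LocS β) : GlE β :=
  (gl_both hβ (soE90 hβ h) L).mono fun _ _ g P m a sp h => (g P m a sp h).2

end Crest.Agent.T156.Alt.R2

end
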