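import Crest.Agent.T156.Apt_7

/-!
# Row 156: sandwich of overlap moments (helper78)

For a positive semidefinite kernel the moment `E |K - a|^(k+2)` at a split `j` is bounded by the
conditional variance at `j` and the same moments at any earlier split and any later split.
-/

set_option autoImplicit false
set_option linter.unusedSectionVars false

noncomputable section

namespace Crest.Agent.T156.Cas.Swm78

open MeasureTheory Real Set Filter Topology
open Crest.Agent.T157.E Crest.Agent.T157.Casc Crest.Agent.T157.SL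
open Crest.Agent.T157.G1 (ov fl)
open Apt7

section gen

variable {Ω : Type} [Fintype Ω] {w : Ω → ℝ} {K : Ω → Ω → ℝ}

theorem two_le (hs : ∀ x y, K x y = K y x) (hK : ∀ c, 0 ≤ qf c K) (p' p : Ω → ℝ) :
    2 * (∑ x, p' x * ∑ y, p y * K x y) - qf p K ≤ qf p' K := by
  have h3 := hK fun x => p' x - p x
  have h4 : qf (fun x => p' x - p x) K =
      qf p' K - 2 * (∑ x, p' x * ∑ y, p y * K x y) + qf p K := by
    have : ∑ x, ∑ y, p x * p' y * K x y = ∑ x, ∑ y, p' x * p y * K x y :=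
      Finset.sum_comm.trans (Finset.sum_congr rfl fun x _ => Finset.sum_congr rfl fun y _ => by
        rw [hs y x]; ring)
    simp only [qf, sub_mul, mul_sub, Finset.sum_sub_distrib, this, Finset.mul_sum, ← mul_assoc,
      two_mul, Finset.sum_add_distrib, add_mul]
    ring
  linarith

/-- the mean of a positive semidefinite kernel increases with the split -/
theorem qf_le_pi2 (hw : Wt w) (hs : ∀ x y, K x y = K y x) (hK : ∀ c, 0 ≤ qf c K)
    (N : List (Lv Ω)) (d : ℕ) (z : Ω → ℝ) : qf (P w N z) K ≤ pi2 w N d K z := by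
  have e4 : Eg fun z' => ∑ x, P w (N.drop d) z' x * ∑ y, P w N z y * K x y :=
    Eg.sum _ fun x _ => (eg_P hw _ x).mul_const _
  refine le_trans (le_of_eq ?_) (node_mono hw ((e4.const_mul 2).sub (Eg.const _))
    (eg_qf hw (N.drop d) K) (fun z' => two_le hs hK _ (P w N z)) N d z)
  rw [node_sub hw (e4.const_mul 2) (Eg.const _), node_const hw, node_const_mul]
  simp only [node_sum_P hw (fun x => ∑ y, P w N z y * K x y) N d z, ← qf_eq]
  ring

theorem pi2_split (w : Ω → ℝ) (L : List (Lv Ω)) (j d : ℕ) (f : Ω → Ω → ℝ) (h : Ω → ℝ) :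
    pi2 w L (j + d) f h = node w L j (pi2 w (L.drop j) d f) h := by
  have := node_node w (fun h' => qf (P w (L.drop (j + d)) h') f) d L j
  rw [add_comm d j] at this
  rw [pi2, ← this]
  congr 1
  funext z
  rw [pi2, List.drop_drop]

theorem tangent {c : ℝ} (hc : 0 ≤ c) (u : ℝ) (k : ℕ) :
    c ^ (k + 1) + (k + 1 : ℕ) * c ^ k * (u - c) ≤ |u| ^ (k + 1) := by
  have h := pow_add_mul_le_add_pow (a := c) (b := |u| - c) hc (by linarith [abs_nonneg u]) (k + 1)
  rw [Nat.add_sub_cancel, add_sub_cancel] at h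
  refine le_trans ?_ h
  have : (0 : ℝ) ≤ (k + 1 : ℕ) * c ^ k := by positivity
  nlinarith [le_abs_self u]

theorem up_pt (hw : Wt w) (hs : ∀ x y, K x y = K y x) (hK : ∀ c, 0 ≤ qf c K)
    (N : List (Lv Ω)) (d : ℕ) (z : Ω → ℝ) {a : ℝ} (ha : a ≤ qf (P w N z) K) (k : ℕ) :
    (qf (P w N z) K - a) ^ (k + 1) ≤ pi2 w N d (fun x y => |K x y - a| ^ (k + 1)) z := by
  have hc := sub_nonneg.2 ha
  have h1 := qf_le_pi2 hw hs hK N d z
  set c := qf (P w N z) K - a with hcd
  refine le_trans ?_ (pi2_mono hw N d (fun x y => tangent hc (K x y - a) k) z)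
  rw [pi2_add hw, pi2_const hw, pi2_const_mul, pi2_sub hw, pi2_sub hw, pi2_const hw, pi2_const hw]
  have : (0 : ℝ) ≤ (k + 1 : ℕ) * c ^ k := by positivity
  nlinarith

theorem pt (hw : Wt w) (hs : ∀ x y, K x y = K y x) (hK : ∀ c, 0 ≤ qf c K)
    (h1K : ∀ x y, |K x y| ≤ 1) {p : Ω → ℝ} (h0 : ∀ x, 0 ≤ p x) (h1 : ∑ x, p x = 1)
    (N : List (Lv Ω)) (d : ℕ) (z : Ω → ℝ) (a : ℝ) (k : ℕ) :
    qf (P w N z) (fun x y => |K x y - a| ^ (k + 2)) ≤ 6 ^ (k + 2) * cv w N K z +
      (6 ^ (k + 2) * pi2 w N d (fun x y => |K x y - a| ^ (k + 2)) z +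
      (6 ^ (k + 2) / 2 * ∑ x, P w N z x * ∑ y, p y * |K x y - a| ^ (k + 2) +
        6 ^ (k + 2) / 2 * qf p fun x y => |K x y - a| ^ (k + 2))) := by
  have h0' := P_nonneg hw N z
  have h1' := sum_P hw N z
  have j1 := jensen_two h0 h1 h0' h1' K a (k + 2)
  have j2 := jensen_two h0 h1 h0 h1 K a (k + 2)
  rw [← qf_eq, ← qf_eq] at j2
  have hc := cv_nonneg hw N K z
  have n1 := pow_nonneg (abs_nonneg (∑ x, P w N z x * ∑ y, p y * K x y - a)) (k + 2)
  have n2 := pow_nonneg (abs_nonneg (qf p K - a)) (k + 2)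
  have n3 : 0 ≤ pi2 w N d (fun x y => |K x y - a| ^ (k + 2)) z :=
    pi2_nonneg hw N d (fun _ _ => by positivity) z
  have h2 := two_le hs hK (P w N z) p
  have hu := fun ha => up_pt hw hs hK N d z (a := a) ha (k + 1)
  have hr : |qf (P w N z) K| ≤ 1 := abs_le.2
    ⟨(qf_const h1' (-1)).symm.trans_le (qf_mono h0' fun x y => (abs_le.1 (h1K x y)).1),
      (qf_mono h0' fun x y => (abs_le.1 (h1K x y)).2).trans_eq (qf_const h1' 1)⟩
  have hcv := cv_eq hw N K z
  rw [Tay38.pi2_zero38] at hcv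
  set ρ := qf (P w N z) K
  set Y := ∑ x, P w N z x * ∑ y, p y * K x y
  have e1 : qf (P w N z) (fun x y => |K x y - a| ^ (k + 2)) ≤
      2 ^ (k + 1) * 2 ^ k * cv w N K z + 2 ^ (k + 1) * |ρ - a| ^ (k + 2) := by
    rw [← hcv, ← qf_const_mul, ← qf_const h1' (2 ^ (k + 1) * |ρ - a| ^ (k + 2)), ← qf_add]
    refine qf_mono h0' fun x y => ?_
    have a1 : |K x y - a| ≤ |K x y - ρ| + |ρ - a| := abs_sub_le _ _ _
    have a2 := add_pow_le (abs_nonneg (K x y - ρ)) (abs_nonneg (ρ - a)) (k + 2)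
    have a3 : |K x y - ρ| ≤ 2 := (abs_sub _ _).trans (by linarith [h1K x y])
    have a4 : |K x y - ρ| ^ (k + 2) ≤ 2 ^ k * (K x y - ρ) ^ 2 := by
      rw [pow_add, sq_abs]
      exact mul_le_mul_of_nonneg_right (pow_le_pow_left₀ (abs_nonneg _) a3 k) (sq_nonneg _)
    refine (pow_le_pow_left₀ (abs_nonneg _) a1 _).trans (a2.trans ?_)
    rw [show k + 2 - 1 = k + 1 from rfl, mul_add, mul_assoc]
    exact add_le_add (mul_le_mul_of_nonneg_left a4 (by positivity)) le_rfl
  have c1 : (2 : ℝ) ^ (k + 1) * 2 ^ k ≤ 6 ^ (k + 2) := by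
    have : (4 : ℝ) ^ k ≤ 6 ^ k := pow_le_pow_left₀ (by norm_num) (by norm_num) k
    have e : (2 : ℝ) ^ (k + 1) * 2 ^ k = 2 * 4 ^ k := by
      rw [show (4 : ℝ) = 2 * 2 by norm_num, mul_pow]; ring
    have : (0 : ℝ) ≤ 6 ^ k := by positivity
    rw [e, pow_add]
    linarith
  have c2 : (6 : ℝ) ^ (k + 2) / 2 = 2 ^ (k + 1) * 3 ^ (k + 2) := by
    rw [show (6 : ℝ) = 2 * 3 by norm_num, mul_pow]; ring
  have c3 : (2 : ℝ) ^ (k + 1) ≤ 6 ^ (k + 2) :=
    (le_mul_of_one_le_right (by positivity) (one_le_pow₀ (by norm_num))).trans c1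
  have p2 : (0 : ℝ) ≤ 2 ^ (k + 1) := by positivity
  have p6 : (0 : ℝ) ≤ 6 ^ (k + 2) / 2 := by positivity
  refine e1.trans (add_le_add (mul_le_mul_of_nonneg_right c1 hc) ?_)
  rcases le_total a ρ with h | h
  · rw [abs_of_nonneg (sub_nonneg.2 h)]
    refine le_trans ?_ (le_add_of_nonneg_right
      (add_nonneg (mul_nonneg p6 (n1.trans j1)) (mul_nonneg p6 (n2.trans j2))))
    exact mul_le_mul c3 (hu h) (pow_nonneg (sub_nonneg.2 h) _) (by positivity)
  · refine le_trans ?_ (le_add_of_nonneg_left (mul_nonneg (by positivity) n3))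
    rw [c2, mul_assoc, mul_assoc, ← mul_add, ← mul_add]
    refine mul_le_mul_of_nonneg_left ?_ p2
    have b1 : |ρ - a| ≤ 2 * |Y - a| + |qf p K - a| := by
      rw [abs_of_nonpos (sub_nonpos.2 h)]
      linarith [neg_abs_le (Y - a), le_abs_self (qf p K - a)]
    refine le_trans ?_ (mul_le_mul_of_nonneg_left (add_le_add j1 j2) (by positivity))
    rcases le_total |Y - a| |qf p K - a| with h7 | h7
    · refine (pow_le_pow_left₀ (abs_nonneg _) (b1.trans (by linarith : _ ≤ 3 * |qf p K - a|))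
        _).trans ?_
      rw [mul_pow]
      exact mul_le_mul_of_nonneg_left (by linarith) (by positivity)
    · refine (pow_le_pow_left₀ (abs_nonneg _) (b1.trans (by linarith : _ ≤ 3 * |Y - a|))
        _).trans ?_
      rw [mul_pow]
      exact mul_le_mul_of_nonneg_left (by linarith) (by positivity)

/-- **sandwich of moments** -/
theorem swm (hw : Wt w) (hs : ∀ x y, K x y = K y x) (hK : ∀ c, 0 ≤ qf c K)
    (h1K : ∀ x y, |K x y| ≤ 1) (L : List (Lv Ω)) (h : Ω → ℝ) {i j s : ℕ} (hij : i ≤ j)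
    (hjs : j ≤ s) (a : ℝ) (k : ℕ) :
    pi2 w L j (fun x y => |K x y - a| ^ (k + 2)) h ≤ 6 ^ (k + 2) * (pv w L j K h +
      pi2 w L i (fun x y => |K x y - a| ^ (k + 2)) h +
      pi2 w L s (fun x y => |K x y - a| ^ (k + 2)) h) := by
  obtain ⟨d, rfl⟩ := Nat.exists_eq_add_of_le hjs
  obtain ⟨b, rfl⟩ := Nat.exists_eq_add_of_le hij
  set f := fun x y => |K x y - a| ^ (k + 2) with hf
  have e1 := eg_qf hw (L.drop (i + b)) f
  have e2 := eg_cv hw (L.drop (i + b)) K
  have e3 := eg_qf hw (L.drop i) f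
  have e5 := eg_pi2 hw (L.drop (i + b)) d f
  have nn : ∀ Φ, node w L (i + b) Φ = node w L i (node w (L.drop i) b Φ) := fun Φ => by
    rw [node_node, add_comm]
  have n5 := pi2_split w L (i + b) d f h
  rw [n5, pi2, pv, pi2, nn, nn, nn, ← congrFun (node_add hw (e2.node hw _ _) e3 _ _) h,
    ← congrFun (node_add hw ((e2.node hw _ _).add e3) (e5.node hw _ _) _ _) h,
    ← congrFun (node_const_mul _ _ _ _ _) h]
  refine node_mono hw (e1.node hw _ _)
    ((((e2.node hw _ _).add e3).add (e5.node hw _ _)).const_mul _) (fun z => ?_) L i h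
  have e4 : Eg fun z' => ∑ x, P w (L.drop (i + b)) z' x * ∑ y, P w (L.drop i) z y * f x y :=
    Eg.sum _ fun x _ => (eg_P hw _ x).mul_const _
  refine (node_mono hw e1 ((e2.const_mul _).add ((e5.const_mul _).add
    ((e4.const_mul _).add (Eg.const _))))
    (fun z' => pt hw hs hK h1K (P_nonneg hw (L.drop i) z) (sum_P hw _ z) _ d z' a k)
    (L.drop i) b z).trans_eq ?_
  rw [node_add hw (e2.const_mul _) ((e5.const_mul _).add ((e4.const_mul _).add (Eg.const _))),
    node_add hw (e5.const_mul _) ((e4.const_mul _).add (Eg.const _)),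
    node_add hw (e4.const_mul _) (Eg.const _), node_const hw, node_const_mul, node_const_mul,
    node_const_mul]
  have := node_sum_P hw (fun x => ∑ y, P w (L.drop i) z y * f x y) (L.drop i) b z
  rw [List.drop_drop] at this
  simp only [this, ← qf_eq]
  ring

/-- the mean of a positive semidefinite kernel increases with the split -/
theorem pi2_le_pi2 (hw : Wt w) (hs : ∀ x y, K x y = K y x) (hK : ∀ c, 0 ≤ qf c K)
    (L : List (Lv Ω)) (h : Ω → ℝ) {j s : ℕ} (hjs : j ≤ s) : pi2 w L j K h ≤ pi2 w L s K h := by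
  obtain ⟨d, rfl⟩ := Nat.exists_eq_add_of_le hjs
  rw [pi2_split, pi2]
  exact node_mono hw (eg_qf hw _ K) (eg_pi2 hw _ d K) (qf_le_pi2 hw hs hK _ d) L j h

end gen

/-- the sandwich for the overlap of the `n`-system -/
theorem swm_ov {n : ℕ} (β : ℝ) (M : List (ℝ × ℝ × ℝ)) {i j s : ℕ} (hij : i ≤ j) (hjs : j ≤ s)
    (a : ℝ) (k : ℕ) :
    Er n β M j (fun u => |u - a| ^ (k + 2)) ≤ 6 ^ (k + 2) *
      (pv (fun _ => 1) (M.map (mxL n β)) j ov 0 + Er n β M i (fun u => |u - a| ^ (k + 2)) +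
        Er n β M s fun u => |u - a| ^ (k + 2)) :=
  swm wt_one90 ov_comm qf_ov abs_ov_le _ 0 hij hjs a k

end Crest.Agent.T156.Cas.Swm78
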