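import Crest.Agent.T156.MvL_30
import Crest.Agent.T156.Swm_78

/-!
# Row 156: the legs on nodes of large tilt, the sandwich on a model (helper30)
-/

set_option autoImplicit false
set_option linter.unusedSectionVars false

noncomputable section

namespace Crest.Agent.T156.Cas.Mv30

open Real Set
open Crest.Agent.T157.E Crest.Agent.T157.Casc Crest.Agent.T157.SL
open Crest.Agent.T157.G1 (ov fl FL)
open Crest.Agent.T156.Cas.Q33 Crest.Agent.T156.Cas.Sy41 Crest.Agent.T156.Alt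
open Crest.Agent.T156.Alt.Md67 Crest.Agent.T156.Alt.Cost41 Apt7

variable {M : Md} {m : ℕ} {a : ℝ}

/-- **legs**: tilt `≥ x` from `j0` on, field steps in `[σ, 1 / m]` -/
theorem legsX (G : Lg M m a) {j0 K : ℕ} {σ cm x : ℝ} {c : ℕ → ℝ} (σ0 : 0 < σ) (x0 : 0 < x)
    (h : j0 < M.N) (hx : x ≤ M.z j0) (lo : ∀ i, j0 ≤ i → i < M.N → σ ≤ M.H (i + 1) - M.H i)
    (hi : ∀ i, j0 ≤ i → i < M.N → (M.H (i + 1) - M.H i) * m ≤ 1)
    (hK : M.H M.N - M.H j0 ≤ 2 ^ K * (x * σ)) (cm0 : 0 ≤ cm)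
    (hc : ∀ k ∈ Finset.Ioo j0 M.N, 0 ≤ c k ∧ c k ≤ cm) :
    ∑ k ∈ Finset.Ioo j0 M.N, c k * pM M m a k ≤ 4 * (K + 2) ^ 2 * (cm / (σ * m) / x ^ 2) := by
  have m0 : (0 : ℝ) < m := Nat.cast_pos.2 G.m0
  have z1 : ∀ i, j0 ≤ i → x ≤ M.z i := fun i hi => hx.trans (G.zm hi)
  have x1 : x ≤ 1 := hx.trans (G.z1 _)
  have eov : (sl m).cov = ov := funext fun x => funext (sl_cov G.m0 x)
  have sm : σ * m ≤ 1 := (mul_le_mul_of_nonneg_right (lo j0 le_rfl h) m0.le).trans (hi j0 le_rfl h)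
  set κ := cm / (σ * m) with hκ
  have κ0 : 0 ≤ κ := by positivity
  have eκ : cm = κ * (σ * m) := by rw [hκ]; field_simp
  have cκ : cm ≤ κ / x := (eκ.trans_le (mul_le_of_le_one_right κ0 sm)).trans
    (le_div_self κ0 x0 x1)
  have st : ∀ i, j0 ≤ i → i < M.N → x * σ ≤ M.z i * (M.H (i + 1) - M.H i) := fun i a b =>
    mul_le_mul (z1 i a) (lo i a b) σ0.le (x0.le.trans (z1 i a))
  have P : Phi M M.N - Phi M j0 ≤ M.H M.N - M.H j0 := by
    rw [Phi_sub M h.le, ← Finset.sum_Ico_sub M.H h.le]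
    exact Finset.sum_le_sum fun j _ =>
      mul_le_of_le_one_left (sub_nonneg.2 (G.Hm (Nat.le_succ j))) (G.z1 j)
  have h1 := G.dt.tc_win 0 (lo := j0 + 2) (hi := M.N + 1) (by omega) len_L.ge
    (c := fun j => c (j - 1)) (κ := κ) (t := 1) (x := x) κ0 (fun j hj => ?_) (fun j hj => ?_)
    x0 fun j hj => ?_
  rotate_left
  · obtain ⟨k, rfl⟩ : ∃ k, j = k + 1 := ⟨j - 1, by have := Finset.mem_Ico.1 hj; omega⟩
    have := Finset.mem_Ico.1 hj
    rw [dh_succ (by omega), Nat.add_sub_cancel]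
    refine ((hc k (Finset.mem_Ioo.2 ⟨by omega, by omega⟩)).2.trans_eq eκ).trans ?_
    exact mul_le_mul_of_nonneg_left (mul_le_mul_of_nonneg_right (lo k (by omega) (by omega)) m0.le) κ0
  · obtain ⟨k, rfl⟩ : ∃ k, j = k + 1 := ⟨j - 1, by have := Finset.mem_Ico.1 hj; omega⟩
    have := Finset.mem_Ico.1 hj
    rw [dh_succ (by omega), mul_one]
    exact hi k (by omega) (by omega)
  · obtain ⟨k, rfl⟩ : ∃ k, j = k + 1 := ⟨j - 1, by have := Finset.mem_Ico.1 hj; omega⟩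
    have := Finset.mem_Ico.1 hj
    rw [ex_succ G.toLeg]
    exact z1 k (by omega)
  have r1 : rho (fun _ => 1) (M.L m a) (sl m) 0 (M.N + 1) ≤ 1 := by
    rw [← rb_eq (sl_cov G.m0)]; exact rb_le_one G.m0 _
  have r0 := rho_nonneg (w := fun _ => 1) (sl m) 0 (M.L m a) (j0 + 2)
  have e1 : ∑ j ∈ Finset.Ico (j0 + 2) (M.N + 1), c (j - 1) * tc (fun _ => 1) (M.L m a) (sl m) 0 j =
      ∑ k ∈ Finset.Ioo j0 M.N, c k * tc (fun _ => 1) (M.L m a) (sl m) 0 (k + 1) := by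
    rw [← Finset.sum_Ico_add' _ (j0 + 1) M.N 1]; rfl
  have h2 := cost G (c := fun k => if k < M.N then c k else 0) (W := fun _ => κ / x * m) (cm := cm)
    (K := K) (mul_pos x0 σ0) h.le le_rfl st (P.trans hK) (fun k a _ => by
      split_ifs with e; exacts [(hc k (Finset.mem_Ioo.2 ⟨a, e⟩)).1, le_rfl]) cm0 (fun k a _ => by
      split_ifs with e; exacts [(hc k (Finset.mem_Ioo.2 ⟨a, e⟩)).2, cm0]) (fun _ _ _ => by positivity)
    fun j k a b d => by
      rw [Phi_sub M b.le, Finset.mul_sum,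
        ← Finset.Ico_add_one_add_one_eq_Ioc, ← Finset.sum_Ico_add' _ j k 1]
      refine Finset.sum_le_sum fun i hi => ?_
      have := Finset.mem_Ico.1 hi
      have h3 := mul_le_mul_of_nonneg_left (st i (by omega) (by omega))
        (show 0 ≤ κ / x * m by positivity)
      refine le_trans ?_ h3
      rw [show κ / x * m * (x * σ) = cm by rw [eκ]; field_simp]
      split_ifs with e; exacts [(hc _ (Finset.mem_Ioo.2 ⟨by omega, e⟩)).2, cm0]
  have h3 := RW_const (ρ := M.rb m a) (W := fun _ => κ / x * m) (j0 := j0) (N := M.N)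
    (B := κ / x * m) (rb_mono G.m0) (rb_nonneg G.m0 _) h.le (rb_le_one G.m0 _) (by positivity)
    fun _ _ _ => le_rfl
  have h4 : x * ∑ k ∈ Finset.Ioo j0 M.N, c k * vv (fun _ => 1) (M.L m a) (sl m) 0 (k + 1) ≤
      ∑ k ∈ Finset.Ioc j0 M.N, (if k < M.N then c k else 0) * aM M m a k := by
    rw [← Finset.Ioo_insert_right h, Finset.sum_insert (by simp), if_neg (lt_irrefl _), zero_mul,
      zero_add, Finset.mul_sum]
    refine Finset.sum_le_sum fun k hk => ?_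
    have := Finset.mem_Ioo.1 hk
    rw [if_pos this.2, mul_left_comm]
    exact mul_le_mul_of_nonneg_left (vv_le Link33.wt1 G.monoL (sl m) 0 (x := x) (j := k + 1) (by
      rw [ex_succ G.toLeg]; exact z1 k this.1.le)) (hc k hk).1
  have h5 : 2 / (m : ℝ) * ((1 + K) * RW (M.rb m a) (fun _ => κ / x * m) j0 M.N) ≤
      2 * (1 + K) * (κ / x) :=
    (mul_le_mul_of_nonneg_left (mul_le_mul_of_nonneg_left h3 (by positivity))
      (by positivity)).trans_eq (by field_simp)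
  have h6 := (h4.trans h2).trans
    (mul_le_mul_of_nonneg_left (add_le_add h5 cκ) (show (0 : ℝ) ≤ K + 2 by positivity))
  rw [← le_div_iff₀' x0, show ((K : ℝ) + 2) * (2 * (1 + K) * (κ / x) + κ / x) / x =
    (K + 2) * (2 * K + 3) * (κ / x ^ 2) by field_simp; ring] at h6
  have h7 := h1.trans (div_le_div_of_nonneg_right (mul_le_of_le_one_right (by positivity)
    (show _ ≤ (1 : ℝ) by linarith)) (sq_nonneg x))
  simp only [pM, ← eov, pv_eq Link33.wt1, mul_add, Finset.sum_add_distrib, mul_left_comm _ (2 : ℝ),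
    ← Finset.mul_sum]
  rw [e1, mul_div_right_comm] at h7
  have k0 : (0 : ℝ) ≤ K := Nat.cast_nonneg K
  nlinarith [mul_nonneg (show 0 ≤ κ / x ^ 2 by positivity) k0]

/-- `E (R - c)²` at the profile node `k` -/
abbrev uM2 (M : Md) (m : ℕ) (a c : ℝ) (k : ℕ) : ℝ := M.E2 m a (fun R => |R - c| ^ 2) k

theorem uM2_shift {c c' d : ℝ} (h : |c' - c| ≤ d) (k : ℕ) :
    uM2 M m a c k ≤ 2 * uM2 M m a c' k + 2 * d ^ 2 := by
  have := E2_mono (M := M) (m := m) (a := a) (f := fun R => |R - c| ^ 2)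
    (g := fun R => 2 * |R - c'| ^ 2 + 2 * d ^ 2) (fun r _ => by
      have := sq_le_sq' (abs_le.1 h).1 (abs_le.1 h).2
      rw [sq_abs, sq_abs]
      linarith [sq_nonneg (r - c' - (c' - c))]) k
  rwa [E2_add, E2_mul, E2_const] at this

/-- **the sandwich** -/
theorem sand {i k s : ℕ} (h1 : i ≤ k) (h2 : k ≤ s) {c ci cs d : ℝ} (hi : |ci - c| ≤ d)
    (hs : |cs - c| ≤ d) : uM2 M m a c k ≤
      36 * pM M m a k + 72 * (uM2 M m a ci i + uM2 M m a cs s) + 144 * d ^ 2 := by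
  have h : uM2 M m a c k ≤ 6 ^ (0 + 2) * (pM M m a k + uM2 M m a c i + uM2 M m a c s) :=
    Swm78.swm_ov (n := m) 1 (M.Mx a) (Nat.succ_le_succ h1) (Nat.succ_le_succ h2) c 0
  rw [show (6 : ℝ) ^ (0 + 2) = 36 by norm_num] at h
  linarith [uM2_shift (M := M) (m := m) (a := a) hi i, uM2_shift (M := M) (m := m) (a := a) hs s]

end Crest.Agent.T156.Cas.Mv30

end
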