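import Crest.Agent.T156.MvT_30
import Crest.Agent.T156.R2B_85

/-!
# Row 156: MVtop on the class `Alt.Cl` (helper30)
-/

set_option autoImplicit false
set_option linter.unusedSectionVars false

noncomputable section

namespace Crest.Agent.T156.Cas.C40.Mv30

open MeasureTheory Real Set Filter Topology
open Crest.Agent.T157.E Crest.Agent.T157.Casc Crest.Agent.T157.SL
open Apt7 Cas.Mv30 Ex23 Alt Alt.Md67 Alt.CIn12

variable {S : Sc} {M : Md} {m J K : ℕ} {a θ d : ℝ} {E : Ev}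

theorem d_top (h : Cl S M) {k : ℕ} (h1 : S.Jp ≤ k) (h2 : k ≤ M.N) : M.d k = M.b :=
  le_antisymm (d_le_b h.leg h2) (h.wmk.1 ▸ h.leg.dm (by have := h.i2; have := h.i3; omega))

theorem ms_pos (h : Cl S M) (hn : 0 < S.n) {t : ℝ} (ht : 0 ≤ t) : 0 < S.ms t :=
  (rpow_pos_of_pos (Nat.cast_pos.2 hn) _).trans_le (h.ms0.trans (h.msm ht))

/-- field steps on the reveal levels -/
theorem dH_top (h : Cl S M) {k : ℕ} (h1 : S.Jp ≤ k) (h2 : k < M.N) :
    M.H (k + 1) - M.H k = M.s (k + 1) - M.s k - M.b * (M.q (k + 1) - M.q k) ∧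
      S.ms (M.s S.Jp) / S.C * (M.s (k + 1) - M.s k) ≤ M.H (k + 1) - M.H k := by
  have a1 := h.Grv k h1 h2.le
  have a2 := h.Grv (k + 1) (by omega) h2
  rw [← a1, Md.G, Md.G, d_top h h1 h2.le, d_top h (k := k + 1) (by omega) h2] at a2
  have s0 := s_nonneg h S.Jp
  have m1 := s_mem h h2.le
  have m2 := s_mem h (k := k + 1) h2
  have sl := h.sm (Nat.le_succ k)
  have i := intervalIntegral.integral_mono_on sl
    (Pp.Ode3.ii_of_cont (Pp.Ode3.Gp_cont (lr_ap h)) m1 m2)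
    (intervalIntegrable_const (c := Pr.GG M.lr (M.s S.Jp))) fun r hr =>
      (Pr.platS _ h.ok _ r s0 ((h.sm h1).trans hr.1) (hr.2.trans m2.2) h.lv1).1.trans
        (mul_le_of_le_one_left (Pp.Ode3.Gp_nonneg _ _)
          (exp_le_one_iff.2 (by linarith [h.sm h1, hr.1])))
  rw [intervalIntegral.integral_const, smul_eq_mul] at i
  have e : M.q (k + 1) - M.q k ≤ _ := (Pp.Ode3.Gam_int (lr_ap h) m1.1 sl m2.2).trans_le i
  have c := mul_le_mul_of_nonneg_right (h.crit _ ⟨s0, le_rfl⟩).1 (sub_nonneg.2 sl)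
  have := mul_le_mul_of_nonneg_left e (d_nonneg h.leg M.N)
  rw [Md.e] at c
  rw [show M.d M.N = M.b from rfl] at this
  constructor <;> linarith

theorem dH_le (h : Cl S M) {k : ℕ} (h1 : S.Jp ≤ k) (h2 : k < M.N) :
    M.H (k + 1) - M.H k ≤ S.C * S.v := by
  have : 0 ≤ M.b * (M.q (k + 1) - M.q k) :=
    mul_nonneg (d_nonneg h.leg M.N) (sub_nonneg.2 (q_mono h (Nat.le_succ k) h2))
  linarith [(dH_top h h1 h2).1, (h.sr k h1 h2).2]

theorem v_pos (h : Cl S M) (hn : 0 < S.n) : 0 < S.v := by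
  have := (one_div_pos.2 (show 0 < S.C by linarith [h.C1])).trans_le h.v1
  exact (pos_iff_pos_of_mul_pos this).2 (by positivity)

/-- the reveal grid -/
theorem lw_cl (h : Cl S M) (hn : 0 < S.n)
    (hv : ∀ k, S.Jp ≤ k → k < M.N → S.v / S.C ≤ M.s (k + 1) - M.s k) (hm : S.C * S.v * m ≤ 1)
    (hK : S.C * S.A * log S.n ≤ 2 ^ K * (S.ms (M.s S.Jp) * S.v / S.C ^ 2)) :
    Lw M m S.Jp K (S.ms (M.s S.Jp) * S.v / S.C ^ 2) := by
  have C0 : 0 < S.C := by linarith [h.C1]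
  have m0 := ms_pos h hn (s_nonneg h S.Jp)
  have v0 := v_pos h hn
  refine ⟨by positivity, fun i h1 h2 => le_trans (le_trans (le_of_eq (by field_simp))
    (mul_le_mul_of_nonneg_left (hv i h1 h2) (by positivity))) (dH_top h h1 h2).2,
    fun i h1 h2 => (mul_le_mul_of_nonneg_right (dH_le h h1 h2) m.cast_nonneg).trans hm, ?_⟩
  linarith [h.HN, H_nonneg h.leg S.Jp]

/-- the top part -/
theorem topD_cl (h : Cl S M) (ha : 0 < a) (hJ : J ≤ S.J) (θ0 : 0 < θ)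
    (hθ : θ ≤ 1 - tp M m S.Jp * Hess65.Gn (cd M m a M.q J none E).S (S.Jp + 1))
    (hX : E.X ^ 3 ≤ d) (hd : M.s S.Jp - M.s S.J ≤ d) :
    TopD (cd M m a M.q J none E) (S.Jp + 1) θ (1 / S.C) d := by
  have i3 := h.i3
  have i4 := h.i4
  have i2 := h.i2
  have eq : ∀ k, J ≤ k → k < M.N → (cd M m a M.q J none E).q (k + 1) = M.q k := fun k h1 h2 =>
    (qx_succ h2).trans (cq_ge h1)
  refine ⟨rfl, ha, Nat.lt_succ_of_le (hJ.trans i3), by rw [cd_K]; omega,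
    (ex_succ h.leg _).trans (h.top _ le_rfl), ?_, θ0, ?_, hX, one_div_pos.2 (by linarith [h.C1]),
    Finset.Ioc S.J (S.Jp + 1), fun j hj => ?_, ?_⟩
  · refine (oTau_tp i4.le).trans (Eq.trans ?_ oTau_top.symm)
    rw [tp, tp, d_top h le_rfl i4.le]; rfl
  · exact hθ.trans_eq (by rw [← oTau_tp (a := a) i4.le]; rfl)
  · rw [Finset.mem_Ioc] at hj
    obtain ⟨k, rfl⟩ : ∃ k, j = k + 1 := ⟨j - 1, by omega⟩
    rw [eq _ (by omega) i4, eq k (by omega) (by omega)]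
    have := q_lip h (show k ≤ S.Jp by omega) i4.le
    exact ⟨hj.2, by linarith [h.sm (show S.J ≤ k by omega)]⟩
  · rw [← Finset.Ico_add_one_add_one_eq_Ioc, ← Finset.sum_Ico_add' _ S.J (S.Jp + 1) 1]
    simp only [cd_dx]
    have := sum_dz (m := m) (a := a) h.leg (show S.J - 1 ≤ S.Jp by omega)
    rw [← Finset.Ico_add_one_add_one_eq_Ioc, Nat.sub_add_cancel (by omega), h.top _ le_rfl] at this
    linarith [h.atom.2]

theorem ds_le (h : Cl S M) (G : Lg M m a) (hJ : J ≤ S.J) {k : ℕ} (h1 : S.Jp ≤ k) (h2 : k < M.N) :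
    R85.ds (cd M m a M.q J none E) (k + 1) ≤
      S.C * S.v + if k + 1 < M.N then 0 else S.C * (1 - M.q k) := by
  have i3 := h.i3
  have t1 : ∀ i, S.Jp ≤ i → i ≤ M.N → tp M m i = tp M m M.N := fun i a b => by
    rw [tp, tp, d_top h a b]; rfl
  have t2 : tp M m M.N ≤ M.b := (tp_mem h.leg _).2.1
  rw [R85.ds, cd_sig m _ _ E G.toLeg (k := k) (by omega) h2, t1 k h1 h2.le]
  split_ifs with c
  · rw [cd_sig m _ _ E G.toLeg (by omega) c, t1 _ (by omega) h2]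
    have := mul_le_mul_of_nonneg_right t2 (sub_nonneg.2 (q_mono h (show k ≤ k + 1 by omega) h2))
    linarith [(dH_top h h1 h2).1, (h.sr k h1 h2).2]
  · have e : k + 1 = M.N := by omega
    rw [CD.sig, cd_tau m a _ _ E h2, show (cd M m a M.q J none E).q (k + 1 + 1) = 1 from
      qx_top e.ge, show fAcc (cd M m a M.q J none E).M (k + 1 + 1) = M.H (k + 1) from
      fAcc_Mx G.toLeg h2, t1 _ (by omega) h2]
    have := mul_le_mul_of_nonneg_right (t2.trans h.b1) (sub_nonneg.2 (q_le_one (M := M) k))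
    linarith [dH_le h h1 h2]

/-- **MVtop on the class** -/
theorem mv_cl (τ0 : ℝ) : ∃ C, 1 ≤ C ∧ ∀ (S : Sc) (M : Md) (m : ℕ) (a : ℝ) (J : ℕ) (E : Ev) (K : ℕ)
    (θ : ℝ), Cl S M → 0 < S.n → S.In m a → (cd M m a M.q J none E).Ok τ0 → J ≤ S.J →
    (∀ k, S.Jp ≤ k → k < M.N → S.v / S.C ≤ M.s (k + 1) - M.s k) → S.C * S.v * m ≤ 1 →
    S.C * S.A * log S.n ≤ 2 ^ K * (S.ms (M.s S.Jp) * S.v / S.C ^ 2) → 0 < θ →
    θ ≤ 1 - tp M m S.Jp * Hess65.Gn (cd M m a M.q J none E).S (S.Jp + 1) →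
    E.X ^ 3 ≤ θ ^ 2 / C → M.s S.Jp - M.s S.J ≤ θ ^ 2 / C →
    MVt C (cd M m a M.q J none E) M m a M.q S.Jp K (S.ms (M.s S.Jp) * S.v / S.C ^ 2) θ (1 / S.C) ∧
    R85.Rv (cd M m a M.q J none E) (S.Jp + 1) ((cd M m a M.q J none E).u 2) ≤
      8 * S.C * (S.v + (1 - M.q (M.N - 1))) +
        C * ((S.C + S.C * S.A * log S.n) * mvA (cd M m a M.q J none E) θ (1 / S.C) +
          4 * (K + 2) ^ 2 * S.C ^ 4 / (S.ms (M.s S.Jp) * m * θ ^ 11)) := by
  obtain ⟨C, C1, H⟩ := mvTop τ0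
  refine ⟨C, C1, fun S M m a J E K θ h hn hi ok hJ hv hm hK θ0 hθ hX hd => ?_⟩
  have G := lg_cl h hn hi
  have a0 : 0 < a := lt_of_lt_of_le (by positivity) hi.a1
  have R := topD_cl h a0 hJ θ0 hθ hX hd
  have V := H M m a M.q J E _ K _ θ _ G ok R (lw_cl h hn hv hm hK)
  refine ⟨V, ?_⟩
  have i4 := h.i4
  have C0 : 0 < S.C := by linarith [h.C1]
  have m0 := ms_pos h hn (s_nonneg h S.Jp)
  have v0 := v_pos h hn
  have n0 : (0 : ℝ) < m := Nat.cast_pos.2 G.m0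
  have eK := cd_K M m a M.q J none E
  have d1 := fun k => ds_le (E := E) (k := k) h G hJ
  have tot : (cd M m a M.q J none E).sig (M.N + 1) ≤ S.C + S.C * S.A * log S.n := by
    rw [CD.sig, cd_tau m a _ _ E le_rfl, show (cd M m a M.q J none E).q (M.N + 1) = 1 from
      qx_top le_rfl, show fAcc (cd M m a M.q J none E).M (M.N + 1) = M.H M.N from
      fAcc_Mx G.toLeg le_rfl]
    linarith [(tp_mem (m := m) h.leg M.N).2.1, h.b1, h.HN, show M.d M.N = M.b from rfl]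
  generalize cd M m a M.q J none E = D at *
  have q1 := mul_nonneg C0.le (sub_nonneg.2 (q_le_one (M := M) (M.N - 1)))
  have d2 : ∀ k, S.Jp ≤ k → k < M.N → R85.ds D (k + 1) ≤ S.C * S.v + S.C * (1 - M.q (M.N - 1)) :=
    fun k a b => (d1 k a b).trans (add_le_add le_rfl (by
      split_ifs with c
      exacts [q1, by rw [show k = M.N - 1 by omega]]))
  have s := V.sum' (R85.ds D) (S.C * S.v) (by positivity)
    (fun t ht => sub_nonneg.2 (ok.sig_le (Nat.le_succ t) (Finset.mem_Ico.1 ht).2)) fun t a b => by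
      obtain ⟨k, rfl⟩ : ∃ k, t = k + 1 := ⟨t - 1, by omega⟩
      have := d1 k (by omega) (by omega)
      rwa [if_pos (by omega), add_zero] at this
  have e1 : ∑ t ∈ Finset.Ico (S.Jp + 1) D.K, R85.ds D t ≤ S.C + S.C * S.A * log S.n := by
    rw [Finset.sum_Ico_sub D.sig R.PK.le, eK]
    linarith [ok.sig0 R.PK.le]
  have A0 : 0 ≤ mvA D θ (1 / S.C) := by
    have := IU_nonneg ok
    have := R0_nonneg ok
    rw [mvA]; positivity
  have e2 := mul_le_mul_of_nonneg_left (mul_le_mul_of_nonneg_right e1 A0) (zero_le_one.trans C1)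
  have e3 : 4 * ((K : ℝ) + 2) ^ 2 * (S.C * S.v / (S.ms (M.s S.Jp) * S.v / S.C ^ 2 * m)) /
      (1 / S.C * θ ^ 11) = 4 * (K + 2) ^ 2 * S.C ^ 4 / (S.ms (M.s S.Jp) * m * θ ^ 11) := by
    field_simp
  have e4 := d2 (M.N - 1) (by omega) (by omega)
  rw [show M.N - 1 + 1 = D.K - 1 by omega] at e4
  rw [e3] at s
  rw [R85.Rv]
  linarith [d2 S.Jp le_rfl i4]

end Crest.Agent.T156.Cas.C40.Mv30

end
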