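import Crest.Agent.T156.R2M_81
import Crest.Agent.T156.R2B_85
import Crest.Agent.T156.MvC_30

/-!
# Row 156, R2 (helper85): the inputs `Pz` of the price from the reference list
-/

set_option autoImplicit false
set_option linter.unusedSectionVars false

noncomputable section

namespace Crest.Agent.T156.Cas.C40.R85

open MeasureTheory Real Set Filter Topology
open Crest.Agent.T157.E Crest.Agent.T157.Casc Crest.Agent.T157.SL
open Crest.Agent.R339.B Crest.Agent.R339.Var Crest.Agent.T157.Pf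
open Crest.Agent.T156.Pp R81 Alt Alt.Md67 Alt.CIn12
open E42 (mv Ck)

/-- the facts on the reference list -/
structure Pr0 (D : CD) (l : List (ℝ × ℝ)) (t m : ℕ → ℝ) (P Q : ℕ) (τ0 L θ ρ B Lg : ℝ) : Prop where
  JP : D.J < P
  PQ : P ≤ Q
  L2 : 2 ≤ L
  θ0 : 0 < θ
  ρX : ρ ≤ D.X
  t1 : t (D.J + 1) ≤ 1
  e0 : ∀ j ∈ D.up, 0 < D.e j
  eB : ∀ j ∈ D.up, D.e j ≤ B
  lg : Ck D (fun j => 1 / D.e j) ≤ Lg
  ck : ∀ j ∈ D.up, j < P → t (j + 1) - t j ≤ L * D.dx j
  mm : ∀ j ∈ D.up, j ≤ Q → τ0 * ρ ≤ m j ∧ θ * D.e j ^ 2 ≤ m j ∧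
    2 * m j ≤ 1 - E42.τ D * Pr.GG l (t j)
  gp : ∀ j ∈ D.up, j < P → ∀ u, t j ≤ u → u < t (j + 1) →
    ex D.B j * |Pr.NN l u - 2 * ex D.B j * Pr.AA l u| ≤ L * m j
  m0 : |1 - E42.τ D * Pr.GG l 0| ≤ L * D.X

theorem Gam_lipV {V : List (ℝ × ℝ)} (a : Adm 1 V) {s t : ℝ} (hs : s ∈ Icc 0 (R339.Var.TT V))
    (ht : t ∈ Icc 0 (R339.Var.TT V)) : |Pr.Gam V t - Pr.Gam V s| ≤ |t - s| := by
  obtain ⟨w, ow, tw, sw, -⟩ := Pr.Ref81.okV a
  rw [sw.gam s hs, sw.gam t ht]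
  exact Ode3.Gam_lip (Ode3.AP.of_ok ow) (tw.symm ▸ hs) (tw.symm ▸ ht)

/-- **the inputs of the price**, and the floor of `μ` -/
theorem pz_of (T : ℝ) : ∃ C : ℝ, 1 ≤ C ∧ ∀ (D : CD) (τ0 d ρ L L' θ B Lg : ℝ) (P Q : ℕ)
    (l : List (ℝ × ℝ)) (t m : ℕ → ℝ), D.Ok τ0 → St D (E42.τ D) T Q → LkD D l t Q d →
    C * (D.X * D.sig (D.J + 1) ^ 2 + d) ≤ ρ → Pr0 D l t m P Q τ0 L θ ρ B Lg →
    L ^ 2 + C * τ0 ≤ L' →
    Pz D P L' θ (3 * ρ) (ds D (D.K - 1) + (1 - D.q (D.K - 1))) B Lg ∧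
      ∀ j ∈ D.up, j ≤ Q → m j ≤ mu D (E42.τ D) j := by
  obtain ⟨C, C1, H⟩ := link T
  refine ⟨2 * (C + 2), by linarith, fun D τ0 d ρ L L' θ B Lg P Q l t m ok s k hρ r hL => ?_⟩
  have X0 := ok.X0
  have c0 : 0 ≤ D.X * D.sig (D.J + 1) ^ 2 + d := add_nonneg (by positivity) k.d0
  have h1 : C * (D.X * D.sig (D.J + 1) ^ 2 + d) ≤ ρ :=
    (mul_le_mul_of_nonneg_right (by linarith) c0).trans hρ
  have ρ0 : 0 ≤ ρ := (mul_nonneg (by linarith) c0).trans h1
  obtain ⟨-, a1, -, a2, a3⟩ := H D _ τ0 d ρ Q l t ok s k h1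
  obtain ⟨u, u1⟩ := up_ex ok s
  have ad := s.adm ok
  have L2 := r.L2
  have t0 := ok.tau0
  have tm : 0 ≤ E42.τ D ∧ E42.τ D ≤ τ0 := ok.tau_mem D.K
  have LL : L ^ 2 ≤ L' := by nlinarith
  have L4 : 4 ≤ L' := by nlinarith
  have L3 : L ≤ L' := by nlinarith
  have x0 : 0 < ex D.B D.J := (k.lk ok s).1.x0
  have xm : ∀ j ∈ D.up, 0 < ex D.B j ∧ ex D.B j ≤ 1 := fun j hj =>
    ⟨x0.trans_le (u.le (CD.mem_up.1 hj).1.le (CD.mem_up.1 hj).2.le),
      (u.le (CD.mem_up.1 hj).2.le le_rfl).trans_eq u1⟩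
  have xa : ∀ j ∈ D.up, ∀ y, |ex D.B j * y| ≤ |y| := fun j hj y => by
    rw [abs_mul, abs_of_pos (xm j hj).1]; exact mul_le_of_le_one_left (abs_nonneg _) (xm j hj).2
  have sm : ∀ j ≤ D.K, D.sig j ∈ Icc 0 (R339.Var.TT (V D)) := fun j hj =>
    ⟨sig_nonneg ok hj, (TT_V ok).symm ▸ sig_mono ok hj le_rfl⟩
  have PK : P < D.K := r.PQ.trans_lt k.PK
  have mm : ∀ j ∈ D.up, j ≤ Q → m j ≤ mu D (E42.τ D) j := fun j hj jQ => by
    obtain ⟨b1, -, b3⟩ := r.mm j hj jQ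
    have b5 := mul_le_mul_of_nonneg_left ((le_abs_self _).trans (a2 j hj).2) tm.1
    have b6 := mul_le_mul_of_nonneg_right tm.2 ρ0
    unfold mu
    linarith
  have ck : ∀ j ∈ D.up, j < P → ds D j ≤ L * D.dx j := fun j hj jP =>
    (a3 j hj (by omega)).2.1.trans (r.ck j hj jP)
  refine ⟨⟨r.JP, PK.le, by linarith, r.θ0, by linarith, ?_, r.e0, r.eB, r.lg,
    fun j hj jP => (ck j hj jP).trans (mul_le_mul_of_nonneg_right L3 (ok.dx0 j)), fun j hj => ?_,
    fun j hj jP => ?_, fun j hj _ => ?_, fun j hj => ?_, ?_⟩, mm⟩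
  · exact add_nonneg (ds0 ok (by omega)) (sub_nonneg.2 (ok.ook.mem (Nat.sub_le _ _)).2)
  · rcases le_or_gt j Q with h | h
    · exact (mul_left_comm _ _ _).trans_le (mul_le_mul_of_nonneg_left
        ((r.mm j hj h).2.1.trans (mm j hj h)) (ok.dx0 j))
    · obtain ⟨i, rfl⟩ : ∃ i, j = i + 1 := ⟨j - 1, by omega⟩
      have := (CD.mem_up.1 hj).2
      simp [s.dx_top ok (show Q ≤ i by omega) (show i < D.K by omega)]
  · have x := xm j hj
    have jQ : j ≤ Q := jP.le.trans r.PQ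
    have b1 := (a3 j hj (by omega)).2.2.2 (L * m j / ex D.B j) fun v v1 v2 => by
      rw [le_div_iff₀' x.1]; exact r.gp j hj jP v v1 v2
    have d0 := ds0 ok (CD.mem_up.1 hj).2
    have m0 : 0 ≤ m j := (mul_nonneg t0 ρ0).trans (r.mm j hj jQ).1
    have b2 := mul_le_mul_of_nonneg_left b1 x.1.le
    have b3 : ex D.B j * ((L * m j / ex D.B j + 3 * ρ) * ds D j) =
        L * m j * ds D j + ex D.B j * (3 * ρ * ds D j) := by
      have := x.1.ne'
      field_simp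
    have b4 := mul_le_of_le_one_left (show 0 ≤ 3 * ρ * ds D j by positivity) x.2
    have b5 := mul_le_mul_of_nonneg_left (ck j hj jP) (show 0 ≤ L * m j by positivity)
    have b6 : L ^ 2 * (D.dx j * m j) ≤ L' * (D.dx j * mu D (E42.τ D) j) :=
      mul_le_mul LL (mul_le_mul_of_nonneg_left (mm j hj jQ) (ok.dx0 j))
        (mul_nonneg (ok.dx0 j) m0) (by linarith)
    rw [mv, abs_mul, abs_of_pos x.1]
    unfold E42.G
    linarith
  · have jK := (CD.mem_up.1 hj).2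
    refine (xa j hj _).trans ?_
    unfold E42.G
    rw [Gn_V ok jK.le, Gn_V ok jK]
    refine (Hess65.Gp_lipA ad (sm j jK.le) (sm _ jK)).trans ?_
    rw [abs_of_nonneg (ds0 ok jK)]
    exact mul_le_mul_of_nonneg_right L4 (ds0 ok jK)
  · have jK := (CD.mem_up.1 hj).2
    have p := mul_nonneg ρ0 (mul_nonneg (ok.e0 j) (ds0 ok jK))
    split_ifs with c
    · have e : D.K - 1 = j := by omega
      have b1 := Gam_lipV ad (sm j jK.le) (sm _ jK)
      rw [← Gam_V ok jK.le, ← Gam_V ok jK, abs_of_nonneg (ds0 ok jK), abs_le] at b1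
      have b2 := ok.ook.mono j jK
      have b3 := (ok.ook.mem (j := j + 1) jK).2
      refine (xa j hj _).trans ?_
      rw [e, abs_le]
      constructor <;> linarith [b1.1, b1.2]
    · have := (a3 j hj (by omega)).1
      unfold E42.mv
      linarith
  · have ap := Ode3.AP.of_ok k.ok
    have JK : D.J + 1 < D.K := lt_of_le_of_lt s.JP k.PK
    have tt := (sig_nonneg ok JK.le).trans (k.mem ok (Nat.lt_succ_self _) JK).2.1
    have b1 := Pr.Ref81.cx_lip (x := ex D.B D.J) (E := D.X) k.ok le_rfl tt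
      (k.tT _ (Nat.lt_succ_self _) JK) fun v _ v1 => by
        have := k.le _ le_rfl s.JP v v1
        rw [abs_le]
        constructor <;> linarith [Ode3.lvr_pos k.ok.1 v, ok.x1]
    have b2 : Pr.Exp50.cx l (ex D.B D.J) 0 = Ode3.chi l := by
      change Ode3.X2 l 0 + _ * Ode3.Gam l 0 = _
      rw [Ode3.X2_zero ap, Ode3.Gam_zero ap, mul_zero, add_zero]
    have b3 : Pr.GG l 0 = Ode3.chi l ^ 2 := Ode3.Gp_zero ap
    have b4 : 0 < D.lam ∧ D.lam ≤ 1 := by
      rw [lam_eq ok]; exact ⟨Ode3.D1_pos ad _ _, Ode3.D1_le ad _ _⟩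
    have b5 : |D.lam - Ode3.chi l| ≤ (C + 2) * D.X := by
      have x3 : D.X ^ 3 ≤ D.X := pow_le_of_le_one X0 ok.X1 (by norm_num)
      have := mul_le_mul_of_nonneg_left x3 (show 0 ≤ C by linarith)
      have := mul_le_mul_of_nonneg_left r.t1 X0
      rw [b2] at b1
      linarith [abs_sub_le D.lam (Pr.Exp50.cx l (ex D.B D.J) (t (D.J + 1))) (Ode3.chi l), r.ρX]
    have b6 : |E42.τ D * (Ode3.chi l ^ 2 - D.lam ^ 2)| ≤ τ0 * (2 * ((C + 2) * D.X)) := by
      rw [abs_mul, abs_of_nonneg tm.1, sq_sub_sq, abs_mul, abs_sub_comm]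
      refine mul_le_mul tm.2 (mul_le_mul ?_ b5 (abs_nonneg _) zero_le_two) (by positivity) t0
      rw [abs_le]
      constructor <;> linarith [Ode3.chi_pos ap, Ode3.chi_le ap, b4.1, b4.2]
    have b7 := abs_le.1 (b3 ▸ r.m0)
    have b8 := abs_le.1 b6
    have b9 := mul_le_mul_of_nonneg_right (show L + 2 * (C + 2) * τ0 ≤ L' by nlinarith) X0
    rw [abs_le]
    constructor <;> linarith [b7.1, b7.2, b8.1, b8.2]

/-- **the logarithm** `Ck (1 / e)` -/
theorem lg_le {D : CD} {τ0 τ T L c : ℝ} {P Q : ℕ} (ok : D.Ok τ0) (s : St D τ T Q)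
    (x0 : 0 < ex D.B D.J) (L0 : 0 ≤ L) (c0 : 0 < c)
    (ck : ∀ j ∈ D.up, j < P → ds D j ≤ L * D.dx j) (hc : ∀ j ∈ D.up, P ≤ j → 1 / c ≤ ex D.B j) :
    (∀ j ∈ D.up, 0 < D.e j) ∧
      Ck D (fun j => 1 / D.e j) ≤ (1 + L) * -log (ex D.B D.J) + c * D.sig D.K := by
  obtain ⟨u, u1⟩ := up_ex ok s
  have xp : ∀ j, D.J ≤ j → j ≤ D.K → 0 < ex D.B j := fun j a b => x0.trans_le (u.le a b)
  have x1 : ∀ j, j ≤ D.K → ex D.B j ≤ 1 := fun j b => (u.le b le_rfl).trans_eq u1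
  have xe : ∀ j ∈ D.up, ex D.B j ≤ D.e j := fun j hj =>
    (le_min (x1 j (CD.mem_up.1 hj).2.le) (by
      linarith [sig_nonneg ok (CD.mem_up.1 hj).2.le])).trans (ok.esc j hj)
  refine ⟨fun j hj => (xp j (CD.mem_up.1 hj).1.le (CD.mem_up.1 hj).2.le).trans_le (xe j hj), ?_⟩
  have a : Ck D (fun j => 1 / D.e j) ≤ ∑ j ∈ D.up,
      ((1 + L) * (log (ex D.B j) - log (ex D.B (j - 1))) + c * ds D j) := by
    refine Finset.sum_le_sum fun j hj => ?_
    obtain ⟨j1, j2⟩ := CD.mem_up.1 hj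
    have p := xp j j1.le j2.le
    have d0 := ds0 ok j2
    have b1 : E42.ck D j * (1 / D.e j) ≤ E42.ck D j * (1 / ex D.B j) :=
      mul_le_mul_of_nonneg_left (one_div_le_one_div_of_le p (xe j hj)) (ck0 ok hj)
    have b2 : D.dx j * (1 / ex D.B j) ≤ log (ex D.B j) - log (ex D.B (j - 1)) := by
      obtain ⟨i, rfl⟩ : ∃ i, j = i + 1 := ⟨j - 1, by omega⟩
      have p' := xp i (by omega) (by omega)
      have := log_le_sub_one_of_pos (div_pos p' p)
      rw [log_div p'.ne' p.ne'] at this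
      have e : D.dx (i + 1) * (1 / ex D.B (i + 1)) = 1 - ex D.B i / ex D.B (i + 1) := by
        change (ex D.B (i + 1) - ex D.B i) * _ = _
        field_simp
      rw [e, Nat.add_sub_cancel]
      linarith
    have b3 := mul_le_mul_of_nonneg_left b2 L0
    have b4 := mul_nonneg L0 (mul_nonneg (ok.dx0 j) (one_div_pos.2 p).le)
    have b5 := mul_nonneg c0.le d0
    unfold E42.ck at b1 ⊢
    rcases lt_or_ge j P with h | h
    · have := mul_le_mul_of_nonneg_right (ck j hj h) (one_div_pos.2 p).le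
      linarith
    · have := mul_le_mul_of_nonneg_left ((one_div_le c0 p).1 (hc j hj h)) d0
      linarith
  have e : ∀ f : ℕ → ℝ, ∑ j ∈ D.up, (f (j + 1) - f j) = f D.K - f (D.J + 1) := fun f => by
    rw [CD.up, ← Finset.Ico_add_one_left_eq_Ioo, Finset.sum_Ico_sub f (show D.J + 1 ≤ D.K from ok.cut)]
  rw [Finset.sum_add_distrib, ← Finset.mul_sum, ← Finset.mul_sum, e D.sig] at a
  have e2 := e fun j => log (ex D.B (j - 1))
  simp only [Nat.add_sub_cancel] at e2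
  rw [e2] at a
  have l1 := log_nonpos (xp (D.K - 1) (by have := ok.cut; omega) (Nat.sub_le _ _)).le
    (x1 _ (Nat.sub_le _ _))
  have l2 := mul_nonneg c0.le (sig_nonneg ok ok.cut)
  have l3 := mul_nonneg (show 0 ≤ 1 + L by linarith) (neg_nonneg.2 l1)
  linarith

/-- the logarithm on the class -/
def LgC (S : Sc) : ℝ := (1 + 2 * S.C ^ 2) * (1 + log S.n) + S.C * (S.C + S.C * S.A * log S.n)

/-- **the inputs of the price on the class**, `P = S.J + 1` -/
theorem pz_cl (T : ℝ) : ∃ C : ℝ, 1 ≤ C ∧ ∀ (S : Sc) (M : Md) (m : ℕ) (a : ℝ) (J : ℕ) (E : Ev)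
    (τ0 ρ θ B L : ℝ), Cl S M → 0 < S.n → S.In m a → (cd M m a M.q J none E).Ok τ0 →
    St (cd M m a M.q J none E) (tp M m M.N) T (S.Jp + 1) →
    LkD (cd M m a M.q J none E) M.lr (CIn12.sh M.s) (S.Jp + 1) (M.b / (m + 1)) →
    S.j0 < J → J ≤ S.J → S.C * S.v ≤ M.s J → M.s J ≤ 1 →
    C * (E.X * M.s J ^ 2 + M.b / (m + 1)) ≤ ρ → ρ ≤ E.X → S.ms 0 ≤ E.X →
    2 * S.C * (τ0 * ρ) ≤ S.ms (M.s J) → 0 < θ →
    (∀ k, J ≤ k → k < M.N → E.e k ≤ B) →
    (∀ k, J ≤ k → k ≤ S.Jp → 2 * S.C * (θ * E.e k ^ 2) ≤ S.ms (M.s k)) →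
    576 * S.C ^ 6 + C * τ0 ≤ L →
    Pz (cd M m a M.q J none E) (S.J + 1) L θ (3 * ρ)
      (S.C * S.v + (S.C + 1) * (1 - M.q (M.N - 1))) B (LgC S) ∧
    ∀ k, J ≤ k → k ≤ S.Jp →
      S.ms (M.s k) / (2 * S.C) ≤ mu (cd M m a M.q J none E) (tp M m M.N) (k + 1) := by
  obtain ⟨C, C1, H⟩ := pz_of T
  refine ⟨C, C1, fun S M m a J E τ0 ρ θ B L h hn hi ok s k j0 jJ hv s1 hρ ρX m0 hτ θ0 hB hθ hL => ?_⟩
  have G := lg_cl h hn hi
  have hl := G.toLeg
  have a0 : 0 < a := lt_of_lt_of_le (by positivity) hi.a1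
  have i0 := h.i0
  have i2 := h.i2
  have i3 := h.i3
  have i4 := h.i4
  have c1 := h.C1
  have c0 : 0 < S.C := by linarith
  have v0 := Mv30.v_pos h hn
  have eτ : E42.τ (cd M m a M.q J none E) = tp M m M.N := oTau_top
  have tm := tp_mem (m := m) hl M.N
  have JK : J + 1 < (cd M m a M.q J none E).K := by rw [cd_K]; omega
  have sJ := (k.mem ok (Nat.lt_succ_self J) JK).2.1
  have sJ0 := sig_nonneg ok JK.le
  have X0 : 0 ≤ E.X := ok.X0
  have hρ' : C * (E.X * (cd M m a M.q J none E).sig (J + 1) ^ 2 + M.b / (m + 1)) ≤ ρ :=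
    (mul_le_mul_of_nonneg_left (add_le_add (mul_le_mul_of_nonneg_left
      (pow_le_pow_left₀ sJ0 sJ 2) X0) le_rfl) (by linarith)).trans hρ
  have dρ : M.b / (m + 1) ≤ ρ := by
    have := k.d0
    have : 0 ≤ E.X * M.s J ^ 2 := by positivity
    nlinarith
  have xJ : ex (cd M m a M.q J none E).B J = M.z (J - 1) := by
    obtain ⟨i, rfl⟩ : ∃ i, J = i + 1 := ⟨J - 1, by omega⟩
    exact ex_succ hl i
  have xa : a ≤ M.z (J - 1) := hl.z0.trans (hl.zm (Nat.zero_le _))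
  have ck : ∀ i, J ≤ i → i < S.J → M.s (i + 1) - M.s i ≤ S.C ^ 2 * M.dz m a i := fun i b1 b2 => by
    have b3 := (h.zs (i - 1) (by omega) (by omega)).1
    rw [Nat.sub_add_cancel (by omega), ← dz_up (m := m) (a := a) hl (by omega), div_le_iff₀ c0] at b3
    have := mul_le_mul_of_nonneg_left b3 c0.le
    linarith [(h.ss i b2).2]
  have p2 : S.C ^ 2 ≤ 24 * S.C ^ 3 := by nlinarith [pow_pos c0 2]
  obtain ⟨e0, lg⟩ := lg_le (P := S.J + 1) (L := 2 * S.C ^ 2) ok s (xJ ▸ a0.trans_le xa)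
    (by positivity) c0 (fun j hj jP => by
      obtain ⟨i, rfl, b1, b2⟩ := mem_up hj
      have b3 := ck i b1 (by omega)
      have b4 := k.clk _ (Nat.lt_succ_of_le b1) (CD.mem_up.1 hj).2
      have iK : i + 1 + 1 < (cd M m a M.q J none E).K := by rw [cd_K]; omega
      have b5 := k.clk _ (show J < i + 1 + 1 by omega) iK
      have b6 := mul_le_mul_of_nonneg_left (ok.ook.mono (i + 1) (CD.mem_up.1 hj).2) k.d0
      have b7 := mul_nonneg (sq_nonneg S.C) (G.dz_nonneg i)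
      rw [sh_succ] at b4 b5
      rw [cd_dx, ds]
      linarith) fun j hj jP => by
      obtain ⟨i, rfl, b1, b2⟩ := mem_up hj
      exact h.atom.1.trans ((hl.zm (by omega)).trans_eq (ex_succ hl i).symm)
  have lg' : Ck (cd M m a M.q J none E) (fun j => 1 / (cd M m a M.q J none E).e j) ≤ LgC S := by
    refine lg.trans (add_le_add (mul_le_mul_of_nonneg_left ?_ (by positivity))
      (mul_le_mul_of_nonneg_left ?_ c0.le))
    · have n1 : (1 : ℝ) ≤ S.n := by exact_mod_cast hn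
      have := log_le_log (by positivity) (hi.a1.trans xa)
      rw [log_div (by positivity) two_ne_zero, log_rpow (by linarith)] at this
      rw [cd_J, xJ]
      linarith [log_nonneg n1, log_two_lt_d9]
    · rw [CD.sig, ok.ook.top, mul_one, cd_K, cd_tau m a _ _ E le_rfl,
        show fAcc (cd M m a M.q J none E).M (M.N + 1) = M.H M.N from fAcc_Mx hl le_rfl]
      exact add_le_add (tm.2.1.trans h.b1) h.HN
  obtain ⟨z, hm⟩ := H _ τ0 _ ρ (24 * S.C ^ 3) L θ B (LgC S) (S.J + 1) (S.Jp + 1) M.lr (CIn12.sh M.s)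
    (CIn12.sh fun i => S.ms (M.s i) / (2 * S.C)) ok (eτ ▸ s) k hρ'
    ⟨Nat.lt_succ_of_le jJ, by omega, by nlinarith [one_le_pow₀ (n := 3) c1], θ0, ρX, s1, e0,
      fun j hj => by obtain ⟨i, rfl, b1, b2⟩ := mem_up hj; exact hB i b1 b2, lg',
      fun j hj jP => by
        obtain ⟨i, rfl, b1, b2⟩ := mem_up hj
        exact (ck i b1 (by omega)).trans (mul_le_mul_of_nonneg_right p2 (G.dz_nonneg i)),
      fun j hj jQ => by
        obtain ⟨i, rfl, b1, b2⟩ := mem_up hj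
        have b3 := (h.crit _ ⟨s_nonneg h i, h.sm (show i ≤ S.Jp by omega)⟩).1
        have b4 := mul_le_mul_of_nonneg_right tm.2.1 (Ode3.Gp_nonneg M.lr (M.s i))
        rw [sh_succ, sh_succ, le_div_iff₀' (by positivity), le_div_iff₀' (by positivity), eτ,
          show 2 * (S.ms (M.s i) / (2 * S.C)) = S.ms (M.s i) / S.C by field_simp]
        exact ⟨hτ.trans (h.msm (h.sm b1)), hθ i b1 (by omega), b3.trans (sub_le_sub_left b4 1)⟩,
      fun j hj jP u u1 u2 => by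
        obtain ⟨i, rfl, b1, b2⟩ := mem_up hj
        rw [sh_succ] at u1 u2
        have u0 := (s_nonneg h i).trans u1
        have uJ := u2.trans_le (h.sm (show i + 1 ≤ S.J by omega))
        have b3 := h.lv i (by omega) u u1 u2
        have b4 := h.gpp u u0 uJ
        have b5 := (h.lip 0 u le_rfl u0 uJ).2
        have b6 := hv.trans ((h.sm b1).trans u1)
        have up : 0 < u := (mul_pos c0 v0).trans_le b6
        have b7 : M.z i ≤ 3 * S.C * max u (M.s S.j0) := by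
          have := mul_le_mul_of_nonneg_left (le_max_left u (M.s S.j0)) c0.le
          have := mul_le_mul_of_nonneg_right c1 u0
          linarith [h.lv0]
        have b8 : S.ms u ≤ 4 * S.ms (M.s i) := (h.msm (by
          linarith [(h.ss i (by omega)).2, hv.trans (h.sm b1)])).trans (h.ms2 _ (s_nonneg h i))
        have mp : 0 < max u (M.s S.j0) := up.trans_le (le_max_left _ _)
        rw [b3] at b4
        rw [show ex (cd M m a M.q J none E).B (i + 1) = M.z i from ex_succ hl i, sh_succ]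
        refine (mul_le_mul b7 b4 (abs_nonneg _) (by positivity)).trans ?_
        rw [show 3 * S.C * max u (M.s S.j0) * (S.C * (S.ms u / max u (M.s S.j0))) =
          3 * S.C ^ 2 * S.ms u by field_simp, show 24 * S.C ^ 3 * (S.ms (M.s i) / (2 * S.C)) =
          3 * S.C ^ 2 * (4 * S.ms (M.s i)) by field_simp; ring]
        exact mul_le_mul_of_nonneg_left b8 (by positivity),
      by
        obtain ⟨b1, b2⟩ := h.crit 0 ⟨le_rfl, s_nonneg h _⟩
        have b3 := div_pos (Mv30.ms_pos h hn le_rfl) c0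
        have b4 := mul_le_mul_of_nonneg_right tm.2.1 (Ode3.Gp_nonneg M.lr 0)
        have b5 := mul_le_of_le_one_right k.d0 (Ode3.Gp_le_one h.ok.1 0)
        have b6 := mul_le_mul_of_nonneg_left m0 c0.le
        have b7 := mul_le_mul_of_nonneg_right (show S.C + 1 ≤ 24 * S.C ^ 3 by nlinarith) X0
        have b8 : M.b / (m + 1) = M.d M.N - tp M m M.N := tm.2.2.symm
        rw [Md.e, Md.b] at b1 b2
        rw [b8] at b5 dρ
        change _ ≤ 1 - _ * Ode3.Gp M.lr 0 at b1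
        change 1 - _ * Ode3.Gp M.lr 0 ≤ _ at b2
        rw [eτ, cd_X, abs_le]
        change _ ≤ 1 - _ * Ode3.Gp M.lr 0 ∧ 1 - _ * Ode3.Gp M.lr 0 ≤ _
        constructor <;> nlinarith⟩ (by rw [mul_pow, ← pow_mul]; norm_num; exact hL)
  refine ⟨{ z with ε0 := ?_, ts := fun j hj => (z.ts j hj).trans (add_le_add le_rfl ?_) },
    fun i b1 b2 => eτ ▸ hm (i + 1) (CD.mem_up.2 ⟨Nat.lt_succ_of_le b1, by rw [cd_K]; omega⟩)
      (by omega)⟩
  · have := sub_nonneg.2 (q_le_one (M := M) (M.N - 1))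
    positivity
  · split_ifs
    · have b1 := Mv30.ds_le (E := E) h G jJ (k := M.N - 1) (by omega) (by omega)
      rw [if_neg (by omega), show M.N - 1 + 1 = M.N by omega] at b1
      have b2 := cd_q (M := M) m a M.q none E (J := J) (k := M.N - 1) (by omega)
        (by omega)
      rw [show M.N - 1 + 1 = M.N by omega] at b2
      rw [cd_K, Nat.add_sub_cancel, b2]
      linarith
    · exact le_rfl

end Crest.Agent.T156.Cas.C40.R85

end
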