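import Crest.Agent.T156.R2K_30
import Crest.Agent.T156.R2P_85

/-!
# Row 156, R2 (helper68): the leaf `PzS` of `R2Def_30`
-/

set_option autoImplicit false
set_option linter.unusedSectionVars false

noncomputable section

namespace Crest.Agent.T156.Alt.R2

open Real Finset Filter
open Crest.Agent.T156.Cas Crest.Agent.T156.Cas.C40 Md67 CIn12

namespace Z68

theorem pz_mono {D : CD} {P : ℕ} {L θ ρ ε ε' B Lg Lg' : ℝ} (H : R85.Pz D P L θ ρ ε B Lg)
    (h : ε ≤ ε') (h' : Lg ≤ Lg') : R85.Pz D P L θ ρ ε' B Lg' :=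
  { H with
    ε0 := H.ε0.trans h
    lg := H.lg.trans h'
    ts := fun t ht => (H.ts t ht).trans (add_le_add le_rfl (by split_ifs; exacts [h, le_rfl])) }

variable {β c0 C0 c η K C : ℝ} {A : ℕ} {p : Pm} {P : Pl} {m : ℕ} {a : ℝ} {E : CIn12.Ev}
variable (H : Reg β c0 C0 A c η K p)
include H

theorem lgΛ : logb p.n ((p.n : ℝ) ^ η) = η := H.lg_rp η

theorem Λ_kk (k : ℕ) (hk : k ≤ 20) : ((p.n : ℝ) ^ η) ^ k ≤ kk p := by
  refine H.le_of_lg (pow_pos H.Λ0 k) (kk0 H) ?_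
  have : (k : ℝ) ≤ 20 := by exact_mod_cast hk
  rw [logb_pow, lgΛ H, lg_kk H]
  nlinarith [H.η_le, H.η_pos]

theorem t1_ye : 3 * t1 p ≤ p.ye := by
  have := t10 H
  refine H.le_of_lg (by positivity) H.ye0 ?_
  lg_norm
  linarith [lg_t1 H, H.lg_ye, (H.lg_num (x := 3) (by norm_num) (by norm_num)).2, H.c_le,
    H.η_le, H.lg_s.2]

theorem ye_c0 (hj : η ≤ c) : p.ye ≤ c0 := by
  have b := H.lg_le (by have := H.c00; positivity) H.c0_le
  rw [one_div, logb_inv] at b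
  exact H.le_of_lg H.ye0 H.c00 (by linarith [H.lg_ye, H.c_pos])

theorem ms_ge {t : ℝ} (t0 : 0 ≤ t) (h : t ≤ p.ye) : p.κ * t ^ 2 ≤ p.ms 1 p.ye t := by
  rw [Pm.ms, one_mul, min_eq_left h]
  exact mul_le_mul_of_nonneg_left (pow_le_pow_left₀ t0 (le_max_right _ _) 2) H.κ0.le

theorem ms_hi {t : ℝ} (h : p.ye ≤ t) : p.ms 1 p.ye t = p.κ ^ 7 := by
  rw [H.ms_top H.mem_end h, Pm.μ, Pm.ye]; ring

theorem nums (hA : 8 ≤ A) (hc : c ≤ 1 / 400) {X : ℝ} (hX : X = t1 p / p.κ) :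
    (p.n : ℝ) ^ η * p.v ≤ t1 p ∧ (p.n : ℝ) ^ η / p.n ≤ X ^ 3 ∧ kk p * X ^ 3 ≤ X ∧
    ((p.n : ℝ) ^ η) ^ 3 * (kk p * X ^ 3) ≤ p.κ * t1 p ^ 2 ∧ 1 / p.κ ≤ kk p ∧
    (p.n : ℝ) ^ η * ((kk p)⁻¹ * (1 / p.κ) ^ 2) ≤ p.κ ^ 7 ∧
    (p.n : ℝ) ^ η * ((kk p)⁻¹ * (1 / p.κ) ^ 2) ≤ p.κ ∧ (p.n : ℝ) ^ η * p.v ≤ 1 / p.n ∧
    (p.n : ℝ) ^ η * (1 / (p.n : ℝ) ^ 2) ≤ 1 / p.n ∧ (kk p)⁻¹ ≤ p.κ ^ 7 / (p.n : ℝ) ^ η := by
  have a8 : (8 : ℝ) ≤ A := by exact_mod_cast hA
  have lΛ := lgΛ H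
  have L0 := H.Λ0
  have t0 := t10 H
  have κ0 := H.κ0
  have N0 := H.N0
  have v0 := H.v0
  have kk0 := kk0 H
  have lt := lg_t1 H
  have ls := H.lg_s.1
  have ls' := H.lg_s.2
  have lκ := H.lg_κ
  have lk := lg_kk H
  have lv := H.lg_v_le
  have ln := H.lg_n
  have ηc := H.η_le
  have η0 := H.η_pos
  have X0 : 0 < X := hX ▸ div_pos t0 κ0
  have lX : logb p.n X = logb p.n p.s + 8 / 7 * c - 3 / 20 := by
    rw [hX, logb_div t0.ne' κ0.ne', lt, lκ]; ring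
  generalize (p.n : ℝ) ^ η = Λ at *
  refine ⟨?_, ?_, ?_, ?_, ?_, ?_, ?_, ?_, ?_, ?_⟩ <;>
    refine H.le_of_lg (by positivity) (by positivity) ?_ <;> lg_norm <;> linarith

variable (e : En C p P)
include e

theorem s_jc : t1 p / 2 ≤ (Me p P).s (jc p) ∧ (Me p P).s (jc p) ≤ 3 * t1 p := by
  have a := e.s_lo H (k := jc p) (by have := jc_lt H; omega)
  have b := jc_bds H
  constructor <;> linarith [a.1, a.2, b.1, b.2, H.v_le_r, r_le_t1 H]

theorem ye_sJ {k : ℕ} (hk : p.J ≤ k) : p.ye ≤ (Me p P).s k :=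
  ((ye_c0 H H.η_le).trans (H.ok.base.lo.trans e.sJ.ge)).trans (e.cl.sm hk)

/-- the labels on the slope -/
theorem z_le {k : ℕ} (h1 : p.jf ≤ k) (h2 : k < p.J) :
    (Me p P).z k ≤ C * (Me p P).s k + 2 * (C * p.v) := by
  have a := Mp9.s_lt e.cl (k := k) h2
  have b := (e.cl.lip 0 _ le_rfl (s_nonneg e.cl k) (a.trans_le (e.cl.sm h2))).2
  have d : _ ≤ C * p.v := e.cl.lv0
  rw [e.cl.lv k h1 _ le_rfl a, sub_zero] at b
  have b' : _ ≤ C * (_ + p.v) := b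
  linarith

theorem lkD (hC : C ≤ (p.n : ℝ) ^ η) (sp : p.SpOk (7 / 20) P) (h : In p m a) :
    R81.LkD (D p P m a E) (Me p P).lr (sh (Me p P).s) (p.Jp P + 1) ((Me p P).b / (m + 1)) := by
  have j1 := jf_lt H
  have j2 := jc_lt H
  have i3 : p.J ≤ p.Jp P := e.cl.i3
  have m1 : (p.n : ℝ) ≤ m := by exact_mod_cast h.m1
  have a1 : 2 * (p.n : ℝ) ^ η ≤ p.n := by
    have := H.Λ0
    refine H.le_of_lg (by positivity) H.N0 ?_
    rw [logb_mul two_ne_zero this.ne', lgΛ H, H.lg_n]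
    linarith [(H.lg_num (x := 2) (by norm_num) (by norm_num)).2, H.η_le, H.c_le]
  have a2 : (2 : ℝ) ≤ A := by exact_mod_cast H.A2
  obtain ⟨i, hi⟩ : ∃ i, jc p = i + 1 := ⟨jc p - 1, by omega⟩
  rw [D, hi]
  refine R81.lkD_cl e.cl (e.lg H h).toLeg (show p.jf ≤ i by omega) (show _ ≤ p.Jp P by omega)
    (Mp9.s_lt e.cl (show i < p.J by omega)) (fun k hk _ => G_zero sp (by omega))
    (fun k _ _ => d_eq k) ?_ ?_
  · rw [div_le_iff₀ (by linarith [H.N0])]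
    linarith [e.bβ]
  · rw [e.sN]
    exact add_le_add le_rfl (by nlinarith [H.Nr_bds.1, H.log1])

end Z68

open Z68 in
/-- **`PzS`** -/
theorem pzS {β : ℝ} (hβ : 1 < β) : PzS β := by
  unfold PzS EvA
  refine Sml.glueC hβ (enS hβ) Sml.triv fun C hC c0 C0 _ _ => ⟨8, fun A hA => ⟨1 / 400, by norm_num,
    fun c hc _ => ⟨1, one_pos, fun η _ _ => ?_⟩⟩⟩
  obtain ⟨C', C1, G⟩ := R85.pz_cl (C + 1)
  refine ⟨576 * C ^ 6 + C' * β ^ 2 + 30 * C' + (1 + 2 * C ^ 2) + 18 * C ^ 3 + 2 * (C + 1),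
    fun p H en _ P m a E h => ?_⟩
  have e := en H.r_le_ye P h.sp
  have hK := H.K_le
  have b2 : 0 < β ^ 2 := by have := H.β1; positivity
  have k1 : 576 * C ^ 6 + C' * β ^ 2 ≤ (p.n : ℝ) ^ η := le_trans (by
    have : 0 ≤ 30 * C' + (1 + 2 * C ^ 2) + 18 * C ^ 3 + 2 * (C + 1) := by positivity
    linarith) hK
  have p1 : 0 ≤ 576 * C ^ 6 + C' * β ^ 2 := by positivity
  have p2 : 0 ≤ C ^ 2 := by positivity
  have p3 : 0 ≤ C ^ 3 := by positivity
  have k2 : 30 * C' ≤ (p.n : ℝ) ^ η := by linarith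
  have k3 : 1 + 2 * C ^ 2 ≤ (p.n : ℝ) ^ η := by linarith
  have k4 : 18 * C ^ 3 ≤ (p.n : ℝ) ^ η := by linarith
  have k5 : 2 * (C + 1) ≤ (p.n : ℝ) ^ η := by linarith
  have l1 := Λ_kk H 1 (by norm_num)
  have l4 := Λ_kk H 4 (by norm_num)
  have L0 := H.Λ0
  have L3 := H.num_le
  have lA := H.A_le
  have ll := H.log_le
  have lβ := H.β_le
  have l0 := H.log1
  rw [pow_one] at l1
  have t0 := t10 H
  have κ0 := H.κ0
  have κ1 := H.κ1
  have N0 := H.N0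
  have v0 := H.v0
  have kk0 := kk0 H
  have j1 := jf_lt H
  have j2 := jc_lt H
  have sj := s_jc H e
  have q := e.q_top H hA
  have lk' := lkD (E := E) H e (by linarith) h.sp h.inn
  have st := e.st (E := E) H h.sp h.inn
  have ty := t1_ye H
  have mh := fun t => ms_hi H (t := t)
  have mg := fun t => ms_ge H (t := t)
  have ys := fun k => ye_sJ H e (k := k)
  have zl := fun k => z_le H e (k := k)
  have tX : t1 p ≤ E.X := by rw [h.env.X, le_div_iff₀ κ0]; exact mul_le_of_le_one_right t0.le κ1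
  have X0 := t0.trans_le tX
  obtain ⟨n1, n2, n3, n4, n5, n6, n7, n8, n9, n10⟩ := nums H hA hc h.env.X
  have m1 : (p.n : ℝ) ≤ m := by exact_mod_cast h.inn.m1
  generalize (p.n : ℝ) ^ η = Λ at *
  have cv : 2 * (C * p.v) ≤ Λ * p.v := by
    linarith only [mul_le_mul_of_nonneg_right k5 v0.le, v0]
  have ez : ∀ k, max (t1 p) ((Me p P).z k) ≤ 1 := fun k =>
    max_le (by linarith [H.ye1]) (e.cl.leg.z1 k)
  have e0 : ∀ k, 0 ≤ max (t1 p) ((Me p P).z k) := fun k => t0.le.trans (le_max_left _ _)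
  obtain ⟨g1, g2⟩ := G (Se p C P) (Me p P) m a (jc p) E (p.β ^ 2) (kk p * E.X ^ 3 / 3) (kk p)⁻¹
    (kk p) (kk p) e.cl H.n0 h.inn.sc h.ok (by rw [tp_eq]; exact st) lk'
    (show p.jf < _ by omega) (show _ ≤ p.J by omega) (show C * p.v ≤ _ by linarith [sj.1])
    (by linarith [sj.2, H.ye1]) (by
      have a1 : (Me p P).s (jc p) ^ 2 ≤ (3 * E.X) ^ 2 :=
        pow_le_pow_left₀ (by linarith [sj.1]) (by linarith [sj.2]) 2
      have a2 : (Me p P).b / (m + 1) ≤ Λ / p.n :=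
        div_le_div₀ L0.le (by linarith [e.bβ]) N0 (by linarith)
      have a3 := mul_le_mul_of_nonneg_left a1 X0.le
      have a4 : 0 < E.X ^ 3 := by positivity
      have a5 : E.X * (Me p P).s (jc p) ^ 2 + (Me p P).b / (m + 1) ≤ 10 * E.X ^ 3 := by
        linarith only [a3, a2, n2]
      linarith only [mul_le_mul_of_nonneg_left a5 (zero_le_one.trans C1),
        mul_le_mul_of_nonneg_right (k2.trans l1) a4.le])
    (by linarith only [n3, X0]) (by
      show p.ms 1 p.ye 0 ≤ _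
      rw [Pm.ms, min_eq_left H.ye0.le, max_eq_left H.r0.le, one_mul]
      have := H.r0
      have a1 : p.κ * p.r ≤ 1 := mul_le_one₀ κ1 this.le (H.r_le_ye.trans H.ye1)
      linarith only [r_le_t1 H, tX, mul_le_mul_of_nonneg_right a1 this.le])
    (by
      refine le_trans ?_ ((mg (t1 p / 2) (by positivity) (by linarith)).trans
        (e.cl.msm (show t1 p / 2 ≤ _ from sj.1)))
      have a0 : 0 < kk p * E.X ^ 3 := by positivity
      have a1 : 2 * C * p.β ^ 2 ≤ Λ * Λ := by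
        rw [H.hβ]; exact mul_le_mul (by linarith) lβ b2.le L0.le
      have a2 : 4 * (Λ * Λ) ≤ Λ ^ 3 := by
        linarith only [mul_le_mul_of_nonneg_left L3 (mul_pos L0 L0).le, mul_pos L0 L0]
      show 2 * C * _ ≤ _
      linarith only [mul_le_mul_of_nonneg_right a1 a0.le, mul_le_mul_of_nonneg_right a2 a0.le,
        mul_pos (mul_pos L0 L0) a0, n4])
    (inv_pos.2 kk0) (fun k _ _ => by
      rw [h.env.e]; exact (div_le_div_of_nonneg_right (ez k) κ0.le).trans n5)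
    (fun k h1 _ => by
      have w0 : 0 < (kk p)⁻¹ * (1 / p.κ) ^ 2 := by positivity
      have r : (kk p)⁻¹ * E.e k ^ 2 = (kk p)⁻¹ * (1 / p.κ) ^ 2 * max (t1 p) ((Me p P).z k) ^ 2 := by
        rw [h.env.e]; ring
      show 2 * C * _ ≤ p.ms 1 p.ye _
      rw [r]
      generalize (kk p)⁻¹ * (1 / p.κ) ^ 2 = w at *
      rcases le_or_gt p.ye ((Me p P).s k) with y | y
      · have a1 := mul_le_of_le_one_right w0.le (pow_le_one₀ (e0 k) (ez k) (n := 2))
        rw [mh _ y]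
        linarith only [mul_le_mul_of_nonneg_left a1 (show 0 ≤ 2 * C by positivity), n6, w0,
          mul_le_mul_of_nonneg_right k5 w0.le]
      · have s1 : t1 p / 2 ≤ (Me p P).s k := sj.1.trans (e.cl.sm h1)
        have s0 : 0 < (Me p P).s k := by linarith
        have a1 : max (t1 p) ((Me p P).z k) ≤ 3 * C * (Me p P).s k := by
          have z1 := zl k (by omega) (not_le.1 fun b => (ys k b).not_gt y)
          have := mul_le_mul_of_nonneg_right hC s0.le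
          refine max_le ?_ ?_ <;> linarith only [z1, this, s0, s1, cv, n1]
        have a2 := pow_le_pow_left₀ (e0 k) a1 2
        refine le_trans ?_ (mg _ s0.le y.le)
        have a3 := mul_le_mul_of_nonneg_left a2 (show 0 ≤ 2 * C * w by positivity)
        have a4 := mul_le_mul_of_nonneg_right ((mul_le_mul_of_nonneg_right k4 w0.le).trans n7)
          (sq_nonneg ((Me p P).s k))
        linarith only [a3, a4])
    (by rw [H.hβ]; exact k1.trans l1)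
  rw [mul_div_cancel₀ _ three_ne_zero] at g1
  refine ⟨pz_mono g1 ?_ ?_, ?_⟩
  · show C * p.v + (C + 1) * _ ≤ _
    linarith only [mul_le_mul_of_nonneg_left q (show 0 ≤ C + 1 by positivity), cv, n8, n9,
      mul_le_mul_of_nonneg_right k5 (show 0 ≤ 1 / (p.n : ℝ) ^ 2 by positivity)]
  · show (1 + 2 * C ^ 2) * (1 + log p.n) + C * (C + C * p.A * log p.n) ≤ _
    have a1 : (1 + 2 * C ^ 2) * (1 + log p.n) ≤ Λ * (2 * Λ) :=
      mul_le_mul k3 (by linarith) (by linarith) L0.le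
    have a2 : C ^ 2 * (A * log p.n) ≤ Λ * (Λ * Λ) :=
      mul_le_mul (by linarith) (mul_le_mul lA ll (by linarith) L0.le) (by positivity) L0.le
    have a3 := mul_pos L0 L0
    rw [H.hA]
    linarith only [mul_pos a3 L0, mul_le_mul_of_nonneg_left L3 (mul_pos a3 L0).le, a1, a2, l4,
      mul_le_mul_of_nonneg_left L3 a3.le, mul_le_mul_of_nonneg_left L3 L0.le, k3, p2, L0, a3]
  · have := g2 (p.Jp P) (show _ ≤ p.Jp P by unfold Pm.Jp; omega) le_rfl
    rw [tp_eq] at this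
    refine n10.trans (le_trans ?_ this)
    show _ ≤ p.ms 1 p.ye _ / (2 * C)
    rw [mh _ (ys (p.Jp P) (Nat.le_add_right _ _))]
    exact div_le_div_of_nonneg_left (by positivity) (by positivity) (by linarith)

end Crest.Agent.T156.Alt.R2

end
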