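import Crest.Agent.T156.R2Mv_55
import Crest.Agent.T156.MvX_30
import Crest.Agent.T156.R2Pz_68

/-!
# Row 156, R2 (helper55): (MV) on the plateau of the END model by the sandwich
-/

set_option autoImplicit false
set_option linter.all false

noncomputable section

namespace Crest.Agent.T156.Alt.R2.Mv55

open Real Finset Filter
open Crest.Agent.T157.E Crest.Agent.T157.Casc Crest.Agent.T157.SL
open Crest.Agent.T156.Cas Crest.Agent.T156.Cas.C40 Md67 CIn12
open Crest.Agent.T156.Cas.Mv30 (pM uM2 legsX sand)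

theorem ex_min {u c : ℕ → ℝ} {a U : ℕ} (hU : 0 < U) {w B : ℝ} (w0 : 0 ≤ w) (u0 : ∀ k, 0 ≤ u k)
    (hc : ∀ k ∈ Ico a (a + U), w ≤ c k) (hB : ∑ k ∈ Ico a (a + U), c k * u k ≤ B) :
    ∃ i ∈ Ico a (a + U), U * w * u i ≤ B := by
  obtain ⟨i, hi, h⟩ := exists_min_image (Ico a (a + U)) u ⟨a, mem_Ico.2 ⟨le_rfl, by omega⟩⟩
  refine ⟨i, hi, le_trans ?_ hB⟩
  have := card_nsmul_le_sum (Ico a (a + U)) (fun k => c k * u k) (w * u i) fun k hk =>
    mul_le_mul (hc k hk) (h k hk) (u0 i) (w0.trans (hc k hk))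
  rwa [Nat.card_Ico, Nat.add_sub_cancel_left, nsmul_eq_mul, ← mul_assoc] at this

theorem tel {f : ℕ → ℝ} {w : ℝ} {i : ℕ} : ∀ d : ℕ, (∀ k, i ≤ k → k < i + d → f (k + 1) - f k ≤ w) →
    f (i + d) - f i ≤ d * w
  | 0, _ => by simp
  | d + 1, h => by
    have := tel d fun k a b => h k a (by omega)
    have := h (i + d) (by omega) (by omega)
    rw [← add_assoc]
    push_cast
    linarith

variable {β c0 C0 c η K C : ℝ} {A : ℕ} {p : Pm} {P : Pl} {m : ℕ} {a : ℝ} {E : CIn12.Ev}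

section reg
variable (H : Reg β c0 C0 A c η K p) (e : En C p P)
include H

theorem ye4 : 4 * p.ye ≤ p.J * p.v := by
  have y0 := H.ye0
  refine le_trans (H.le_of_lg (by positivity) H.c00 ?_) H.ok.base.lo
  have a0 := H.c00
  have b := H.lg_le (by positivity) H.c0_le
  rw [one_div, logb_inv] at b
  lg_norm
  linarith [H.lg_ye, H.η_le, H.c_pos, (H.lg_num (x := 4) (by norm_num) (by norm_num)).2]

include e

theorem ds3 (k : ℕ) : (Me p P).s (k + 1) - (Me p P).s k ≤ 3 * p.v := by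
  have v0 := H.v0
  rcases lt_or_ge k p.J with h | h
  · linarith [(e.lo k h).2]
  · rcases lt_or_ge k (p.Jp P) with g | g
    · exact (e.mid k h g).2
    · linarith [e.hi k g]

theorem ms_hi' {k : ℕ} (hk : p.J - 1 ≤ k) : (Se p C P).ms ((Me p P).s k) = p.κ ^ 7 := by
  have i2 : p.jf + 1 < p.J := e.cl.i2
  have a1 := ds3 H e (p.J - 1)
  rw [Nat.sub_add_cancel (by omega), e.sJ] at a1
  have : p.ye ≤ (Me p P).s k := by
    linarith [e.cl.sm hk, ye4 H, H.v_le_r, H.r_le_ye]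
  refine (H.ms_top H.mem_end this).trans ?_
  rw [Pm.μ, Pm.ye]; ring

theorem dH3 (sp : p.SpOk (7 / 20) P) {k : ℕ} (h1 : p.jf < k) (h2 : k < (Me p P).N) :
    (Me p P).H (k + 1) - (Me p P).H k ≤ 3 * p.v := by
  have g1 := G_zero sp h1
  have g2 := G_zero sp (show p.jf < k + 1 by omega)
  rw [Md.G, d_eq] at g1 g2
  have := mul_nonneg (d_nonneg e.cl.leg (Me p P).N) (sub_nonneg.2 (q_mono e.cl (Nat.le_succ k) h2))
  rw [show (Me p P).d (Me p P).N = (Me p P).b from rfl] at this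
  linarith [ds3 H e k]

/-- **legs on the plateau and the reveal of END** -/
theorem legsE (hC : C ≤ (p.n : ℝ) ^ η) (hA : 8 ≤ A) (sp : p.SpOk (7 / 20) P) (h : In p m a)
    {cm : ℝ} {w : ℕ → ℝ} (cm0 : 0 ≤ cm)
    (hw : ∀ k ∈ Ioo (p.J - 1) (Me p P).N, 0 ≤ w k ∧ w k ≤ cm) :
    ∑ k ∈ Ioo (p.J - 1) (Me p P).N, w k * pM (Me p P) m a k ≤
      4 * ((p.n : ℝ) ^ η) ^ 9 * (cm / (p.κ ^ 7 * p.v * m)) := by
  obtain ⟨k, k1, k2⟩ := exK H
  have C1 : 1 ≤ C := e.cl.C1
  have C0 : 0 < C := by linarith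
  have v0 := H.v0
  have κ0 := H.κ0
  have N0 := H.N0
  have L0 := H.Λ0
  have l0 : 0 < log (p.n : ℝ) := by linarith [H.log1]
  have A8 : (8 : ℝ) ≤ A := by exact_mod_cast hA
  have A0 : (0 : ℝ) < A := by linarith
  have m0 : (0 : ℝ) < m := by exact_mod_cast h.m0 H
  obtain ⟨lC1, lC2⟩ := H.lg_cst C1 hC
  obtain ⟨lA1, lA2⟩ := H.lg_cst (show (1 : ℝ) ≤ A by linarith) H.A_le
  obtain ⟨lm1, lm2⟩ := H.lg_m h.m1 h.m2
  obtain ⟨ll1, ll2⟩ := H.lg_log
  obtain ⟨lb1, lb2⟩ := H.lg_β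
  obtain ⟨n1, n2⟩ := H.lg_num (x := 3) (by norm_num) (by norm_num)
  have lv := H.lg_v
  have lk := H.lg_κ
  have ln := H.lg_n
  have hη := H.η_le
  have η0 := H.η_pos
  have hc := H.c_le
  have i2 : p.jf + 1 < p.J := e.cl.i2
  have i3 : p.J ≤ p.Jp P := e.cl.i3
  have i4 : p.Jp P < (Me p P).N := e.cl.i4
  have m3 : 3 * p.v * m ≤ 1 := H.le_of_lg (by positivity) one_pos (by lg_norm; linarith)
  have R := legsX (e.lg H h) (j0 := p.J - 1) (K := k) (σ := p.κ ^ 7 * p.v / C) (x := 1 / C)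
    (by positivity) (by positivity) (by omega) e.cl.atom.1 (fun i a b => ?_)
    (fun i a b => (mul_le_mul_of_nonneg_right (dH3 H e sp (by omega) b) m0.le).trans m3) ?_ cm0 hw
  · refine R.trans ?_
    rw [show cm / (p.κ ^ 7 * p.v / C * m) / (1 / C) ^ 2 = C ^ 3 * (cm / (p.κ ^ 7 * p.v * m)) by
      field_simp, ← mul_assoc, show (9 : ℕ) = 3 * 2 + 3 from rfl, pow_add, pow_mul, ← mul_assoc]
    gcongr
  · rcases lt_or_ge i (p.Jp P) with g | g
    · have := e.cl.flr i (show p.jf ≤ i by omega) g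
      rw [ms_hi' H e a] at this
      exact le_trans (le_of_eq (by
        show _ = p.κ ^ 7 * p.v / (C * 1)
        rw [mul_one])) this
    · have := (Mv30.dH_top e.cl g b).2
      rw [ms_hi' H e (show p.J - 1 ≤ (Se p C P).Jp from (Nat.sub_le _ _).trans i3), e.hi i g] at this
      exact le_trans (le_of_eq (by
        show _ = p.κ ^ 7 / C * p.v
        ring)) this
  · have a1 : (Me p P).H (Me p P).N ≤ C * p.A * log p.n := e.cl.HN
    rw [H.hA] at a1
    have a2 : C * A * log p.n ≤ (p.n : ℝ) ^ (A + 2) * (1 / C * (p.κ ^ 7 * p.v / C)) := by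
      refine H.le_of_lg (by positivity) (by positivity) ?_
      lg_norm
      push_cast
      rw [ln]
      linarith
    have a3 := mul_le_mul_of_nonneg_right k1 (show 0 ≤ 1 / C * (p.κ ^ 7 * p.v / C) by positivity)
    linarith [H_nonneg e.cl.leg (p.J - 1)]

/-- the thin clock against the reference clock -/
theorem ds_bd (hC : C ≤ (p.n : ℝ) ^ η) (sp : p.SpOk (7 / 20) P) (h : In p m a) {k : ℕ}
    (h1 : jc p ≤ k) (h2 : k + 1 < (Me p P).N) :
    ((Me p P).s (k + 1) - (Me p P).s k) / 2 ≤ R85.ds (D p P m a E) (k + 1) ∧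
      R85.ds (D p P m a E) (k + 1) ≤ (Me p P).s (k + 1) - (Me p P).s k := by
  rw [R85.ds, e.sig H sp h (show jc p ≤ k + 1 by omega) h2, e.sig H sp h h1 (by omega)]
  have a1 := q_mono e.cl (Nat.le_succ k) h2.le
  have a2 := q_lip e.cl (Nat.le_succ k) h2.le
  have m1 : (p.n : ℝ) ≤ m := by exact_mod_cast h.m1
  have N0 := H.N0
  have b0 : 0 ≤ (Me p P).b := d_nonneg e.cl.leg _
  have a3 : 2 * (p.n : ℝ) ^ η ≤ p.n := by
    have L0 := H.Λ0
    refine H.le_of_lg (by positivity) N0 ?_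
    rw [logb_mul two_ne_zero L0.ne', lgΛ H, H.lg_n]
    linarith [(H.lg_num (x := 2) (by norm_num) (by norm_num)).2, H.η_le, H.c_le]
  have a4 : (Me p P).b / (m + 1) ≤ 1 / 2 := by
    rw [div_le_iff₀ (by positivity)]
    linarith [e.bβ]
  have a5 : 0 ≤ (Me p P).b / (m + 1) := by positivity
  simp only [Nat.succ_eq_add_one] at a1 a2
  constructor <;> nlinarith

/-- **the plateau part** -/
theorem rv_pl (hC : C ≤ (p.n : ℝ) ^ η) (hA : 8 ≤ A) (hj : 2 * η ≤ c) (h : Ad p P m a E) :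
    R85.Rv (D p P m a E) (p.J + 1) ((D p P m a E).u 2) ≤ kk p *
      (R85.Rv (D p P m a E) (p.Jp P + 1) ((D p P m a E).u 2) +
        (D p P m a E).I (fun t => (D p P m a E).e t ^ 2 * (D p P m a E).u 2 t) + ηH p) := by
  have C1 : 1 ≤ C := e.cl.C1
  have C0 : 0 < C := by linarith
  have v0 := H.v0
  have κ0 := H.κ0
  have N0 := H.N0
  have L0 := H.Λ0
  have K0 := kk0 H
  have h0 := ηH0 H
  have y0 := H.ye0
  have A8 : (8 : ℝ) ≤ A := by exact_mod_cast hA
  have m0 : (0 : ℝ) < m := by exact_mod_cast h.inn.m0 H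
  have γ0 : 0 < P.γ := h.sp.g' ▸ H.rp0 _
  have lγ : logb p.n P.γ = -(7 / 20) := by rw [h.sp.g', H.lg_rp]
  obtain ⟨lC1, lC2⟩ := H.lg_cst C1 hC
  obtain ⟨lm1, lm2⟩ := H.lg_m h.inn.m1 h.inn.m2
  obtain ⟨n1, n2⟩ := H.lg_num (x := 1000) (by norm_num) (by norm_num)
  obtain ⟨n3, n4⟩ := H.lg_num (x := 4) (by norm_num) (by norm_num)
  have lv := H.lg_v_le
  have lk := H.lg_κ
  have lkk := lg_kk H
  have lh := lg_ηH H
  have ly := H.lg_ye
  have lL := lgΛ H
  have η0 := H.η_pos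
  have hc := H.c_le
  have i2 : p.jf + 1 < p.J := e.cl.i2
  have i3 : p.J ≤ p.Jp P := e.cl.i3
  have eN : (Me p P).N = p.Jp P + p.Nr := rfl
  have j1 := jf_lt H
  have j2 := jc_lt H
  have vγ : p.v ≤ P.γ := H.le_of_lg v0 γ0 (by linarith)
  have γy : P.γ ≤ p.ye := H.le_of_lg γ0 y0 (by linarith)
  obtain ⟨U, U1, U2⟩ : ∃ U : ℕ, P.γ ≤ U * p.v ∧ U * p.v ≤ 2 * P.γ := by
    have h1 := Nat.le_ceil (P.γ / p.v)
    have h2 := (Nat.ceil_lt_add_one (div_pos γ0 v0).le).le
    rw [div_le_iff₀ v0] at h1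
    rw [div_add_one v0.ne', le_div_iff₀ v0] at h2
    exact ⟨_, h1, by linarith⟩
  have U0 : 0 < U := Nat.pos_of_ne_zero fun z => by rw [z] at U1; simp at U1; linarith
  have UJ : 2 * U ≤ p.J := by
    exact_mod_cast le_of_mul_le_mul_right (show (2 * (U : ℝ)) * p.v ≤ p.J * p.v by
      linarith [ye4 H]) v0
  have UN : U < p.Nr := by
    have := mul_le_mul A8 H.log1 zero_le_one (by linarith)
    exact_mod_cast lt_of_mul_lt_mul_right (show (U : ℝ) * p.v < p.Nr * p.v by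
      linarith [H.Nr_bds.1, H.ye1]) v0.le
  have eK : (D p P m a E).K = (Me p P).N + 1 := cd_K _ _ _ _ _ _ _
  have u0 : ∀ k, 0 ≤ (D p P m a E).u 2 (k + 1) := fun k => CD.u0 _ _ _
  have eu : ∀ k, jc p ≤ k → k < (Me p P).N →
      (D p P m a E).u 2 (k + 1) = uM2 (Me p P) m a ((Me p P).q k) k :=
    fun k a b => cd_u _ _ _ _ _ 2 a b
  have db := fun k => ds_bd (E := E) (k := k) H e hC h.sp h.inn
  have d0 : ∀ k, k < (Me p P).N → 0 ≤ R85.ds (D p P m a E) (k + 1) :=
    fun k b => R85.ds0 h.ok (by omega)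
  have eR : ∀ j, R85.Rv (D p P m a E) (j + 1) ((D p P m a E).u 2) = ∑ k ∈ Ico j (Me p P).N,
      R85.ds (D p P m a E) (k + 1) * (D p P m a E).u 2 (k + 1) := fun j => by
    rw [R85.Rv, eK, ← sum_Ico_add' _ j (Me p P).N 1]
  -- the reveal node
  obtain ⟨s, hs, bs⟩ := ex_min (a := p.Jp P) U0 (half_pos v0).le u0
    (c := fun k => R85.ds (D p P m a E) (k + 1))
    (B := R85.Rv (D p P m a E) (p.Jp P + 1) ((D p P m a E).u 2))
    (fun k hk => by
      have := mem_Ico.1 hk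
      exact (e.hi k this.1).symm ▸ (db k (by omega) (by omega)).1)
    (by
      rw [eR]
      exact sum_le_sum_of_subset_of_nonneg (Ico_subset_Ico_right (by omega)) fun k hk _ =>
        mul_nonneg (d0 k (mem_Ico.1 hk).2) (u0 k))
  -- the slope node
  obtain ⟨j, ej⟩ : ∃ j, p.J = j + U := ⟨p.J - U, by omega⟩
  have zj : p.κ ≤ (Me p P).z j := by
    have a1 := tel (f := (Me p P).z) (i := j) (w := C * p.v) (U - 1) fun k a b =>
      (e.cl.zs k (show p.jf ≤ k by omega) (show k + 1 < p.J by omega)).2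
    have a2 : 1 / C ≤ (Me p P).z (p.J - 1) := e.cl.atom.1
    rw [show j + (U - 1) = p.J - 1 by omega] at a1
    have a3 : ((U - 1 : ℕ) : ℝ) * (C * p.v) ≤ U * (C * p.v) :=
      mul_le_mul_of_nonneg_right (Nat.cast_le.2 (Nat.sub_le _ _)) (by positivity)
    have a4 := mul_le_mul_of_nonneg_left U2 C0.le
    have a5 : 4 * (C * P.γ) ≤ 1 / C :=
      H.le_of_lg (by positivity) (by positivity) (by lg_norm; linarith)
    have a6 : 4 * p.κ ≤ 1 / C :=
      H.le_of_lg (by positivity) (by positivity) (by lg_norm; linarith)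
    linarith
  obtain ⟨i, hi, bi⟩ := ex_min (a := j) U0 (div_pos v0 C0).le u0
    (c := fun k => (Me p P).dz m a k * E.e k ^ 2)
    (B := (D p P m a E).I (fun t => (D p P m a E).e t ^ 2 * (D p P m a E).u 2 t))
    (fun k hk => by
      have := mem_Ico.1 hk
      have a1 : p.v / C ≤ (Me p P).dz m a k := by
        have := (e.cl.zs (k - 1) (show p.jf ≤ k - 1 by omega) (show k - 1 + 1 < p.J by omega)).1
        rwa [Nat.sub_add_cancel (by omega), ← dz_up (m := m) (a := a) e.cl.leg (by omega)] at this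
      have a2 : 1 ≤ E.e k := by
        rw [h.env.e, le_div_iff₀ κ0, one_mul]
        exact le_max_of_le_right (zj.trans (e.cl.leg.zm this.1))
      exact a1.trans (le_mul_of_one_le_right ((div_pos v0 C0).le.trans a1) (one_le_pow₀ a2)))
    (by
      rw [cd_I]
      simp only [cd_e, mul_assoc]
      exact sum_le_sum_of_subset_of_nonneg (Ico_subset_Ico (by omega) (by omega)) fun k hk _ =>
        mul_nonneg ((e.lg H h.inn).dz_nonneg k) (mul_nonneg (sq_nonneg _) (u0 k)))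
  have hs' := mem_Ico.1 hs
  have hi' := mem_Ico.1 hi
  have ss : (Me p P).s s ≤ (Me p P).s (p.Jp P) + 2 * P.γ := by
    have := tel (f := (Me p P).s) (i := p.Jp P) (w := p.v) U fun k a _ => (e.hi k a).le
    linarith [e.cl.sm hs'.2.le]
  have si : (Me p P).s p.J - 3 * P.γ ≤ (Me p P).s i := by
    have := tel (f := (Me p P).s) (i := j) (w := 3 / 2 * p.v) U fun k _ b => (e.lo k (by omega)).2
    rw [← ej] at this
    linarith [e.cl.sm hi'.1]
  have gam := e.gam
  -- the sandwich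
  have sw : ∀ k ∈ Ico p.J (p.Jp P), R85.ds (D p P m a E) (k + 1) * (D p P m a E).u 2 (k + 1) ≤
      36 * (R85.ds (D p P m a E) (k + 1) * pM (Me p P) m a k) +
        ((Me p P).s (k + 1) - (Me p P).s k) * (72 * ((D p P m a E).u 2 (i + 1) +
          (D p P m a E).u 2 (s + 1)) + 144 * (4 * P.γ) ^ 2) := fun k hk => by
    have hk' := mem_Ico.1 hk
    have q1 := q_mono e.cl (show i ≤ k by omega) (by omega)
    have q2 := q_lip e.cl (show i ≤ k by omega) (by omega)
    have q3 := q_mono e.cl (show k ≤ s by omega) (by omega)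
    have q4 := q_lip e.cl (show k ≤ s by omega) (by omega)
    have s1 := e.cl.sm hk'.1
    have s2 := e.cl.sm hk'.2.le
    have w := sand (M := Me p P) (m := m) (a := a) (show i ≤ k by omega) (show k ≤ s by omega)
      (c := (Me p P).q k) (ci := (Me p P).q i) (cs := (Me p P).q s) (d := 4 * P.γ)
      (abs_le.2 ⟨by linarith, by linarith⟩) (abs_le.2 ⟨by linarith, by linarith⟩)
    rw [← eu k (by omega) (by omega), ← eu i (by omega) (by omega),
      ← eu s (by omega) (by omega)] at w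
    have w1 := mul_le_mul_of_nonneg_left w (d0 k (by omega))
    have w2 := mul_le_mul_of_nonneg_right (db k (by omega) (by omega)).2
      (show 0 ≤ 72 * ((D p P m a E).u 2 (i + 1) + (D p P m a E).u 2 (s + 1)) +
        144 * (4 * P.γ) ^ 2 by have := u0 i; have := u0 s; positivity)
    linarith
  have S1 := sum_le_sum sw
  rw [sum_add_distrib, ← mul_sum, ← sum_mul, sum_Ico_sub _ i3] at S1
  have lg := legsE H e hC hA h.sp h.inn (cm := 3 * p.v) (by positivity)
    (w := fun k => if k < p.Jp P then R85.ds (D p P m a E) (k + 1) else 0) fun k hk => by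
      have := mem_Ioo.1 hk
      split_ifs with g
      exacts [⟨d0 k this.2, (db k (by omega) (by omega)).2.trans (ds3 H e k)⟩,
        ⟨le_rfl, by positivity⟩]
  have S2 : ∑ k ∈ Ico p.J (p.Jp P), R85.ds (D p P m a E) (k + 1) * pM (Me p P) m a k =
      ∑ k ∈ Ioo (p.J - 1) (Me p P).N,
        (if k < p.Jp P then R85.ds (D p P m a E) (k + 1) else 0) * pM (Me p P) m a k := by
    simp only [ite_mul, zero_mul]
    rw [← sum_filter]
    congr 1
    ext k
    simp only [mem_Ico, mem_filter, mem_Ioo]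
    omega
  rw [S2] at S1
  have R0 := R85.Rv0 (P := p.Jp P + 1) h.ok ((D p P m a E).u0 2)
  have I0 := h.ok.I0 (a := fun t => (D p P m a E).e t ^ 2 * (D p P m a E).u 2 t)
    fun t _ => mul_nonneg (sq_nonneg _) (CD.u0 _ _ _)
  rw [eR p.J, ← sum_Ico_consecutive _ i3 (show p.Jp P ≤ (Me p P).N by omega), ← eR]
  have b1 : 1000 * C ≤ kk p := H.le_of_lg (by positivity) K0 (by lg_norm; linarith)
  have b2 : 1000 * (1000 * P.γ ^ 3) ≤ kk p * ηH p :=
    H.le_of_lg (by positivity) (by positivity) (by lg_norm; linarith)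
  have b3 : 1000 * (((p.n : ℝ) ^ η) ^ 9 * (1 / (p.κ ^ 7 * m))) ≤ kk p * ηH p :=
    H.le_of_lg (by positivity) (by positivity) (by
      generalize (p.n : ℝ) ^ η = Λ at *
      lg_norm; linarith)
  rw [show 3 * p.v / (p.κ ^ 7 * p.v * m) = 3 * (1 / (p.κ ^ 7 * m)) by field_simp] at lg
  have ui := u0 i
  have us := u0 s
  have c1 : P.γ * (D p P m a E).u 2 (s + 1) ≤
      2 * R85.Rv (D p P m a E) (p.Jp P + 1) ((D p P m a E).u 2) := by
    linarith [mul_le_mul_of_nonneg_right U1 us]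
  have c2 : P.γ * (D p P m a E).u 2 (i + 1) ≤
      C * (D p P m a E).I (fun t => (D p P m a E).e t ^ 2 * (D p P m a E).u 2 t) := by
    have := mul_le_mul_of_nonneg_left bi C0.le
    rw [show C * (U * (p.v / C) * (D p P m a E).u 2 (i + 1)) =
      U * p.v * (D p P m a E).u 2 (i + 1) by field_simp] at this
    linarith [mul_le_mul_of_nonneg_right U1 ui]
  have c3 := mul_le_mul_of_nonneg_right gam (show 0 ≤ 72 * ((D p P m a E).u 2 (i + 1) +
    (D p P m a E).u 2 (s + 1)) + 144 * (4 * P.γ) ^ 2 by positivity)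
  have c4 := mul_le_mul_of_nonneg_right b1 I0
  have c5 := mul_le_mul_of_nonneg_right (show 1000 ≤ kk p by linarith) R0
  have c6 := mul_nonneg C0.le I0
  have c7 := mul_pos K0 h0
  linarith

end reg

theorem rvE (hβ : 1 < β) : RvE β := by
  unfold RvE EvA
  refine Sml.glueC hβ (enS hβ) Sml.triv fun C _ c0 C0 _ _ => ⟨8, fun A hA => ⟨1, one_pos,
    fun c _ hc => ⟨c / 2, half_pos hc, fun η hη _ => ⟨C, fun p H e _ P m a E h => ?_⟩⟩⟩⟩
  exact rv_pl H (e H.r_le_ye P h.sp) H.K_le hA (by linarith) h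

end Mv55

/-- **(MV)**, unconditional -/
theorem mvS {β : ℝ} (hβ : 1 < β) : MvS β := mvS_of hβ (pzS hβ) (Mv55.rvE hβ)

end Crest.Agent.T156.Alt.R2

end
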