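import Crest.Agent.T156.R2Def_30
import Crest.Agent.T156.MvC_30
import Crest.Agent.T156.FamSm_28
import Crest.Agent.T156.PlatS_10

/-!
# Row 156, R2: mesh and entropy of the END datum (`HmS`) (helper42)
-/

set_option autoImplicit false

noncomputable section

namespace Crest.Agent.T156.Alt.R2

open Real Finset
open Crest.Agent.T157.E Crest.Agent.T157.Casc Crest.Agent.T157.SL
open Crest.Agent.T156.Cas Crest.Agent.T156.Cas.C40 Md67 CIn12 Cas.C40.Mv30

namespace H42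

variable {S : Sc} {M : Md} {m J : ℕ} {a : ℝ} {E : CIn12.Ev}

theorem log_one {n : ℕ} (n3 : 3 ≤ n) : 1 ≤ log (n : ℝ) := by
  have : (3 : ℝ) ≤ n := by exact_mod_cast n3
  rw [le_log_iff_exp_le (by linarith)]
  exact (exp_one_lt_d9.le.trans (by norm_num)).trans this

theorem ms_le (h : Cl S M) (n3 : 3 ≤ S.n) (t : ℝ) : S.ms t ≤ 1 := by
  have a1 := log_one n3
  have a2 := (ms_pos h (by omega) zero_le_one).le
  have a3 := h.msθ
  have a4 := h.ms1 t
  unfold Sc.θ at a3 a4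
  nlinarith

theorem La_eq (G : M.Leg a) :
    E42.La (cd M m a M.q J none E) = 1 + (tp M m M.N + M.H M.N) := by
  rw [E42.La, cd_K, CD.sig, cd_tau m a _ _ E le_rfl,
    show (cd M m a M.q J none E).q (M.N + 1) = 1 from qx_top le_rfl,
    show fAcc (cd M m a M.q J none E).M (M.N + 1) = M.H M.N from fAcc_Mx G le_rfl, mul_one]

theorem La_bds (h : Cl S M) (G : M.Leg a) : 1 ≤ E42.La (cd M m a M.q J none E) ∧
    E42.La (cd M m a M.q J none E) ≤ 1 + S.C + S.C * S.A * log S.n := by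
  have t := tp_mem (m := m) G M.N
  have := H_nonneg G M.N
  have b : M.d M.N ≤ S.C := h.b1
  rw [La_eq G]
  exact ⟨by linarith [t.1], by linarith [t.2.1, h.HN]⟩

theorem dH_mid (h : Cl S M) (c : Cei S M) (n3 : 3 ≤ S.n) (F : S.F = 1) {k : ℕ}
    (h1 : S.jl + 1 ≤ k) (h2 : k < S.Jp) : M.H (k + 1) - M.H k ≤ S.C * S.v := by
  have a1 := c.up k h1 h2
  rw [F, mul_one] at a1
  have C0 : 0 ≤ S.C := by linarith [h.C1]
  have := mul_le_mul_of_nonneg_right (mul_le_mul_of_nonneg_left (ms_le h n3 (M.s k)) C0)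
    (v_pos h (by omega)).le
  linarith

/-- steps of the site time on UP -/
theorem mesh_le (h : Cl S M) (c : Cei S M) (G : Md67.Lg M m a) (n3 : 3 ≤ S.n) (F : S.F = 1)
    (hd : ∀ k, M.d (k + 1) = M.d k) (ck : ∀ k, M.ck k = M.q k) (j1 : S.jl + 1 ≤ J) (hJ : J ≤ S.J)
    {k : ℕ} (h1 : J ≤ k) (h2 : k < M.N) :
    (cd M m a M.q J none E).sig (k + 1 + 1) - (cd M m a M.q J none E).sig (k + 1) ≤
      2 * S.C ^ 2 * S.v + S.C * (1 - M.q (M.N - 1)) := by
  have C1 := h.C1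
  have v0 := v_pos h (by omega)
  have i1 := h.i1
  have i4 := h.i4
  have p0 : 0 ≤ S.C * (1 - M.q (M.N - 1)) :=
    mul_nonneg (by linarith) (sub_nonneg.2 (q_le_one _))
  have p1 : S.C * S.v ≤ S.C ^ 2 * S.v := mul_le_mul_of_nonneg_right (by nlinarith) v0.le
  have p2 : 0 ≤ S.C * S.v := by positivity
  rcases lt_or_ge k S.Jp with hk | hk
  · rw [cd_sig m _ _ E G.toLeg (k := k) h1 h2, cd_sig m _ _ E G.toLeg (k := k + 1) (by omega)
      (by omega), show tp M m (k + 1) = tp M m k by rw [tp, tp, hd]]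
    have a1 := dH_mid h c n3 F (k := k) (by omega) hk
    have a2 := (h.ckm k (by omega) hk).2
    rw [ck, ck] at a2
    have a3 : tp M m k ≤ S.C := (tp_mem G.toLeg k).2.1.trans ((d_le_b G.toLeg h2.le).trans h.b1)
    have a4 := mul_le_mul a3 a2 (sub_nonneg.2 (q_mono h (Nat.le_succ k) h2)) (by linarith)
    nlinarith
  · have := ds_le (E := E) h G hJ hk h2
    split_ifs at this with e
    · unfold R85.ds at this; linarith
    · rw [show M.N - 1 = k by omega]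
      unfold R85.ds at this; linarith

/-- label weights on UP -/
theorem dz_le (h : Cl S M) (hn : 0 < S.n) {g w : ℝ} (g0 : 0 < g) (g1 : g ≤ 1)
    (den : ∀ x, g ≤ S.den x) (w1 : S.C * S.v / g ≤ w) (w2 : S.ue ≤ w) {k : ℕ} (h1 : S.j0 + 1 ≤ k) :
    M.z k - M.z (k - 1) ≤ w := by
  have v0 := v_pos h hn
  have p2 : 0 ≤ S.C * S.v := mul_nonneg (by linarith [h.C1]) v0.le
  have p3 : S.C * S.v ≤ S.C * S.v / g := le_div_self p2 g0 g1
  rcases lt_or_ge k S.J with a1 | a1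
  · have := (h.zs (k - 1) (by omega) (by omega)).2
    rw [Nat.sub_add_cancel (by omega)] at this
    linarith
  rcases lt_trichotomy k S.Jp with a2 | a2 | a2
  · have z0 : 0 ≤ M.z k - M.z (k - 1) := sub_nonneg.2 (h.leg.zm (Nat.sub_le k 1))
    refine le_trans ?_ w1
    rw [le_div_iff₀ g0]
    exact (mul_le_mul_of_nonneg_left (den _) z0).trans (h.plat k a1 a2).2
  · rw [a2, h.top _ le_rfl]; exact h.last.trans w2
  · rw [h.top k a2.le, h.top (k - 1) (by omega), sub_self]; linarith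

theorem s_le (h : Cl S M) {k : ℕ} (hk : k ≤ S.J) : M.s k ≤ S.C * (k * S.v) := by
  induction k with
  | zero => simp [h.s0]
  | succ k ih =>
    have := (h.ss k hk).2
    have := ih (by omega)
    push_cast; linarith

/-- the field variance of the reveal -/
theorem H_rev (h : Cl S M) {k : ℕ} (h1 : S.Jp ≤ k) (h2 : k ≤ M.N) :
    M.s M.N - M.s k - S.C ≤ M.H M.N - M.H k := by
  have a1 := h.Grv k h1 h2
  have a2 := h.Grv M.N h.i4.le le_rfl
  rw [← a1, Md.G, Md.G, d_top h h1 h2, d_top h h.i4.le le_rfl] at a2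
  have b0 : 0 ≤ M.b := d_nonneg h.leg _
  have := mul_le_mul_of_nonneg_left (show M.q M.N - M.q k ≤ 1 by
    linarith [q_le_one (M := M) M.N, q_nonneg (M := M) k]) b0
  linarith [h.b1]

/-- the last reference overlap -/
theorem q_rev (h : Cl S M) {k l : ℕ} (h1 : S.Jp ≤ k) (h2 : k ≤ l) (h3 : l ≤ M.N) :
    1 - M.q l ≤ exp (-((M.s l - M.s k) / 2)) := by
  have := (Pr.platS M.lr h.ok (M.s k) (M.s l) (s_nonneg h k) (h.sm h2) (s_mem h h3).2
    fun t ht => h.lv1 t ((h.sm h1).trans ht)).2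
  refine this.trans (mul_le_of_le_one_right (exp_pos _).le ?_)
  linarith [q_nonneg (M := M) k, show M.q k = Pr.Gam M.lr (M.s k) from rfl]

/-- **`Hm` on the class** -/
theorem hm_cl (h : Cl S M) (c : Cei S M) (G : Md67.Lg M m a) (n3 : 3 ≤ S.n) (F : S.F = 1)
    (hd : ∀ k, M.d (k + 1) = M.d k) (ck : ∀ k, M.ck k = M.q k) (j1 : S.jl + 2 ≤ J) (hJ : J ≤ S.J)
    (hG : M.G J ≤ 0) (hX : S.C * (J * S.v) ≤ E.X) {g w L U η : ℝ} (g0 : 0 < g) (g1 : g ≤ 1)
    (den : ∀ x, g ≤ S.den x) (w1 : S.C * S.v / g ≤ w) (w2 : S.ue ≤ w)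
    (hL : 1 + S.C + S.C * S.A * log S.n ≤ L) (η0 : 0 ≤ η) (η1 : η ≤ 1) (n1 : S.Jp + 1 < M.N)
    (u1 : U ≤ M.s (M.N - 1) - M.s (S.Jp + 1)) (u2 : U + S.C ≤ M.s M.N - M.s (S.Jp + 1))
    (e1 : (2 * S.C ^ 2 * S.v + S.C * exp (-(U / 2))) * L ^ 2 ≤ η ^ 8) (e2 : w * L ^ 2 ≤ η ^ 2)
    (e3 : m * exp (-U / 2) ≤ 1) (e4 : exp (-U / 4) * L ^ 2 ≤ η ^ 8) :
    E42.Hm (cd M m a M.q J none E) η := by
  obtain ⟨l1, l2⟩ := La_bds (m := m) (J := J) (E := E) h G.toLeg
  have l3 : E42.La (cd M m a M.q J none E) ^ 2 ≤ L ^ 2 :=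
    pow_le_pow_left₀ (by linarith) (l2.trans hL) 2
  have l4 : 1 ≤ L ^ 2 := one_le_pow₀ (l1.trans (l2.trans hL))
  have C1 := h.C1
  have v0 := v_pos h (by omega)
  have i1 := h.i1
  have i3 := h.i3
  have i4 := h.i4
  have x0 := exp_pos (-(U / 2))
  have p0 : 0 ≤ S.C * exp (-(U / 2)) := by positivity
  have p1 : S.C * S.v ≤ S.C ^ 2 * S.v := mul_le_mul_of_nonneg_right (by nlinarith) v0.le
  have p2 : 0 ≤ S.C * S.v := by positivity
  have w0 : 0 ≤ w := le_trans (by positivity) w1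
  have q1 : 1 - M.q (M.N - 1) ≤ exp (-(U / 2)) :=
    (q_rev h (Nat.le_succ _) (by omega) (Nat.sub_le _ _)).trans (exp_le_exp.2 (by linarith))
  refine ⟨rfl, ⟨a, M.d 0, M.Mu, rfl, fun p hp => ?_⟩, show 1 ≤ J by omega, ?_, η0, η1,
    fun j hj hj' => ?_, fun j hj => ?_, ?_, S.Jp + 1 + 1, U, show J < _ by omega, ?_,
    fun j hj => ?_, ?_, e3, ?_⟩
  · obtain ⟨k, rfl⟩ := (List.mem_ofFn' _ _).1 hp
    exact sub_eq_zero.2 (hd k)
  · rw [E42.s1, cd_J, cd_X, cd_sig m _ _ E G.toLeg le_rfl (by omega)]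
    have := mul_le_mul_of_nonneg_right (tp_mem (m := m) G.toLeg J).2.1 (q_nonneg (M := M) J)
    unfold Md.G at hG
    linarith [s_le h hJ]
  · rw [cd_K] at hj
    rw [cd_J] at hj'
    obtain ⟨k, rfl⟩ : ∃ k, j = k + 1 := ⟨j - 1, by omega⟩
    have := mesh_le (E := E) h c G n3 F hd ck (by omega) hJ (k := k) (by omega) (by omega)
    refine le_trans (mul_le_mul (this.trans ?_) l3 (sq_nonneg _) (by linarith)) e1
    linarith [mul_le_mul_of_nonneg_left q1 (zero_le_one.trans C1)]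
  · rw [CD.up, cd_K, cd_J, mem_Ioo] at hj
    obtain ⟨k, rfl⟩ : ∃ k, j = k + 1 := ⟨j - 1, by omega⟩
    rw [cd_dx, dz_up G.toLeg (by omega)]
    exact le_trans (mul_le_mul (dz_le h (by omega) g0 g1 den w1 w2 (by omega)) l3 (sq_nonneg _)
      w0) e2
  · obtain ⟨k, rfl⟩ : ∃ k, J = k + 1 := ⟨J - 1, by omega⟩
    rw [cd_J, show fAcc (cd M m a M.q (k + 1) none E).M (k + 1 + 1) = M.H (k + 1) from
      fAcc_Mx G.toLeg (by omega), show fAcc (cd M m a M.q (k + 1) none E).M (k + 1) = M.H k from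
      fAcc_Mx G.toLeg (by omega)]
    have := dH_mid h c n3 F (k := k) (by omega) (by omega)
    have := le_mul_of_one_le_right (show 0 ≤ 2 * S.C ^ 2 * S.v + S.C * exp (-(U / 2)) by
      linarith) l4
    linarith
  · rw [cd_K]; omega
  · obtain ⟨k, rfl⟩ : ∃ k, j = k + 1 := ⟨j - 1, by omega⟩
    exact (ex_succ G.toLeg k).trans (h.top k (by omega))
  · rw [cd_K, show fAcc (cd M m a M.q J none E).M (M.N + 1) = M.H M.N from
      fAcc_Mx G.toLeg le_rfl, show fAcc (cd M m a M.q J none E).M (S.Jp + 1 + 1) = M.H (S.Jp + 1)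
      from fAcc_Mx G.toLeg n1.le]
    linarith [H_rev h (Nat.le_succ _) n1.le]
  · exact (mul_le_mul_of_nonneg_left l3 (exp_pos _).le).trans e4

/-! ### the END model -/

section num

variable {β c0 C0 c η K : ℝ} {A : ℕ} {p : Pm} (H : Reg β c0 C0 A c η K p)
include H

theorem t1_pos : 0 < t1 p := mul_pos H.r0 (Pre29.rp_pos H.n1 _)

theorem lg_t1 : logb p.n (t1 p) = logb p.n p.r + 1 / 60 := by
  rw [t1, logb_mul H.r0.ne' (Pre29.rp_pos H.n1 _).ne', H.lg_rp]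

theorem v_le_one : p.v ≤ 1 := H.v_le_r.trans (H.r_le_ye.trans H.ye1)

theorem r4_le : 4 * p.r ≤ t1 p := by
  have := H.r0
  refine H.le_of_lg (by positivity) (t1_pos H) ?_
  rw [lg_t1 H, logb_mul (by norm_num) this.ne']
  linarith [(H.lg_num (x := 4) (by norm_num) (by norm_num)).2, H.η_le, H.c_le]

theorem jc_bds : t1 p ≤ jc p * p.v ∧ jc p * p.v ≤ 2 * t1 p := by
  have h1 := Nat.le_ceil (t1 p / p.v)
  have h2 := (Nat.ceil_lt_add_one (div_pos (t1_pos H) H.v0).le).le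
  rw [div_le_iff₀ H.v0] at h1
  rw [div_add_one H.v0.ne', le_div_iff₀ H.v0] at h2
  exact ⟨h1, le_trans h2 (by linarith [H.v_le_r, r4_le H, H.r0])⟩

theorem jf_jc : p.jf + 2 ≤ jc p := by
  have x0 : 0 < p.s * (p.n : ℝ) ^ (p.c / 13 - 1 / 6) := mul_pos H.s0 (Pre29.rp_pos H.n1 _)
  have x1 : p.s * (p.n : ℝ) ^ (p.c / 13 - 1 / 6) ≤ p.r :=
    mul_le_mul_of_nonneg_left (Pre29.rp_le H.n1 (by rw [H.hc]; linarith [H.c_pos])) H.s0.le
  have h2 := (Nat.ceil_lt_add_one (div_pos x0 H.v0).le).le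
  rw [div_add_one H.v0.ne', le_div_iff₀ H.v0] at h2
  have : ((p.jf + 2 : ℕ) : ℝ) * p.v ≤ jc p * p.v := by
    push_cast
    unfold Pm.jf
    linarith [H.v_le_r, r4_le H, (jc_bds H).1]
  exact_mod_cast le_of_mul_le_mul_right this H.v0

theorem jc_le : jc p ≤ p.J := by
  refine Nat.ceil_le.2 ((div_le_iff₀ H.v0).2 (le_trans ?_ H.ok.base.lo))
  have a := H.lg_le (one_div_pos.2 H.c00) H.c0_le
  rw [one_div, logb_inv] at a
  refine H.le_of_lg (t1_pos H) H.c00 ?_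
  linarith [lg_t1 H, H.lg_r, H.lg_s.2, H.η_le, H.c_le]

theorem Nr_two : 2 ≤ p.Nr := by
  have a : (2 : ℝ) ≤ A := by exact_mod_cast H.A2
  have b := mul_le_mul_of_nonneg_left (v_le_one H) (Nat.cast_nonneg (α := ℝ) p.Nr)
  have : (2 : ℝ) ≤ p.Nr := by nlinarith [H.Nr_bds.1, H.log1]
  exact_mod_cast this

theorem lL_le : 2 * p.lL ≤ ((p.n : ℝ) ^ η) ^ 2 := by
  have a : log ((p.n : ℝ) + 3) ≤ 2 * log p.n := by
    rw [show 2 * log (p.n : ℝ) = log ((p.n : ℝ) ^ 2) by simp]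
    exact log_le_log (by positivity) (by nlinarith [H.N3])
  unfold Pm.lL
  nlinarith [H.log_le, H.num_le, H.log1]

end num

theorem sP_rev (p : Pm) (P : Pl) (τ y : ℝ) (i : ℕ) :
    p.sP P τ y (p.Jp P + 1 + i) - p.sP P τ y (p.Jp P + 1) = i * p.v := by
  have : p.J ≤ p.Jp P := Nat.le_add_right _ _
  rw [Pm.sP, Pm.sP, if_neg (by omega), if_neg (by omega), Pm.xP, Pm.xP, min_eq_right (by omega),
    min_eq_right (by omega), show p.Jp P + 1 + i - p.Jp P = i + 1 by omega,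
    show p.Jp P + 1 - p.Jp P = 1 by omega]
  push_cast; ring

end H42

set_option maxHeartbeats 800000 in
open H42 in
/-- **`HmS`** -/
theorem hmS {β : ℝ} (hβ : 1 < β) : HmS β := by
  unfold HmS EvA
  refine Sml.glueC hβ (clSp β hβ) Sml.triv fun C hC c0 C0 h0 h1 => ⟨40, fun A hA => ⟨1, one_pos,
    fun c _ hc => ⟨c, hc, fun η _ η0 => ⟨exp (C + 2) + 2 * C, fun p H Q _ => ?_⟩⟩⟩⟩
  intro P m a E ad
  obtain ⟨h, ce⟩ := Q p.ye P H.r_le_ye le_rfl ad.sp
  have G : Md67.Lg (Me p P) m a := lg_cl h H.n0 ⟨ad.inn.m1, ad.inn.m2, ad.inn.a1, ad.inn.a2⟩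
  have A40 : (40 : ℝ) ≤ A := by exact_mod_cast hA
  have C0' : 0 < C := by linarith
  have C2 : 2 * C ≤ (p.n : ℝ) ^ η := by linarith [H.K_le, exp_pos (C + 2)]
  have lC := (H.lg_cst hC (by linarith)).2
  have lgn : C + 2 ≤ log p.n := by
    rw [le_log_iff_exp_le H.N0]
    have := Pre29.rp_le H.n1 (show η ≤ 1 by linarith [H.η_le, H.c_le])
    rw [rpow_one] at this
    linarith [H.K_le]
  have ηc := H.η_le
  have c1 := H.c_le
  have N0 := H.N0
  have v0 := H.v0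
  have v1 := v_le_one H
  have Λ0 := H.Λ0
  have γ0 := ad.sp.γ0 H.n1
  have L0 := p.lL_pos
  have jf := jf_jc H
  have nr := Nr_two H
  have nb := H.Nr_bds.1
  have l2 := (H.lg_num (x := 2) (by norm_num) (by norm_num)).2
  have l4 := (H.lg_num (x := 4) (by norm_num) (by norm_num)).2
  have lv := H.lg_v_le
  have lΛ := H.lg_rp η
  have eH : logb p.n (ηH p) = -9 / 10 := H.lg_rp _
  have H0 : 0 < ηH p := Pre29.rp_pos H.n1 _
  have xs : 0 ≤ p.xs := by
    have a1 : 1 / C ≤ p.zP P (max (p.J - 1) p.jf) := h.atom.1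
    have a2 : p.jf + 1 < p.J := h.i2
    rw [max_eq_left (by omega), Pm.zP, if_pos (by omega)] at a1
    exact le_trans (by positivity) a1
  have ex : ∀ t : ℝ, logb p.n (exp (t * log p.n)) = t := fun t => by
    rw [logb, log_exp, mul_div_assoc, div_self (by linarith), mul_one]
  have e2 := ex (-((A - 1) / 2))
  have e4 := ex (-((A - 1) / 4))
  rw [show -(((A : ℝ) - 1) / 2) * log p.n = -((A - 1) * log p.n / 2) by ring] at e2
  rw [show -(((A : ℝ) - 1) / 4) * log p.n = -((A - 1) * log p.n) / 4 by ring] at e4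
  have x2 := exp_pos (-(((A : ℝ) - 1) * log p.n / 2))
  have x4 := exp_pos (-(((A : ℝ) - 1) * log p.n) / 4)
  have eN : (Me p P).N = p.Jp P + 1 + (p.Nr - 1) := by
    show p.J + P.I + p.Nr = p.J + P.I + 1 + (p.Nr - 1); omega
  refine hm_cl h ce G H.n3 rfl (fun k => ?_) (fun k => ?_) jf (jc_le H) ?_ ?_
    (g := P.γ / (2 * p.lL)) (w := (p.n : ℝ) ^ (-(2 : ℝ))) (L := ((p.n : ℝ) ^ η) ^ 4)
    (U := (A - 1) * log p.n) (by positivity) ?_ (fun x => ?_) ?_ le_rfl ?_ H0.le ?_ ?_ ?_ ?_ ?_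
    ?_ ?_ ?_
  · simp [Pm.tst, Pm.fam]
  · show p.qP P 1 p.ye k + P.rs _ = _
    rw [ad.sp.rs, Pi.zero_apply, add_zero]; rfl
  · show (if jc p ≤ p.jf then _ else _ + 0) * p.qP P 1 p.ye (jc p) +
      (p.HP P 1 p.ye (_ + 0) (jc p) + 0) - p.sP P 1 p.ye (jc p) ≤ 0
    rw [Pm.HP, if_neg (by omega), if_neg (by omega), ad.sp.hs, Pi.zero_apply]
    linarith
  · show C * (jc p * p.v) ≤ E.X
    rw [ad.env.X, le_div_iff₀ H.κ0]
    have a1 : 2 * C * p.κ ≤ 1 := by
      have := H.κ0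
      refine H.le_of_lg (by positivity) one_pos ?_
      rw [logb_mul (by positivity) this.ne', logb_one, H.lg_κ]
      linarith [H.lg_le (by positivity) C2]
    have a2 := mul_le_mul_of_nonneg_left (jc_bds H).2 (mul_pos C0' H.κ0).le
    nlinarith [t1_pos H]
  · rw [div_le_one (by positivity)]
    linarith [ad.sp.γ1 H.n1 (by norm_num), p.lL_ge]
  · show _ ≤ P.γ * p.ld P.γ x
    rw [div_eq_mul_one_div]
    exact mul_le_mul_of_nonneg_left (p.ld_ge _ xs x) γ0.le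
  · show C * p.v / (P.γ / (2 * p.lL)) ≤ _
    have a1 := H.lg_mono (by positivity) (lL_le H)
    have a2 : logb p.n P.γ = -(7 / 20) := by rw [ad.sp.g', H.lg_rp]
    rw [logb_pow] at a1
    refine H.le_of_lg (by positivity) (by positivity) ?_
    rw [logb_div (by positivity) (by positivity), logb_div (by positivity) (by positivity),
      logb_mul C0'.ne' v0.ne', H.lg_rp]
    push_cast at a1
    linarith
  · show 1 + C + C * p.A * log p.n ≤ _
    rw [H.hA]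
    have a1 : C * A * log p.n ≤ (p.n : ℝ) ^ η * (p.n : ℝ) ^ η * (p.n : ℝ) ^ η :=
      mul_le_mul (mul_le_mul (by linarith) H.A_le (by linarith) Λ0.le) H.log_le (by linarith)
        (by positivity)
    obtain ⟨Λ, e⟩ : ∃ Λ, Λ = (p.n : ℝ) ^ η := ⟨_, rfl⟩
    have a2 := H.num_le
    rw [← e] at a1 a2 C2 ⊢
    have a3 : Λ ≤ Λ * Λ * Λ := by nlinarith
    nlinarith
  · exact rpow_le_one_of_one_le_of_nonpos H.N1.le (by norm_num)
  · rw [eN]; show p.Jp P + 1 < _; omega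
  · rw [eN, show p.Jp P + 1 + (p.Nr - 1) - 1 = p.Jp P + 1 + (p.Nr - 2) by omega]
    refine le_trans ?_ (sP_rev p P 1 p.ye _).ge
    rw [Nat.cast_sub nr]; push_cast; linarith
  · rw [eN]
    refine le_trans ?_ (sP_rev p P 1 p.ye _).ge
    show _ + C ≤ _
    rw [Nat.cast_sub (by omega)]; push_cast; linarith
  · show (2 * C ^ 2 * p.v + C * _) * _ ≤ _
    have a1 : 4 * C ^ 2 * p.v * (((p.n : ℝ) ^ η) ^ 4) ^ 2 ≤ ηH p ^ 8 := by
      refine H.le_of_lg (by positivity) (by positivity) ?_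
      simp (disch := positivity) only [logb_mul, logb_pow]
      push_cast; linarith
    have a2 : 2 * C * exp (-(((A : ℝ) - 1) * log p.n / 2)) * (((p.n : ℝ) ^ η) ^ 4) ^ 2 ≤
        ηH p ^ 8 := by
      refine H.le_of_lg (by positivity) (by positivity) ?_
      simp (disch := positivity) only [logb_mul, logb_pow]
      push_cast; linarith
    linarith
  · refine H.le_of_lg (by positivity) (by positivity) ?_
    simp (disch := positivity) only [logb_mul, logb_pow]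
    rw [H.lg_rp (-2)]
    push_cast; linarith
  · have m0 : (0 : ℝ) < m := Nat.cast_pos.2 G.m0
    rw [neg_div]
    refine H.le_of_lg (by positivity) one_pos ?_
    rw [logb_mul m0.ne' x2.ne', logb_one]
    linarith [(H.lg_m ad.inn.m1 ad.inn.m2).2]
  · refine H.le_of_lg (by positivity) (by positivity) ?_
    simp (disch := positivity) only [logb_mul, logb_pow]
    push_cast; linarith

end Crest.Agent.T156.Alt.R2

end
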