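import Crest.Agent.T156.R2V_40

/-!
# Row 156, R2 (helper40): the test head in the direction of the Euler measure
-/

set_option autoImplicit false
set_option linter.unusedSectionVars false

noncomputable section

namespace Crest.Agent.T156.Cas.C40.R40

open Real Finset
open Crest.Agent.T157.E Crest.Agent.T157.Casc Crest.Agent.T157.SL
open CD Et5

theorem y2 {a b : ℝ} (ha : 0 ≤ a) (hb : 0 ≤ b) : a * b ^ 2 ≤ a ^ 3 + b ^ 3 := by
  nlinarith [mul_nonneg (add_nonneg ha hb) (sq_nonneg (a - b)), mul_nonneg ha (sq_nonneg a),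
    mul_nonneg hb (sq_nonneg b), mul_nonneg ha (mul_nonneg ha hb)]

theorem y3 {a b c : ℝ} (ha : 0 ≤ a) (hb : 0 ≤ b) (hc : 0 ≤ c) :
    a * (b * c) ≤ a ^ 3 + b ^ 3 + c ^ 3 := by
  have := mul_le_mul_of_nonneg_left (am b c) ha
  linarith [y2 ha hb, y2 ha hc, pow_nonneg hb 3, pow_nonneg hc 3]

theorem ss {x y a b : ℝ} (hx : x ^ 2 ≤ a) (hy : y ^ 2 ≤ b) : x * y ≤ (a + b) / 2 := by
  linarith [am x y]

theorem dT_congr {D : CD} {a b : ℕ → ℝ} (e : ∀ t ∈ D.up, a t = b t) : E42.dT D a = E42.dT D b := by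
  have s : ∀ i y V, (E42.wi D a).sH i y V = (E42.wi D b).sH i y V := fun i y V =>
    sum_congr rfl fun j hj => congrArg (· * _) (e j hj)
  have s0 : ∀ V, (E42.wi D a).sL V = (E42.wi D b).sL V := s 0 0
  have d : ∀ r V, (E42.wi D a).dP r V = (E42.wi D b).dP r V := fun r V =>
    congrArg (fun f => -iteratedDeriv r f 0) (funext fun y => s D.J y V)
  have f : (E42.wi D a).f1' = (E42.wi D b).f1' := s0 _
  have q : (E42.wi D a).QM = (E42.wi D b).QM := s0 _
  simp only [E42.dT, E42.main_wi, d, s0, f, q]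
  rw [sum_congr rfl fun j hj => by rw [e j hj]]

/-- the density of the label part -/
def aD (D : CD) (P t : ℕ) : ℝ :=
  D.sig t + if t < P then ex D.B t * R85.ds D t / (2 * D.dx t) else 0
/-- the plateau and reveal part -/
def rho (D : CD) (P t : ℕ) : ℝ := if t < P then 0 else ex D.B t * R85.ds D t / 2

section ok
variable {D : CD} {τ0 : ℝ} (h : D.Ok τ0)
include h

theorem u_succ {t : ℕ} (ht : t ∈ D.up) (p : ℕ) : D.u (p + 1) t ≤ 2 * D.u p t := by
  rw [CD.u, CD.u, uM, uM, ← pi2_const_mul]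
  refine pi2_mono (Ω := Cube D.n) wt_one90 _ t (fun x y => ?_) 0
  rw [pow_succ']
  exact mul_le_mul_of_nonneg_right (abs_oU_le h.ook (mem_up.1 ht).2.le x y)
    (pow_nonneg (abs_nonneg _) _)

theorem ex1 {j : ℕ} (hj : j ∈ D.up) : ex D.B j ≤ 1 := by
  rw [← h.sum_dx]
  exact h.sum_dx_one fun i hi => by have := mem_range.1 hi; have := mem_up.1 hj; omega

/-- a number times a partial integral -/
theorem part {s : Finset ℕ} (hs : s ⊆ D.up) {x y : ℝ} {φ b : ℕ → ℝ} (y0 : 0 ≤ y)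
    (b0 : ∀ t ∈ D.up, 0 ≤ b t) (e : ∀ t ∈ s, x * φ t ≤ y + b t) :
    x * ∑ t ∈ s, D.dx t * φ t ≤ y + D.I b := by
  have a1 := sub_I h hs b0
  have a2 := mul_le_of_le_one_left y0 (h.sum_dx_one (A := s) fun i hi => (mem_up.1 (hs hi)).2.le)
  rw [mul_sum]
  refine (sum_le_sum (g := fun t => D.dx t * y + D.dx t * b t) fun t ht => ?_).trans ?_
  · linarith [mul_le_mul_of_nonneg_left (e t ht) (h.dx0 t)]
  · rw [sum_add_distrib, ← sum_mul]; linarith

theorem swap (a b : ℕ → ℝ) : D.I (fun j => a j * D.hi b j) = D.I fun k => b k * D.lw a k := by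
  simp only [CD.I, CD.hi, CD.lw, mul_sum]
  rw [sum_comm' (t' := D.up) (s' := fun k => Ioo D.J k) fun j k => by
    simp only [mem_Ioo]; omega]
  exact sum_congr rfl fun k _ => sum_congr rfl fun j _ => by ring

end ok

namespace Nm

variable {D : CD} {τ0 : ℝ} {P : ℕ} {A : ℕ → ℝ} {Λ ε : ℝ} (N : Nm D τ0 P A Λ ε) (h : D.Ok τ0)
include N h

theorem lw_sq {j : ℕ} (hj : j ∈ D.up) : D.lw (fun k => D.e k * √(D.v k k)) j ^ 2 ≤ ε :=
  (pow_le_pow_left₀ (h.lw0 (ev0 h) j) (lw_le h (ev0 h) (mem_up.1 hj).2.le) 2).trans (N.Iev h)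

/-! ### the label part -/

theorem split {t : ℕ} (ht : t ∈ D.up) : E42.omS D t = D.dx t * aD D P t + rho D P t := by
  rw [E42.omS, E42.mv, aD, rho]
  split_ifs with hP
  · rcases (h.dx0 t).eq_or_lt with z | z
    · have := N.ck t ht hP
      rw [← z, mul_zero] at this
      rw [← z, show D.sig (t + 1) - D.sig t = 0 from le_antisymm this (R85.ds0 h (mem_up.1 ht).2)]
      simp
    · field_simp
      ring
  · ring

theorem aD_le {t : ℕ} (ht : t ∈ D.up) : |aD D P t| ≤ 2 * Λ * D.e t := by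
  have L0 := N.L0 h
  have e0 := h.e0 t
  have m := mem_up.1 ht
  have s0 := h.sig0 m.2.le
  have s1 : D.sig t ≤ Λ * D.e t := by
    rcases min_le_iff.1 (h.esc t ht) with k | k
    · have := mul_le_mul_of_nonneg_left k L0
      have := N.la
      rw [E42.La] at this
      linarith [h.sig_le m.2.le le_rfl]
    · linarith [h.ex0 t, mul_le_mul_of_nonneg_right (N.L1 h) e0]
  have p := mul_nonneg L0 e0
  rw [aD]
  split_ifs with hP
  · have a0 := div_nonneg (mul_nonneg (h.ex0 t) (R85.ds0 h m.2)) (mul_nonneg zero_le_two (h.dx0 t))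
    have a1 : ex D.B t * R85.ds D t / (2 * D.dx t) ≤ Λ * D.e t :=
      div_le_of_le_mul₀ (mul_nonneg zero_le_two (h.dx0 t)) p (by
        have := mul_le_mul (ex_e h ht) (N.ck t ht hP) (R85.ds0 h m.2) e0
        linarith [mul_nonneg p (h.dx0 t)])
    rw [abs_of_nonneg (add_nonneg s0 a0)]
    linarith
  · rw [add_zero, abs_of_nonneg s0]
    linarith

theorem J1 {a : ℕ → ℝ} (ha : ∀ j ∈ D.up, 0 ≤ a j) {y : ℝ} (k : D.I (fun j => D.e j * a j) ≤ y) :
    Jw D (fun t => D.dx t * aD D P t) a ≤ 2 * Λ * y := by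
  refine le_trans ?_ (mul_le_mul_of_nonneg_left k (mul_nonneg zero_le_two (N.L0 h)))
  rw [Jw, CD.I, mul_sum]
  refine sum_le_sum fun j hj => ?_
  rw [abs_mul, abs_of_nonneg (h.dx0 j)]
  linarith [mul_le_mul_of_nonneg_left (N.aD_le h hj) (mul_nonneg (h.dx0 j) (ha j hj))]

theorem J2 {a b : ℕ → ℝ} (ha : ∀ j ∈ D.up, 0 ≤ a j) (e : ∀ j ∈ D.up, a j ≤ b j) {y : ℝ}
    (k : D.I b ≤ y) : Jw D (fun t => D.dx t * aD D P t) a ≤ 2 * Λ ^ 2 * y :=
  (N.J1 h ha ((h.I_mono fun j hj => mul_le_mul (N.eB j hj) (e j hj) (ha j hj) (N.L0 h)).trans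
    ((D.I_mul Λ b).trans_le (mul_le_mul_of_nonneg_left k (N.L0 h))))).trans_eq (by ring)

theorem e2A : D.I (fun t => D.e t ^ 2 * A t) ≤ Λ * ε :=
  (h.I_mono (b := fun t => Λ * (D.e t * A t)) fun t ht => by
    linarith [mul_le_mul_of_nonneg_right (N.eB t ht) (mul_nonneg (h.e0 t) (N.add.1 t))]).trans
    ((D.I_mul _ _).trans_le (mul_le_mul_of_nonneg_left N.eA (N.L0 h)))

theorem a_sq {t : ℕ} (ht : t ∈ D.up) : aD D P t ^ 2 ≤ 4 * Λ ^ 2 * D.e t ^ 2 := by
  have := pow_le_pow_left₀ (abs_nonneg _) (N.aD_le h ht) 2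
  rw [sq_abs] at this
  linarith

theorem ff : D.I (fun j => D.f0 j * (D.f0 j + D.sv D.f0 D.J)) ≤ ε := by
  have := mul_le_mul_of_nonneg_left (I_sv h h.f00) (h.sv0 h.f00 D.J)
  simp only [mul_add, ← sq, mul_comm _ (D.sv D.f0 D.J)]
  rw [D.I_add, D.I_mul]
  linarith [N.VF h]

theorem mkL : Mk D (fun t => D.dx t * aD D P t) (2 * Λ ^ 2) (30 * (Λ ^ 6 * ε)) := by
  have L0 := N.L0 h
  have L1 := N.L1 h
  have ε0 := N.ε0 h
  have p : 0 ≤ Λ ^ 6 * ε := by positivity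
  have p0 := N.pw h (i := 0) (j := 1) (by norm_num)
  have p1 := N.pw h (i := 1) (j := 6) (by norm_num)
  have p2 := N.pw h (i := 2) (j := 6) (by norm_num)
  have p3 := N.pw h (i := 3) (j := 6) (by norm_num)
  have n1 := h.N10
  have n2 := h.N20
  have s0 := h.sv0 h.f00 D.J
  have m8 := N.J2 h (fun j _ => mul_nonneg (h.f00 j) (add_nonneg (h.f00 j) s0))
    (fun _ _ => le_rfl) (N.ff h)
  refine ⟨(N.J2 h (fun _ _ => zero_le_one) (fun _ _ => le_rfl) (I_one h)).trans_eq (mul_one _),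
    ?_, ?_, ?_, ?_, ?_, ?_, by linarith⟩
  · refine (N.J2 h (y := 5 * ε) (fun j _ => by
      obtain ⟨h1, h2, h3, h4, h5, h6, h7⟩ := h.Iw_parts j; linarith)
      (b := fun j => D.dx j + D.X ^ 4 * D.g j + (D.X ^ 3 * D.g j ^ 2 + D.X ^ 3 * D.N1 * D.g j) +
        (D.u 4 j + D.u 5 j) + D.u 2 j * D.fs D.F0 j) (fun j _ => by linarith) ?_).trans (by linarith)
    rw [D.I_add, D.I_add, D.I_add, D.I_add, D.I_add, D.I_mul, D.I_mul, D.I_mul]
    have a := h.XN1_le
    have b := h.XN2_le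
    unfold CD.N2 at b
    unfold CD.N1 at a b ⊢
    linarith [N.E0 h, h.dx_le, h.I45_le, h.uF_le]
  · refine (N.J2 h (y := 5 * (Λ * ε)) (fun j _ => by
      obtain ⟨h0, h1, h2, h3, h4⟩ := h.Cub_parts j
      have := D.g0 j
      have := h.e0 j
      positivity) (b := fun j => (2 * Λ * D.N2 + Λ * D.N1 ^ 2) * D.g j + 2 * Λ * D.N1 * D.g j ^ 2)
      (fun j hj => ?_) ?_).trans (by linarith)
    · have m := mem_up.1 hj
      have g0 := D.g0 j
      have a0 : D.hi D.g j ≤ D.N1 := hi_le h D.g0 m.1.le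
      have a1 := mul_le_mul (mul_le_mul_of_nonneg_right (N.eB j hj) (sq_nonneg (D.g j)))
        a0 (h.hi0 D.g0 j) (by positivity)
      have a2 : D.hi (fun t => D.g t ^ 2) j ≤ D.N2 := hi_le h (fun t => sq_nonneg (D.g t)) m.1.le
      have a3 : D.lw (fun t => D.e t * D.g t ^ 2) j ≤ Λ * D.N2 :=
        (lw_le h (fun t => mul_nonneg (h.e0 t) (sq_nonneg (D.g t))) m.2.le).trans
        ((h.I_mono fun t ht => mul_le_mul_of_nonneg_right (N.eB t ht) (sq_nonneg (D.g t))).trans_eq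
          (D.I_mul _ _))
      have a4 : D.lw (fun t => D.e t * D.g t) j ≤ Λ * D.N1 :=
        (lw_le h (fun t => mul_nonneg (h.e0 t) (D.g0 t)) m.2.le).trans
        ((h.I_mono fun t ht => mul_le_mul_of_nonneg_right (N.eB t ht) (D.g0 t)).trans_eq
          (D.I_mul _ _))
      have a5 := mul_le_mul_of_nonneg_left (add_le_add (add_le_add a2 a3)
        (mul_le_mul_of_nonneg_left a4 (add_nonneg g0 n1))) g0
      have a6 := mul_le_mul_of_nonneg_right L1 (mul_nonneg g0 n2)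
      change D.e j * D.g j ^ 2 * D.hi D.g j + D.g j * (D.hi (fun t => D.g t ^ 2) j +
        D.lw (fun t => D.e t * D.g t ^ 2) j + (D.g j + D.N1) * D.lw (fun t => D.e t * D.g t) j) ≤ _
      linarith
    · rw [D.I_add, D.I_mul, D.I_mul]
      have a := mul_le_mul_of_nonneg_left N.nn L0
      have b := mul_le_mul_of_nonneg_left (N.N13 h) L0
      unfold CD.N2 at a ⊢
      unfold CD.N1 at a b ⊢
      linarith
  · refine (N.J1 h (y := 2 * ε) (fun t _ => add_nonneg (mul_nonneg (h.e0 t) (D.v0 t t))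
      (h.sv_low0 _ _)) ?_).trans (by linarith)
    simp only [mul_add, ← mul_assoc, ← sq]
    rw [D.I_add]
    linarith [N.e2v h, N.eS h]
  · refine Or.inr ⟨aD D P, D.e, A, fun _ _ => rfl, N.ep h, h.emono, N.add, ?_⟩
    have A0 := N.add.1
    have b1 : D.I (fun t => aD D P t ^ 2 * A t / D.e t + D.e t * A t) ≤ 5 * (Λ ^ 3 * ε) := by
      refine (h.I_mono (b := fun t => 5 * Λ ^ 2 * (D.e t * A t)) fun t ht => ?_).trans ?_
      · have a1 : aD D P t ^ 2 * A t / D.e t ≤ 4 * Λ ^ 2 * (D.e t * A t) := by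
          rw [div_le_iff₀ (N.ep h t)]
          linarith [mul_le_mul_of_nonneg_right (N.a_sq h ht) (A0 t)]
        linarith [mul_le_mul_of_nonneg_right (one_le_pow₀ (n := 2) L1) (mul_nonneg (h.e0 t) (A0 t))]
      · rw [D.I_mul]
        linarith [mul_le_mul_of_nonneg_left N.eA (sq_nonneg Λ), N.pw h (i := 2) (j := 3) (by norm_num)]
    have b2 : √(D.I fun t => aD D P t ^ 2 * A t) ^ 2 ≤ 4 * (Λ ^ 3 * ε) := by
      rw [sq_sqrt (h.I0 fun t _ => mul_nonneg (sq_nonneg _) (A0 t))]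
      refine (h.I_mono (b := fun t => 4 * Λ ^ 2 * (D.e t ^ 2 * A t)) fun t ht => by
        linarith [mul_le_mul_of_nonneg_right (N.a_sq h ht) (A0 t)]).trans ?_
      rw [D.I_mul]
      linarith [mul_le_mul_of_nonneg_left (N.e2A h) (sq_nonneg Λ)]
    have b3 := ss ((sq_sqrt (h.I0 fun t _ => mul_nonneg (sq_nonneg _) (A0 t))).trans_le (N.e2A h)) b2
    have b4 := ss (N.sf h) b2
    have b5 := ss (N.Iev h) b2
    have p13 := N.pw h (i := 1) (j := 3) (by norm_num)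
    have v0 : 0 ≤ 1 + D.sv (fun _ => 1) D.J := add_nonneg zero_le_one (h.sv0 (fun _ => zero_le_one) _)
    have b6 := mul_le_mul (mul_le_mul N.lK (pow_le_pow_left₀ v0 N.V 2) (sq_nonneg _) L0)
      (show D.I (fun t => aD D P t ^ 2 * A t / D.e t + D.e t * A t) +
        (√(D.I fun t => D.e t ^ 2 * A t) + D.sv D.f0 D.J) * √(D.I fun t => aD D P t ^ 2 * A t) +
        D.I (fun t => D.e t * √(D.v t t)) * √(D.I fun t => aD D P t ^ 2 * A t) ≤
        13 * (Λ ^ 3 * ε) by linarith)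
      (add_nonneg (add_nonneg (h.I0 fun t _ => add_nonneg (div_nonneg (mul_nonneg (sq_nonneg _)
        (A0 t)) (h.e0 t)) (mul_nonneg (h.e0 t) (A0 t))) (by positivity))
        (mul_nonneg (h.I0 fun t _ => ev0 h t) (sqrt_nonneg _))) (by positivity)
    exact show log (D.K + 2) * (1 + D.sv (fun _ => 1) D.J) ^ 2 *
      (D.I (fun t => aD D P t ^ 2 * A t / D.e t + D.e t * A t) +
        (√(D.I fun t => D.e t ^ 2 * A t) + D.sv D.f0 D.J) * √(D.I fun t => aD D P t ^ 2 * A t)) +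
      Jw D (fun t => D.dx t * aD D P t) (fun j => D.f0 j * (D.f0 j + D.sv D.f0 D.J)) + _ ≤ _ by
        linarith
  · refine (N.J2 h (y := ε) (fun j _ => le_min (mul_nonneg (D.g0 j) (h.lw0 (fun _ => sq_nonneg _) j))
      (mul_nonneg (sqrt_nonneg _) (h.lw0 (fun _ => sqrt_nonneg _) j)))
      (b := fun j => D.N2 * D.g j) (fun j hj => (min_le_left _ _).trans
        ((mul_le_mul_of_nonneg_left (lw_le h (fun t => sq_nonneg (D.g t)) (mem_up.1 hj).2.le)
          (D.g0 j)).trans_eq (mul_comm _ _))) ?_).trans (by linarith)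
    rw [D.I_mul, mul_comm]
    exact N.nn
  · refine (N.J1 h (y := 5 * (Λ * ε)) (fun j _ => mul_nonneg (sqrt_nonneg _) (add_nonneg (add_nonneg
      (add_nonneg (h.f00 j) s0) (h.lw0 (ev0 h) j)) (h.hi0 (fun _ => sqrt_nonneg _) j))) ?_).trans
      (by linarith)
    refine (h.I_mono (b := fun j => 2 * (D.e j ^ 2 * D.v j j) + D.f0 j ^ 2 / 2 + ε +
      D.e j * √(D.v j j) * D.hi (fun k => √(D.v k k)) j) fun j hj => ?_).trans ?_
    · linarith [ss (ev_sq h j).le (le_refl (D.f0 j ^ 2)), ss (ev_sq h j).le (N.sf h),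
        ss (ev_sq h j).le (N.lw_sq h hj), mul_nonneg (sq_nonneg (D.e j)) (D.v0 j j)]
    · simp only [div_eq_inv_mul]
      rw [D.I_add, D.I_add, D.I_add, D.I_mul, D.I_mul, swap h]
      linarith [N.e2v h, N.If h, N.hardy h, h.I_le ε0 fun _ _ => le_refl ε]

theorem wkL : WK D (fun t => D.dx t * aD D P t) √(16 * (Λ ^ 3 * ε)) := by
  have L0 := N.L0 h
  have ε0 := N.ε0 h
  refine wk_den h (sqrt_nonneg _) N.add (fun _ _ => rfl) (fun t ht => N.aD_le h ht) ?_
  simp only [mul_pow, mul_assoc (2 ^ 2 * Λ ^ 2)]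
  rw [sq_sqrt (by positivity), D.I_mul, D.I_mul]
  linarith [mul_le_mul_of_nonneg_left (N.e2A h) (sq_nonneg Λ),
    mul_le_mul_of_nonneg_left N.eu (sq_nonneg Λ), N.pw h (i := 2) (j := 3) (by norm_num)]

/-! ### the plateau and reveal part -/

theorem rho0 {t : ℕ} (ht : t ∈ D.up) : 0 ≤ rho D P t ∧
    rho D P t ≤ if P ≤ t then R85.ds D t else 0 := by
  have d := R85.ds0 h (mem_up.1 ht).2
  have a := mul_nonneg (h.ex0 t) d
  have b := mul_le_of_le_one_left d (ex1 h ht)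
  rw [rho]
  split_ifs with h1 h2 h2
  · omega
  · exact ⟨le_rfl, le_rfl⟩
  · constructor <;> linarith
  · omega

theorem Rv_eq (a : ℕ → ℝ) :
    R85.Rv D P a = ∑ t ∈ D.up, (if P ≤ t then R85.ds D t else 0) * a t := by
  simp only [ite_mul, zero_mul]
  rw [← sum_filter, R85.Rv]
  congr 1
  ext t
  have := N.JP
  simp only [mem_Ico, mem_filter, mem_Ioo]
  omega

theorem Jr {a : ℕ → ℝ} (ha : ∀ j, 0 ≤ a j) : Jw D (rho D P) a ≤ R85.Rv D P a := by
  rw [N.Rv_eq h]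
  exact sum_le_sum fun t ht => mul_le_mul_of_nonneg_right
    ((abs_of_nonneg (N.rho0 h ht).1).trans_le (N.rho0 h ht).2) (ha t)

theorem Jr1 : Jw D (rho D P) (fun _ => 1) ≤ Λ := by
  refine (N.Jr h fun _ => zero_le_one).trans ?_
  simp only [R85.Rv, mul_one]
  rw [sum_Ico_sub D.sig N.PK]
  have := N.la
  rw [E42.La] at this
  linarith [h.sig0 N.PK]

theorem Jru : Jw D (rho D P) (D.u 2) ≤ ε := (N.Jr h (D.u0 2)).trans N.mv

theorem J3 {a : ℕ → ℝ} {α β : ℝ} (α0 : 0 ≤ α) (β0 : 0 ≤ β)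
    (e : ∀ j ∈ D.up, P ≤ j → a j ≤ α * D.u 2 j + β) : Jw D (rho D P) a ≤ α * ε + β * Λ := by
  have a1 := mul_le_mul_of_nonneg_left (N.Jru h) α0
  have a2 := mul_le_mul_of_nonneg_left (N.Jr1 h) β0
  refine le_trans ?_ (add_le_add a1 a2)
  simp only [Jw, mul_sum, ← sum_add_distrib]
  refine sum_le_sum fun t ht => ?_
  by_cases hP : t < P
  · simp [rho, hP]
  · linarith [mul_le_mul_of_nonneg_left (e t ht (not_lt.1 hP)) (abs_nonneg (rho D P t))]

/-- the window below `P` -/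
theorem win : ∃ i, D.J < i ∧ i ≤ P ∧ 1 ≤ Λ * D.e i ∧ 1 ≤ Λ * ∑ t ∈ Ico i P, D.dx t := by
  have L0 := N.L0 h
  have JP := N.JP
  have xJ : Λ * ex D.B D.J ≤ 1 := (mul_le_mul_of_nonneg_left h.x1 L0).trans N.w1
  have mo : ∀ {i j}, i ≤ j → ex D.B i ≤ ex D.B j := fun {i j} k => by
    rw [← h.sum_dx i]; exact h.sum_dx_le fun t ht => by have := mem_range.1 ht; omega
  have ex' : ∃ i, 1 < Λ * ex D.B i := ⟨P - 1, by linarith [N.w2]⟩
  have k1 := Nat.find_spec ex'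
  have k2 : Nat.find ex' ≤ P - 1 := Nat.find_min' ex' (by linarith [N.w2])
  have k3 : D.J < Nat.find ex' := not_le.1 fun k =>
    (k1.trans_le ((mul_le_mul_of_nonneg_left (mo k) L0).trans xJ)).false
  have k4 := not_lt.1 (Nat.find_min ex' (show Nat.find ex' - 1 < Nat.find ex' by omega))
  generalize Nat.find ex' = i at k1 k2 k3 k4
  have PK := N.PK
  refine ⟨i, k3, by omega, k1.le.trans (mul_le_mul_of_nonneg_left
    (ex_e h (mem_up.2 ⟨k3, by omega⟩)) L0), ?_⟩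
  have e1 := h.sum_dx (P - 1)
  have e2 := h.sum_dx (i - 1)
  rw [show P - 1 + 1 = P by omega] at e1
  rw [show i - 1 + 1 = i by omega] at e2
  rw [sum_Ico_eq_sub _ (by omega), e1, e2]
  linarith [N.w2]

theorem pt {j : ℕ} (hj : j ∈ D.up) (hP : P ≤ j) : D.f0 j ^ 2 ≤ Λ * ε ∧
    ∑ y ∈ Ico 1 j, D.dx y * D.v y j ≤ 2 * (Λ ^ 2 * ε) ∧ ∀ t, j ≤ t → 1 ≤ Λ * D.e t := by
  obtain ⟨i, Ji, iP, e1, d1⟩ := N.win h
  have L0 := N.L0 h
  have PK := N.PK
  have m := mem_up.1 hj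
  have ee : ∀ t, i ≤ t → 1 ≤ Λ * D.e t := fun t k =>
    e1.trans (mul_le_mul_of_nonneg_left (h.e_mono k) L0)
  have sub : Ico i P ⊆ D.up := fun t ht => by have := mem_Ico.1 ht; exact mem_up.2 (by omega)
  have w : ∀ (x : ℝ) (F : ℕ → ℝ), 0 ≤ x → (∀ t ∈ D.up, 0 ≤ F t) → (∀ t ∈ Ico i P, x ≤ F t) →
      x ≤ Λ * D.I F := fun x F x0 F0 k => by
    refine (le_mul_of_one_le_left x0 d1).trans ?_
    rw [mul_assoc, sum_mul]
    exact mul_le_mul_of_nonneg_left ((sum_le_sum fun t ht =>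
      mul_le_mul_of_nonneg_left (k t ht) (h.dx0 t)).trans (sub_I h sub F0)) L0
  refine ⟨(w _ (fun t => D.f0 t ^ 2) (sq_nonneg _) (fun _ _ => sq_nonneg _) fun t ht =>
    pow_le_pow_left₀ (h.f00 j) (h.wk0.f_anti (by have := mem_Ico.1 ht; omega)) 2).trans
      (mul_le_mul_of_nonneg_left (N.If h) L0), ?_, fun t k => ee t (by omega)⟩
  have a1 := w (∑ y ∈ Ico 1 i, D.dx y * D.v y j)
    (fun t => Λ * (D.e t * ∑ y ∈ Ico 1 t, D.dx y * D.v y t)) (h.sv_low0 _ _)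
    (fun t _ => mul_nonneg L0 (mul_nonneg (h.e0 t) (h.sv_low0 _ _))) fun t ht => by
      have k := mem_Ico.1 ht
      rw [← mul_assoc]
      refine le_trans ?_ (le_mul_of_one_le_left (h.sv_low0 _ _) (ee t k.1))
      exact (sum_le_sum fun y hy => mul_le_mul_of_nonneg_left (v_anti h
        (by have := mem_Ico.1 hy; omega) (by omega)) (h.dx0 y)).trans
        (sum_le_sum_of_subset_of_nonneg (Ico_subset_Ico_right k.1) fun y _ _ =>
          mul_nonneg (h.dx0 y) (D.v0 y t))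
  rw [D.I_mul] at a1
  have a2 : ∑ y ∈ Ico i j, D.dx y * D.v y j ≤ D.I fun t => Λ ^ 2 * (D.e t ^ 2 * D.v t t) := by
    refine le_trans (sum_le_sum fun y hy => mul_le_mul_of_nonneg_left ?_ (h.dx0 y))
      (sub_I h (s := Ico i j) (fun t ht => by have := mem_Ico.1 ht; exact mem_up.2 (by omega))
        fun t _ => mul_nonneg (sq_nonneg _) (mul_nonneg (sq_nonneg _) (D.v0 t t)))
    have k := mem_Ico.1 hy
    rw [← mul_assoc, ← mul_pow]
    exact (v_anti h le_rfl k.2.le).trans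
      (le_mul_of_one_le_left (D.v0 y y) (one_le_pow₀ (ee y k.1)))
  rw [D.I_mul] at a2
  rw [← sum_Ico_consecutive _ (show 1 ≤ i by omega) (show i ≤ j by omega)]
  linarith [mul_le_mul_of_nonneg_left (N.eS h) (sq_nonneg Λ),
    mul_le_mul_of_nonneg_left (N.e2v h) (sq_nonneg Λ)]

theorem mkR : Mk D (rho D P) (2 * Λ ^ 2) (30 * (Λ ^ 6 * ε)) := by
  have L0 := N.L0 h
  have L1 := N.L1 h
  have ε0 := N.ε0 h
  have p : 0 ≤ Λ ^ 6 * ε := by positivity
  have p01 := N.pw h (i := 0) (j := 1) (by norm_num)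
  have p12 := N.pw h (i := 1) (j := 2) (by norm_num)
  have p0 := N.pw h (i := 0) (j := 6) (by norm_num)
  have p1 := N.pw h (i := 1) (j := 6) (by norm_num)
  have p2 := N.pw h (i := 2) (j := 6) (by norm_num)
  have p3 := N.pw h (i := 3) (j := 6) (by norm_num)
  have n1 := h.N10
  have X0 := h.X0
  have X6 := N.X6 h
  have X9 : (D.X ^ 3) ^ 3 ≤ ε := by
    linarith [pow_le_pow_of_le_one X0 h.X1 (show 6 ≤ 9 by norm_num)]
  have n3 := N.N13 h
  have sf := N.sf h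
  have g3 : ∀ j ∈ D.up, D.g j ^ 3 ≤ 2 * D.u 2 j := fun j hj => D.g_cube j ▸ u_succ h hj 2
  have b0 : ∀ t ∈ D.up, 0 ≤ D.e t * D.g t ^ 3 := fun t _ => mul_nonneg (h.e0 t) (pow_nonneg (D.g0 t) 3)
  refine ⟨(N.Jr1 h).trans (by nlinarith), ?_, ?_, ?_, Or.inl ?_, ?_, ?_, ?_⟩
  · refine (N.J3 h (α := 19 * Λ ^ 2) (β := 5 * ε) (by positivity) (by positivity)
      fun j hj hP => ?_).trans (by linarith)
    have u0 := D.u0 2 j
    have a1 := y2 (D.g0 j) (sq_nonneg D.X)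
    have a2 := y2 (pow_nonneg X0 3) (D.g0 j)
    have a3 := y3 (pow_nonneg X0 3) (D.g0 j) n1
    have a4 := mul_le_mul_of_nonneg_left (N.fs h h.F00 h.wk0.F_anti N.F (mem_up.1 hj).1.le) u0
    have a5 := mul_le_mul_of_nonneg_right (one_le_pow₀ (n := 2) L1) u0
    linarith [g3 j hj, u_succ h hj 2, u_succ h hj 3, u_succ h hj 4, N.dx j hj hP]
  · refine (N.J3 h (α := 10 * Λ) (β := 5 * (Λ * ε)) (by positivity) (by positivity)
      fun j hj hP => ?_).trans (by linarith)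
    have m := mem_up.1 hj
    have g0 := D.g0 j
    have gj := pow_nonneg g0 3
    have s1 : Ioo j D.K ⊆ D.up := Ioo_subset_Ioo_left m.1.le
    have s2 : Ioo D.J j ⊆ D.up := Ioo_subset_Ioo_right m.2.le
    have a0 : D.hi D.g j ≤ D.N1 := hi_le h D.g0 m.1.le
    have a1 := mul_le_mul (mul_le_mul_of_nonneg_right (N.eB j hj) (sq_nonneg (D.g j)))
      a0 (h.hi0 D.g0 j) (by positivity)
    have a1' := mul_le_mul_of_nonneg_left (y2 n1 g0) L0
    have a2 : D.g j * D.hi (fun t => D.g t ^ 2) j ≤ _ := part h s1 gj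
      (b := fun t => Λ * (D.e t * D.g t ^ 3)) (fun t ht => mul_nonneg L0 (b0 t ht)) fun t ht => by
        linarith [y2 g0 (D.g0 t), mul_le_mul_of_nonneg_right ((N.pt h hj hP).2.2 t
          (mem_Ioo.1 ht).1.le) (pow_nonneg (D.g0 t) 3)]
    rw [D.I_mul] at a2
    have a3 : D.g j * D.lw (fun t => D.e t * D.g t ^ 2) j ≤ _ := part h s2 (mul_nonneg L0 gj) b0
      fun t ht => by linarith [mul_le_mul_of_nonneg_left (y2 g0 (D.g0 t)) (h.e0 t),
        mul_le_mul_of_nonneg_right (N.eB t (s2 ht)) gj]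
    have a4 : D.g j ^ 2 * D.lw (fun t => D.e t * D.g t) j ≤ _ := part h s2 (mul_nonneg L0 gj) b0
      fun t ht => by linarith [mul_le_mul_of_nonneg_left (y2 (D.g0 t) g0) (h.e0 t),
        mul_le_mul_of_nonneg_right (N.eB t (s2 ht)) gj]
    have a5 : D.lw (fun t => D.e t * D.g t) j ≤ Λ * D.N1 :=
      (lw_le h (fun t => mul_nonneg (h.e0 t) (D.g0 t)) m.2.le).trans
      ((h.I_mono fun t ht => mul_le_mul_of_nonneg_right (N.eB t ht) (D.g0 t)).trans_eq
        (D.I_mul _ _))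
    have a6 := mul_le_mul_of_nonneg_left a5 (mul_nonneg g0 n1)
    have a7 := mul_le_mul_of_nonneg_left (y2 g0 n1) L0
    have a8 := mul_le_mul_of_nonneg_left (g3 j hj) L0
    have a9 := mul_le_mul_of_nonneg_right L1 gj
    change D.e j * D.g j ^ 2 * D.hi D.g j + D.g j * (D.hi (fun t => D.g t ^ 2) j +
      D.lw (fun t => D.e t * D.g t ^ 2) j + (D.g j + D.N1) * D.lw (fun t => D.e t * D.g t) j) ≤ _
    linarith [N.g3 h, mul_le_mul_of_nonneg_left (N.g3 h) L0, mul_le_mul_of_nonneg_left n3 L0]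
  · refine (N.J3 h (α := Λ) (β := 2 * (Λ ^ 2 * ε)) L0 (by positivity)
      fun j hj hP => ?_).trans (by linarith)
    exact add_le_add (mul_le_mul (N.eB j hj) (v_le_u h.pos le_rfl) (D.v0 j j) L0) (N.pt h hj hP).2.1
  · refine (N.J3 h (α := 2) (β := 6 * (Λ * ε)) (by positivity) (by positivity)
      fun j hj hP => ?_).trans (by linarith)
    have u := (sq_sqrt (D.u0 2 j)).le
    have f := (N.pt h hj hP).1
    have l := N.lw_sq h hj
    change (√(D.u 2 j) + D.f0 j) *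
      (D.f0 j + D.sv D.f0 D.J + D.lw (fun t => D.e t * √(D.v t t)) j) ≤ _
    linarith [ss u f, ss u sf, ss u l, ss f f, ss f sf, ss f l, D.u0 2 j]
  · refine (N.J3 h (α := 1) (β := ε) (by positivity) ε0 fun j hj hP =>
      (min_le_right _ _).trans ?_).trans (by linarith)
    have a := I_sq h fun j => √(D.u 4 j)
    simp only [sq_sqrt (D.u0 4 _)] at a
    have b := (pow_le_pow_left₀ (h.lw0 (fun t => sqrt_nonneg (D.u 4 t)) j)
      (lw_le h (fun t => sqrt_nonneg (D.u 4 t)) (mem_up.1 hj).2.le) 2).trans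
      (a.trans (h.Iu4_le.trans (N.E0 h)))
    linarith [ss (sq_sqrt (D.u0 2 j)).le b, D.u0 2 j]
  · refine (N.J3 h (α := 2) (β := 2 * (Λ ^ 2 * ε)) (by positivity) (by positivity)
      fun j hj hP => ?_).trans (by linarith)
    have u := (sq_sqrt (D.v0 j j)).trans_le (v_le_u (D := D) h.pos (le_refl j))
    have a : D.hi (fun k => √(D.v k k)) j ≤ Λ * D.I fun k => D.e k * √(D.v k k) := by
      rw [← D.I_mul]
      refine le_trans (sum_le_sum fun t ht => mul_le_mul_of_nonneg_left ?_ (h.dx0 t))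
        (sub_I h (Ioo_subset_Ioo_left (mem_up.1 hj).1.le) fun t _ => mul_nonneg L0 (ev0 h t))
      rw [← mul_assoc]
      exact le_mul_of_one_le_left (sqrt_nonneg _) ((N.pt h hj hP).2.2 t (mem_Ioo.1 ht).1.le)
    have b := pow_le_pow_left₀ (h.hi0 (fun _ => sqrt_nonneg _) j) a 2
    rw [mul_pow] at b
    linarith [ss u (N.pt h hj hP).1, ss u sf, ss u (N.lw_sq h hj),
      ss u (b.trans (mul_le_mul_of_nonneg_left (N.Iev h) (sq_nonneg Λ)))]
  · refine (N.J3 h (α := 0) (β := 2 * (Λ * ε)) le_rfl (by positivity)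
      fun j hj hP => ?_).trans (by linarith)
    have f := (N.pt h hj hP).1
    linarith [ss f f, ss f sf]

theorem wkR : WK D (rho D P) √(16 * (Λ ^ 3 * ε)) := by
  have L0 := N.L0 h
  have ε0 := N.ε0 h
  refine wk_any (sqrt_nonneg _) (w := Λ) (m := ε) (by simpa [Jw] using N.Jr1 h) (N.Jru h) ?_
  rw [sq_sqrt (by positivity)]
  linarith [N.pw h (i := 1) (j := 3) (by norm_num), show 0 ≤ Λ ^ 3 * ε by positivity]

end Nm

/-- **the test head in the direction `ω*`** -/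
theorem dT_om (H : HT) (τ0 : ℝ) : ∃ C : ℝ, 0 ≤ C ∧ ∀ (D : CD) (P : ℕ) (A : ℕ → ℝ) (Λ ε : ℝ),
    D.Ok τ0 → Nm D τ0 P A Λ ε → |E42.dT D (E42.omS D)| ≤ C * (Λ ^ 6 * ε) := by
  obtain ⟨C, C0, k⟩ := dT_mk H τ0
  refine ⟨2 * C, by positivity, fun D P A Λ ε h N => ?_⟩
  have L0 := N.L0 h
  have ε0 := N.ε0 h
  have q := (sq_sqrt (show 0 ≤ 16 * (Λ ^ 3 * ε) by positivity)).le
  have a := k D P A Λ ε h N _ _ (N.mkL h) (sqrt_nonneg _) q (N.wkL h)
  have b := k D P A Λ ε h N _ _ (N.mkR h) (sqrt_nonneg _) q (N.wkR h)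
  rw [dT_congr (fun t ht => N.split h ht), E42.dT_add]
  linarith [abs_add_le (E42.dT D fun t => D.dx t * aD D P t) (E42.dT D (rho D P))]

end Crest.Agent.T156.Cas.C40.R40

end
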