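import Crest.Agent.T156.R2TD_42
import Crest.Agent.T156.R2T_40
import Crest.Agent.T156.R2K_30
import Crest.Agent.T156.R2Hm_42

/-!
# Row 156, R2: the test head in the direction `ω*` on the END model (`TeS`) (helper42)
-/

set_option autoImplicit false

noncomputable section

namespace Crest.Agent.T156.Alt.R2

open Real Finset
open Crest.Agent.T157.E Crest.Agent.T157.Casc Crest.Agent.T157.SL
open Crest.Agent.T156.Cas Crest.Agent.T156.Cas.C40 Md67 CIn12

namespace T42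

variable {D : CD} {τ0 : ℝ}

/-- sums against the clock `dv` for an antitone weight, constant `τ` on UP -/
theorem sv_ck (h : D.Ok τ0) (hτ : ∀ t ∈ D.up, t ≠ D.J + 1 → D.τ t = D.τ (t - 1)) {F : ℕ → ℝ}
    (F0 : ∀ t ∈ D.up, 0 ≤ F t) (Fm : ∀ t ∈ D.up, t ≠ D.J + 1 → F t ≤ F (t - 1)) {B : ℝ} (B0 : 0 ≤ B)
    (hB : D.J + 1 < D.K → D.e (D.J + 1) * F (D.J + 1) ≤ B) : D.sv F D.J ≤ B + 2 * E42.Ck D F := by
  have c0 := R85.Ck0 h F0
  rcases (show D.J + 1 ≤ D.K from h.cut).eq_or_lt with e | e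
  · rw [CD.sv, sum_eq_zero fun t ht => by have := mem_Ioo.1 ht; omega]
    linarith
  obtain ⟨k, hk⟩ : ∃ k, D.K = k + 1 := ⟨D.K - 1, by omega⟩
  have up : D.up = Ico (D.J + 1) D.K := rfl
  have a1 : ∑ t ∈ Ico (D.J + 1 + 1) D.K, (R85.ds D (t - 1) + D.dx (t - 1)) * F (t - 1) ≤
      E42.Ck D F := by
    rw [hk, ← sum_Ico_add' _ (D.J + 1) k 1]
    refine le_trans (le_of_eq (sum_congr rfl fun t _ => ?_)) (sum_le_sum_of_subset_of_nonneg
      (f := fun t => E42.ck D t * F t) (s := Ico (D.J + 1) k) (t := D.up)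
      (fun t ht => by have := mem_Ico.1 ht; exact CD.mem_up.2 (by omega))
      fun t ht _ => mul_nonneg (R85.ck0 h ht) (F0 t ht))
    rw [Nat.add_sub_cancel, E42.ck, add_comm (R85.ds D t)]
  have a2 : ∑ t ∈ Ico (D.J + 1 + 1) D.K, D.dx t * F t ≤ E42.Ck D F := by
    refine le_trans (sum_le_sum fun t ht => ?_) (sum_le_sum_of_subset_of_nonneg
      (f := fun t => E42.ck D t * F t) (s := Ico (D.J + 1 + 1) D.K) (t := D.up)
      (fun t ht => by have := mem_Ico.1 ht; exact CD.mem_up.2 (by omega))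
      fun t ht _ => mul_nonneg (R85.ck0 h ht) (F0 t ht))
    have m := mem_Ico.1 ht
    exact mul_le_mul_of_nonneg_right (le_add_of_nonneg_right (R85.ds0 h m.2))
      (F0 t (CD.mem_up.2 (by omega)))
  have a3 : ∑ t ∈ Ico (D.J + 1 + 1) D.K, D.dv t * F t ≤ ∑ t ∈ Ico (D.J + 1 + 1) D.K,
      ((R85.ds D (t - 1) + D.dx (t - 1)) * F (t - 1) + D.dx t * F t) := by
    refine sum_le_sum fun t ht => ?_
    have m := mem_Ico.1 ht
    have u : t ∈ D.up := CD.mem_up.2 (by omega)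
    have := mul_le_mul_of_nonneg_left (Fm t u (by omega))
      (add_nonneg (R85.ds0 h (show t - 1 < D.K by omega)) (h.dx0 (t - 1)))
    rw [CD.dv, if_neg (by omega), hτ t u (by omega), sub_self, add_zero]
    rw [R85.ds, Nat.sub_add_cancel (by omega)] at this ⊢
    linarith
  rw [sum_add_distrib] at a3
  rw [CD.sv, show Ioo D.J D.K = Ico (D.J + 1) D.K from rfl, sum_eq_sum_Ico_succ_bot e, CD.dv,
    if_pos le_rfl]
  linarith [hB e]

theorem Ck_one (h : D.Ok τ0) : E42.Ck D (fun _ => 1) ≤ E42.La D := by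
  have a := h.sum_dx_one (A := D.up) fun i hi => (CD.mem_up.1 hi).2.le
  have b := h.sig0 (Nat.succ_le_of_lt h.cut)
  simp only [E42.Ck, E42.ck, mul_one, sum_add_distrib]
  rw [show D.up = Ico (D.J + 1) D.K from rfl, sum_Ico_sub D.sig h.cut, E42.La]
  rw [show D.up = Ico (D.J + 1) D.K from rfl] at a
  linarith

end T42

variable {p : Pm} {P : Pl} {m : ℕ} {a : ℝ}

theorem dT_env (E E' : CIn12.Ev) : E42.dT (D p P m a E) (E42.omS (D p P m a E)) =
    E42.dT (D p P m a E') (E42.omS (D p P m a E')) := rfl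

set_option maxHeartbeats 800000 in
/-- **`TeS`** -/
theorem teS_of {β : ℝ} (hβ : 1 < β) (H : HT) (V : ValX β) (Z : PzS β) : TeS β := by
  obtain ⟨C1, c1, hd⟩ := R40.dT_om H (β ^ 2)
  have Y := hmS hβ
  unfold ValX at V
  unfold PzS EvA at Z
  unfold HmS EvA at Y
  unfold TeS EvA
  refine Sml.glueC hβ (enS hβ) (Sml.and (Sml.and V Z) Y) fun C hC c0 C0 h0 h1 =>
    ⟨2, fun A hA => ⟨1 / 100000, by norm_num, fun c hc c0' => ⟨c, c0', fun η _ η0 =>
      ⟨C + C1, fun p R Q W => ?_⟩⟩⟩⟩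
  obtain ⟨⟨v, z⟩, hm⟩ := W
  intro P m a E ad mu _ rv
  have e := Q R.r_le_ye P ad.sp
  obtain ⟨E', ad', er, -, nn, ⟨AA, add, eA⟩, F0⟩ := v P m a ad.sp ad.inn
  obtain ⟨z, -⟩ := z P m a E' ad'
  have hm := hm P m a E' ad'
  have ok := ad'.ok
  rw [R.hβ] at ok
  rw [dT_env E E']
  have mu' : R85.muU (D p P m a E') (E42.τ (D p P m a E')) ≤ gn p 250 * un p := by
    rw [τ_D]; exact mu
  have rv' : R85.Rv (D p P m a E') (p.J + 1) ((D p P m a E').u 2) ≤ gn p 300 * un p := rv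
  have C0' : 0 < C := by linarith
  have CΛ : C ≤ (p.n : ℝ) ^ η := by linarith [R.K_le]
  have ηc := R.η_le
  have N0 := R.N0
  have Λ0 := R.Λ0
  have k0 := kk0 R
  have u0 := un0 R
  have κ0 := R.κ0
  have t0 := t10 R
  have g2 := gn0 R 200
  have g25 := gn0 R 250
  have g3 := gn0 R 300
  have g7 := gn0 R 700
  have lk := lg_kk R
  have lu := lg_un R
  have ls := R.lg_s
  have lΛ := R.lg_rp η
  have l4 := (R.lg_num (x := 4) (by norm_num) (by norm_num)).2
  have jc1 := jc_lt R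
  have jf1 := jf_lt R
  have i3 : p.J ≤ p.Jp P := e.cl.i3
  have i4 : p.Jp P < (Me p P).N := e.cl.i4
  have G := e.lg R ad.inn
  obtain ⟨Λ, hΛ⟩ : ∃ Λ, Λ = (p.n : ℝ) ^ η := ⟨_, rfl⟩
  have Λk : Λ ^ 4 ≤ kk p := by
    rw [hΛ]
    refine R.le_of_lg (by positivity) k0 ?_
    rw [logb_pow]; push_cast; linarith
  have Λ1 : 1000 ≤ Λ := hΛ ▸ R.num_le
  have Λ2 : 1000 * Λ ≤ Λ ^ 2 := by nlinarith
  have Λ3 : 1000 * Λ ^ 2 ≤ Λ ^ 3 := by nlinarith
  have Λ4 : 1000 * Λ ^ 3 ≤ Λ ^ 4 := by nlinarith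
  have la : E42.La (D p P m a E') ≤ 2 * Λ ^ 3 := by
    have a1 : C * A * log p.n ≤ Λ * Λ * Λ := by
      rw [hΛ]
      exact mul_le_mul (mul_le_mul CΛ R.A_le (Nat.cast_nonneg _) Λ0.le) R.log_le
        (by linarith [R.log1]) (by positivity)
    rw [← hΛ] at CΛ
    nlinarith [e.La_le (E := E') R ad.inn]
  have la1 : 1 ≤ E42.La (D p P m a E') := le_add_of_nonneg_right (ok.sig0 le_rfl)
  have hτ : ∀ t ∈ (D p P m a E').up, t ≠ (D p P m a E').J + 1 →
      (D p P m a E').τ t = (D p P m a E').τ (t - 1) := fun t ht h => by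
    have m := CD.mem_up.1 ht
    rw [cd_K] at m
    obtain ⟨k, rfl⟩ : ∃ k, t = k + 1 + 1 := ⟨t - 2, by omega⟩
    rw [Nat.add_sub_cancel, cd_tau _ a _ _ E' (by omega), cd_tau _ a _ _ E' (by omega), tp_eq, tp_eq]
  have up1 : (D p P m a E').J + 1 < (D p P m a E').K → (D p P m a E').J + 1 ∈ (D p P m a E').up :=
    fun h => CD.mem_up.2 ⟨Nat.lt_succ_self _, h⟩
  have N : R40.Nm (D p P m a E') (β ^ 2) (p.J + 1) AA (4 * kk p) (gn p 300 * un p) := by
    refine ⟨rfl, ?_, z.JP, z.PK, ?_, by linarith, fun j hj => by linarith [z.eB j hj], ?_,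
      le_trans F0 (by linarith), fun t ht hP => (z.ck t ht hP).trans
        (mul_le_mul_of_nonneg_right (by linarith) (ok.dx0 t)), ?_, ?_, ?_, ?_, add, ?_,
      er.trans ?_, nn, eA, (z.Ie2 ok).trans ?_, rv', ?_, fun t ht _ => ?_⟩
    · rw [cd_X, ad'.env.X]; positivity
    · have := pow_le_pow_left₀ (sq_nonneg β) (hΛ ▸ R.β_le) 2
      linarith
    · have := T42.sv_ck ok hτ (F := fun _ => 1) (fun _ _ => zero_le_one) (fun _ _ _ => le_rfl) k0.le
        fun h => (mul_one _).trans_le (z.eB _ (up1 h))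
      linarith [T42.Ck_one ok]
    · have := T42.sv_ck ok hτ (F := fun j => 1 / (D p P m a E').e j)
        (fun t ht => (one_div_pos.2 (z.e0 t ht)).le) (fun t ht h => by
          have m := CD.mem_up.1 ht
          exact one_div_le_one_div_of_le (z.e0 _ (CD.mem_up.2 (by omega)))
            (ok.e_mono (Nat.sub_le t 1))) zero_le_one
        fun h => (mul_one_div_cancel (z.e0 _ (up1 h)).ne').le
      linarith [z.lg]
    · have a1 : ((Me p P).N : ℝ) ≤ (p.n : ℝ) ^ (p.A + 1) := e.cl.card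
      have a2 : (1 : ℝ) ≤ (p.n : ℝ) ^ (p.A + 1) := one_le_pow₀ R.N1.le
      have a3 : log (((D p P m a E').K : ℝ) + 2) ≤ log ((p.n : ℝ) ^ (p.A + 1 + 2)) := by
        refine log_le_log (by positivity) ?_
        rw [cd_K, pow_add]
        push_cast
        nlinarith [R.N3, mul_le_mul_of_nonneg_left (show (4 : ℝ) ≤ (p.n : ℝ) ^ 2 by
          nlinarith [R.N3]) (zero_le_one.trans a2)]
      rw [log_pow, R.hA] at a3
      push_cast at a3
      have a4 : ((A : ℝ) + 1 + 2) * log p.n ≤ (Λ + 3) * Λ :=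
        mul_le_mul (by linarith [hΛ ▸ R.A_le]) (hΛ ▸ R.log_le) (by linarith [R.log1]) (by linarith)
      nlinarith
    · rw [cd_X, ad'.env.X]
      refine R.le_of_lg (by positivity) one_pos ?_
      lg_norm
      linarith [lg_t1 R, R.lg_κ, ls.2]
    · have a1 : 1 / C ≤ (Me p P).z (p.J - 1) := e.cl.atom.1
      have a2 : ex (D p P m a E').B (p.J - 1 + 1) = (Me p P).z (p.J - 1) := ex_succ G.toLeg _
      rw [Nat.sub_add_cancel (by omega)] at a2
      rw [Nat.add_sub_cancel, a2]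
      rw [← hΛ] at CΛ
      rw [div_le_iff₀ C0'] at a1
      have z0 : 0 ≤ (Me p P).z (p.J - 1) := by
        by_contra hz
        nlinarith
      nlinarith [mul_le_mul_of_nonneg_left (show C ≤ kk p by linarith) z0]
    · refine R.le_of_lg (by positivity) one_pos ?_
      lg_norm
      linarith [lg_gn R 300, ls.2]
    · refine mul_le_mul_of_nonneg_right (Pre29.rp_le R.n1 (by norm_num)) u0.le
    · rw [one_div, inv_inv]
      refine (mul_le_mul_of_nonneg_left mu' k0.le).trans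
        (R.le_of_lg (by positivity) (by positivity) ?_)
      lg_norm
      linarith [lg_gn R 300, lg_gn R 250]
    · rw [cd_tl, ad'.env.tl]
      refine R.le_of_lg (by positivity) (by positivity) ?_
      rw [lg_sqrt _ (by positivity), R.lg_rp, logb_mul g3.ne' u0.ne']
      linarith [lg_gn R 300, ls.1, Nat.cast_nonneg (α := ℝ) p.A]
    · have a1 := (le_mul_of_one_le_right (ok.dx0 t) (one_le_pow₀ la1)).trans (hm.mshx t ht)
      have := ηH0 R
      refine a1.trans (R.le_of_lg (by positivity) (by positivity) ?_)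
      lg_norm
      linarith [lg_gn R 300, ls.1, lg_ηH R]
  refine (hd _ _ _ _ _ ok N).trans ((mul_le_mul_of_nonneg_right
    (show C1 ≤ (p.n : ℝ) ^ η by linarith [R.K_le]) (by positivity)).trans
    (R.le_of_lg (by positivity) (by positivity) ?_))
  simp (disch := positivity) only [logb_mul, logb_pow]
  push_cast
  linarith [lg_gn R 300, lg_gn R 700]

end Crest.Agent.T156.Alt.R2

end
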