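import Crest.Agent.T156.R2TpA_85
import Crest.Agent.T156.R2VD_23
import Crest.Agent.T156.R2K_30

/-!
# Row 156, R2 (helper85): the Riccati sums of the top block of the END model
-/

set_option autoImplicit false
set_option linter.unusedSectionVars false

noncomputable section

namespace Crest.Agent.T156.Alt.R2

open Real Finset
open Crest.Agent.T156.Alt.Md67 Crest.Agent.T156.Alt.Cost41 Crest.Agent.T156.Alt.Lb24
open Crest.Agent.T156.Alt.Tp85

/-- the field `top` of `En91.LocE` -/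
def LocT (β : ℝ) : Prop := Sml β fun _ p => ∀ P m a, p.SpOk (7 / 20) P → In p m a →
  ∑ k ∈ (Ioc p.jf (p.Jp P)).filter fun k => p.ye ≤ (Me p P).s k,
    ((Me p P).z k - (Me p P).z (k - 1)) * (Me p P).del m a k ^ 2 ≤
      p.s ^ 4 * (p.n : ℝ) ^ (22 * p.c - 13 / 20)

namespace Tp85

theorem ceil_bds {w v : ℝ} (v0 : 0 < v) (h : v ≤ w) : w ≤ ⌈w / v⌉₊ * v ∧ ⌈w / v⌉₊ * v ≤ 2 * w := by
  have h1 := Nat.le_ceil (w / v)
  have h2 := (Nat.ceil_lt_add_one (div_pos (v0.trans_le h) v0).le).le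
  rw [div_le_iff₀ v0] at h1
  rw [div_add_one v0.ne', le_div_iff₀ v0] at h2
  exact ⟨h1, by linarith⟩

/-- the final bound from monomial lines -/
theorem fin {S : Sc} {D m n1 n2 : ℕ} {x θ lm p γ w1 w2 Y1 Y2 Z L n T : ℝ} (C0 : 0 < S.C)
    (v0 : 0 < S.v) (x0 : 0 < x) (x1 : x ≤ 1) (θ0 : 0 < θ) (l0 : 0 < lm) (n0 : 0 < n) (hm : n ≤ m)
    (p0 : 0 < p) (γ0 : 0 < γ) (a0 : 0 < w1) (b0 : 0 < w2) (a1 : w1 ≤ n1 * S.v)
    (a2 : n1 * S.v ≤ 2 * w1) (b1 : w2 ≤ n2 * S.v) (b2 : n2 * S.v ≤ 2 * w2) (y1 : p ≤ Y2)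
    (y2 : γ ≤ Y2) (y3 : S.C * w2 ≤ Y2) (y4 : Y2 ≤ Y1) (y5 : S.C * w1 ≤ Y1) (z1 : 1 / w1 ≤ Z)
    (z2 : 7 * Y1 / w2 ≤ Z) (z3 : 14 * S.C * Y2 / lm ≤ Z) (hL : (D : ℝ) + 2 ≤ L)
    (t1 : 3 * (S.C / (x ^ 2 * w1 * θ * n)) ≤ T) (t2 : 54 * (L ^ 2 * Z * S.C / (x ^ 3 * θ * n)) ≤ T)
    (t3 : 9 * (L * S.C * S.v / (lm * x ^ 3)) ≤ T) :
    1 / (x * (n1 * (x * (θ * S.v / (S.C * 1))) * m)) + (2 + 1 / x) *
      (bb D m (RR S n1 n2 (x * (θ * S.v / (S.C * 1))) lm p γ) (S.C * S.v / lm) x / x) ≤ T := by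
  have m0 : (0 : ℝ) < m := n0.trans_le hm
  have n10 : (0 : ℝ) < n1 := (mul_pos_iff_of_pos_right v0).1 (a0.trans_le a1)
  have n20 : (0 : ℝ) < n2 := (mul_pos_iff_of_pos_right v0).1 (b0.trans_le b1)
  have Z0 : 0 < Z := lt_of_lt_of_le (by positivity) z1
  have D0 : (0 : ℝ) ≤ D := Nat.cast_nonneg D
  have L0 : 0 < L := by linarith
  have e1 : 1 / (x * (n1 * (x * (θ * S.v / (S.C * 1))) * m)) ≤ S.C / (x ^ 2 * w1 * θ * n) :=
    calc _ = S.C / (x ^ 2 * (n1 * S.v) * θ * m) := by field_simp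
      _ ≤ _ := by gcongr
  have r1 : 1 / (n1 : ℝ) ≤ S.v * Z :=
    calc _ = S.v * (1 / (n1 * S.v)) := by field_simp
      _ ≤ S.v * (1 / w1) := by gcongr
      _ ≤ _ := by gcongr
  have r2 : (2 * p + γ + 2 * S.C * (n1 * S.v)) / n2 ≤ S.v * Z :=
    calc _ = S.v * ((2 * p + γ + 2 * S.C * (n1 * S.v)) / (n2 * S.v)) := by field_simp
      _ ≤ S.v * (7 * Y1 / w2) := by
        gcongr
        · linarith
        · linarith [mul_le_mul_of_nonneg_left a2 C0.le]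
      _ ≤ _ := by gcongr
  have r3 : 2 * S.C * S.v / lm * (2 * p + γ + 2 * S.C * (n2 * S.v)) ≤ S.v * Z :=
    calc _ ≤ 2 * S.C * S.v / lm * (7 * Y2) := by
          gcongr
          linarith [mul_le_mul_of_nonneg_left b2 C0.le]
      _ = S.v * (14 * S.C * Y2 / lm) := by ring
      _ ≤ _ := by gcongr
  have r4 : RR S n1 n2 (x * (θ * S.v / (S.C * 1))) lm p γ ≤ 3 * Z * S.C / (x * θ) :=
    calc _ ≤ 3 * (S.v * Z) / (x * (θ * S.v / (S.C * 1))) :=
          div_le_div_of_nonneg_right (by linarith) (by positivity)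
      _ = _ := by field_simp
  have r0 : 0 ≤ RR S n1 n2 (x * (θ * S.v / (S.C * 1))) lm p γ := by unfold RR; positivity
  have e2 : (2 + 1 / x) * (bb D m (RR S n1 n2 (x * (θ * S.v / (S.C * 1))) lm p γ)
      (S.C * S.v / lm) x / x) ≤
      18 * (L ^ 2 * Z * S.C / (x ^ 3 * θ * n)) + 3 * (L * S.C * S.v / (lm * x ^ 3)) :=
    calc _ ≤ (3 / x) * (L * (2 / n * (L * (3 * Z * S.C / (x * θ))) + S.C * S.v / lm / x) / x) := by
          unfold bb
          gcongr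
          · have : 1 ≤ 1 / x := one_le_one_div x0 x1
            rw [show 3 / x = 3 * (1 / x) by ring]
            linarith
          · linarith
      _ = _ := by field_simp; ring
  linarith

end Tp85

/-- **the top block of the END model** -/
theorem tpS_of {β : ℝ} (hβ : 1 < β) (h : LocT β) : TpS β := by
  refine Sml.glueC hβ (enS hβ) h fun C hC c0 C0 _ _ => ⟨4, fun A hA => ⟨1 / 1000, by norm_num,
    fun c hc c0' => ⟨c, c0', fun η hη η0 => ⟨C, fun p H hE hP P m a sp hi => ?_⟩⟩⟩⟩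
  have e := hE H.r_le_ye P sp
  have loc := hP P m a sp hi
  have G := e.lg H hi
  have N0 := H.N0
  have v0 := H.v0
  have s0 := H.s0
  have k0 := H.κ0
  have y0 := H.ye0
  have K0 := kk0 H
  have L0 := p.lL_pos
  have c00 := H.c00
  have C0' : 0 < C := by linarith
  have A4 : (4 : ℝ) ≤ A := by exact_mod_cast hA
  have ln := H.lg_n
  have lC := H.lg_cst hC H.K_le
  have lv := H.lg_v_le
  have lv' : -(A : ℝ) ≤ logb p.n p.v := by linarith [H.lg_v, H.lg_β.1]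
  have ls := H.lg_s
  have lk := H.lg_κ
  have ly := H.lg_ye
  have lK := lg_kk H
  have lc : -η ≤ logb p.n c0 := by
    have b := H.lg_le (by positivity) H.c0_le
    rw [one_div, logb_inv] at b; linarith
  have lL : logb p.n p.lL ≤ 2 * η := by
    have := H.lg_mono L0 (p.lL_le (by linarith [H.N3]))
    have l1 := H.log1
    rw [logb_mul (by norm_num) (by positivity)] at this
    linarith [H.lg_log.2, (H.lg_num (x := 18) (by norm_num) (by norm_num)).2]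
  have nm : ∀ x : ℝ, 1 ≤ x → x ≤ 1000 → 0 ≤ logb p.n x ∧ logb p.n x ≤ η := fun x => H.lg_num
  have n2 := nm 2 (by norm_num) (by norm_num)
  have n3 := nm 3 (by norm_num) (by norm_num)
  have n4 := nm 4 (by norm_num) (by norm_num)
  have n7 := nm 7 (by norm_num) (by norm_num)
  have n8 := nm 8 (by norm_num) (by norm_num)
  have n9 := nm 9 (by norm_num) (by norm_num)
  have n14 := nm 14 (by norm_num) (by norm_num)
  have n54 := nm 54 (by norm_num) (by norm_num)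
  have j1 := jc_lt H
  have j2 := jf_lt H
  have i3 : p.J ≤ p.Jp P := e.cl.i3
  have Jv := H.ok.base.lo
  -- monomials
  have mo : ∀ {x y : ℝ}, 0 < x → 0 < y → logb p.n x ≤ logb p.n y → x ≤ y := H.le_of_lg
  obtain ⟨w1, hw1, a0⟩ : ∃ w, logb p.n w = -21 / 200 ∧ 0 < w := ⟨_, H.lg_rp _, H.rp0 _⟩
  obtain ⟨w2, hw2, b0⟩ : ∃ w, logb p.n w = -21 / 100 ∧ 0 < w := ⟨_, H.lg_rp _, H.rp0 _⟩
  obtain ⟨q, hq, q0⟩ : ∃ w, logb p.n w = 2 * logb p.n p.s + 12 * c - 11 / 50 ∧ 0 < w :=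
    ⟨_, H.lg_rp _, H.rp0 _⟩
  obtain ⟨Y1, hY1, Y10⟩ : ∃ w, logb p.n w = 2 * logb p.n p.s + 12 * c - 21 / 200 ∧ 0 < w :=
    ⟨_, H.lg_rp _, H.rp0 _⟩
  obtain ⟨Y2, hY2, Y20⟩ : ∃ w, logb p.n w = 2 * logb p.n p.s + 12 * c - 21 / 100 ∧ 0 < w :=
    ⟨_, H.lg_rp _, H.rp0 _⟩
  obtain ⟨Z, hZ, Z0⟩ : ∃ w, logb p.n w = 2 * logb p.n p.s + 17 * c + 7 / 50 ∧ 0 < w :=
    ⟨_, H.lg_rp _, H.rp0 _⟩
  obtain ⟨L, hL, L1, L2⟩ : ∃ w, logb p.n w = 3 * η ∧ 0 < w ∧ w = ((p.n : ℝ) ^ η) ^ 3 :=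
    ⟨_, by rw [logb_pow, H.lg_rp]; norm_num, pow_pos H.Λ0 3, rfl⟩
  have γ0 : 0 < P.γ := sp.g' ▸ H.rp0 _
  have hγ : logb p.n P.γ = -7 / 20 := by rw [sp.g', H.lg_rp]; norm_num
  have ga := Tp85.ceil_bds v0 (mo v0 a0 (by linarith))
  have gb := Tp85.ceil_bds v0 (mo v0 b0 (by linarith))
  have w21 : w2 ≤ w1 := mo b0 a0 (by linarith)
  have J4 : 4 * ⌈w1 / p.v⌉₊ ≤ p.J := by
    have : 8 * w1 ≤ c0 := mo (by positivity) c00 (by lg_norm; linarith)
    exact_mod_cast le_of_mul_le_mul_right (show (4 * (⌈w1 / p.v⌉₊ : ℝ)) * p.v ≤ p.J * p.v by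
      linarith [ga.2]) v0
  have n21 : ⌈w2 / p.v⌉₊ ≤ ⌈w1 / p.v⌉₊ := Nat.ceil_mono (by gcongr)
  -- labels
  have zz : ∀ i j, p.jf ≤ i → i ≤ j → j < p.J → p.J ≤ 4 * (j - i) →
      c0 / (4 * C) ≤ (Me p P).z j - (Me p P).z i := fun i j h1 h2 h3 h4 => by
    refine le_trans ?_ (tel_ge (c := p.v / C) h2 fun k a b =>
      (e.cl.zs k (h1.trans a) (show k + 1 < p.J by omega)).1)
    have : (p.J : ℝ) ≤ 4 * ((j : ℝ) - i) := by rw [← Nat.cast_sub h2]; exact_mod_cast h4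
    rw [← mul_div_assoc, ← div_div]
    exact div_le_div_of_nonneg_right (by linarith [mul_le_mul_of_nonneg_right this v0.le]) C0'.le
  have x1 : c0 / (4 * C) ≤ (Me p P).z (p.J / 2) := by
    linarith [zz p.jf (p.J / 2) le_rfl (by omega) (by omega) (by omega), G.z_nonneg p.jf]
  have x0 : 0 < c0 / (4 * C) := by positivity
  obtain ⟨x, hx, x2⟩ : ∃ x, x = c0 / (4 * C) ∧ -(3 * η) ≤ logb p.n x :=
    ⟨_, rfl, by lg_norm; linarith⟩
  rw [← hx] at x0 x1 zz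
  have sy : p.ye ≤ (Me p P).s (p.J / 2) := by
    have a1 : 8 * p.ye ≤ c0 := mo (by positivity) c00 (by lg_norm; linarith)
    have a2 : (p.J : ℝ) ≤ 4 * ((p.J / 2 : ℕ) : ℝ) := by exact_mod_cast (by omega)
    nlinarith [(e.s_lo H (k := p.J / 2) (by omega)).1]
  have hθ : (Se p C P).ms ((Me p P).s (p.J / 2)) = p.κ * p.ye ^ 2 := by
    show 1 * p.κ * max p.r (min _ p.ye) ^ 2 = _
    rw [min_eq_right sy, max_eq_right H.r_le_ye, one_mul]
  obtain ⟨D, D1, D2⟩ := exists_D (Y := (p.n : ℝ) ^ (A + 2)) (one_le_pow₀ H.N1.le)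
  have T : TI (Se p C P) (Me p P) m a (p.J / 2) ⌈w1 / p.v⌉₊ ⌈w2 / p.v⌉₊ D
      (x * (p.κ * p.ye ^ 2 * p.v / (C * 1))) x x (P.γ / (2 * p.lL)) q P.γ
      ((p.n : ℝ) ^ (-(2 : ℝ))) := by
    refine ⟨e.cl, G, v0, show p.jf ≤ _ by omega, show _ ≤ p.J by omega, ?_, n21, ?_, by positivity,
      by rw [hθ]; exact le_rfl, x0, x1, x0, zz _ (p.J - 2) (by omega) (by omega) (by omega) (by omega),
      ?_, ?_, fun k h1 h2 h3 => ?_, le_rfl, q0, ?_, e.gam, ?_⟩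
    · have : 2 * p.v ≤ w2 := mo (by positivity) b0 (by lg_norm; linarith)
      exact_mod_cast le_of_mul_le_mul_right (show (2 : ℝ) * p.v ≤ ⌈w2 / p.v⌉₊ * p.v by
        linarith [gb.1]) v0
    · have : C * (2 * w1) ≤ 1 := mo (by positivity) one_pos (by lg_norm; linarith)
      exact (mul_le_mul_of_nonneg_left ga.2 C0'.le).trans this
    · have l6 := H.lg_nn (x := p.lL) (by linarith [p.lL_ge])
      exact mo (x := C * _) (by positivity) one_pos (by lg_norm; linarith)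
    · exact mo (x := 2 * C * p.v) (by positivity) (by positivity) (by lg_norm; linarith)
    · have b1 : p.xs ≤ (Me p P).z (k - 1) := by
        refine le_trans (le_of_eq ?_) (G.zm (show p.J - 1 ≤ k - 1 from Nat.sub_le_sub_right h1 1))
        show _ = p.zP P (max (p.J - 1) p.jf)
        rw [max_eq_left (by omega)]
        exact (if_pos (by omega)).symm
      have b2 : p.l1' ≤ 1 - (Me p P).z (k - 1) := ((p.l1'_le3 H.n1).trans
        (rpow_le_rpow_of_exponent_le H.N1.le (by norm_num))).trans h3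
      have b3 := (p.ld_min P.γ b1 b2).1.trans
        (mul_le_mul_of_nonneg_left (min_le_right _ _) (p.ld_pos _ _).le)
      show _ ≤ P.γ * p.ld P.γ _ * _
      rw [mul_assoc, div_eq_mul_one_div]
      exact mul_le_mul_of_nonneg_left b3 γ0.le
    · have b1 : ∑ k ∈ Ioc (p.J / 2) (p.Jp P), (Me p P).dz m a k * (Me p P).del m a k ^ 2 ≤
          p.s ^ 4 * (p.n : ℝ) ^ (22 * p.c - 13 / 20) := by
        refine le_trans ?_ loc
        rw [sum_congr rfl fun k hk => by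
          rw [dz_up (m := m) (a := a) G.toLeg (show 0 < k by have := (mem_Ioc.1 hk).1; omega)]]
        refine sum_le_sum_of_subset_of_nonneg (fun k hk => ?_) fun k _ _ =>
          mul_nonneg (sub_nonneg.2 (G.zm (Nat.sub_le _ _))) (sq_nonneg _)
        obtain ⟨k1, k2⟩ := mem_Ioc.1 hk
        exact mem_filter.2 ⟨mem_Ioc.2 ⟨by omega, k2⟩, sy.trans (e.cl.sm k1.le)⟩
      have b2 : C * (p.s ^ 4 * (p.n : ℝ) ^ (22 * p.c - 13 / 20)) ≤ q ^ 2 * w2 :=
        mo (by positivity) (by positivity) (by lg_norm; rw [ln, H.hc]; linarith)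
      exact ((mul_le_mul_of_nonneg_left b1 C0'.le).trans b2).trans
        (mul_le_mul_of_nonneg_left gb.1 (sq_nonneg _))
    · have b1 : (Me p P).H (Me p P).N ≤ C * p.A * log p.n := e.cl.HN
      have l1 := H.log1
      have lA := H.lg_cst (x := A) (by linarith) H.A_le
      rw [H.hA] at b1
      refine b1.trans (le_trans (mo (y := (p.n : ℝ) ^ (A + 2) * _) (by positivity) (by positivity) ?_)
        (mul_le_mul_of_nonneg_right D1 (by positivity)))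
      lg_norm
      rw [ln]
      push_cast
      linarith [H.lg_log.2]
  obtain ⟨N, T⟩ := T.top
  obtain ⟨U, hU, U0, U1⟩ : ∃ w, w = kk p ^ 5 * (p.s ^ 5 * (p.n : ℝ) ^ (-(17 : ℝ) / 20)) ∧ 0 < w ∧
      logb p.n w = 100 * c + 5 * logb p.n p.s - 17 / 20 :=
    ⟨_, rfl, by positivity, by lg_norm; rw [ln]; linarith⟩
  rw [← hU]
  refine ⟨N, T.mono (Tp85.fin (S := Se p C P) (Y1 := Y1) (Y2 := Y2) (Z := Z) (L := L) C0' v0 x0
    (x1.trans (G.z1 _)) (by positivity) (by positivity) N0 (by exact_mod_cast hi.m1) q0 γ0 a0 b0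
    ga.1 ga.2 gb.1 gb.2 (mo q0 Y20 (by linarith)) (mo γ0 Y20 (by linarith))
    (mo (x := C * w2) (by positivity) Y20 (by lg_norm; linarith)) (mo Y20 Y10 (by linarith))
    (mo (x := C * w1) (by positivity) Y10 (by lg_norm; linarith))
    (mo (by positivity) Z0 (by lg_norm; linarith)) (mo (by positivity) Z0 (by lg_norm; linarith))
    (mo (x := 14 * C * Y2 / _) (by positivity) Z0 (by lg_norm; linarith)) ?_
    (mo (x := 3 * (C / _)) (by positivity) U0 (by lg_norm; linarith))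
    (mo (x := 54 * (_ * _ * C / _)) (by positivity) U0 (by lg_norm; linarith))
    (mo (x := 9 * (L * C * p.v / _)) (by positivity) U0 (by lg_norm; linarith)))
    (mo (H.rp0 _) U0 (by rw [H.lg_rp]; linarith))⟩
  rw [log_pow] at D2
  push_cast at D2
  have u1 := H.A_le
  have u2 := H.log_le
  have u3 := H.num_le
  have u4 := H.log1
  have u5 : ((A : ℝ) + 2) * log p.n ≤ (2 * (p.n : ℝ) ^ η) * (p.n : ℝ) ^ η := by gcongr; linarith
  rw [L2]
  nlinarith [mul_le_mul_of_nonneg_right u3 (sq_nonneg ((p.n : ℝ) ^ η))]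

end Crest.Agent.T156.Alt.R2

end
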