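import Crest.Agent.T156.R2Def_30

/-!
# Row 156, R2 (helper40): monomial calculus and the exponent line of the value table
-/

set_option autoImplicit false
set_option linter.unusedSectionVars false

noncomputable section

namespace Crest.Agent.T156.Alt.R2.F40

open Real

/-- the monomial `kk^i s^j n^e` -/
def mo (p : Pm) (i j : ℕ) (e : ℝ) : ℝ := kk p ^ i * (p.s ^ j * (p.n : ℝ) ^ e)

variable {β c0 C0 : ℝ} {A : ℕ} {c η K : ℝ} {p : Pm} (H : Reg β c0 C0 A c η K p)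
include H

theorem kk0 : 0 < kk p := inv_pos.2 (pow_pos H.κ0 _)

theorem lg_kk : logb p.n (kk p) = 20 * c := by
  rw [kk, logb_inv, logb_pow, H.lg_κ]
  push_cast
  ring

theorem kk1 : 1 ≤ kk p := H.le_of_lg one_pos (kk0 H) (by
  rw [logb_one, lg_kk H]; linarith [H.c_pos])

theorem mo0 (i j : ℕ) (e : ℝ) : 0 < mo p i j e :=
  mul_pos (pow_pos (kk0 H) _) (mul_pos (pow_pos H.s0 _) (rpow_pos_of_pos H.N0 _))

theorem lg_mo (i j : ℕ) (e : ℝ) :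
    logb p.n (mo p i j e) = 20 * c * i + j * logb p.n p.s + e := by
  rw [mo, logb_mul (pow_pos (kk0 H) _).ne' (mul_pos (pow_pos H.s0 _) (rpow_pos_of_pos H.N0 _)).ne',
    logb_mul (pow_pos H.s0 _).ne' (rpow_pos_of_pos H.N0 _).ne', logb_pow, logb_pow, lg_kk H,
    H.lg_rp]
  ring

theorem mo_mul (i j i' j' : ℕ) (e e' : ℝ) :
    mo p i j e * mo p i' j' e' = mo p (i + i') (j + j') (e + e') := by
  simp only [mo, pow_add, rpow_add H.N0]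
  ring

theorem mo_pow (i j k : ℕ) (e : ℝ) : mo p i j e ^ k = mo p (i * k) (j * k) (e * k) := by
  simp only [mo, mul_pow, pow_mul, rpow_mul_natCast H.N0.le]

/-- comparison of monomials with a factor `1000` -/
theorem mo_le {i j i' j' : ℕ} {e e' : ℝ}
    (h0 : 20 * c * i + e + η ≤ 20 * c * i' + e')
    (h1 : 20 * c * i + j / 19 + e + η ≤ 20 * c * i' + j' / 19 + e') :
    1000 * mo p i j e ≤ mo p i' j' e' := by
  have a := mo0 H i j e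
  refine H.le_of_lg (by positivity) (mo0 H _ _ _) ?_
  rw [logb_mul (by norm_num) a.ne', lg_mo H, lg_mo H]
  have b := (H.lg_num (x := 1000) (by norm_num) le_rfl).2
  have s1 := H.lg_s.1
  have s2 := H.lg_s.2
  rcases le_total (j : ℝ) j' with h | h
  · nlinarith [mul_le_mul_of_nonneg_right h s1]
  · nlinarith [mul_le_mul_of_nonneg_left s2 (sub_nonneg.2 h)]

theorem mo_le' {i j i' j' : ℕ} {e e' : ℝ}
    (h0 : 20 * c * i + e + η ≤ 20 * c * i' + e')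
    (h1 : 20 * c * i + j / 19 + e + η ≤ 20 * c * i' + j' / 19 + e') :
    mo p i j e ≤ mo p i' j' e' := by
  linarith [mo_le H h0 h1, mo0 H i j e]

theorem tgt (i : ℝ) : gn p i * un p = mo p 0 5 (-1 / i + -(5 : ℝ) / 6) := by
  simp only [mo, gn, un, rpow_add H.N0]
  ring

theorem kk_mo (i : ℕ) : kk p ^ i = mo p i 0 0 := by simp [mo]

theorem t10 : 0 < t1 p := mul_pos H.r0 (rpow_pos_of_pos H.N0 _)

theorem lg_t1 : logb p.n (t1 p) = logb p.n p.s + c / 7 - 3 / 20 := by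
  rw [t1, logb_mul H.r0.ne' (rpow_pos_of_pos H.N0 _).ne', H.lg_r, H.lg_rp]
  ring

theorem t1_ge : mo p 0 1 (-(3 : ℝ) / 20) ≤ t1 p := H.le_of_lg (mo0 H _ _ _) (t10 H) (by
  rw [lg_mo H, lg_t1 H]; push_cast; linarith [H.c_pos])

theorem X_le : t1 p / p.κ ≤ mo p 1 1 (-(3 : ℝ) / 20) :=
  H.le_of_lg (div_pos (t10 H) H.κ0) (mo0 H _ _ _) (by
    rw [lg_mo H, logb_div (t10 H).ne' H.κ0.ne', lg_t1 H, H.lg_κ]; push_cast; linarith [H.c_pos])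

/-- **the exponent line of `V23.Vb.err`** -/
theorem line (hc : c ≤ 1 / 10 ^ 7) {X i T dm N Φ L U3 U4 l1 l2 w y : ℝ}
    (X0 : 0 ≤ X) (N0 : 0 ≤ N) (Φ0 : 0 ≤ Φ) (L0 : 0 ≤ L) (l10 : 0 ≤ l1) (l20 : 0 ≤ l2) (y0 : 0 ≤ y)
    (hX : X ≤ mo p 1 1 (-(3 : ℝ) / 20)) (hi : i ≤ mo p 10 0 (-(9 : ℝ) / 10))
    (hT : T ≤ mo p 10 0 (-(9 : ℝ) / 10)) (hd : dm ≤ mo p 10 0 (-(9 : ℝ) / 10))
    (hN : N ≤ mo p 10 2 (-(13 : ℝ) / 40)) (hΦ : Φ ≤ mo p 10 3 (-(31 : ℝ) / 60))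
    (hL : L ≤ kk p ^ 10) (h3 : U3 ≤ mo p 10 5 (-(169 : ℝ) / 200))
    (h4 : U4 ≤ mo p 10 5 (-(169 : ℝ) / 200)) (k1 : l1 ≤ mo p 21 3 (-(109 : ℝ) / 200))
    (k2 : l2 ≤ mo p 20 3 (-(59 : ℝ) / 120)) (hw : w ^ 2 ≤ mo p 20 5 (-(169 : ℝ) / 200))
    (hy : y ≤ mo p 10 2 (-(139 : ℝ) / 400)) :
    X ^ 6 + i + T + dm + X ^ 4 * N + 2 * (X ^ 3 * Φ) + 4 * L ^ 3 * (Φ * N) + 3 * U4 + U3 +
      X ^ 2 * l1 + 16 * L ^ 8 * w ^ 2 + 2 * L ^ 3 * (l1 * N) + 4 * L ^ 4 * (l2 * y) ≤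
      gn p 200 * un p := by
  have c0 := H.c_pos
  have e1 := H.η_le
  rw [kk_mo H] at hL
  have m0 := mo0 H
  have pX := fun k : ℕ => (pow_le_pow_left₀ X0 hX k).trans_eq (mo_pow H _ _ _ _)
  have pL := fun k : ℕ => (pow_le_pow_left₀ L0 hL k).trans_eq (mo_pow H _ _ _ _)
  have a1 := pX 6
  have a2 := (mul_le_mul (pX 4) hN N0 (m0 _ _ _).le).trans_eq (mo_mul H _ _ _ _ _ _)
  have a3 := (mul_le_mul (pX 3) hΦ Φ0 (m0 _ _ _).le).trans_eq (mo_mul H _ _ _ _ _ _)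
  have a4 := (mul_le_mul (pL 3) ((mul_le_mul hΦ hN N0 (m0 _ _ _).le).trans_eq
    (mo_mul H _ _ _ _ _ _)) (mul_nonneg Φ0 N0) (m0 _ _ _).le).trans_eq (mo_mul H _ _ _ _ _ _)
  have a5 := (mul_le_mul (pX 2) k1 l10 (m0 _ _ _).le).trans_eq (mo_mul H _ _ _ _ _ _)
  have a6 := (mul_le_mul (pL 8) hw (sq_nonneg _) (m0 _ _ _).le).trans_eq (mo_mul H _ _ _ _ _ _)
  have a7 := (mul_le_mul (pL 3) ((mul_le_mul k1 hN N0 (m0 _ _ _).le).trans_eq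
    (mo_mul H _ _ _ _ _ _)) (mul_nonneg l10 N0) (m0 _ _ _).le).trans_eq (mo_mul H _ _ _ _ _ _)
  have a8 := (mul_le_mul (pL 4) ((mul_le_mul k2 hy y0 (m0 _ _ _).le).trans_eq
    (mo_mul H _ _ _ _ _ _)) (mul_nonneg l20 y0) (m0 _ _ _).le).trans_eq (mo_mul H _ _ _ _ _ _)
  have t := m0 0 5 (-1 / 200 + -(5 : ℝ) / 6)
  have k : ∀ {i j : ℕ} {e : ℝ}, (i : ℝ) ≤ 100 → e + 1 / 4000 ≤ -1 / 200 + -(5 : ℝ) / 6 →
      (j : ℝ) / 19 + e + 1 / 4000 ≤ 5 / 19 + (-1 / 200 + -(5 : ℝ) / 6) →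
      1000 * mo p i j e ≤ mo p 0 5 (-1 / 200 + -(5 : ℝ) / 6) := fun hi' h0 h1 => by
    have := mul_le_mul_of_nonneg_left hi' c0.le
    exact mo_le H (by push_cast; linarith) (by push_cast; linarith)
  have b1 := k (i := 1 * 6) (j := 1 * 6) (e := -(3 : ℝ) / 20 * (6 : ℕ)) (by norm_num)
    (by norm_num) (by norm_num)
  have b0 := k (i := 10) (j := 0) (e := -(9 : ℝ) / 10) (by norm_num) (by norm_num) (by norm_num)
  have b9 := k (i := 10) (j := 5) (e := -(169 : ℝ) / 200) (by norm_num) (by norm_num) (by norm_num)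
  have b2 := (mul_le_mul_of_nonneg_left a2 (by norm_num)).trans
    (k (by norm_num) (by norm_num) (by norm_num))
  have b3 := (mul_le_mul_of_nonneg_left a3 (by norm_num)).trans
    (k (by norm_num) (by norm_num) (by norm_num))
  have b4 := (mul_le_mul_of_nonneg_left a4 (by norm_num)).trans
    (k (by norm_num) (by norm_num) (by norm_num))
  have b5 := (mul_le_mul_of_nonneg_left a5 (by norm_num)).trans
    (k (by norm_num) (by norm_num) (by norm_num))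
  have b6 := (mul_le_mul_of_nonneg_left a6 (by norm_num)).trans
    (k (by norm_num) (by norm_num) (by norm_num))
  have b7 := (mul_le_mul_of_nonneg_left a7 (by norm_num)).trans
    (k (by norm_num) (by norm_num) (by norm_num))
  have b8 := (mul_le_mul_of_nonneg_left a8 (by norm_num)).trans
    (k (by norm_num) (by norm_num) (by norm_num))
  rw [tgt H]
  linarith

theorem mo_e {i j : ℕ} {e e' : ℝ} (h : e ≤ e') : mo p i j e ≤ mo p i j e' :=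
  mul_le_mul_of_nonneg_left (mul_le_mul_of_nonneg_left (rpow_le_rpow_of_exponent_le H.N1.le h)
    (pow_pos H.s0 _).le) (pow_pos (kk0 H) _).le

theorem mo_i {i i' j : ℕ} {e : ℝ} (h : i ≤ i') : mo p i j e ≤ mo p i' j e :=
  mul_le_mul_of_nonneg_right (pow_le_pow_right₀ (kk1 H) h)
    (mul_pos (pow_pos H.s0 _) (rpow_pos_of_pos H.N0 _)).le

/-- a number up to `1000` costs one power of `kk` -/
theorem mo_c {i j : ℕ} {e x : ℝ} (h : x ≤ 1000) : x * mo p i j e ≤ mo p (i + 1) j e := by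
  have c0 := H.c_pos
  have e1 := H.η_le
  exact (mul_le_mul_of_nonneg_right h (mo0 H _ _ _).le).trans
    (mo_le H (by push_cast; linarith) (by push_cast; linarith))

theorem y_le {t0 w y : ℝ} (ht : t1 p ≤ t0) (w2 : w ^ 2 = t0 * y ^ 2)
    (hw : w ^ 2 ≤ mo p 20 5 (-(169 : ℝ) / 200)) : y ≤ mo p 10 2 (-(139 : ℝ) / 400) := by
  refine le_of_pow_le_pow_left₀ two_ne_zero (mo0 H _ _ _).le
    (le_of_mul_le_mul_left ?_ (mo0 H 0 1 (-(3 : ℝ) / 20)))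
  rw [mo_pow H, mo_mul H]
  refine ((mul_le_mul_of_nonneg_right ((t1_ge H).trans ht) (sq_nonneg y)).trans_eq
    w2.symm).trans (hw.trans (mo_e H (by norm_num)))

theorem l1_le {t0 y l : ℝ} (ht : t1 p ≤ t0) (y0 : 0 ≤ y) (hy : y ≤ mo p 10 2 (-(139 : ℝ) / 400))
    (l0 : 0 ≤ l) (h : t0 * l ≤ 4 * y ^ 2) : l ≤ mo p 21 3 (-(109 : ℝ) / 200) := by
  refine le_of_mul_le_mul_left ?_ (mo0 H 0 1 (-(3 : ℝ) / 20))
  rw [mo_mul H]
  have a := (pow_le_pow_left₀ y0 hy 2).trans_eq (mo_pow H _ _ _ _)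
  refine ((mul_le_mul_of_nonneg_right ((t1_ge H).trans ht) l0).trans h).trans
    ((mul_le_mul_of_nonneg_left a (by norm_num)).trans ((mo_c H (by norm_num)).trans
      (mo_e H (by norm_num))))

theorem l2_le {V X l : ℝ} (hX : X ≤ mo p 1 1 (-(3 : ℝ) / 20)) (l0 : 0 ≤ l)
    (hl : l ≤ mo p 21 3 (-(109 : ℝ) / 200)) (hV : V ≤ mo p 20 6 (-(59 : ℝ) / 60)) :
    √V + X * √(X * l) ≤ mo p 20 3 (-(59 : ℝ) / 120) := by
  have m0 := mo0 H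
  have a1 : √V ≤ mo p 10 3 (-(59 : ℝ) / 120) := sqrt_le_iff.2 ⟨(m0 _ _ _).le, by
    rw [mo_pow H]; exact hV.trans (mo_e H (by norm_num))⟩
  have a2 : √(X * l) ≤ mo p 11 2 (-(139 : ℝ) / 400) := sqrt_le_iff.2 ⟨(m0 _ _ _).le, by
    rw [mo_pow H]
    exact ((mul_le_mul hX hl l0 (m0 _ _ _).le).trans_eq (mo_mul H _ _ _ _ _ _)).trans
      (mo_e H (by norm_num))⟩
  have a3 := ((mul_le_mul hX a2 (sqrt_nonneg _) (m0 _ _ _).le).trans_eq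
    (mo_mul H _ _ _ _ _ _)).trans (mo_e H (e' := -(59 : ℝ) / 120) (by norm_num))
  have a4 := mo_i H (i := 10) (i' := 12) (j := 3) (e := -(59 : ℝ) / 120) (by norm_num)
  have a5 := (mo_c H (i := 12) (j := 3) (e := -(59 : ℝ) / 120) (x := 2) (by norm_num)).trans
    (mo_i H (i' := 20) (by norm_num))
  norm_num at a1 a3 a4 a5 ⊢
  linarith

/-- the side lines of `ValX` -/
theorem n1_line (hc : c ≤ 1 / 10 ^ 7) {N : ℝ} (hN : N ≤ mo p 10 2 (-(13 : ℝ) / 40)) :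
    N ≤ p.s ^ 2 * (p.n : ℝ) ^ (-(3 : ℝ) / 10) := by
  have c0 := H.c_pos
  have e1 := H.η_le
  refine hN.trans ((mo_le' H (i' := 0) (j' := 2) (e' := -(3 : ℝ) / 10) (by push_cast; linarith)
    (by push_cast; linarith)).trans_eq (by simp [mo]))

theorem n1_kk (hc : c ≤ 1 / 10 ^ 7) {N : ℝ} (hN : N ≤ mo p 10 2 (-(13 : ℝ) / 40)) : N ≤ kk p := by
  have c0 := H.c_pos
  have e1 := H.η_le
  refine hN.trans ((mo_le' H (i' := 1) (j' := 0) (e' := 0) (by push_cast; linarith)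
    (by push_cast; linarith)).trans_eq (by simp [mo]))

theorem n12_line (hc : c ≤ 1 / 10 ^ 7) {N Φ : ℝ} (Φ0 : 0 ≤ Φ)
    (hN : N ≤ mo p 10 2 (-(13 : ℝ) / 40)) (hΦ : Φ ≤ mo p 10 3 (-(31 : ℝ) / 60)) :
    N * Φ ≤ gn p 300 * un p := by
  have c0 := H.c_pos
  have e1 := H.η_le
  rw [tgt H]
  exact ((mul_le_mul hN hΦ Φ0 (mo0 H _ _ _).le).trans_eq (mo_mul H _ _ _ _ _ _)).trans
    (mo_le' H (by push_cast; linarith) (by push_cast; linarith))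

theorem eA_line (hc : c ≤ 1 / 10 ^ 7) {L w : ℝ} (L0 : 0 ≤ L) (hL : L ≤ kk p ^ 10)
    (hw : w ^ 2 ≤ mo p 20 5 (-(169 : ℝ) / 200)) : 4 * L ^ 3 * w ^ 2 ≤ gn p 300 * un p := by
  have c0 := H.c_pos
  have e1 := H.η_le
  rw [kk_mo H] at hL
  have a := (mul_le_mul ((pow_le_pow_left₀ L0 hL 3).trans_eq (mo_pow H _ _ _ _)) hw (sq_nonneg _)
    (mo0 H _ _ _).le).trans_eq (mo_mul H _ _ _ _ _ _)
  rw [tgt H, mul_assoc]
  exact (mul_le_mul_of_nonneg_left a (by norm_num)).trans ((mo_c H (by norm_num)).trans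
    (mo_le' H (by push_cast; linarith) (by push_cast; linarith)))

theorem inv_line {m : ℕ} (hm : p.n ≤ m) : 1 / (m : ℝ) ≤ mo p 10 0 (-(9 : ℝ) / 10) := by
  have a : (p.n : ℝ) ≤ m := Nat.cast_le.2 hm
  refine (one_div_le_one_div_of_le H.N0 a).trans ?_
  have : 1 / (p.n : ℝ) = mo p 0 0 (-1) := by simp [mo, rpow_neg_one]
  rw [this]
  exact (mo_e H (by norm_num)).trans (mo_i H (by norm_num))

/-- `(K+1)² tl` for `K + 1 ≤ n^(A+2)` -/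
theorem tl_line {k : ℝ} (k0 : 0 ≤ k) (hk : k ≤ (p.n : ℝ) ^ (p.A + 2)) :
    k ^ 2 * (p.n : ℝ) ^ (-(2 * (p.A : ℝ) + 5)) ≤ mo p 10 0 (-(9 : ℝ) / 10) := by
  refine (mul_le_mul_of_nonneg_right (pow_le_pow_left₀ k0 hk 2)
    (rpow_pos_of_pos H.N0 _).le).trans ?_
  have : ((p.n : ℝ) ^ (p.A + 2)) ^ 2 * (p.n : ℝ) ^ (-(2 * (p.A : ℝ) + 5)) = mo p 0 0 (-1) := by
    rw [← pow_mul, ← rpow_natCast, ← rpow_add H.N0, mo, pow_zero, pow_zero, one_mul, one_mul]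
    congr 1
    push_cast
    ring
  rw [this]
  exact (mo_e H (by norm_num)).trans (mo_i H (by norm_num))

/-- **all in one**: `l1 := Lv`, `l2 := √V + X √(X Lv)` (`Vb.Lv1_le`, `Vl21.Lv2_le`) -/
theorem line2 (hc : c ≤ 1 / 10 ^ 7) {X i T dm N Φ L U3 U4 w y t0 V Lv : ℝ}
    (X0 : 0 ≤ X) (N0 : 0 ≤ N) (Φ0 : 0 ≤ Φ) (L0 : 0 ≤ L) (l0 : 0 ≤ Lv) (y0 : 0 ≤ y)
    (hX : X ≤ mo p 1 1 (-(3 : ℝ) / 20)) (hi : i ≤ mo p 10 0 (-(9 : ℝ) / 10))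
    (hT : T ≤ mo p 10 0 (-(9 : ℝ) / 10)) (hd : dm ≤ mo p 10 0 (-(9 : ℝ) / 10))
    (hN : N ≤ mo p 10 2 (-(13 : ℝ) / 40)) (hΦ : Φ ≤ mo p 10 3 (-(31 : ℝ) / 60))
    (hL : L ≤ kk p ^ 10) (h3 : U3 ≤ mo p 10 5 (-(169 : ℝ) / 200))
    (h4 : U4 ≤ mo p 10 5 (-(169 : ℝ) / 200)) (ht : t1 p ≤ t0) (w2 : w ^ 2 = t0 * y ^ 2)
    (hw : w ^ 2 ≤ mo p 20 5 (-(169 : ℝ) / 200)) (hl : t0 * Lv ≤ 4 * y ^ 2)
    (hV : V ≤ mo p 20 6 (-(59 : ℝ) / 60)) :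
    X ^ 6 + i + T + dm + X ^ 4 * N + 2 * (X ^ 3 * Φ) + 4 * L ^ 3 * (Φ * N) + 3 * U4 + U3 +
      X ^ 2 * Lv + 16 * L ^ 8 * w ^ 2 + 2 * L ^ 3 * (Lv * N) +
      4 * L ^ 4 * ((√V + X * √(X * Lv)) * y) ≤ gn p 200 * un p :=
  have hy := y_le H ht w2 hw
  have k1 := l1_le H ht y0 hy l0 hl
  line H hc X0 N0 Φ0 L0 l0 (by positivity) y0 hX hi hT hd hN hΦ hL h3 h4 k1
    (l2_le H hX l0 k1 hV) hw hy

end Crest.Agent.T156.Alt.R2.F40

end
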