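import Crest.Agent.T156.R2VG_23
import Crest.Agent.T156.R2Hm_42
import Crest.Agent.T156.R2VF_40
import Crest.Agent.T156.R2K_30

/-!
# Row 156, R2 (helper40): the label sums of the value table on the END model
-/

set_option autoImplicit false
set_option linter.unusedSectionVars false

noncomputable section

namespace Crest.Agent.T156.Alt.R2

open Real Finset
open Crest.Agent.T157.E Crest.Agent.T157.Casc Crest.Agent.T157.SL
open Crest.Agent.T156.Cas Crest.Agent.T156.Cas.C40 Md67 CIn12 F40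

namespace G40

variable {p : Pm} {P : Pl} {m : ℕ} {a : ℝ} {E : CIn12.Ev}

theorem mem_lo {k : ℕ} (h : k ∈ Tlo p P) : jc p ≤ k ∧ k < (Me p P).N :=
  mem_Ico.1 (mem_filter.1 h).1

theorem mem_hi {k : ℕ} (h : k ∈ Thi p P) : jc p ≤ k ∧ k < (Me p P).N :=
  mem_Ico.1 (mem_filter.1 h).1

theorem split (d0 : ∀ k, 0 ≤ (Me p P).dz m a k) {f u v : ℕ → ℝ} {c1 c2 x y : ℝ} (p1 : 0 ≤ c1)
    (p2 : 0 ≤ c2) (h1 : ∀ k ∈ Tlo p P, f (k + 1) ≤ c1 * u k) (h2 : ∀ k ∈ Thi p P, f (k + 1) ≤ c2 * v k)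
    (s1 : ∑ k ∈ Tlo p P, (Me p P).dz m a k * u k ≤ x)
    (s2 : ∑ k ∈ Thi p P, (Me p P).dz m a k * v k ≤ y) : (D p P m a E).I f ≤ c1 * x + c2 * y := by
  rw [cd_I, ← sum_filter_add_sum_filter_not _ (fun k => (Me p P).s k < (Me p P).s p.J / 16)]
  refine add_le_add (le_trans ?_ (mul_le_mul_of_nonneg_left s1 p1))
    (le_trans ?_ (mul_le_mul_of_nonneg_left s2 p2))
  · rw [mul_sum]
    exact sum_le_sum fun k hk => (mul_le_mul_of_nonneg_left (h1 k hk) (d0 k)).trans_eq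
      (mul_left_comm _ _ _)
  · rw [mul_sum]
    exact sum_le_sum fun k hk => (mul_le_mul_of_nonneg_left (h2 k hk) (d0 k)).trans_eq
      (mul_left_comm _ _ _)

/-- absolute moments -/
def U (M : Md) (m : ℕ) (a : ℝ) (i k : ℕ) : ℝ := M.E2 m a (fun R => |R - M.q k| ^ i) k

theorem U0 (M : Md) (i k : ℕ) : 0 ≤ U M m a i k := E2_nonneg (fun _ _ => by positivity) k

theorem U_succ (M : Md) (i k : ℕ) : U M m a (i + 1) k ≤ 2 * U M m a i k := by
  rw [U, U, ← E2_mul]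
  refine E2_mono (fun r hr => ?_) k
  rw [pow_succ']
  refine mul_le_mul_of_nonneg_right ?_ (by positivity)
  have := abs_le.1 hr
  have := q_nonneg (M := M) k
  have := q_le_one (M := M) k
  rw [abs_le]
  constructor <;> linarith

theorem U_two (M : Md) (k : ℕ) : U M m a 2 k = M.E2 m a (fun R => (R - M.q k) ^ 2) k := by
  simp only [U, sq_abs]

theorem U_mom {M : Md} {k i : ℕ} {G : ℝ} (G0 : 0 < G) (hi : i ≤ 8)
    (h : M.E2 m a (fun R => (R - M.q k) ^ (2 * 4)) k ≤ G ^ (2 * 4)) :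
    U M m a i k ≤ 2 ^ (i + 1) * G ^ i := by
  have := mom_pair (q := M.q k) G0 (show i ≤ 2 * 4 from hi) h
  rwa [sub_self, abs_zero, add_zero] at this

theorem u_eq (i : ℕ) {k : ℕ} (h : jc p ≤ k ∧ k < (Me p P).N) :
    (D p P m a E).u i (k + 1) = U (Me p P) m a i k := cd_u m a _ _ E i h.1 h.2

theorem g_cube {k : ℕ} (h : jc p ≤ k ∧ k < (Me p P).N) :
    (D p P m a E).g (k + 1) ^ 3 = U (Me p P) m a 3 k := by
  rw [CD.g, u_eq 3 h, one_div]
  exact rpow_inv_natCast_pow (U0 _ _ _) three_ne_zero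

theorem g_le {k : ℕ} (h : jc p ≤ k ∧ k < (Me p P).N) {x : ℝ} (x0 : 0 ≤ x)
    (hx : U (Me p P) m a 3 k ≤ x ^ 3) : (D p P m a E).g (k + 1) ≤ x :=
  le_of_pow_le_pow_left₀ three_ne_zero x0 ((g_cube h).trans_le hx)

variable {β c0 C0 c η K C : ℝ} {A : ℕ}

theorem κ_kk (H : Reg β c0 C0 A c η K p) {i : ℕ} (hi : i ≤ 20) : (p.κ ^ i)⁻¹ ≤ kk p :=
  inv_anti₀ (pow_pos H.κ0 _) (pow_le_pow_of_le_one H.κ0.le H.κ1 hi)

theorem kk_mul (i j : ℕ) (e : ℝ) : kk p * mo p i j e = mo p (i + 1) j e := by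
  simp only [mo, pow_succ]
  ring

theorem cb_mo (i : ℕ) (x : ℝ) : kk p ^ i * cb p (x / 200) = mo p i 5 (-x / 200) := by
  rw [cb, mo, neg_div]

section
variable (H : Reg β c0 C0 A c η K p) (hc : c ≤ 1 / 10 ^ 7) (e : En C p P) (ad : Ad p P m a E)
include H hc e ad

theorem X1 : (D p P m a E).X ≤ mo p 1 1 (-(3 : ℝ) / 20) := by rw [cd_X, ad.env.X]; exact X_le H

theorem z1 (k : ℕ) : max (t1 p) ((Me p P).z k) ≤ 1 := by
  have c0' := H.c_pos
  have e1 := H.η_le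
  refine max_le ?_
    ((e.cl.leg.zm (le_max_left k (p.Jp P))).trans (e.cl.top _ (le_max_right _ _)).le)
  refine (le_div_self (F40.t10 H).le H.κ0 H.κ1).trans ((X_le H).trans ?_)
  exact (mo_le' H (i' := 0) (j' := 0) (e' := 0) (by push_cast; linarith)
    (by push_cast; linarith)).trans_eq (by simp [mo])

theorem tl : (((D p P m a E).K : ℝ) + 1) ^ 2 * (D p P m a E).tl ≤ mo p 10 0 (-(9 : ℝ) / 10) := by
  rw [cd_tl, ad.env.tl]
  refine tl_line H (by positivity) ?_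
  have b1 : ((Me p P).N : ℝ) ≤ (p.n : ℝ) ^ (p.A + 1) := e.cl.card
  have b2 : (1 : ℝ) ≤ (p.n : ℝ) ^ (p.A + 1) := one_le_pow₀ H.N1.le
  rw [cd_K, pow_succ _ (p.A + 1)]
  push_cast
  nlinarith [H.N3]

set_option maxHeartbeats 800000 in
/-- the moments at a point -/
theorem mn {G' g G : ℕ → ℝ} (gz : GZ p P m a (Tlo p P) G' g)
    (e2 : ∑ k ∈ Tlo p P, (Me p P).dz m a k * (max (t1 p) ((Me p P).z k) ^ 2 *
      (Me p P).E2 m a (fun R => (R - (Me p P).q k) ^ 2) k) ≤ mo p 5 4 (-(13 : ℝ) / 20))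
    (ga : GA p P m a G)
    (gb : Mv30.IU (D p P m a E) ≤ mo p 8 4 (-(13 : ℝ) / 20) →
      Ex23.R0 (D p P m a E) ≤ mo p 8 4 (-(13 : ℝ) / 20) →
      ∑ k ∈ Thi p P, (Me p P).dz m a k * U3 p P m a k ≤ cb p (169 / 200)) :
    MnV p (D p P m a E) := by
  have g0 := gz.g0
  have u3 := gz.u3
  have n1 : _ ≤ mo p 5 2 (-(13 : ℝ) / 40) := gz.n1
  have n2 : _ ≤ mo p 5 3 (-(31 : ℝ) / 60) := gz.n2
  have n3 : _ ≤ mo p 5 5 (-(17 : ℝ) / 20) := gz.n3.trans (mo_e H (by norm_num))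
  have n4 : ∑ k ∈ Tlo p P, (Me p P).dz m a k * U (Me p P) m a 4 k ≤ mo p 5 5 (-(169 : ℝ) / 200) :=
    gz.n4.trans (mo_e H (by norm_num))
  have c0' := H.c_pos
  have e1 := H.η_le
  have ok := ad.ok
  have m0 := mo0 H
  have κ0 := H.κ0
  have k0 := F40.kk0 H
  have t0 := F40.t10 H
  have d0 : ∀ k, 0 ≤ (Me p P).dz m a k := fun k => ok.dx0 (k + 1)
  have s1 : _ ≤ mo p 5 2 (-(13 : ℝ) / 40) := ga.s1
  have s2 : _ ≤ mo p 5 4 (-(13 : ℝ) / 20) := ga.s2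
  have X1 := X1 H hc e ad
  have z1 := z1 H hc e ad
  have z0 : ∀ k, 0 ≤ max (t1 p) ((Me p P).z k) := fun k => le_max_of_le_left t0.le
  have ee : ∀ k i, i ≤ 20 → (D p P m a E).e (k + 1) ^ i ≤ kk p * max (t1 p) ((Me p P).z k) ^ i :=
    fun k i hi => by
      rw [cd_e, ad.env.e, div_pow, div_eq_inv_mul]
      exact mul_le_mul_of_nonneg_right (κ_kk H hi) (pow_nonneg (z0 k) _)
  have e1' : ∀ k i, i ≤ 20 → (D p P m a E).e (k + 1) ^ i ≤ kk p := fun k i hi =>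
    (ee k i hi).trans (mul_le_of_le_one_right k0.le (pow_le_one₀ (z0 k) (z1 k)))
  have gl : ∀ k ∈ Tlo p P, (D p P m a E).g (k + 1) ≤ g k := fun k hk =>
    g_le (mem_lo hk) (g0 k hk) (u3 k hk)
  have gh : ∀ k ∈ Thi p P, (D p P m a E).g (k + 1) ≤ 3 * G k := fun k hk => by
    have p0 := ga.pos k hk
    refine g_le (mem_hi hk) (by positivity) ((U_mom p0 (by norm_num) (ga.mom k hk)).trans ?_)
    rw [show (2 : ℝ) ^ (3 + 1) = 16 by norm_num]
    nlinarith [pow_pos p0 3]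
  have h2 : ∀ k ∈ Thi p P, U (Me p P) m a 2 k ≤ 8 * G k ^ 2 := fun k hk =>
    (U_mom (ga.pos k hk) (by norm_num) (ga.mom k hk)).trans_eq (by norm_num)
  have a1 := split (E := E) d0 zero_le_one (by norm_num : (0 : ℝ) ≤ 3)
    (f := (D p P m a E).g) (fun k hk => (gl k hk).trans_eq (one_mul _).symm) gh n1 s1
  have a2 := split (E := E) d0 zero_le_one (by norm_num : (0 : ℝ) ≤ 9)
    (f := fun j => (D p P m a E).g j ^ 2) (fun k hk => (pow_le_pow_left₀ ((D p P m a E).g0 _)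
      (gl k hk) 2).trans_eq (one_mul _).symm) (fun k hk => (pow_le_pow_left₀ ((D p P m a E).g0 _)
      (gh k hk) 2).trans_eq (by ring)) n2 s2
  have a3 := split (E := E) d0 k0.le (by positivity : 0 ≤ 8 * kk p)
    (f := fun j => (D p P m a E).e j ^ 2 * (D p P m a E).u 2 j) (fun k hk => by
      rw [u_eq 2 (mem_lo hk), ← U_two, ← mul_assoc]
      exact mul_le_mul_of_nonneg_right (ee k 2 (by norm_num)) (U0 _ _ _)) (fun k hk => by
      rw [u_eq 2 (mem_hi hk)]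
      exact (mul_le_mul (e1' k 2 (by norm_num)) (h2 k hk) (U0 _ _ _) k0.le).trans_eq (by ring))
    e2 s2
  have a4 := split (E := E) d0 zero_le_one (by norm_num : (0 : ℝ) ≤ 32)
    (f := (D p P m a E).u 4) (fun k hk => (u_eq 4 (mem_lo hk)).trans_le (one_mul _).ge)
    (fun k hk => by
      rw [u_eq 4 (mem_hi hk)]
      linarith [U_succ (m := m) (a := a) (Me p P) 3 k, U_succ (m := m) (a := a) (Me p P) 2 k,
        h2 k hk]) n4 s2
  have a5 : (D p P m a E).I (fun j => (D p P m a E).u 5 j) ≤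
      2 * mo p 5 5 (-(169 : ℝ) / 200) + 64 * mo p 5 4 (-(13 : ℝ) / 20) :=
    split d0 (by norm_num) (by norm_num) (fun k hk => (u_eq 5 (mem_lo hk)).trans_le
      (U_succ (Me p P) 4 k)) (fun k hk => by
      rw [u_eq 5 (mem_hi hk)]
      linarith [U_succ (m := m) (a := a) (Me p P) 4 k, U_succ (m := m) (a := a) (Me p P) 3 k,
        U_succ (m := m) (a := a) (Me p P) 2 k, h2 k hk]) n4 s2
  have tl := tl H hc e ad
  have iv : 1 / ((D p P m a E).n : ℝ) ≤ mo p 10 0 (-(9 : ℝ) / 10) := inv_line H ad.inn.m1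
  have b1 : mo p 5 5 (-(169 : ℝ) / 200) ≤ mo p 5 4 (-(13 : ℝ) / 20) :=
    mo_le' H (by push_cast; linarith) (by push_cast; linarith)
  have b2 : mo p 5 4 (-(13 : ℝ) / 20) ≤ mo p 6 4 (-(13 : ℝ) / 20) := mo_i H (by norm_num)
  have b3 : 1000 * mo p 6 4 (-(13 : ℝ) / 20) ≤ mo p 8 4 (-(13 : ℝ) / 20) :=
    (mo_c H le_rfl).trans (mo_i H (by norm_num))
  have b4 : mo p 10 0 (-(9 : ℝ) / 10) ≤ mo p 6 4 (-(13 : ℝ) / 20) :=
    mo_le' H (by push_cast; linarith) (by push_cast; linarith)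
  have b5 : (D p P m a E).X ^ 6 ≤ mo p 6 4 (-(13 : ℝ) / 20) :=
    ((pow_le_pow_left₀ ok.X0 X1 6).trans_eq (mo_pow H _ _ _ _)).trans
      (mo_le' H (by push_cast; linarith) (by push_cast; linarith))
  have q6 := m0 6 4 (-(13 : ℝ) / 20)
  rw [mul_assoc 8, kk_mul] at a3
  have top := gb (by rw [Mv30.IU]; norm_num at a3 a4 b1 b2 b3 q6 ⊢; linarith)
    (by rw [Ex23.R0]; linarith)
  have top' : ∑ k ∈ Thi p P, (Me p P).dz m a k * U (Me p P) m a 3 k ≤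
      mo p 0 5 (-(169 : ℝ) / 200) := by
    refine le_trans top (le_of_eq ?_)
    rw [cb, mo, pow_zero, one_mul, neg_div]
  have a6 := split (E := E) d0 k0.le k0.le
    (f := fun j => (D p P m a E).e j * (D p P m a E).g j ^ 3) (fun k hk => by
      have := ee k 1 (by norm_num)
      rw [pow_one, pow_one] at this
      rw [← mul_assoc]
      exact mul_le_mul this (pow_le_pow_left₀ ((D p P m a E).g0 _) (gl k hk) 3)
        (pow_nonneg ((D p P m a E).g0 _) 3) (mul_nonneg k0.le (z0 k))) (fun k hk => by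
      have := e1' k 1 (by norm_num)
      rw [pow_one] at this
      rw [g_cube (mem_hi hk)]
      exact mul_le_mul_of_nonneg_right this (U0 _ _ _)) n3 top'
  have a7 := split (E := E) d0 zero_le_one zero_le_two
    (f := (D p P m a E).u 4) (fun k hk => (u_eq 4 (mem_lo hk)).trans_le (one_mul _).ge)
    (fun k hk => (u_eq 4 (mem_hi hk)).trans_le (U_succ (Me p P) 3 k)) n4 top'
  rw [kk_mul, kk_mul] at a6
  have c1 := mo_c H (i := 5) (j := 2) (e := -(13 : ℝ) / 40) (x := 4) (by norm_num)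
  have c2 := mo_c H (i := 5) (j := 3) (e := -(31 : ℝ) / 60) (x := 10) (by norm_num)
  have c3 : mo p 5 4 (-(13 : ℝ) / 20) ≤ mo p 5 3 (-(31 : ℝ) / 60) :=
    mo_le' H (by push_cast; linarith) (by push_cast; linarith)
  have c4 : 1000 * mo p (5 + 1) 5 (-(17 : ℝ) / 20) ≤ mo p 6 5 (-(169 : ℝ) / 200) :=
    mo_le H (by push_cast; linarith) (by push_cast; linarith)
  have c5 := mo_c H (i := 5) (j := 5) (e := -(169 : ℝ) / 200) (x := 3) (by norm_num)
  have c6 : 1000 * mo p (0 + 1) 5 (-(169 : ℝ) / 200) ≤ mo p 6 5 (-(169 : ℝ) / 200) :=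
    (mo_c H le_rfl).trans (mo_i H (by norm_num))
  have c7 : mo p 0 5 (-(169 : ℝ) / 200) ≤ mo p 5 5 (-(169 : ℝ) / 200) := mo_i H (by norm_num)
  have c8 := m0 6 5 (-(169 : ℝ) / 200)
  refine ⟨le_trans (by rw [CD.N1]; linarith) c1, le_trans (by rw [CD.N2]; linarith) c2,
    (le_trans (by linarith) c5).trans_eq (cb_mo 6 169).symm, ?_⟩
  rw [cb_mo]
  linarith

/-- the exponents at a point -/
theorem vf (hm : E42.Hm (D p P m a E) (ηH p)) (M : MnV p (D p P m a E)) (B : BkV p (D p P m a E))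
    (hV : (D p P m a E).vL ≤ mo p 5 6 (-(59 : ℝ) / 60)) :
    (D p P m a E).Err ≤ gn p 200 * un p ∧
    (D p P m a E).N1 ≤ p.s ^ 2 * (p.n : ℝ) ^ (-(3 : ℝ) / 10) ∧
    (D p P m a E).N1 * (D p P m a E).N2 ≤ gn p 300 * un p ∧
    (∃ A, (D p P m a E).Add A ∧
      (D p P m a E).I (fun t => (D p P m a E).e t * A t) ≤ gn p 300 * un p) ∧
    E.F0 (jc p) ≤ kk p := by
  obtain ⟨⟨B, lev, t, A', V⟩, F0⟩ := B
  have ok := ad.ok
  have m0 := mo0 H
  have κ0 := H.κ0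
  have nv : nV p ≤ mo p 10 2 (-(13 : ℝ) / 40) := mo_i H (i := 6) (by norm_num)
  have n2 : (D p P m a E).N2 ≤ mo p 10 3 (-(31 : ℝ) / 60) := M.n2.trans (mo_i H (by norm_num))
  have hL : (p.κ ^ 2)⁻¹ ≤ kk p ^ 10 :=
    (κ_kk H (by norm_num)).trans (le_self_pow₀ (kk1 H) (by norm_num))
  have hw : √(t1 p * yV p ^ 2) ^ 2 ≤ mo p 20 5 (-(169 : ℝ) / 200) := by
    rw [V.w2, show yV p = mo p 3 2 (-(7 : ℝ) / 20) from rfl, mo_pow H]
    refine ((mul_le_mul_of_nonneg_right ((le_div_self (F40.t10 H).le κ0 H.κ1).trans (X_le H))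
      (m0 _ _ _).le).trans_eq (mo_mul H _ _ _ _ _ _)).trans ?_
    exact (mo_e H (by norm_num)).trans (mo_i H (by norm_num))
  have dx : (D p P m a E).I (D p P m a E).dx ≤ mo p 10 0 (-(9 : ℝ) / 10) := by
    refine ok.I_le (m0 _ _ _).le fun j hj => ?_
    have la1 : 1 ≤ E42.La (D p P m a E) := le_add_of_nonneg_right (ok.sig0 le_rfl)
    have f1 := (le_mul_of_one_le_right (ok.dx0 j) (one_le_pow₀ la1)).trans (hm.mshx j hj)
    have f2 : ηH p ^ 2 ≤ ηH p := by nlinarith [hm.η0, hm.η1]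
    refine f1.trans (f2.trans (le_trans (le_of_eq ?_) (mo_i H (i := 0) (by norm_num))))
    rw [ηH, mo, pow_zero, pow_zero, one_mul, one_mul]
  have eB : ∀ j ∈ (D p P m a E).up, (D p P m a E).e j ≤ (p.κ ^ 2)⁻¹ := fun j hj => by
    obtain ⟨k, rfl⟩ : ∃ k, j = k + 1 := ⟨j - 1, by have := (CD.mem_up.1 hj).1; omega⟩
    rw [cd_e, ad.env.e, ← one_div]
    exact div_le_div₀ zero_le_one (z1 H hc e ad k) (by positivity) (by nlinarith [H.κ1])
  refine ⟨(V.err ok rfl eB M.n1 n2 F0 dx (M.u3.trans_eq (cb_mo 6 169))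
    (M.u4.trans_eq (cb_mo 6 169)) le_rfl (Vl21.Lv2_le ok le_rfl)).trans
      (line2 H hc ok.X0 (ok.N10.trans M.n1) (m0 _ _ _).le V.L0 ok.Lv10 V.y0 (X1 H hc e ad)
        (inv_line H ad.inn.m1) (tl H hc e ad) le_rfl nv le_rfl hL (mo_i H (by norm_num))
        (mo_i H (by norm_num)) le_rfl V.w2 hw V.Lv1_le (hV.trans (mo_i H (by norm_num)))),
    n1_line H hc (M.n1.trans nv), n12_line H hc ok.N20 (M.n1.trans nv) n2,
    ⟨A', V.bd.add, V.IeA.trans (eA_line H hc V.L0 hL hw)⟩, n1_kk H hc (le_trans F0 nv)⟩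

end

end G40

/-- **`MnS`** -/
theorem mnS_40 {β : ℝ} (hβ : 1 < β) (a : GlS β) (b : GlE β) (c : GhA β) (d : GhB β) : MnS β := by
  unfold GlS at a
  unfold GlE at b
  unfold GhA at c
  unfold GhB EvA at d
  unfold MnS EvA
  refine Sml.glueC hβ (enS hβ) (a.and (b.and (c.and d))) fun C hC c0 C0 h0 h1 =>
    ⟨2, fun A hA => ⟨1 / 10 ^ 7, by norm_num, fun c hc c0' => ⟨c, c0', fun η _ η0 =>
      ⟨0, fun p R Q W => ?_⟩⟩⟩⟩
  obtain ⟨a, b, c, d⟩ := W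
  intro P m x E ad
  obtain ⟨G', g, gz⟩ := a P m x ad.sp ad.inn
  obtain ⟨G, ga⟩ := c P m x ad.sp ad.inn
  exact G40.mn R hc (Q R.r_le_ye P ad.sp) ad gz (b P m x ad.sp ad.inn) ga (d P m x E ad)

/-- **`VfS`** -/
theorem vfS_of {β : ℝ} (hβ : 1 < β) : VfS β := by
  have Y := hmS hβ
  unfold HmS EvA at Y
  unfold VfS EvA
  refine Sml.glueC hβ (enS hβ) Y fun C hC c0 C0 h0 h1 =>
    ⟨2, fun A hA => ⟨1 / 10 ^ 7, by norm_num, fun c hc c0' => ⟨c, c0', fun η _ η0 =>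
      ⟨0, fun p R Q W => ?_⟩⟩⟩⟩
  intro P m x E ad
  exact G40.vf R hc (Q R.r_le_ye P ad.sp) ad (W P m x E ad)

/-- **`ValX` from the record** -/
theorem valX_rc {β : ℝ} (hβ : 1 < β) (r : RcS β) (a : GlS β) (b : GlE β) (c : GhA β) (d : GhB β)
    (l : LvS β) : ValX β := valX_glue r (mnS_40 hβ a b c d) (vfS_of hβ) l

end Crest.Agent.T156.Alt.R2

end
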