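import Crest.Agent.T156.R2VB_23
import Crest.Agent.T156.R2VG_23
import Crest.Agent.T156.R2K_30

/-!
# Row 156, R2 (helper23): the value record of the END model
-/

set_option autoImplicit false

noncomputable section

namespace Crest.Agent.T156.Alt.R2

open Real Finset
open Crest.Agent.T156.Cas Crest.Agent.T156.Cas.C40 Md67 CIn12 Lb24 Rc23

variable {β c0 C0 c η K C C' : ℝ} {A : ℕ} {p : Pm} {P : Pl} {m : ℕ} {a : ℝ}

theorem w3_le23 (H : Reg β c0 C0 A c η K p) (C1 : 1 ≤ C) {t : ℝ} (t0 : 0 < t) (ht : t ≤ C ^ 3) :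
    (Se p C P).w3 t * t ≤ C ^ 6 / (p.n * p.κ ^ 7) / t ^ 2 := by
  have k0 := H.κ0
  have N0 := H.N0
  have y0 := H.ye0
  have a1 : t * p.ye / C ^ 3 ≤ max p.r (min t p.ye) := by
    refine le_max_of_le_right (le_min ?_ ?_) <;> rw [div_le_iff₀ (by positivity)]
    · exact mul_le_mul_of_nonneg_left (H.ye1.trans (one_le_pow₀ C1)) t0.le
    · rw [mul_comm]; exact mul_le_mul_of_nonneg_left ht y0.le
  change 1 / (p.n * t * (1 * p.κ * max p.r (min t p.ye) ^ 2)) * t ≤ _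
  calc _ ≤ 1 / (p.n * t * (1 * p.κ * (t * p.ye / C ^ 3) ^ 2)) * t := by gcongr
    _ = _ := by rw [Pm.ye]; field_simp

/-- the envelope on UP -/
theorem env_up23 (H : Reg β c0 C0 A c η K p) {G g G' : ℕ → ℝ}
    (u : GZ p P m a (Tlo p P) G g) (v : GA p P m a G') : ∃ F : ℕ → ℝ,
    (∀ k, jc p ≤ k → k < (Me p P).N → 0 < F k ∧
      (Me p P).E2 m a (fun R => (R - (Me p P).q k) ^ 2) k ≤ F k ^ 2 ∧
      (Me p P).E2 m a (fun R => max (|R - (Me p P).q k| - F k) 0) k ≤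
        (p.n : ℝ) ^ (-(2 * (p.A : ℝ) + 5))) ∧
    ∑ t ∈ tlP (Me p P) (jc p) (jc p), (Me p P).dz m a t * F t ≤ nV p := by
  refine ⟨fun k => if (Me p P).s k < (Me p P).s p.J / 16 then G k else 3 * G' k,
    fun k k1 k2 => ?_, ?_⟩
  · beta_reduce
    split_ifs with h
    · have hk : k ∈ Tlo p P := mem_filter.2 ⟨mem_Ico.2 ⟨k1, k2⟩, h⟩
      exact ⟨u.pos k hk, u.sq k hk, u.env k hk⟩
    · have hk : k ∈ Thi p P := mem_filter.2 ⟨mem_Ico.2 ⟨k1, k2⟩, h⟩
      have g0 := v.pos k hk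
      have := mom_pair (q := (Me p P).q k) (i := 2) g0 (by norm_num) (v.mom k hk)
      simp only [sq_abs, sub_self, abs_zero, add_zero] at this
      rw [show (2 : ℝ) ^ (2 + 1) = 8 by norm_num] at this
      exact ⟨by linarith, this.trans (by nlinarith [sq_nonneg (G' k)]), (E2_mono
        (fun _ _ => max_le_max (by linarith) le_rfl) k).trans (v.env k hk)⟩
  · have k4 : 4 ≤ kk p := H.le_of_lg (by norm_num) (kk0 H) (by
      linarith [lg_kk H, (H.lg_num (x := 4) (by norm_num) (by norm_num)).2, H.c_pos, H.η_le])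
    have x0 : 0 ≤ kk p ^ 5 * (p.s ^ 2 * (p.n : ℝ) ^ (-(13 : ℝ) / 40)) := by positivity
    have a1 := u.s1
    have a2 := mul_le_mul_of_nonneg_left v.s1 zero_le_three
    rw [mul_sum] at a2
    simp only [mul_ite]
    rw [tlP, max_self, sum_ite, nV, pow_succ' _ 5, mul_assoc]
    simp only [mul_left_comm _ (3 : ℝ)]
    exact (add_le_add a1 a2).trans (by linarith [mul_le_mul_of_nonneg_right k4 x0])

set_option maxHeartbeats 800000 in
theorem rc_end (H : Reg β c0 C0 A c η K p) (hC : C ≤ K) (hC' : C' ≤ K)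
    (hη : 10 * η ≤ c) (e : En C p P) (sp : p.SpOk (7 / 20) P) (x : In p m a)
    (hb : (Me p P).b ≤ p.β ^ 2)
    (cr : ∀ k, p.jf ≤ k → k ≤ p.Jp P →
      (Me p P).rb m a k ≤ (p.n : ℝ) ^ η * max ((Me p P).z k) (p.r / p.κ))
    {G g G' : ℕ → ℝ} (u : GZ p P m a (Tlo p P) G g) (v : GA p P m a G') {N : ℕ}
    (T : Lb24.Top (Me p P) m a (p.J - 1) N (kk p ^ 5 * (p.s ^ 5 * (p.n : ℝ) ^ (-(17 : ℝ) / 20)))
      (kk p ^ 5 * (p.s ^ 5 * (p.n : ℝ) ^ (-(17 : ℝ) / 20))))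
    (L1 : ∀ Λ₀ t, 0 < t → (Me p P).s p.jf ≤ t → (Se p C P).w3 t ≤ t ^ 3 →
      Crude Λ₀ (Se p C P) (Me p P) m a t p.jf →
      LowE (Se p C P) (Me p P) m a ((p.n : ℝ) ^ η * Λ₀) t)
    (L2 : ∀ Λ₀ l, 0 < l → (Me p P).s p.jf ≤ l → (Se p C P).w3 l ≤ l ^ 3 →
      Crude Λ₀ (Se p C P) (Me p P) m a l p.jf → ∃ (lam : ℝ) (D : ℕ),
        Kc lam l (lam * Λ₀) D (Se p C P) (Me p P) m a ∧ lam ^ 60 ≤ (p.n : ℝ) ^ η)
    (L3 : St7.Lk (2 * C) (Se p C P) (Me p P) m a (Me p P).q (jc p) → ∀ k, jc p ≤ k →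
      k < (Me p P).N → |GamC (Me p P) m a (Me p P).q (jc p) k - (Me p P).q k| ≤
        St7.dl (Me p P) m (Me p P).q k + C' * ((Me p P).z (jc p) * (Me p P).s (jc p) ^ 2 +
          min ((Me p P).s k) 1 * St7.Ed (Se p C P) (Me p P) m (Me p P).q (jc p))) :
    ∃ E, Ad p P m a E ∧ BkV p (D p P m a E) := by
  have C1 : 1 ≤ C := e.cl.C1
  have r0 := H.r0
  have k0 := H.κ0
  have k1 := H.κ1
  have N0 := H.N0
  have v0 := H.v0
  have s0 := H.s0
  have j0 := H.jfv0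
  have t0 := t10 H
  have q0 := kk0 H
  have cp := H.c_pos
  have cl := H.c_le
  have ηp := H.η_pos
  have ls := H.lg_s
  have lj := H.lg_jf
  have lr := H.lg_r
  have lk := H.lg_κ
  have ln := H.lg_n
  have lt := lg_t1 H
  have lq := lg_kk H
  have lL := H.lg_rp η
  have l4 := H.lg_num (x := 4) (by norm_num) (by norm_num)
  have lC := H.lg_cst C1 (hC.trans H.K_le)
  have j1 := jc_lt H
  have j2 := jf_lt H
  have i3 : p.J ≤ p.Jp P := e.cl.i3
  have i4 : p.Jp P < (Me p P).N := e.cl.i4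
  have jb := jc_bds H
  have G0 := e.lg H x
  have jb2 : jc p * p.v ≤ 2 * t1 p := by linarith [H.v_le_r, r_le_t1 H]
  have a1 : 4 * (p.jf * p.v) ≤ t1 p := H.le_of_lg (by positivity) t0 (by
    rw [logb_mul (by norm_num) j0.ne']; linarith)
  have j4 : 4 * p.jf ≤ jc p := by
    exact_mod_cast le_of_mul_le_mul_right (show (4 * (p.jf : ℝ)) * p.v ≤ jc p * p.v by linarith) v0
  have sf : (Me p P).s p.jf ≤ t1 p := by linarith [(e.s_lo H (k := p.jf) (by omega)).2]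
  have sc : (Me p P).s (jc p) ≤ 3 * t1 p := by linarith [(e.s_lo H (k := jc p) (by omega)).2]
  have tκ : t1 p / p.κ ≤ 1 := H.le_of_lg (by positivity) one_pos (by lg_norm; linarith)
  have t1' : t1 p ≤ 1 := (le_div_self t0.le k0 k1).trans tκ
  have rt : p.r / p.κ ≤ t1 p := H.le_of_lg (by positivity) t0 (by lg_norm; linarith)
  have c3 := one_le_pow₀ (n := 3) C1
  have wt : (Se p C P).w3 (t1 p) ≤ t1 p ^ 3 := le_of_mul_le_mul_right
    ((w3_le23 H C1 t0 (t1'.trans c3)).trans (H.le_of_lg (by positivity) (by positivity)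
      (by lg_norm; linarith))) t0
  have tl : tlD (Se p C P) 3 ≤ (p.n : ℝ) ^ (-(2 * (p.A : ℝ) + 5)) := by
    have : (2 : ℝ) ≤ p.A := by rw [H.hA]; exact_mod_cast H.A2
    change ((p.n : ℝ) ^ (3 * (p.A + 1)))⁻¹ ≤ _
    refine H.le_of_lg (by positivity) (H.rp0 _) ?_
    rw [H.lg_rp]
    lg_norm
    push_cast
    rw [ln]
    linarith
  have dn : C / (m + 1) ≤ t1 p ^ 3 := by
    have : (p.n : ℝ) ≤ m := by exact_mod_cast x.m1
    refine le_trans (div_le_div_of_nonneg_left (by linarith) N0 (by linarith)) ?_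
    exact H.le_of_lg (by positivity) (by positivity) (by lg_norm; linarith)
  have HN : (Me p P).H (Me p P).N ≤ C * A * log p.n := H.hA ▸ e.cl.HN
  have L7 : ((p.n : ℝ) ^ η) ^ 7 * p.κ ≤ 1 := by
    have := H.Λ0
    generalize (p.n : ℝ) ^ η = Λ at *
    exact H.le_of_lg (by positivity) one_pos (by lg_norm; linarith)
  obtain ⟨y, hy⟩ : ∃ y, y = yV p := ⟨_, rfl⟩
  have n1 := H.rp0 (-(7 : ℝ) / 20)
  have y0 : 0 < y := by rw [hy, yV]; positivity
  have ly : logb p.n y = 60 * c + 2 * logb p.n p.s - 7 / 20 := by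
    rw [hy, yV, logb_mul (by positivity) (by positivity), logb_mul (by positivity) n1.ne', logb_pow,
      logb_pow, lq, H.lg_rp]
    push_cast
    ring
  obtain ⟨τ, hτ⟩ : ∃ τ, τ = kk p ^ 5 * (p.s ^ 5 * (p.n : ℝ) ^ (-(17 : ℝ) / 20)) := ⟨_, rfl⟩
  have n2 := H.rp0 (-(17 : ℝ) / 20)
  have τ0 : 0 < τ := by rw [hτ]; positivity
  have lτ : logb p.n τ = 100 * c + 5 * logb p.n p.s - 17 / 20 := by
    rw [hτ, logb_mul (by positivity) (by positivity), logb_mul (by positivity) n2.ne', logb_pow,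
      logb_pow, lq, H.lg_rp]
    push_cast
    ring
  rw [← hτ] at T
  have CL := hC.trans H.K_le
  have CL' := hC'.trans H.K_le
  have AL := H.A_le
  have gL := H.log_le
  have g1 := H.log1
  have nL := H.num_le
  generalize (p.n : ℝ) ^ η = Λ at *
  have Λ1 : 1 ≤ Λ := by linarith
  have pw : ∀ {i j : ℕ}, i ≤ j → Λ ^ i ≤ Λ ^ j := fun h => pow_le_pow_right₀ Λ1 h
  have pn : ∀ i j : ℕ, i < j → 1000 * Λ ^ i ≤ Λ ^ j := fun i j h => le_trans (by
    rw [pow_succ']; exact mul_le_mul_of_nonneg_right nL (by positivity)) (pw (i := i + 1) h)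
  have pC : ∀ i : ℕ, C ^ i ≤ Λ ^ i := fun i => pow_le_pow_left₀ (by linarith) CL i
  have kx : ∀ {z : ℝ}, z ≤ Λ ^ 7 → z * p.κ ≤ 1 := fun h =>
    (mul_le_mul_of_nonneg_right h k0.le).trans L7
  have Cr : Crude Λ (Se p C P) (Me p P) m a (t1 p) p.jf := ⟨Λ1, fun k h1 h2 => (cr k h1 h2).trans
    (mul_le_mul_of_nonneg_left (max_le_max le_rfl rt) (by linarith))⟩
  obtain ⟨lam, Dn, Kk, hl⟩ := L2 Λ _ t0 sf wt Cr
  have F := Kk.fn
  have l0 := Kk.l0
  have pl : ∀ {i : ℕ}, i ≤ 60 → lam ^ i ≤ Λ := fun h =>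
    (pow_le_pow_right₀ (by linarith) h).trans hl
  have zc : (Me p P).z (jc p) ≤ 6 * C ^ 2 * t1 p :=
    (F.z_hi (k := jc p) (show p.jf ≤ _ by omega) (show _ < p.J by omega)).trans (by
      change 3 * C ^ 2 * (jc p * p.v) ≤ _
      linarith [mul_le_mul_of_nonneg_left jb2 (show 0 ≤ 3 * C ^ 2 by positivity)])
  have c2 := one_le_pow₀ (n := 2) C1
  have hX : Λ ^ 4 * max ((Me p P).z (jc p - 1)) (t1 p) ≤ t1 p / p.κ := by
    have : max ((Me p P).z (jc p - 1)) (t1 p) ≤ Λ ^ 3 * t1 p := (max_le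
      ((G0.zm (Nat.sub_le _ 1)).trans zc) (le_mul_of_one_le_left t0.le (by linarith))).trans
      (mul_le_mul_of_nonneg_right (by linarith [pC 2, pn 2 3 (by norm_num)]) t0.le)
    rw [le_div_iff₀ k0]
    calc _ ≤ Λ ^ 4 * (Λ ^ 3 * t1 p) * p.κ := by gcongr
      _ = Λ ^ 7 * p.κ * t1 p := by ring
      _ ≤ _ := mul_le_of_le_one_left t0.le L7
  have t3 := pow_pos t0 3
  have big : ∀ {z : ℝ}, z ≤ Λ ^ 12 * t1 p ^ 3 → z ≤ (Λ ^ 4 * t1 p) ^ 3 := fun h =>
    h.trans_eq (by ring)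
  have KD := kd_cei (J := jc p) (lam := Λ ^ 4) F (e.cei.toG e.cl) (show p.jf < _ by omega)
    (by omega) t0 (L1 Λ _ t0 sf wt Cr) (by positivity)
    (show Λ * Λ + 4 * C ^ 3 + 4 * C ^ 3 * 1 ≤ _ by
      linarith [pC 3, pn 3 4 (by norm_num), pw (show 2 ≤ 3 by norm_num)])
    hb (hX.trans tκ) (by
      have b1 := e.cl.sm (Nat.sub_le (jc p) 1)
      have b2 : ((jc p - 1 : ℕ) : ℝ) * p.v ≤ jc p * p.v := by gcongr; exact Nat.sub_le _ _
      refine (H_le F e.cei (μ := (3 * t1 p) ^ 2) (k := jc p - 1) (show p.jf < _ by omega)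
        (show _ ≤ p.Jp P by omega) ?_).trans (le_trans (big ?_) (pow_le_pow_left₀ (by positivity)
          (mul_le_mul_of_nonneg_left (le_max_right _ _) (by positivity)) 3))
      · change 1 * p.κ * max p.r (min _ p.ye) ^ 2 ≤ _
        rw [one_mul]
        exact (mul_le_of_le_one_left (sq_nonneg _) k1).trans (pow_le_pow_left₀
          (le_max_of_le_left r0.le) (max_le (by linarith [r_le_t1 H])
            ((min_le_left _ _).trans (b1.trans sc))) 2)
      · change C * 1 * (3 * t1 p) ^ 2 * ((Me p P).s p.jf + ((jc p - 1 : ℕ) : ℝ) * p.v) ≤ _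
        calc _ ≤ C * 1 * (3 * t1 p) ^ 2 * (3 * t1 p) := by gcongr; linarith
          _ = 27 * C * t1 p ^ 3 := by ring
          _ ≤ _ := mul_le_mul_of_nonneg_right
              (by linarith [pn 1 12 (by norm_num)]) t3.le)
  have dl : ∀ k, jc p ≤ k → k < (Me p P).N → St7.dl (Me p P) m (Me p P).q k ≤ C / (m + 1) :=
    fun k h1 h2 => by
      have := St7.dl_le (m := m) e.cl (rf_q e.cl) h2
      rwa [G_zero sp (by omega), sub_self, abs_zero, mul_zero, add_zero, zero_add] at this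
  have Lk : St7.Lk (2 * C) (Se p C P) (Me p P) m a (Me p P).q (jc p) :=
    ⟨e.cl, G0, x.a0 H, rf_q e.cl, show p.jf ≤ _ by omega, show _ < p.J by omega,
      e.cl.sT.trans (show C ≤ _ by linarith), by
        have b1 := (le_abs_self _).trans (dl (p.Jp P) (by omega) i4)
        have b2 : (Me p P).s (p.Jp P) ≤ C := e.cl.sT
        change St7.sg (Me p P) m (Me p P).q (p.Jp P) ≤ _
        linarith [pow_le_one₀ (n := 3) t0.le t1']⟩
  have st : ∀ k, jc p ≤ k → k < (Me p P).N →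
      |GamC (Me p P) m a (Me p P).q (jc p) k - (Me p P).q k| ≤ (Λ ^ 4 * t1 p) ^ 3 := fun k h1 h2 => by
    have b1 := (St7.Ed_le Lk fun k h1 h2 => dl k h1 (h2.trans_lt i4)).trans dn
    have b2 := (mul_le_of_le_one_left (St7.Ed_nonneg Lk) (min_le_right ((Me p P).s k) 1)).trans b1
    have b3 := mul_le_mul zc (pow_le_pow_left₀ (s_nonneg e.cl _) sc 2) (sq_nonneg _) (by positivity)
    have b4 := mul_le_mul CL' (add_le_add b3 b2) (add_nonneg (mul_nonneg (G0.z_nonneg _)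
      (sq_nonneg _)) (mul_nonneg (le_min (s_nonneg e.cl _) zero_le_one) (St7.Ed_nonneg Lk)))
      (by linarith)
    refine big ((L3 Lk k h1 h2).trans ((add_le_add ((dl k h1 h2).trans dn) b4).trans ?_))
    have b5 := mul_le_mul_of_nonneg_left (pC 2) (show 0 ≤ Λ by linarith)
    refine le_trans (le_of_eq (by ring)) (mul_le_mul_of_nonneg_right
      (show 1 + Λ * (54 * C ^ 2 + 1) ≤ _ from ?_) t3.le)
    linarith [pn 3 12 (by norm_num), pw (show 1 ≤ 3 by norm_num)]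
  have hb' : p.J - 1 < (Se p C P).J := show _ < p.J by omega
  have w2 : √(t1 p * y ^ 2) ^ 2 = t1 p * y ^ 2 := sq_sqrt (by positivity)
  have w0 := sqrt_nonneg (t1 p * y ^ 2)
  have tp := Kk.tt_pos j4 hb'
  have lo : ∀ i, t1 p ≤ tt (Se p C P) (jc p) (p.J - 1) i := fun i => le_trans (by
    rw [tt_lt (Nat.succ_pos _), pow_zero, one_mul]
    exact jb.1.trans (le_mul_of_one_le_left (by positivity) C1))
    (Kk.tt_mono j4 hb' (by omega) (Nat.zero_le i))
  have al0 : ∀ i, 0 ≤ t1 p * y / tt (Se p C P) (jc p) (p.J - 1) i := fun i => by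
    have := tp i; positivity
  obtain ⟨B, PB⟩ := Kk.bp j4 hb' T
    (al := fun i => t1 p * y / tt (Se p C P) (jc p) (p.J - 1) i + √(t1 p * y ^ 2))
    (fun i => add_nonneg (al0 i) w0) (fun i _ => .inl (by
      have b0 := tp i
      have b1 : Λ ^ 3 * (C ^ 6 / (p.n * p.κ ^ 7)) ≤ (t1 p * y) ^ 2 :=
        H.le_of_lg (by positivity) (by positivity) (by lg_norm; linarith)
      have b2 : lam ^ 24 * (lam * Λ) ^ 2 ≤ Λ ^ 3 := by
        linarith [mul_le_mul_of_nonneg_right (pl (show 26 ≤ 60 by norm_num)) (sq_nonneg Λ)]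
      rw [max_eq_left (lo i)]
      refine (mul_le_mul b2 (w3_le23 H C1 b0 (Kk.tt_le j4 hb' (by omega) i))
        (mul_nonneg (F.w3_pos b0).le b0.le) (by positivity)).trans (le_trans ?_
          (pow_le_pow_left₀ (al0 i) (le_add_of_nonneg_right w0) 2))
      rw [div_pow, ← mul_div_assoc]
      exact div_le_div_of_nonneg_right b1 (sq_nonneg _)))
    (by
      have b1 : Λ * τ ≤ t1 p * y ^ 2 :=
        H.le_of_lg (by positivity) (by positivity) (by lg_norm; linarith)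
      have b2 : lam ^ 3 * 2 ≤ Λ := le_trans (by
        rw [pow_succ lam 3]; exact mul_le_mul_of_nonneg_left (by linarith) (by positivity))
        (pl (show 4 ≤ 60 by norm_num))
      refine le_trans ?_ (pow_le_pow_left₀ w0 (le_add_of_nonneg_left (al0 _)) 2)
      linarith [mul_le_mul_of_nonneg_right b2 τ0.le])
  obtain ⟨Fe, F1, F2⟩ := env_up23 H u v
  obtain ⟨z, ok⟩ := (ci_cl KD (G := Fe) (f0 := fun k => ErrL.ph (nI (jc p) (p.J - 1) + 1) _
      (Lb24.lv (jc p) (p.J - 1) k))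
    ⟨fun k => ErrL.ph0 PB.al0 _, fun k => ph_anti PB.al0 (PB.mono (Nat.le_succ k))⟩
    (fun φ hφ => PB.var G0 (φ := φ) (ab := fun _ => 1) (fun _ => zero_le_one) (fun _ _ _ => rfl)
      (fun k _ _ => hφ k) fun k => by simp only [one_mul, le_refl])
    st k0 hX tκ (kx (pw (by norm_num))) tl F1).ok_val
  refine ⟨_, ⟨sp, x, ⟨rfl, fun _ => rfl, rfl⟩, ok⟩, ⟨_, _, _, _, hy ▸ vb_cl Kk e.cei j4 hb'
    (by omega) PB (fun _ => rfl) (fun _ => rfl) rfl t0 t1' jb.1 k0 y0.le w0 w2 (kx ?_)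
    (kx ((pl (by norm_num)).trans (le_self_pow₀ Λ1 (by norm_num)))) (kx ?_)⟩, F2⟩
  · change 100 * C ^ 4 ≤ _
    linarith [pC 4, pn 4 7 (by norm_num), pow_pos (zero_lt_one.trans_le C1) 4]
  · have : C * A * log p.n ≤ Λ * Λ * Λ := by gcongr
    linarith [pn 3 7 (by norm_num), pC 3]

/-- **the record** -/
theorem rcS_of {β : ℝ} (hβ : 1 < β) (h1 : CrE β) (h2 : GlS β) (h3 : GhA β) (h4 : TpS β) :
    RcS β := by
  unfold CrE at h1
  unfold GlS at h2
  unfold GhA at h3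
  unfold TpS at h4
  refine Sml.glueCL hβ (enS hβ) (h1.and (h2.and (h3.and (h4.and (memSp β hβ).sml))))
    ((env_cl 3).and kc_ev) (fun C => C) (fun _ => 1) (fun _ _ => one_pos) fun C C1 => ?_
  obtain ⟨C', C'1, hC'⟩ := St7.link_cd (2 * C)
  refine fun c0 C0 _ _ => ⟨0, fun A _ => ⟨1, one_pos, fun c _ hc => ⟨c / 10, by positivity,
    fun η hη _ => ⟨C + C', fun p H G ⟨r1, r2, r3, r4, _, _, _, r5⟩ L P m a sp x => ?_⟩⟩⟩⟩
  have e := G H.r_le_ye P sp
  obtain ⟨G1, g, u⟩ := r2 P m a sp x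
  obtain ⟨G2, v⟩ := r3 P m a sp x
  obtain ⟨N, T⟩ := r4 P m a sp x
  obtain ⟨l1, l2⟩ := L (Se p C P) (Me p P) rfl rfl rfl e.cl m a x.sc
  exact rc_end H (by linarith) (by linarith) (by linarith) e sp x
    (le_trans (by simp [Md.b, Pm.tst, Pm.fam]) (r5 _ P H.r_le_ye le_rfl sp).2.2.2.1.b2)
    (r1 P m a sp x) u v T l1 (l2 H.N1.le) fun k a b c => (hC' _ _ _ _ _ _ k a b c).1

/-- **`ValX`** from the moment table and the exponent line -/
theorem valX_of' {β : ℝ} (hβ : 1 < β) (h1 : CrE β) (h2 : GlS β) (h3 : GhA β) (h4 : TpS β)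
    (h5 : LvS β) (h6 : MnS β) (h7 : VfS β) : ValX β := valX_glue (rcS_of hβ h1 h2 h3 h4) h6 h7 h5

end Crest.Agent.T156.Alt.R2

end
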