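import Crest.Agent.T156.C1MemB_3
import Crest.Agent.T156.FamSm_28
import Crest.Agent.T156.SprM_41
import Crest.Agent.T156.PlW_13
import Crest.Agent.T156.LspB_28

/-!
Row 156 (helper3): membership along the segment `C1` (`Mem1`).
-/

set_option autoImplicit false
set_option linter.unusedSectionVars false

noncomputable section

namespace Crest.Agent.T156.Alt

open Real Set Filter Topology
open Crest.Agent.T156.Pr Crest.Agent.T157.Nm
open Plt13 Mem37

namespace Mem13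

/-- numeric inputs for the static marks `rF ν` below the plateau -/
structure Nu (K K0 c0 C0 η Y ν : ℝ) (p : Pm) : Prop where
  nm : Nm p ν
  base : Base (p.β ^ 2) c0 C0 η p.v p.J p.z
  hc : 0 < c0
  hC : 1 ≤ C0
  hK : 1 ≤ K0
  KK : 78 * (C0 * K0 ^ 2) ≤ K
  xs1 : 1 / K0 ≤ p.xs
  xs2 : p.xs ≤ 1 - 1 / K0
  u : log p.n * u0 p ν ≤ 1 / (2 * K0)
  lg : 12 * C0 * K ≤ log p.n
  hY : C0 * p.v + C0 * Y ≤ 1 / (2 * K0)

namespace Nu

variable {K K0 c0 C0 η Y ν : ℝ} {p : Pm} (h : Nu K K0 c0 C0 η Y ν p)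
include h

theorem K0K : K0 ≤ K := by
  have a := h.hK
  have b := mul_le_mul h.hC (show K0 ≤ K0 ^ 2 by nlinarith) (by linarith) (by linarith [h.hC])
  linarith [h.KK]

theorem K78 : 78 ≤ K := by
  have := one_le_mul_of_one_le_of_one_le h.hC (one_le_pow₀ (n := 2) h.hK)
  linarith [h.KK]

theorem zero {x : ℝ} (hx : x ≤ 1 / (2 * K0)) : p.rF ν x = 0 := by
  have a : 1 / (2 * K0) ≤ 1 / 2 := one_div_le_one_div_of_le two_pos (by linarith [h.hK])
  have b : 1 / K0 = 1 / (2 * K0) + 1 / (2 * K0) := by have := h.hK; field_simp; norm_num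
  exact h.nm.rF_zero (hx.trans a) (by linarith [h.u, h.xs1])

theorem zero' {x : ℝ} (hx : x ≤ 1 / (2 * K)) : p.rF ν x = 0 :=
  h.zero (hx.trans (one_div_le_one_div_of_le (by linarith [h.hK]) (by linarith [h.K0K])))

theorem z_le {k : ℕ} (hk : k < p.J) : p.z k ≤ p.xs := h.base.lab.mono (by omega)

theorem sq_ge {x : ℝ} (hx : x ≤ p.xs) : 1 / K0 ≤ 1 - x ∧ 1 / K0 ≤ √(1 - x) := by
  have a : 1 / K0 ≤ 1 - x := by linarith [h.xs2]
  have b : 1 / K0 ≤ 1 := by rw [div_le_one (by linarith [h.hK])]; exact h.hK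
  have c : 0 < 1 / K0 := by have := h.hK; positivity
  exact ⟨a, le_sqrt_of_sq_le (by nlinarith)⟩

/-- one step of the marks below the plateau -/
theorem step {k : ℕ} (h1 : 1 ≤ k) (hk : k < p.J) :
    -(p.v / (8 * K)) ≤ p.rF ν (p.z k) - p.rF ν (p.z (k - 1)) ∧
      p.rF ν (p.z k) - p.rF ν (p.z (k - 1)) ≤ K * p.v := by
  obtain ⟨j, rfl⟩ : ∃ j, k = j + 1 := ⟨k - 1, by omega⟩
  obtain ⟨a, b⟩ := h.base.slo j hk
  unfold dm at a b
  have v0 := h.nm.v0
  have k1 := h.hK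
  have K1 := h.K78
  have C1 := h.hC
  have d0 : 0 ≤ p.z (j + 1) - p.z j := le_trans (mul_pos h.hc v0).le a
  obtain ⟨c, d⟩ := h.nm.rF_sub_lo (sub_nonneg.1 d0) (h.z_le hk)
  obtain ⟨e, f⟩ := h.sq_ge (h.z_le hk)
  rw [Nat.add_sub_cancel]
  have l0 : 0 < log (p.n : ℝ) := by linarith [h.nm.l1]
  refine ⟨le_trans (neg_le_neg ?_) c, d.trans ?_⟩
  · refine (mul_le_mul_of_nonneg_left b (by positivity)).trans ?_
    rw [div_mul_eq_mul_div, div_le_div_iff₀ (by positivity) (by positivity)]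
    linarith [mul_le_mul_of_nonneg_left h.lg v0.le]
  · have g : 1 / K0 * (1 / K0) ≤ (1 - p.z (j + 1)) * √(1 - p.z (j + 1)) :=
      mul_le_mul e f (by positivity) (le_trans (by positivity) e)
    refine (div_le_div₀ (by positivity) (mul_le_mul h.nm.l_le b d0 zero_le_one) (by positivity)
      g).trans ?_
    have : 1 * (C0 * p.v) / (1 / K0 * (1 / K0)) = C0 * K0 ^ 2 * p.v := by field_simp
    rw [this]
    exact mul_le_mul_of_nonneg_right (by linarith [h.KK, show 0 ≤ C0 * K0 ^ 2 by positivity]) v0.le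

/-- the marks vanish below the level `Y` -/
theorem step0 {k : ℕ} (hk : k < p.J) (hY : k * p.v ≤ Y) :
    p.rF ν (p.z k) - p.rF ν (p.z (k - 1)) = 0 := by
  have a := (PP3.z_bds h.base k hk).2
  have b := mul_le_mul_of_nonneg_left hY (show 0 ≤ C0 by linarith [h.hC])
  have c : p.z k ≤ 1 / (2 * K0) := by linarith [h.hY]
  rw [h.zero c, h.zero ((h.base.lab.mono (Nat.sub_le k 1)).trans c), sub_self]

/-- the field `m rF ν` against a mass `w ≥ m` above the level `Y` -/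
theorem stepH {k : ℕ} (h1 : 1 ≤ k) (hk : k < p.J) {m w : ℝ} (hm : 0 ≤ m) (hw : 0 ≤ w)
    (hY : Y ≤ k * p.v → m ≤ w) :
    -(w * p.v / (4 * K)) ≤ m * p.rF ν (p.z k) - m * p.rF ν (p.z (k - 1)) ∧
      m * p.rF ν (p.z k) - m * p.rF ν (p.z (k - 1)) ≤ K * w * p.v := by
  have v0 := h.nm.v0
  have K1 := h.K78
  rw [← mul_sub]
  rcases le_total (k * p.v) Y with a | a
  · rw [h.step0 hk a, mul_zero]
    exact ⟨neg_nonpos.2 (by positivity), by positivity⟩
  · obtain ⟨b, c⟩ := h.step h1 hk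
    have b' := mul_le_mul_of_nonneg_left b hm
    have c' := mul_le_mul_of_nonneg_left c hm
    have d := mul_le_mul_of_nonneg_right (hY a) (show 0 ≤ p.v / (8 * K) by positivity)
    have e := mul_le_mul_of_nonneg_right (hY a) (show 0 ≤ K * p.v by positivity)
    have f : w * p.v / (4 * K) = 2 * (w * (p.v / (8 * K))) := by field_simp; ring
    have g : 0 ≤ w * (p.v / (8 * K)) := by positivity
    constructor <;> linarith

/-- size of the marks below the plateau -/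
theorem sq_lo {x : ℝ} (hx : x ≤ p.xs) : p.rF ν x ^ 2 ≤ 4 * K0 ^ 2 * p.la ν ^ 2 +
    if p.xs - log p.n * u0 p ν < x then u0 p ν ^ 2 else 0 := by
  have k1 := h.hK
  have x1 := hx.trans_lt h.nm.xs1
  obtain ⟨a, -, b⟩ := h.nm.rF_bd x1
  have c : p.la ν / √(1 - x) ≤ K0 * p.la ν := by
    refine (div_le_div_of_nonneg_left h.nm.lp.le (by positivity) (h.sq_ge hx).2).trans_eq ?_
    field_simp
  have l0 := h.nm.lp
  have u0' := h.nm.u0p
  split_ifs with e
  · rcases le_total 0 (p.rF ν x) with s | s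
    · nlinarith [pow_le_pow_left₀ s (show p.rF ν x ≤ 2 * (K0 * p.la ν) by linarith) 2]
    · nlinarith [sq_le_sq' a (s.trans u0'.le), sq_nonneg (K0 * p.la ν)]
  · have s : 0 ≤ p.rF ν x := by
      unfold Pm.rF
      rw [rB_eq, Rs13.r1_zero l0 (by linarith [h.nm.l1]) (by unfold u0 at e; linarith), zero_add]
      exact (h.nm.top_bd x1).1
    nlinarith [pow_le_pow_left₀ s (show p.rF ν x ≤ 2 * (K0 * p.la ν) by linarith) 2]

theorem sum_lo (j : ℕ) : ∑ k ∈ Finset.Ico (j + 1) p.J, (p.z k - p.z (k - 1)) *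
    p.rF ν (p.z (k - 1)) ^ 2 ≤ (4 * K0 ^ 2 + log p.n) * p.la ν ^ 2 := by
  set L := log p.n * u0 p ν with hL
  have L0 : 0 ≤ L := mul_nonneg (by linarith [h.nm.l1]) h.nm.u0p.le
  set φ : ℝ → ℝ := fun x => 4 * K0 ^ 2 * p.la ν ^ 2 * x + u0 p ν ^ 2 * max x (p.xs - L) with hφ
  have a : ∀ k ∈ Finset.Ico (j + 1) p.J, (p.z k - p.z (k - 1)) * p.rF ν (p.z (k - 1)) ^ 2 ≤
      φ (p.z k) - φ (p.z (k - 1)) := fun k hk => by
    have hk' := (Finset.mem_Ico.1 hk).2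
    have m := h.base.lab.mono (Nat.sub_le k 1)
    refine (mul_le_mul_of_nonneg_left (h.sq_lo (m.trans (h.z_le hk'))) (sub_nonneg.2 m)).trans ?_
    simp only [hφ]
    split_ifs with e
    · rw [max_eq_left e.le, max_eq_left (e.le.trans m)]; linarith
    · linarith [mul_le_mul_of_nonneg_left (max_le_max m (le_refl (p.xs - L))) (sq_nonneg (u0 p ν))]
  refine (Finset.sum_le_sum a).trans ?_
  have u3 : u0 p ν ^ 3 = p.la ν ^ 2 := by
    unfold u0
    rw [← rpow_natCast, ← rpow_mul h.nm.lp.le]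
    norm_num
  have b0 : 0 ≤ (4 * K0 ^ 2 + log p.n) * p.la ν ^ 2 := by have := h.nm.l1; positivity
  rcases le_or_gt p.J (j + 1) with c | c
  · rwa [Finset.Ico_eq_empty_of_le c, Finset.sum_empty]
  have e : ∀ n, j + 1 ≤ n → ∑ k ∈ Finset.Ico (j + 1) n, (φ (p.z k) - φ (p.z (k - 1))) =
      φ (p.z (n - 1)) - φ (p.z j) := fun n hn => by
    induction n, hn using Nat.le_induction with
    | base => simp
    | succ n hn ih => rw [Finset.sum_Ico_succ_top hn, ih, Nat.add_sub_cancel]; ring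
  rw [e _ c.le]
  have z0 : 0 ≤ p.z j := h.base.lab.pos.le.trans (h.base.lab.mono (Nat.zero_le _))
  have x1 := h.nm.xs1
  have f1 := mul_le_of_le_one_right (show 0 ≤ 4 * K0 ^ 2 * p.la ν ^ 2 by positivity)
    (show p.xs - p.z j ≤ 1 by linarith)
  have f2 := mul_le_mul_of_nonneg_left (le_max_right (p.z j) (p.xs - L)) (sq_nonneg (u0 p ν))
  show 4 * K0 ^ 2 * p.la ν ^ 2 * p.xs + u0 p ν ^ 2 * max p.xs (p.xs - L) -
    (4 * K0 ^ 2 * p.la ν ^ 2 * p.z j + u0 p ν ^ 2 * max (p.z j) (p.xs - L)) ≤ _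
  rw [max_eq_left (by linarith : p.xs - L ≤ p.xs)]
  have f3 : u0 p ν ^ 2 * L = log p.n * p.la ν ^ 2 := by rw [hL, ← u3]; ring
  linarith

/-- the whole second moment of the marks on a static grid -/
theorem gtp {P Q : Pl} (H : p.PlOk ν P) (hI : Q.I = P.I) (hx : Q.x = P.x) {j : ℕ} (hj : j < p.J) :
    ∑ k ∈ Finset.Ioc j (p.Jp Q), (p.zP Q k - p.zP Q (k - 1)) * p.rF ν (p.xP Q k) ^ 2 ≤
      (4 * K0 ^ 2 + 1201 * log p.n) * p.la ν ^ 2 := by
  have e1 : Finset.Ioc j (p.Jp Q) = Finset.Ico (j + 1) (p.J + (P.I + 1)) := by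
    ext k; simp only [Finset.mem_Ioc, Finset.mem_Ico, Pm.Jp, hI]; omega
  rw [e1, ← Finset.sum_Ico_consecutive _ (show j + 1 ≤ p.J from hj) (Nat.le_add_right _ _),
    Finset.sum_Ico_eq_sum_range (m := p.J), Nat.add_sub_cancel_left]
  have a := h.sum_lo j
  have b := sum_rF_two h.nm H
  have JJ := J_le (p := p) (P := Q)
  have zx : ∀ i ≤ P.I + 1, p.zP Q (p.J + i - 1) = xe P i := fun i hi => by
    unfold xe
    split_ifs with c
    · rcases Nat.eq_zero_or_pos i with rfl | d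
      · rw [zP_lo (by omega), H.x0]; rfl
      · rw [zP_mid (by omega) (by unfold Pm.Jp; omega), hx]; congr 1; omega
    · exact zP_hi (by unfold Pm.Jp; omega)
  rw [Finset.sum_congr rfl fun k hk => show (p.zP Q k - p.zP Q (k - 1)) * p.rF ν (p.xP Q k) ^ 2 =
      (p.z k - p.z (k - 1)) * p.rF ν (p.z (k - 1)) ^ 2 by
        have := (Finset.mem_Ico.1 hk).2
        rw [xP_lo (by omega), zP_lo this, zP_lo (by omega)],
    Finset.sum_congr rfl fun i hi => show (p.zP Q (p.J + i) - p.zP Q (p.J + i - 1)) *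
      p.rF ν (p.xP Q (p.J + i)) ^ 2 = (xe P (i + 1) - xe P i) * |p.rF ν (xe P i)| ^ 2 by
        have := Finset.mem_range.1 hi
        rw [xP_lo (by unfold Pm.Jp; omega), zx i this.le, ← zx (i + 1) this, sq_abs]
        rfl]
  linarith

end Nu

section den

variable {p : Pm} {ν x : ℝ} (N : Nm p ν) (h0 : p.xs ≤ x) (h1 : x < 1)
include N h0 h1

theorem db_mul : p.la ν / 4 ≤ db (p.la ν) (x - p.xs + u0 p ν) * (x - p.xs + u0 p ν) := by
  have pA : 0 < x - p.xs + u0 p ν := by linarith [N.u0p]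
  have s := sqrt_pos.2 pA
  have s2 : √(x - p.xs + u0 p ν) ≤ 2 := by
    rw [sqrt_le_left (by norm_num)]; linarith [N.u0_le, N.x0]
  have e : db (p.la ν) (x - p.xs + u0 p ν) * (x - p.xs + u0 p ν) =
      p.la ν / (2 * √(x - p.xs + u0 p ν)) := by unfold db; field_simp
  rw [e]
  exact div_le_div_of_nonneg_left N.lp.le (by positivity) (by linarith)

theorem dt_mul : p.la ν / 4 ≤ dt (p.Vc ν) (p.la ν) (1 - x) * (1 - x) := by
  have pu : 0 < 1 - x := by linarith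
  have l0 := N.lp
  have V0 := N.Vp
  have s := sqrt_pos.2 pu
  have s1 : √(1 - x) ≤ 1 := sqrt_le_one.2 (by linarith [N.x0])
  have e : dt (p.Vc ν) (p.la ν) (1 - x) * (1 - x) =
      p.la ν * p.Vc ν / (2 * (p.Vc ν * √(1 - x) + p.la ν)) := by unfold dt; field_simp
  rw [e, div_le_div_iff₀ (by norm_num) (by positivity)]
  nlinarith [mul_le_mul_of_nonneg_left s1 V0.le, N.lV]

theorem dn_ge : db (p.la ν) (x - p.xs + u0 p ν) + dt (p.Vc ν) (p.la ν) (1 - x) ≤ dn p ν x := by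
  unfold dn
  rw [den_eq h0 h1]
  linarith [dt_nn one_pos (sqrt_nonneg (p.u2 ν)) (show 0 < 1 - x by linarith)]

/-- the local scale of the static clock -/
theorem dn_min : p.la ν / 4 ≤ dn p ν x * min (x - p.xs + u0 p ν) (1 - x) := by
  have pA : 0 < x - p.xs + u0 p ν := by linarith [N.u0p]
  have pu : 0 < 1 - x := by linarith
  have a := db_pos N.lp pA
  have b := dt_nn N.Vp N.lp.le pu
  have c := dn_ge N h0 h1
  rcases min_choice (x - p.xs + u0 p ν) (1 - x) with e | e <;> rw [e]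
  · exact (db_mul N h0 h1).trans (mul_le_mul_of_nonneg_right (by linarith) pA.le)
  · exact (dt_mul N h0 h1).trans (mul_le_mul_of_nonneg_right (by linarith) pu.le)

/-- the log spread is slower than the static clock -/
theorem lsp_step {γ y : ℝ} (g0 : 0 ≤ γ) (g1 : 16 * γ ≤ p.la ν) (hxy : x ≤ y) (hy : y - x ≤ 1 - y) :
    γ * (p.lsp γ y - p.lsp γ x) ≤ (y - x) * dn p ν x := by
  have L := p.lL_ge
  have L0 := p.lL_pos
  have l0 := p.l0'_pos γ
  have l1 := p.l1'_pos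
  have pA : 0 < x - p.xs + u0 p ν := by linarith [N.u0p]
  have pu : 0 < 1 - x := by linarith
  have py : 0 < 1 - y := by linarith
  have d : 0 ≤ y - x := by linarith
  have lp := N.lp
  set u := γ / p.lL with hu
  have u0' : 0 ≤ u := by positivity
  have u1 : 96 * u ≤ p.la ν := by
    have : u ≤ γ / 6 := div_le_div_of_nonneg_left g0 (by norm_num) L
    linarith
  have u2 : 64 * u ≤ p.l0' γ := by
    rw [hu, Pm.l0', ← mul_div_assoc]
    exact div_le_div_of_nonneg_right (by linarith [le_max_left γ (1 / ((p.n : ℝ) + 1))]) L0.le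
  have lg : ∀ {a b : ℝ}, 0 < a → a ≤ b → log b - log a ≤ (b - a) / a := fun {a b} ha hab => by
    rw [← log_div (by linarith) ha.ne', sub_div, div_self ha.ne']
    exact log_le_sub_one_of_pos (div_pos (by linarith) ha)
  have a1 := lg (show 0 < x - p.xs + p.l0' γ by linarith) (show _ ≤ y - p.xs + p.l0' γ by linarith)
  have a2 := lg (show 0 < 1 - y + p.l1' by linarith) (show _ ≤ 1 - x + p.l1' by linarith)
  have e : γ * (p.lsp γ y - p.lsp γ x) = u * ((log (y - p.xs + p.l0' γ) - log (x - p.xs + p.l0' γ)) +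
      (log (1 - x + p.l1') - log (1 - y + p.l1'))) := by
    unfold Pm.lsp; rw [hu]; field_simp; ring
  have b1 : u / (x - p.xs + p.l0' γ) ≤ db (p.la ν) (x - p.xs + u0 p ν) := by
    have s := sqrt_pos.2 pA
    unfold db
    rw [div_le_div_iff₀ (by linarith) (by positivity)]
    rcases le_total (x - p.xs) (u0 p ν) with c | c
    · have s0 := sqrt_pos.2 N.u0p
      have f : p.la ν = u0 p ν * √(u0 p ν) := by
        have := N.fb_u0
        unfold fb at this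
        rwa [div_eq_iff s0.ne'] at this
      have f1 : √(x - p.xs + u0 p ν) ≤ 2 * √(u0 p ν) := by
        rw [sqrt_le_left (by positivity), mul_pow, sq_sqrt N.u0p.le]; linarith [N.u0p]
      have f2 := mul_le_mul (show x - p.xs + u0 p ν ≤ 2 * u0 p ν by linarith) f1 s.le
        (by linarith [N.u0p])
      have f3 := mul_le_mul_of_nonneg_left f2 u0'
      have f4 := mul_le_mul_of_nonneg_left (show 64 * u ≤ x - p.xs + p.l0' γ by linarith) lp.le
      have f5 := mul_nonneg u0' lp.le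
      have f6 : u * (2 * u0 p ν * (2 * √(u0 p ν))) = 4 * (u * p.la ν) := by rw [f]; ring
      linarith
    · have s2 : √(x - p.xs + u0 p ν) ≤ 2 := by
        rw [sqrt_le_left (by norm_num)]; linarith [N.u0_le, N.x0]
      have f2 := mul_le_mul (show x - p.xs + u0 p ν ≤ 2 * (x - p.xs) by linarith) s2 s.le
        (by linarith)
      have f3 := mul_le_mul_of_nonneg_left f2 u0'
      have f4 := mul_le_mul_of_nonneg_right u1 (show 0 ≤ x - p.xs by linarith)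
      have f5 := mul_nonneg u0' (show 0 ≤ x - p.xs by linarith)
      nlinarith [mul_pos lp l0]
  have b2 : u / (1 - y + p.l1') ≤ dt (p.Vc ν) (p.la ν) (1 - x) := by
    rw [div_le_iff₀ (by linarith)]
    have := mul_le_mul_of_nonneg_left (show (1 - x) / 2 ≤ 1 - y + p.l1' by linarith)
      (dt_nn N.Vp lp.le pu)
    linarith [dt_mul N h0 h1]
  have c1 := mul_le_mul_of_nonneg_left (add_le_add a1 a2) u0'
  have c2 := mul_le_mul_of_nonneg_left ((add_le_add b1 b2).trans (dn_ge N h0 h1)) d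
  rw [e]
  refine c1.trans (le_of_eq_of_le ?_ c2)
  ring

end den

/-- the bound of the residual sum -/
def gE (K : ℝ) (p : Pm) : ℝ := p.μe ^ 2 * (K * log p.n * p.la p.μe ^ 2)

variable {K K0 c0 C0 η : ℝ} {p : Pm}

/-- plateau data with the labels and marks of a static grid and a small spread -/
theorem pld (h : Nu K K0 c0 C0 η (2 * p.ye) p.μe p) (hK : 4 * K0 ^ 2 + 1201 ≤ K) {L : ℝ}
    (ho : Om p.v (2 * p.ye) L (p.om 1 p.ye)) (r0 : 0 ≤ p.r) (ry : p.r ≤ p.ye) (k0 : 0 ≤ p.κ)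
    (m1 : p.μe ≤ 1) (hA : 1 ≤ p.A) (hj : p.jf < p.J) {P Q : Pl} (H : p.PlOk p.μe P)
    (hI : Q.I = P.I) (hx : Q.x = P.x) (hr : ∀ x, Q.rs x = p.rF p.μe x)
    (hh : ∀ x, Q.hs x = p.μe * p.rF p.μe x) (g0 : 0 ≤ Q.γ)
    (g1 : Q.γ ≤ (p.n : ℝ) ^ (-(7 / 20 : ℝ))) (g2 : 16 * Q.γ ≤ p.la p.μe) :
    PlD K p Q p.ye (dn p p.μe) (gE K p) (u0 p p.μe) ((p.n : ℝ) ^ (-(2 : ℝ))) ∧
    (∀ k, p.jf < k → k < p.J → Q.hs (p.z k) - Q.hs (p.z (k - 1)) ≤
      K * p.ms 1 p.ye (p.sO Q (p.om 1 p.ye) k) * p.v) ∧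
    ∀ i < Q.I, Q.hs (Q.x (i + 1)) - Q.hs (Q.x i) ≤
      K * p.μe * (Q.rs (Q.x (i + 1)) - Q.rs (Q.x i)) := by
  have N := h.nm
  have v0 := N.v0
  have K1 := h.K78
  have l1 := N.l1
  have m0 : 0 ≤ p.μe := mul_nonneg (by linarith) (sq_nonneg _)
  have sH : ∀ k, p.jf < k → k < p.J → _ := fun k a b => h.stepH (k := k) (by omega) b m0
    (w := p.ms 1 p.ye (sig p.v (p.om 1 p.ye) k)) (mul_nonneg (by linarith) (sq_nonneg _))
    fun c => by
      rw [ho.sig_eq c]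
      unfold Pm.ms Pm.μe Pm.μ
      rw [min_eq_right (by linarith), max_eq_right ry]
  have st : ∀ i < P.I, p.v / 2 ≤ p.rF p.μe (P.x (i + 1)) - p.rF p.μe (P.x i) ∧
      p.rF p.μe (P.x (i + 1)) - p.rF p.μe (P.x i) ≤ 2 * p.v := fun i hi => H.rs ▸ H.st i hi
  have vK : p.v / K ≤ p.v / 78 := div_le_div_of_nonneg_left v0.le (by norm_num) K1
  have Kv := mul_le_mul_of_nonneg_right K1 v0.le
  refine ⟨⟨g0, g1, hx ▸ H.x0, fun i _ => hx ▸ H.xm (Nat.lt_succ_self i),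
    by rw [hx, hI]; exact (x_lt N H le_rfl).le, by rw [hI]; linarith [I_le N H], fun x a => ?_,
    fun k a b => ?_, fun i hi => ?_, ?_, ?_, fun i hi => ?_, N.den0, fun x x' a b c d => ?_,
    by rw [hx, hI]; exact H.e2⟩, fun k a b => ?_, fun i hi => ?_⟩
  · rw [hr, hh, h.zero' a, mul_zero]; exact ⟨rfl, rfl⟩
  · rw [hr, hr, hh, hh]
    exact ⟨(h.step (by omega) b).1, (h.step (by omega) b).2, (sH k a b).1⟩
  · rw [hI] at hi
    rw [hr, hr, hh, hh, hx, ← mul_sub]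
    obtain ⟨a, b⟩ := st i hi
    have d : 0 ≤ P.x (i + 1) - P.x i := sub_nonneg.2 (H.xm.monotone (Nat.le_succ i))
    have e := lsp_step N (x_ge N H i) (x_lt N H hi.le) g0 g2 (sub_nonneg.1 d)
      (le_min_iff.1 (x_shell N H hi)).2
    have f := mul_nonneg g0 (sub_nonneg.2 (p.lsp_le Q.γ (x_ge N H i) (sub_nonneg.1 d)
      (x_lt N H hi).le))
    have K' := mul_le_mul_of_nonneg_right (show 80 ≤ K by linarith [sq_nonneg K0]) v0.le
    refine ⟨by linarith, by linarith [(x_plat N H hi).2], by linarith,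
      mul_le_mul_of_nonneg_right (div_le_self m0 (by linarith)) (by linarith)⟩
  · rw [hh, hx, hI]
    have a := (abs_le.1 (N.abs_rF_log H.e1)).2
    have A : (1 : ℝ) ≤ p.A := by exact_mod_cast hA
    have b := mul_le_mul_of_nonneg_left a m0
    have c := mul_le_of_le_one_left (show 0 ≤ 6 * log (p.n : ℝ) by linarith) m1
    have d := mul_le_mul_of_nonneg_right (show 6 ≤ K * p.A by nlinarith)
      (show 0 ≤ log (p.n : ℝ) by linarith)
    linarith
  · simp only [hh, mul_pow, mul_left_comm _ (p.μe ^ 2), ← Finset.mul_sum]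
    refine mul_le_mul_of_nonneg_left ((h.gtp H hI hx hj).trans
      (mul_le_mul_of_nonneg_right ?_ (sq_nonneg _))) (sq_nonneg _)
    nlinarith [sq_nonneg K0]
  · rw [hI] at hi
    rw [hx]
    obtain ⟨a, b⟩ := x_plat N H hi
    exact ⟨vK.trans a, b.trans Kv⟩
  · obtain ⟨e, f⟩ := N.dens a b c d
    exact ⟨e.trans (mul_le_mul_of_nonneg_right (by linarith) (N.den0 _).le),
      f.trans (mul_le_mul_of_nonneg_right (by linarith) (N.den0 _).le)⟩
  · rw [hh, hh, sP_lo b.le]; exact (sH k a b).2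
  · rw [hI] at hi
    rw [hr, hr, hh, hh, hx, ← mul_sub]
    exact mul_le_mul_of_nonneg_right (le_mul_of_one_le_left m0 (by linarith))
      (by linarith [(st i hi).1])

/-- the scales of the segment `C1` -/
def sC (K D : ℝ) (p : Pm) (P : Pl) : Sc :=
  p.sgS P (p.om 1 p.ye) (8 * K ^ 2) D (p.ms 1 p.ye) (dn p p.μe) (gE K p) (u0 p p.μe)
    ((p.n : ℝ) ^ (-(2 : ℝ)))

/-- membership along `C1` with explicit scales -/
def Mem1X (K : ℝ) (p : Pm) : Prop :=
  ∀ P, p.PlOk p.μe P → ∀ t ∈ Icc (0 : ℝ) 1,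
    Cl (sC K (3 * K ^ 2 * (p.n : ℝ) ^ (-(7 / 20 : ℝ))) p P) (p.c1M (7 / 20) P t) ∧
    Cei (sC K (3 * K ^ 2 * (p.n : ℝ) ^ (-(7 / 20 : ℝ))) p P) (p.c1M (7 / 20) P t)

theorem la_bds {β K η : ℝ} (h : Ctx β c0 C0 K η p) (hc : log 16 ≤ 1 / 60 * log p.n) :
    16 * (p.n : ℝ) ^ (-(7 / 20 : ℝ)) ≤ p.la p.μe ∧
      u0 p p.μe ≤ (p.n : ℝ) ^ (-(1 / 9 : ℝ)) := by
  have Eμ : Eb p.μe _ := (Eb.one.mul h.Eκ).mul h.Eye.pow
  have Em : Eb (p.mu' p.μe) _ := Eμ.mul (h.Epow ((1 : ℝ) / 3))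
  have El : Eb (p.la p.μe) _ := (h.Epow _).mul (Em.rpow.min Em.rpow)
  have E16 := Eb.log (show (0 : ℝ) < 16 by norm_num)
  have Eu : Eb (u0 p p.μe) _ := El.rpow
  have l2 := h.l2
  have c0 := h.cl_pos
  have c1 := h.cl_le
  constructor
  · rw [(E16.mul (h.Epow (-(7 / 20)))).le_iff El]
    push_cast
    rw [← sub_le_iff_le_add', le_min_iff]
    constructor <;> linarith
  · rw [Eu.le_iff (h.Epow _)]
    push_cast
    linarith [min_le_left (-1 / 3 * (0 + -(p.c * log p.n) + 2 * -(3 * (p.c * log p.n)) +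
      1 / 3 * log p.n)) (-1 / 2 * (0 + -(p.c * log p.n) + 2 * -(3 * (p.c * log p.n)) +
      1 / 3 * log p.n))]

/-- the numeric inputs hold -/
theorem nuE (β : ℝ) (hβ : 1 < β) (c0 C0 : ℝ) (hc0 : 0 < c0) (hC0 : 1 ≤ C0) :
    ∃ K0 : ℝ, 1 ≤ K0 ∧ ∀ K, 78 * (C0 * K0 ^ 2) ≤ K → ∀ A : ℕ, 2 ≤ A → ∀ c : ℝ, 0 < c →
      c ≤ 1 / 200 → ∀ᶠ n : ℕ in atTop, All β c0 C0 A c n fun p =>
        Nu K K0 c0 C0 (C0 / (p.n : ℝ) ^ p.A) (2 * p.ye) p.μe p ∧ Ctx β c0 C0 1 1 p ∧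
          16 * (p.n : ℝ) ^ (-(7 / 20 : ℝ)) ≤ p.la p.μe ∧ p.jf < p.J ∧
          ∃ L, Om p.v (2 * p.ye) L (p.om 1 p.ye) := by
  obtain ⟨_, -, H3⟩ := gp β hβ c0 C0 hc0 hC0
  obtain ⟨K0, k1, H1⟩ := gpO β hβ c0 C0 hc0 hC0
  obtain ⟨K2, _, -, H2⟩ := fin_nm hβ c0 C0 hc0 hC0
  refine ⟨K0, k1, fun K hK A hA c hc hc' => ?_⟩
  have d0 : 0 < 1 / (6 * C0 * K0) := by positivity
  filter_upwards [H1 A hA c hc hc', PP3.ev_small β c0 C0 hA hc hc' d0,
    ev_ctx β (max (max K2 1) (max (12 * C0 * K) (60 * log 16))) hc0 hC0 hA hc hc' one_pos,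
    ev_log (2 * K0) (show (0 : ℝ) < 1 / 9 by norm_num), H3 A hA c hc hc']
    with n h1 hS h2 h3 h4 p e1 e2 e3 e4 hp
  have S := hS p e1 e2 e3 e4 hp
  have X := h2 p e1 e2 e3 e4 hp
  obtain ⟨⟨-, a1, -, a3, a4, a5⟩, -⟩ := h1 p e1 e2 e3 e4 hp
  have b := X.big.le
  rw [one_mul, max_le_iff, max_le_iff, max_le_iff] at b
  have N := (H2 p (X.mono ((le_max_left _ _).trans (le_max_left _ _)) le_rfl)).2 p.μe
    (X.μ0_le_μ X.mem_end) ((X.μ_le X.mem_end).trans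
      (pow_le_of_le_one X.κ_pos.le X.κ_le_one (by norm_num)))
  obtain ⟨f1, f2⟩ := la_bds X (by linarith [b.2.2])
  rw [← e2] at h3
  have n0 := X.n_pos
  refine ⟨⟨N, hp.base, hc0, hC0, k1, hK, a3, a4, ?_, b.2.1, ?_⟩,
    X.mono ((le_max_right _ _).trans (le_max_left _ _)) le_rfl, f1, ?_,
    _, (h4 p e1 e2 e3 e4 hp 1 p.ye zero_le_one le_rfl X.ye_pos le_rfl).1⟩
  · refine (mul_le_mul_of_nonneg_left f2 (by linarith [X.l2])).trans ?_
    rw [rpow_neg n0.le, ← div_eq_mul_inv, div_le_div_iff₀ (by positivity) (by positivity)]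
    linarith
  · have vδ : p.v ≤ 1 / (6 * C0 * K0) := by
      have := S.ηv
      have : 0 ≤ C0 / (p.n:ℝ) ^ p.A := by positivity
      have := mul_le_of_le_one_right d0.le S.μ1
      linarith
    have g := mul_le_mul_of_nonneg_left (show p.v + 2 * p.ye ≤ 3 * (1 / (6 * C0 * K0)) by
      linarith [S.ye]) (show 0 ≤ C0 by linarith)
    have e : C0 * (3 * (1 / (6 * C0 * K0))) = 1 / (2 * K0) := by field_simp; norm_num
    linarith
  · have : (p.jf : ℝ) * p.v < p.J * p.v := by linarith [X.r_le_ye, X.ye_pos]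
    exact_mod_cast lt_of_mul_lt_mul_right this N.v0.le

theorem mem1X (β : ℝ) (hβ : 1 < β) : Cst β Mem1X := by
  intro c0 C0 hc0 hC0
  obtain ⟨K1, k1, H1⟩ := memT β hβ c0 C0 hc0 hC0
  obtain ⟨K0, k0, H0⟩ := nuE β hβ c0 C0 hc0 hC0
  have q1 : 0 ≤ C0 * K0 ^ 2 := by positivity
  have q2 := sq_nonneg K0
  obtain ⟨K, hK⟩ : ∃ K, K = K1 + 78 * (C0 * K0 ^ 2) + 4 * K0 ^ 2 + 1201 := ⟨_, rfl⟩
  refine ⟨K, by linarith, fun A hA c hc hc' => ?_⟩
  have t1 := (tendsto_rpow_atTop (y := 7 / 20) (by norm_num)).comp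
    (tendsto_natCast_atTop_atTop (R := ℝ))
  filter_upwards [H1 K (by linarith) A hA c hc hc', H0 K (by linarith) A hA c hc hc',
    t1.eventually_ge_atTop (3 * K ^ 2)] with n h1 h0 h3 p e1 e2 e3 e4 hp P H t ht
  have T := h1 p e1 e2 e3 e4 hp p.ye
  obtain ⟨N, X, f1, jJ, L, ho⟩ := h0 p e1 e2 e3 e4 hp
  simp only [Function.comp] at h3
  rw [← e2] at h3
  have n0 := X.n_pos
  have γ0 : 0 < (p.n : ℝ) ^ (-(7 / 20 : ℝ)) := rpow_pos_of_pos n0 _
  have W : ∀ {Q : Pl}, _ := fun {Q} => pld N (by linarith) ho X.r_pos.le X.r_le_ye X.κ_pos.le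
    (X.μ_le_one X.mem_end) (by have := X.A2; omega) jJ H (Q := Q)
  obtain ⟨d0, u1, u2⟩ := W rfl rfl (fun x => by rw [H.rs]) (fun x => by rw [H.hs]) H.g.ge
    (H.g.le.trans γ0.le) (by rw [H.g, mul_zero]; exact N.nm.lp.le)
  obtain ⟨d1, w1, w2⟩ := W (Q := p.alP (7 / 20) P 1) rfl rfl (fun x => one_mul _)
    (fun x => one_mul _) γ0.le le_rfl f1
  obtain ⟨m0, b1, -, -, b2, b3⟩ := T _ _ _ _ _ X.r_le_ye le_rfl d0
  obtain ⟨m1, -, -, F, -, -⟩ := T _ _ _ _ _ X.r_le_ye le_rfl d1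
  have K1' := m0.K1
  have bK := m0.bK
  have b0 : 0 ≤ p.b 1 p.ye + 0 := by linarith [m0.b0]
  obtain ⟨s1, s2⟩ := C1Mem3.dH_spr (b := p.b 1 p.ye + 0) m0.geo m1.geo H.g rfl rfl
    (by rw [H.hs]; funext x; exact one_mul _) F.γN F.tr.near (by linarith) b0
  have eγ : (p.alP (7 / 20) P 1).γ = (p.n : ℝ) ^ (-(7 / 20 : ℝ)) := rfl
  rw [eγ] at s1 s2
  have g1 := mul_le_mul_of_nonneg_right bK (show 0 ≤ K by linarith)
  have g2 : (p.b 1 p.ye + 0) * K + 1 + (p.b 1 p.ye + 0) ≤ 3 * K ^ 2 := by nlinarith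
  have Tw : C1Mem3.Two K c0 C0 _ _ (3 * K ^ 2 * (p.n : ℝ) ^ (-(7 / 20 : ℝ))) p P
      (p.alP (7 / 20) P 1) _ _ _ _ _ _ _ _ _ _ _ :=
    ⟨m0, m1, rfl, (b1.trans b3.symm).le, by positivity, by
      rw [rpow_neg n0.le, ← div_eq_mul_inv, div_le_one (by positivity)]; exact h3,
      fun k hk => (s1 k hk).trans (mul_le_mul_of_nonneg_right (mul_le_mul_of_nonneg_right
        (by linarith) γ0.le) (m0.geo.sP_nn k)),
      fun k => (s2 k).trans (mul_le_mul_of_nonneg_right g2 γ0.le)⟩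
  rw [c1M_eq]
  exact ⟨Tw.cl ht, Tw.cei (m0.cei' b2 Tw.mJ u1 (b1 ▸ u2)) (m1.cei' b2 Tw.mJ w1 (b1 ▸ w2)) ht⟩

end Mem13

/-- **membership along `C1`** -/
theorem mem1 {β : ℝ} (hβ : 1 < β) : Cst β (Mem1 (7 / 20)) := by
  intro c0 C0 hc0 hC0
  obtain ⟨K, K1, H⟩ := Mem13.mem1X β hβ c0 C0 hc0 hC0
  refine ⟨8 * K ^ 2, by nlinarith, fun A hA c hc hc' => ?_⟩
  filter_upwards [H A hA c hc hc'] with n h p e1 e2 e3 e4 hp P hP t ht
  exact ⟨_, (h p e1 e2 e3 e4 hp P hP t ht).1, rfl, rfl, rfl, rfl, rfl, rfl, rfl, rfl, rfl, rfl, rfl⟩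

end Crest.Agent.T156.Alt

end
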