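import Crest.Agent.T156.SprLgD_59
import Crest.Agent.T156.FamSr_28
import Crest.Agent.T156.PlW_13
import Crest.Agent.T156.GrReg_29
import Crest.Agent.T156.AltP1_3

/-!
# Row 156 (helper59): legality of the models of stage C
-/

set_option autoImplicit false
set_option linter.unusedSectionVars false

noncomputable section

namespace Crest.Agent.T156.Alt.Spr59

open Real Set Filter Topology Pre29
open Crest.Agent.R164.GC Crest.Agent.R339.B Crest.Agent.R339.Var Crest.Agent.T157.Pf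
open Crest.Agent.T156.Pr.Spr41 (ec mk_inc ec_le_one ec_top)
open Mem37 Plt13

/-- `t - b Γ` increases on the whole half line -/
theorem mk_mono {l : List (ℝ × ℝ)} (h : Pr.Ok l) {b : ℝ} (hb : 0 ≤ b)
    (he : ∀ t ∈ Icc 0 (TT l), 0 ≤ ec b l t) {s t : ℝ} (hs : 0 ≤ s) (hst : s ≤ t) :
    Pr.Spr41.mk b l s ≤ Pr.Spr41.mk b l t := by
  have k : ∀ s t, 0 ≤ s → s ≤ t → t ≤ TT l → Pr.Spr41.mk b l s ≤ Pr.Spr41.mk b l t :=
    fun s t h0 h1 h2 => by
    have := (mk_inc h b (lo := 0) (hi := 1) h0 h1 h2 fun r hr =>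
      ⟨he r ⟨h0.trans hr.1, hr.2.trans h2⟩, ec_le_one l hb r⟩).1
    linarith
  have k' : ∀ s t, TT l ≤ s → s ≤ t → Pr.Spr41.mk b l s ≤ Pr.Spr41.mk b l t := fun s t h0 h1 => by
    unfold Pr.Spr41.mk
    rw [Gam_end h h0, Gam_end h (h0.trans h1)]
    linarith
  rcases le_total t (TT l) with a | a
  · exact k s t hs hst a
  · rcases le_total s (TT l) with c | c
    · exact (k s _ hs c le_rfl).trans (k' _ t le_rfl a)
    · exact k' s t c hst

theorem mk_zero {l : List (ℝ × ℝ)} (h : Pr.Ok l) (b : ℝ) : Pr.Spr41.mk b l 0 = 0 := by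
  rw [Pr.Spr41.mk, Gam_zero h]; ring

theorem mk_le (l : List (ℝ × ℝ)) {b : ℝ} (hb : 0 ≤ b) (t : ℝ) : Pr.Spr41.mk b l t ≤ t :=
  sub_le_self _ (mul_nonneg hb (Gam_nn l t))

/-- data for the legality of `famO P om jf b 0 0` with the static marks `m rF μ`, any spread -/
structure LS (c0 C0 η Y μ m y lo : ℝ) (p : Pm) (P : Pl) (om : ℕ → ℝ) (b : ℝ) : Prop where
  geo : Geo c0 C0 η Y p P om
  nm : Nm p μ
  hs : ∀ x, P.hs x = m * p.rF μ x
  xI : P.x P.I < 1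
  C00 : 0 ≤ C0
  m0 : 0 ≤ m
  b0 : 0 ≤ b
  e0 : ∀ t ∈ Icc 0 (TT (p.lO P om)), 0 ≤ ec b (p.lO P om) t
  e1 : ∀ t ∈ Icc y (p.J * p.v), lo ≤ ec b (p.lO P om) t
  n1 : 3 * C0 * m ≤ lo * log p.n
  n2 : C0 * (p.v + 2 * y) ≤ 1 / 2
  n3 : C0 * (p.v + 2 * y) + log p.n * u0 p μ ≤ p.xs
  jf : p.jf * p.v ≤ 2 * y
  jJ : p.jf < p.J

namespace LS

variable {c0 C0 η Y μ m y lo b : ℝ} {p : Pm} {P : Pl} {om : ℕ → ℝ}
  (h : LS c0 C0 η Y μ m y lo p P om b)
include h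

theorem H_eq {k : ℕ} (hk : p.jf < k) :
    p.HO P om b k = Pr.Spr41.mk b (p.lO P om) (p.sO P om k) + m * p.rF μ (p.xP P k) := by
  rw [Pm.HO, if_neg (by omega), h.hs]; rfl

theorem rF0 {k : ℕ} (hk : k < p.J) (h2 : k * p.v ≤ 2 * y) : p.rF μ (p.z k) = 0 := by
  have a := (PP3.z_bds h.geo.base k hk).2
  have c := mul_le_mul_of_nonneg_left h2 h.C00
  exact h.nm.rF_zero (by linarith [h.n2]) (by linarith [h.n3])

theorem xP_succ {k : ℕ} (hk : k < p.J) : p.xP P (k + 1) = p.z k := by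
  rw [xP_lo (k := k + 1) (hk.trans_le J_le), Nat.add_sub_cancel, zP_lo hk]

theorem mono {s t : ℝ} (hs : 0 ≤ s) (hst : s ≤ t) :
    Pr.Spr41.mk b (p.lO P om) s ≤ Pr.Spr41.mk b (p.lO P om) t := mk_mono h.geo.ok h.b0 h.e0 hs hst

theorem x_mem {i : ℕ} (hi : i ≤ P.I) : P.x i ∈ Ico p.xs 1 :=
  ⟨h.geo.x0 ▸ h.geo.x_le (Nat.zero_le i) hi, (h.geo.x_le hi le_rfl).trans_lt h.xI⟩

theorem H_step (k : ℕ) : p.HO P om b k ≤ p.HO P om b (k + 1) := by
  have g := h.geo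
  have v := g.v0
  have mo := h.mono (g.sP_nn k) (g.sP_mono k.le_succ)
  rcases lt_trichotomy k p.jf with a | a | a
  · rw [Pm.HO, Pm.HO, if_pos a.le, if_pos (Nat.succ_le_of_lt a)]
  · rw [Pm.HO, if_pos a.le, h.H_eq (by omega), a, h.xP_succ h.jJ, h.rF0 h.jJ h.jf]
    linarith [h.mono le_rfl (g.sP_nn (p.jf + 1)), mk_zero g.ok b]
  rw [h.H_eq a, h.H_eq (a.trans k.lt_succ_self)]
  rcases g.cases k with c | ⟨i, c, rfl⟩ | c
  · obtain ⟨j, rfl⟩ : ∃ j, k = j + 1 := ⟨k - 1, by omega⟩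
    rw [h.xP_succ c, h.xP_succ (by omega : j < p.J)]
    rcases le_total (((j + 1 : ℕ) : ℝ) * p.v) (2 * y) with d | d
    · rw [h.rF0 c d, h.rF0 (by omega : j < p.J) (by push_cast at d; linarith)]
      linarith
    · have s1 := (g.s_inc (Nat.zero_le (j + 1)) c.le).1
      have s2 : p.sO P om (j + 1 + 1) ≤ p.J * p.v := g.sP_J ▸ g.sP_mono c
      rw [g.sP_zero] at s1
      have a1 := (mk_inc g.ok b (lo := lo) (hi := 1) (g.sP_nn (j + 1)) (g.sP_mono (j + 1).le_succ)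
        (g.sP_le_tt (Nat.succ_le_of_lt (c.trans_le (J_le.trans (Nat.le_add_right _ _)))))
        fun r hr => ⟨h.e1 r ⟨by
          simp only [Nat.cast_zero, sub_zero] at s1
          linarith [hr.1], hr.2.trans s2⟩, ec_le_one _ h.b0 r⟩).1
      have lg : 0 < log (p.n : ℝ) := by linarith [h.nm.l1]
      have l0 : 0 ≤ lo := by
        refine le_of_mul_le_mul_right (le_trans ?_ h.n1) lg
        rw [zero_mul]
        exact mul_nonneg (mul_nonneg (by norm_num) h.C00) h.m0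
      have a2 := mul_le_mul_of_nonneg_left (g.ds_lo c).1 l0
      have a3 := (h.nm.rF_sub_lo (g.base.lab.mono j.le_succ)
        (g.base.lab.mono (by omega : j + 1 ≤ p.J - 1))).1
      have a4 : p.z (j + 1) - p.z j ≤ C0 * p.v := (g.base.slo j c).2
      have a5 : m * (3 / (2 * log p.n) * (p.z (j + 1) - p.z j)) ≤ lo * (p.v / 2) := by
        have e : m * (3 / (2 * log p.n) * (p.z (j + 1) - p.z j)) =
            3 * m * (p.z (j + 1) - p.z j) / 2 / log p.n := by field_simp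
        rw [e, div_le_iff₀ lg]
        nlinarith [mul_le_mul_of_nonneg_left a4 h.m0, mul_le_mul_of_nonneg_right h.n1 v.le]
      have a6 := mul_le_mul_of_nonneg_left a3 h.m0
      simp only [Nat.succ_eq_add_one] at *
      linarith
  · have r := h.nm.monoOn (h.x_mem c.le) (h.x_mem c) (g.xm i c).le
    rw [g.xP_x c.le, show p.xP P (p.J + i).succ = P.x (i + 1) from g.xP_x (i := i + 1) c]
    have := mul_le_mul_of_nonneg_left r h.m0
    linarith
  · rw [g.xP_top c, g.xP_top (c.trans k.le_succ)]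
    linarith

theorem H_fam (k : ℕ) : (p.famO P om p.jf b 0 0).H k = p.HO P om b k := by
  simp [Pm.famO]

/-- **legality** -/
theorem leg {x : ℝ} (hx : x ≤ p.z p.jf) : (p.famO P om p.jf b 0 0).Leg x := by
  have g := h.geo
  refine ⟨fun i j hij => g.zP_mono (max_le_max hij le_rfl), ?_, fun k => g.zP_le _,
    zP_hi ((Nat.le_add_right _ _).trans (le_max_left _ _)), ?_, fun i j _ => ?_, ?_,
    monotone_nat_of_le_succ fun k => ?_⟩
  · change x ≤ p.zP P (max 0 p.jf)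
    rwa [max_eq_right (Nat.zero_le _), zP_lo h.jJ]
  · simpa [Pm.famO] using h.b0
  · simp [Pm.famO]
  · simp [Pm.famO, Pm.HO]
  · simpa [Pm.famO] using h.H_step k

/-- the total field -/
theorem H_N (e : m = 0 ∨ (p.n : ℝ) ^ (-(3 : ℝ)) ≤ 1 - P.x P.I) :
    p.HO P om b (p.NP P) ≤ p.sO P om (p.Jp P) + p.Nr * p.v + m * (6 * log p.n) := by
  have g := h.geo
  have c : m * p.rF μ (P.x P.I) ≤ m * (6 * log p.n) := by
    rcases e with e | e
    · rw [e, zero_mul, zero_mul]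
    · exact mul_le_mul_of_nonneg_left (abs_le.1 (h.nm.abs_rF_log e)).2 h.m0
  have u : p.Jp P ≤ p.NP P := Nat.le_add_right _ _
  rw [h.H_eq ((h.jJ.trans_le J_le).trans_le u), g.xP_top u, ← g.sP_N]
  linarith [mk_le (p.lO P om) h.b0 (p.sO P om (p.NP P))]

end LS

/-- a field moved toward another one up to the node `K` -/
theorem leg_mix {M M' M'' : Md} {x x' t : ℝ} {K : ℕ} (L : M.Leg x) (L' : M'.Leg x')
    (ht : t ∈ Icc (0 : ℝ) 1) (hN : M''.N = M.N) (hz : M''.z = M.z) (hd : M''.d = M.d)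
    (hH : ∀ k, M''.H k = M.H k + t * (M'.H (min k K) - M.H (min k K))) :
    M''.Leg x ∧ ∀ k, M''.H k ≤ M.H k + M'.H k := by
  refine ⟨⟨hz ▸ L.zm, hz ▸ L.z0, hz ▸ L.z1, by rw [hz, hN]; exact L.zN, hd ▸ L.d0, hd ▸ L.dm, ?_,
    monotone_nat_of_le_succ fun k => ?_⟩, fun k => ?_⟩
  · rw [hH, Nat.zero_min, L.H0, L'.H0]; ring
  · rw [hH, hH]
    have a := L.Hm k.le_succ
    rcases lt_or_ge k K with c | c
    · rw [min_eq_left c.le, min_eq_left (Nat.succ_le_of_lt c)]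
      have a' := L'.Hm k.le_succ
      simp only [Nat.succ_eq_add_one] at *
      nlinarith [mul_nonneg ht.1 (sub_nonneg.2 a'), mul_nonneg (sub_nonneg.2 ht.2) (sub_nonneg.2 a)]
    · rw [min_eq_right c, min_eq_right (c.trans k.le_succ)]
      simp only [Nat.succ_eq_add_one] at *
      linarith
  · have a := L.Hm (Nat.zero_le (min k K))
    have a' := L'.Hm (Nat.zero_le (min k K))
    have a'' := L'.Hm (min_le_left k K)
    rw [L.H0] at a
    rw [L'.H0] at a'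
    rw [hH]
    nlinarith [mul_nonneg ht.1 a, mul_nonneg (sub_nonneg.2 ht.2) a']

variable {β c0 C0 c η K C m : ℝ} {A : ℕ} {p : Pm} {P : Pl}

/-- the numeric facts on the static marks, for all masses -/
theorem nm_sml (hβ : 1 < β) : Sml β fun _ p => Nm p p.μe := by
  have k : Sml β fun _ p => ∀ μ, p.μ0 ≤ μ → μ ≤ p.κ → Nm p μ := by
    intro c0 C0 h0 h1
    obtain ⟨K, c2, -, H⟩ := fin_nm hβ c0 C0 h0 h1
    filter_upwards [eventually_ge_atTop 2] with A hA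
    filter_upwards [ev_pos, ev_le (by norm_num : (0 : ℝ) < 1 / 200)] with c hc hc'
    refine .of_forall fun η => ?_
    filter_upwards [ev_Big K one_pos] with n hn p b1 b2 b3 b4 b5
    exact (H p ⟨b1, b5, h0, h1, b3 ▸ hA, b4 ▸ hc, b4 ▸ hc', one_pos, b2 ▸ hn⟩).2
  refine k.glue' hβ 0 one_pos 0 fun c0 C0 A c η _ _ _ _ => ⟨0, fun p H _ _ _ N =>
    N _ (H.μ0_le_μ H.mem_end) ((H.μ_le H.mem_end).trans ?_)⟩
  exact pow_le_of_le_one H.κ0.le H.κ1 (by norm_num)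

theorem lg_c0 (H : Reg β c0 C0 A c η K p) : -η ≤ logb p.n c0 := by
  have := H.lg_le (x := 1 / c0) (one_div_pos.2 H.c00) H.c0_le
  rw [one_div, logb_inv] at this
  linarith

theorem jf_le (H : Reg β c0 C0 A c η K p) (hη : 40 * η ≤ c) : p.jf * p.v ≤ p.r :=
  H.le_of_lg H.jfv0 H.r0 (by linarith [H.lg_jf.2, H.lg_r, H.η_pos])

theorem am_le (H : Reg β c0 C0 A c η K p) (hη : 40 * η ≤ c) (hj : p.jf < p.J) :
    2 * p.am ≤ p.z p.jf := by
  have a := H.am0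
  have b := H.jfv0
  have d := H.c00
  refine le_trans (H.le_of_lg (by positivity) (mul_pos d b) ?_) (PP3.z_bds H.ok.base _ hj).1
  rw [logb_mul d.ne' b.ne', logb_mul two_ne_zero a.ne']
  linarith [H.lg_jf.1, H.lg_am, H.lg_two.2, lg_c0 H, H.η_pos]

/-- the data for any grid, spread `≤ n^{-7/20}` and marks `m rF μe`, `m ≤ μe` -/
theorem ls_of (H : Reg β c0 C0 A c η K p) (hη : 40 * η ≤ c) (hC : 1 ≤ C)
    (hK : exp (3 * C0 * C) ≤ K) (G : CrS C p) (N : Nm p p.μe) (x0 : P.x 0 = p.xs)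
    (xm : StrictMono P.x) (xI : P.x P.I < 1) (g0 : 0 ≤ P.γ)
    (g1 : P.γ ≤ (p.n : ℝ) ^ (-(7 / 20 : ℝ))) (hs : ∀ x, P.hs x = m * p.rF p.μe x) (m0 : 0 ≤ m)
    (m1 : m ≤ p.μe) :
    LS c0 C0 (C0 / (p.n : ℝ) ^ p.A) (2 * p.ye) p.μe m p.ye (p.μe / C) p P (p.om 1 p.ye)
      (p.b 1 p.ye) ∧ CrF C p P p.ye := by
  have M := H.mem_end
  have B := H.ok.base
  have v0 := H.v0
  have y0 := H.ye0
  have d0 := H.c00
  have C1 := H.C01
  have k0 := H.κ0
  have mp : 0 < p.μe := H.μ_pos M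
  have vy := H.v_le_r.trans H.r_le_ye
  have jy := (jf_le H hη).trans H.r_le_ye
  have lC := H.lg_cst C1 H.C0_le
  have l3 := H.lg_num (x := 3) (by norm_num) (by norm_num)
  have l4 := H.lg_num (x := 4) (by norm_num) (by norm_num)
  have lc := lg_c0 H
  have C0p : 0 < C0 := by linarith
  have a0 : C0 * (p.v + 2 * p.ye) ≤ C0 * (3 * p.ye) :=
    mul_le_mul_of_nonneg_left (by linarith) C0p.le
  have a1 : C0 * (3 * p.ye) ≤ 1 / 2 := H.le_of_lg (by positivity) (by norm_num) (by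
    lg_norm
    linarith [H.lg_ye, H.lg_two.2, H.η_pos])
  have a2 : C0 * (3 * p.ye) ≤ c0 ^ 2 / 4 := H.le_of_lg (by positivity) (by positivity) (by
    lg_norm
    linarith [H.lg_ye, H.η_pos])
  have a3 : p.ye ≤ c0 / 2 := H.le_of_lg y0 (by positivity) (by
    lg_norm
    linarith [H.lg_ye, H.lg_two.2, H.η_pos])
  have yJ : 2 * p.ye ≤ p.J * p.v := by linarith [B.lo]
  have jJ : p.jf < p.J := by
    have : (p.jf : ℝ) < p.J := lt_of_mul_lt_mul_right (by linarith) v0.le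
    exact_mod_cast this
  have a4 : log p.n * u0 p p.μe ≤ c0 ^ 2 / 4 := by
    have l0 := H.la0 mp
    have lg0 : 0 < log (p.n : ℝ) := by linarith [H.log1]
    refine H.le_of_lg (mul_pos lg0 N.u0p) (by positivity) ?_
    rw [u0]
    lg_norm
    rw [H.lg_la mp]
    linarith [min_le_left (-(logb p.n p.μe + 1 / 3) / 3) (-(logb p.n p.μe + 1 / 3) / 2),
      H.lg_log.2, H.lg_mono H.μ00 (show p.μ0 ≤ p.μe from H.μ0_le_μ M), H.lg_μ0, H.η_pos, H.c_le]
  have a5 : c0 ^ 2 / 2 ≤ p.xs := by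
    have g := (PP3.z_bds B (p.J - 1) (by omega)).1
    rw [Nat.cast_sub (by omega), Nat.cast_one] at g
    have := mul_le_mul_of_nonneg_left (show c0 / 2 ≤ (p.J - 1) * p.v by linarith [B.lo]) d0.le
    unfold Pm.xs
    linarith
  have a6 : 3 * C0 * C ≤ log p.n := by
    have := log_le_log (exp_pos _) (hK.trans H.K_le)
    rw [log_exp, log_rpow H.N0] at this
    nlinarith [H.η_le, H.c_le, H.log1]
  have k4 : 4 * p.κ ≤ 1 / 2 := H.le_of_lg (by positivity) (by norm_num) (by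
    lg_norm
    linarith [H.lg_κ, H.lg_two.2, H.η_pos])
  have om := Rs13.om_Om p v0 k0.le zero_le_one le_rfl y0
  have g : Geo c0 C0 (C0 / (p.n : ℝ) ^ p.A) (2 * p.ye) p P (p.om 1 p.ye) :=
    ⟨H.hβ ▸ B, ⟨om.zero, om.nn, om.supp, fun j => (om.lip j).trans
      (mul_le_mul_of_nonneg_right k4 v0.le)⟩, yJ, by omega, g0, x0,
      fun i _ => xm i.lt_succ_self, xI.le⟩
  have F := G _ _ _ _ P _ H.r_le_ye le_rfl g g1
  have Cp : 0 < C := by linarith
  have b0 : 0 ≤ p.b 1 p.ye := zero_le_one.trans F.b1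
  have lo : ∀ t ∈ Icc 0 (p.sO P (p.om 1 p.ye) (p.Jp P)),
      0 ≤ ec (p.b 1 p.ye) (p.lO P (p.om 1 p.ye)) t := fun t ht =>
    (div_pos (H.ms0 M t) Cp).le.trans (F.crit t ht).1
  refine ⟨⟨g, N, hs, xI, C0p.le, m0, b0, fun t ht => ?_, fun t ht => ?_, ?_, a0.trans a1,
    by linarith, by linarith, jJ⟩, F⟩
  · rcases le_total t (p.sO P (p.om 1 p.ye) (p.Jp P)) with a | a
    · exact lo t ⟨ht.1, a⟩
    · have s0 := g.sP_nn (p.Jp P)
      have u := ec_top g.ok b0 ⟨g.ok.1, ⟨s0, a.trans ht.2⟩, g.ref.2.2.2⟩ a ht.2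
      have u1 := lo _ ⟨s0, le_rfl⟩
      have u2 := ec_le_one (p.lO P (p.om 1 p.ye)) b0 (p.sO P (p.om 1 p.ye) (p.Jp P))
      have u3 : exp (-((t - p.sO P (p.om 1 p.ye) (p.Jp P)) / 2)) ≤ 1 :=
        exp_le_one_iff.2 (by linarith)
      nlinarith [mul_le_mul u3 (show 1 - ec (p.b 1 p.ye) (p.lO P (p.om 1 p.ye))
        (p.sO P (p.om 1 p.ye) (p.Jp P)) ≤ 1 by linarith) (by linarith) zero_le_one]
  · rw [Pm.μe, ← H.ms_top M ht.1]
    exact (F.crit t ⟨y0.le.trans ht.1, ht.2.trans (g.sP_J ▸ g.sP_mono J_le)⟩).1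
  · rw [div_mul_eq_mul_div, le_div_iff₀ Cp]
    nlinarith [mul_le_mul m1 a6 (by positivity) mp.le]

theorem μe_le (H : Reg β c0 C0 A c η K p) : p.μe ≤ 1 :=
  (H.μ_le H.mem_end).trans (pow_le_one₀ H.κ0.le H.κ1)

/-- the total field is at most `n / 2` -/
theorem tot_le (H : Reg β c0 C0 A c η K p) (hC : C ≤ K) (m1 : m ≤ p.μe) :
    C + p.Nr * p.v + m * (6 * log p.n) ≤ p.n / 2 := by
  have a := H.Nr_bds.2
  have L := H.num_le
  have l1 := H.log1
  have b1 := mul_le_mul H.A_le H.log_le (by linarith) H.Λ0.le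
  have b2 := hC.trans H.K_le
  have b3 := H.v_le_r.trans (H.r_le_ye.trans H.ye1)
  have b4 := mul_le_mul_of_nonneg_right (m1.trans (μe_le H)) (show 0 ≤ 6 * log (p.n : ℝ) by linarith)
  have b5 : ((p.n : ℝ) ^ η) ^ 3 ≤ p.n := H.le_of_lg (pow_pos H.Λ0 3) H.N0 (by
    have := H.N0
    lg_norm
    rw [H.lg_n]
    linarith [H.η_le, H.c_le])
  have b6 := H.log_le
  nlinarith [mul_le_mul_of_nonneg_right L (mul_pos H.Λ0 H.Λ0).le,
    mul_le_mul_of_nonneg_right L H.Λ0.le]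

theorem ls_al {g α : ℝ} (hg : 7 / 20 ≤ g) (H : Reg β c0 C0 A c η K p) (hη : 40 * η ≤ c) (hC : 1 ≤ C)
    (hK : exp (3 * C0 * C) ≤ K) (G : CrS C p) (N : Nm p p.μe) (x0 : P.x 0 = p.xs)
    (xm : StrictMono P.x) (xI : P.x P.I < 1) (a0 : 0 ≤ α) (a1 : α ≤ 1) :
    LS c0 C0 (C0 / (p.n : ℝ) ^ p.A) (2 * p.ye) p.μe (α * p.μe) p.ye (p.μe / C) p (p.alP g P α)
      (p.om 1 p.ye) (p.b 1 p.ye) ∧ CrF C p (p.alP g P α) p.ye :=
  have mp : 0 < p.μe := H.μ_pos H.mem_end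
  ls_of H hη hC hK G N x0 xm xI (H.rp0 _).le (rp_le H.n1 (by linarith))
    (fun _ => (mul_assoc _ _ _).symm) (mul_nonneg a0 mp.le) (mul_le_of_le_one_left mp.le a1)

end Spr59

open Spr59 Mem37 Plt13

/-- **legality of the models of stage C** -/
theorem legA {β g : ℝ} (hβ : 1 < β) (hg : 7 / 20 ≤ g) : Sml β (LegA g) := by
  refine Sml.glueC hβ (crS β hβ) (nm_sml hβ) fun C hC c0 C0 h0 h1 =>
    ⟨0, fun A _ => ⟨1, one_pos, fun c _ hc => ⟨c / 40, by positivity, fun η hη _ =>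
      ⟨max C (Real.exp (3 * C0 * C)), fun p H G N => ?_⟩⟩⟩⟩
  have hη' : 40 * η ≤ c := by linarith
  have mp : 0 < p.μe := H.μ_pos H.mem_end
  have N0 := H.N0
  have k : ∀ α P, 0 ≤ α → α ≤ 1 → P.x 0 = p.xs → StrictMono P.x → P.x P.I < 1 →
      (p.alM g P α).Leg (2 * p.am) ∧ (α = 0 ∨ (p.n : ℝ) ^ (-(3 : ℝ)) ≤ 1 - P.x P.I →
        (p.alM g P α).H (p.NP P) ≤ p.n / 2) := fun α P a0 a1 x0 xm xI => by
    obtain ⟨L, F⟩ := ls_al hg H hη' hC (le_max_right _ _) G N x0 xm xI a0 a1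
    refine ⟨L.leg (am_le H hη' L.jJ), fun e => ?_⟩
    have u := L.H_N (e.imp_left fun e => by rw [e, zero_mul])
    rw [← L.H_fam] at u
    exact u.trans (le_trans (by linarith [F.sT])
      (tot_le H (le_max_left _ _) (mul_le_of_le_one_left mp.le a1)))
  obtain ⟨Q, hQ⟩ := N.exists_plOk
  have k' : ∀ P, p.PlOk p.μe P → _ := fun P hP => ls_of H hη' hC (le_max_right _ _) G N hP.x0 hP.xm
    (x_lt N hP le_rfl) hP.g.ge (hP.g ▸ (H.rp0 _).le) (fun x => by rw [hP.hs]) mp.le le_rfl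
  refine ⟨⟨(k' Q hQ).2.b1, (k' Q hQ).2.b2⟩, fun α P a0 a1 hP => ?_, fun P hP => ?_⟩
  · obtain ⟨a, b⟩ := k α P a0 a1 hP.x0 hP.xm hP.e1
    exact ⟨a, fun e => (b e).trans (by linarith)⟩
  · obtain ⟨a, b⟩ := k 1 P zero_le_one le_rfl hP.x0 hP.xm (x_lt N hP le_rfl)
    obtain ⟨L, F⟩ := k' P hP
    have l : (p.tst P p.ye).Leg (2 * p.am) := L.leg (am_le H hη' L.jJ)
    refine ⟨a, l, fun t ht => ?_⟩
    obtain ⟨c1, c2⟩ := leg_mix (M'' := p.c1M g P t) (K := p.Jp P) l a ht rfl rfl rfl fun k => by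
      simp [Pm.c1M, Pm.tst, Pm.fam]
    refine ⟨c1, (c2 _).trans ?_⟩
    have u := L.H_N (Or.inr hP.e1)
    rw [← L.H_fam] at u
    have u' : (p.tst P p.ye).H (p.NP P) ≤ p.n / 2 := u.trans (le_trans (by linarith [F.sT])
      (tot_le H (le_max_left _ _) le_rfl))
    linarith [b (Or.inr hP.e1)]

theorem legA_gain {β g : ℝ} (hβ : 1 < β) (hg : 7 / 20 ≤ g) : Gain β (LegA g) :=
  Sml.gain ((legA hβ hg).mono fun _ _ h => h)

theorem legA_loss {β g : ℝ} (hβ : 1 < β) (hg : 7 / 20 ≤ g) : Loss β (LegA g) :=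
  (legA hβ hg).loss1 (LegA.mo g)

end Crest.Agent.T156.Alt

end
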