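import Crest.Agent.T156.SprI_41
import Crest.Agent.T156.SprLeg_59
import Crest.Agent.T156.Mem1_3

/-!
# Row 156, stage C1: the spread is switched on (helper41)
-/

set_option autoImplicit false
set_option linter.unusedSectionVars false

noncomputable section

namespace Crest.Agent.T156.Alt.Cost41

open Real Set
open Crest.Agent.T156.Alt.Plt13 Crest.Agent.T156.Alt.Md67

/-- **a segment of marks on a fine grid is a stage** -/
theorem go_seg {p : Pm} {Λ α B Bl l V W δ : ℝ} {P : Pl} {M : ℝ → Md} {φ : ℕ → ℝ} (U : Nu p Λ)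
    (hn : 0 < p.n) (F : FS M φ) (G : ∀ t ∈ Icc (0 : ℝ) 1, Gm p Λ α P (M t))
    (Z : ∀ t ∈ Icc (0 : ℝ) 1, Sz p Λ B Bl P (M t) φ) (hd : (M 0).d 0 ≤ p.β ^ 2)
    (l0 : p.r ≤ l) (l1 : l ≤ 1) (V0 : 0 ≤ V) (Bl0 : 0 ≤ Bl) (W0 : 0 ≤ W)
    (hL : ∀ t ∈ Icc (0 : ℝ) 1, ∀ m a, p.InW m a →
      (∀ k ≤ p.Jp P, (M t).rb m a k ≤ Λ * max ((M t).z k) l) ∧ p.tw P (M t) m a ≤ V ^ 2)
    (hW : Λ ^ 3 * (2 / p.n * (Λ ^ 3 * (72 * Λ ^ 8 * (Bl ^ 2 * (l / p.r) ^ 2 / p.μe) +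
        6 * 10 ^ 6 * Λ ^ 14 * (B ^ 2 / (p.μe * α) * (p.la p.μe * (p.la p.μe + V))))) +
        Λ ^ 2 * (p.n : ℝ) ^ (-(2 : ℝ))) ≤ W ^ 2)
    (h1 : 2 * p.n * W ≤ δ * (p.n : ℝ) ^ ((1 : ℝ) / 6) * p.s ^ 2)
    (h2 : 2 * p.n * ((p.n : ℝ) ^ (-(2 : ℝ)) * Λ) ≤ δ * (p.n : ℝ) ^ ((1 : ℝ) / 6) * p.s ^ 5) :
    Go δ p (M 0) (M 1) := by
  have I0 : (0 : ℝ) ∈ Icc (0 : ℝ) 1 := ⟨le_rfl, zero_le_one⟩
  have L : ∀ t ∈ Icc (0 : ℝ) 1, (M t).Leg p.am := fun t ht => by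
    obtain ⟨C, -, S, h, -, -, -, -, sa, -⟩ := (G t ht).mem
    exact Leg_mono h.leg (by rw [sa]; linarith [U.am, U.i0])
  obtain ⟨C, -, S, h, -, -, -, -, -, -, -, sl, sJ, sP, -⟩ := (G 0 I0).mem
  have jJ : p.jf + 1 < p.J := sl ▸ sJ ▸ h.i2
  have JP : p.Jp P = p.J + P.I := rfl
  have PN : p.Jp P < (M 0).N := sP ▸ h.i4
  have np := U.np
  have L0 := U.L0
  have G0 := G 0 I0
  have z1 : ∀ k, p.Jp P ≤ k → (M 0).z k = 1 := fun k hk => by
    rw [G0.z, max_eq_left (by omega), Pm.zP, if_neg (by omega), if_neg (by omega)]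
  refine ⟨M '' Icc 0 1, F.stage (n := p.n) (s := p.s) (γ := p.ga) hn W0 L hd (j0 := p.jf)
    (N := p.Jp P - 1) (by omega) (by omega) (fun t ht m m1 m2 a c1 c2 => ?_) ?_ (by positivity)
    h1 h2, 1, ⟨zero_le_one, le_rfl⟩, rfl⟩
  · have w : p.InW m a := ⟨m1, m2, c1, c2⟩
    have k := cost_one U (G t ht) (Z t ht) w l0 l1 V0 Bl0 (hL t ht m a w).1 (hL t ht m a w).2
    rw [F.z] at k
    exact k.trans hW
  · rw [Finset.sum_eq_zero fun k hk => by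
      rw [(Z 0 I0).φ0 k (Finset.mem_Ioc.1 hk).2, abs_zero, mul_zero], zero_add]
    refine (Finset.sum_le_sum (g := fun k => ((M 0).z k - (M 0).z (k - 1)) * Λ)
      fun k _ => ?_).trans ?_
    · rcases le_or_gt k (p.Jp P) with c | c
      · exact mul_le_mul_of_nonneg_left ((Z 0 I0).top k c) (sub_nonneg.2 (h.leg.zm (by omega)))
      · rw [z1 k c.le, z1 (k - 1) (by omega), sub_self, zero_mul, zero_mul]
    · rw [← Finset.sum_mul, tele _ (by omega), z1 _ PN.le, show p.Jp P - 1 = p.J - 1 + P.I by omega,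
        z_x G0.z G0.fine.x0 (by omega) le_rfl]
      exact mul_le_mul_of_nonneg_right G0.fine.e2 L0.le

/-- the velocity of the segment `C1` -/
def ph1 (p : Pm) (g : ℝ) (P : Pl) : ℕ → ℝ :=
  p.dH P (p.alP g P 1) (p.om 1 p.ye) (p.b 1 p.ye + 0)

theorem fs1 (p : Pm) (g : ℝ) (P : Pl) : FS (p.c1M g P) (ph1 p g P) := by
  refine ⟨fun _ => rfl, fun _ => rfl, fun _ => rfl, fun t k => ?_,
    C1Mem3.Two.dH_lo (Nat.zero_le _)⟩
  rw [c1M_eq, c1M_eq]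
  change _ + t * _ = _ + 0 * _ + t * _
  rw [zero_mul, add_zero (p.HO _ _ _ _)]; rfl

theorem c1M_zero (p : Pm) (g : ℝ) (P : Pl) : p.c1M g P 0 = p.tst P p.ye := by
  unfold Pm.c1M Pm.tst
  congr 1
  funext k
  exact zero_mul _

theorem env_ge {p : Pm} {μ x : ℝ} (N : Nm p μ) (h0 : p.xs ≤ x) (h1 : x ≤ 1) :
    p.la μ / 2 ≤ env p μ x := by
  have a : p.la μ / 2 ≤ fb (p.la μ) (x - p.xs + u0 p μ) :=
    div_le_div_of_nonneg_left N.lp.le (sqrt_pos.2 (by linarith [N.u0p]))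
      (sqrt_le_iff.2 ⟨by norm_num, by linarith [N.u0_le, N.x0]⟩)
  have b := ft_nn N.Vp N.lp.le (1 - x)
  have c := ft_nn one_pos N.sp.le (1 - x)
  unfold env
  linarith

section num

variable {β c0 C0 c η K : ℝ} {A : ℕ} {p : Pm} (H : Reg β c0 C0 A c η K p)
include H

theorem μe0 : 0 < p.μe := H.μ_pos H.mem_end

theorem lg_μe : logb p.n p.μe = -(7 * c) := by
  rw [Pm.μe, H.lg_μ_eq H.mem_end, logb_one, H.lg_ye]; ring

theorem lg_lae : logb p.n (p.la p.μe) = -(1 / 3) + 3 * c := by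
  rw [H.lg_la (μe0 H), lg_μe H, min_eq_right (by linarith [H.c_le])]; ring

/-- the numbers -/
theorem nu_of (hA : 5 ≤ A) (hη : 60 * η ≤ c) (N : Nm p p.μe) : Nu p ((p.n : ℝ) ^ η) := by
  have N0 := H.N0
  have μ0 := μe0 H
  have v0 := H.v0
  have r0 := H.r0
  have y0 := H.ye0
  have Λ0 := H.Λ0
  have L0 : 0 < log (p.n : ℝ) := by linarith [H.log1]
  have l0 := N.lp
  have A5 : (5 : ℝ) ≤ A := by exact_mod_cast hA
  have lΛ := H.lg_rp η
  have η0 := H.η_pos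
  have cl := H.c_le
  have ls := H.lg_s
  have l2 := H.lg_two
  have l4 := H.lg_num (x := 4) (by norm_num) (by norm_num)
  have l6 := H.lg_num (x := 6) (by norm_num) (by norm_num)
  have ln := H.lg_n
  have LΛ := H.log_le
  have AΛ := H.A_le
  have h6 := H.num_le
  set Λ := (p.n : ℝ) ^ η with hΛ
  refine ⟨h6, LΛ, H.hA ▸ AΛ, N, ?_, ?_, ?_, ?_, ?_, Spr59.jf_le H (by linarith), ?_, H.r_le_ye,
    ?_, ?_, ?_, H.ok.s1, H.κ0⟩
  · refine H.le_of_lg (by positivity) (by positivity) ?_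
    lg_norm
    rw [ln]
    linarith [H.lg_v_le]
  · refine H.le_of_lg one_pos (by positivity) ?_
    lg_norm
    rw [ln, H.hA]
    linarith [H.lg_v, H.lg_β.1]
  · refine H.le_of_lg (by positivity) H.am0 ?_
    lg_norm
    linarith [H.lg_am]
  · refine H.le_of_lg (by positivity) r0 ?_
    lg_norm
    linarith [H.lg_r]
  · refine H.le_of_lg (by positivity) one_pos ?_
    lg_norm
    linarith [H.lg_r]
  · refine H.le_of_lg (by positivity) one_pos ?_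
    lg_norm
    linarith [H.lg_ye]
  · refine H.le_of_lg (by positivity) (by norm_num) ?_
    lg_norm
    linarith [lg_μe H]
  · refine H.le_of_lg (by positivity) (by positivity) ?_
    lg_norm
    rw [ln]
    linarith
  · refine H.le_of_lg (by have := N.u0p; positivity) one_pos ?_
    rw [u0]
    lg_norm
    linarith [lg_lae H, H.lg_log.2]

set_option maxHeartbeats 1600000 in
theorem go1 {C C' : ℝ} (hA : 5 ≤ A) (hc : c ≤ 1 / 400) (hη : 60 * η ≤ c) (C1 : 1 ≤ C) (CK : C ≤ K)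
    (hK : exp (3 * C0 * C) ≤ K) (G : CrS C p) (N : Nm p p.μe) (CΛ : C' ≤ (p.n : ℝ) ^ η)
    (hM : Mem1 (7 / 20) C' p) (hL : SprL1 (7 / 20) ((p.n : ℝ) ^ η) p) :
    C1S (7 / 20) ((p.n : ℝ) ^ η)⁻¹ p := by
  intro P hP
  have U := nu_of H hA hη N
  have N0 := H.N0
  have μ0 := μe0 H
  have v0 := H.v0
  have r0 := H.r0
  have s0 := H.s0
  have Λ0 := H.Λ0
  have l0 := N.lp
  have A5 : (5 : ℝ) ≤ A := by exact_mod_cast hA
  have lΛ := H.lg_rp η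
  have η0 := H.η_pos
  have ls := H.lg_s
  have l2 := H.lg_two
  have l3 := H.lg_num (x := 3) (by norm_num) (by norm_num)
  have ln := H.lg_n
  have lm := lg_μe H
  have ll := lg_lae H
  have h6 := H.num_le
  have bΛ := H.β_le
  have KΛ := CK.trans H.K_le
  have xI := x_lt N hP le_rfl
  obtain ⟨S0, F0⟩ := Spr59.ls_of H (by linarith) C1 hK G N hP.x0 hP.xm xI hP.g.ge
    (hP.g ▸ (H.rp0 _).le) (fun x => by rw [hP.hs]) μ0.le le_rfl
  obtain ⟨S1, F1⟩ := Spr59.ls_al (g := 7 / 20) le_rfl H (by linarith) C1 hK G N hP.x0 hP.xm xI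
    zero_le_one le_rfl
  have b0 : 0 ≤ p.b 1 p.ye + 0 := by linarith [F0.b1]
  obtain ⟨s1, s2⟩ := C1Mem3.dH_spr (b := p.b 1 p.ye + 0) S0.geo S1.geo hP.g rfl rfl
    (by rw [hP.hs]; funext x; exact one_mul _) F1.γN F1.tr.near (by linarith) b0
  have eγ : (p.alP (7 / 20) P 1).γ = (p.n : ℝ) ^ (-(7 / 20 : ℝ)) := rfl
  rw [eγ] at s1 s2
  have lγ := H.lg_rp (-(7 / 20 : ℝ))
  have γ0 := H.rp0 (-(7 / 20 : ℝ))
  have lC0 : 0 < p.lC := mul_pos s0 (H.rp0 _)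
  have lC : logb p.n p.lC = logb p.n p.s + c - 1 / 6 := by
    rw [Pm.lC, logb_mul s0.ne' (H.rp0 _).ne', H.lg_rp, H.hc]; ring
  have jJ := S0.jJ
  have ms : ∀ i < P.I, P.x (i + 1) - P.x i ≤ (p.n : ℝ) ^ (-(3 : ℝ)) := fun i hi =>
    (x_mesh N hP hi).trans (H.le_of_lg (by positivity) (by positivity) (by
      lg_norm
      rw [ln]
      linarith [H.lg_v_le, (H.lg_num (x := 624) (by norm_num) (by norm_num)).2]))
  generalize (p.n : ℝ) ^ (-(7 / 20 : ℝ)) = γ at *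
  set Λ := (p.n : ℝ) ^ η with hΛ
  have bb : p.b 1 p.ye + 0 ≤ Λ := by linarith [F0.b2, H.hβ ▸ bΛ]
  have bC : (p.b 1 p.ye + 0) * C ≤ Λ ^ 2 := by
    rw [sq]; exact mul_le_mul bb KΛ (by linarith) Λ0.le
  have g1 : 3 * Λ ^ 2 * γ ≤ p.μe * (p.la p.μe / 2) :=
    H.le_of_lg (by positivity) (by positivity) (by
      lg_norm
      linarith)
  have al : ∀ k, |ph1 p (7 / 20) P k| ≤ p.μe * (p.la p.μe / 2) := fun k =>
    (s2 k).trans (le_trans (mul_le_mul_of_nonneg_right (by nlinarith) γ0.le) g1)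
  have a1 : p.μe * (p.la p.μe / 2) ≤ p.μe * p.la p.μe :=
    mul_le_mul_of_nonneg_left (by linarith) μ0.le
  have fine : p.Fine P := ⟨hP.x0, hP.xm, fun i hi => (ms i hi).trans U.n32, xI, hP.e2⟩
  rw [← c1M_zero p (7 / 20) P]
  refine go_seg (α := 1) (B := p.μe) (Bl := Λ ^ 2 * γ) (l := p.lC)
    (V := Λ * p.s ^ 4 * (p.n : ℝ) ^ (-(1 : ℝ) / 3) / √p.μe)
    (W := Λ ^ 13 * p.s ^ 2 * (p.n : ℝ) ^ (-(5 / 6) - c / 4)) U H.n0 (fs1 p _ P)
    (fun t ht => ⟨⟨C', CΛ, hM P hP t ht⟩, fun _ => rfl, fine, hP.e1, ms, one_pos, le_rfl,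
      fun i hi => ?_, ?_⟩)
    (fun t ht => ⟨fun k hk => C1Mem3.Two.dH_lo hk, fun k _ b _ => ?_, fun k _ _ => ?_,
      fun k _ _ _ => (al k).trans a1, fun k a b => ?_, fun k _ => ?_⟩)
    (by simpa [Pm.c1M, Pm.fam] using F0.b2) ?_ ?_ (by positivity) (by positivity) (by positivity)
    (fun t ht m a w => ⟨(hL P hP t ht m a w).1, (hL P hP t ht m a w).2.trans ?_⟩) ?_ ?_ ?_
  · have := (hP.st i hi).2
    rw [hP.rs] at this
    linarith
  · have e : p.sO P (p.om 1 p.ye) (p.Jp P) = p.sO P (p.om 1 p.ye) p.J := by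
      rw [S0.geo.sP_Jp, S0.geo.sP_J, hP.g, zero_mul, add_zero]
    change Pr.Gam _ (p.sO P (p.om 1 p.ye) (p.Jp P)) - Pr.Gam _ (p.sO P (p.om 1 p.ye) p.J) ≤ _
    rw [e, sub_self]
    exact l0.le
  · exact (s1 k b.le).trans (mul_le_mul_of_nonneg_right (mul_le_mul_of_nonneg_right bC γ0.le)
      (S0.geo.sP_nn k))
  · exact ((al k).trans a1).trans (mul_le_mul_of_nonneg_left N.l_le_u0 μ0.le)
  · obtain ⟨i, rfl⟩ := Nat.exists_eq_add_of_le a
    have hi : i ≤ P.I := by unfold Pm.Jp at b; omega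
    rw [show p.J + i - 1 = p.J - 1 + i by omega, z_x (fun _ => rfl) hP.x0 jJ hi]
    exact (al _).trans (mul_le_mul_of_nonneg_left
      (env_ge N (x_ge N hP i) (x_lt N hP hi).le) μ0.le)
  · exact ((al k).trans a1).trans
      ((mul_le_one₀ (Spr59.μe_le H) l0.le N.l_le).trans U.L1)
  · exact H.le_of_lg r0 lC0 (by linarith [H.lg_r])
  · exact H.le_of_lg lC0 one_pos (by rw [logb_one]; linarith)
  · refine H.le_of_lg (by positivity) (by positivity) ?_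
    lg_norm
    rw [ln]
    linarith
  · set W := Λ ^ 13 * p.s ^ 2 * (p.n : ℝ) ^ (-(5 / 6) - c / 4) with hW
    set V := Λ * p.s ^ 4 * (p.n : ℝ) ^ (-(1 : ℝ) / 3) / √p.μe with hV
    have l4 := H.lg_num (x := 4) (by norm_num) (by norm_num)
    have l72 := H.lg_num (x := 72) (by norm_num) (by norm_num)
    have t0 : (6 * 10 ^ 6 : ℝ) ≤ Λ ^ 3 :=
      le_trans (by norm_num) (pow_le_pow_left₀ (by norm_num) h6 3)
    have t1 : Λ ^ 3 * (2 / p.n * (Λ ^ 3 * (72 * Λ ^ 8 * ((Λ ^ 2 * γ) ^ 2 * (p.lC / p.r) ^ 2 /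
        p.μe)))) ≤ W ^ 2 / 4 := H.le_of_lg (by positivity) (by positivity) (by
      rw [hW]
      lg_norm
      rw [ln]
      linarith [H.lg_r])
    have t2 : Λ ^ 3 * (2 / p.n * (Λ ^ 3 * (Λ ^ 3 * Λ ^ 14 * (p.μe * (p.la p.μe * p.la p.μe))))) ≤
        W ^ 2 / 4 := H.le_of_lg (by positivity) (by positivity) (by
      rw [hW]
      lg_norm
      rw [ln]
      linarith)
    have t3 : Λ ^ 3 * (2 / p.n * (Λ ^ 3 * (Λ ^ 3 * Λ ^ 14 * (p.μe * (p.la p.μe * V))))) ≤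
        W ^ 2 / 4 := H.le_of_lg (by positivity) (by positivity) (by
      rw [hW, hV]
      lg_norm
      rw [ln]
      linarith)
    have t4 : Λ ^ 3 * (Λ ^ 2 * (p.n : ℝ) ^ (-(2 : ℝ))) ≤ W ^ 2 / 4 :=
      H.le_of_lg (by positivity) (by positivity) (by
        rw [hW]
        lg_norm
        rw [ln]
        linarith)
    have e : p.μe ^ 2 / (p.μe * 1) = p.μe := by field_simp
    rw [e]
    refine le_trans ?_ (show Λ ^ 3 * (2 / p.n * (Λ ^ 3 * (72 * Λ ^ 8 * ((Λ ^ 2 * γ) ^ 2 *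
      (p.lC / p.r) ^ 2 / p.μe) + Λ ^ 3 * Λ ^ 14 * (p.μe * (p.la p.μe * (p.la p.μe + V))))) +
      Λ ^ 2 * (p.n : ℝ) ^ (-(2 : ℝ))) ≤ _ by linarith)
    gcongr
  · refine H.le_of_lg (by positivity) (by positivity) ?_
    lg_norm
    rw [ln]
    linarith
  · refine H.le_of_lg (by positivity) (by positivity) ?_
    lg_norm
    rw [ln]
    linarith

end num

/-- **`C1S`** from the location input and the membership -/
theorem c1S_of {β : ℝ} (hβ : 1 < β) (hM : Cst β (Mem1 (7 / 20))) (h1 : Loss β (SprL1 (7 / 20))) :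
    Gain β (C1S (7 / 20)) :=
  Sml.gain (Sml.glueC hβ (crS β hβ) ((hM.sml.and h1.sml).and (Spr59.nm_sml hβ))
    fun C hC c0 C0 _ _ => ⟨5, fun _ hA => ⟨1 / 400, by norm_num, fun c hc c0 =>
      ⟨c / 60, by positivity, fun _ hη _ => ⟨max C (exp (3 * C0 * C)),
        fun _ H G ⟨⟨⟨_, _, CΛ, M⟩, L⟩, N⟩ => go1 H hA hc (by linarith) hC (le_max_left _ _)
          (le_max_right _ _) G N CΛ M L⟩⟩⟩⟩)

/-- **`C1S`** from the location input alone -/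
theorem c1S {β : ℝ} (hβ : 1 < β) (h1 : Loss β (SprL1 (7 / 20))) : Gain β (C1S (7 / 20)) :=
  c1S_of hβ (mem1 hβ) h1

end Crest.Agent.T156.Alt.Cost41

end
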