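import Crest.Agent.T156.AlEx_13
import Crest.Agent.T156.Mem2_28
import Crest.Agent.T156.C1Mem_3
import Crest.Agent.T156.SprL_11

/-!
# Row 156, stage C (helper59): the member facts `Fa` along `C1` and `C2`
-/

set_option autoImplicit false

noncomputable section

namespace Crest.Agent.T156.Alt.Fa59

open Real Set Filter Topology
open Plt13 Mem37

variable {p : Pm} {μ x : ℝ}

theorem dn_eq (h0 : p.xs ≤ x) (h1 : x < 1) : dn p μ x = db (p.la μ) (x - p.xs + u0 p μ) +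
    dt (p.Vc μ) (p.la μ) (1 - x) + dt 1 (√(p.u2 μ)) (1 - x) := by
  unfold dn den
  rw [if_pos ⟨h0, h1⟩, add_zero]

theorem parts (h : Nm p μ) (h0 : p.xs ≤ x) (h1 : x < 1) :
    0 ≤ db (p.la μ) (x - p.xs + u0 p μ) ∧ 0 ≤ dt (p.Vc μ) (p.la μ) (1 - x) ∧
      0 ≤ dt 1 (√(p.u2 μ)) (1 - x) := by
  have := h.lp
  have := h.Vp
  have : 0 < x - p.xs + u0 p μ := by linarith [h.u0p]
  have : 0 < 1 - x := by linarith
  unfold db dt
  exact ⟨by positivity, by positivity, by positivity⟩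

theorem dn_lo1 (h : Nm p μ) (h0 : p.xs ≤ x) (h1 : x < 1) :
    p.la μ / 4 ≤ dn p μ x * min (x - p.xs + u0 p μ) (1 - x) := by
  obtain ⟨a, b, c⟩ := parts h h0 h1
  have l := h.lp
  have V := h.Vp
  have pA : 0 < x - p.xs + u0 p μ := by linarith [h.u0p]
  have pu : 0 < 1 - x := by linarith
  rw [dn_eq h0 h1]
  rcases min_choice (x - p.xs + u0 p μ) (1 - x) with e | e <;> rw [e]
  · have s := sqrt_pos.2 pA
    have s2 : √(x - p.xs + u0 p μ) ≤ 2 := by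
      rw [sqrt_le_left (by norm_num)]; linarith [h.u0_le, h.x0]
    have : p.la μ / 4 ≤ db (p.la μ) (x - p.xs + u0 p μ) * (x - p.xs + u0 p μ) := by
      unfold db
      rw [div_mul_eq_mul_div, div_le_div_iff₀ (by norm_num) (by positivity)]
      nlinarith [mul_le_mul_of_nonneg_left s2 (mul_pos l pA).le]
    nlinarith [mul_nonneg b pA.le, mul_nonneg c pA.le]
  · have s := sqrt_pos.2 pu
    have s2 : √(1 - x) ≤ 1 := sqrt_le_one.2 (by linarith [h.x0])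
    have : p.la μ / 4 ≤ dt (p.Vc μ) (p.la μ) (1 - x) * (1 - x) := by
      unfold dt
      rw [div_mul_eq_mul_div, div_le_div_iff₀ (by norm_num) (by positivity)]
      nlinarith [mul_le_mul_of_nonneg_left (show p.Vc μ * √(1 - x) + p.la μ ≤ 2 * p.Vc μ by
        nlinarith [h.lV]) (mul_pos l pu).le]
    nlinarith [mul_nonneg a pu.le, mul_nonneg c pu.le]

theorem dn_lo2 (h : Nm p μ) (h0 : p.xs ≤ x) (h2 : p.u2 μ ≤ 1 - x) :
    p.u2 μ / 16 ≤ dn p μ x ^ 2 * (1 - x) ^ 3 := by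
  have pu : 0 < 1 - x := h.u2p.trans_le h2
  have h1 : x < 1 := by linarith
  obtain ⟨a, b, c⟩ := parts h h0 h1
  have s := sqrt_pos.2 pu
  have t := h.sp
  have st := sqrt_le_sqrt h2
  have k : √(p.u2 μ) / 4 ≤ dt 1 (√(p.u2 μ)) (1 - x) * ((1 - x) * √(1 - x)) := by
    unfold dt
    rw [div_mul_eq_mul_div, div_le_div_iff₀ (by norm_num) (by positivity)]
    nlinarith [mul_le_mul_of_nonneg_left st (mul_pos t pu).le]
  have k' : √(p.u2 μ) / 4 ≤ dn p μ x * ((1 - x) * √(1 - x)) := by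
    rw [dn_eq h0 h1]
    nlinarith [mul_nonneg (add_nonneg a b) (mul_pos pu s).le]
  have := pow_le_pow_left₀ (by positivity) k' 2
  rw [div_pow, sq_sqrt h.u2p.le, mul_pow, mul_pow, sq_sqrt pu.le] at this
  linarith

theorem dn_lo3 (h : Nm p μ) (h0 : p.xs ≤ x) (h1 : x < 1) (h2 : 1 - x ≤ p.u2 μ) :
    1 / 4 ≤ dn p μ x * (1 - x) := by
  have pu : 0 < 1 - x := by linarith
  obtain ⟨a, b, c⟩ := parts h h0 h1
  have s := sqrt_pos.2 pu
  have t := h.sp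
  have st := sqrt_le_sqrt h2
  have k : 1 / 4 ≤ dt 1 (√(p.u2 μ)) (1 - x) * (1 - x) := by
    unfold dt
    rw [div_mul_eq_mul_div, div_le_div_iff₀ (by norm_num) (by positivity)]
    nlinarith [mul_le_mul_of_nonneg_left st pu.le]
  rw [dn_eq h0 h1]
  nlinarith [mul_nonneg (add_nonneg a b) pu.le]

theorem dt_up {V l u : ℝ} (hV : 0 < V) (V1 : V ≤ 1) (hl : 0 < l) (hu : 0 < u) :
    dt V l u ≤ 1 / (2 * u) := by
  have s := sqrt_pos.2 hu
  unfold dt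
  rw [div_le_div_iff₀ (by positivity) (by positivity)]
  nlinarith [mul_pos hu (mul_pos hV s), mul_le_mul_of_nonneg_left V1 (mul_pos hu hl).le]

theorem dn_up (h : Nm p μ) (h0 : p.xs ≤ x) (h1 : x < 1) : dn p μ x ≤ 1 / 2 + 1 / (1 - x) := by
  have pu : 0 < 1 - x := by linarith
  have u := h.u0p
  have a := dt_up h.Vp h.V1 h.lp pu
  have b := dt_up one_pos le_rfl h.sp pu
  have e : 1 / (1 - x) = 1 / (2 * (1 - x)) + 1 / (2 * (1 - x)) := by field_simp; ring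
  have f := h.fb_u0
  have s := sqrt_pos.2 u
  have c : db (p.la μ) (x - p.xs + u0 p μ) ≤ 1 / 2 := by
    have A : u0 p μ ≤ x - p.xs + u0 p μ := by linarith
    unfold fb at f
    rw [div_eq_iff s.ne'] at f
    unfold db
    rw [div_le_div_iff₀ (by have := u.trans_le A; positivity) two_pos]
    nlinarith [mul_le_mul A (sqrt_le_sqrt A) s.le (u.le.trans A)]
  rw [dn_eq h0 h1]
  linarith

theorem dn_xs (h : Nm p μ) (h1 : p.xs < 1) : 1 / 2 ≤ dn p μ p.xs := by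
  obtain ⟨-, b, c⟩ := parts h le_rfl h1
  have s0 := sqrt_pos.2 h.u0p
  have f : p.la μ = u0 p μ * √(u0 p μ) := by
    have := h.fb_u0
    unfold fb at this
    rwa [div_eq_iff s0.ne'] at this
  have e : db (p.la μ) (p.xs - p.xs + u0 p μ) = 1 / 2 := by
    rw [sub_self, zero_add, db, ← f]; have := h.lp; field_simp
  rw [dn_eq le_rfl h1, e]
  linarith

theorem ld_xs {γ : ℝ} (h1 : p.xs < 1) (hγ : 1 / ((p.n : ℝ) + 1) ≤ γ) :
    1 / 64 ≤ γ * p.ld γ p.xs := by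
  have γ0 : 0 < γ := lt_of_lt_of_le (by positivity) hγ
  have L := p.lL_pos
  have a : 0 ≤ 1 / (1 - p.xs + p.l1') := by
    have : 0 < p.l1' := by unfold Pm.l1'; positivity
    have : 0 < 1 - p.xs := by linarith
    positivity
  have e : γ * (1 / (p.xs - p.xs + p.l0' γ) / p.lL) = 1 / 64 := by
    rw [sub_self, zero_add, p.l0'_eq hγ]; field_simp
  rw [p.ld_eq γ le_rfl h1.le, ← e]
  gcongr
  linarith

theorem u0_cube (h : Nm p μ) : u0 p μ ^ 3 = p.la μ ^ 2 := by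
  unfold u0; rw [← rpow_natCast, ← rpow_mul h.lp.le]; norm_num

variable {K c0 C0 η α : ℝ} {P Q : Pl}

theorem fa_gen (N : AlN K c0 C0 η p) (D : AlD p α Q) (A : AlM K c0 C0 α p Q) (hA : 1 ≤ p.A)
    (hs : 1 ≤ p.s) (hc : 0 ≤ p.c) (hI : p.Jp Q = p.Jp P) {g : ℕ → ℝ} {gr' : ℝ → ℝ} {g2' : ℝ}
    (cl : Cl { p.alS K α Q with gr := gr', g2 := g2' }
      (p.famO Q (p.om 1 p.ye) p.jf (p.b 1 p.ye) 0 g))
    (cei : Cei { p.alS K α Q with gr := gr', g2 := g2' }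
      (p.famO Q (p.om 1 p.ye) p.jf (p.b 1 p.ye) 0 g))
    (g1 : g (p.Jp Q) ≤ 1) (gt : ∀ k, p.Jp Q ≤ k → g (k + 1) = g k)
    (hgr : ∀ t, p.sO Q (p.om 1 p.ye) p.jf < t → gr' t ≤ K ^ 3 * (p.n : ℝ) ^ (-(7 / 20 : ℝ)) * t)
    (hg2 : g2' ≤ K ^ 5 * ((p.μe * p.la p.μe) ^ 2 * log p.n + (p.n : ℝ) ^ (-(7 / 10 : ℝ))))
    (ms : ∀ i < Q.I, Q.x (i + 1) - Q.x i ≤ (p.n : ℝ) ^ (-(2 : ℝ)))
    (hu : (p.n : ℝ) ^ (-(71 / 200 : ℝ)) ≤ p.alU Q.γ ∧ p.alU Q.γ ^ 3 ≤ p.la p.μe ^ 2)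
    (d1 : ∀ x, p.xs ≤ x → x < 1 → (p.n : ℝ) ^ (-(71 / 200 : ℝ)) ≤
      p.alDen α Q.γ x * min (x - p.xs + p.alU Q.γ) (1 - x))
    (hj : α = 1 ∨ 1 / ((p.n : ℝ) + 1) ≤ Q.γ) :
    Fa K α p P { p.alS K α Q with gr := gr', g2 := g2' }
      (p.famO Q (p.om 1 p.ye) p.jf (p.b 1 p.ye) 0 g) := by
  have h := N.nm
  have m := A.mem
  have G := m.geo
  have jJ := m.jlJ
  have K1 := N.K1
  have l1 := h.l1
  have np := h.np
  have n1 : (1 : ℝ) ≤ p.n := by linarith [h.n2]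
  have v0 := h.v0
  have a0 := D.a0
  have γ0 := D.g0
  have xI := N.x_lt D le_rfl
  have JJ := J_le (p := p) (P := Q)
  have d3 : ∀ x, p.xs ≤ x → x < 1 → p.alDen α Q.γ x ≤ 1 + 2 / (1 - x) := fun x a b => by
    show α * dn p p.μe x + Q.γ * p.ld Q.γ x ≤ _
    have c := (mul_le_of_le_one_left (h.den0 x).le D.a1).trans (dn_up h a b)
    have L := p.lL_ge
    have w := p.l0'_pos Q.γ
    have u : 0 < 1 / (1 - x) := one_div_pos.2 (by linarith)
    have d := mul_le_mul_of_nonneg_left (p.ld_le Q.γ a b) γ0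
    have e1 : Q.γ * (1 / (x - p.xs + p.l0' Q.γ)) / p.lL ≤ 1 / 64 := by
      rw [mul_one_div, div_div, div_le_div_iff₀ (mul_pos (by linarith) (by linarith)) (by norm_num)]
      nlinarith [p.γ_l0' Q.γ, mul_nonneg (sub_nonneg.2 a) p.lL_pos.le]
    have e2 : Q.γ * (1 / (1 - x)) / p.lL ≤ 1 / (1 - x) := by
      rw [div_le_iff₀ (by linarith)]
      nlinarith [m.g1]
    have e3 : Q.γ * ((1 / (x - p.xs + p.l0' Q.γ) + 1 / (1 - x)) / p.lL) =
      Q.γ * (1 / (x - p.xs + p.l0' Q.γ)) / p.lL + Q.γ * (1 / (1 - x)) / p.lL := by ring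
    have e4 : 2 / (1 - x) = 2 * (1 / (1 - x)) := by ring
    linarith
  have K0 := N.K0
  have xs1 : p.xs < 1 := by linarith [N.x2, one_div_pos.2 K0]
  have dj : 1 ≤ 8 * K ^ 2 * p.alDen α Q.γ p.xs ∧ p.alDen α Q.γ p.xs ≤ 8 * K ^ 2 := by
    constructor
    · have a : 1 / 64 ≤ p.alDen α Q.γ p.xs := by
        show _ ≤ α * dn p p.μe p.xs + Q.γ * p.ld Q.γ p.xs
        rcases hj with e | e
        · rw [e]
          linarith [dn_xs h xs1, mul_nonneg γ0 (p.ld_pos Q.γ p.xs).le]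
        · linarith [ld_xs xs1 e, mul_nonneg a0 (h.den0 p.xs).le]
      nlinarith [mul_le_mul_of_nonneg_left a (show 0 ≤ 8 * K ^ 2 by positivity)]
    · have a : 2 / (1 - p.xs) ≤ 2 * K := by
        have := N.x2
        rw [div_le_iff₀ (by linarith)]
        rw [le_sub_comm, div_le_iff₀ K0] at this
        linarith
      nlinarith [d3 _ le_rfl xs1]
  refine ⟨cl, cei, rfl, rfl, rfl, rfl, rfl, rfl, rfl, rfl, rfl, hI, ?_, ?_, ?_, hgr, hg2,
    fun k a b => ?_, ⟨rpow_pos_of_pos np _, le_rfl⟩, hu, ?_, d1, fun x a b => ?_,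
    d3, ⟨p.NP Q, Nat.le_add_right _ _, le_rfl, ?_, fun k a b => ?_⟩, ?_, dj⟩
  · show p.zP Q (max (p.J - 1) p.jf) = p.xs
    rw [max_eq_left (by omega), zP_lo (by omega)]; rfl
  · show p.HO Q _ (p.b 1 p.ye + 0) (p.Jp Q) + g (p.Jp Q) ≤ 8 * K ^ 2
    rw [MemD.H_hi (by omega), G.xP_top le_rfl, D.hs, D.rs]
    have a := (abs_le.1 (h.abs_rF_log D.shg.hi)).2
    have b := m.msθ
    rw [A.m1] at b
    have c := (mul_le_mul_of_nonneg_left a a0).trans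
      (mul_le_of_le_one_left (by linarith) D.a1)
    have d := mul_le_mul_of_nonneg_left c N.μ0.le
    have e := mul_nonneg (show 0 ≤ p.b 1 p.ye + 0 by linarith [m.b0])
      (Gam_nn (p.lO Q (p.om 1 p.ye)) (p.sO Q (p.om 1 p.ye) (p.Jp Q)))
    unfold Pr.Spr41.mk
    nlinarith [m.sT]
  · show p.sO Q (p.om 1 p.ye) p.jf ≤ _
    have X : 1 / p.n ≤ p.s * (p.n : ℝ) ^ (p.c / 13 - 1 / 6) := by
      refine le_trans ?_ (le_mul_of_one_le_left (by positivity) hs)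
      rw [one_div, ← rpow_neg_one]
      exact rpow_le_rpow_of_exponent_le n1 (by linarith)
    have X0 := (one_div_pos.2 np).trans_le X
    have h2 := (Nat.ceil_lt_add_one (div_pos X0 v0).le).le
    rw [div_add_one v0.ne', le_div_iff₀ v0] at h2
    rw [sP_lo (by omega)]
    have := G.hom.nn p.jf
    unfold Pr.sig Pm.jf at *
    linarith [h.vn]
  · obtain ⟨i, rfl⟩ := Nat.exists_eq_add_of_le a
    have hi : i < Q.I := Nat.lt_of_add_lt_add_left b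
    change p.zP Q (max (p.J + i) p.jf) - p.zP Q (max (p.J + i - 1) p.jf) ≤ _
    rw [max_eq_left (by omega), max_eq_left (by omega), G.zP_x hi.le,
      show p.J + i = p.J + (i + 1) - 1 from rfl, G.zP_x hi]
    exact ms i hi
  · show p.qO Q _ (p.Jp Q) + Q.rs (p.xP Q (p.Jp Q)) - (p.qO Q _ p.J + Q.rs (p.xP Q p.J)) ≤ _
    have e := G.xP_x (Nat.zero_le Q.I)
    rw [add_zero] at e
    rw [G.xP_top le_rfl, e, D.rs, D.rs]
    have a := (mul_le_mul_of_nonneg_left (h.rise_le (N.x_lt D (Nat.zero_le _)) D.shg.hi) a0).trans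
      (mul_le_of_le_one_left (by linarith) D.a1)
    have b : p.qO Q (p.om 1 p.ye) (p.Jp Q) ≤ 1 := Pp.Ode3.Gam_le_one _ _
    have c : 0 ≤ p.qO Q (p.om 1 p.ye) p.J := Gam_nn _ _
    nlinarith
  · have x1 : x < 1 := by linarith [h.u2p]
    have c := mul_le_mul_of_nonneg_left (dn_lo2 h a b) (sq_nonneg α)
    have d : α * dn p p.μe x ≤ p.alDen α Q.γ x :=
      le_add_of_nonneg_right (mul_nonneg γ0 (p.ld_pos _ _).le)
    have e := mul_le_mul_of_nonneg_right (pow_le_pow_left₀ (mul_nonneg a0 (h.den0 x).le) d 2)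
      (pow_nonneg (sub_nonneg.2 x1.le) 3)
    show _ ≤ p.alDen α Q.γ x ^ 2 * (1 - x) ^ 3
    rw [mul_pow] at e
    linarith
  · show 1 / (8 * K ^ 2) ≤ (((p.Jp Q + p.Nr : ℕ) : ℝ) - (p.Jp Q : ℕ)) * p.v
    have n3 : 3 ≤ p.n := by
      by_contra hh
      have a : (p.n : ℝ) ≤ 2 := by exact_mod_cast (by omega : p.n ≤ 2)
      have b := log_le_sub_one_of_pos np
      nlinarith [N.lg, N.C1]
    have := p.one_le_Nr v0 hA n3
    push_cast
    rw [add_sub_cancel_left]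
    exact le_trans ((div_le_one (by positivity)).2 (by nlinarith)) this
  · have c := A.rev k a b
    show p.ms 1 p.ye 1 * p.v / (8 * K ^ 2 * 1) ≤
      p.HO Q _ (p.b 1 p.ye + 0) (k + 1) + g (k + 1) - (p.HO Q _ (p.b 1 p.ye + 0) k + g k)
    change _ ≤ p.HO Q _ (p.b 1 p.ye + 0) (k + 1) + 0 - (p.HO Q _ (p.b 1 p.ye + 0) k + 0) at c
    rw [gt k a, A.m1, mul_one, mul_div_right_comm]
    have := mul_le_mul_of_nonneg_right (div_le_div_of_nonneg_left N.μ0.le m.K0 m.KC) v0.le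
    linarith
  · show p.sO Q _ (p.Jp Q) - p.sO Q _ p.J ≤ _
    linarith [G.sP_Jp_le, G.sP_J, D.g1]

theorem rp_le' (h : Nm p μ) {a b : ℝ} (e : a ≤ b) : (p.n : ℝ) ^ a ≤ (p.n : ℝ) ^ b :=
  rpow_le_rpow_of_exponent_le (by linarith [h.n2]) e

end Fa59

open Fa59 Plt13 Mem37 Real Set Filter Topology

/-- the facts along `C2`, amplitude at least `n^{-1/3}` -/
def Fa2' (K : ℝ) (p : Pm) : Prop := 5 ≤ p.A → ∀ α α' P, (p.n : ℝ) ^ (-(1 / 3 : ℝ)) ≤ α → α ≤ 1 →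
  α / 2 ≤ α' → α' ≤ α → p.AlOk (7 / 20) α P → ∃ S, Fa K α' p P S (p.alM (7 / 20) P α')

theorem fa2' {β : ℝ} (hβ : 1 < β) : Cst β Fa2' := by
  intro c0 C0 hc0 hC0
  obtain ⟨K, K1, H⟩ := memAl β hβ c0 C0 hc0 hC0
  refine ⟨K, K1, fun A hA c hc hc' => ?_⟩
  filter_upwards [H K le_rfl A hA c hc hc', ev_log 36 (show (0:ℝ) < 1 / 200 by norm_num)]
    with n h hl p e1 e2 e3 e4 hp A5 α α' P a0 a1 a2 a3 hP
  obtain ⟨N, M⟩ := h p e1 e2 e3 e4 hp
  rw [← e2] at hl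
  have h := N.nm
  have np := h.np
  have l1 := h.l1
  have K5 := N.K1
  have a0' := (rpow_pos_of_pos np _).trans_le a0
  have D := alD_alOk N hP a0'.le a1 a2 a3
  have B := M _ _ D
  set γ := (p.n : ℝ) ^ (-(7 / 20 : ℝ)) with hγ
  have γ0 : 0 < γ := rpow_pos_of_pos np _
  have eU : p.alU γ = p.l0' γ := if_neg γ0.ne'
  have L := p.lL_le h.n2
  have L0 := p.lL_pos
  have q0 : 0 < (p.n : ℝ) ^ (-(71 / 200 : ℝ)) := rpow_pos_of_pos np _
  have q : (p.n : ℝ) ^ (-(71 / 200 : ℝ)) * (2 * p.lL) ≤ γ := by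
    refine (mul_le_mul_of_nonneg_left (show 2 * p.lL ≤ _ from le_trans (by linarith) hl)
      q0.le).trans_eq ?_
    rw [← rpow_add np]; norm_num [hγ]
  refine ⟨_, fa_gen (P := P) (g := 0) (gr' := (p.alS K α' (p.alP (7 / 20) P α')).gr)
    (g2' := p.alG2 K α') N D B (by omega) hp.s1 (e4 ▸ hc.le) rfl B.cl B.cei zero_le_one
    (fun _ _ => rfl) (fun t ht => ?_) ?_ hP.ms ?_ (fun x x0 x1 => ?_) (Or.inr ?_)⟩
  · have t0 := (B.mem.geo.sP_nn _).trans ht.le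
    refine (if_neg (not_le.2 ht)).trans_le ?_
    positivity
  · have a : α' ^ 2 ≤ 1 := pow_le_one₀ (by linarith) (a3.trans a1)
    have b : 0 ≤ (p.μe * p.la p.μe) ^ 2 * log p.n := by positivity
    have c : 5 * K ≤ K ^ 5 := by nlinarith [pow_le_pow_left₀ (by norm_num : (0:ℝ) ≤ 500) K5 4]
    have d : 0 ≤ (p.n : ℝ) ^ (-(7 / 10 : ℝ)) := by positivity
    have e : p.alG2 K α' = 5 * K * (α' ^ 2 * ((p.μe * p.la p.μe) ^ 2 * log p.n)) := by
      unfold Pm.alG2; ring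
    rw [e]
    exact mul_le_mul c (by nlinarith) (by positivity) (by positivity)
  · show _ ≤ p.alU γ ∧ p.alU γ ^ 3 ≤ _
    rw [eU]
    have w := p.l0'_pos γ
    constructor
    · refine le_of_mul_le_mul_right (q.trans ?_) (by linarith : 0 < 2 * p.lL)
      nlinarith [p.γ_l0' γ, mul_pos L0 w]
    · rw [← u0_cube h]
      exact pow_le_pow_left₀ w.le (N.l0'_le le_rfl) 3
  · show _ ≤ (α' * dn p p.μe x + γ * p.ld γ x) * min (x - p.xs + p.alU γ) (1 - x)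
    rw [eU]
    have w := p.l0'_pos γ
    have m0 : 0 ≤ min (x - p.xs + p.l0' γ) (1 - x) := le_min (by linarith) (by linarith)
    have d0 := mul_nonneg (show 0 ≤ α' by linarith) (h.den0 x).le
    have d1 := mul_nonneg γ0.le (p.ld_pos γ x).le
    rcases le_total p.l1' (1 - x) with e | e
    · have a := mul_le_mul_of_nonneg_left (p.ld_min γ x0 e).1 γ0.le
      rw [mul_one_div, ← mul_assoc] at a
      have b := (le_div_iff₀ (by linarith : 0 < 2 * p.lL)).2 q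
      nlinarith [mul_nonneg d0 m0]
    · have n1 : 1 ≤ p.n := by exact_mod_cast (show (1:ℝ) ≤ p.n by linarith [h.n2])
      have a : 2 * (p.n : ℝ) ^ (-(3 : ℝ)) ≤ 1 / p.n := by
        rw [rpow_neg np.le, show (p.n : ℝ) ^ (3 : ℝ) = (p.n : ℝ) ^ 3 by norm_num, ← div_eq_mul_inv,
          div_le_div_iff₀ (by positivity) np]
        nlinarith [h.n2, mul_le_mul h.n2 h.n2 (by norm_num) np.le]
      have b := e.trans (p.l1'_le3 n1)
      have b0 : 0 < (p.n : ℝ) ^ (-(3 : ℝ)) := rpow_pos_of_pos np _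
      rw [min_eq_right (by linarith [h.x1])]
      have c := mul_le_mul_of_nonneg_left (dn_lo3 h x0 x1 (by linarith [h.u2n]))
        (show 0 ≤ α' by linarith)
      have d : γ ≤ α := (rp_le' h (by norm_num)).trans a0
      nlinarith [mul_nonneg d1 (sub_nonneg.2 x1.le), mul_le_mul_of_nonneg_left p.lL_ge q0.le]
  · show _ ≤ γ
    refine (one_div_le_one_div_of_le np (by linarith)).trans ?_
    rw [one_div, ← rpow_neg_one]
    exact rp_le' h (by norm_num)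

theorem fa1 {β : ℝ} (hβ : 1 < β) : Cst β Fa1 := by
  intro c0 C0 hc0 hC0
  obtain ⟨K, K1, H⟩ := memAl β hβ c0 C0 hc0 hC0
  refine ⟨K, K1, fun A hA c hc hc' => ?_⟩
  obtain ⟨K', H'⟩ := fin_ne hβ (show (1:ℝ) / 3 ≤ 7 / 20 by norm_num) (by norm_num) c0 C0 c hc0 hC0 hc
  have t1 := (tendsto_rpow_atTop (y := 7 / 20) (by norm_num)).comp
    (tendsto_natCast_atTop_atTop (R := ℝ))
  filter_upwards [H K le_rfl A hA c hc hc', ev_Big K' one_pos, t1.eventually_ge_atTop (3 * K ^ 2)]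
    with n h hB h3 p e1 e2 e3 e4 hp A5 P hP t ht
  obtain ⟨N, M⟩ := h p e1 e2 e3 e4 hp
  have E := H' p e4 A5 ⟨e1, hp, hc0, hC0, e3 ▸ hA, e4 ▸ hc, e4 ▸ hc', one_pos, e2 ▸ hB⟩
  simp only [Function.comp] at h3
  rw [← e2] at h3
  have h := N.nm
  have np := h.np
  have l1 := h.l1
  have K5 := N.K1
  have D := alD_plOk h hP
  have B := M _ _ D
  have B' := M _ _ (alD_one N hP)
  have m0 := B.mem
  have m1 := B'.mem
  have γ0 : 0 < (p.n : ℝ) ^ (-(7 / 20 : ℝ)) := rpow_pos_of_pos np _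
  have bK := m0.bK
  have b0 : 0 ≤ p.b 1 p.ye + 0 := by linarith [m0.b0]
  obtain ⟨s1, s2⟩ := C1Mem3.dH_spr (b := p.b 1 p.ye + 0) m0.geo m1.geo hP.g rfl rfl
    (by rw [hP.hs]; funext x; exact one_mul _) B'.cr.γN B'.cr.tr.near (by linarith) b0
  have eγ : (p.alP (7 / 20) P 1).γ = (p.n : ℝ) ^ (-(7 / 20 : ℝ)) := rfl
  rw [eγ] at s1 s2
  have g1 := mul_le_mul_of_nonneg_right bK (show 0 ≤ K by linarith)
  have g2 : (p.b 1 p.ye + 0) * K + 1 + (p.b 1 p.ye + 0) ≤ 3 * K ^ 2 := by nlinarith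
  have Tw : C1Mem3.Two K c0 C0 _ _ (3 * K ^ 2 * (p.n : ℝ) ^ (-(7 / 20 : ℝ))) p P
      (p.alP (7 / 20) P 1) _ _ _ _ _ _ _ _ _ _ _ :=
    ⟨m0, m1, rfl, (B.m1.trans B.mJ.symm).le, by positivity, by
      rw [rpow_neg np.le, ← div_eq_mul_inv, div_le_one (by positivity)]; exact h3,
      fun k hk => (s1 k hk).trans (mul_le_mul_of_nonneg_right (mul_le_mul_of_nonneg_right
        (by linarith) γ0.le) (m0.geo.sP_nn k)),
      fun k => (s2 k).trans (mul_le_mul_of_nonneg_right g2 γ0.le)⟩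
  have eU : p.alU P.γ = u0 p p.μe := if_pos hP.g
  have q : (p.n : ℝ) ^ (-(71 / 200 : ℝ)) ≤ p.la p.μe / 4 :=
    (rp_le' h (show (-(71 / 200) : ℝ) ≤ -(7 / 20) by norm_num)).trans (by linarith [N.gl])
  rw [c1M_eq]
  refine ⟨_, fa_gen (P := P) N D B (by omega) hp.s1 (e4 ▸ hc.le) rfl (Tw.cl ht)
    (Tw.cei B.cei B'.cei ht) ?_ (fun k hk => ?_) (fun s hs => ?_) ?_ (E.alOk_of_plOk hP).ms ?_
    (fun x x0 x1 => ?_) (Or.inl rfl)⟩
  · exact (mul_le_mul_of_nonneg_left ((le_abs_self _).trans ((Tw.al _).trans Tw.D1)) ht.1).trans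
      (by linarith [ht.2])
  · simp only [Pm.dH, min_eq_right hk, min_eq_right (hk.trans k.le_succ)]
  · have t0 := (m0.geo.sP_nn _).trans hs.le
    show (if s ≤ _ then _ else 0) + _ ≤ _
    rw [if_neg (not_le.2 hs), zero_add]
    exact mul_le_mul_of_nonneg_right (mul_le_mul_of_nonneg_right (by nlinarith) γ0.le) t0
  · have b : 0 ≤ (p.μe * p.la p.μe) ^ 2 * log p.n := by positivity
    have k4 := pow_le_pow_left₀ (by norm_num : (0:ℝ) ≤ 500) K5 4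
    have c : 10 * K ≤ K ^ 5 := by nlinarith
    have c' : 18 * K ^ 4 ≤ K ^ 5 := by nlinarith
    have d : ((p.n : ℝ) ^ (-(7 / 20 : ℝ))) ^ 2 = (p.n : ℝ) ^ (-(7 / 10 : ℝ)) := by
      rw [← rpow_natCast, ← rpow_mul np.le]; norm_num
    have e : 2 * p.alG2 K 1 + 2 * (3 * K ^ 2 * (p.n : ℝ) ^ (-(7 / 20 : ℝ))) ^ 2 =
        10 * K * ((p.μe * p.la p.μe) ^ 2 * log p.n) + 18 * K ^ 4 * (p.n : ℝ) ^ (-(7 / 10 : ℝ)) := by
      rw [← d]; unfold Pm.alG2; ring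
    rw [e, mul_add]
    exact add_le_add (mul_le_mul_of_nonneg_right c b) (mul_le_mul_of_nonneg_right c' (by positivity))
  · rw [eU]
    exact ⟨q.trans (by linarith [h.l_le_u0, h.lp]), (u0_cube h).le⟩
  · rw [eU, Pm.alDen, hP.g, zero_mul, add_zero, one_mul]
    exact q.trans (dn_lo1 h x0 x1)

end Crest.Agent.T156.Alt

end
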