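import Crest.Agent.T156.SprLX_11
import Crest.Agent.T156.SprFa_59
import Crest.Agent.T156.SprLeg_59

/-!
# Row 156, stage C (helper11): `SprL1`, `SprL2` from (TL1) and the output of SR
-/

set_option autoImplicit false
set_option linter.unusedSectionVars false

noncomputable section

namespace Crest.Agent.T156.Alt

namespace Lt11

open Real Set Filter Topology
open Crest.Agent.T156.Alt.L69 Crest.Agent.T156.Alt.Ps64

/-- the body of `TL1` -/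
def T1 (E Λ : ℝ) (S : Sc) (M : Md) (m : ℕ) (a : ℝ) : Prop :=
  ∀ G1 u1 u2 j γ Lc ηc τ l X Xp Vt Lg Lp X2 X3 X4 G0 η N,
  CeiG S M G1 → LN E S M l l (cr S l * l) X Lg X2 X3 G0 η → L4 S (cr S l * l) X l S.C X4 →
  LP E S M Xp Vt Lg Lp X2 X3 G0 G1 u1 u2 j γ Lc ηc τ η N → S.F ^ 40 ≤ E →
  Ap S M m a l X Xp Vt u1 j →
  LO (Λ * S.F ^ 12) S M m a l u2 (l ^ 5 + S.ms l * l ^ 3 + cB M S η l S.C + X2 ^ 2 + X4 + N)

/-- a monomial inequality with powers of `n` -/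
scoped macro "lgr " h:term : tactic => `(tactic| exact lg_le (by assumption) (by positivity)
  (by positivity) (by (try lg_norm); (try simp only [$h:term, mul_one]); linarith))

theorem nn_c {E n n' C μ μ' l g ω ν x Lg X2 X3 X4 G0 e : ℝ}
    (h : NN E n C μ l g ω ν x Lg X2 X3 X4 G0 e) (e1 : n' = n) (e2 : μ' = μ) :
    NN E n' C μ' l g ω ν x Lg X2 X3 X4 G0 e := by subst e1 e2; exact h

theorem np_c {E n n' C θ θ' w h u D lm b dM U0 U1 γ Γ x Λ dm B σ aM Lg Lc uc X2 X3 G0 e j ec τ N : ℝ}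
    (H : NP E n C θ w h u D lm b dM U0 U1 γ Γ x Λ dm B σ aM Lg Lc uc X2 X3 G0 e j ec τ N)
    (e1 : n' = n) (e2 : θ' = θ) :
    NP E n' C θ' w h u D lm b dM U0 U1 γ Γ x Λ dm B σ aM Lg Lc uc X2 X3 G0 e j ec τ N := by
  subst e1 e2; exact H

theorem fin_num {n c η σ a C K κ θ Λ s α l e X2 N u Γ γ ν g2 cb : ℝ} (n1 : 1 < n) (c0 : 0 < c)
    (c1 : c ≤ 1 / 2000) (η0 : 0 < η) (η1 : 100 * η ≤ c) (k3 : 1000 ≤ Λ) (σ0 : 0 ≤ σ) (a1 : a ≤ 0)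
    (C0 : 0 < C) (lC : logb n C ≤ η) (K0 : 0 < K) (lK : logb n K ≤ η)
    (κ0 : 0 < κ) (lκ : logb n κ = -c) (θ0 : 0 < θ) (lθ : logb n θ = -(7 * c))
    (s0 : 0 < s) (ls : logb n s = σ) (α0 : 0 < α) (la : logb n α = a)
    (l0 : 0 < l) (ll : logb n l = σ + 3 * c - 5 / 36) (e0 : 0 < e) (le : logb n e = 3 * σ - 5 / 12)
    (X0 : 0 < X2) (l2 : logb n X2 = 3 * σ - 3 / 8) (N0 : 0 < N)
    (lN : logb n N = 8 * σ - 2 / 3 - 2 * a) (u0 : 0 < u) (lu : logb n u = 7 * c - 2 / 3 - 2 * a)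
    (Γ0 : 0 < Γ) (lΓ : logb n Γ = -(2 / 3) - 15 * c / 2) (γ0 : 0 < γ) (lγ : logb n γ = -(7 / 20))
    (ν0 : 0 < ν) (lν : logb n ν = -2 / 3) (hg : g2 ≤ Γ)
    (hb : cb ≤ e ^ 2 * (4 * C ^ 2 / (κ * l) + 1 / θ) +
      ((K ^ 3 * γ) ^ 2 * (1 / κ + C ^ 2 / θ) + g2 / θ)) :
    Λ * (2 * ((l ^ 5 + κ * l ^ 2 * l ^ 3 + cb + X2 ^ 2 + N + N) / θ) + u + Γ + γ ^ 2 + 2 / n ^ 2) ≤
      Λ ^ 2 * s ^ 8 * ν / (α ^ 2 * θ) := by
  have n0 : 0 < n := by linarith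
  have ln : logb n n = 1 := logb_self_eq_one n1
  have Λ0 : 0 < Λ := by linarith
  have En : l ^ 5 + κ * l ^ 2 * l ^ 3 + cb + X2 ^ 2 + N + N ≤ 14 * N := by
    have e1 : 4 * C ^ 2 / (κ * l) = 4 * (C ^ 2 / (κ * l)) := by ring
    have b1 : g2 / θ ≤ N := (div_le_div_of_nonneg_right hg θ0.le).trans (by lgl)
    rw [e1] at hb
    linarith [show l ^ 5 ≤ N by lgl, show κ * l ^ 2 * l ^ 3 ≤ N by lgl, show X2 ^ 2 ≤ N by lgl,
      show e ^ 2 * (C ^ 2 / (κ * l)) ≤ N by lgl, show e ^ 2 * (1 / θ) ≤ N by lgl,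
      show (K ^ 3 * γ) ^ 2 * (1 / κ) ≤ N by lgl, show (K ^ 3 * γ) ^ 2 * (C ^ 2 / θ) ≤ N by lgl]
  have b2 := div_le_div_of_nonneg_right En θ0.le
  have e2 : 14 * N / θ = 14 * (N / θ) := by ring
  have e3 : 2 / n ^ 2 = 2 * (1 / n ^ 2) := by ring
  have b3 := mul_le_mul_of_nonneg_right k3 (show 0 ≤ Λ * (N / θ) by positivity)
  have b4 : Λ ^ 2 * (N / θ) ≤ Λ ^ 2 * s ^ 8 * ν / (α ^ 2 * θ) := by lgl
  refine (mul_le_mul_of_nonneg_left (show _ ≤ 33 * (N / θ) by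
    linarith [show u ≤ N / θ by lgl, show Γ ≤ N / θ by lgl, show γ ^ 2 ≤ N / θ by lgl,
      show 1 / n ^ 2 ≤ N / θ by lgl]) Λ0.le).trans ?_
  have : 0 ≤ Λ * (N / θ) := by positivity
  linarith

section num

variable {β c0 C0 c η K' : ℝ} {A : ℕ} {p : Pm} (H : Reg β c0 C0 A c η K' p)
include H

theorem μ0 : 0 < p.μe := H.μ_pos H.mem_end

theorem lμ : logb p.n p.μe = -(7 * c) := by
  rw [Pm.μe, H.lg_μ_eq H.mem_end, logb_one, H.lg_ye]; ring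

theorem lla : logb p.n (p.la p.μe) = -(1 / 3) + 3 * c := by
  rw [H.lg_la (μ0 H), lμ H, min_eq_right (by linarith [H.c_le])]; ring

theorem lu2 : logb p.n (p.u2 p.μe) = -(5 / 6) + 27 * c / 4 := by
  rw [H.lg_u2 (μ0 H), H.lg_Vc (μ0 H), lμ H, max_eq_left (by linarith [H.c_le])]; ring

theorem ms_le {t : ℝ} (ht : p.r ≤ t) : p.ms 1 p.ye t ≤ t ^ 2 := by
  have r0 := H.r0
  have a : max p.r (min t p.ye) ^ 2 ≤ t ^ 2 :=
    pow_le_pow_left₀ (r0.le.trans (le_max_left _ _)) (max_le ht (min_le_left _ _)) 2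
  rw [Pm.ms, one_mul]
  exact (mul_le_of_le_one_left (sq_nonneg _) H.κ1).trans a

theorem ms_sub {t t' : ℝ} (h0 : 0 ≤ t) (h : t ≤ t') :
    p.ms 1 p.ye t' ≤ p.ms 1 p.ye t + t' ^ 2 := by
  rcases le_total p.r t' with a | a
  · linarith [ms_le H a, H.ms0 H.mem_end t]
  · have e : ∀ y ≤ p.r, p.ms 1 p.ye y = 1 * p.κ * p.r ^ 2 := fun y hy => by
      rw [Pm.ms, max_eq_left ((min_le_left _ _).trans hy)]
    rw [e t' a, e t (h.trans a)]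
    linarith [sq_nonneg t']

theorem ms_lo {t : ℝ} (h0 : 0 ≤ t) : min (p.κ * t ^ 2) p.μe ≤ p.ms 1 p.ye t := by
  rcases le_total t p.ye with a | a
  · refine (min_le_left _ _).trans ?_
    rw [Pm.ms, one_mul, min_eq_left a]
    exact mul_le_mul_of_nonneg_left (pow_le_pow_left₀ h0 (le_max_right _ _) 2) H.κ0.le
  · rw [H.ms_top H.mem_end a]; exact min_le_right _ _

set_option maxHeartbeats 8000000 in
/-- **one member** -/
theorem one {K α : ℝ} {P : Pl} {S : Sc} {M : Md} {m : ℕ} {a : ℝ} (hc : c ≤ 1 / 2000)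
    (hη : 100 * η ≤ c) (K1 : 1 ≤ K) (hK : 8 * K ^ 2 ≤ (p.n : ℝ) ^ η) (F : Fa K α p P S M)
    (α0 : (p.n : ℝ) ^ (3 * c - 1 / 12) ≤ α) (α1 : α ≤ 1) (W : p.InW m a)
    (hΦ : p.ph2 P M m a ≤ (p.n : ℝ) ^ η * p.s ^ 3 * (p.n : ℝ) ^ (c - 1 / 2))
    (L : T1 ((p.n : ℝ) ^ (c / 100)) ((p.n : ℝ) ^ η) S M m a) :
    p.tw P M m a ≤ ((p.n : ℝ) ^ η) ^ 2 * p.s ^ 8 * (p.n : ℝ) ^ (-(2 : ℝ) / 3) / (α ^ 2 * p.μe) := by
  have n1 := H.N1
  have n0 := H.N0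
  have s0 := H.s0
  have ls := H.lg_s
  have c0' := H.c_pos
  have η0 := H.η_pos
  have k3 := H.num_le
  have θ0 := μ0 H
  have lθ := lμ H
  have κ0 := H.κ0
  have lκ := H.lg_κ
  have αp : 0 < α := (H.rp0 _).trans_le α0
  have la0 := H.lg_mono (H.rp0 _) α0
  rw [H.lg_rp] at la0
  have la1 := H.lg_np αp α1
  have ln := H.lg_n
  have Λ0 := H.Λ0
  have lΛ := H.lg_rp η
  have K0 : 0 < K := by linarith
  have lK := H.lg_cst K1 (by nlinarith)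
  have cl := F.cl
  have C0 := cl.C0
  have lC := H.lg_cst cl.C1 (F.eC ▸ hK)
  have L0 : 0 < log (p.n : ℝ) := by linarith [H.log1]
  have lL := H.lg_log
  have eθ : S.θ = p.μe := by
    rw [Sc.θ, F.em]; exact H.ms_top H.mem_end H.ye1
  have m0 : 0 < m := H.n0.trans_le W.m1
  set σ := logb p.n p.s with hσ
  obtain ⟨l, l0, ll⟩ := ex_lg n1 (σ + 3 * c - 5 / 36)
  obtain ⟨g, g0, lg⟩ := ex_lg n1 (-(13 / 18) - 5 * c - 2 * σ)
  obtain ⟨ω, ω0, lω⟩ := ex_lg n1 (-(7 / 36) - 2 * c - σ)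
  obtain ⟨ν, ν0, lν⟩ := ex_lg n1 (-(2 / 3))
  obtain ⟨x, x0, lx⟩ := ex_lg n1 (σ + c / 2 - 1 / 6)
  obtain ⟨Lg, Lg0, lLg⟩ := ex_lg n1 (1 / 36)
  obtain ⟨X2, X20, l2⟩ := ex_lg n1 (3 * σ - 3 / 8)
  obtain ⟨X3, X30, l3⟩ := ex_lg n1 (3 * σ + 2 * c - 1 / 2)
  obtain ⟨G0, G00, lG⟩ := ex_lg n1 (3 * σ - 2 / 5)
  obtain ⟨e, e0, le⟩ := ex_lg n1 (3 * σ - 5 / 12)
  obtain ⟨N, N0, lN⟩ := ex_lg n1 (8 * σ - 2 / 3 - 2 * logb p.n α)
  obtain ⟨u, u0, lu⟩ := ex_lg n1 (7 * c - 2 / 3 - 2 * logb p.n α)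
  obtain ⟨D, D0, lD⟩ := ex_lg n1 (4 * η)
  obtain ⟨Γ, Γ0, lΓ⟩ := ex_lg n1 (-(2 / 3) - 15 * c / 2)
  obtain ⟨w, w0, lw⟩ := ex_lg n1 (7 * c - 1)
  obtain ⟨dm, d0, ld⟩ := ex_lg n1 (-(3 / 4))
  obtain ⟨B, B0, lB⟩ := ex_lg n1 (2 * σ + 1 / 6 - logb p.n α)
  obtain ⟨s', s'0, ls'⟩ := ex_lg n1 (σ + 3 * c - 5 / 18 - logb p.n α / 3)
  obtain ⟨aM, A0, lA⟩ := ex_lg n1 (3 * c - 1 / 12)
  obtain ⟨Lc, Lc0, lc⟩ := ex_lg n1 (1 / 6 - 3 * c)
  obtain ⟨uc, v0, lv⟩ := ex_lg n1 (3 * c - 2 / 9)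
  obtain ⟨j, j0, lj⟩ := ex_lg n1 (2 * σ + 2 * c - 1 / 4)
  obtain ⟨ec, f0, lf⟩ := ex_lg n1 (σ - 1 / 3 - 7 * c)
  have r0 := H.r0
  have lr := H.lg_r
  have y0 := H.ye0
  have ly := H.lg_ye
  have rl : p.r ≤ l := by lgr ln
  have ly' : l ≤ p.ye := by lgr ln
  have eμ : S.ms l = p.κ * l ^ 2 := by
    rw [F.em, Pm.ms, one_mul, min_eq_left ly', max_eq_right rl]
  have E1 : 1 ≤ (p.n : ℝ) ^ (c / 100) := one_le_rpow n1.le (by positivity)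
  have T : Tb p.n c η σ (logb p.n α) ((p.n : ℝ) ^ (c / 100)) S.C p.μe (p.κ * l ^ 2) l g ω ν x Lg X2
      X3 G0 e N :=
    ⟨n1, c0', hc, η0, hη, k3, ls.1, ls.2, la0, la1, E1, (H.lg_rp _).le, cl.C1, lC.2, θ0, lθ,
      by positivity, by lg_norm; linarith, l0, ll, g0, lg, ω0, lω, ν0, lν, x0, lx, Lg0, lLg, X20, l2,
      X30, l3, G00, lG, e0, le, N0, lN⟩
  have p0 := H.u20 θ0
  have lp' := lu2 H
  have a0 := H.la0 θ0
  have ll' := lla H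
  have l4' := H.lg_num (x := 4) (by norm_num) (by norm_num)
  have γ0 := H.rp0 (-(7 / 20 : ℝ))
  have lγ := H.lg_rp (-(7 / 20 : ℝ))
  have Tq : Tp p.n c η σ (logb p.n α) ((p.n : ℝ) ^ (-(2 : ℝ))) u D ((p.n : ℝ) ^ (-(71 / 200 : ℝ)))
      (α * √(p.u2 p.μe) / 4) (p.la p.μe ^ 2) ((p.n : ℝ) ^ (-(7 / 20 : ℝ))) Γ w
      (((p.n : ℝ) ^ η) ^ 2) dm B s' aM Lc uc j ec :=
    ⟨H.rp0 _, H.lg_rp _, u0, lu, D0, lD, H.rp0 _, H.lg_rp _, by positivity, by lg_norm; linarith,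
      by positivity, by lg_norm; linarith, γ0, lγ, Γ0, lΓ, w0, lw, by positivity,
      by rw [logb_pow, lΛ]; norm_num, by
        have : log (1 + (p.n : ℝ)) ≤ log ((p.n : ℝ) ^ 2) :=
          log_le_log (by positivity) (by nlinarith [H.N3])
        rw [log_pow] at this
        push_cast at this
        nlinarith [H.log_le], d0, ld, B0, lB, s'0, ls', A0, lA, Lc0, lc, v0, lv, j0, lj, f0, lf⟩
  have en : (S.n : ℝ) = p.n := by rw [F.en]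
  have NN' := nn_c T.nn en eμ
  have NP' := np_c (T.np Tq) en eθ
  set γ := (p.n : ℝ) ^ (-(7 / 20 : ℝ)) with hγ
  have ml : ∀ t, l ≤ t → S.ms t ≤ t ^ 2 := fun t ht => F.em ▸ ms_le H (rl.trans ht)
  have fg : FG S M l p.ye p.κ (K ^ 3 * γ) := by
    refine ⟨cl, F.eF, l0, κ0, by positivity, F.gr, ml, fun t ht => ?_, ly', ?_, ?_⟩
    · rw [eθ, F.em]; exact ms_lo H (l0.le.trans ht)
    · rw [eθ, Pm.μe, Pm.μ, one_mul]
    · obtain ⟨z, z0, pz, qz⟩ := sm_lg n1 k3 one_pos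
      rw [logb_one] at pz
      have := H.v_le_r.trans H.r_le_ye
      rw [F.ev, le_div_iff₀ (by positivity)]
      nlinarith [show S.C ^ 2 * p.ye ≤ z by lgr ln, mul_le_mul_of_nonneg_left this (sq_nonneg S.C)]
  obtain ⟨yΓ, yΓ0, mΓ, kΓ⟩ := sm_lg n1 k3 Γ0
  have l7 := H.lg_rp (-(7 / 10 : ℝ))
  have r7 := H.rp0 (-(7 / 10 : ℝ))
  set δ := (p.n : ℝ) ^ (-(7 / 10 : ℝ)) with hδ
  have g2 : S.g2 ≤ 2 * yΓ := by
    linarith [F.g2, show K ^ 5 * ((p.μe * p.la p.μe) ^ 2 * log p.n) ≤ yΓ by lgr ln,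
      show K ^ 5 * δ ≤ yΓ by lgr ln]
  have hΓ : GS M S 0 S.C + GP M S ≤ Γ := by
    linarith [g_all fg, show (K ^ 3 * γ) ^ 2 * S.C ^ 2 ≤ yΓ by lgr ln]
  have u1 : u ≤ 1 := by lgr ln
  have fp : FP S M ((p.n : ℝ) ^ (-(2 : ℝ))) u D ((p.n : ℝ) ^ (-(71 / 200 : ℝ)))
      (α * √(p.u2 p.μe) / 4) (3 / u) ((p.n : ℝ) ^ (-(71 / 200 : ℝ))) (p.la p.μe ^ 2) γ Γ := by
    refine ⟨cl, F.eF, F.mesh, F.ue, F.u0, (mul_le_mul_of_nonneg_left F.ck (sq_nonneg _)).trans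
      (by lgr ln), F.ex ▸ F.d1, fun y a b => ?_, fun y a b => ?_, F.rev, F.spr, hΓ⟩
    · refine le_trans (le_of_eq ?_) (F.d2 y (F.ex ▸ a) (le_trans (by lgr ln) b))
      rw [div_pow, mul_pow, sq_sqrt p0.le]; norm_num
    · have b1 := div_le_div_of_nonneg_left zero_le_two u0 b
      have b2 : 1 ≤ 1 / u := (le_div_iff₀ u0).2 (by linarith)
      have b3 : 3 / u = 1 / u + 2 / u := by ring
      linarith [F.d3 y (F.ex ▸ a) (by linarith)]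
  have fn : FN ((p.n : ℝ) ^ (c / 100)) S M l := by
    refine ⟨cl, F.eF, F.HJ, (mul_le_mul_of_nonneg_left F.sj (by positivity)).trans ?_,
      F.em ▸ fun t t' => ms_sub H, ml⟩
    have := H.lg_two
    rw [H.hc]
    lgr ln
  have hX : ∑ k ∈ Finset.Ioc S.j0 S.Jp, (M.z k - M.z (k - 1)) * M.del m a k ^ 2 ≤ x ^ 3 := by
    rw [F.e0, F.eP]
    exact hΦ.trans (by lgr ln)
  obtain ⟨yj, yj0, mj, kj⟩ := sm_lg n1 k3 j0
  have ap := ap_of (u := u) (j := j) fg m0 hX hΓ (by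
    linarith [show √(x ^ 3) ≤ yj by lgr ln, show √Γ ≤ yj by lgr ln, show l ^ 2 ≤ yj by lgr ln])
    ⟨F.ex ▸ F.dj.1, F.ex ▸ F.dj.2, F.u0.2.trans (by lgr ln), fun k a _ b => le_trans
      (show 1 ≤ (p.n : ℝ) * (p.n : ℝ) ^ (-(71 / 200 : ℝ)) by lgr ln) (by
        rw [en]
        exact mul_le_mul_of_nonneg_left (p_lm fp NP' a (u0.trans_le b)) n0.le)⟩
  have O := L _ _ _ _ _ _ _ _ _ _ _ _ _ _ _ _ _ _ _ _ (F.cei.toG cl) (Lt11.ln fn NN') (l4 fn NN' _)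
    (lp fp NP') (by rw [F.eF, one_pow]; exact E1) ap
  rw [F.eF, one_pow, mul_one] at O
  have cb := cB_le fg e
  have cb0 : 0 ≤ cB M S (fun _ => e) l S.C := Finset.sum_nonneg fun k _ => mul_nonneg (g_dx fg k)
    (by
      have := cl.ms_pos (cl.s_nn k)
      have : 0 ≤ cr S (M.s k) := zero_le_one.trans (le_max_left _ _)
      rw [mf, F.eF]
      positivity)
  have tw := tw_le fg Λ0.le (by rw [eμ]; positivity) O F.spr hΓ
  rw [F.e0, F.eP, F.ex, eθ, F.en, eμ] at tw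
  refine tw.trans ?_
  rw [eθ] at cb
  exact fin_num n1 c0' hc η0 hη k3 ls.1 la1 C0 lC.2 K0 lK.2 κ0 lκ θ0 lθ s0 hσ.symm αp rfl l0 ll e0 le
    X20 l2 N0 lN u0 lu Γ0 lΓ γ0 lγ (H.rp0 _) (H.lg_rp _) (by linarith) cb

/-- the crude location of one member -/
theorem cru1 {K α : ℝ} {P : Pl} {S : Sc} {M : Md} {m : ℕ} {a : ℝ}
    (hη : 100 * η ≤ c) (hK : 8 * K ^ 2 ≤ (p.n : ℝ) ^ η) (F : Fa K α p P S M) (W : p.InW m a)
    (hΦ : p.ph2 P M m a ≤ (p.n : ℝ) ^ η * p.s ^ 3 * (p.n : ℝ) ^ (c - 1 / 2)) :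
    ∀ k ≤ p.Jp P, M.rb m a k ≤ ((p.n : ℝ) ^ η) ^ 3 * max (M.z k) p.lC := by
  have n1 := H.N1
  have n0 := H.N0
  have s0 := H.s0
  have ls := H.lg_s
  have c0' := H.c_pos
  have c1 := H.c_le
  have η0 := H.η_pos
  have k3 := H.num_le
  have Λ0 := H.Λ0
  have ln := H.lg_n
  have cl := F.cl
  have C0 := cl.C0
  have lC := H.lg_cst cl.C1 (F.eC ▸ hK)
  have v0 := H.v0
  have lv := H.lg_v_le
  have A2 : (2 : ℝ) ≤ A := by exact_mod_cast H.A2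
  obtain ⟨x, x0, lx⟩ := ex_lg n1 (logb p.n p.s + c / 2 - 1 / 6)
  have L0 : 0 < p.lC := mul_pos s0 (H.rp0 _)
  have lL : logb p.n p.lC = logb p.n p.s + c - 1 / 6 := by
    rw [Pm.lC, logb_mul s0.ne' (H.rp0 _).ne', H.lg_rp, H.hc]; ring
  obtain ⟨z, z0, pz, qz⟩ := sm_lg n1 k3 L0
  have hX : ∑ k ∈ Finset.Ioc S.j0 S.Jp, (M.z k - M.z (k - 1)) * M.del m a k ^ 2 ≤ x ^ 3 := by
    rw [F.e0, F.eP]
    exact hΦ.trans (by lgr ln)
  have sj := F.sj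
  rw [H.hc, F.el, ← F.e0] at sj
  rw [← F.eP]
  refine cru_of cl (H.n0.trans_le W.m1) x0.le (by lgr ln) hX F.spr ?_ ?_
  · rw [Ap63.VV, F.ev]
    linarith [show S.C ^ 2 * p.v ≤ z by lgr ln, show S.C ^ 2 * x ≤ z by lgr ln,
      show S.C ^ 3 * p.v ≤ z by lgr ln, show S.C * p.v ≤ z by lgr ln,
      show (p.n : ℝ) ^ (-(7 / 20 : ℝ)) ≤ z by lgr ln,
      show p.s * (p.n : ℝ) ^ (c / 13 - 1 / 6) ≤ z by lgr ln]
  · have := F.eC ▸ hK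
    nlinarith [mul_le_mul k3 k3 (by norm_num) Λ0.le]

end num

theorem t1_of {K α E Λ : ℝ} {p : Pm} {P : Pl} {S : Sc} {M : Md} {m : ℕ} {a : ℝ}
    (F : Fa K α p P S M) (W : p.InW m a) (L : CLat T1 (8 * K ^ 2) p.A p.n E Λ) :
    T1 E Λ S M m a :=
  L S M F.eC F.eA F.en F.cl m a ⟨by rw [F.en]; exact W.m1, by rw [F.en]; exact W.m2,
    by rw [F.en]; exact W.a1, by rw [F.ea]; exact W.a2⟩

theorem loss_s {β : ℝ} {R : ℝ → Pm → Prop} (H : Loss β fun Λ p => 0 ≤ p.s → R Λ p) : Loss β R :=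
  fun c0 C0 a b => (H c0 C0 a b).mono fun _ H => H.mono fun _ H η hη => (H η hη).mono
    fun _ H p b1 b2 b3 b4 b5 => H p b1 b2 b3 b4 b5 (zero_le_one.trans b5.s1)

theorem μe_nn (p : Pm) : 0 ≤ p.μe := by
  unfold Pm.μe Pm.μ Pm.κ
  positivity

end Lt11

open Real Set Lt11 L69

/-- **the location input of `C1S`** -/
theorem sprL1_of {β : ℝ} (hβ : 1 < β) (hT : TL1) (hS : Loss β SrP1) :
    Loss β (SprL1 (7 / 20)) := by
  refine loss_s (Sml.loss 3 (Sml.glueCL (X := T1) hβ (fa1 hβ) hS.sml hT (fun K => 8 * K ^ 2)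
    (fun c => c / 100) (fun c hc => by positivity) fun K K1 c0 C0 _ _ => ⟨5, fun A hA =>
      ⟨1 / 2000, by norm_num, fun c hc c0' => ⟨c / 100, by positivity, fun η hη η0 =>
        ⟨8 * K ^ 2, fun p H hF hP L _ P hP' t ht m a W => ?_⟩⟩⟩⟩) ?_)
  · obtain ⟨S, F⟩ := hF (H.hA ▸ hA) P hP' t ht
    have Φ := hP P hP' t ht m a W
    rw [H.hc] at Φ L
    refine ⟨cru1 H (by linarith) H.K_le F W Φ, ?_⟩
    have := one H hc (by linarith) K1 H.K_le F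
      (rpow_le_one_of_one_le_of_nonpos H.N1.le (by linarith)) le_rfl W Φ (t1_of F W L)
    rw [one_pow, one_mul] at this
    have := μ0 H
    have := H.s0
    have := H.N0
    refine le_trans ‹_› ?_
    gcongr
    · exact H.Λ1
    · norm_num
  · intro x x' p _ h G hs P hP t ht m a W
    obtain ⟨a1, a2⟩ := G hs P hP t ht m a W
    refine ⟨fun k hk => (a1 k hk).trans (mul_le_mul_of_nonneg_right h (le_max_of_le_right
      (mul_nonneg hs (by positivity)))), a2.trans ?_⟩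
    have := μe_nn p
    gcongr

/-- **the location input of `C2S`** -/
theorem sprL2_of {β : ℝ} (hβ : 1 < β) (hT : TL1) (hS : Loss β SrP2) :
    Loss β (SprL2 (7 / 20)) := by
  refine Sml.loss 3 (Sml.glueCL (X := T1) hβ (fa2' hβ) (hS.sml.and (legA hβ le_rfl)) hT
    (fun K => 8 * K ^ 2)
    (fun c => c / 100) (fun c hc => by positivity) fun K K1 c0 C0 _ _ => ⟨5, fun A hA =>
      ⟨1 / 2000, by norm_num, fun c hc c0' => ⟨c / 100, by positivity, fun η hη η0 =>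
        ⟨8 * K ^ 2, fun p H hF ⟨hP, hL⟩ L α α' P a0 a1 a2 a3 hP' m a W => ?_⟩⟩⟩⟩) ?_
  · have Φ := hP α α' P a0 a1 a2 a3 hP' m a W
    rw [H.hc] at Φ L
    have θ0 := μ0 H
    have s0 := H.s0
    have n0 := H.N0
    have n1 := H.N1
    have Λ0 := H.Λ0
    have k3 := H.num_le
    have a0' : 0 < α' := by linarith
    rcases le_total ((p.n : ℝ) ^ (3 * c - 1 / 12)) α' with h | h
    · obtain ⟨S, F⟩ := hF (H.hA ▸ hA) α α' P ((rpow_le_rpow_of_exponent_le n1.le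
        (by linarith)).trans (h.trans a3)) a1 a2 a3 hP'
      refine (one H hc (by linarith) K1 H.K_le F h (a3.trans a1) W Φ (t1_of F W L)).trans ?_
      rw [div_le_div_iff₀ (by positivity) (by positivity)]
      have e : α ^ 2 ≤ (p.n : ℝ) ^ η * α' ^ 2 := by nlinarith
      have := mul_le_mul_of_nonneg_left e (show 0 ≤ ((p.n : ℝ) ^ η) ^ 2 * p.s ^ 8 *
        (p.n : ℝ) ^ (-(2 : ℝ) / 3) * p.μe by positivity)
      linarith
    · have zm := (hL.2.1 α' P a0'.le (a3.trans a1) hP'.toFine).1.zm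
      refine le_trans (Finset.sum_le_sum_of_subset_of_nonneg (Finset.filter_subset _ _)
        fun k _ _ => mul_nonneg (sub_nonneg.2 (zm (Nat.sub_le k 1))) (sq_nonneg _))
        (le_trans Φ ?_)
      have l1 := H.lg_mono a0' h
      have l2 := H.lg_mono a0 (show α ≤ 2 * α' by linarith)
      have l3 := H.lg_two
      have ls := H.lg_s
      have lθ := lμ H
      have ln := H.lg_n
      rw [H.lg_rp] at l1
      rw [logb_mul two_ne_zero a0'.ne'] at l2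
      lgr ln
  · intro x x' p _ h G α α' P a0 a1 a2 a3 hP m a W
    refine (G α α' P a0 a1 a2 a3 hP m a W).trans ?_
    have := μe_nn p
    gcongr

end Crest.Agent.T156.Alt

end
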