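import Crest.Agent.T156.PlEx_13
import Crest.Agent.T156.LspB_28
import Crest.Agent.T156.SprDef_59

/-!
Row 156 (helper3): the density `α dn + γ ld` of the clock of the members of stage C.
-/

set_option autoImplicit false

noncomputable section

namespace Crest.Agent.T156.Alt.SrD3

open Real Plt13

variable {p : Pm} {μ α γ x x' : ℝ}

theorem dt_anti {V l u u' : ℝ} (hV : 0 < V) (hl : 0 ≤ l) (hu : 0 < u') (h : u' ≤ u) :
    dt V l u ≤ dt V l u' := by
  have c : V * √u' + l ≤ V * √u + l := by nlinarith [sqrt_le_sqrt h]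
  unfold dt
  exact div_le_div_of_nonneg_left (by positivity) (by positivity)
    (mul_le_mul (by linarith) c (by positivity) (by linarith))

theorem dt_up {V l u : ℝ} (hV : 0 < V) (V1 : V ≤ 1) (hl : 0 < l) (hu : 0 < u) :
    dt V l u ≤ 1 / (2 * u) := by
  have s := sqrt_pos.2 hu
  unfold dt
  rw [div_le_div_iff₀ (by positivity) (by positivity)]
  nlinarith [mul_pos hu (mul_pos hV s), mul_le_mul_of_nonneg_left V1 (mul_pos hu hl).le]

theorem db_half (h : Nm p μ) (h0 : p.xs ≤ x) : db (p.la μ) (x - p.xs + u0 p μ) ≤ 1 / 2 := by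
  have u := h.u0p
  have f := h.fb_u0
  have s := sqrt_pos.2 u
  have A : u0 p μ ≤ x - p.xs + u0 p μ := by linarith
  unfold fb at f
  rw [div_eq_iff s.ne'] at f
  unfold db
  rw [div_le_div_iff₀ (by have := u.trans_le A; positivity) two_pos]
  nlinarith [mul_le_mul A (sqrt_le_sqrt A) s.le (u.le.trans A)]

theorem dn_fa (h : Nm p μ) (h0 : p.xs ≤ x) (h1 : x ≤ x') (h2 : x' < 1) :
    dn p μ x ≤ 1 / 2 + dn p μ x' := by
  have pu : 0 < 1 - x' := by linarith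
  unfold dn
  rw [den_eq h0 (h1.trans_lt h2), den_eq (h0.trans h1) h2]
  linarith [db_half h h0, dt_anti h.Vp h.lp.le pu (show _ ≤ 1 - x by linarith),
    dt_anti one_pos h.sp.le pu (show _ ≤ 1 - x by linarith),
    db_pos h.lp (show 0 < x' - p.xs + u0 p μ by linarith [h.u0p])]

theorem dn_up (h : Nm p μ) (h0 : p.xs ≤ x) (h1 : x < 1) : dn p μ x ≤ 1 / 2 + 1 / (1 - x) := by
  have pu : 0 < 1 - x := by linarith
  have e : 1 / (1 - x) = 1 / (2 * (1 - x)) + 1 / (2 * (1 - x)) := by field_simp; ring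
  unfold dn
  rw [den_eq h0 h1]
  linarith [db_half h h0, dt_up h.Vp h.V1 h.lp pu, dt_up one_pos le_rfl h.sp pu]

theorem dn_lo (h : Nm p μ) (h0 : p.xs ≤ x) (h2 : p.u2 μ ≤ 1 - x) :
    √(p.u2 μ) / 4 ≤ dn p μ x * ((1 - x) * √(1 - x)) := by
  have pu : 0 < 1 - x := h.u2p.trans_le h2
  have a := db_pos h.lp (show 0 < x - p.xs + u0 p μ by linarith [h.u0p])
  have b := dt_nn h.Vp h.lp.le pu
  have s := sqrt_pos.2 pu
  have t := h.sp
  have st := sqrt_le_sqrt h2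
  have k : √(p.u2 μ) / 4 ≤ dt 1 (√(p.u2 μ)) (1 - x) * ((1 - x) * √(1 - x)) := by
    unfold dt
    rw [div_mul_eq_mul_div, div_le_div_iff₀ (by norm_num) (by positivity)]
    nlinarith [mul_le_mul_of_nonneg_left st (mul_pos t pu).le]
  unfold dn
  rw [den_eq h0 (by linarith)]
  nlinarith [mul_nonneg (add_nonneg a.le b) (mul_pos pu s).le]

theorem ld_lo (h0 : p.xs ≤ x) : γ * (1 / (x - p.xs + p.l0' γ) / p.lL) ≤ 1 / 64 := by
  have w := p.l0'_pos γ
  have L := p.lL_pos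
  rw [div_div, mul_one_div, div_le_div_iff₀ (mul_pos (by linarith) L) (by norm_num)]
  nlinarith [p.γ_l0' γ, mul_nonneg (sub_nonneg.2 h0) L.le]

theorem ld_fa (g0 : 0 ≤ γ) (h0 : p.xs ≤ x) (h1 : x ≤ x') (h2 : x' < 1) :
    γ * p.ld γ x ≤ 1 / 64 + γ * p.ld γ x' := by
  have L := p.lL_pos
  have a := one_div_le_one_div_of_le (show 0 < 1 - x' + p.l1' by linarith [p.l1'_pos])
    (show _ ≤ 1 - x + p.l1' by linarith)
  have b : 0 ≤ 1 / (x' - p.xs + p.l0' γ) := one_div_nonneg.2 (by linarith [p.l0'_pos γ])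
  have c := mul_le_mul_of_nonneg_left (div_le_div_of_nonneg_right (show 1 / (1 - x + p.l1') ≤
    1 / (x' - p.xs + p.l0' γ) + 1 / (1 - x' + p.l1') by linarith) L.le) g0
  rw [p.ld_eq γ h0 (by linarith), p.ld_eq γ (h0.trans h1) h2.le, add_div, mul_add]
  linarith [ld_lo (γ := γ) h0]

theorem ld_up (g0 : 0 ≤ γ) (g1 : γ ≤ 1) (h0 : p.xs ≤ x) (h1 : x < 1) :
    γ * p.ld γ x ≤ 1 / 64 + 1 / (1 - x) := by
  have a : 0 ≤ 1 / (1 - x) := one_div_nonneg.2 (by linarith)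
  have b := mul_le_mul_of_nonneg_left (p.ld_le γ h0 h1) g0
  have c := mul_le_mul g1 (div_le_self a (show 1 ≤ p.lL by linarith [p.lL_ge]))
    (div_nonneg a p.lL_pos.le) zero_le_one
  rw [add_div, mul_add] at b
  linarith [ld_lo (γ := γ) h0]

/-- the rise of the static clock shift -/
theorem rF_up (h : Nm p μ) (hx : 1 / (p.n : ℝ) ^ 2 ≤ 1 - x) : p.rF μ x - p.rF μ p.xs ≤
    u0 p μ + p.Vc μ * (2 * log p.n) + √(p.u2 μ) / √(1 - x) := by
  have np := h.np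
  have n2 := h.n2
  have V0 := h.Vp
  have l0 := h.lp
  have s : 1 / (p.n : ℝ) ≤ √(1 - x) := le_sqrt_of_sq_le (by rwa [div_pow, one_pow])
  have s0 : 0 < √(1 - x) := (by positivity : (0 : ℝ) < 1 / (p.n : ℝ)).trans_le s
  rw [div_le_iff₀ np] at s
  have a : p.la μ / (p.Vc μ * √(1 - x)) ≤ p.n := by
    rw [div_le_iff₀ (by positivity)]; nlinarith [h.lV]
  have b : log (1 + p.la μ / (p.Vc μ * √(1 - x))) ≤ log ((p.n : ℝ) ^ 2) :=
    log_le_log (by positivity) (by nlinarith)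
  rw [log_pow] at b
  have c := (h.rF_bd (x := x) (by linarith [sqrt_pos.1 s0])).2.1
  have d := ft_le one_pos h.sp.le (1 - x)
  rw [h.rT_eq, ft] at c
  push_cast at b
  linarith [h.rF_xs, mul_le_mul_of_nonneg_left b V0.le]

/-- the shape of the plateau data -/
structure Sh (α : ℝ) (p : Pm) (Q : Pl) (den : ℝ → ℝ) : Prop where
  a0 : 0 ≤ α
  a1 : α ≤ 1
  nm : Nm p p.μe
  g0 : 0 ≤ Q.γ
  g1 : Q.γ ≤ 1
  x0 : Q.x 0 = p.xs
  rs : ∀ x, Q.rs x = α * p.rF p.μe x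
  den : ∀ x, den x = α * dn p p.μe x + Q.γ * p.ld Q.γ x

namespace Sh

variable {Q : Pl} {den : ℝ → ℝ} (h : Sh α p Q den)
include h

theorem fa (h0 : p.xs ≤ x) (h1 : x ≤ x') (h2 : x' < 1) : den x ≤ 1 + den x' := by
  have a := mul_le_mul_of_nonneg_left (dn_fa h.nm h0 h1 h2) h.a0
  rw [h.den, h.den]
  linarith [ld_fa h.g0 h0 h1 h2, h.a1]

theorem up (h0 : p.xs ≤ x) (h1 : x < 1) : den x ≤ 1 + 2 * (1 / (1 - x)) := by
  have a := mul_le_of_le_one_left (h.nm.den0 x).le h.a1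
  rw [h.den]
  linarith [ld_up h.g0 h.g1 h0 h1, dn_up h.nm h0 h1]

theorem lo (h0 : p.xs ≤ x) (h2 : p.u2 p.μe ≤ 1 - x) :
    α * (√(p.u2 p.μe) / 4) ≤ den x * ((1 - x) * √(1 - x)) := by
  have a := mul_le_mul_of_nonneg_left (dn_lo h.nm h0 h2) h.a0
  have b := mul_nonneg (mul_nonneg h.g0 (p.ld_pos Q.γ x).le)
    (mul_nonneg (h.nm.u2p.le.trans h2) (sqrt_nonneg (1 - x)))
  rw [h.den]
  linarith

theorem rise (hx : 1 / (p.n : ℝ) ^ 2 ≤ 1 - x) : Q.rs x - Q.rs p.xs ≤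
    u0 p p.μe + p.Vc p.μe * (2 * log p.n) + √(p.u2 p.μe) / √(1 - x) := by
  have a := h.nm.u0p
  have b := h.nm.Vp
  have c := h.nm.l1
  rw [h.rs, h.rs, ← mul_sub]
  exact (mul_le_mul_of_nonneg_left (rF_up h.nm hx) h.a0).trans
    (mul_le_of_le_one_left (by positivity) h.a1)

end Sh

end Crest.Agent.T156.Alt.SrD3

end
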