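import Crest.Agent.T156.Mem1_3
import Crest.Agent.T156.SrCB_3
import Crest.Agent.T156.SprL_11
import Crest.Agent.T156.AltP1_3
import Crest.Agent.T156.SrW_17

/-!
Row 156 (helper3): the output of SR along the segment `C1` (`SrP1`).
-/

set_option autoImplicit false
set_option linter.unusedSectionVars false

noncomputable section

namespace Crest.Agent.T156.Alt

open Real Set Filter Topology
open Crest.Agent.T156.Pr Crest.Agent.T157.Nm
open Plt13 Mem37 Mem13 SrC3 Pre29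

/-- the residual profile is only read below `C` -/
theorem Cl.regr {S : Sc} {M : Md} (h : Cl S M) (g : ℝ → ℝ) (hg : ∀ t, t ≤ S.C → S.gr t ≤ g t) :
    Cl { S with gr := g } M :=
  { h with
    Gmi := fun k a b => (h.Gmi k a b).trans (hg _ (by
      rcases le_total k S.Jp with c | c
      · exact (h.sm c).trans h.sT
      · have e := h.top k c
        have : 1 / (2 * S.C) ≤ 1 / 2 := one_div_le_one_div_of_le two_pos (by linarith [h.C1])
        have b' : M.z k ≤ 1 / (2 * S.C) := b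
        linarith)) }

namespace SrP3

section den

variable {p : Pm} {ν x : ℝ} (N : Nm p ν) (h0 : p.xs ≤ x) (h1 : x < 1)
include N h0 h1

theorem db_mul : p.la ν / 4 ≤ db (p.la ν) (x - p.xs + u0 p ν) * (x - p.xs + u0 p ν) := by
  have pA : 0 < x - p.xs + u0 p ν := by linarith [N.u0p]
  have s := sqrt_pos.2 pA
  have s2 : √(x - p.xs + u0 p ν) ≤ 2 := by
    rw [sqrt_le_left (by norm_num)]; linarith [N.u0_le, N.x0]
  have e : db (p.la ν) (x - p.xs + u0 p ν) * (x - p.xs + u0 p ν) =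
      p.la ν / (2 * √(x - p.xs + u0 p ν)) := by unfold db; field_simp
  rw [e]
  exact div_le_div_of_nonneg_left N.lp.le (by positivity) (by linarith)

theorem dt_mul : p.la ν / 4 ≤ Plt13.dt (p.Vc ν) (p.la ν) (1 - x) * (1 - x) := by
  have pu : 0 < 1 - x := by linarith
  have l0 := N.lp
  have V0 := N.Vp
  have s := sqrt_pos.2 pu
  have s1 : √(1 - x) ≤ 1 := sqrt_le_one.2 (by linarith [N.x0])
  have e : Plt13.dt (p.Vc ν) (p.la ν) (1 - x) * (1 - x) =
      p.la ν * p.Vc ν / (2 * (p.Vc ν * √(1 - x) + p.la ν)) := by unfold Plt13.dt; field_simp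
  rw [e, div_le_div_iff₀ (by norm_num) (by positivity)]
  nlinarith [mul_le_mul_of_nonneg_left s1 V0.le, N.lV]

theorem dn_ge : db (p.la ν) (x - p.xs + u0 p ν) + Plt13.dt (p.Vc ν) (p.la ν) (1 - x) ≤ dn p ν x := by
  unfold dn
  rw [den_eq h0 h1]
  linarith [dt_nn one_pos (sqrt_nonneg (p.u2 ν)) (show 0 < 1 - x by linarith)]

/-- the local scale of the static clock -/
theorem dn_min : p.la ν / 4 ≤ dn p ν x * min (x - p.xs + u0 p ν) (1 - x) := by
  have pA : 0 < x - p.xs + u0 p ν := by linarith [N.u0p]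
  have pu : 0 < 1 - x := by linarith
  have a := db_pos N.lp pA
  have b := dt_nn N.Vp N.lp.le pu
  have c := dn_ge N h0 h1
  rcases min_choice (x - p.xs + u0 p ν) (1 - x) with e | e <;> rw [e]
  · exact (db_mul N h0 h1).trans (mul_le_mul_of_nonneg_right (by linarith) pA.le)
  · exact (dt_mul N h0 h1).trans (mul_le_mul_of_nonneg_right (by linarith) pu.le)

end den

/-- size of the difference of the marks -/
abbrev dC (K : ℝ) (p : Pm) : ℝ := 3 * K ^ 2 * (p.n : ℝ) ^ (-(7 / 20 : ℝ))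

/-- the scales along `C1`, bounded residual profile -/
def sB (K : ℝ) (p : Pm) (P : Pl) : Sc :=
  { sC K (dC K p) p P with
    gr := fun t => (if t ≤ p.sO P (p.om 1 p.ye) p.jf then 8 * K ^ 2 *
      p.ms 1 p.ye (p.sO P (p.om 1 p.ye) p.jf) * p.sO P (p.om 1 p.ye) p.jf else 0) +
        dC K p * min t (8 * K ^ 2) }

/-- the perturbation of the marks along `C1` -/
def gC (p : Pm) (P : Pl) (t : ℝ) (k : ℕ) : ℝ :=
  t * p.dH P (p.alP (7 / 20) P 1) (p.om 1 p.ye) (p.b 1 p.ye + 0) k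

theorem c1M_cM (p : Pm) (P : Pl) (t : ℝ) : p.c1M (7 / 20) P t = p.cM P (gC p P t) := c1M_eq ..

/-- the data along `C1` -/
def Pk (K : ℝ) (p : Pm) : Prop :=
  Nm p p.μe ∧ 1 / K ≤ 1 - p.xs ∧ 1 - p.b 1 p.ye / p.β ^ 2 ≤ K * p.μe ∧
    (624 * p.n * p.v ≤ 1 / (p.n : ℝ) ^ 2 → ∀ P, p.PlOk p.μe P → ∀ t ∈ Icc (0 : ℝ) 1,
      Mc K (K * log p.n * p.la p.μe ^ 2) (dC K p) 0 p P (gC p P t) (sB K p P))

theorem n2 {n : ℕ} : (n : ℝ) ^ (-(2 : ℝ)) = 1 / (n : ℝ) ^ 2 := by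
  rw [rpow_neg n.cast_nonneg, rpow_two, one_div]

theorem pk (β : ℝ) (hβ : 1 < β) : Cst β Pk := by
  intro c0 C0 hc0 hC0
  obtain ⟨K1, k1, H1⟩ := memT β hβ c0 C0 hc0 hC0
  obtain ⟨K0, k0, H0⟩ := nuE β hβ c0 C0 hc0 hC0
  obtain ⟨K2, k2, H2⟩ := p1 β hβ c0 C0 hc0 hC0
  have q1 : 0 ≤ C0 * K0 ^ 2 := by positivity
  have q2 := sq_nonneg K0
  obtain ⟨K, hK⟩ : ∃ K, K = K1 + K2 + 78 * (C0 * K0 ^ 2) + 4 * K0 ^ 2 + 1201 := ⟨_, rfl⟩
  refine ⟨K, by linarith, fun A hA c hc hc' => ?_⟩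
  have t1 := (tendsto_rpow_atTop (y := 7 / 20) (by norm_num)).comp
    (tendsto_natCast_atTop_atTop (R := ℝ))
  filter_upwards [H1 K (by linarith) A hA c hc hc', H0 K (by linarith) A hA c hc hc',
    H2 A hA c hc hc', t1.eventually_ge_atTop (3 * K ^ 2)] with n h1 h0 h2 h3 p e1 e2 e3 e4 hp
  have T := h1 p e1 e2 e3 e4 hp p.ye
  obtain ⟨N, X, f1, jJ, L, ho⟩ := h0 p e1 e2 e3 e4 hp
  have m0' : 0 < p.μe := X.μ_pos X.mem_end
  refine ⟨N.nm, (one_div_le_one_div_of_le (by linarith) N.K0K).trans (N.sq_ge le_rfl).1,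
    (h2 p e1 e2 e3 e4 hp 1 p.ye X.mem_end).2.2.1.2.trans
      (mul_le_mul_of_nonneg_right (by linarith) m0'.le), fun hv P H t ht => ?_⟩
  simp only [Function.comp] at h3
  rw [← e2] at h3
  have n0 := X.n_pos
  have γ0 : 0 < (p.n : ℝ) ^ (-(7 / 20 : ℝ)) := rpow_pos_of_pos n0 _
  have W : ∀ {Q : Pl}, _ := fun {Q} => pld N (by linarith) ho X.r_pos.le X.r_le_ye X.κ_pos.le
    (X.μ_le_one X.mem_end) (by have := X.A2; omega) jJ H (Q := Q)
  obtain ⟨d0, u1, u2⟩ := W rfl rfl (fun x => by rw [H.rs]) (fun x => by rw [H.hs]) H.g.ge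
    (H.g.le.trans γ0.le) (by rw [H.g, mul_zero]; exact N.nm.lp.le)
  obtain ⟨d1, w1, w2⟩ := W (Q := p.alP (7 / 20) P 1) rfl rfl (fun x => one_mul _)
    (fun x => one_mul _) γ0.le le_rfl f1
  obtain ⟨m0, b1, -, -, b2, b3⟩ := T _ _ _ _ _ X.r_le_ye le_rfl d0
  obtain ⟨m1, -, -, F, -, -⟩ := T _ _ _ _ _ X.r_le_ye le_rfl d1
  have K1' := m0.K1
  have bK := m0.bK
  have b0 : 0 ≤ p.b 1 p.ye + 0 := by linarith [m0.b0]
  obtain ⟨s1, s2⟩ := C1Mem3.dH_spr (b := p.b 1 p.ye + 0) m0.geo m1.geo H.g rfl rfl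
    (by rw [H.hs]; funext x; exact one_mul _) F.γN F.tr.near (by linarith) b0
  have eγ : (p.alP (7 / 20) P 1).γ = (p.n : ℝ) ^ (-(7 / 20 : ℝ)) := rfl
  rw [eγ] at s1 s2
  have g1 := mul_le_mul_of_nonneg_right bK (show 0 ≤ K by linarith)
  have g2 : (p.b 1 p.ye + 0) * K + 1 + (p.b 1 p.ye + 0) ≤ 3 * K ^ 2 := by nlinarith
  have Tw : C1Mem3.Two K c0 C0 _ _ (dC K p) p P (p.alP (7 / 20) P 1) _ _ _ _ _ _ _ _ _ _ _ :=
    ⟨m0, m1, rfl, (b1.trans b3.symm).le, by positivity, by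
      rw [dC, rpow_neg n0.le, ← div_eq_mul_inv, div_le_one (by positivity)]; exact h3,
      fun k hk => (s1 k hk).trans (mul_le_mul_of_nonneg_right (mul_le_mul_of_nonneg_right
        (by linarith) γ0.le) (m0.geo.sP_nn k)),
      fun k => (s2 k).trans (mul_le_mul_of_nonneg_right g2 γ0.le)⟩
  have cl := Tw.cl ht
  have ce := Tw.cei (m0.cei' b2 Tw.mJ u1 (b1 ▸ u2)) (m1.cei' b2 Tw.mJ w1 (b1 ▸ w2)) ht
  have at' : ∀ {x y : ℝ}, |x| ≤ y → |t * x| ≤ y := fun {x y} e => by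
    rw [abs_mul, abs_of_nonneg ht.1]
    exact (mul_le_of_le_one_left (abs_nonneg _) ht.2).trans e
  refine ⟨⟨_, _, _, _, _, _, _, m0⟩, cl.regr _ fun s hs => add_le_add le_rfl
      (mul_le_mul_of_nonneg_left (le_min le_rfl hs) Tw.D0), ⟨ce.up, ce.bot⟩, rfl, rfl, rfl, rfl,
    rfl, rfl, rfl, rfl, rfl, rfl, rfl, X.r_pos, X.r_le_ye, X.ye_le_one, X.κ_pos, X.κ_le_one,
    fun x => by rw [H.hs, H.rs], fun k a b => ?_, ?_, ?_, fun i hi => (x_mesh N.nm H hi).trans hv,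
    n2 ▸ H.e2, ?_, fun i _ => ?_, x_lt N.nm H le_rfl, Tw.D0, fun k hk => ?_,
    fun k hk => at' (Tw.lo k hk), fun k => at' (Tw.al k)⟩
  · rcases lt_or_ge k p.J with e | e
    · rcases le_total (k * p.v) (2 * p.ye) with f | f
      · left
        have a := (PP3.z_bds N.base k e).2
        have b := mul_le_mul_of_nonneg_left f (show 0 ≤ C0 by linarith)
        rw [m0.xP_sl e.le, H.rs]
        exact N.zero ((N.base.lab.mono (Nat.sub_le k 1)).trans (by linarith [N.hY]))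
      · right
        rw [sP_lo e.le, ho.sig_eq f]
        unfold Pm.ms Pm.μe Pm.μ
        rw [min_eq_right (by linarith [X.ye_pos]), max_eq_right X.r_le_ye]
    · right
      have a0 := m0.msm (m0.geo.sP_J ▸ m0.geo.sP_mono e)
      exact le_antisymm ((m0.ms1 _).trans_eq b1) ((b1.symm.trans_le Tw.mJ).trans a0)
  · rw [H.rs]
    refine (N.gtp H rfl rfl jJ).trans (mul_le_mul_of_nonneg_right ?_ (sq_nonneg _))
    nlinarith [N.nm.l1]
  · rw [H.rs]; exact (abs_le.1 (N.nm.abs_rF_log H.e1)).2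
  · rw [m0.geo.sP_Jp, m0.geo.sP_J, H.g]; linarith
  · rw [H.g, zero_mul]; linarith [x_ge N.nm H i]
  · rw [gC, C1Mem3.Two.dH_lo hk, mul_zero]

/-- the density of the static clock at the atom -/
theorem dn_xs {K ν : ℝ} {p : Pm} (N : Nm p ν) (K1 : 1 ≤ K) (hx : 1 / K ≤ 1 - p.xs) :
    1 / (8 * K ^ 2) ≤ dn p ν p.xs ∧ dn p ν p.xs ≤ 8 * K ^ 2 := by
  have x1 := N.xs1
  have u0' := N.u0p
  have s0 := sqrt_pos.2 u0'
  have f : p.la ν = u0 p ν * √(u0 p ν) := by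
    have := N.fb_u0
    unfold fb at this
    rwa [div_eq_iff s0.ne'] at this
  have e : db (p.la ν) (p.xs - p.xs + u0 p ν) = 1 / 2 := by
    rw [sub_self, zero_add, db, ← f]; have := N.lp; field_simp
  have pu : 0 < 1 - p.xs := by linarith
  have g : ∀ {V l : ℝ}, 0 < V → V ≤ 1 → 0 < l → Plt13.dt V l (1 - p.xs) ≤ K := fun {V l} a b c => by
    have s := sqrt_nonneg (1 - p.xs)
    unfold Plt13.dt
    rw [div_le_iff₀ (by positivity)]
    rw [div_le_iff₀ (by linarith)] at hx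
    have i := mul_le_mul hx (show l * V ≤ V * √(1 - p.xs) + l by nlinarith [mul_nonneg a.le s])
      (by positivity) (by positivity)
    nlinarith [mul_nonneg (show 0 ≤ (1 - p.xs) * K by positivity)
      (show 0 ≤ V * √(1 - p.xs) + l by positivity)]
  have K2 : K ≤ K ^ 2 := by nlinarith
  unfold dn
  rw [den_eq le_rfl x1, e]
  have a := dt_nn N.Vp N.lp.le pu
  have b := dt_nn one_pos (sqrt_nonneg (p.u2 ν)) pu
  have c : 1 / (8 * K ^ 2) ≤ 1 / 2 := one_div_le_one_div_of_le two_pos (by linarith)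
  exact ⟨by linarith, by linarith [g N.Vp N.V1 N.lp, g one_pos le_rfl N.sp]⟩

/-- the sizes along `C1` -/
def Tk (K Λ : ℝ) (p : Pm) : Prop := 624 * p.n * p.v ≤ 1 / (p.n : ℝ) ^ 2 ∧ 1 ≤ p.n ∧ 0 < p.s ∧
  0 < p.c ∧ 1 ≤ Λ ∧ ∀ P, p.PlOk p.μe P → 0 ≤ p.sO P (p.om 1 p.ye) p.jf →
    Fm Λ K (K * log p.n * p.la p.μe ^ 2) (dC K p) 0 (p.la p.μe / 4) p P (sB K p P)

theorem tk (β : ℝ) (K : ℝ) (hK : 1 ≤ K) : Thr β fun _ _ Λ p => Pk K p → Tk K Λ p := by
  refine fun c0 C0 _ _ => ⟨4, fun A hA => ⟨1 / 2000, by norm_num, fun c hc c0' => ⟨c / 4,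
    by positivity, fun η hη η0 => ⟨max (8 * K ^ 2) (3 / (β ^ 2 - 1)), fun p H R => ?_⟩⟩⟩⟩
  obtain ⟨N, hx, hb, -⟩ := R
  obtain ⟨k1, k2⟩ := max_le_iff.1 H.K_le
  have N0 := H.N0
  have v0 := H.v0
  have m0 := μe0 H
  have lμ := lg_μe H
  have l0 := N.lp
  have l1 := H.log1
  have Λ0 := H.Λ0
  have Λ1 := H.Λ1
  have K2 : K ≤ K ^ 2 := by nlinarith
  have lK := H.lg_cst hK (by nlinarith)
  have lK2 := H.lg_cst (x := 8 * K ^ 2) (by nlinarith) k1
  have ll : logb p.n (p.la p.μe) = -(1 / 3) + 3 * c := by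
    rw [H.lg_la m0, lμ, min_eq_right (by linarith)]; ring
  have lu : logb p.n (u0 p p.μe) = -(2 / 9) + 2 * c := by
    rw [u0, logb_rpow_eq_mul_logb_of_pos l0, ll]; ring
  have A4 : (4 : ℝ) ≤ A := by exact_mod_cast hA
  have γ0 := H.rp0 (-(7 / 20 : ℝ))
  have l4 := H.lg_num (x := 4) (by norm_num) (by norm_num)
  have G0 : 0 < gE K p := by unfold gE; positivity
  have hg : 2 * gE K p + 2 * dC K p ^ 2 ≤ (p.n : ℝ) ^ (-(2 / 3) - 7 * p.c) := by
    have g0 := H.rp0 (-(2 / 3) - 7 * p.c)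
    have a : 4 * gE K p ≤ (p.n : ℝ) ^ (-(2 / 3) - 7 * p.c) := by
      refine H.le_of_lg (by positivity) g0 ?_
      rw [logb_mul (by norm_num) G0.ne', gE, logb_mul (by positivity) (by positivity),
        logb_mul (by positivity) (by positivity), logb_mul (by positivity) (by positivity),
        logb_pow, logb_pow, ll, lμ, H.lg_rp, H.hc]
      push_cast; linarith [H.lg_log.2]
    have b : 4 * (8 * K ^ 2 * (p.n : ℝ) ^ (-(7 / 20 : ℝ))) ^ 2 ≤
        (p.n : ℝ) ^ (-(2 / 3) - 7 * p.c) := by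
      refine H.le_of_lg (by positivity) g0 ?_
      rw [logb_mul (by norm_num) (by positivity), logb_pow, logb_mul (by positivity) γ0.ne',
        H.lg_rp, H.lg_rp, H.hc]
      push_cast; linarith
    have d : dC K p ^ 2 ≤ (8 * K ^ 2 * (p.n : ℝ) ^ (-(7 / 20 : ℝ))) ^ 2 :=
      pow_le_pow_left₀ (by positivity) (mul_le_mul_of_nonneg_right (by nlinarith) γ0.le) 2
    linarith
  refine ⟨?_, H.n1, H.s0, H.hc ▸ c0', Λ1, fun P HP hP => ⟨hK, k1, ?_, ?_, ?_, le_rfl, γ0.le, ?_, ?_, ?_,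
    hg, ?_, fun t ht => ?_, ?_, fun x a b => dn_min N a ?_, dn_xs N hK hx, n2.ge, ?_,
    1, ⟨zero_le_one, le_rfl, N, HP.g.ge, HP.g.le.trans zero_le_one, HP.x0,
      fun x => by rw [HP.rs, one_mul], fun x => by rw [HP.g, zero_mul, add_zero, one_mul]; rfl⟩,
    hg.trans ?_⟩⟩
  · refine H.le_of_lg (by positivity) (by positivity) ?_
    rw [logb_mul (by positivity) v0.ne', logb_mul (by norm_num) N0.ne', one_div, logb_inv, logb_pow,
      H.lg_n]
    push_cast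
    linarith [H.lg_v_le, (H.lg_num (x := 624) (by norm_num) (by norm_num)).2]
  · have b2 := H.β2
    have a : p.β ^ 2 * (K * p.μe) ≤ 1 / (p.n : ℝ) ^ η := by
      refine H.le_of_lg (by positivity) (by positivity) ?_
      rw [logb_mul (by positivity) (by positivity), logb_mul (by positivity) m0.ne', logb_pow,
        one_div, logb_inv, H.lg_rp, lμ]
      push_cast; linarith [H.lg_β.2]
    rw [← H.hβ, div_le_iff₀ (by linarith), mul_comm, ← div_le_iff₀ Λ0] at k2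
    have d := mul_le_mul_of_nonneg_left hb (show 0 ≤ p.β ^ 2 by linarith)
    rw [mul_sub, mul_one, mul_div_cancel₀ _ (by linarith : p.β ^ 2 ≠ 0)] at d
    have e : 3 / (p.n : ℝ) ^ η = 3 * (1 / (p.n : ℝ) ^ η) := by ring
    have e' : 2 / (p.n : ℝ) ^ η = 2 * (1 / (p.n : ℝ) ^ η) := by ring
    linarith
  · refine H.le_of_lg (by positivity) (H.rp0 _) ?_
    rw [logb_mul (by positivity) (by positivity), logb_mul (by positivity) (by positivity),
      logb_pow, ll, H.lg_rp]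
    push_cast; linarith [H.lg_log.2]
  · exact mul_le_mul_of_nonneg_right ((show 3 * K ^ 2 ≤ _ by nlinarith).trans
      (le_self_pow₀ Λ1 three_ne_zero)) γ0.le
  · exact H.le_of_lg (H.rp0 _) N.u0p (by rw [H.lg_rp, H.hc]; exact le_of_le_of_eq (by linarith) lu.symm)
  · refine H.le_of_lg (x := u0 p p.μe ^ 3) (pow_pos N.u0p _) (H.rp0 _) ?_
    rw [logb_pow, lu, H.lg_rp]; push_cast; linarith
  · show (p.n : ℝ) ^ (-(2 : ℝ)) ≤ _
    rw [one_div, ← rpow_neg_one]; exact rp_le H.n1 (by norm_num)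
  · show _ ≤ 2 * gE K p + 2 * dC K p ^ 2
    linarith [sq_nonneg (dC K p)]
  · show |ite _ _ _ + dC K p * min t (8 * K ^ 2)| ≤ dC K p * min t (8 * K ^ 2)
    rw [if_neg (not_le.2 ht), zero_add, abs_of_nonneg (mul_nonneg (by positivity)
      (le_min (hP.trans ht.le) (by positivity)))]
  · refine H.le_of_lg (H.rp0 _) (by positivity) ?_
    rw [logb_div l0.ne' (by norm_num), ll, H.lg_rp, H.hc]
    linarith
  · linarith [show 0 < 1 / (p.n : ℝ) ^ 2 by positivity]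
  · refine H.le_of_lg (x := p.μe * u0 p p.μe ^ 3) (mul_pos m0 (pow_pos N.u0p _)) (H.rp0 _) ?_
    rw [logb_mul m0.ne' (pow_pos N.u0p _).ne', logb_pow, lu, lμ, H.lg_rp]; push_cast; linarith
  · rw [one_pow, one_mul]
    exact le_add_of_le_of_nonneg (rp_le H.n1 (by linarith [H.hc])) (H.rp0 _).le

end SrP3

open SrP3 in
/-- **the output of SR along `C1`** -/
theorem srP1 {β : ℝ} (hβ : 1 < β) (hS : Sr.SrS2) : Loss β SrP1 := by
  refine (((phi_le hβ hS V17.varS (pk β hβ) (tk β)).mono fun Λ p h => ?_).loss1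
    (R := fun Λ p => 0 ≤ p.s ∧ SrP1 Λ p) fun x y p _ e h => ⟨h.1, fun P a t b m a' d =>
      (h.2 P a t b m a' d).trans (mul_le_mul_of_nonneg_right (mul_le_mul_of_nonneg_right e
        (pow_nonneg h.1 _)) (rpow_nonneg p.n.cast_nonneg _))⟩).mono fun _ _ _ h => h.2
  obtain ⟨K, -, R, ⟨t1, t2, t3, t4, t5, T⟩, h⟩ := h
  refine ⟨t3.le, fun P hP t ht m a hm => ?_⟩
  have M := R.2.2.2 t1 P hP t ht
  rw [c1M_cM, mul_assoc]
  refine (h _ _ _ _ _ _ _ M (T P hP (M.cl.s_nn p.jf)) m a hm).trans ?_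
  refine (mul_le_mul_of_nonneg_left (rp_le t2 (by linarith)) (by positivity)).trans
    (le_mul_of_one_le_left (mul_nonneg (by positivity) (rpow_nonneg p.n.cast_nonneg _)) t5)

end Crest.Agent.T156.Alt

end
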