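import Crest.Agent.T156.SrCB_3
import Crest.Agent.T156.Mem2_28
import Crest.Agent.T156.SprL_11
import Crest.Agent.T156.SrW_17
import Crest.Agent.T156.CostP_41

/-!
# Row 156, stage C: the output of SR on the models with a spread (helper41)
-/

set_option autoImplicit false
set_option linter.unusedSectionVars false

noncomputable section

namespace Crest.Agent.T156.Alt.Sp41

open Real Set Filter
open Mem37 Plt13 SrC3 Sr

/-- membership of all data `AlD` with one constant -/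
def RA (K : ℝ) (p : Pm) : Prop :=
  ∃ c0 C0 η, AlN K c0 C0 η p ∧ ∀ α P, AlD p α P → AlM K c0 C0 α p P

theorem rA {β : ℝ} (hβ : 1 < β) : Cst β RA := fun c0 C0 h0 h1 => by
  obtain ⟨K, K1, H⟩ := memAl β hβ c0 C0 h0 h1
  exact ⟨K, K1, fun A hA c hc hc' => (H K le_rfl A hA c hc hc').mono
    fun _ h p e1 e2 e3 e4 hp => ⟨c0, C0, _, h p e1 e2 e3 e4 hp⟩⟩

/-- the W variance stays away from `1` -/
theorem b_low {β : ℝ} (hβ : 1 < β) : Sml β fun Λ p => 1 + 2 / Λ ≤ p.b 1 p.ye := by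
  have b1 : 0 < β ^ 2 - 1 := by nlinarith
  refine Sml.glueC hβ (p1 β hβ) Sml.triv fun C hC c0 C0 _ _ => ⟨0, fun A _ =>
    ⟨1, one_pos, fun c _ hc => ⟨c, hc, fun η _ _ =>
      ⟨(4 + 2 * C * β ^ 2) / (β ^ 2 - 1), fun p H G _ => ?_⟩⟩⟩⟩
  have a := (G 1 p.ye H.mem_end).2.2.1.2
  have Λ0 := H.Λ0
  have m0 := H.μ_pos H.mem_end
  have k := H.K_le
  have m : p.μ 1 p.ye * (p.n : ℝ) ^ η ≤ 1 := H.le_of_lg (by positivity) one_pos (by
    lg_norm
    rw [H.lg_μ_eq H.mem_end, logb_one, H.lg_ye, H.lg_rp]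
    linarith [H.η_le, H.c_pos])
  rw [H.hβ, sub_le_comm, le_div_iff₀ (by positivity)] at a
  rw [div_le_iff₀ b1] at k
  have e : 2 / (p.n : ℝ) ^ η ≤ β ^ 2 - 1 - C * p.μ 1 p.ye * β ^ 2 := by
    rw [div_le_iff₀ Λ0]
    nlinarith [mul_le_mul_of_nonneg_left m (show 0 ≤ C * β ^ 2 by positivity),
      show 0 ≤ C * β ^ 2 by positivity]
  linarith

theorem dt_le' {V l u : ℝ} (hV : 0 < V) (hl : 0 < l) (hu : 0 < u) :
    Plt13.dt V l u ≤ V / (2 * u) := by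
  unfold Plt13.dt
  rw [div_le_div_iff₀ (by positivity) (by positivity)]
  nlinarith [show 0 ≤ V * (u * (V * √u)) by positivity]

theorem dn_xs {K μ : ℝ} {p : Pm} (N : Nm p μ) (K0 : 0 < K) (hx : 1 / K ≤ 1 - p.xs) :
    dn p μ p.xs ≤ 1 / 2 + K := by
  have u : 0 < 1 - p.xs := lt_of_lt_of_le (by positivity) hx
  have a : 1 / (2 * (1 - p.xs)) ≤ K / 2 := by
    rw [div_le_iff₀ K0] at hx
    rw [div_le_iff₀ (by positivity)]; linarith
  have b := (dt_le' N.Vp N.lp u).trans (div_le_div_of_nonneg_right N.V1 (by positivity))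
  have c := dt_le' one_pos N.sp u
  have d : db (p.la μ) (u0 p μ) = 1 / 2 := by
    have e := N.fb_u0
    have u0p := N.u0p
    have s := sqrt_pos.2 u0p
    unfold fb at e
    rw [div_eq_iff s.ne'] at e
    unfold db
    rw [e]; field_simp
  rw [dn, den_eq le_rfl N.xs1, sub_self, zero_add, d]
  linarith

section inst

variable {K c0 C0 η α : ℝ} {p : Pm} {P : Pl} (N : AlN K c0 C0 η p) (D : AlD p α P)
  (M : AlM K c0 C0 α p P)
include N D M

/-- the structural part -/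
theorem mc (r0 : 0 < p.r) (y1 : p.ye ≤ 1) (k0 : 0 < p.κ) (k1 : p.κ ≤ 1)
    (ms : ∀ i < P.I, P.x (i + 1) - P.x i ≤ (p.n : ℝ) ^ (-(2 : ℝ))) (hγ : 2 * P.γ ≤ 1 - p.xs) :
    Mc K (5 * K * p.la p.μe ^ 2 * log p.n) 0 P.γ p P 0 (p.alS K α P) := by
  have G := M.mem.geo
  have e2 : (p.n : ℝ) ^ (-(2 : ℝ)) = 1 / (p.n : ℝ) ^ 2 := by rw [rpow_neg N.nm.np.le]; norm_num
  refine ⟨⟨_, _, _, _, _, _, _, M.mem⟩, M.cl, M.cei, rfl, rfl, rfl, rfl, rfl, rfl, rfl, rfl, rfl,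
    rfl, rfl, r0, N.ry.2, y1, k0, k1, D.hs, fun k _ _ => ?_, ?_, ?_, fun i hi => e2 ▸ ms i hi,
    e2 ▸ D.e2, ?_, fun i hi => p.γ_lsp _ D.g0 G.xs_nn hγ (G.xs_le hi) (G.x_le1 hi),
    N.x_lt D le_rfl, le_rfl, fun _ _ => rfl, fun _ _ => by simp, fun _ => by simp⟩
  · rcases le_or_gt (p.xP P k) (1 / (2 * K)) with a | a
    · exact Or.inl (by rw [D.rs, N.rF0 a, mul_zero])
    refine Or.inr ?_
    rcases lt_or_ge k p.J with b | b
    · rw [sP_lo b.le]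
      exact N.ms_top b (a.trans_le ((G.xP_le k).trans_eq (zP_lo b)))
    · exact le_antisymm (M.m1 ▸ M.mem.ms1 _) (M.mJ ▸ M.mem.msm (G.sP_J ▸ G.sP_mono b))
  · refine le_trans (Finset.sum_le_sum fun k _ => mul_le_mul_of_nonneg_left ?_
      (sub_nonneg.2 (G.zP_mono (Nat.sub_le _ _)))) (N.sum_rF D N.jJ)
    rw [D.rs, mul_pow]
    exact mul_le_of_le_one_left (sq_nonneg _) (pow_le_one₀ D.a0 D.a1)
  · rw [D.rs]
    exact (mul_le_mul_of_nonneg_left (abs_le.1 (N.nm.abs_rF_log D.shg.hi)).2 D.a0).trans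
      (mul_le_of_le_one_left (by linarith [N.nm.l1]) D.a1)
  · rw [G.sP_Jp, G.sP_J, add_sub_cancel_left]
    exact mul_le_of_le_one_right D.g0 (G.lsp_mem le_rfl).2

set_option maxHeartbeats 800000 in
/-- the sizes -/
theorem fm {β c0' C0' c η' K' : ℝ} {A : ℕ} (H : Reg β c0' C0' A c η' K' p) (hη : 3 * η' ≤ c)
    (KΛ : 8 * K ^ 2 ≤ (p.n : ℝ) ^ η') (b1 : 1 + 2 / (p.n : ℝ) ^ η' ≤ p.b 1 p.ye)
    (hγ : P.γ = (p.n : ℝ) ^ (-(7 / 20 : ℝ))) :
    Fm ((p.n : ℝ) ^ η') K (5 * K * p.la p.μe ^ 2 * log p.n) 0 P.γ (P.γ / (2 * p.lL)) p P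
      (p.alS K α P) := by
  have K1 := N.K1
  have K0 := N.K0
  have N0 := H.N0
  have μ0 := N.μ0
  have l0 := N.nm.lp
  have L := p.lL_ge
  have L0 : 0 < log (p.n : ℝ) := by linarith [H.log1]
  have γ0 : 0 < P.γ := hγ ▸ H.rp0 _
  have lγ : logb p.n P.γ = -(7 / 20) := hγ ▸ H.lg_rp _
  have lK := H.lg_cst (x := K) (by linarith) (by nlinarith)
  have l5 := H.lg_num (x := 5) (by norm_num) (by norm_num)
  have lL := H.lg_log
  have η0 := H.η_pos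
  have cl := H.c_le
  have lm : logb p.n p.μe = -(7 * c) := by
    rw [Pm.μe, H.lg_μ_eq H.mem_end, logb_one, H.lg_ye]; ring
  have ll : logb p.n (p.la p.μe) = -(1 / 3) + 3 * c := by
    rw [H.lg_la μ0, lm, min_eq_right (by linarith)]; ring
  have eU : (p.alS K α P).u0 = p.l0' P.γ := if_neg γ0.ne'
  have w := p.l0'_pos P.γ
  have w1 := p.γ_l0' P.γ
  have hl : (p.n : ℝ) ^ (-(7 / 20) - p.c) ≤ P.γ / (2 * p.lL) := by
    refine le_trans (H.le_of_lg (H.rp0 _) (show 0 < P.γ / (36 * log p.n) by positivity) ?_)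
      (div_le_div_of_nonneg_left γ0.le (by linarith) (by linarith [p.lL_le N.nm.n2]))
    rw [H.lg_rp, H.hc]
    lg_norm
    linarith [(H.lg_num (x := 36) (by norm_num) (by norm_num)).2]
  have n21 : (p.n : ℝ) ^ (-(2 : ℝ)) ≤ 1 / p.n := by
    rw [one_div, ← rpow_neg_one]; exact Pre29.rp_le H.n1 (by norm_num)
  have x1 := N.top_le le_rfl
  have g1 : P.γ ≤ 1 := hγ ▸ rpow_le_one_of_one_le_of_nonpos H.N1.le (by norm_num)
  have eD : ∀ x, (p.alS K α P).den x = α * dn p p.μe x + P.γ * p.ld P.γ x := fun _ => rfl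
  refine ⟨by linarith, KΛ, b1, ?_, by positivity, γ0.le, hγ.le, ?_, ?_, n21, ?_, ?_,
    fun t ht => ?_, hl, fun x a b => ?_, ?_, le_of_eq ?_, ?_,
    α, ⟨D.a0, D.a1, N.nm, D.g0, g1, D.x0, D.rs, eD⟩, le_add_of_le_of_nonneg ?_ (H.rp0 _).le⟩
  · refine H.le_of_lg (by positivity) (H.rp0 _) ?_
    rw [H.lg_rp]
    lg_norm
    linarith
  · rw [eU]
    refine hl.trans ?_
    rw [div_le_iff₀ (by linarith)]
    nlinarith
  · rw [eU]
    refine (pow_le_pow_left₀ w.le (N.l0'_le hγ.le) 3).trans ?_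
    refine H.le_of_lg (pow_pos N.nm.u0p _) (H.rp0 _) ?_
    rw [H.lg_rp, u0]
    lg_norm
    linarith
  · refine (show p.alG2 K α ≤ 5 * K * (p.μe * p.la p.μe) ^ 2 * log p.n from ?_).trans
      (H.le_of_lg (by positivity) (H.rp0 _) ?_)
    · have a0 := D.a0
      have := mul_le_of_le_one_left μ0.le D.a1
      unfold Pm.alG2
      gcongr
    · rw [H.lg_rp, H.hc]
      lg_norm
      linarith
  · rw [sq, mul_zero]
    change 0 ≤ p.alG2 K α
    unfold Pm.alG2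
    positivity
  · change |(if t ≤ _ then _ else (0 : ℝ))| ≤ _
    rw [if_neg (not_le.2 ht), abs_zero, zero_mul]
  · have c1 : p.l1' ≤ 1 - x := by
      refine ((p.l1'_le3 H.n1).trans ?_).trans b
      rw [rpow_neg N0.le, rpow_ofNat, ← one_div]
      exact one_div_le_one_div_of_le (by positivity) (pow_le_pow_right₀ H.N1.le (by norm_num))
    have c2 := mul_le_mul_of_nonneg_left (p.ld_min P.γ a c1).1 γ0.le
    have c3 : 0 ≤ min (x - p.xs + p.l0' P.γ) (1 - x) :=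
      le_min (by linarith) (p.l1'_pos.le.trans c1)
    have c4 := mul_nonneg (mul_nonneg D.a0 (N.nm.den0 x).le) c3
    rw [eD, eU, add_mul, div_eq_mul_one_div]
    linarith
  · have c1 := mul_le_of_le_one_left (N.nm.den0 p.xs).le D.a1
    have c2 := mul_nonneg D.a0 (N.nm.den0 p.xs).le
    have c3 := dn_xs N.nm K0 x1
    have u : 0 < 1 - p.xs + p.l1' := by linarith [p.l1'_pos, N.nm.xs1]
    have e0 : p.l0' P.γ = 64 * P.γ / p.lL := p.l0'_eq (by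
      refine (one_div_le_one_div_of_le N0 (by linarith)).trans ?_
      rw [hγ, one_div, ← rpow_neg_one]; exact Pre29.rp_le H.n1 (by norm_num))
    have e1 : P.γ * p.ld P.γ p.xs = 1 / 64 + P.γ / (1 - p.xs + p.l1') / p.lL := by
      rw [p.ld_eq _ le_rfl N.nm.xs1.le, sub_self, zero_add, e0]
      field_simp
    have c4 : 0 ≤ P.γ / (1 - p.xs + p.l1') / p.lL := by positivity
    have c5 : P.γ / (1 - p.xs + p.l1') / p.lL ≤ K := by
      refine (div_le_self (by positivity) (by linarith)).trans ?_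
      rw [div_le_iff₀ K0] at x1
      rw [div_le_iff₀ u]
      nlinarith [p.l1'_pos]
    have c6 : 1 / (8 * K ^ 2) ≤ 1 / 64 := one_div_le_one_div_of_le (by norm_num) (by nlinarith)
    rw [eD, e1]
    change 1 / (8 * K ^ 2) ≤ _ ∧ _ ≤ 8 * K ^ 2
    have c7 : 4 * K ≤ 8 * K ^ 2 := by nlinarith only [K1]
    constructor <;> linarith
  · change _ = (p.n : ℝ) ^ (-(2 : ℝ))
    rw [rpow_neg N0.le]; norm_num
  · rw [eU]
    refine (mul_le_mul_of_nonneg_left (pow_le_pow_left₀ w.le (N.l0'_le hγ.le) 3) μ0.le).trans ?_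
    refine H.le_of_lg (mul_pos μ0 (pow_pos N.nm.u0p _)) (H.rp0 _) ?_
    rw [H.lg_rp, u0]
    lg_norm
    linarith
  · refine le_of_eq_of_le (show p.alG2 K α = α ^ 2 * (5 * K * (p.μe * p.la p.μe) ^ 2 * log p.n) by
      unfold Pm.alG2; ring) (mul_le_mul_of_nonneg_left
        (H.le_of_lg (by positivity) (H.rp0 _) ?_) (sq_nonneg _))
    rw [H.lg_rp]
    lg_norm
    linarith

omit M in
/-- the mesh of the labels -/
theorem mesh {β c0' C0' c η' K' : ℝ} {A : ℕ} (H : Reg β c0' C0' A c η' K' p) (hA : 3 ≤ A)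
    (hγ : P.γ = (p.n : ℝ) ^ (-(7 / 20 : ℝ))) {i : ℕ} (hi : i < P.I) :
    P.x (i + 1) - P.x i ≤ (p.n : ℝ) ^ (-(2 : ℝ)) := by
  have N0 := H.N0
  have v0 := H.v0
  have L0 : 0 < log (p.n : ℝ) := by linarith [H.log1]
  have L : 0 < 2 * p.lL := by linarith [p.lL_pos]
  have γ0 : 0 < P.γ := hγ ▸ H.rp0 _
  have A3 : (3 : ℝ) ≤ A := by exact_mod_cast hA
  have a := mul_le_mul_of_nonneg_left (p.lsp_inc P.γ N.nm.x0.le (D.shg.ge hi.le) (D.xm i hi).le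
    (N.x_lt D hi).le) γ0.le
  have b := (D.st i hi).2
  rw [D.rs, D.rs, ← mul_sub] at b
  have d : P.γ * ((P.x (i + 1) - P.x i) / (2 * p.lL)) ≤ 12 * p.v := by
    linarith [mul_nonneg D.a0 (N.drF D hi)]
  rw [← mul_div_assoc, div_le_iff₀' L] at d
  refine le_of_mul_le_mul_left (d.trans ((show _ ≤ 432 * log p.n * p.v by
    linarith only [mul_le_mul_of_nonneg_right (p.lL_le N.nm.n2) v0.le]).trans
      (H.le_of_lg (by positivity) (by positivity) ?_))) γ0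
  rw [hγ]
  lg_norm
  rw [H.lg_n]
  linarith [H.lg_log.2, (H.lg_num (x := 432) (by norm_num) (by norm_num)).2, H.lg_v_le, H.η_le,
    H.c_le]

end inst

/-- output of SR for all data `AlD` with the full spread on a fine grid -/
def SrA (_Λ : ℝ) (p : Pm) : Prop := ∃ K, 1 ≤ K ∧ RA K p ∧ ∀ α Q, AlD p α Q →
  Q.γ = (p.n : ℝ) ^ (-(7 / 20 : ℝ)) → ∀ m a, p.InW m a →
    p.ph2 Q (p.tst Q p.ye) m a ≤ p.s ^ 3 * (p.n : ℝ) ^ (2 / 3 * p.c - 1 / 2)

theorem srA {β : ℝ} (hβ : 1 < β) (hS : SrS2) : Sml β SrA := by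
  refine Sml.glue' hβ ((phi_le hβ hS V17.varS (rA hβ) (T := fun K Λ _ => 8 * K ^ 2 ≤ Λ)
    fun K _ c0 C0 _ _ => ⟨0, fun A _ => ⟨1, one_pos, fun c _ _ => ⟨1, one_pos, fun η _ _ =>
      ⟨8 * K ^ 2, fun p H _ => H.K_le⟩⟩⟩⟩).and (b_low hβ)) 3 one_pos 3 ?_
  intro c0 C0 A c η _ _ _ _
  refine ⟨1, fun p H hA _ hη ⟨⟨K, K1, R, T, h⟩, b⟩ => ⟨K, K1, R, fun α Q D hγ m a w => ?_⟩⟩
  obtain ⟨d0, D0, η', N, M⟩ := R
  have hη' : 3 * η ≤ c := by exact_mod_cast hη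
  have g : 2 * Q.γ ≤ 1 - p.xs := by
    have a1 := N.la
    have a2 := N.gl
    have a3 := N.top_le le_rfl
    have a4 := mul_le_mul_of_nonneg_left N.C1 (mul_pos N.nm.lp N.K0).le
    rw [div_le_iff₀ N.K0] at a3
    rw [hγ]
    refine le_of_mul_le_mul_right ?_ N.K0
    nlinarith [mul_le_mul_of_nonneg_right a2 N.K0.le, mul_pos N.nm.lp N.K0]
  exact h _ _ _ _ Q 0 _ (mc N D (M α Q D) H.r0 H.ye1 H.κ0 H.κ1 (fun _ => mesh N D H hA hγ) g)
    (fm N D (M α Q D) H hη' T b hγ) m a w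

/-- **`SrP2`** -/
theorem srP2 {β : ℝ} (hβ : 1 < β) (hS : SrS2) : Loss β SrP2 := by
  refine (Sml.loss1 (R := fun _ p => ∀ Λ, 1 ≤ Λ → SrP2 Λ p)
    (Sml.glue' hβ (srA hβ hS) 2 one_pos 1 ?_) fun _ _ _ _ _ H => H).mono fun x _ hx H => H x hx
  intro c0 C0 A c η _ _ _ _
  refine ⟨1, fun p H _ _ _ ⟨K, _, ⟨_, _, _, N, _⟩, h⟩ Λ Λ1 α α' P a0 a1 a2 a3 hP m a w => ?_⟩
  have s0 := H.s0
  have N0 := H.N0
  refine (h α' _ (alD_alOk N hP a0.le a1 a2 a3) rfl m a w).trans ?_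
  rw [mul_assoc]
  exact (mul_le_mul_of_nonneg_left (Pre29.rp_le H.n1 (by linarith [H.c_pos, H.hc]))
    (by positivity)).trans (le_mul_of_one_le_left (by positivity) Λ1)

/-- output of SR on the end model -/
def SrE (_Λ : ℝ) (p : Pm) : Prop := ∀ P, p.SpOk (7 / 20) P → ∀ m a, p.InW m a →
  p.ph2 P (p.tst P p.ye) m a ≤ p.s ^ 3 * (p.n : ℝ) ^ (2 / 3 * p.c - 1 / 2)

theorem srE {β : ℝ} (hβ : 1 < β) (hS : SrS2) : Sml β SrE :=
  (srA hβ hS).mono fun _ _ ⟨_, _, ⟨_, _, _, N, _⟩, h⟩ P hP => h 0 P (alD_spOk N hP) hP.g'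

end Crest.Agent.T156.Alt.Sp41

end
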