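import Crest.Agent.T156.SprR_59
import Crest.Agent.T156.SprJ_41
import Crest.Agent.T156.SprLG_11
import Crest.Agent.T156.SrP1_3
import Crest.Agent.T156.SrP2_41
import Crest.Agent.T156.LDefX_64

/-!
# Row 156 (helper59): stage C from the global energy bound and the output of SR
-/

set_option autoImplicit false

noncomputable section

namespace Crest.Agent.T156.Alt

theorem sprS_L {β : ℝ} (hβ : 1 < β) (hT : L69.TL1) (hS : Sr.SrS2) : Gain β (SprS (7 / 20)) :=
  sprS_red hβ (Cost41.c1S hβ (sprL1_of hβ hT (srP1 hβ hS))) (sprL2_of hβ hT (Sp41.srP2 hβ hS))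

theorem sprS_x {β : ℝ} (hβ : 1 < β) (hT : L69.TL1x) (hS : Sr.SrS2) : Gain β (SprS (7 / 20)) :=
  sprS_L hβ (L69.tl1_of_x hT) hS

end Crest.Agent.T156.Alt

end
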