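import Crest.Agent.T156.SRDef_19
import Crest.Agent.T156.SrM_63
import Crest.Agent.T156.ClReg_29

/-!
# Row 156, SR: the double step `DblG` (helper63)
-/

set_option autoImplicit false

noncomputable section

namespace Crest.Agent.T156.Alt.Sr

open Real Finset Filter
open Crest.Agent.T156.Alt.Gu71

theorem cl_n3 : CL fun _ _ S _ _ _ => 3 ≤ S.n := fun _ =>
  .of_forall fun _ _ _ _ _ => (eventually_ge_atTop 3).mono fun _ h _ _ _ _ e _ _ _ _ => e ▸ h

theorem SH.E51 {E l Ys Y : ℝ} {S : Sc} {M : Md} (H : SH E S M l Ys Y) (E1 : 1 ≤ E) (n1 : 1 ≤ S.n) :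
    0 < Y ∧ E ^ 51 ≤ S.n := by
  have N1 : (1 : ℝ) ≤ S.n := by exact_mod_cast n1
  have p : 0 < (S.n : ℝ) ^ (-(1 : ℝ) / 2) := by positivity
  refine ⟨p.trans_le H.Y0, ?_⟩
  have a : E ^ 200 * (S.n : ℝ) ^ (-(1 : ℝ) / 2) ≤ 1 :=
    (mul_le_mul_of_nonneg_left H.Y0 (by positivity)).trans
      (H.Y1.trans (rpow_le_one_of_one_le_of_nonpos N1 (by norm_num)))
  have b : (S.n : ℝ) ^ (-(1 : ℝ)) ≤ (S.n : ℝ) ^ (-(1 : ℝ) / 2) :=
    rpow_le_rpow_of_exponent_le N1 (by norm_num)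
  rw [rpow_neg_one] at b
  have c : E ^ 51 * (S.n : ℝ)⁻¹ ≤ 1 :=
    (mul_le_mul (pow_le_pow_right₀ E1 (by norm_num)) b (by positivity) (by positivity)).trans a
  rwa [← div_eq_mul_inv, div_le_one (by positivity)] at c

theorem dblG : DblG := fun hI hR => by
  unfold InvS SR at hI
  unfold RemS SR at hR
  unfold DblS SR
  refine ((hI.and hR).and cl_n3).mono ?_
  rintro E Λ S M m a E1 - hC hm ⟨⟨hI, hR⟩, n3⟩ l Ys Y c D H V X hD u h i N B h0 h1 h2 h3 h4 hN hP hB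
    A w ξ G hG hA hE
  obtain ⟨i1, i2, -, i4, -, i6⟩ := hI l Ys Y c D H V X hD
  have rem := hR l Ys Y c D H V X hD
  obtain ⟨Y0, e51⟩ := H.E51 E1 hC.n1
  have a0 := (hm.amax0 hC.n1).1
  have LN := i2 u N hN
  obtain ⟨LG, Kc⟩ := i6 u h i N G h0.le h2 h4 hN hG
  have Lc := i2 _ _ Kc
  have m0 := LN.m0
  set ρ := rul E S Y c m a with hρ
  have path : ∀ j ≤ i, KC E S M Y c D (u + j * h) (eu ρ h N j) := fun j hj => by
    induction j with
    | zero => simpa [eu] using hN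
    | succ j ih =>
      have := i4 _ h _ h0.le (by
        have := cast_le h0.le hj
        push_cast at this
        linarith) (ih (by omega))
      rw [show u + ((j + 1 : ℕ) : ℝ) * h = u + j * h + h by push_cast; ring]
      exact this
  have hd := Kc.2.1
  obtain ⟨u0, -, F, hF, rfl⟩ := hN
  have i0 : 0 ≤ (i : ℝ) * h := by positivity
  rw [min_eq_left (by linarith : u ≤ D)] at hF
  set N := sh M u fun k => F k + (u - min u D) * M.ct S k with hNe
  have Rl' : Rl ρ (E ^ 51) N m a := fun u' F' L => by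
    rw [hNe, sh_sh] at L ⊢
    exact i1 _ _ L
  have d1 : (i : ℝ) * h ≤ N.d 0 := by simp only [hNe, sh]; linarith
  have d2 : (i : ℝ) * h ≤ (sh N 0 G).d 0 := by simp only [hNe, sh]; linarith
  have Le := eu_lg LN Rl' h0.le i d1
  have vp := V_path LN LG rfl rfl Rl' h0.le i d1 d2
  have jN := hC.i4
  have wN : ∀ k ∈ A, k < N.N ∧ ξ k < N.N ∧ 0 ≤ w k ∧ w k ≤ N.H (k + 1) - N.H k := fun k hk => by
    obtain ⟨p1, p2, -, p4, p5, p6⟩ := hA k hk
    refine ⟨p2.trans jN, p4.trans jN, p5, ?_⟩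
    have q1 := hF.flr k p1 p2
    have q2 := hC.leg.Hm (Nat.le_succ k)
    simp only [hNe, sh, min_eq_left (by linarith : u ≤ D), sub_self, zero_mul, add_zero]
    linarith
  have lo := (Mv63.mv_map m0 LN.toLeg LG.toLeg a0 a0.le (M' := sh N 0 G)
    ⟨rfl, rfl, by simp only [sh, sub_zero]⟩ wN fun j _ => by
      have := hE j
      simp only [sh] at this ⊢
      linarith).1
  have ac := (acc_dp LN Rl' h0.le d1).mono
  rw [eu_eq] at Le
  have hi := (Mv63.mv_map m0 Le.toLeg Lc.toLeg a0 a0.le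
    ⟨rfl, rfl, by simp only [co, sh, sub_zero]⟩ (A := A) (w := w) (ξ := ξ) (fun k hk => by
      obtain ⟨p1, p2, p3, p4⟩ := wN k hk
      refine ⟨p1, p2, p3, ?_⟩
      have := ac (Nat.le_succ k)
      simp only [co, sh] at p4 ⊢
      linarith) fun j _ => by
      have := hE j
      simp only [co, sh] at this ⊢
      linarith).2
  refine ⟨(co ρ h N (sh N 0 G) i).rb m a, Md67.rb_mono m0,
    fun k => ⟨Md67.rb_nonneg m0 k, Md67.rb_le_one m0 k⟩, hB _ Kc, ?_⟩
  have sm : ∑ j ∈ range i, h * Rem (eu ρ h N j) m a (ρ (eu ρ h N j)) ≤ i * h * (E ^ 93 * Y) := by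
    calc _ ≤ ∑ _j ∈ range i, h * (E ^ 93 * Y) := sum_le_sum fun j hj =>
          mul_le_mul_of_nonneg_left (rem _ _ (path j (mem_range.1 hj).le)
            (hP j (mem_range.1 hj) _ (path j (mem_range.1 hj).le))) h0.le
      _ = _ := by rw [sum_const, card_range, nsmul_eq_mul, mul_assoc]
  have N3 : (3 : ℝ) ≤ S.n := by exact_mod_cast n3
  have m2 : (m : ℝ) ≤ 2 * S.n := by exact_mod_cast hm.m2
  have ex : exp (m * h * (5 + 10 * E ^ 51)) ≤ 4 := by
    have p : m * h * (5 + 10 * E ^ 51) ≤ 2 * S.n * (1 / (S.n : ℝ) ^ 6) * (15 * S.n) := by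
      gcongr
      linarith
    have q : 2 * S.n * (1 / (S.n : ℝ) ^ 6) * (15 * S.n) ≤ 1 := by
      rw [show 2 * S.n * (1 / (S.n : ℝ) ^ 6) * (15 * S.n) = 30 / (S.n : ℝ) ^ 4 by
        field_simp; norm_num, div_le_one (by positivity)]
      exact le_trans (by norm_num) (pow_le_pow_left₀ (by norm_num) N3 4)
    exact (exp_le_exp.2 (p.trans q)).trans (exp_one_lt_d9.le.trans (by norm_num))
  have M0 : (0 : ℝ) < m := by exact_mod_cast m0
  have cost : m * exp (m * h * (5 + 10 * E ^ 51)) / 4 *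
      ∑ j ∈ range i, h * Rem (eu ρ h N j) m a (ρ (eu ρ h N j)) ≤ m / 2 * (4 * u * E ^ 95 * Y) := by
    calc _ ≤ m * exp (m * h * (5 + 10 * E ^ 51)) / 4 * (i * h * (E ^ 93 * Y)) := by gcongr
      _ ≤ m * 4 / 4 * (2 * E ^ 2 * u * (E ^ 93 * Y)) := by gcongr
      _ = _ := by ring
  rw [eu_eq] at vp
  refine le_of_mul_le_mul_left ?_ (show 0 < (m : ℝ) / 2 by positivity)
  rw [mul_add]
  exact lo.trans (vp.trans (add_le_add hi cost))

end Crest.Agent.T156.Alt.Sr
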