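import Crest.Agent.T156.SrInv_16
import Crest.Agent.T156.SrCap_71

/-!
Row 156 (helper71): `InvS` without hypotheses.
-/

namespace Crest.Agent.T156.Alt.Sr

theorem capS' : CapS := capS

theorem invS : InvS := invS_of capS'

end Crest.Agent.T156.Alt.Sr
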