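import Crest.Agent.T156.SrCap_71
import Crest.Agent.T156.SRDef2_19
import Crest.Agent.T156.Ht_31

/-!
# Row 156, SR: the linear range without a priori bound (helper34)

From a model `sh M u F` the W variance is lowered to `1 / 2` with the deposit of the reference
overlap: the residual does not change and the total mark at `Jp` stays bounded.
-/

set_option autoImplicit false

noncomputable section

namespace Crest.Agent.T156.Alt.Lin34

open MeasureTheory Real Finset Filter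
open Crest.Agent.T156.Alt.Gu71 (sh dep Dp Rem Fl Nr)
open Crest.Agent.T156.Alt.Md67 (Lg)

variable {S : Sc} {M N : Md} {m : ℕ} {a : ℝ}

/-- the reference as a deposit -/
def qt (M : Md) (S : Sc) (k : ℕ) : ℝ := if k ≤ S.jl then 0 else M.q (min k M.N)

theorem qt_dp (h : Cl S M) : Dp (qt M S) 1 := by
  refine ⟨if_pos (Nat.zero_le _), fun i j hij => ?_, fun k => ?_⟩
  · unfold qt
    split_ifs with h1 h2 h2
    · exact le_rfl
    · exact h.q_nn (min_le_right _ _)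
    · omega
    · exact h.q_mono (min_le_min_right _ hij) (min_le_right _ _)
  · unfold qt
    split_ifs
    · exact zero_le_one
    · exact Cl.q_le_one _

theorem sum_eq (G : Lg N m a) {j p : ℕ} (f : ℕ → ℝ) :
    ∑ k ∈ Ioc j p, N.dz m a k * f k = ∑ k ∈ Ioc j p, N.dx k * f k :=
  sum_congr rfl fun k hk => by
    rw [Md67.dz_up G.toLeg (by have := (mem_Ioc.1 hk).1; omega), Md.dx]

theorem ph_eq (G : Lg N m a) : Ht31.Ph N m a S.jl S.Jp = N.Phi S m a := sum_eq G _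

theorem g2_eq (G : Lg N m a) : Ht31.G2 N m a S.jl S.Jp = N.sq S N.G := sum_eq G _

theorem phi_nn (G : Lg N m a) : 0 ≤ N.Phi S m a := by
  rw [← ph_eq G]
  exact sum_nonneg fun k _ => mul_nonneg (G.dz_nonneg k) (sq_nonneg _)

theorem vp_le (G : Lg N m a) {j : ℕ} (hj : j ≤ N.N) : Ht31.Vp N m a 2 ≤ Fl N m a j := by
  have nn : ∀ k, 0 ≤ N.dz m a k * N.E2 m a (fun r => (r - N.rb m a k) ^ 2) k := fun k =>
    mul_nonneg (G.dz_nonneg k) (Md67.E2_nonneg (fun _ _ => sq_nonneg _) k)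
  have h1 : Ht31.Vp N m a 2 ≤ ∑ k ∈ range (N.N + 1),
      N.dz m a k * N.E2 m a (fun r => (r - N.rb m a k) ^ 2) k :=
    sum_le_sum_of_subset_of_nonneg (range_subset_range.2 (Nat.le_succ _)) fun k _ _ => nn k
  refine h1.trans ?_
  rw [range_eq_Ico, ← sum_Ico_consecutive _ (Nat.zero_le (j + 1)) (Nat.add_le_add_right hj 1),
    ← range_eq_Ico, Ico_add_one_add_one_eq_Ioc, Fl]
  refine add_le_add (sum_le_sum fun k _ => mul_le_mul_of_nonneg_left ?_ (G.dz_nonneg k)) le_rfl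
  have h2 := Md67.E2_sq_expand (M := N) (m := m) (a := a) (N.rb m a k) k
  nlinarith [sq_nonneg (N.rb m a k)]

/-- `Φ` moves little with the pair laws -/
theorem phi_lip {N' : Md} (G : Lg N m a) (hS : S.Jp ≤ N.N) (hz : N'.z = N.z) (hq : N'.q = N.q)
    (q01 : ∀ k ≤ N.N, 0 ≤ N.q k ∧ N.q k ≤ 1) {ε : ℝ} (hε : ∀ k, |N'.rb m a k - N.rb m a k| ≤ ε) :
    N.Phi S m a ≤ N'.Phi S m a + 2 * ε := by
  have e0 : 0 ≤ ε := (abs_nonneg _).trans (hε 0)
  have h1 : N'.Phi S m a = ∑ k ∈ Ioc S.jl S.Jp, N.dz m a k * (N'.rb m a k - N.q k) ^ 2 := by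
    rw [sum_eq G]
    simp only [Md.Phi, Md.sq, Md.dx, Md.del, hz, hq]
  have h2 := Ht31.mass G (s := Ioc S.jl S.Jp) (fun k hk => mem_range.2 (by
    have := (mem_Ioc.1 hk).2; omega)) (c := 2 * ε) (by positivity)
  rw [h1, ← ph_eq G, Ht31.Ph]
  refine le_trans ?_ (add_le_add le_rfl h2)
  rw [← sum_add_distrib]
  refine sum_le_sum fun k hk => ?_
  rw [← mul_add]
  refine mul_le_mul_of_nonneg_left ?_ (G.dz_nonneg k)
  obtain ⟨q0, q1⟩ := q01 k ((mem_Ioc.1 hk).2.trans hS)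
  have r0 := Md67.rb_nonneg (M := N) (a := a) G.m0 k
  have r1 := Md67.rb_le_one (M := N) (a := a) G.m0 k
  have s0 := Md67.rb_nonneg (M := N') (a := a) G.m0 k
  have s1 := Md67.rb_le_one (M := N') (a := a) G.m0 k
  obtain ⟨e1, e2⟩ := abs_le.1 (hε k)
  rw [Md.del]
  have e3 : |N.rb m a k + N'.rb m a k - 2 * N.q k| ≤ 2 := abs_le.2 ⟨by linarith, by linarith⟩
  have e4 : |N.rb m a k - N'.rb m a k| ≤ ε := abs_le.2 ⟨by linarith, by linarith⟩
  have e5 := (le_abs_self _).trans ((abs_mul _ _).le.trans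
    (mul_le_mul e3 e4 (abs_nonneg _) zero_le_two))
  nlinarith

/-- downward induction with small steps -/
theorem down {f : ℝ → ℝ} {τ T P L : ℝ} (hτ : 0 ≤ τ) (hL : 0 < L) (hT : T < P) (e : f τ ≤ T)
    (lip : ∀ t h, 0 ≤ t → 0 ≤ h → t + h ≤ τ → L * h ≤ 1 → f t ≤ f (t + h) + L * h)
    (dic : ∀ t, 0 ≤ t → t ≤ τ → f t ≤ P → f t ≤ T) : f 0 ≤ T := by
  obtain ⟨i, hi⟩ := exists_nat_gt (L * τ / min (P - T) 1)
  have d0 : 0 < min (P - T) 1 := lt_min (by linarith) one_pos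
  have i0 : (0 : ℝ) < i := lt_of_le_of_lt (by positivity) hi
  have h0 : 0 ≤ τ / i := by positivity
  have h1 : L * (τ / i) ≤ min (P - T) 1 := by
    rw [div_lt_iff₀ d0] at hi
    rw [← mul_div_assoc, div_le_iff₀ i0]
    linarith
  have key : ∀ j : ℕ, j ≤ i → f (τ - j * (τ / i)) ≤ T := fun j => by
    induction j with
    | zero => intro _; simpa using e
    | succ j ih =>
      intro hj
      have a1 : ((j + 1 : ℕ) : ℝ) * (τ / i) ≤ τ := by
        have : ((j + 1 : ℕ) : ℝ) ≤ i := by exact_mod_cast hj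
        calc _ ≤ i * (τ / i) := mul_le_mul_of_nonneg_right this h0
          _ = τ := by field_simp
      have a2 : (0 : ℝ) ≤ j * (τ / i) := by positivity
      have a3 := lip (τ - (j + 1 : ℕ) * (τ / i)) (τ / i) (by linarith) h0
        (by push_cast; linarith) (h1.trans (min_le_right _ _))
      rw [show τ - (j + 1 : ℕ) * (τ / i) + τ / i = τ - j * (τ / i) by push_cast; ring] at a3
      have a4 := ih (by omega)
      refine dic _ (by linarith) (by push_cast; linarith) ?_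
      linarith [h1.trans (min_le_left _ _)]
  have := key i le_rfl
  rwa [show τ - i * (τ / i) = 0 by field_simp; ring] at this

theorem ar1 {C1 C2 γ : ℝ} (c1 : 0 ≤ C1) (c2 : 0 ≤ C2) (γ0 : 0 < γ) (γ1 : γ ≤ 1 / 2) :
    C1 / ((1 / 2) ^ 2 * (1 / 2) ^ 4) ≤ (32 * (C1 + C2) + 1) / (2 * γ ^ 2) ∧
    C2 / (γ ^ 2 * (1 / 2) ^ 4) ≤ (32 * (C1 + C2) + 1) / (2 * γ ^ 2) := by
  have : γ ^ 2 ≤ 1 / 4 := by nlinarith
  have : 0 < γ ^ 2 := by positivity
  constructor <;> rw [div_le_div_iff₀ (by positivity) (by positivity)] <;> nlinarith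

theorem ar2 {C θ μ b g γ w e : ℝ} (C0 : 0 < C) (hθ : C * θ ≤ 1 / 2) (h1 : μ ≤ θ) (b0 : 1 ≤ b)
    (b1 : b ≤ C) (h2 : 1 - C * μ ≤ b * g) (γ0 : 0 < γ) (hw : 4 * C * γ ≤ w) (e0 : 0 ≤ e) :
    2 * γ ≤ e + w * g := by
  have a4 := mul_le_mul_of_nonneg_left h1 C0.le
  have a5 : 0 ≤ g := by
    by_contra hh
    nlinarith [not_le.1 hh]
  have a6 : 1 / 2 ≤ C * g := by nlinarith
  have a7 : 4 * C * γ * g ≤ w * g := mul_le_mul_of_nonneg_right hw a5
  nlinarith

theorem ar3 {K γ κ R Φ c r : ℝ} (γ0 : 0 < γ) (s2 : K * κ ≤ γ ^ 2) (p0 : 0 ≤ Φ) (c0 : 0 ≤ c)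
    (c1 : c ≤ K / (2 * γ ^ 2)) (r0 : 0 ≤ r) (hr : r ≤ R + κ * Φ) (h : Φ ≤ c * r) :
    Φ ≤ K / γ ^ 2 * R := by
  have k0 : 0 ≤ K / (2 * γ ^ 2) := c0.trans c1
  have a1 := h.trans ((mul_le_mul_of_nonneg_right c1 r0).trans (mul_le_mul_of_nonneg_left hr k0))
  have a2 : K / (2 * γ ^ 2) * κ ≤ 1 / 2 := by
    rw [div_mul_eq_mul_div, div_le_iff₀ (by positivity)]; linarith
  have a3 := mul_le_mul_of_nonneg_right a2 p0
  have a4 : K / γ ^ 2 * R = 2 * (K / (2 * γ ^ 2) * R) := by field_simp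
  nlinarith

/-- **the core**: no a priori bound -/
theorem core (T0 : ℝ) : ∃ K : ℝ, 1 ≤ K ∧ ∀ (S : Sc) (M : Md) (m : ℕ) (a u γ V κ W P : ℝ)
    (F : ℕ → ℝ), Cl S M → Lg M m a → 0 < a → S.j0 = S.jl → M.d 0 = M.b → S.C * S.θ ≤ 1 / 2 →
    S.C ≤ T0 → 0 < γ → γ ≤ 1 / 2 → 4 * S.C * γ ≤ u → u ≤ M.d 0 - 1 / 2 → F 0 = 0 → Monotone F →
    M.H S.Jp + F S.Jp + S.C ≤ T0 → M.sq S (sh M u F).G ≤ W →
    (∀ u' F', 0 ≤ u' → u' ≤ M.d 0 → F' 0 = 0 → Monotone F' →
      Fl (sh M u' F') m a S.jl ≤ V + κ * (sh M u' F').Phi S m a) → 0 ≤ κ →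
    K * (√P + √W + M.z S.jl + 1 / m) ≤ γ → K * κ ≤ γ ^ 2 →
    K / γ ^ 2 * (V + W + M.z S.jl * M.s S.jl ^ 2 + 1 / (m : ℝ) ^ 2) < P →
    (sh M u F).Phi S m a ≤ K / γ ^ 2 * (V + W + M.z S.jl * M.s S.jl ^ 2 + 1 / (m : ℝ) ^ 2) := by
  obtain ⟨C1, c1, H1⟩ := Ht31.ht
  obtain ⟨C2, c2, H2⟩ := Ht31.lin T0
  refine ⟨32 * (C1 + C2) + 1, by linarith, fun S M m a u γ V κ W P F cl G ha jj noW hθ hC γ0 γ1
    hu hu' F0 Fm hH hW hV κ0 s1 s2 s3 => ?_⟩
  set K := 32 * (C1 + C2) + 1 with hK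
  set R := V + W + M.z S.jl * M.s S.jl ^ 2 + 1 / (m : ℝ) ^ 2 with hR
  have C0 := cl.C0
  have C1' := cl.C1
  have u0 : 0 < u := lt_of_lt_of_le (by positivity) hu
  have m0 : (0 : ℝ) < m := by exact_mod_cast G.m0
  have dp := qt_dp cl
  have i4 := cl.i4
  have i2 := cl.i2
  have i3 := cl.i3
  set τ := M.d 0 - 1 / 2 - u with hτ
  set Nt : ℝ → Md := fun t => sh M (u + t) fun k => F k + t * qt M S k with hNt
  have mo : ∀ t, 0 ≤ t → Monotone fun k => F k + t * qt M S k := fun t ht i j hij =>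
    add_le_add (Fm hij) (mul_le_mul_of_nonneg_left (dp.mono hij) ht)
  have f0 : ∀ t : ℝ, F 0 + t * qt M S 0 = 0 := fun t => by rw [F0, dp.r0]; ring
  have lg : ∀ t, 0 ≤ t → t ≤ τ → Lg (Nt t) m a := fun t h0 h1 =>
    Gu71.sh_lg G (by linarith) (f0 t) (mo t h0)
  have rg : ∀ t, Ht31.Rg (Nt t) S.jl S.Jp := fun t =>
    (jj ▸ Ht31.rg_cl cl).congr rfl rfl rfl rfl
  have g2 : ∀ t, 0 ≤ t → t ≤ τ → Ht31.G2 (Nt t) m a S.jl S.Jp ≤ W := fun t h0 h1 => by
    rw [g2_eq (lg t h0 h1)]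
    refine le_trans (le_of_eq ?_) hW
    refine sum_congr rfl fun k hk => ?_
    obtain ⟨k1, k2⟩ := mem_Ioc.1 hk
    have e : (Nt t).G k = (sh M u F).G k := by
      simp only [hNt, Gu71.sh_G, qt, if_neg (not_le.2 k1), min_eq_left (k2.trans i4.le)]
      ring
    rw [e]; rfl
  have W0 : 0 ≤ W := (Ht31.G2_nn (lg 0 le_rfl (by linarith))).trans (g2 0 le_rfl (by linarith))
  have rh : ∀ t, 0 ≤ t → t ≤ τ → Ht31.Rh (Nt t) m a S.jl S.Jp 2 ≤
      R + κ * (Nt t).Phi S m a := fun t h0 h1 => by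
    have a1 := (vp_le (lg t h0 h1) (j := S.jl) (by change S.jl ≤ M.N; omega)).trans
      (hV (u + t) _ (by linarith) (by linarith) (f0 t) (mo t h0))
    have a2 := g2 t h0 h1
    have a3 : Ht31.lw (Nt t) S.jl = M.z S.jl * M.s S.jl ^ 2 := rfl
    rw [Ht31.Rh, a3, hR]
    linarith
  have γ2 : 0 < γ ^ 2 := by positivity
  have ab : ∀ t, 0 ≤ t → t ≤ τ → ∀ c : ℝ, 0 ≤ c → c ≤ K / (2 * γ ^ 2) →
      Ht31.Ph (Nt t) m a S.jl S.Jp ≤ c * Ht31.Rh (Nt t) m a S.jl S.Jp 2 →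
      (Nt t).Phi S m a ≤ K / γ ^ 2 * R := fun t h0 h1 c c0 c1 h => by
    rw [ph_eq (lg t h0 h1)] at h
    have p0 := phi_nn (S := S) (lg t h0 h1)
    have r0 : 0 ≤ Ht31.Rh (Nt t) m a S.jl S.Jp 2 := by
      have := (Ht31.V4_nn (lg t h0 h1)).trans (Ht31.V4_le (lg t h0 h1))
      have := Ht31.G2_nn (j0 := S.jl) (Jp := S.Jp) (lg t h0 h1)
      have := Ht31.lw_nn (j0 := S.jl) (lg t h0 h1)
      have : 0 ≤ 1 / (m : ℝ) ^ 2 := by positivity
      rw [Ht31.Rh]; linarith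
    exact ar3 γ0 s2 p0 c0 c1 r0 (rh t h0 h1) h
  have d0 : ∀ t, (Nt t).d 0 = M.d 0 - (u + t) := fun t => rfl
  have bb : ∀ t, (Nt t).b = M.b - (u + t) := fun t => rfl
  have key := down (f := fun t => (Nt t).Phi S m a) (τ := τ) (T := K / γ ^ 2 * R) (P := P)
    (L := 120 * m) (by linarith) (by positivity) s3 ?_ ?_ ?_
  · simpa [hNt] using key
  · exact ab τ (by linarith) le_rfl _ (by positivity) (ar1 c1 c2 γ0 γ1).1 (H1 (Nt τ) m S.jl S.Jp a (1 / 2) (1 / 2)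
      (lg τ (by linarith) le_rfl) ha (rg τ) (by norm_num) (by rw [d0]; linarith) (by norm_num)
      (by rw [bb]; linarith) 2 (by simp))
  · intro t h t0 h0 h1 h2
    have e : Nt (t + h) = dep (Nt t) (qt M S) h := by
      simp only [hNt, dep, Gu71.sh_sh]
      congr 1
      · ring
      · funext k; ring
    have nr := Gu71.nr_dep (Nt t) dp h0
    rw [← e] at nr
    have := phi_lip (S := S) (N' := Nt (t + h)) (lg t t0 (by linarith)) i4.le rfl rfl
      (fun k hk => ⟨cl.q_nn hk, Cl.q_le_one k⟩) fun k =>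
        Gu71.rb_lip (lg t t0 (by linarith)) (lg (t + h) (by linarith) h1) nr (by linarith) k
    linarith
  · intro t t0 t1 hP
    have L := lg t t0 t1
    have hb := cl.b1
    have H0 := cl.H_nn S.Jp
    have FJ : 0 ≤ F S.Jp := F0 ▸ Fm (Nat.zero_le _)
    refine ab t t0 t1 _ (by positivity) (ar1 c1 c2 γ0 γ1).2 (H2 (Nt t) m S.jl S.Jp a (1 / 2) γ P L ha (rg t)
      (by norm_num) (by rw [d0]; linarith) (by norm_num) γ0 (by linarith) (by rw [bb]; linarith)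
      (cl.sT.trans hC) ?_ ?_ (by rw [ph_eq L]; exact hP) ?_ 2 (by simp))
    · change M.H S.Jp + (F S.Jp + t * qt M S S.Jp) ≤ T0
      have := mul_le_mul_of_nonneg_left (dp.le S.Jp) t0
      linarith
    · intro x hx
      change x ∈ Set.Icc 0 (M.s S.Jp) at hx
      rw [hNt, Gu71.sh_e]
      exact ar2 C0 hθ (cl.ms1 x) cl.b_ge hb (cl.GG_bds hx).1 γ0 (by linarith)
        ((div_pos (cl.ms_pos hx.1) C0).le.trans (cl.crit x hx).1)
    · refine le_trans ?_ s1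
      have := Real.sqrt_le_sqrt (g2 t t0 t1)
      have z0 := G.z_nonneg S.jl
      have : (Nt t).z S.jl = M.z S.jl := rfl
      refine mul_le_mul (by linarith) (by linarith) (by positivity) (by linarith)

open Sr Sr.C71

variable {E Y l Ys : ℝ}

theorem H_le (B : Nb E S Y) (c : Cl S M) (H : SH E S M l Ys Y) (hθ : E * S.θ ≤ 1) :
    M.H S.Jp ≤ 2 * S.C ^ 2 := by
  have i1 := c.i1; have i2 := c.i2; have i3 := c.i3; have i4 := c.i4
  have C0 := c.C0
  have E1 := B.E1 c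
  have t0 := c.θ0
  have v0 := c.v0
  have t1 : S.θ ≤ 1 := by nlinarith
  have a1 := H.cei.bot
  rw [H.F1, mul_one] at a1
  have a2 : S.ms (M.s S.jl) * M.s S.jl ≤ 1 * S.C :=
    mul_le_mul ((c.ms1 _).trans t1) (c.s_le_C (by omega)) (c.s_nn _) zero_le_one
  have a3 := tel_le (f := M.H) (c := S.C * S.θ * S.v) (i := S.jl + 1) (j := S.Jp) (by omega)
    fun k h1 h2 => by
      have := H.cei.up k h1 h2
      rw [H.F1, mul_one] at this
      exact this.trans (mul_le_mul_of_nonneg_right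
        (mul_le_mul_of_nonneg_left (c.ms1 _) C0.le) v0.le)
  have a4 := (c.ck_tel (i := S.jl + 1) (j := S.Jp) (by omega) (by omega) le_rfl).1
  have a5 : 0 ≤ M.ck (S.jl + 1) := by
    rw [c.ckq _ (z_first B c H)]; exact c.q_nn (by omega)
  have a6 := H.ckT
  set x := (S.Jp : ℝ) - ((S.jl + 1 : ℕ) : ℝ)
  have a7 : x * (S.C * S.θ * S.v) = S.C ^ 2 * S.θ * (x * (S.v / S.C)) := by field_simp
  have a8 : S.C ^ 2 * S.θ * (x * (S.v / S.C)) ≤ S.C ^ 2 * S.θ * E :=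
    mul_le_mul_of_nonneg_left (by linarith) (by positivity)
  have a9 : S.C ^ 2 * (E * S.θ) ≤ S.C ^ 2 * 1 := mul_le_mul_of_nonneg_left hθ (by positivity)
  have a10 := mul_le_mul_of_nonneg_left a2 C0.le
  nlinarith

theorem G_le (B : Nb E S Y) (c : Cl S M) (H : SH E S M l Ys Y) (hθ : E * S.θ ≤ 1) :
    M.sq S M.G ≤ 4 * (E * Y) := by
  have E1 := B.E1 c
  have t1 : S.θ ≤ 1 := by nlinarith [c.θ0]
  have n0 : 0 < nu S := rpow_pos_of_pos c.N0 _
  have n1 : nu S ≤ 1 := rpow_le_one_of_one_le_of_nonpos (by exact_mod_cast c.n1) (by norm_num)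
  refine le_trans ?_ (mul_le_mul_of_nonneg_left H.G2 (by norm_num))
  rw [Md.sq, Md.sq, mul_sum]
  refine sum_le_sum fun k _ => ?_
  rw [mul_left_comm]
  refine mul_le_mul_of_nonneg_left ?_ (dx_nn c k)
  have a0 := c.ms_pos (c.s_nn k)
  have a1 := (c.ms1 (M.s k)).trans t1
  have a2 : 0 < S.ms (M.s k) + nu S := by positivity
  rw [div_pow, ← mul_div_assoc, le_div_iff₀ (by positivity), mul_comm]
  exact mul_le_mul_of_nonneg_right (by nlinarith) (sq_nonneg _)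

theorem sq3 (c : Cl S M) {f g h : ℕ → ℝ} {r : ℝ} (hr : r ^ 2 ≤ 1) {F : ℕ → ℝ}
    (e : ∀ k, S.jl < k → k ≤ S.Jp → F k = f k + g k + r * h k) :
    M.sq S F ≤ 3 * (M.sq S f + M.sq S g + M.sq S h) := by
  simp only [Md.sq, ← sum_add_distrib, mul_sum]
  refine sum_le_sum fun k hk => ?_
  rw [e k (mem_Ioc.1 hk).1 (mem_Ioc.1 hk).2, ← mul_add, ← mul_add, mul_left_comm]
  refine mul_le_mul_of_nonneg_left ?_ (dx_nn c k)
  have := mul_le_mul_of_nonneg_right hr (sq_nonneg (h k))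
  nlinarith [sq_nonneg (f k - g k), sq_nonneg (f k - r * h k), sq_nonneg (g k - r * h k)]

theorem sqrt_le' {x y : ℝ} (hy : 0 ≤ y) (h : x ≤ y ^ 2) : √x ≤ y := sqrt_le_iff.2 ⟨hy, h⟩

/-- the linear range, pointwise -/
theorem lin2 (C : ℝ) : ∃ K : ℝ, ∀ (E : ℝ) (S : Sc) (M : Md) (m : ℕ) (a l Ys Y : ℝ) (ck : ℕ → ℝ)
    (D u : ℝ) (N : Md), S.C = C → K ≤ E → Nb E S Y → Cl S M → S.In m a → SH E S M l Ys Y →
    VarH E S M m a Y → Ax E S M Y ck → 0 ≤ D → E ^ 100 * D ≤ 1 → E * S.θ ≤ 1 → 1 / E ≤ u →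
    u ≤ 2 / E → KC E S M Y ck D u N → N.Phi S m a ≤ E ^ 99 * Y := by
  obtain ⟨K, K1, H0⟩ := core (2 * C ^ 2 + 3 + C)
  refine ⟨K, fun E S M m a l Ys Y ck D u N hC hK B c hi H V A D0 D1 hθ u1 u2 hN => ?_⟩
  obtain ⟨u0, u3, F, KF, rfl⟩ := hN
  subst hC
  have i1 := c.i1; have i2 := c.i2; have i3 := c.i3; have i4 := c.i4
  have E1 := B.E1 c
  have E0 : 0 < E := by linarith
  have C1 := c.C1
  have C0 := c.C0
  have n0 := c.N0
  have Y0 : 0 < Y := lt_of_lt_of_le (by positivity) B.nY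
  have mn : (S.n : ℝ) ≤ m := by exact_mod_cast hi.m1
  have m0 : (0 : ℝ) < m := n0.trans_le mn
  obtain ⟨a0, a1⟩ := hi.amax0 c.n1
  have G : Lg M m a := Md67.lg_of c.leg (by exact_mod_cast m0) a0.le (by linarith [hi.a2])
  have CE : 10000 * S.C ^ 2 ≤ E := le_trans (mul_le_mul_of_nonneg_left
    (pow_le_pow_right₀ C1 (by norm_num)) (by norm_num)) B.CE
  have CC : S.C ≤ S.C ^ 2 := le_self_pow₀ C1 two_ne_zero
  have CE' : 10000 * S.C ≤ E := by linarith
  have pw : ∀ {i j : ℕ}, i ≤ j → E ^ i ≤ E ^ j := fun h => pow_le_pow_right₀ (by linarith) h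
  set u' := min u D with hu'
  have w0 : 0 ≤ u' := le_min u0 D0
  have w1 : u' ≤ D := min_le_right _ _
  have w2 : u' ≤ u := min_le_left _ _
  have uE : u * E ≤ 2 := (le_div_iff₀ E0).1 u2
  have u4 : u ≤ 1 := by linarith [mul_le_mul_of_nonneg_left E1 u0]
  have wE : u' * E ^ 100 ≤ 1 := by linarith [mul_le_mul_of_nonneg_right w1 (pow_pos E0 100).le]
  have w3 : u' ≤ 1 := w2.trans u4
  have Fm := K0_mono B c H A w0 KF
  have cm := ct_mono B c H
  set x := 1 / E with hx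
  have x0 : 0 < x := by positivity
  have xE : E * x = 1 := by rw [hx]; field_simp
  have x1 : x ≤ 1 := by linarith [mul_le_mul_of_nonneg_right E1 x0.le]
  have px : ∀ {i j : ℕ}, i ≤ j → x ^ j ≤ x ^ i := fun h => pow_le_pow_of_le_one x0.le x1 h
  have EY : ∀ i j : ℕ, i + j ≤ 200 → E ^ i * Y ≤ x ^ j := fun i j h => by
    have := mul_le_mul_of_nonneg_right (B.pow c h) (pow_pos x0 j).le
    rwa [pow_add, one_mul, show E ^ i * E ^ j * Y * x ^ j = E ^ i * Y * (E * x) ^ j by ring, xE,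
      one_pow, mul_one] at this
  have Yx : ∀ j : ℕ, j ≤ 200 → Y ≤ x ^ j := fun j h => by simpa using EY 0 j (by omega)
  have l0 := l_nn c H
  have l1 : l ≤ x ^ 5 := by
    refine le_of_pow_le_pow_left₀ (n := 3) (by norm_num) (by positivity) (H.l3.trans ?_)
    rw [← pow_mul]; exact Yx _ (by norm_num)
  have vY : S.v ≤ Y := le_trans (le_mul_of_one_le_left c.v0.le C1) B.vY
  have s0 := c.s_nn S.jl
  have s1 := H.jl
  have z0 := G.z_nonneg S.jl
  have z1 : M.z S.jl ≤ S.C * (l + 2 * Y) := (c.z_s i1 c.jl_lt).2.trans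
    (mul_le_mul_of_nonneg_left (by linarith) C0.le)
  have z2 : M.z S.jl ≤ x ^ 4 := by
    have b1 := Yx 5 (by norm_num)
    have b2 : S.C * (l + 2 * Y) ≤ S.C * (3 * x ^ 5) := mul_le_mul_of_nonneg_left (by linarith) C0.le
    have b3 : 3 * S.C * x ^ 5 ≤ E * x ^ 5 := mul_le_mul_of_nonneg_right (by linarith) (by positivity)
    have b4 : E * x ^ 5 = E * x * x ^ 4 := by ring
    rw [b4, xE] at b3
    linarith
  have z3 : M.z S.jl * M.s S.jl ^ 2 ≤ E ^ 28 * Y := by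
    have b0 : l ≤ 1 := l1.trans (pow_le_one₀ x0.le x1)
    have b1 : M.s S.jl ^ 2 ≤ l ^ 2 := pow_le_pow_left₀ s0 s1 2
    have b2 := mul_le_mul z1 b1 (by positivity) (by positivity)
    have b3 : (l + 2 * Y) * l ^ 2 ≤ 3 * Y := by
      have : l ^ 2 ≤ 1 := pow_le_one₀ l0 b0
      have := mul_le_mul_of_nonneg_left this Y0.le
      linarith [H.l3]
    have b4 := mul_le_mul_of_nonneg_left b3 C0.le
    have b5 : E ^ 1 ≤ E ^ 28 := pw (by norm_num)
    have b6 := mul_le_mul_of_nonneg_right (show 3 * S.C ≤ E ^ 28 by linarith) Y0.le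
    linarith
  have m2 : 1 / (m : ℝ) ^ 2 ≤ Y := le_trans (one_div_le_one_div_of_le (by positivity)
    (pow_le_pow_left₀ n0.le mn 2)) B.nY
  have m1 : 1 / (m : ℝ) ≤ x ^ 4 := by
    refine le_of_pow_le_pow_left₀ (n := 2) (by norm_num) (by positivity) ?_
    rw [← pow_mul, div_pow, one_pow]; exact m2.trans (Yx _ (by norm_num))
  have gE : K / (x / (4 * S.C)) ^ 2 ≤ E ^ 4 := by
    rw [div_le_iff₀ (by positivity)]
    have b1 : E ^ 4 * (x / (4 * S.C)) ^ 2 = E * (E / (16 * S.C ^ 2)) * (E * x) ^ 2 := by field_simp; ring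
    have b2 : 1 ≤ E / (16 * S.C ^ 2) := by rw [le_div_iff₀ (by positivity)]; linarith
    rw [b1, xE]
    linarith [mul_le_mul_of_nonneg_left b2 E0.le]
  have fin : K / (x / (4 * S.C)) ^ 2 * (E ^ 28 * Y + E ^ 2 * Y + M.z S.jl * M.s S.jl ^ 2 +
      1 / (m : ℝ) ^ 2) ≤ E ^ 99 * Y := by
    have b1 := mul_le_mul_of_nonneg_right (pw (i := 2) (j := 28) (by norm_num)) Y0.le
    have b2 := mul_le_mul_of_nonneg_right (pw (i := 0) (j := 28) (by norm_num)) Y0.le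
    have b3 : E ^ 28 * Y + E ^ 2 * Y + M.z S.jl * M.s S.jl ^ 2 + 1 / (m : ℝ) ^ 2 ≤
        E * (E ^ 28 * Y) := by
      have := mul_le_mul_of_nonneg_right (show 4 ≤ E by linarith) (show 0 ≤ E ^ 28 * Y by positivity)
      rw [pow_zero] at b2
      linarith
    refine (mul_le_mul gE b3 (by positivity) (by positivity)).trans ?_
    have := mul_le_mul_of_nonneg_right (pw (i := 33) (j := 99) (by norm_num)) Y0.le
    calc _ = E ^ 33 * Y := by ring
      _ ≤ _ := this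
  refine le_trans (H0 S M m a u (x / (4 * S.C)) (E ^ 28 * Y) (x ^ 7) (E ^ 2 * Y) (E ^ 100 * Y) _ c G
    a0 H.jj H.noW B.Cθ (by linarith) (by positivity) ?_ ?_ ?_ ?_ ?_ ?_ ?_ ?_ (by positivity) ?_ ?_
    (fin.trans_lt ?_)) fin
  · rw [div_le_iff₀ (by positivity)]; linarith
  · rw [mul_div_cancel₀ _ (by positivity)]; exact u1
  · linarith [H.b1]
  · simp only [KF.lo 0 (Nat.zero_le _), ct_lo (Nat.zero_le _), mul_zero, add_zero]
  · exact fun i j hij => add_le_add (Fm hij) (mul_le_mul_of_nonneg_left (cm hij) (by linarith))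
  · have b1 := H_le B c H hθ
    have b2 := KF.le
    have b3 := mul_le_mul_of_nonneg_left (pw (i := 51) (j := 100) (by norm_num)) w0
    have b4 : (u - u') * M.ct S S.Jp ≤ (u - u') * E := by
      rw [ct_mid c (by omega) le_rfl]; exact mul_le_mul_of_nonneg_left H.ckT (by linarith)
    have b5 := mul_nonneg w0 E0.le
    change M.H S.Jp + (F S.Jp + (u - u') * M.ct S S.Jp) + S.C ≤ _
    linarith
  · have b1 := sq3 c (f := M.G) (g := fun k => F k - u' * M.q k) (h := fun k => M.ck k - M.q k)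
      (r := u - u') (pow_le_one₀ (by linarith) (by linarith)) (F := (sh M u fun k => F k + (u - u') * M.ct S k).G)
      fun k h1 h2 => by rw [Gu71.sh_G, ct_mid c h1 h2]; ring
    have b2 := G_le B c H hθ
    have b3 := KF.res
    have b4 := H.ck
    have b5 : u' * (u' * E ^ 100) * Y ≤ 1 * 1 * Y :=
      mul_le_mul_of_nonneg_right (mul_le_mul w3 wE (by positivity) zero_le_one) Y0.le
    have b6 := mul_le_mul_of_nonneg_right (show 1 ≤ E by linarith) Y0.le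
    have b7 := mul_le_mul_of_nonneg_right (show 63 ≤ E by linarith) (show 0 ≤ E * Y by positivity)
    linarith
  · intro v F' h1 h2 h3 h4
    refine (V (E ^ 8) v F' (by simpa using pw (i := 0) (j := 8) (by norm_num))
      (pw (by norm_num)) h1 h2 h3 h4).trans (le_of_eq ?_)
    rw [hx]; field_simp
  · have b1 : √(E ^ 100 * Y) ≤ x ^ 4 := sqrt_le' (by positivity) (by
      rw [← pow_mul]; exact EY _ _ (by norm_num))
    have b2 : √(E ^ 2 * Y) ≤ x ^ 4 := sqrt_le' (by positivity) (by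
      rw [← pow_mul]; exact EY _ _ (by norm_num))
    have b3 : K * (√(E ^ 100 * Y) + √(E ^ 2 * Y) + M.z S.jl + 1 / m) ≤ E * (4 * x ^ 4) :=
      mul_le_mul hK (by linarith) (by positivity) E0.le
    refine b3.trans ?_
    rw [le_div_iff₀ (by positivity)]
    have b4 : E * (4 * x ^ 4) * (4 * S.C) = 16 * S.C * x ^ 3 * (E * x) := by ring
    have b5 : 16 * S.C * x ^ 3 ≤ E * x ^ 3 := mul_le_mul_of_nonneg_right (by linarith) (by positivity)
    have b6 : E * x ^ 3 = E * x * x ^ 2 := by ring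
    have b7 := px (i := 1) (j := 2) (by norm_num)
    rw [b6, xE] at b5
    rw [b4, xE]
    linarith
  · rw [div_le_iff₀ (by positivity)] at gE
    have b1 := mul_le_mul_of_nonneg_right gE (pow_pos x0 7).le
    have b2 : E ^ 4 * (x / (4 * S.C)) ^ 2 * x ^ 7 = (E * x) ^ 4 * ((x / (4 * S.C)) ^ 2 * x ^ 3) := by
      ring
    rw [b2, xE, one_pow, one_mul] at b1
    exact b1.trans (mul_le_of_le_one_right (by positivity) (pow_le_one₀ x0.le x1))
  · have := mul_lt_mul_of_pos_right (show 1 < E by linarith) (show 0 < E ^ 99 * Y by positivity)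
    calc _ = 1 * (E ^ 99 * Y) := by ring
      _ < _ := this
      _ = _ := by ring

end Crest.Agent.T156.Alt.Lin34

namespace Crest.Agent.T156.Alt.Sr

/-- **the linear range** -/
theorem linS2 : LinS2 := by
  choose K hK using Lin34.lin2
  exact C71.sr_intro K fun E _ S M m a l Ys Y c D h1 _ B cl hi H V A hD hθ u N u1 u2 hN =>
    hK S.C E S M m a l Ys Y c D u N rfl h1 B cl hi H V A (C71.Dr_nn B cl hD)
      (hD.2.trans (Real.rpow_le_one_of_one_le_of_nonpos (by exact_mod_cast cl.n1) (by norm_num)))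
      hθ u1 u2 hN

end Crest.Agent.T156.Alt.Sr

end
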