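import Crest.Agent.T156.SrMov_74

/-!
# Row 156, SR: the base moves; `MovS` (helper74)
-/

set_option autoImplicit false

noncomputable section

namespace Crest.Agent.T156.Alt.Mov74

open Finset Real
open Crest.Agent.T156.Alt.Sr
open Crest.Agent.T156.Alt.SrB72 (G G_succ Mv exists_xi)

variable {E Y u B l Ys : ℝ} {S : Sc} {M N : Md} {m : ℕ} {a : ℝ} {c r : ℕ → ℝ}

open Classical in
/-- the levels that are moved -/
def BA (S : Sc) (M : Md) (r : ℕ → ℝ) : Finset ℕ :=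
  (Ico (S.jl + 1) (S.J - 1)).filter fun k =>
    M.z (S.jl + 1) < M.z k + 1 / (2 * S.C ^ 2) * (r k - M.q k) ∧
      M.z k + 1 / (2 * S.C ^ 2) * (r k - M.q k) ≤ M.z (S.J - 1)

theorem dx_le (H : Cl S M) {k : ℕ} (h1 : S.jl < k) (h2 : k < S.J) :
    S.v / S.C ≤ M.z k - M.z (k - 1) ∧ M.z k - M.z (k - 1) ≤ S.C * S.v := by
  have i1 := H.i1
  have := H.zs (k - 1) (by omega) (by omega)
  rwa [show k - 1 + 1 = k by omega] at this

theorem exists_mv (H : Cl S M) (hr : Monotone r) {wb : ℝ} (hw : 0 ≤ wb) :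
    ∃ ξ, Mv M.z M.q r (fun k => wb * (M.z (k + 1) - M.z k)) (BA S M r) ξ (S.jl + 1) (S.J - 1)
      (1 / (2 * S.C ^ 2)) (S.C ^ 2) (S.C * S.v) (S.C ^ 2) wb := by
  classical
  have i1 := H.i1
  have i2 := H.i2
  have C0 := H.C0
  have iN := H.J_lt
  obtain ⟨ξ, hξ⟩ := exists_xi H.leg.zm (t := fun k => M.z k + 1 / (2 * S.C ^ 2) * (r k - M.q k))
    (A := BA S M r) (j0 := S.jl + 1) (j2 := S.J - 1) fun k hk => (mem_filter.1 hk).2
  have sub : ∀ k ∈ BA S M r, S.jl + 1 ≤ k ∧ k < S.J - 1 := fun k hk => mem_Ico.1 (mem_filter.1 hk).1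
  refine ⟨ξ, H.leg.zm, fun i j _ h _ => hr h, fun i j _ h h' => H.q_mono h (by omega),
    fun i j h0 h h' => q_z H (by omega) h (by omega), by positivity, le_of_eq (by field_simp),
    by positivity, hw, sub, fun k _ => mul_nonneg hw (sub_nonneg.2 (H.leg.zm k.le_succ)),
    fun k _ => le_rfl, fun j h h' => (H.zs j (by omega) (by omega)).2, fun k hk => ?_,
    fun k hk => (hξ k hk).1, fun k hk => (hξ k hk).2.1, fun k hk => (hξ k hk).2.2⟩
  have a0 := sub k hk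
  have a1 := (hξ k hk).1
  have a2 := (H.zs k (by omega) (by omega)).2
  have a3 := mul_le_mul_of_nonneg_left (dx_le H (k := ξ k) (by omega) (by omega)).1 (sq_nonneg S.C)
  have e : S.C ^ 2 * (S.v / S.C) = S.C * S.v := by field_simp
  linarith

theorem sum_dx (H : Cl S M) {i j : ℕ} (h : i ≤ j) : ∑ k ∈ Ioc i j, (M.z k - M.z (k - 1)) ≤ 1 := by
  rw [SrP26.tele i j h]
  linarith [H.leg.z1 j, H.z_pos i]

/-- **the base move** -/
theorem move (H : Cl S M) (E1 : 1 ≤ E) (CE : S.C ≤ E) (hu : 0 < u) (Xc : Ax E S M Y c)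
    (Y0 : 0 < Y) (Y1 : Y ≤ 1) (Cv : S.C * S.v ≤ Y) (hm : 0 < m)
    (hΦ : M.sq S (fun k => N.rb m a k - M.q k) ≤ 2 * (E ^ 100 * Y)) (hB : E ^ 99 * Y ≤ B)
    (D : Dbl E S M m a Y c u N B (4 * u * E ^ 95 * Y)) :
    ∑ k ∈ BA S M (N.rb m a), (M.z k - M.z (k - 1)) * (N.rb m a k - M.q k) ^ 2 ≤
      1320 * S.C ^ 6 * B := by
  have i1 := H.i1
  have i2 := H.i2
  have i3 := H.i3
  have C1 := H.C1
  have v0 := H.v0
  have c2 : 1 ≤ S.C ^ 2 := one_le_pow₀ C1
  have YT : Y ≤ E ^ 99 * Y := le_mul_of_one_le_left Y0.le (one_le_pow₀ E1)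
  have B0 : 0 < B := Y0.trans_le (YT.trans hB)
  rcases (BA S M (N.rb m a)).eq_empty_or_nonempty with e | ⟨k0, hk0⟩
  · rw [e, Finset.sum_empty]; positivity
  set wb := u / (E ^ 4 * (8 * S.C ^ 2)) with hwb
  have w0 : 0 < wb := by positivity
  obtain ⟨ξ, V⟩ := exists_mv H (Md67.rb_mono (M := N) (a := a) hm) w0.le
  have j02 : S.jl + 1 < S.J - 1 := (V.sub k0 hk0).1.trans_lt (V.sub k0 hk0).2
  have wu : wb * (8 * S.C ^ 2) ≤ u := by
    rw [hwb, div_mul_eq_mul_div, mul_div_mul_right _ _ (by positivity)]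
    exact div_le_self hu.le (one_le_pow₀ E1)
  have wle : ∀ k ∈ BA S M (N.rb m a),
      wb * (M.z (k + 1) - M.z k) ≤ u / E ^ 4 * (c (k + 1) - c k) / 4 := fun k hk => by
    have a0 := V.sub k hk
    have a1 := V.hi k a0.1 a0.2
    have a2 := Xc.inc k (by omega) (by omega)
    have a3 := (H.ckm k (by omega) (by omega)).1
    calc _ ≤ wb * (S.C * S.v) := by gcongr
      _ = u / E ^ 4 * (S.v / S.C / 2) / 4 := by rw [hwb]; field_simp; norm_num
      _ ≤ _ := by gcongr; linarith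
  have dn : ∀ k, 0 ≤ M.z k - M.z (k - 1) := fun k => sub_nonneg.2 (H.leg.zm (Nat.sub_le k 1))
  have mo : Sr.Mo E S M Y c u (G (fun k => wb * (M.z (k + 1) - M.z k)) (BA S M (N.rb m a)) ξ) := by
    refine ⟨fun k hk => V.G_low hk, fun k hk => V.G_high (by omega), fun k k1 k2 => ?_,
      fun k k1 k2 => ?_, ?_⟩
    · refine le_trans (neg_le_neg ?_) (V.G_floor k)
      split_ifs with h
      · exact wle k h
      · have := dc_nn H Xc k1 k2
        positivity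
    · rw [G_succ]
      have a1 := V.land k
      have a2 : 0 ≤ if k ∈ BA S M (N.rb m a) then wb * (M.z (k + 1) - M.z k) else 0 := by
        split_ifs with h
        · exact V.w0 k h
        · exact le_rfl
      have a3 : wb * (2 + S.C ^ 2) * (M.z k - M.z (k - 1)) ≤ u * (E ^ 8 * S.v) :=
        mul_le_mul (by nlinarith) ((dx_le H k1 k2).2.trans (mul_le_mul_of_nonneg_right
          (CE.trans (le_self_pow₀ E1 (by norm_num))) v0.le)) (dn k) hu.le
      linarith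
    · refine (V.sq_G (B := Ioc S.jl S.Jp) (d := M.dx) (fun j _ => dn j) (by positivity)).trans ?_
      have a1 : (1 / (2 * S.C ^ 2)) ^ 2 ≤ 1 :=
        pow_le_one₀ (by positivity) (by rw [div_le_one (by positivity)]; linarith)
      have a2 : (S.C * S.v) ^ 2 ≤ E ^ 100 * Y :=
        (pow_le_pow_left₀ (by positivity) Cv 2).trans
          (le_trans (by nlinarith) (le_mul_of_one_le_left Y0.le (one_le_pow₀ E1)))
      have a3 := sum_dx H (i := S.jl) (j := S.Jp) (by omega)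
      have a4 : wb ^ 2 ≤ (u / 8) ^ 2 := pow_le_pow_left₀ w0.le (by nlinarith) 2
      have a5 := mul_le_mul a1 hΦ (Finset.sum_nonneg fun k _ => mul_nonneg (dn k) (sq_nonneg _))
        zero_le_one
      have a6 := mul_le_mul a2 a3 (Finset.sum_nonneg fun k _ => dn k) (by positivity)
      have P0 : 0 ≤ E ^ 100 * Y := by positivity
      calc _ ≤ 8 * (u / 8) ^ 2 * (1 * (2 * (E ^ 100 * Y)) + E ^ 100 * Y * 1) :=
            mul_le_mul (by linarith) (add_le_add a5 a6) (add_nonneg (mul_nonneg (sq_nonneg _)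
              (Finset.sum_nonneg fun k _ => mul_nonneg (dn k) (sq_nonneg _)))
              (mul_nonneg (sq_nonneg _) (Finset.sum_nonneg fun k _ => dn k))) (by positivity)
        _ ≤ _ := by nlinarith [mul_nonneg (sq_nonneg u) P0]
  obtain ⟨r', r1, r2, r3, r4⟩ := D _ _ ξ _ mo (fun k hk => by
    have a0 := V.sub k hk
    have a1 := V.x0 k hk
    exact ⟨by omega, by omega, by omega, by omega, V.w0 k hk, wle k hk⟩) fun j => G_succ _ _ _ j
  have zz : M.z (S.J - 1) - M.z (S.jl + 1) ≤ 1 := by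
    linarith [H.leg.z1 (S.J - 1), H.z_pos (S.jl + 1)]
  have ex := V.of_exact (r' := r') (X := 4 * u * E ^ 95 * Y) (Z := 1) (R := 1) (R' := 1) zz
    (fun j _ _ => r1 j.le_succ)
    (by linarith [Md67.rb_nonneg (M := N) (a := a) hm (S.jl + 1),
      Md67.rb_le_one (M := N) (a := a) hm (S.J - 1)])
    (by linarith [(r2 (S.J - 1 + 1)).2, (r2 (S.jl + 1 + 1)).1]) j02 (by
      refine le_trans (le_of_eq (Finset.sum_congr rfl fun k _ => ?_)) (r4.trans (le_of_eq ?_))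
      · split_ifs <;> rfl
      congr 1
      refine Finset.sum_congr rfl fun k _ => ?_
      rcases lt_trichotomy k (ξ k) with h | h | h
      · rw [if_neg (by omega), if_pos h.le]
      · rw [← h, sub_self, mul_zero, zero_mul, zero_mul]
      · rw [if_pos h.le, if_neg (by omega)])
  have mn := V.main ex
  have s1 : ∑ j ∈ Ioc (S.jl + 1) (S.J - 1), (M.z j - M.z (j - 1)) * (r' j - M.q j) ^ 2 ≤ B :=
    le_trans (Finset.sum_le_sum_of_subset_of_nonneg (Ioc_subset_Ioc (by omega) (by omega))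
      fun k _ _ => mul_nonneg (dn k) (sq_nonneg _)) r3
  have s2 := (V.wsum (B := BA S M (N.rb m a)) (fun _ h => h) j02.le V.sub).trans
    (mul_le_mul_of_nonneg_left zz w0.le)
  have s3 : wb * ∑ k ∈ BA S M (N.rb m a), (M.z k - M.z (k - 1)) * (N.rb m a k - M.q k) ^ 2 ≤
      S.C ^ 2 * ∑ k ∈ BA S M (N.rb m a),
        wb * (M.z (k + 1) - M.z k) * (N.rb m a k - M.q k) ^ 2 := by
    rw [Finset.mul_sum, Finset.mul_sum]
    refine Finset.sum_le_sum fun k hk => ?_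
    have a0 := V.sub k hk
    have a1 := (dx_le H (k := k) (by omega) (by omega)).2
    have a2 := mul_le_mul_of_nonneg_left (H.zs k (by omega) (by omega)).1 (sq_nonneg S.C)
    have e : S.C ^ 2 * (S.v / S.C) = S.C * S.v := by field_simp
    have a3 := mul_le_mul_of_nonneg_right (a1.trans (e ▸ a2))
      (by positivity : 0 ≤ wb * (N.rb m a k - M.q k) ^ 2)
    linarith
  have hB' : S.C * S.v ≤ B := Cv.trans (YT.trans hB)
  have hB2 : (S.C * S.v) ^ 2 ≤ B := le_trans (by nlinarith [mul_pos H.C0 v0]) hB'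
  have c4 : S.C ^ 2 ≤ S.C ^ 4 := pow_le_pow_right₀ C1 (by norm_num)
  have t1 : 32 * (wb * (2 + S.C ^ 2)) * ∑ j ∈ Ioc (S.jl + 1) (S.J - 1),
      (M.z j - M.z (j - 1)) * (r' j - M.q j) ^ 2 ≤ 32 * (wb * (3 * S.C ^ 4)) * B :=
    mul_le_mul (by gcongr; linarith) s1
      (Finset.sum_nonneg fun k _ => mul_nonneg (dn k) (sq_nonneg _)) (by positivity)
  have t2 : 16 * (4 * u * E ^ 95 * Y + 1 * (wb * (S.C * S.v) * 1 +
      wb * (2 + S.C ^ 2) * (S.C * S.v) * 1)) / (1 / (2 * S.C ^ 2)) ≤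
      32 * S.C ^ 2 * (wb * (32 * S.C ^ 2 * B + 4 * S.C ^ 2 * B)) := by
    have e : 16 * (4 * u * E ^ 95 * Y + 1 * (wb * (S.C * S.v) * 1 +
        wb * (2 + S.C ^ 2) * (S.C * S.v) * 1)) / (1 / (2 * S.C ^ 2)) = 32 * S.C ^ 2 *
        (wb * (32 * S.C ^ 2 * (E ^ 99 * Y) + (3 + S.C ^ 2) * (S.C * S.v))) := by
      rw [hwb]; field_simp; ring
    rw [e]
    gcongr
    linarith
  have t3 : 18 * (S.C * S.v / (1 / (2 * S.C ^ 2))) ^ 2 * ∑ k ∈ BA S M (N.rb m a),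
      wb * (M.z (k + 1) - M.z k) ≤ 72 * S.C ^ 4 * B * (wb * 1) := by
    refine mul_le_mul ?_ s2 (Finset.sum_nonneg V.w0) (by positivity)
    have e : 18 * (S.C * S.v / (1 / (2 * S.C ^ 2))) ^ 2 = 72 * S.C ^ 4 * (S.C * S.v) ^ 2 := by
      field_simp; norm_num
    rw [e]
    gcongr
  refine le_of_mul_le_mul_left (s3.trans ((mul_le_mul_of_nonneg_left (mn.trans
    (add_le_add (add_le_add t1 t2) t3)) (by positivity)).trans (le_of_eq ?_))) w0
  ring

theorem lab {z : ℕ → ℝ} (zm : Monotone z) {T : Finset ℕ} {x y : ℝ} (hxy : x ≤ y)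
    (h : ∀ k ∈ T, 1 ≤ k ∧ x ≤ z (k - 1) ∧ z k ≤ y) : ∑ k ∈ T, (z k - z (k - 1)) ≤ y - x := by
  rcases T.eq_empty_or_nonempty with rfl | hT
  · simpa using hxy
  have a1 := h _ (T.min'_mem hT)
  have a2 := h _ (T.max'_mem hT)
  have a3 := T.min'_le_max' hT
  refine (Finset.sum_le_sum_of_subset_of_nonneg (t := Ioc (T.min' hT - 1) (T.max' hT))
    (fun k hk => ?_) fun k _ _ => sub_nonneg.2 (zm (Nat.sub_le k 1))).trans ?_
  · have := T.min'_le k hk
    exact mem_Ioc.2 ⟨by omega, T.le_max' k hk⟩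
  · rw [SrP26.tele _ _ (by omega)]
    linarith [a1.2.1, a2.2.2]

theorem lab_sq {z f : ℕ → ℝ} (zm : Monotone z) {T : Finset ℕ} {x y D : ℝ} (hxy : x ≤ y)
    (h : ∀ k ∈ T, 1 ≤ k ∧ x ≤ z (k - 1) ∧ z k ≤ y ∧ |f k| ≤ D) :
    ∑ k ∈ T, (z k - z (k - 1)) * f k ^ 2 ≤ (y - x) * D ^ 2 := by
  refine le_trans (Finset.sum_le_sum fun k hk => mul_le_mul_of_nonneg_left
    (sq_le_sq' (abs_le.1 (h k hk).2.2.2).1 (abs_le.1 (h k hk).2.2.2).2)
    (sub_nonneg.2 (zm (Nat.sub_le k 1)))) ?_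
  rw [← Finset.sum_mul]
  exact mul_le_mul_of_nonneg_right
    (lab zm hxy fun k hk => ⟨(h k hk).1, (h k hk).2.1, (h k hk).2.2.1⟩) (sq_nonneg _)

theorem bot_node (H : Cl S M) (r0 : ∀ k, 0 ≤ r k) {y : ℝ} (hl : M.s S.jl ≤ y)
    (hv : S.C * S.v ≤ y) {k : ℕ} (h1 : S.jl < k) (h2 : k < S.J)
    (h : M.z k + 1 / (2 * S.C ^ 2) * (r k - M.q k) ≤ M.z (S.jl + 1)) :
    M.z k ≤ 9 * S.C * y ∧ |r k - M.q k| ≤ 10 * S.C ^ 2 * y := by
  have i1 := H.i1
  have C1 := H.C1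
  have v0 := H.v0
  have y0 : 0 ≤ y := le_trans (by positivity) hv
  have a1 : M.z (S.jl + 1) ≤ M.z k := H.leg.zm h1
  have a2 : r k - M.q k ≤ 0 := by
    by_contra hc
    have : 0 < 1 / (2 * S.C ^ 2) * (r k - M.q k) := mul_pos (by positivity) (not_le.1 hc)
    linarith
  have a3 := H.q_le_s (h2.trans H.J_lt).le
  have a4 := (H.z_s (k := k) (by omega) h2).1
  rw [sub_le_iff_le_add, div_le_iff₀ H.C0] at a4
  have a5 := (H.z_s (k := S.jl + 1) (by omega) H.i2).2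
  have a6 := (H.ss S.jl H.jl_lt).2
  have vy : S.v ≤ y := (le_mul_of_one_le_left v0.le C1).trans hv
  have a7 : M.z (S.jl + 1) ≤ S.C * (4 * y) := a5.trans (by gcongr; linarith)
  have zp := (H.z_pos k).le
  have a8 : M.q k - r k ≤ (M.z k + y) * S.C := by nlinarith [r0 k]
  have a9 : 1 / (2 * S.C ^ 2) * (M.q k - r k) ≤ (M.z k + y) / 2 := by
    rw [one_div, inv_mul_le_iff₀ (by positivity)]
    refine a8.trans ?_
    have : S.C ≤ S.C ^ 2 := le_self_pow₀ C1 (by norm_num)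
    nlinarith
  have Cy : y ≤ S.C * y := le_mul_of_one_le_left y0 C1
  have b1 : M.z k ≤ 9 * S.C * y := by linarith
  refine ⟨b1, ?_⟩
  rw [abs_of_nonpos a2]
  nlinarith

theorem top_node (H : Cl S M) (hr : Monotone r) {R : ℝ} (hγ : M.s S.Jp - M.s S.J ≤ R)
    (hv : S.C * S.v ≤ R) (hΦ : M.sq S (fun k => r k - M.q k) ≤ 2 * R ^ 2) {k : ℕ}
    (h1 : S.jl < k) (h2 : k < S.J)
    (h : M.z (S.J - 1) < M.z k + 1 / (2 * S.C ^ 2) * (r k - M.q k)) :
    M.z (S.J - 1) - 9 * S.C * R ≤ M.z (k - 1) ∧ |r k - M.q k| ≤ 8 * S.C * R := by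
  have i1 := H.i1
  have i3 := H.i3
  have i4 := H.i4
  have C1 := H.C1
  have v0 := H.v0
  have c2 : 1 ≤ S.C ^ 2 := one_le_pow₀ C1
  have R0 : 0 ≤ R := le_trans (by positivity) hv
  have CR : R ≤ S.C * R := le_mul_of_one_le_left R0 C1
  have a1 : M.z k ≤ M.z (S.J - 1) := H.leg.zm (by omega)
  have a0 : 2 * S.C ^ 2 * (M.z (S.J - 1) - M.z k) < r k - M.q k := by
    rw [← sub_lt_iff_lt_add', one_div, lt_inv_mul_iff₀ (by positivity)] at h
    exact h
  have a2 : 0 ≤ r k - M.q k := le_trans (by nlinarith) a0.le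
  have a3 := q_z H (i := k) (k := S.J - 1) (by omega) (by omega) (by omega)
  have a4 := Md67.q_lip H (Nat.sub_le S.J 1) H.J_lt.le
  have a5 := (H.ss (S.J - 1) (by omega)).2
  rw [show S.J - 1 + 1 = S.J by omega] at a5
  have D8 : r k - M.q k ≤ 8 * S.C * R := by
    by_contra hc
    have b1 : ∀ j ∈ Icc S.J S.Jp, (M.z j - M.z (j - 1)) * (2 * S.C * R) ^ 2 ≤
        (M.z j - M.z (j - 1)) * (r j - M.q j) ^ 2 := fun j hj => by
      have j1 := mem_Icc.1 hj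
      have b2 := abs_le.1 (q_pl H j1.1 j1.2)
      have b3 := hr (show k ≤ j by omega)
      exact mul_le_mul_of_nonneg_left (pow_le_pow_left₀ (by positivity) (by linarith) 2)
        (sub_nonneg.2 (H.leg.zm (Nat.sub_le j 1)))
    have b2 := (Finset.sum_le_sum b1).trans ((sq_pl H fun k => r k - M.q k).trans hΦ)
    have e : Icc S.J S.Jp = Ioc (S.J - 1) S.Jp := by
      ext j; simp only [mem_Icc, mem_Ioc]; omega
    rw [← Finset.sum_mul, e, SrP26.tele _ _ (by omega), H.top _ le_rfl] at b2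
    have b3 := mul_le_mul_of_nonneg_right (show 1 / S.C ≤ 1 - M.z (S.J - 1) by
      linarith [H.atom.2]) (sq_nonneg (2 * S.C * R))
    have e2 : 1 / S.C * (2 * S.C * R) ^ 2 = 4 * (S.C * R ^ 2) := by field_simp; ring
    have b4 : R ^ 2 ≤ S.C * R ^ 2 := le_mul_of_one_le_left (sq_nonneg R) C1
    have R1 : 0 < R := lt_of_lt_of_le (by positivity) hv
    have : 0 < R ^ 2 := by positivity
    linarith
  refine ⟨?_, by rwa [abs_of_nonneg a2]⟩
  have b1 := (dx_le H h1 h2).2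
  have b2 : M.z (S.J - 1) - M.z k ≤ 2 * S.C ^ 2 * (M.z (S.J - 1) - M.z k) :=
    le_mul_of_one_le_left (sub_nonneg.2 a1) (by linarith)
  linarith

theorem sum_cover {f : ℕ → ℝ} (hf : ∀ k, 0 ≤ f k) {T A₁ A₂ : Finset ℕ} (h : T ⊆ A₁ ∪ A₂) :
    ∑ k ∈ T, f k ≤ ∑ k ∈ A₁, f k + ∑ k ∈ A₂, f k := by
  have a1 := Finset.sum_le_sum_of_subset_of_nonneg h fun k _ _ => hf k
  have a2 := Finset.sum_union_inter (s₁ := A₁) (s₂ := A₂) (f := f)
  have a3 : 0 ≤ ∑ k ∈ A₁ ∩ A₂, f k := Finset.sum_nonneg fun k _ => hf k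
  linarith

/-- **the nodes that are not moved** -/
theorem rest (H : Cl S M) (hr : Monotone r) (r0 : ∀ k, 0 ≤ r k) (r1 : ∀ k, r k ≤ 1) {y R : ℝ}
    (hl : M.s S.jl ≤ y) (hv : S.C * S.v ≤ y) (hγ : M.s S.Jp - M.s S.J ≤ R) (hv' : S.C * S.v ≤ R)
    (hΦ : M.sq S (fun k => r k - M.q k) ≤ 2 * R ^ 2) :
    ∑ k ∈ Ioc S.jl (S.J - 1), (M.z k - M.z (k - 1)) * (r k - M.q k) ^ 2 ≤
      ∑ k ∈ BA S M r, (M.z k - M.z (k - 1)) * (r k - M.q k) ^ 2 +
        (S.C * S.v + (900 * S.C ^ 5 * y ^ 3 + 576 * S.C ^ 3 * R ^ 3)) := by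
  classical
  have i2 := H.i2
  have C0 := H.C0
  have v0 := H.v0
  have y0 : 0 ≤ y := le_trans (by positivity) hv
  have R0 : 0 ≤ R := le_trans (by positivity) hv'
  have hf : ∀ k, 0 ≤ (M.z k - M.z (k - 1)) * (r k - M.q k) ^ 2 := fun k =>
    mul_nonneg (sub_nonneg.2 (H.leg.zm (Nat.sub_le k 1))) (sq_nonneg _)
  refine (sum_cover hf (A₁ := BA S M r) (A₂ := {S.J - 1} ∪ (((Ioc S.jl (S.J - 1)).filter fun k =>
    M.z k + 1 / (2 * S.C ^ 2) * (r k - M.q k) ≤ M.z (S.jl + 1)) ∪ (Ioc S.jl (S.J - 1)).filter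
      fun k => M.z (S.J - 1) < M.z k + 1 / (2 * S.C ^ 2) * (r k - M.q k))) fun k hk => ?_).trans
    (add_le_add le_rfl ((sum_cover hf subset_rfl).trans (add_le_add ?_
      ((sum_cover hf subset_rfl).trans (add_le_add ?_ ?_)))))
  · have k1 := mem_Ioc.1 hk
    simp only [BA, mem_union, mem_filter, mem_singleton, mem_Ico]
    rcases k1.2.eq_or_lt with e | e
    · exact Or.inr (Or.inl e)
    rcases le_or_gt (M.z k + 1 / (2 * S.C ^ 2) * (r k - M.q k)) (M.z (S.jl + 1)) with e1 | e1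
    · exact Or.inr (Or.inr (Or.inl ⟨hk, e1⟩))
    rcases le_or_gt (M.z k + 1 / (2 * S.C ^ 2) * (r k - M.q k)) (M.z (S.J - 1)) with e2 | e2
    · exact Or.inl ⟨⟨k1.1, e⟩, e1, e2⟩
    · exact Or.inr (Or.inr (Or.inr ⟨hk, e2⟩))
  · rw [Finset.sum_singleton]
    have a1 := (dx_le H (k := S.J - 1) (by omega) (by omega)).2
    have a2 : (r (S.J - 1) - M.q (S.J - 1)) ^ 2 ≤ 1 := by
      have := r0 (S.J - 1)
      have := r1 (S.J - 1)
      have := Md67.q_nonneg (M := M) (S.J - 1)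
      have := Md67.q_le_one (M := M) (S.J - 1)
      nlinarith
    exact (mul_le_mul a1 a2 (sq_nonneg _) (by positivity)).trans_eq (mul_one _)
  · refine (lab_sq H.leg.zm (x := 0) (y := 9 * S.C * y) (D := 10 * S.C ^ 2 * y) (by positivity)
      fun k hk => ?_).trans (le_of_eq (by ring))
    have k1 := mem_Ioc.1 (mem_filter.1 hk).1
    exact ⟨by omega, (H.z_pos _).le, bot_node H r0 hl hv k1.1 (by omega) (mem_filter.1 hk).2⟩
  · refine (lab_sq H.leg.zm (x := M.z (S.J - 1) - 9 * S.C * R) (y := M.z (S.J - 1))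
      (D := 8 * S.C * R) (by linarith [mul_nonneg C0.le R0]) fun k hk => ?_).trans
      (le_of_eq (by ring))
    have k1 := mem_Ioc.1 (mem_filter.1 hk).1
    have := top_node H hr hγ hv' hΦ k1.1 (by omega) (mem_filter.1 hk).2
    exact ⟨by omega, this.1, H.leg.zm k1.2, this.2⟩

/-- the base part, pointwise -/
theorem base_pt {Λ : ℝ} (H : Cl S M) (h : SH E S M l Ys Y) (Xc : Ax E S M Y c) (n : Nb E Λ S Y)
    (CE : S.C ≤ E) (hu : 0 < u) (hm : 0 < m) (ez : N.z = M.z) (eq : N.q = M.q)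
    (hΦ : N.Phi S m a ≤ 2 * (E ^ 100 * Y)) (hB : E ^ 99 * Y ≤ B)
    (D : Dbl E S M m a Y c u N B (4 * u * E ^ 95 * Y)) :
    ∑ k ∈ Ioc S.jl (S.J - 1), M.dx k * N.del m a k ^ 2 ≤ Λ * B := by
  have C1 := H.C1
  have E1 := n.E1
  have v0 := H.v0
  obtain ⟨Y0, Λ1, YT, u00, u3, Tu, -, Cv, -, -⟩ := n.nc C1
  generalize (E ^ 99 * Y) ^ ((1 : ℝ) / 3) = u0 at *
  have B0 : 0 < B := lt_of_lt_of_le (by positivity) hB
  have EY : E ^ 102 * Y ≤ 1 :=
    (le_mul_of_one_le_right (by positivity) (one_le_pow₀ (by linarith))).trans n.TΛ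
  have Y1 : Y ≤ 1 := (le_mul_of_one_le_left Y0.le (one_le_pow₀ E1)).trans EY
  have YP : Y ≤ E ^ 100 * Y := le_mul_of_one_le_left Y0.le (one_le_pow₀ E1)
  have hΦ' : M.sq S (fun k => N.rb m a k - M.q k) ≤ 2 * (E ^ 100 * Y) := by
    simpa only [Md.Phi, Md.sq, Md.dx, Md.del, ez, eq] using hΦ
  have mv := move H E1 CE hu Xc Y0 Y1 Cv hm hΦ' hB D
  have lu : l ≤ u0 := le_of_pow_le_pow_left₀ (n := 3) (by norm_num) u00.le
    (by rw [u3]; exact h.l3.trans YT)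
  have R2 : √(E ^ 100 * Y) ^ 2 = E ^ 100 * Y := sq_sqrt (by positivity)
  have R0 := sqrt_nonneg (E ^ 100 * Y)
  have g1 : M.s S.Jp - M.s S.J ≤ √(E ^ 100 * Y) := le_sqrt_of_sq_le (h.flat.trans YP)
  have g2 : S.C * S.v ≤ √(E ^ 100 * Y) := le_sqrt_of_sq_le
    ((pow_le_pow_left₀ (by positivity) Cv 2).trans (le_trans (by nlinarith) YP))
  have rs := rest H (Md67.rb_mono (M := N) (a := a) hm) (Md67.rb_nonneg hm) (Md67.rb_le_one hm)
    (h.jl.trans lu) (Cv.trans (YT.trans Tu)) g1 g2 (by rw [R2]; exact hΦ')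
  have R3 : √(E ^ 100 * Y) ^ 3 ≤ B := by
    have a1 : E * √(E ^ 100 * Y) ≤ 1 := by
      refine pow_le_one_iff_of_nonneg (n := 2) (by positivity) (by norm_num) |>.1 ?_
      rw [mul_pow, R2]
      linarith
    have e : √(E ^ 100 * Y) ^ 3 = E * √(E ^ 100 * Y) * (E ^ 99 * Y) := by
      rw [pow_succ, R2]; ring
    rw [e]
    exact (mul_le_of_le_one_left (by positivity) a1).trans hB
  rw [u3] at rs
  have c30 : ∀ i ≤ 30, S.C ^ i ≤ S.C ^ 30 := fun i hi => pow_le_pow_right₀ C1 hi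
  have b1 := mul_le_mul_of_nonneg_right (c30 6 (by norm_num)) B0.le
  have b2 := mul_le_mul (c30 5 (by norm_num)) hB (by positivity) (by positivity)
  have b3 := mul_le_mul (c30 3 (by norm_num)) R3 (by positivity) (by positivity)
  have b4 := mul_le_mul_of_nonneg_right (c30 0 (by norm_num)) B0.le
  have b5 := mul_le_mul_of_nonneg_right n.big B0.le
  simp only [Md.dx, Md.del, eq]
  linarith

end Crest.Agent.T156.Alt.Mov74

namespace Crest.Agent.T156.Alt.Sr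

open Real Mov74

/-- **the base moves** -/
theorem movB' : MovB := by
  unfold MovB SR
  refine CL.glue CL.triv fun C => ⟨2, fun A _ ε η hε hη => ⟨ε, min (min η ε) (1 / 30),
    10 ^ 12 * C ^ 30, hε, by positivity, ?_⟩⟩
  intro S M m a R H _ _ l Ys Y c D a1 _ a3 _ u N B b1 b2 _ b4 b5 b6 b7 _ b9
  have m1 := min_le_left (min η ε) (1 / 30)
  have n := nb_of R hε (by push_cast; linarith [min_le_right (min η ε) (1 / 30)]) H a1
  refine (base_pt H a1 a3 n ((R.C_le H).trans (rpow_le_rpow_of_exponent_le R.N1.le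
    (m1.trans (min_le_right _ _)))) b1 b2 b4 b5 b6 b7 b9).trans (mul_le_mul_of_nonneg_right
      (rpow_le_rpow_of_exponent_le R.N1.le (m1.trans (min_le_left _ _))) ?_)
  have := (n.nc H.C1).Y0
  have := R.rp0 ε
  exact le_trans (by positivity) b7

/-- **base and plateau moves** -/
theorem movS : MovS := movS_of movB'

end Crest.Agent.T156.Alt.Sr

end
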