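import Crest.Agent.T156.SrGl_46
import Crest.Agent.T156.Clk_64
import Crest.Agent.T156.SrInvB_71
import Crest.Agent.T156.SrDbl_63
import Crest.Agent.T156.SrMvA_74
import Crest.Agent.T156.SrW_17
import Crest.Agent.T156.SrLin_34

/-!
# Row 156, soft recursion: the output from the linear and the terminal statement (helper46)
-/

set_option autoImplicit false

noncomputable section

namespace Crest.Agent.T156.Alt.Sr

open Real

theorem dblS : DblS := dblG invS remS

/-- **SR member by member**: any form of the terminal statement can be plugged -/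
theorem srAt' : SrAt := srAt Clk64.clkS invS dblS movS linS2

theorem out_of (K : ℕ) (hK : 1 ≤ K) (ht : Term K) : Out K :=
  srG2 Clk64.clkS invS dblS movS linS2 K hK ht

/-- the data of the variance bound at the margin `E` -/
theorem SX.vh' {K : ℕ} {E l lm Ys Y : ℝ} {S : Sc} {M : Md} (x : SX K E S M l lm Ys Y) (hK : 1 ≤ K)
    (hE : 1 ≤ E) (c : Cl S M) (s : SH E S M l Ys Y) : VH E S M l lm Y := by
  have Y0 : 0 < Y := (rpow_pos_of_pos c.N0 _).trans_le s.Y0
  have Y1 : 0 < Yd K E Y := (rpow_pos_of_pos c.N0 _).trans_le x.vh.Y0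
  have e : Yd K E Y ≤ Y := div_le_self Y0.le (one_le_pow₀ hE)
  have l0 : 0 < l := (c.s_pos (c.i0.trans c.i1)).trans_le s.jl
  have w0 : 0 ≤ S.w3 l := by
    have := c.ms_pos l0.le
    have := c.F1
    unfold Sc.w3
    positivity
  exact ⟨s.jj, s.jl, s.l3, (mul_le_mul_of_nonneg_right (pow_le_pow_left₀ (by linarith)
    (le_self_pow₀ hE (by omega)) 39) w0).trans x.vh.wl,
    fun t a b => (x.vh.bas t a b).trans (pow_le_pow_left₀ Y1.le e 3), s.ue, s.u0, x.vh.lm0,
    x.vh.w1.trans (mul_le_mul_of_nonneg_right e x.vh.lm0.le),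
    fun y a b => x.vh.den y a (by linarith), x.vh.dj, s.ck, s.Y0, s.Y1⟩

/-- **SR without the variance hypothesis** -/
def OutV (K : ℕ) : Prop := CL fun E _ S M m a => ∀ l lm Ys Y, SH E S M l Ys Y →
  SX K E S M l lm Ys Y → M.Phi S m a ≤ 2 * (E ^ 100 * Y)

theorem outV_of {K : ℕ} (hK : 1 ≤ K) (h : Out K) : OutV K := by
  have v := V17.varS
  unfold VarS at v
  unfold Out at h
  exact (h.and v).mono fun E _ S M m a hE _ c _ ⟨h, v⟩ l lm Ys Y s x =>
    h l lm Ys Y s x (v l lm Y (x.vh' hK hE c s))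

theorem srS2_of (ht : TermS2) : SrS2 := ht.imp fun K h => ⟨h.1, out_of K h.1 h.2⟩

theorem outV (ht : TermS2) : ∃ K, 1 ≤ K ∧ Out K ∧ OutV K :=
  ht.imp fun K h => ⟨h.1, out_of K h.1 h.2, outV_of h.1 (out_of K h.1 h.2)⟩

end Crest.Agent.T156.Alt.Sr

end
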