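import Crest.Agent.T156.LoQ_64

/-!
# Row 156 (helper82): the three regimes of `SupT`
-/

set_option autoImplicit false

noncomputable section

namespace Crest.Agent.T156.Alt.Sup82

open Real
open Crest.Agent.T156.Alt.Tp4 Crest.Agent.T156.Alt.Lp64
open Crest.Agent.T156.Alt.L63 (TL2x TL2y TLq)
open Crest.Agent.T156.Alt.L62 (TLp)
open Crest.Agent.T156.Alt.R77 (Dt OnG Topx)

/-- regime of `TLp` -/
def RP (p : Pm) (_ t : ℝ) : Prop :=
  logb p.n (p.muG t) ≤ -(4 / 15) + 4 / 5 * logb p.n p.s - p.c / 4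
/-- regime of `TLq` -/
def RQ (p : Pm) (_ t : ℝ) : Prop :=
  -(4 / 15) + 4 / 5 * logb p.n p.s - p.c / 4 ≤ logb p.n (p.muG t) ∧ logb p.n (p.muG t) ≤ -(1 / 6)
/-- regime of `LO` -/
def RL (p : Pm) (_ t : ℝ) : Prop := -(1 / 6) ≤ logb p.n (p.muG t)

/-- the leaf of regime P -/
def SupP (e : ℝ) : Dt := fun p σ t S M => RP p σ t → SupT e p σ t S M
/-- the leaf of regime Q -/
def SupQ (e : ℝ) : Dt := fun p σ t S M => RQ p σ t → SupT e p σ t S M

theorem supT_of {β e : ℝ} (hp : OnG (SupP e) β) (hq : OnG (SupQ e) β) (hl : OnG (LoT e RL) β) :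
    OnG (SupT e) β :=
  supT_split hl fun K k => ((hp.and hq) K k).mono fun _ p w c0 C0 η σ t Q a b c r => by
    obtain ⟨w1, w2⟩ := w c0 C0 η σ t Q a b c
    rcases le_total (logb p.n (p.muG t)) (-(4 / 15) + 4 / 5 * logb p.n p.s - p.c / 4) with h | h
    · exact w1 h
    · exact w2 ⟨h, (not_le.1 r).le⟩

/-- **`Topx`** from block (L) and the three tables -/
theorem topx {β e : ℝ} (hβ : 1 < β) (he : 0 < e) (hx : TL2x) (hy : TL2y) (hp : TLp) (hq : TLq)
    (h1 : OnG (SupP e) β) (h2 : OnG (SupQ e) β) (h3 : OnG (TabT e RL) β) : OnG Topx β :=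
  topx_of hβ he hx hy hp hq (supT_of h1 h2 (loT_of hβ he hy h3))

end Crest.Agent.T156.Alt.Sup82

end
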