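import Crest.Agent.T156.SwGF_2
import Crest.Agent.T156.R1MK_77

/-!
# Row 156: the switch on the graded path from `LocG` (helper2)
-/

set_option autoImplicit false

namespace Crest.Agent.T156.Alt

open Real Set Filter R62 R77

theorem tw2_le_top {K c0 C0 η σ σ' : ℝ} {p : Pm} {Q : Pl} (D : GrD K c0 C0 η p σ σ' Q) (m : ℕ)
    (a : ℝ) : p.tw2 Q (p.gst Q σ') m a ≤
      ∑ k ∈ sb (p.scG K σ σ' Q) (p.gst Q σ') (T0 (p.scG K σ σ' Q) (p.gst Q σ') / 4)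
        (p.scG K σ σ' Q).C ∪ Finset.Icc (p.scG K σ σ' Q).J (p.scG K σ σ' Q).Jp,
        lw (p.gst Q σ') k * (p.gst Q σ').del m a k ^ 2 := by
  have c := D.cl.1
  refine Finset.sum_le_sum_of_subset_of_nonneg (fun k hk => ?_) fun k _ _ =>
    mul_nonneg (sub_nonneg.2 (c.leg.zm (Nat.sub_le k 1))) (sq_nonneg _)
  obtain ⟨h1, -, h2⟩ := Finset.mem_filter.1 hk
  obtain ⟨h3, h4⟩ := Finset.mem_Ioc.1 h1
  rcases lt_or_ge k p.J with e | e
  · refine Finset.mem_union_left _ (Finset.mem_filter.2 ⟨Finset.mem_Ioo.2 ⟨h3, e⟩, ?_,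
      (c.sm h4).trans c.sT⟩)
    have : (p.gst Q σ').s (p.scG K σ σ' Q).J = p.J * p.v := D.memD.geo.sP_J
    unfold T0
    linarith
  · exact Finset.mem_union_right _ (Finset.mem_Icc.2 ⟨e, h4⟩)

theorem nr_top {E δ l Φ l0 Λ Pt u1 V4 : ℝ} {P : ℝ → ℝ} {p : Pm} {S : Sc} {M : Md}
    (r : R82.NR E δ p S M l Φ P l0 Λ Pt u1 V4) (h : 0 ≤ S.θ) : S.θ * Pt ≤ δ ^ 2 * R82.n4 p := by
  obtain ⟨u0, u1, -, u2⟩ := r.Pt0
  have a : 0 ≤ p.r ^ 4 := by positivity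
  have e : S.θ * 1 * Pt ≤ S.θ * Λ * (Pt + V4 + p.r ^ 4) :=
    mul_le_mul (mul_le_mul_of_nonneg_left r.L1 h) (by linarith) (u0.trans u1)
      (mul_nonneg h (by linarith [r.L1]))
  linarith [r.c]

/-- **`SwG` from the producer statement of the tested path** -/
theorem swG_of_locG {β : ℝ} (hβ : 1 < β) (hL : LocG β) : Gain β SwG := by
  refine swG_of_K hβ fun K hK => ((hL K hK).monoC (Q := fun _ => SwT K) ?_).ev fun _ _ H => H
  intro c1 C1 c' p x H c0 C0 η σ σ' P P' t o hP hP' ht D m a w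
  obtain ⟨b, -, ⟨_, -, -, r⟩, -, L⟩ := H c0 C0 η σ σ' _ o D (Or.inr ⟨P, P', t, ht, hP, hP', rfl⟩)
  refine ((tw2_le_top D m a).trans (L m a ⟨w.m1, w.m2, w.a1, w.a2⟩).top).trans ?_
  have m0 : 0 < p.muG σ' := D.top ▸ D.memD.msp zero_le_one
  have c : p.msG σ' 1 * b.Pt ≤ _ := nr_top r (D.memD.msp zero_le_one).le
  rw [D.top] at c
  have d : ((p.n : ℝ) ^ (-c')) ^ 2 ≤ 1 := pow_le_one₀ (by positivity)
    (rpow_le_one_of_one_le_of_nonpos x.one_le_n (by linarith [x.η_pos]))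
  have s0 := x.s_pos
  have e1 : ((p.n : ℝ) ^ (-c')) ^ 2 * R82.n4 p ≤ p.s ^ 8 * (p.n : ℝ) ^ (-(2 : ℝ) / 3) := by
    unfold R82.n4
    rw [mul_comm (p.s ^ 8)]
    exact (mul_le_of_le_one_left (by positivity) d).trans (mul_le_mul_of_nonneg_left
      (pow_le_pow_right₀ x.ok.s1 (by norm_num)) (by positivity))
  rw [le_div_iff₀' m0]
  linarith

end Crest.Agent.T156.Alt
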