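import Crest.Agent.T156.R1Tp_4
import Crest.Agent.T156.R1LocB_77
import Crest.Agent.T156.TLp_62
import Crest.Agent.T156.TLqD_53

/-!
# Row 156 (helper4): `Topx` from the theorems of block (L) and the numbers on the graded path
-/

set_option autoImplicit false
set_option linter.unusedSectionVars false

noncomputable section

namespace Crest.Agent.T156.Alt.Tp4

open Real Finset
open Crest.Agent.T156.Alt.L69
open Crest.Agent.T156.Alt.L63 (Hy TP TL2x TL2y TLq)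
open Crest.Agent.T156.Alt.L62 (TLp)
open Crest.Agent.T156.Alt.R62 (lw sb pl ls T0)
open Crest.Agent.T156.Alt.R77 (Dt OnG Topx)

/-- **the numbers**: one of three regimes (`E = n ^ (e c)`) -/
def SupT (e : ℝ) : Dt := fun p σ t S M => ∀ m a, S.In m a → M.Phi S m a ≤ p.PhN t →
  p.PtN σ t < p.PhN t →
  ∃ G1 u1 u2 j γ Lc ηc τ l0 l X Xp Vt Lg Lp X2 X3 X4 G0 η N g t1 tu ℓ En p0,
    Hy ((p.n : ℝ) ^ (e * p.c)) S M m a G1 u1 u2 j γ Lc ηc τ l0 l X Xp Vt Lg Lp X2 X3 X4 G0 η N g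
      t1 tu ℓ En p0 ∧
    ((u2 ≤ Bt p σ t ∧ En + t1 * p0 ^ 2 ≤ p.muG t * Bt p σ t) ∨
      (tu = M.s S.J ∧
        (∀ y, M.s S.J / 64 ≤ y → y ≤ M.s S.J → (p0 + bs S Lg X2 (g y) η y) ^ 2 ≤ Bt p σ t) ∧
        ((∃ α Pq, L62.LQ ((p.n : ℝ) ^ (e * p.c)) S M X Xp Vt Lg Lp X2 G0 u1 u2 j γ η g ℓ α p0 Pq ∧
            Pq ≤ Bt p σ t) ∨
          ((p.n : ℝ) ^ (e * p.c) * X ≤ ℓ ^ 3 ∧ ∃ aa g' R2,
            L63.LQ ((p.n : ℝ) ^ (e * p.c)) S M X Xp Vt Lg Lp X2 G0 u1 u2 j γ η aa g' R2 ∧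
            p0 ^ 2 + (ℓ + X ^ ((1 : ℝ) / 3) + M.s S.jl) * (j + bs S Lg X2 g' η (M.s S.J)) ^ 2 +
              aa ^ 3 + R2 ≤ Bt p σ t))))

section cl

variable {E : ℝ} {S : Sc} {M : Md} {m : ℕ} {a G1 u1 u2 j γ Lc ηc τ l0 l X Xp Vt Lg Lp X2 X3 X4 G0 : ℝ}
  {η : ℝ → ℝ} {N : ℝ} {g : ℝ → ℝ} {t1 tu ℓ En p0 : ℝ}
  (H : Hy E S M m a G1 u1 u2 j γ Lc ηc τ l0 l X Xp Vt Lg Lp X2 X3 X4 G0 η N g t1 tu ℓ En p0)
  (hE : 128 ≤ E)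
include H hE

theorem l_pos : 0 < l :=
  (mul_pos (by linarith) (rpow_pos_of_pos H.ln.X0 _)).trans_le H.lt.lX

theorem t1_le : 128 * t1 ≤ tu := by
  have := l_pos H hE
  nlinarith [H.lt.t1a, H.lt.t1b]

theorem ℓ_nn : 0 ≤ ℓ := (mul_nonneg (by linarith) (sqrt_nonneg _)).trans H.lt.ℓ1

/-- `Hy` is monotone in `ℓ` -/
theorem hy_max (F1 : 1 ≤ S.F) : Hy E S M m a G1 u1 u2 j γ Lc ηc τ l0 l X Xp Vt Lg Lp X2 X3 X4 G0 η N g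
    t1 tu (max ℓ l) En p0 ∧ E * X ≤ max ℓ l ^ 3 ∧ 128 * max ℓ l ≤ tu := by
  have l0 := l_pos H hE
  have q0 := ℓ_nn H hE
  have L0 : 0 ≤ Lg := le_trans (by positivity) H.ln.Lg0
  have a := le_max_left ℓ l
  have b := mul_le_mul_of_nonneg_left a L0
  have T := H.lt
  have d : E * max ℓ l ≤ tu := by
    rcases max_choice ℓ l with e | e <;> rw [e]
    · exact T.ℓ2
    · nlinarith [T.t1a, T.t1b]
  refine ⟨⟨H.ce, H.ln, H.lp, H.ap, ⟨T.F1, T.l2, T.g0, fun t k a1 a2 a3 a4 a5 =>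
    T.g1 t k a1 a2 a3 a4 (by linarith), T.g2, T.gl, T.lX, T.Lg3.trans b, T.ml, T.ℓ1.trans a, d, T.tu1,
    T.t1a, T.t1b, T.t1c, T.x4, T.en, T.pa, T.pc.1, T.pc.2.trans a⟩, H.jg.trans b⟩, ?_, by nlinarith⟩
  have r := rpow_pos_of_pos H.ln.X0 ((1 : ℝ) / 3)
  have e : (X ^ ((1 : ℝ) / 3)) ^ 3 = X := by
    rw [← rpow_natCast, ← rpow_mul H.ln.X0.le]; norm_num
  have f := pow_le_pow_left₀ (by positivity) (T.lX.trans (le_max_right ℓ l)) 3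
  rw [mul_pow, e] at f
  refine le_trans (mul_le_mul_of_nonneg_right ?_ H.ln.X0.le) f
  nlinarith [mul_le_mul hE hE (by norm_num) (by linarith)]

end cl

section win

variable {S : Sc} {M : Md} {m : ℕ} {a ℓ : ℝ}

theorem wn_P (c : Cl S M) (h : 4 * ℓ ≤ M.s S.J) : Wn S M m a ℓ ≤
    ∑ k ∈ (Ioo S.jl S.J).filter fun k => 3 / 4 * M.s S.J ≤ M.s k, dx M k * M.del m a k ^ 2 +
      Pla M S m a 2 := by
  have e : Pla M S m a 2 = ∑ k ∈ Icc S.J S.Jp, lw M k * M.del m a k ^ 2 :=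
    sum_congr rfl fun k _ => by rw [sq_abs]; rfl
  set A := (Ioo S.jl S.J).filter fun k => 3 / 4 * M.s S.J ≤ M.s k
  have h0 := sum_union_inter (s₁ := A) (s₂ := Icc S.J S.Jp)
    (f := fun k => lw M k * M.del m a k ^ 2)
  have h1 := sum_nonneg fun k (_ : k ∈ A ∩ Icc S.J S.Jp) => term_nn c (M.del m a) k
  have h2 : Wn S M m a ℓ ≤ ∑ k ∈ A ∪ Icc S.J S.Jp, lw M k * M.del m a k ^ 2 :=
    sum_le_sum_of_subset_of_nonneg (fun k hk => by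
      obtain ⟨b, d⟩ := mem_filter.1 hk
      have b := mem_Ioc.1 b
      rcases lt_or_ge k S.J with r | r
      · exact mem_union_left _ (mem_filter.2 ⟨mem_Ioo.2 ⟨b.1, r⟩, by linarith⟩)
      · exact mem_union_right _ (mem_Icc.2 ⟨r, b.2⟩)) fun k _ _ => term_nn c _ k
  rw [e]
  change _ ≤ ∑ k ∈ A, lw M k * M.del m a k ^ 2 + _
  linarith

theorem wn_Q (c : Cl S M) : Wn S M m a ℓ ≤ M.En S m a M.q 2 (M.s S.J - ℓ) S.C := by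
  have i1 := c.i1
  have e : M.En S m a M.q 2 (M.s S.J - ℓ) S.C =
      ∑ k ∈ M.blk S (M.s S.J - ℓ) S.C, lw M k * M.del m a k ^ 2 :=
    sum_congr rfl fun k _ => by rw [sq_abs]; rfl
  rw [e]
  exact sum_le_sum_of_subset_of_nonneg (fun k hk => by
    obtain ⟨b, d⟩ := mem_filter.1 hk
    have b := mem_Ioc.1 b
    exact mem_filter.2 ⟨mem_Ioc.2 ⟨by omega, b.2⟩, by linarith, c.s_le_C b.2⟩)
    fun k _ _ => term_nn c _ k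

theorem sup_D {Λ x y B : ℝ} (hΛ : 0 ≤ Λ) (h : |x| ≤ Λ * y) (hB : y ^ 2 ≤ B) : |x| ≤ Λ * √B :=
  h.trans (mul_le_mul_of_nonneg_left (le_sqrt_of_sq_le hB) hΛ)

end win

/-- **`Tpx`** -/
theorem tpx_of {β e : ℝ} (hβ : 1 < β) (he : 0 < e) (hx : TL2x) (hy : TL2y) (hp : TLp) (hq : TLq)
    (h : OnG (SupT e) β) : OnG Tpx β := by
  refine OnG.cl' hβ ((hx.and hy).and (hp.and hq)) h he (show (0 : ℝ) < 1 / 2000 by norm_num)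
    (⌈1 / e⌉₊ + 10000) 0 (fun _ => 1) ?_
  intro K c0 C0 A c η K' c0' C0' η' p σ t Q G hc _ hη _ Z Y m a hm h1 h2
  have R := G.R
  have η0 := R.η_pos
  have ce : (1 / e) * η ≤ ⌈1 / e⌉₊ * η := mul_le_mul_of_nonneg_right (Nat.le_ceil _) η0.le
  have ce0 : 0 ≤ (⌈1 / e⌉₊ : ℝ) * η := by positivity
  push_cast at hη
  have X : Nr44.Cx β c0 C0 A c η K' p σ t := ⟨R, hc, by linarith, G.O⟩
  have ηe : η ≤ e * c := by
    have : (1 / e) * η ≤ c := by linarith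
    rw [div_mul_eq_mul_div, one_mul, div_le_iff₀' he] at this
    exact this
  have hE : 128 ≤ (p.n : ℝ) ^ (e * c) :=
    le_trans (by norm_num) (R.num_le.trans (Pre29.rp_le R.n1 ηe))
  obtain ⟨⟨zx, zy⟩, zp, zq⟩ := Z m a hm
  obtain ⟨G1, u1, u2, j, γ, Lc, ηc, τ, l0, l, X', Xp, Vt, Lg, Lp, X2, X3, X4, G0, ζ, N, g, t1, tu, ℓ,
    En, p0, H, r⟩ := Y m a hm h1 h2
  rw [R.hc] at H r
  have cl := G.D.cl.1
  have B0 := Bt0 X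
  have Λ0 := R.Λ0
  have Λ1 : (p.n : ℝ) ^ η ≤ (p.n : ℝ) ^ (p.c / 100) :=
    Pre29.rp_le R.n1 (by rw [R.hc]; linarith [X.hη])
  have Λ2 : 3 * ((p.n : ℝ) ^ η) ≤ (p.n : ℝ) ^ (p.c / 100) ∧
      ((p.n : ℝ) ^ η) ^ 2 ≤ (p.n : ℝ) ^ (p.c / 100) := by
    have b : ((p.n : ℝ) ^ η) ^ 2 ≤ (p.n : ℝ) ^ (p.c / 100) := by
      rw [← rpow_natCast, ← rpow_mul R.N0.le]
      exact Pre29.rp_le R.n1 (by rw [R.hc]; push_cast; linarith [X.hη])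
    exact ⟨by nlinarith [R.num_le], b⟩
  have sD : ((p.n : ℝ) ^ η * √(Bt p σ t)) ^ 2 ≤ (p.n : ℝ) ^ (p.c / 100) * Bt p σ t := by
    rw [mul_pow, sq_sqrt B0.le]
    exact mul_le_mul_of_nonneg_right Λ2.2 B0.le
  have tt := t1_le H hE
  have lp := l_pos H hE
  rcases r with ⟨r1, r2⟩ | ⟨rfl, r1, ⟨α, Pq, r2, r3⟩ | ⟨r2, aa, g', R2, r3, r4⟩⟩
  · exact .inl ⟨_, _, _, _, (zy _ _ _ _ _ _ _ _ _ _ _ _ _ _ _ _ _ _ _ _ _ _ _ _ _ _ _ H).1, Λ0.le, Λ1,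
      by rw [T0]; linarith [H.lt.tu1], r1, .inl r2⟩
  · obtain ⟨H', b1, b2⟩ := hy_max H hE cl.F1
    have s := (zx _ _ _ _ _ _ _ _ _ _ _ _ _ _ _ _ _ _ _ _ _ _ _ _ _ _ _ H' (.inl b1)).1
    have q0 := (ℓ_nn H hE).trans (le_max_left ℓ l)
    refine .inr ⟨max ℓ l, _, q0, fun k _ k2 k3 k4 => ?_, sD, (wn_P cl (by linarith)).trans
      ((zp _ _ _ _ _ _ _ _ _ _ _ _ _ _ _ _ _ _ _ _ _ _ _ _ _ _ _ _ H r2).trans
        ((mul_le_mul_of_nonneg_left r3 Λ0.le).trans (mul_le_mul_of_nonneg_right Λ1 B0.le)))⟩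
    rw [T0] at k3
    exact sup_D Λ0.le (s k (by linarith [H.lt.t1a]) k4) (r1 _ (by linarith) (cl.sm k2.le))
  · have s := (zx _ _ _ _ _ _ _ _ _ _ _ _ _ _ _ _ _ _ _ _ _ _ _ _ _ _ _ H (.inl r2)).1
    refine .inr ⟨ℓ, _, ℓ_nn H hE, fun k _ k2 k3 k4 => ?_, sD, (wn_Q cl).trans
      ((zq _ _ _ _ _ _ _ _ _ _ _ _ _ _ _ _ _ _ _ _ _ _ _ _ _ _ H _ _ _ r3).trans
        ((mul_le_mul_of_nonneg_left (c := 3 * Bt p σ t) ?_ Λ0.le).trans ?_))⟩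
    · rw [T0] at k3
      exact sup_D Λ0.le (s k (by linarith [H.lt.t1a]) k4) (r1 _ (by linarith) (cl.sm k2.le))
    · have a1 := G_Bt X G.D G.X G.BK ((p.gst Q t).s (p.scG K σ t Q).J - ℓ) (p.scG K σ t Q).C
      have a2 : 1 / ((p.scG K σ t Q).n : ℝ) ^ 2 ≤ _ := n_Bt X G.D G.X
      linarith
    · linarith [mul_le_mul_of_nonneg_right Λ2.1 B0.le]

/-- **`Topx`** from block (L) and the numbers -/
theorem topx_of {β e : ℝ} (hβ : 1 < β) (he : 0 < e) (hx : TL2x) (hy : TL2y) (hp : TLp) (hq : TLq)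
    (h : OnG (SupT e) β) : OnG Topx β := topG hβ (tpx_of hβ he hx hy hp hq h)

end Crest.Agent.T156.Alt.Tp4

end
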