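import Crest.Agent.T156.LPg_86

/-!
# Row 156 (helper30): the line `a4` of the quadratic branch on a static plateau
-/

set_option autoImplicit false
set_option linter.unusedSectionVars false

noncomputable section

namespace Crest.Agent.T156.Alt.Lp86

open Real Finset
open Crest.Agent.T156.Alt.L69 Crest.Agent.T156.Alt.Ps64

/-- lower half: `ap²` at distance at least `α` from the corner -/
theorem Nd.ap_lo30 {S : Sc} {M : Md} {la V U x Vt w α σ : ℝ} {k : ℕ} (h : Nd S M la V U x k)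
    (hV : 0 ≤ Vt) (hw : S.w3 1 ≤ w) (α0 : 0 < α) (hα : α ≤ dl M S k) (e : ds M S k = dl M S k)
    (b : la / √(dl M S k) / 2 ≤ lsh M S k) (c : 1 ≤ 2 * S.C * du M k) (σ0 : 0 ≤ σ)
    (hσ : w * (2 + 25 * x ^ 2 / (la * √α)) ≤ σ ^ 3) :
    ap M S (x ^ 3) Vt 0 k ^ 2 ≤ 3 * (σ ^ 2 + 4 * (w / la) ^ 2 / α + 4 * w / la) := by
  have lp := h.lp
  have x0 := h.x0
  have A := h.Ap
  have s := sqrt_pos.2 A
  have sa := sqrt_pos.2 α0
  have L := h.L0
  have w0 := h.w0
  have W0 := w0.le.trans hw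
  have dp := h.den0
  have C1 := h.C1
  have m0 := h.m0 hV
  have ss : √α ≤ √(dl M S k) := sqrt_le_sqrt hα
  -- `lsh * dl ≥ la √α / 2`
  have ld : la * √α / 2 ≤ lsh M S k * dl M S k := by
    have c1 : la / √(dl M S k) / 2 * dl M S k = la * √(dl M S k) / 2 := by
      field_simp; rw [sq_sqrt A.le]
    linarith [mul_le_mul_of_nonneg_right b A.le, mul_le_mul_of_nonneg_left ss lp.le]
  have den2 : S.den (M.z (k - 1)) ≤ 2 := by
    have u0 := h.sd.u0p
    have s0 := sqrt_pos.2 u0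
    have f := h.sd.fb_u0
    rw [div_eq_iff s0.ne'] at f
    have g := h.L_le
    have i := mul_le_mul h.A0 (sqrt_le_sqrt h.A0) s0.le A.le
    rw [lsh, e] at g
    exact le_of_mul_le_mul_right (by nlinarith [mul_le_mul_of_nonneg_left i dp.le]) lp
  have m2 : rm M x Vt k ≤ 3 / 2 * x := by
    refine le_of_pow_le_pow_left₀ (n := 2) two_ne_zero (by positivity) ?_
    have a1 := h.m_sq2 hV
    rw [h.y2] at a1
    have a2 := mul_le_mul_of_nonneg_left c (sq_nonneg (rm M x Vt k))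
    have a3 := mul_le_mul_of_nonneg_left a1 (show 0 ≤ 2 * S.C by positivity)
    have a4 := mul_le_mul_of_nonneg_right h.Cx (sq_nonneg x)
    nlinarith [sq_nonneg x]
  have R2 : (Rp M S (x ^ 3) Vt 0 k + x) ^ 2 ≤ 25 / 2 * x ^ 2 := by
    have := pow_le_pow_left₀ (add_nonneg (h.R0 hV).le x0.le)
      (show Rp M S (x ^ 3) Vt 0 k + x ≤ 7 / 2 * x by rw [h.Rp_eq]; linarith [h.T_le]) 2
    nlinarith [sq_nonneg x]
  have a1 : a0 S M (x ^ 3) Vt 0 k ^ ((1 : ℝ) / 3) ≤ σ := by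
    refine le_of_pow_le_pow_left₀ (n := 3) (by norm_num) σ0 (le_trans ?_ hσ)
    rw [cube3 h.aA0, a0, third x0.le]
    refine mul_le_mul hw (add_le_add den2 ?_) (by positivity) W0
    refine (div_le_div₀ (by positivity) R2 (show 0 < la * √α / 2 by positivity)
      (ld.trans_eq (by rw [lsh, e]; ring))).trans_eq (by field_simp)
  have a2 : aB S M k ≤ 2 * (w / la) / √α := by
    rw [aB]
    refine (div_le_div₀ W0 hw (show 0 < la * √α / 2 by positivity)
      (ld.trans_eq (by rw [lsh, e]; ring))).trans_eq (by field_simp)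
  have a3 : aB S M k ^ 2 ≤ 4 * (w / la) ^ 2 / α :=
    (pow_le_pow_left₀ h.aB0 a2 2).trans_eq (by rw [div_pow, sq_sqrt α0.le]; ring)
  have a4 : √(S.w3 1 / lsh M S k) ^ 2 ≤ 4 * w / la := by
    rw [sq_sqrt (by positivity), div_le_iff₀ L]
    exact hw.trans (h.of_la W0)
  have a5 := pow_le_pow_left₀ (third_nn _) a1 2
  rw [ap_eq0]
  generalize a0 S M (x ^ 3) Vt 0 k ^ ((1 : ℝ) / 3) = p at *
  generalize aB S M k = q at *
  generalize √(S.w3 1 / lsh M S k) = r at *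
  nlinarith [sq_nonneg (p - q), sq_nonneg (p - r), sq_nonneg (q - r)]

/-- **`L62.LQ.a4`** from pure numbers -/
theorem a4_30 {S : Sc} {M : Md} {la V U h Γ x u dm Λ Vt Q w σ α Lg Y : ℝ}
    (F : GX S M la V U h Γ) (T : Ct S.n S.C S.u0 U h x u dm Λ) (hV : 0 ≤ Vt)
    (hQ : QQ la V U x Vt Q) (hw : S.w3 1 ≤ w) (σ0 : 0 ≤ σ) (α0 : 0 < α)
    (h1 : w * (2 * la + (64 * S.C * x ^ 2 / la + 2 * √(x ^ 3) * Q)) ≤ σ ^ 3)
    (h2 : w * (2 + 25 * x ^ 2 / (la * √α)) ≤ σ ^ 3)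
    (h3 : Lg ^ 4 * (3 * σ ^ 2 + 12 * (w / la) ^ 2 / α + 16 * (w / dm * (w / la)) +
      16 * (w / la)) ≤ Y) :
    ∀ k, S.J ≤ k → k ≤ S.Jp → α ≤ M.z k - M.z (S.J - 1) → u ≤ du M k →
      du M k * (Lg ^ 2 * ap M S (x ^ 3) Vt 0 k) ^ 2 ≤ Y := by
  intro k k1 k2 k3 k4
  have P := pd F T
  have hk : k ∈ nd S M u := mem_filter.2 ⟨mem_Icc.2 ⟨k1, k2⟩, k4⟩
  have N := (nd_of F T hk).1
  have W0 := N.w0.le.trans hw
  have lp := N.lp
  have d0 := T.d0
  have p1 : 0 ≤ (w / la) ^ 2 / α := by positivity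
  have p2 : 0 ≤ w / dm * (w / la) := by positivity
  have p3 : 0 ≤ w / la := by positivity
  refine le_trans ?_ h3
  rw [mul_pow, ← pow_mul, mul_left_comm]
  refine mul_le_mul_of_nonneg_left ?_ ((even_two_mul 2).pow_nonneg Lg)
  rcases N.side with ⟨e, b, c⟩ | ⟨e, -⟩
  · have hα : α ≤ dl M S k := by
      have := P.mesh k k1 (P.lt hk).2.1
      rw [dx] at this
      rw [dl]; linarith [T.hU, P.h0]
    have := N.ap_lo30 hV hw α0 hα e b c σ0 h2
    refine (mul_le_of_le_one_left (sq_nonneg _) N.u1).trans (this.trans ?_)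
    rw [mul_div_assoc, mul_div_assoc, mul_div_assoc]
    linarith
  · have := ap2 F T hV hQ hw σ0 h1 N k4
    rw [bD, e, mul_div_assoc] at this
    rw [mul_div_assoc]
    norm_num at this
    nlinarith [sq_nonneg σ]

end Crest.Agent.T156.Alt.Lp86

end
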