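import Mathlib.Tactic.Linarith
import Mathlib.Data.Real.Basic

/-!
# Row 156 (helper66): the table of the quadratic branch `L62.TLp` on the graded path, in exponents
-/

set_option autoImplicit false

namespace Crest.Agent.T156.Alt.Tp66

/-- **the regime of the quadratic branch in exponents**: `μ, s, l, v, uu, B` = exponents of
`θ, s, la, Vc, u2, Bt`; `ξ, a0, χ2, γ, χ3, b` = exponents of `x, l0, X2, G0, X3, η` -/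
structure RP (c η ε μ s l v uu B ξ a0 χ2 γ χ3 b : ℝ) : Prop where
  c0 : 0 < η
  c1 : 100000 * η ≤ c
  c2 : c ≤ 1 / 2000
  e0 : 5 * η ≤ ε
  e1 : 1000 * ε ≤ c
  s0 : 0 ≤ s
  s1 : s ≤ 1 / 19
  m0 : -(1 / 3) - 23 / 40 * c ≤ μ
  m1 : μ ≤ -(4 / 15) + 4 / 5 * s - c / 4
  l0 : -(1 / 3) - 3 / 5 * c - μ / 2 ≤ l
  l1 : l ≤ -(1 / 3) - c / 2 - μ / 2 + η
  l2 : l ≤ -(5 / 18) - c / 2 - μ / 3 + η
  hv : -(1 / 6) ≤ v ∧ v ≤ -(1 / 6) + c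
  hu : -(5 / 6) - c / 2 - μ ≤ uu ∧ uu ≤ -(5 / 6) - μ
  hB : B = 3 / 5 * c + 2 * s + 2 * l
  Bx : B ≤ 3 * ξ
  tb : (ξ = -(5 / 27) + c / 12 - 2 / 9 * μ ∧ 5 / 2 * s - 5 / 12 + c / 4 ≤ 3 * ξ ∧
      a0 = -(79 / 450) - μ / 6 ∧ χ2 = 2 * ξ + a0 + 3 / 1000 ∧
      γ = -(7 / 15) + 9 / 10 * c - 2 / 5 * μ ∧ χ3 = -(403 / 600) - μ / 2 ∧
      b = -(2003 / 3000) - c / 5 - μ / 2) ∨
    (ξ = 5 / 6 * s - 5 / 36 + c / 12 ∧ -(5 / 9) + c / 4 - 2 / 3 * μ ≤ 3 * ξ ∧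
      a0 = -(27 / 200) + 41 / 100 * s ∧ χ2 = 2 * ξ + a0 + 1 / 1000 ∧
      γ = -(383 / 1000) + 77 / 50 * s ∧ χ3 = -(587 / 1000) + 257 / 100 * s ∧
      b = -(587 / 1000) + 257 / 100 * s)

set_option hygiene false in
macro "rp66" : tactic => `(tactic| (
  obtain ⟨c0, c1, c2, e0, e1, s0, s1, m0, m1, l0, l1, l2, -, -, rfl, Bx, tb⟩ := h
  rcases tb with ⟨rfl, t1, rfl, rfl, rfl, rfl, rfl⟩ | ⟨rfl, t1, rfl, rfl, rfl, rfl, rfl⟩))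

/-- `B ≤ 3 ξ` -/
theorem RP.bx {c η ε μ s l v uu B ξ a0 χ2 γ χ3 b : ℝ}
    (h : RP c η ε μ s l v uu B ξ a0 χ2 γ χ3 b) : B ≤ 3 * ξ := h.Bx

end Crest.Agent.T156.Alt.Tp66
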