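import Crest.Agent.T156.LPg_86
import Crest.Agent.T156.TLqD_53

/-!
# Row 156 (helper23): the numbers `L63.LQ` for the static plateau from pure numbers
-/

set_option autoImplicit false
set_option linter.unusedSectionVars false

noncomputable section

namespace Crest.Agent.T156.Alt.Tq23

open Real Finset
open Crest.Agent.T156.Alt.L69 Crest.Agent.T156.Alt.Ps64 Crest.Agent.T156.Alt.Lp86

variable {S : Sc} {M : Md} {la V U h Γ x u dm Λ Vt V' Q w σ z aM Lg E : ℝ}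

/-- above the cut `u` the location `Vt` may be replaced by `√(x³ / u)` -/
theorem ap_cut {k : ℕ} (N : Nd S M la V U x k) (u0 : 0 < u) (c : u ≤ du M k) (V0 : 0 ≤ Vt)
    (hV : Vt ≤ V' ∨ √(x ^ 3 / u) ≤ V') : ap M S (x ^ 3) Vt 0 k ≤ ap M S (x ^ 3) V' 0 k := by
  have x0 := N.x0
  have w0 := N.w0
  have d0 := N.den0
  have s0 := N.d0
  have r : Rp M S (x ^ 3) Vt 0 k ≤ Rp M S (x ^ 3) V' 0 k := by
    rw [N.Rp_eq, N.Rp_eq]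
    refine add_le_add le_rfl (le_min ?_ (min_le_right _ _))
    rcases hV with e | e
    · exact (min_le_left _ _).trans e
    · exact (min_le_right _ _).trans ((sqrt_le_sqrt
        (div_le_div_of_nonneg_left (by positivity) u0 c)).trans e)
  have r0 := (N.R0 V0).le
  rw [ap, ap]
  gcongr

theorem V'0 (V0 : 0 ≤ Vt) (hV : Vt ≤ V' ∨ √(x ^ 3 / u) ≤ V') : 0 ≤ V' :=
  hV.elim V0.trans (sqrt_nonneg _).trans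

variable (F : GX S M la V U h Γ) (T : Ct S.n S.C S.u0 U h x u dm Λ) (V0 : 0 ≤ Vt)
  (hV : Vt ≤ V' ∨ √(x ^ 3 / u) ≤ V') (hQ : QQ la V U x V' Q) (hw : S.w3 1 ≤ w)
include F T V0 hV hQ hw

/-- **`LQ.q3`** -/
theorem q3 (σ0 : 0 ≤ σ)
    (hσ : w * (2 * la + (64 * S.C * x ^ 2 / la + 2 * √(x ^ 3) * Q)) ≤ σ ^ 3) :
    ∑ k ∈ (Icc S.J S.Jp).filter fun k => u ≤ du M k, dx M k * (Lg ^ 2 * ap M S (x ^ 3) Vt 0 k) ^ 2 ≤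
      Λ * (Lg ^ 4 * (2 * σ ^ 2 + 4 * bD w dm la 0)) := by
  have w0 := (pd F T).w0.le.trans hw
  have d0 := T.d0
  have lp := F.sd.nu.lp
  refine sum_sup F T (by rw [bD]; positivity) fun k N c => ?_
  have a := mul_le_mul_of_nonneg_left (pow_le_pow_left₀ ((pd F T).ap0 k)
    (ap_cut N (cu0 F T) c V0 hV) 2) N.d0.le
  exact le_trans (le_of_eq (by ring)) (mul_le_mul_of_nonneg_left
    (a.trans (ap2 F T (V'0 V0 hV) hQ hw σ0 hσ N c)) (by positivity))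

/-- **`LQ.q2`** (any cut `u ≤ 1 / E`) -/
theorem q2 (E0 : 0 < E) (hE : E * u ≤ 1)
    (hz : w * (lM S.u0 V U u + (64 * S.C * x ^ 2 / la + 2 * V' * Q)) ≤ z) (a0' : 0 ≤ aM)
    (a1 : w * (2 + lM S.u0 V U u / u + (2 * x + V') ^ 2 / dm) ≤ aM ^ 3) :
    ∑ k ∈ (Icc S.J S.Jp).filter fun k => 1 ≤ E * du M k,
      dx M k * (Lg ^ 2 * ap M S (x ^ 3) Vt 0 k) ^ 4 ≤
      Λ * (Lg ^ 8 * (8 * (aM * z) + 64 * bD w dm la 2)) := by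
  have P := pd F T
  have w0 := P.w0.le.trans hw
  have d0 := T.d0
  have lp := F.sd.nu.lp
  have v0 := V'0 V0 hV
  have z0 : 0 ≤ z := by
    have := (nd' F T le_rfl (F.sd.u0p.trans_le F.sd.duJ)).Q0 v0 hQ
    have := F.sd.nu.Vp
    have := F.sd.u0p
    have := F.sd.cl.C0
    refine le_trans ?_ hz
    rw [lM]; positivity
  refine (sum_le_sum_of_subset_of_nonneg (t := nd S M u) (fun k hk => mem_filter.2
    ⟨(mem_filter.1 hk).1, le_of_mul_le_mul_left (hE.trans (mem_filter.1 hk).2) E0⟩)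
    fun k _ _ => mul_nonneg (P.dx0 k) (by positivity)).trans
    (sum_sup F T (by rw [bD]; positivity) fun k N c => ?_)
  have a := mul_le_mul_of_nonneg_left (pow_le_pow_left₀ (P.ap0 k)
    (ap_cut N (cu0 F T) c V0 hV) 4) N.d0.le
  exact le_trans (le_of_eq (by ring)) (mul_le_mul_of_nonneg_left
    (a.trans (ap4 F T v0 hQ hw hz a0' a1 N c)) (by positivity))

omit F T V0 hV hQ hw

theorem uw_one (c : Cl S M) (θ1 : S.θ ≤ 1) (F1 : S.F = 1) (hw : S.w3 1 ≤ w) {ω : ℝ} (ω0 : 0 ≤ ω)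
    (hω : w ≤ ω ^ 3) : uw S Lg 1 ^ 2 ≤ Lg ^ 4 * ω ^ 2 := by
  have t0 : 0 < S.ms 1 := c.θ0
  have w0 : 0 ≤ S.w3 1 := by
    rw [Sc.w3, F1]
    exact div_nonneg zero_le_one (mul_nonneg (mul_nonneg (Nat.cast_nonneg _) zero_le_one) t0.le)
  have a : cr S 1 = 1 := by
    rw [cr, F1, one_pow, div_one, one_mul]
    exact max_eq_left (rpow_le_one t0.le θ1 (by norm_num))
  have b : S.w3 1 ^ ((1 : ℝ) / 3) ≤ ω := (rpow_le_rpow w0 (hw.trans hω) (by norm_num)).trans_eq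
    (third ω0)
  rw [uw, a, mul_one, mul_pow, ← pow_mul]
  exact mul_le_mul_of_nonneg_left (pow_le_pow_left₀ (by positivity) b 2)
    ((by decide : Even (2 * 2)).pow_nonneg _)

/-- **pure numbers of `LQ`** (`Xp = x³`, `γ = 0`); `e1 ≥ η 1`, `eJ ≥ η (sJ / 2)`, `b ≥ bs sJ`,
`P2 ≥ Np 2`; cut `u2` for `q3`, cut `u3 ≤ 1 / E` for `q2` -/
structure NQ (E n C θ u0 la V U h Γ X x Vt Lg X2 G0 P2 w ω u2 j e1 eJ aa b R2 e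
    Λ dm2 V2 Q2 σ u3 dm3 V3 Q3 z aM : ℝ) : Prop where
  E1 : 1 ≤ E
  θ1 : θ ≤ 1
  w1 : 1 ≤ w * (n * θ)
  ω0 : 0 ≤ ω
  ω1 : w ≤ ω ^ 3
  X0 : 0 ≤ X
  X20 : 0 ≤ X2
  j0 : 0 ≤ j
  V0 : 0 ≤ Vt
  a1 : E * X ^ ((1 : ℝ) / 3) ≤ Lg * aa
  a2 : E * eJ ≤ θ * aa
  a3 : E ^ 3 * w ≤ aa ^ 3
  a4 : j + θ ≤ Lg * aa
  a5 : u0 ≤ aa
  sm : E * (aa + j + b) ≤ √θ
  e2 : e1 + G0 ^ 2 + P2 + Lg ^ 4 * ω ^ 2 * (θ + j + X ^ ((1 : ℝ) / 3) + √θ) +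
    √(w * (x ^ 3 + √θ ^ 3)) + X2 * x ≤ e
  q1 : e ^ 2 + Γ ≤ θ ^ 2 * R2
  t3 : Ct n C u0 U h x u3 dm3 Λ
  u3E : E * u3 ≤ 1
  v3 : Vt ≤ V3 ∨ √(x ^ 3 / u3) ≤ V3
  hQ3 : QQ la V U x V3 Q3
  z1 : w * (lM u0 V U u3 + (64 * C * x ^ 2 / la + 2 * V3 * Q3)) ≤ z
  aM0 : 0 ≤ aM
  aM1 : w * (2 + lM u0 V U u3 / u3 + (2 * x + V3) ^ 2 / dm3) ≤ aM ^ 3
  q2 : Λ * (Lg ^ 8 * (8 * (aM * z) + 64 * bD w dm3 la 2)) ≤ θ ^ 2 * R2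
  t2 : Ct n C u0 U h x u2 dm2 Λ
  v2 : Vt ≤ V2 ∨ √(x ^ 3 / u2) ≤ V2
  hQ2 : QQ la V U x V2 Q2
  σ0 : 0 ≤ σ
  σ1 : w * (2 * la + (64 * C * x ^ 2 / la + 2 * √(x ^ 3) * Q2)) ≤ σ ^ 3
  q3 : Λ * (Lg ^ 4 * (2 * σ ^ 2 + 4 * bD w dm2 la 0)) ≤ R2
  q4 : u2 + X2 ^ 2 ≤ R2
  q5 : E * R2 ^ 2 ≤ θ ^ 3

/-- **`L63.LQ`** -/
theorem lq {X X2 G0 P2 ω u1 u2 j e1 eJ aa b R2 e dm2 V2 Q2 u3 dm3 V3 Q3 Lp g' : ℝ} {η : ℝ → ℝ}
    (F : GX S M la V U h Γ)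
    (K : NQ E S.n S.C S.θ S.u0 la V U h Γ X x Vt Lg X2 G0 P2 w ω u2 j e1 eJ aa b R2 e
      Λ dm2 V2 Q2 σ u3 dm3 V3 Q3 z aM)
    (η0 : 0 ≤ η 1) (η1 : η 1 ≤ e1) (ηJ : η (M.s S.J / 2) ≤ eJ)
    (n0 : 0 ≤ Np M S (x ^ 3) Vt 0 u1 Lp 2) (n2 : Np M S (x ^ 3) Vt 0 u1 Lp 2 ≤ P2) (g0 : 0 ≤ g')
    (g1 : ∀ k, S.jl < k → k < S.J → M.s S.J / 2 ≤ M.s k → M.s k + aa / 8 ≤ M.s S.J → |M.G k| ≤ g')
    (hb : bs S Lg X2 g' η (M.s S.J) ≤ b) :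
    L63.LQ E S M X (x ^ 3) Vt Lg Lp X2 G0 u1 u2 j 0 η aa g' R2 := by
  obtain ⟨w1, -, -⟩ := w3_eq F.sd.cl F.F1 K.w1
  have P := pd F K.t2
  have w0 := P.w0
  have E0 : 0 < E := by linarith [K.E1]
  have a0 : 0 < aa := F.sd.u0p.trans_le K.a5
  have x0 := F.sd.u0p.trans_le K.t2.ux
  have θ0 := F.sd.cl.θ0
  have j0 := K.j0
  have X0 := K.X0
  have X20 := K.X20
  have b0 : 0 ≤ GS M S 0 S.C := sum_nonneg fun k _ => mul_nonneg (P.dx0 k) (sq_nonneg _)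
  have e0 : 0 ≤ L63.eQ S M X (x ^ 3) Vt Lg Lp X2 G0 u1 j 0 (√S.θ) η := by
    rw [L63.eQ]; positivity
  have e1 : L63.eQ S M X (x ^ 3) Vt Lg Lp X2 G0 u1 j 0 (√S.θ) η ≤ e := by
    refine le_trans ?_ K.e2
    rw [L63.eQ, third x0.le, zero_pow three_ne_zero, add_zero]
    have := uw_one (Lg := Lg) F.sd.cl K.θ1 F.F1 w1 K.ω0 K.ω1
    gcongr
  exact ⟨g0, g1, K.a1, (mul_le_mul_of_nonneg_left ηJ E0.le).trans K.a2,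
    (mul_le_mul_of_nonneg_left w1 (by positivity)).trans K.a3, by linarith [K.a4], K.a5,
    by positivity, (mul_le_mul_of_nonneg_left (by linarith) E0.le).trans K.sm,
    by linarith [pow_le_pow_left₀ e0 e1 2, F.G, K.q1],
    (q2 F K.t3 K.V0 K.v3 K.hQ3 w1 E0 K.u3E K.z1 K.aM0 K.aM1).trans K.q2,
    (q3 F K.t2 K.V0 K.v2 K.hQ2 w1 K.σ0 K.σ1).trans K.q3, by linarith [K.q4], K.q5⟩

end Crest.Agent.T156.Alt.Tq23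

end
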