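import Crest.Agent.T156.HyB_4
import Crest.Agent.T156.R1TpB_4
import Crest.Agent.T156.TpA_30
import Crest.Agent.T156.TqS_23
import Crest.Agent.T156.TpR_66

/-!
# Row 156 (helper55): `L62.LQ` and the outputs of the quadratic branch from linear lines
-/

set_option autoImplicit false
set_option linter.all false

noncomputable section

namespace Crest.Agent.T156.Alt.Tp55

open Real Finset Tr3 Lp86 Lq3 Lx13 Plt13 L69 Kn72

/-- **the lines of `L62.LQ` with `Pq = n ^ B`**: `μ l v uu` = exponents of `θ la Vc u2`;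
`e ξ vt μ1 μ2 lp L γ ι ε1 g lm A q β` = exponents of `E x Vt u1 u2 L Lg G0 j (η 1) g ℓ α p0 bs` -/
structure EP (η e μ l v uu ξ vt μ1 μ2 lp L γ ι ε1 g lm A q β B p2 p3 d1 q' r d2 q2 s : ℝ) : Prop where
  Z : EZ η μ l v uu ξ vt μ1 lp p2 p3 d1 q' r
  c2 : -(9 / 10) ≤ μ2
  D2 : LD η (2 / 3 * l) uu μ2 d2
  m0 : μ ≤ 0
  a11 : lm + η ≤ A
  a12 : ι + η ≤ A
  a13 : 2 / 3 * l + η ≤ A
  a2 : e + A ≤ 0
  e1 : ε1 + η ≤ 3 * A
  e2 : 2 * γ + η ≤ 3 * A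
  e3 : p2 + η ≤ 3 * A
  e4 : 4 * L + 2 / 3 * (-1 - μ) + μ + η ≤ 3 * A
  e5 : 4 * L + 2 / 3 * (-1 - μ) + ι + η ≤ 3 * A
  e6 : 4 * L + 2 / 3 * (-1 - μ) + ξ + η ≤ 3 * A
  e7 : 4 * L + 2 / 3 * (-1 - μ) + lm + η ≤ 3 * A
  e8 : lm / 3 + 2 / 3 * ε1 + η ≤ 3 * A
  e9 : g + η ≤ 3 * A
  e10 : μ + l + 3 * η ≤ 3 * A
  hq : LQ η l v uu ξ vt q2
  g1 : -1 - μ + l + 2 * η ≤ 3 * s
  g2 : -1 - μ + 2 * ξ - l + 4 * η ≤ 3 * s
  g3 : -1 - μ + 3 / 2 * ξ + q2 + 3 * η ≤ 3 * s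
  g4 : -1 - μ + 2 * η ≤ 3 * s
  g5 : -1 - μ + 2 * ξ - l - A / 2 + 2 * η ≤ 3 * s
  f1 : 4 * L + 2 * s + 2 * η ≤ 3 * A
  f2 : 4 * L + 2 * (-1 - μ - l) - A + 2 * η ≤ 3 * A
  f3 : 4 * L + (-1 - μ - d2) + (-1 - μ - l) + 2 * η ≤ 3 * A
  f4 : 4 * L + (-1 - μ - l) + 2 * η ≤ 3 * A
  p1 : 2 * q + 3 * η ≤ B
  p2' : 2 * β + 3 * η ≤ B
  p3' : 3 * A + η ≤ B
  p4 : μ + l - A / 2 + 3 * η ≤ B
  p5 : μ2 + η ≤ B
  p6 : 2 * μ + 2 * l + 4 * η ≤ B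
  p7 : -2 + η ≤ B

variable {β c0 C0 c0' C0' η' : ℝ} {A : ℕ} {c η K K' : ℝ} {p : Pm} {σ t : ℝ} {Q : Pl}

/-- **`L62.LQ` from the lines** -/
theorem lqP (X : Nr44.Cx β c0 C0 A c η K' p σ t) (G : GrD K c0' C0' η' p σ t Q) (hA : 4 ≤ A)
    (P : p.PlX σ t Q) {E x Vt u1 u2 L Lg X2 G0 j ℓ p0 Pq : ℝ} {φ g : ℝ → ℝ}
    {e ξ vt μ1 μ2 lp Lg' γ ι ε1 g' lm a q β' b0 p2 p3 d1 q' r d2 q2 s : ℝ}
    (hE : U p.n E e) (hx : T p.n x ξ) (hV : U p.n Vt vt) (h1 : T p.n u1 μ1) (h2 : T p.n u2 μ2)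
    (hL : T p.n L lp) (hg : U p.n Lg Lg') (hG : U p.n G0 γ) (hj : U p.n j ι)
    (hφ : U p.n (φ 1) ε1) (hℓ : U p.n ℓ lm) (hq : U p.n p0 q)
    (hJ : U p.n (g ((p.gst Q t).s (p.scG K σ t Q).J)) g')
    (hb : U p.n (bs (p.scG K σ t Q) Lg X2 (g ((p.gst Q t).s (p.scG K σ t Q).J)) φ
      ((p.gst Q t).s (p.scG K σ t Q).J)) β') (hB : D p.n Pq b0)
    (Z : EP η e (logb p.n (p.muG t)) (logb p.n (p.laG σ)) (logb p.n (p.Vc (nu p σ)))
      (logb p.n (p.u2 (nu p σ))) ξ vt μ1 μ2 lp Lg' γ ι ε1 g' lm a q β' b0 p2 p3 d1 q' r d2 q2 s) :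
    L62.LQ E (p.scG K σ t Q) (p.gst Q t) (x ^ 3) (x ^ 3) Vt Lg (L ^ 3) X2 G0 u1 u2 j 0 φ g ℓ
      ((p.n : ℝ) ^ a) p0 Pq := by
  have H := B.of X.H
  have Y := xd X G
  have F := gx_gst X.H hA X.o G P
  have cl := G.cl.1
  have η0 := H.η0
  have hw := (tw X G).1
  have cs : ∀ y : ℝ, 0 ≤ y → y ≤ 1000 → U p.n y η := fun y => H.cst
  have c2 := cs 2 (by norm_num) (by norm_num)
  obtain ⟨_, _, _, S⟩ := ns X G hx hV h1 hL Z.Z
  have hP : U p.n (Np (p.gst Q t) (p.scG K σ t Q) (x ^ 3) Vt 0 u1 (L ^ 3) 2) p2 :=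
    ⟨Np0 F S.ct S.V0 (w_eq G).le (by linarith [S.L1]) 2, np2 F S (w_eq G).le⟩
  have dx0 : ∀ k, 0 ≤ dx (p.gst Q t) k := fun k => sub_nonneg.2 (cl.leg.zm (Nat.sub_le k 1))
  have gp0 : 0 ≤ GP (p.gst Q t) (p.scG K σ t Q) :=
    sum_nonneg fun k _ => mul_nonneg (dx0 k) (sq_nonneg _)
  have gs0 : ∀ y z, 0 ≤ GS (p.gst Q t) (p.scG K σ t Q) y z := fun y z =>
    sum_nonneg fun k _ => mul_nonneg (dx0 k) (sq_nonneg _)
  have hΓ : ∀ y z, U p.n (GS (p.gst Q t) (p.scG K σ t Q) y z + GP (p.gst Q t) (p.scG K σ t Q))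
      (2 * logb p.n (p.muG t) + 2 * logb p.n (p.laG σ) + 3 * η) := fun y z =>
    Y.Γ.of_le (add_nonneg (gs0 y z) gp0) ((Tp4.G_le G y z).trans (Plt13.xk_of X.H X.o G P).g2)
  have hp := (hΓ 0 0).of_le gp0 (le_add_of_nonneg_left (gs0 0 0))
  have a3 := H.dpow (B.dp (n := p.n) a) 3
  refine ⟨le_antisymm F.flat (cl.sm cl.i3),
    H.le (H.add3 hℓ hj Y.au Z.a11 Z.a12 Z.a13) (B.dp a) le_rfl,
    H.le (H.mul hE (H.up a)) B.done Z.a2, ?_, ?_, ?_⟩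
  · have θ1 : (p.scG K σ t Q).θ ≤ 1 := (θ_eq G).trans_le (H.le Y.θu B.done Z.m0)
    have u := Tq23.uw_one (Lg := Lg) (ω := (p.n : ℝ) ^ ((-1 - logb p.n (p.muG t)) / 3)) cl θ1 F.F1
      (w_eq G).le (H.rp _).le (H.le hw (H.dpow (B.dp _) 3) (by push_cast; linarith))
    have y := (H.mul (H.pow hg 4) (H.pow (H.up ((-1 - logb p.n (p.muG t)) / 3)) 2)).of_le
      (sq_nonneg _) u
    have p1 := H.pc hφ Z.e1
    have p2 := H.pc (c := 3 * a) (H.pow hG 2) (by push_cast; linarith [Z.e2])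
    have p3 := H.pc hP Z.e3
    have p4 := H.pc (c := 3 * a) (H.mul y Y.θu) (by push_cast; linarith [Z.e4])
    have p5 := H.pc (c := 3 * a) (H.mul y hj) (by push_cast; linarith [Z.e5])
    have p6 := H.pc (c := 3 * a) (H.mul y hx.1) (by push_cast; linarith [Z.e6])
    have p7 := H.pc (c := 3 * a) (H.mul y hℓ) (by push_cast; linarith [Z.e7])
    have p8 := H.pc (c := 3 * a) (H.mul (H.rpw hℓ ((1 : ℝ) / 3)) (H.rpw hφ ((2 : ℝ) / 3)))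
      (by linarith [Z.e8])
    have p9 := H.pc hJ Z.e9
    have p10 := H.pc (c := 3 * a) (H.sqrt hp) (by linarith [Z.e10])
    rw [L62.x0, third hx.1.1, θ_eq G]
    exact H.le (H.tot (c := 3 * a) 10 (by linarith) (by linarith)) a3 (by push_cast; linarith)
  · have wl := H.div hw Y.ld
    have hd := dm_d H (tu X G).2 Y.ud h2.2 Z.D2
    refine a4_30 F (ct X G hx h2.2 Z.c2 Z.Z.c2 Z.Z.c3) hV.1 (qq Y hx.1 hV Z.hq) (w_eq G).le
      (H.rp s).le (H.rp a)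
      (H.le (H.mul hw (H.add (c := 3 * s + 1 + logb p.n (p.muG t)) (H.mul c2 Y.lu)
        (H.add (c := 3 * s + 1 + logb p.n (p.muG t) - η)
          (H.div (H.mul (H.mul (cs 64 (by norm_num) (by norm_num)) Y.C) (H.pow hx.1 2)) Y.ld)
          (H.mul (H.mul c2 (sq3 Y hx.1)) (H.up q2)) ?_ ?_) ?_ ?_)) (H.dpow (B.dp s) 3) ?_)
      (H.le (H.mul hw (H.add (c := 3 * s + 1 + logb p.n (p.muG t)) c2
        (H.div (H.mul (cs 25 (by norm_num) (by norm_num)) (H.pow hx.1 2))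
          (H.dmul Y.ld (H.dsqrt (B.dp a)))) ?_ ?_)) (H.dpow (B.dp s) 3) ?_) ?_
    rotate_right
    · have y := H.pow hg 4
      have p1 := H.pc (c := 3 * a - η) (H.mul y (H.pow (H.up s) 2)) (by push_cast; linarith [Z.f1])
      have p2 := H.pc (c := 3 * a - η) (H.mul y (H.div (H.pow wl 2) (B.dp a)))
        (by push_cast; linarith [Z.f2])
      have p3 := H.pc (c := 3 * a - η) (H.mul y (H.mul (H.div hw hd) wl))
        (by push_cast; linarith [Z.f3])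
      have p4 := H.pc (c := 3 * a - η) (H.mul y wl) (by push_cast; linarith [Z.f4])
      rw [mul_div_assoc 12, show p.la (nu p σ) = p.laG σ from rfl]
      exact H.le (H.tot (c := 3 * a - η) 47 (by linarith) (by linarith)) a3 (by push_cast; linarith)
    all_goals
      push_cast
      linarith [Z.g1, Z.g2, Z.g3, Z.g4, Z.g5]
  · have p1 := H.pc (c := b0) (H.pow (H.add (c := b0 / 2 - η / 2) hq hb (by linarith [Z.p1])
      (by linarith [Z.p2'])) 2) (by push_cast; linarith)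
    have p2 := H.pc (c := b0) (H.pow (H.up a) 3) (by push_cast; linarith [Z.p3'])
    have p3 := H.pc (c := b0) (H.sqrt (H.div hp (B.dp a))) (by linarith [Z.p4])
    have p4 := H.pc h2.1 Z.p5
    have p5 := H.pc (c := b0) (hΓ ((p.gst Q t).s (p.scG K σ t Q).J / 2) (p.scG K σ t Q).C)
      (by linarith [Z.p6])
    have p6 := H.pc (c := b0) (H.div B.one (H.dpow B.dn 2)) (by push_cast; linarith [Z.p7])
    rw [show ((p.scG K σ t Q).n : ℝ) = p.n from rfl]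
    exact H.le (H.tot (c := b0) 6 (by linarith [p6.1]) (by linarith [p6.2])) hB le_rfl

section lin

variable {ε μ s l v uu B ξ a0 χ2 γ χ3 b : ℝ} (h : Tp66.RP c η ε μ s l v uu B ξ a0 χ2 γ χ3 b)
include h

theorem ez : EZ η μ l v uu ξ (-(1 / 20)) (uu - 1 / 100) 0 (-(9 / 20) + 2 * s) 0 (uu - 1 / 100 - η)
    (3 / 2 * ξ - uu / 2 + 2 * η) ((-1 - μ + 9 / 2 * ξ - uu / 2 + 4 * η) / 2) := by
  obtain ⟨v1, v2⟩ := h.hv
  obtain ⟨u1, u2⟩ := h.hu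
  rp66 <;>
  exact ⟨by linarith, by linarith, by linarith, ⟨by linarith, by linarith, by linarith⟩,
    ⟨.inl ⟨by linarith, by linarith⟩, by linarith, by linarith, by linarith, by linarith,
      by linarith, by linarith, by linarith, by linarith, .inl (by linarith), by linarith,
      by linarith, by linarith, by linarith, by linarith, by linarith, by linarith, by linarith,
      by linarith, by linarith, by linarith, by linarith, by linarith⟩⟩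

theorem ep : EP η ε μ l v uu ξ (-(1 / 20)) (uu - 1 / 100) (uu - 1 / 100) 0
    (ε + (ξ - (B / 3 - c / 50))) γ (3 / 2 * ξ + c / 100) (b + η) (μ + l + η) (B / 3 - c / 50)
    (B / 3 - c / 100) (B / 2 - c / 200) (B / 2 - 2 * η) B (-(9 / 20) + 2 * s) 0 (uu - 1 / 100 - η)
    (3 / 2 * ξ - uu / 2 + 2 * η) ((-1 - μ + 9 / 2 * ξ - uu / 2 + 4 * η) / 2) (uu - 1 / 100 - η)
    (3 / 2 * ξ - uu / 2 + 2 * η)
    ((3 * (B / 3 - c / 100) - 4 * (ε + (ξ - (B / 3 - c / 50))) - 2 * η) / 2) := by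
  have z := ez h
  refine ⟨z, z.c1, z.D1, ?_, ?_, ?_, ?_, ?_, ?_, ?_, ?_, ?_, ?_, ?_, ?_, ?_, ?_, ?_, z.S.hq, ?_, ?_, ?_,
    ?_, ?_, ?_, ?_, ?_, ?_, ?_, ?_, ?_, ?_, ?_, ?_, ?_⟩ <;>
  · clear z
    obtain ⟨v1, v2⟩ := h.hv
    obtain ⟨u1, u2⟩ := h.hu
    rp66 <;> linarith

theorem top : Ln97.M12 η (ε + (ξ - (B / 3 - c / 50))) ξ χ2 χ3 γ (-(5 * η)) μ b := by
  constructor <;> (rp66 <;> linarith)

theorem bl : b ≤ B / 2 + μ - 4 * η ∧ μ + l + η ≤ B / 2 + μ - 4 * η + η ∧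
    Lt76.BL η (ε + (ξ - (B / 3 - c / 50))) χ2 (-(5 * η)) μ (B / 2 + μ - 4 * η) 0 (B / 2 - 3 * η) := by
  refine ⟨?_, ?_, ?_, ?_, ?_⟩ <;> (rp66 <;> linarith)

end lin

open Hl4 Lt38 in
/-- **the sup line, `L62.LQ` and `Pq ≤ Bt` of the table P** -/
theorem outP {ε0 : ℝ} (G : Gd66 β c0 C0 A c η K' ε0 K c0' C0' η' p σ t Q) (hc : c ≤ 1 / 2000)
    {ε s B ξ a0 χ2 γ χ3 b a' L g lm q : ℝ} (hB : B = logb p.n (Tp4.Bt p σ t))
    (h : Tp66.RP c η ε (logb p.n (p.muG t)) s (logb p.n (p.laG σ)) (logb p.n (p.Vc (nu p σ)))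
      (logb p.n (p.u2 (nu p σ))) B ξ a0 χ2 γ χ3 b)
    (eL : L = ε + (ξ - (B / 3 - c / 50)))
    (eg : g = logb p.n (p.muG t) + logb p.n (p.laG σ) + η) (el : lm = B / 3 - c / 50)
    (eq : q = B / 2 - c / 200)
    (hL : LnL c η (logb p.n (p.muG t)) (logb p.n p.r) ε a0 a' ξ L χ2 χ3 γ) :
    (∀ y, (p.gst Q t).s (p.scG K σ t Q).J / 64 ≤ y → y ≤ (p.gst Q t).s (p.scG K σ t Q).J →
      (pw p q + bs (p.scG K σ t Q) (pw p L) (pw p χ2) (gL K (pw p g) y)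
        (etaN p (p.scG K σ t Q) a' ξ L χ2 χ3 γ) y) ^ 2 ≤ Tp4.Bt p σ t) ∧
    L62.LQ (pw p ε) (p.scG K σ t Q) (p.gst Q t) (pw p ξ ^ 3) (pw p ξ ^ 3) (pw p (-(1 / 20))) (pw p L)
      (pw p 0 ^ 3) (pw p χ2) (pw p γ) (pw p (logb p.n (p.u2 (nu p σ)) - 1 / 100))
      (pw p (logb p.n (p.u2 (nu p σ)) - 1 / 100)) (pw p (3 / 2 * ξ + c / 100)) 0
      (etaN p (p.scG K σ t Q) a' ξ L χ2 χ3 γ) (gL K (pw p g)) (pw p lm) (pw p (B / 3 - c / 100))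
      (pw p q) (Tp4.Bt p σ t) := by
  subst eL eg el eq
  have R := G.R
  have H := Tr3.B.of R
  have X := cx G hc
  have r := R.rp0
  have η0 := R.η_pos
  have fx := fxN G hL
  have e5 : 5 * η ≤ logb p.n (pw p ε) := by rw [R.lg_rp]; exact h.e0
  have M := top h
  obtain ⟨b1, b2, b3⟩ := bl h
  have Z := ep h
  have hD : D p.n (Tp4.Bt p σ t) B := hB ▸ H.dl (Tp4.Bt0 X)
  have hg : ∀ y, U p.n (gL K (pw p (logb p.n (p.muG t) + logb p.n (p.laG σ) + η)) y)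
      (logb p.n (p.muG t) + logb p.n (p.laG σ) + η) := fun y =>
    ⟨gL_nn (r _).le y, gL_le (r _).le y⟩
  have hb : ∀ y, (p.gst Q t).s (p.scG K σ t Q).J / 64 ≤ y → U p.n (bs (p.scG K σ t Q)
      (pw p (ε + (ξ - (B / 3 - c / 50)))) (pw p χ2)
      (gL K (pw p (logb p.n (p.muG t) + logb p.n (p.laG σ) + η)) y)
      (etaN p (p.scG K σ t Q) a' ξ (ε + (ξ - (B / 3 - c / 50))) χ2 χ3 γ) y) (B / 2 - 2 * η) :=
    fun y hy => by
      obtain ⟨y0, y1⟩ := lv64 G hy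
      refine ⟨Lt76.bs_nn G.D.cl.1 y0.le (fx.eta_pos y).le (hg y).1 (r _).le, ?_⟩
      have := bs_top (B := B / 2 - 3 * η) G fx (r _) e5 y0 le_rfl y1
        (by simpa only [R.lg_rp] using M.mono b1) (H.mono (hg y) b2).2
        (by simpa only [R.lg_rp] using b3)
      exact this.trans_eq (by congr 1; ring)
  have s0 := (lg_sJ G).1
  refine ⟨fun y hy _ => H.le (H.pow (H.add (c := B / 2) (H.up _) (hb y hy) (by linarith [Z.p1])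
    (by linarith)) 2) hD (by push_cast; linarith), ?_⟩
  exact lqP X G.D G.A4 G.X (H.up _) (tp H _) (H.up _) (tp H _) (tp H _) (tp H _) (H.up _) (H.up _)
    (H.up _) ⟨(fx.eta_pos 1).le, eta_top G fx (r _) e5 one_pos le_rfl (by rw [logb_one]; linarith)
      (by simpa only [R.lg_rp] using M)⟩ (H.up _) (H.up _) (hg _) (hb _ (by linarith)) hD Z

end Crest.Agent.T156.Alt.Tp55

end
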