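import Crest.Agent.T156.VtC_18
import Crest.Agent.T156.LKg_37
import Crest.Agent.T156.LPy_13
import Crest.Agent.T156.HyD_77
import Crest.Agent.T156.NRo_44

/-!
# Row 156 (helper18): the a priori location `Ap.vt` on the graded path
-/

set_option autoImplicit false
set_option linter.unusedSectionVars false

noncomputable section

namespace Crest.Agent.T156.Alt.Vt18

open Real Finset Plt13 Mem37
open Crest.Agent.T156.Alt.Kn72 (nu)
open Crest.Agent.T156.Alt.Lk37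
open Crest.Agent.T156.Alt.R77 (Dt OnG)

/-- free cut `u` and free size `ρ` -/
def VtF : Dt := fun p σ t S M => ∀ m a, S.In m a → M.Phi S m a ≤ p.PhN t →
  ∀ u ρ, 1 / (p.n : ℝ) ≤ u → u ≤ p.u1N σ → p.wL t ≤ ρ ^ 3 * u → p.Vc (nu p σ) ≤ ρ →
    √(p.PhN t) ≤ ρ → p.muG t ≤ ρ ^ 2 → ∀ k, S.J ≤ k → k ≤ S.Jp → u ≤ L69.du M k →
      M.del m a k ≤ (p.n : ℝ) ^ (p.c / 400) * ρ

/-- the cut `u1N n^{-1/100}` -/
def VtX : Dt := fun p σ t S M => ∀ m a, S.In m a → M.Phi S m a ≤ p.PhN t →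
  logb p.n (p.muG t) ≤ -(1 / 5) → -(1 / 3) - 4 * p.c ≤ logb p.n (p.muG t) →
  ∀ k, S.J ≤ k → k ≤ S.Jp → p.u1N σ * (p.n : ℝ) ^ (-(1 / 100 : ℝ)) ≤ L69.du M k →
    M.del m a k ≤ (p.n : ℝ) ^ (-(1 / 20 : ℝ))

variable {β c0 C0 c0' C0' η' : ℝ} {A : ℕ} {c η K K' : ℝ} {p : Pm} {σ t : ℝ} {Q : Pl}

theorem vn_gst (H : Reg β c0 C0 A c η K' p) (G : GrD K c0' C0' η' p σ t Q) (n5 : (5 : ℝ) ≤ p.n)
    {u ρ y : ℝ} (h1 : 1 / (p.n : ℝ) ≤ u) (h2 : u ≤ p.u1N σ) (h3 : p.wL t ≤ ρ ^ 3 * u)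
    (h4 : y ^ 3 ≤ ρ) (h5 : p.muG t ≤ ρ ^ 2) :
    VN (p.scG K σ t Q) (p.u2 (nu p σ)) y (4 * log p.n) u ρ := by
  have N0 := H.N0
  have u0 : 0 < u := lt_of_lt_of_le (by positivity) h1
  refine ⟨u0, h2, ?_, ?_, (Lx13.w_eq G).trans_le h3, h4, (Lx13.θ_eq G).trans_le h5⟩
  · change 4 * (p.n : ℝ) ^ (-(2 : ℝ)) ≤ _
    refine le_trans ?_ h1
    rw [rpow_neg N0.le, rpow_two, ← div_eq_mul_inv, div_le_div_iff₀ (by positivity) N0]
    nlinarith
  · have a : 4 / u ≤ 4 * p.n := by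
      rw [div_le_iff₀ u0]; rw [div_le_iff₀ N0] at h1; linarith
    have b := log_le_log (by positivity) (show 1 + 4 / u ≤ (p.n : ℝ) ^ 2 by nlinarith)
    rw [log_pow] at b
    push_cast at b
    linarith

/-- **the pre-pass** -/
theorem vtF (hβ : 1 < β) (T : L69.TLt) : OnG VtF β := fun K k1 =>
  Sml.glueCL (P := fun _ _ => True) (Q := fun _ _ => True) hβ
    (fun _ _ _ _ => ⟨1, le_rfl, fun _ _ _ _ _ => .of_forall fun _ _ _ _ _ _ _ => trivial⟩)
    Sml.triv (vt_cl T) (fun _ => 8 * K ^ 2) (fun c => c / 20000) (fun c hc => by positivity)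
    fun _ _ c0 C0 _ _ => ⟨0, fun A _ => ⟨1 / 1000, by norm_num, fun c hc c' =>
      ⟨c / 100000, by positivity, fun η hη _ => ⟨5 * (406 + 8 * K),
        fun p H _ _ L c0' C0' η' σ t Q o G X m a I hΦ u ρ h1 h2 h3 h4 h5 h6 k k0 k2 hu => by
          have e : 100000 * η ≤ c := by linarith
          have U := un_gst H o G X e hc H.K_le
          have l := L _ _ rfl rfl rfl G.cl.1 m a I
          rw [H.hc] at l
          have V0 := U.V0
          have P0 := Kn17.PhN0 H (Gr29.oct_mem o).2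
          have s0 := sqrt_nonneg (p.PhN t)
          have y3 := cube3 (le_max_of_le_left V0.le : 0 ≤ max (p.Vc (nu p σ)) √(p.PhN t))
          have n5 : (5 : ℝ) ≤ p.n := by
            have a := rpow_le_rpow_of_exponent_le H.N1.le (show η ≤ 1 by linarith)
            rw [rpow_one] at a
            linarith [H.K_le]
          have b := l _ _ _ _ _ _ _ _ u ρ U (vn_gst H G n5 h1 h2 h3 (y3.trans_le (max_le h4 h5)) h6)
            (hΦ.trans (by
              rw [show 6 = 3 * 2 from rfl, pow_mul, y3]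
              exact (sq_sqrt P0.le).ge.trans (pow_le_pow_left₀ s0 (le_max_right _ _) 2)))
            k k0 k2 hu
          rw [H.hc]
          refine b.trans (mul_le_mul_of_nonneg_right (le_trans ?_ (loss_le H G e)) (s0.trans h5))
          have C1 := G.cl.1.C1
          have N0 := H.N0
          have g := H.log1
          exact mul_le_mul_of_nonneg_right (by linarith [le_self_pow₀ C1 four_ne_zero])
            (by positivity)⟩⟩⟩⟩

theorem OnG.mp {X Y : Dt} (h : OnG (fun p σ t S M => X p σ t S M → Y p σ t S M) β)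
    (h' : OnG X β) : OnG Y β := fun K k =>
  ((h K k).and (h' K k)).mono fun _ _ e c0 C0 η σ t Q a b c =>
    e.1 c0 C0 η σ t Q a b c (e.2 c0 C0 η σ t Q a b c)

theorem x_of (X : Nr44.Cx β c0 C0 A c η K' p σ t) (G : GrD K c0' C0' η' p σ t Q)
    (hη : 100000 * η ≤ c) (h : VtF p σ t (p.scG K σ t Q) (p.gst Q t)) :
    VtX p σ t (p.scG K σ t Q) (p.gst Q t) := fun m a I hΦ a1 a2 k k0 k1 hu => by
  have H := X.H
  have L := Lx13.lg_gst X G
  have N0 := H.N0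
  have c0 := H.c_pos
  have c1 := X.hc
  have θ0 := X.θ0
  have u0 : 0 < p.u1N σ := H.u20 (Kn72.nu0 H X.o)
  have V0 : 0 < p.Vc (nu p σ) := (Kn72.sd_gst H X.o G).nu.Vp
  have P0 := Kn17.PhN0 H X.Mt
  have f5 := (Kn17.lg_PhN H hη X.Mt).2.2.2.2
  have e1 := H.lg_n
  have U1 := (Kn72.lg_u2_bds H X.o).1
  obtain ⟨ν1, ν2⟩ := L.ν1
  have pl := L.pl
  rw [H.hc] at a2
  change -(5 / 6) ≤ logb p.n (p.u1N σ) at U1
  rw [show p.u2 (nu p σ) = p.u1N σ from rfl] at pl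
  have b := h m a I hΦ _ ((p.n : ℝ) ^ (-(1 / 20) - c / 400)) ?_ ?_ ?_ ?_ ?_ ?_ k k0 k1 hu
  · rw [H.hc, ← rpow_add N0] at b
    exact b.trans_eq (by congr 1; ring)
  · refine H.le_of_lg (by positivity) (by positivity) ?_
    lg_norm; rw [e1]; linarith
  · exact mul_le_of_le_one_right u0.le (rpow_le_one_of_one_le_of_nonpos H.N1.le (by norm_num))
  · unfold Pm.wL
    refine H.le_of_lg (by positivity) (by positivity) ?_
    lg_norm; rw [e1]
    rcases pl with ⟨_, _, _, _⟩ | ⟨_, _, _, _⟩ <;> linarith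
  · refine H.le_of_lg V0 (by positivity) ?_
    rw [H.lg_rp]
    rcases pl with ⟨_, _, _, _⟩ | ⟨_, _, _, _⟩ <;> linarith
  · refine H.le_of_lg (by positivity) (by positivity) ?_
    lg_norm; rw [e1]; linarith
  · refine H.le_of_lg θ0 (by positivity) ?_
    lg_norm; rw [e1]; linarith

theorem l_of (X : Nr44.Cx β c0 C0 A c η K' p σ t) (G : GrD K c0' C0' η' p σ t Q)
    (h : VtF p σ t (p.scG K σ t Q) (p.gst Q t)) {m : ℕ} {a : ℝ} (I : (p.scG K σ t Q).In m a)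
    (hΦ : (p.gst Q t).Phi (p.scG K σ t Q) m a ≤ p.PhN t) (k : ℕ) (k0 : (p.scG K σ t Q).J ≤ k)
    (k1 : k ≤ (p.scG K σ t Q).Jp) (hu : p.uL t ≤ L69.du (p.gst Q t) k) :
    (p.gst Q t).del m a k ≤ p.VL σ t := by
  have H := X.H
  have L := Lx13.lg_gst X G
  have N0 := H.N0
  have c0 := H.c_pos
  have c1 := X.hc
  have θ0 := X.θ0
  have u0 : 0 < p.u1N σ := H.u20 (Kn72.nu0 H X.o)
  have e1 := H.lg_n
  have x0 : 0 < p.xM t := lt_max_of_lt_left one_pos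
  have x1 : logb p.n (p.xM t) = max 0 (logb p.n (p.muG t) + 1 / 3) := by
    rw [Pm.xM, lg_max H.N1 one_pos (by positivity), logb_one,
      logb_mul θ0.ne' (by positivity), H.lg_rp]
  have uL0 : 0 < p.uL t := by unfold Pm.uL; positivity
  have uL1 : logb p.n (p.uL t) = -(51 : ℝ) / 100 - max 0 (logb p.n (p.muG t) + 1 / 3) := by
    rw [Pm.uL, logb_div (by positivity) x0.ne', H.lg_rp, x1]
  have w0 : 0 < p.wL t := by unfold Pm.wL; positivity
  have m1 := le_max_left 0 (logb p.n (p.muG t) + 1 / 3)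
  have m2 := le_max_right 0 (logb p.n (p.muG t) + 1 / 3)
  have m3 : max 0 (logb p.n (p.muG t) + 1 / 3) ≤ 1 / 3 :=
    max_le (by norm_num) (by linarith [L.μ1.2])
  have pl := L.pl
  rw [show p.u2 (nu p σ) = p.u1N σ from rfl] at pl
  have r0 : 0 ≤ (p.wL t / p.uL t) ^ ((1 : ℝ) / 3) := by positivity
  obtain ⟨ρ, hρ⟩ : ∃ ρ, ρ = max (max ((p.wL t / p.uL t) ^ ((1 : ℝ) / 3)) √(p.muG t))
    (max √(p.PhN t) (p.Vc (p.mt (p.muG σ)))) := ⟨_, rfl⟩
  have r1 : (p.wL t / p.uL t) ^ ((1 : ℝ) / 3) ≤ ρ := hρ ▸ le_max_of_le_left (le_max_left _ _)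
  have r2 : √(p.muG t) ≤ ρ := hρ ▸ le_max_of_le_left (le_max_right _ _)
  have b := h m a I hΦ (p.uL t) ρ ?_ ?_ ?_ (hρ ▸ le_max_of_le_right (le_max_right _ _))
    (hρ ▸ le_max_of_le_right (le_max_left _ _))
    ((sq_sqrt θ0.le).ge.trans (pow_le_pow_left₀ (sqrt_nonneg _) r2 2)) k k0 k1 hu
  · rw [Pm.VL, ← hρ]
    refine b.trans (mul_le_mul_of_nonneg_right ?_ (r0.trans r1))
    rw [Pm.nc, H.hc]
    exact rpow_le_rpow_of_exponent_le H.N1.le (by linarith)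
  · refine H.le_of_lg (by positivity) uL0 ?_
    rw [uL1]; lg_norm; rw [e1]; linarith
  · refine H.le_of_lg uL0 u0 ?_
    rw [uL1]
    rcases le_max_iff.1 L.ν2 with q | q <;> rcases pl with ⟨_, _, _, _⟩ | ⟨_, _, _, _⟩ <;> linarith
  · rw [← div_le_iff₀ uL0]
    exact (cube3 (by positivity)).ge.trans (pow_le_pow_left₀ r0 r1 3)

/-- **the leaf `Vtx`** -/
theorem vtx (hβ : 1 < β) (T : L69.TLt) : OnG R77.Vtx β :=
  OnG.mp (Nr44.onG_cx hβ (fun _ => 1) fun _ _ _ _ _ _ _ _ _ _ _ _ _ _ _ X _ G _ h _ _ _ _ I hΦ =>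
    l_of X G h I hΦ) (vtF hβ T)

/-- **the cut `u1N n^{-1/100}`** -/
theorem vtX (hβ : 1 < β) (T : L69.TLt) : OnG VtX β :=
  OnG.mp (fun _ _ => Sml.glue' (P := fun _ _ => True) hβ Sml.triv 0 (c1 := 1 / 2000)
    (by norm_num) 100000 fun _ _ _ c η _ _ _ _ => ⟨1, fun p H _ hc hη _ _ _ _ σ t Q o G _ h =>
      have e : (100000 : ℝ) * η ≤ c := by exact_mod_cast hη
      x_of ⟨H, hc, by linarith [H.η_pos], o⟩ G e h⟩) (vtF hβ T)

end Crest.Agent.T156.Alt.Vt18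

end
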