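import Crest.Agent.T156.TpI_66
import Crest.Agent.T156.TpY_55
import Crest.Agent.T156.VtG_18
import Crest.Agent.T156.SupD_82
import Crest.Agent.T156.R1LocB_77

/-!
# Row 156 (helper66): the leaf `SupP`
-/

set_option autoImplicit false

noncomputable section

namespace Crest.Agent.T156.Alt.Tp66

open Real
open Crest.Agent.T156.Alt.Hl4
open Crest.Agent.T156.Alt.R77 (OnG)
open Crest.Agent.T156.Alt.Kn72 (nu)

theorem supP_at {β c0 C0 : ℝ} {A : ℕ} {c η K' ε0 K c0' C0' η' e : ℝ} {p : Pm} {σ t : ℝ} {Q : Pl}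
    (G : Gd66 β c0 C0 A c η K' ε0 K c0' C0' η' p σ t Q) (hc : c ≤ 1 / 2000) (hη : 100000 * η ≤ c)
    (e0 : 5 * η ≤ e * c) (e1 : 1000 * (e * c) ≤ c)
    (V : Vt18.VtX p σ t (p.scG K σ t Q) (p.gst Q t)) :
    Sup82.SupP e p σ t (p.scG K σ t Q) (p.gst Q t) := by
  intro r m a I hΦ h
  have H := G.R
  have X := cx G hc
  obtain ⟨ξ, a0, χ2, γ, χ3, b, R, f⟩ := rp_gst G hc e0 e1 h r
  obtain ⟨s0, s1, s2⟩ := lg_sJ G
  obtain ⟨hL, hH⟩ := R.pl (lq_cx X hη e1 h r) s1 s2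
  rw [← H.lg_r] at hL hH
  obtain ⟨o1, o2⟩ := Tp55.outP G hc rfl R rfl rfl rfl rfl hL
  have u0 : 0 < p.u2 (nu p σ) := H.u20 (Kn72.nu0 H X.o)
  have eu : pw p (logb p.n (p.u2 (nu p σ)) - 1 / 100) = p.u1N σ * (p.n : ℝ) ^ (-(1 / 100 : ℝ)) := by
    rw [pw, sub_eq_add_neg, rpow_add H.N0, rpow_logb H.N0 H.N1.ne' u0]
    rfl
  rw [H.hc]
  exact ⟨_, _, _, _, _, _, _, _, _, _, _, _, _, _, _, _, _, _, _, _, _, _, _, _, _, _, _,
    hyN G hc hL (hΦ.trans f) (.inl le_rfl) (fun k k0 k1 hu => V m a I hΦ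
      (by linarith only [R.m1, R.s1, R.c0, R.c1]) (by rw [H.hc]; linarith only [R.m0, R.c0, R.c1])
      k k0 k1 (eu ▸ hu)) s0 le_rfl hH, .inr ⟨rfl, o1, .inl ⟨_, _, o2, le_rfl⟩⟩⟩

/-- **the leaf `SupP`** -/
theorem supP {β e : ℝ} (hβ : 1 < β) (he : 0 < e) (e1 : e ≤ 1 / 1000) (T : L69.TLt) :
    OnG (Sup82.SupP e) β :=
  R77.OnG.cl' hβ CL.triv (Vt18.vtX hβ T) one_pos (c1 := 1 / 2000) (by norm_num)
    (⌈5 / e⌉₊ + 100000) 0 (fun _ => 1) fun _ _ _ _ c η _ _ _ _ _ _ _ _ G hc _ hη _ _ V => by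
      have η0 := G.R.η_pos
      have c0 := G.R.c_pos
      have a : 5 / e * η ≤ (⌈5 / e⌉₊ : ℝ) * η := mul_le_mul_of_nonneg_right (Nat.le_ceil _) η0.le
      have b : 0 ≤ 5 / e * η := by positivity
      push_cast at hη
      refine supP_at G hc (by linarith) ?_ (by nlinarith) V
      have d : e * (5 / e * η) ≤ e * c := mul_le_mul_of_nonneg_left (by linarith) he.le
      rwa [← mul_assoc, mul_div_cancel₀ _ he.ne'] at d

end Crest.Agent.T156.Alt.Tp66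

end
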