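import Crest.Agent.T156.TqL_67
import Crest.Agent.T156.HyB_4

/-!
# Row 156 (helper67): all the lines of `Hy` on the table of the linear regime
-/

set_option autoImplicit false
set_option maxHeartbeats 4000000

noncomputable section

namespace Crest.Agent.T156.Alt.Tq67

open Real
open Crest.Agent.T156.Alt.Ln97 (M12 GX GV)
open Crest.Agent.T156.Alt.Hl4 (Ms LnL LtL HyL)
open Crest.Agent.T156.Alt.Lq3 (EZ ES EA EL LD)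

variable {c η ε S μ ν a V U ξ ρ L al χ2 χ3 γ lm T m Tu : ℝ}
  (h : RQ c η ε S μ ν a V U ξ ρ L al χ2 χ3 γ lm)
include h

theorem RQ.ld : LD η (2 / 3 * a) U U (U - η) := by
  obtain ⟨o1, o2, o3, o4, o5, o6, o7, o8⟩ := h.ord
  rq1 h
  all_goals constructor <;> linarith

theorem RQ.es : ES η (2 / 3 * a) a V U ξ 0 (-1 - μ) U (U - η) 0 χ3 χ3 (3 / 2 * ξ - U / 2 + 2 * η)
    (χ3 - 3 * η) := by
  obtain ⟨o1, o2, o3, o4, o5, o6, o7, o8⟩ := h.ord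
  rq1 h
  all_goals
    refine ⟨.inl ⟨?_, ?_⟩, le_rfl, le_rfl, ?_, ?_, ?_, ?_, ?_, ?_, .inl ?_, ?_, ?_, ?_, ?_, ?_, ?_, ?_,
      ?_, ?_, ?_, ?_, ?_, ?_⟩ <;> linarith

theorem RQ.ez : EZ η μ a V U ξ 0 U 0 χ3 χ3 (U - η) (3 / 2 * ξ - U / 2 + 2 * η) (χ3 - 3 * η) := by
  refine ⟨?_, ?_, ?_, h.ld, h.es⟩ <;>
    linarith [h.ord.2.2.2.1, h.ord.2.2.2.2.1, h.hU, h.ν1, h.W1, h.c1, h.xρ, h.hρ, h.S0, h.ηc]

theorem RQ.ea : EA η ε μ a ξ (-1 - μ) U U 0 χ3 χ3 L L χ2 χ3 γ (3 / 2 * ξ + c / 100) (χ3 + c / 10) ξ := by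
  obtain ⟨o1, o2, o3, o4, o5, o6, o7, o8⟩ := h.ord
  rq h
  all_goals constructor <;> linarith

theorem RQ.fl : Hy43.FL η ε ξ (3 * ξ) (3 * ξ) (3 / 2 * ξ + c / 100) L lm μ a := by
  obtain ⟨o1, o2, o3, o4, o5, o6, o7, o8⟩ := h.ord
  rq1 h
  all_goals constructor <;> linarith

theorem RQ.kp (h0 : al ≤ T) (h1 : T ≤ η) (hm : μ + 3 / 2 * T - 2 * η ≤ m) :
    χ3 + c / 100 ≤ ρ / 2 - 6 * η + m - T ∧ T + χ2 + 5 * η ≤ ρ / 2 + m / 2 ∧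
      T + 4 * L - 2 / 3 * (1 + T + m) + 5 * η ≤ ρ / 2 + m / 2 ∧
      (-(4 * η) ≤ T → μ + a + η ≤ ρ / 2 - 5 * η + m - T) := by
  obtain ⟨o1, o2, o3, o4, o5, o6, o7, o8⟩ := h.ord
  rq1 h
  all_goals refine ⟨?_, ?_, ?_, fun k => ?_⟩ <;> linarith

theorem RQ.sc : al + η ≤ -(c / 100) ∧ μ + 2 * a + 3 * η ≤ ρ - c / 20 ∧ 2 / 3 * a + 4 * η ≤ lm ∧
    ε + (μ + a + η) ≤ 3 / 2 * μ ∧ μ + 2 * χ2 + 3 * η ≤ ρ - c / 20 + -(c / 100) ∧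
    μ + 8 * L - 4 / 3 * (1 + -(c / 100) + μ) + 3 * η ≤ ρ - c / 20 + -(c / 100) ∧
    χ3 + c / 100 ≤ (ρ - c / 20 + μ - η - 6 * η) / 2 := by
  obtain ⟨o1, o2, o3, o4, o5, o6, o7, o8⟩ := h.ord
  rq1 h
  all_goals refine ⟨?_, ?_, ?_, ?_, ?_, ?_, ?_⟩ <;> linarith

theorem RQ.top (M : Ms c η μ T m) (h0 : -(c / 50) ≤ T) : m = μ := by
  have o := h.ord.2.2.2.1
  refine le_antisymm M.u3 ?_
  rcases M.lo with ⟨a, b⟩ | ⟨-, b⟩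
  · have : c = 0 := by linarith
    have := h.ηc
    have := h.η0
    rcases b with b | b <;> linarith [h.W1]
  · exact b

theorem RQ.ltL (u0 : -(4 * η) ≤ Tu) (u1 : Tu ≤ η) :
    LtL c η μ a (S + c / 7 - 1 / 6) ε ξ al ξ L χ2 χ3 (ρ - c / 10) γ (ρ - c / 10) (μ + a + η)
      (-(c / 100)) Tu lm (ρ - c / 20) (ρ / 2) := by
  obtain ⟨o1, o2, o3, o4, o5, o6, o7, o8⟩ := h.ord
  obtain ⟨s1, s2, s3, s4, s5, s6, s7⟩ := h.sc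
  have η0 := h.η0
  have ηc := h.ηc
  refine ⟨by linarith, by linarith, s1, by linarith, s2, .inr ⟨le_rfl, s3, s4⟩, fun m M => ?_,
    fun T m a b M => ?_, fun T m a b M => ?_⟩
  · rw [h.top M (by linarith)]
    exact ⟨h.tl u0 le_rfl, s5, s6⟩
  · rw [h.top M (by linarith)]
    exact (h.m12 (by linarith) (by linarith)).mono (by linarith)
  · have e := h.ms M (by linarith) (b.trans u1)
    obtain ⟨k1, k2, k3, k4⟩ := h.kp a (b.trans u1) e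
    exact ⟨(h.m12 a (by linarith)).mono k1,
      (le_total (T + 4 * η) 0).imp id fun k => k4 (by linarith), k2, k3⟩

/-- **the lines of `Hy`** -/
theorem RQ.hyL (u0 : -(4 * η) ≤ Tu) (u1 : Tu ≤ η) :
    HyL c η μ a (S + c / 7 - 1 / 6) V U ε ξ al ξ L χ2 χ3 (ρ - c / 10) γ (ρ - c / 10) (μ + a + η)
      (-(c / 100)) Tu lm (ρ - c / 20) (ρ / 2) ξ 0 U U 0 L (3 / 2 * ξ + c / 100) (χ3 + c / 10) ξ
      (χ3 + c / 50) := by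
  obtain ⟨o1, o2, o3, o4, o5, o6, o7, o8⟩ := h.ord
  have η0 := h.η0
  have ηc := h.ηc
  exact ⟨h.ltL u0 u1, h.fl, (h.m12 (by linarith) (by linarith)).mono (by linarith),
    _, _, _, _, _, _, _, _, _, _, _, _, _, _, _, h.ez, h.ld, h.ea, h.ec le_rfl⟩

end Crest.Agent.T156.Alt.Tq67

end
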