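import Crest.Agent.T156.TqI_90
import Crest.Agent.T156.TqH_67

/-!
# Row 156 (helper90): the lines of `LQ` on the table of regime Q, and the leaf `SupQ`
-/

set_option autoImplicit false
set_option maxHeartbeats 4000000

noncomputable section

namespace Crest.Agent.T156.Alt.Tq90

open Real
open Crest.Agent.T156.Alt.Tq67 (RQ)

theorem eq90 {c η ε S μ ν a V U ξ ρ L al χ2 χ3 γ lm : ℝ}
    (h : RQ c η ε S μ ν a V U ξ ρ L al χ2 χ3 γ lm) :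
    Tq23.EQ η ε μ (2 / 3 * a) a V U (2 * μ + 2 * a + 3 * η) ξ 0 (-1 - μ) L χ2 γ χ3
      (3 / 2 * ξ + c / 100) (χ3 + c / 50) (χ3 + c / 100 + η) (ρ / 2 - c / 50 + η) (ρ / 3) ρ U (U - η)
      (-ε) (U / 2 - c - η) ((-1 - μ) / 3) (μ + ρ / 2 - η) 0 (3 / 2 * ξ - U / 2 + 2 * η)
      ((-1 - μ + 2 * ξ - a + 4 * η) / 3) (-1 - μ - a + 2 * η) ((3 * ξ + ε) / 2) (3 / 2 * ξ - a + 2 * η)
      (2 / 3 * a + 2 * c) (-1 - μ + 2 * ξ - a + 4 * η) ((-1 - μ + 2 * ξ - (U / 2 - c - η) + 5 * η) / 3)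
      (2 * (-1 - μ - a) + 3 * η) := by
  obtain ⟨o1, o2, o3, o4, o5, o6, o7, o8⟩ := h.ord
  have g : 2 * γ + η ≤ μ + ρ / 2 - η := by
    rq h
    all_goals linarith
  rq1 h
  all_goals
    refine ⟨?_, ?_, ?_, ?_, ?_, ?_, ?_, ?_, ?_, ?_, ?_, ?_, g, ?_, ?_, ?_, ?_, ?_, ?_, ?_, ?_, ?_, ?_,
      .inr ?_, .inr ⟨?_, ?_⟩, ⟨?_, ?_, .inr ?_, ?_, ?_, ?_⟩, ?_, ?_, ?_, ?_, ?_, ?_, ?_, ?_,
      .inl le_rfl, .inl ⟨?_, ?_⟩, ?_, ?_, ?_, ?_, ?_, ?_, ?_, ?_, ?_, ?_⟩ <;> linarith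

theorem ld90 {c η ε S μ ν a V U ξ ρ L al χ2 χ3 γ lm : ℝ}
    (h : RQ c η ε S μ ν a V U ξ ρ L al χ2 χ3 γ lm) :
    Lq3.LD η (2 / 3 * a) U (-ε) (U / 2 - c - η) ∧ -(9 / 10) ≤ U := by
  have := h.ord.2.2.2.1
  refine ⟨⟨?_, ?_, ?_⟩, ?_⟩ <;> linarith [h.ha, h.hU, h.ν0, h.ν1, h.W0, h.W1, h.εc, h.ηε, h.η0, h.S0,
    h.c1, h.ηc]

theorem egQ90 : EgQ := fun _ _ _ _ _ _ _ _ _ _ _ _ _ _ _ _ _ h =>
  ⟨_, _, le_rfl, le_rfl, _, _, _, _, _, _, _, _, _, _, _, _, _, _, _, _, _, _, _, _,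
    h.ez, by linarith [h.ηε, h.η0], (ld90 h).2, by linarith [h.εc, h.c1], h.ld, (ld90 h).1, eq90 h⟩

/-- **the leaf of regime Q** -/
theorem supQ90 {β : ℝ} (hβ : 1 < β) : R77.OnG (Sup82.SupQ (1 / 100000)) β :=
  supQ_of hβ (fun _ _ _ _ _ _ _ _ _ _ _ _ _ _ _ _ _ h _ a b => h.hyL a b) egQ90 rqI

end Crest.Agent.T156.Alt.Tq90

end
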