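import Crest.Agent.T156.KeyA_88
import Crest.Agent.T156.R1Phi_60
import Crest.Agent.T156.CHT_54
import Crest.Agent.T156.CVal_54
import Crest.Agent.T156.R1KitC_82
import Crest.Agent.T156.R1LocB_77
import Crest.Agent.T156.KnG_17
import Crest.Agent.T156.NRo_44
import Crest.Agent.T156.NxD_43
import Crest.Agent.T156.LKg_37
import Crest.Agent.T156.ErrR_35
import Crest.Agent.T156.SwGL_2
import Crest.Agent.T156.SprZ_59
import Crest.Agent.T156.R2Z_42
import Crest.Agent.T156.SrOut_46
import Crest.Agent.T156.TermCe_28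
import Crest.Agent.T156.LZD_94
import Crest.Agent.T156.BlkG_79
import Crest.Agent.T156.ApL_39
import Crest.Agent.T156.HyE_77
import Crest.Agent.T156.VtG_18
import Crest.Agent.T156.LT2q_38
import Crest.Agent.T156.LNt_97
import Crest.Agent.T156.SupD_82
import Crest.Agent.T156.LoT_17
import Crest.Agent.T156.LPf_85
import Crest.Agent.T156.TqE_90
import Crest.Agent.T156.TpF_66

/-!
# Row 156 (helper41): the key estimate from the block (L)
-/

set_option autoImplicit false

noncomputable section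

namespace Crest.Agent.T156.Alt.KeyB

open Crest.Agent.T156.Cas
open Crest.Agent.T156.Alt.R77 (OnG Blkx Topx LocG)

variable {β : ℝ}

/-- SR from the location theorems -/
theorem sr (O : LZ.Out) : Sr.SrS2 := Sr.srS2_of (Tm92.termS2_L O.tlt O.tl1x O.tl1cx)

/-- location on the tested path -/
theorem loc (hβ : 1 < β) (O : LZ.Out) (h4 : OnG Blkx β) (h5 : OnG Topx β) : LocG β :=
  R77.locG_of hβ (sr O) (Kn17.knG hβ) (Nr44.nrG hβ) (R77.nxG_of hβ (Nr44.nrG hβ)) h4 h5
    (Lk37.upG hβ O.tlt)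

/-- one octave from the location on the tested path -/
theorem oct (hβ : 1 < β) (hL : LocG β) : Gain β OctG :=
  P60.octG_1 hβ C40.hT (R82.kit hβ hL) fun _ hβ hC hK => E35.errG hβ hC hK

/-- the key estimate from the block (L) and the two location statements -/
theorem key_L (hβ : 1 < β) (O : LZ.Out) (h4 : OnG Blkx β) (h5 : OnG Topx β) : Soft.Key β :=
  have L := loc hβ O h4 h5
  topG β (7 / 20) hβ (plEx hβ (by norm_num)) (startG hβ) (oct hβ L) (swG_of_locG hβ L)
    (sprS_x hβ O.tl1x (sr O)) (R2.flwS_end hβ (sr O) O.tl2x)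

/-- the blocks below the top -/
theorem blk (hβ : 1 < β) (O : LZ.Out) : OnG Blkx β :=
  Bk79.blkG hβ (R77.supx_of hβ O.tl2x (Ap39.hyx_of hβ O.tl2y (R77.hyY_of hβ (Ln97.lnG hβ)
    (Lc85.lpxG hβ) (Lt38.ltxG hβ (Ln97.fxG hβ)) (Vt18.vtx hβ O.tlt))))

/-- the top block -/
theorem top (hβ : 1 < β) (O : LZ.Out) : OnG Topx β :=
  Sup82.topx (e := 1 / 100000) hβ (by norm_num) O.tl2x O.tl2y O.tlp O.tlq
    (Tp66.supP hβ (by norm_num) (by norm_num) O.tlt) (Tq90.supQ90 hβ)
    (Lo17.tabT hβ (Vt18.vtx hβ O.tlt))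

/-- **the key estimate from the block (L)** -/
theorem key_out (hβ : 1 < β) (O : LZ.Out) : Soft.Key β := key_L hβ O (blk hβ O) (top hβ O)

end Crest.Agent.T156.Alt.KeyB

end
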