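import Crest.Agent.T156.EnG_63
import Crest.Agent.T156.GsK_95
import Crest.Agent.T156.NgS_9
import Crest.Agent.T156.Abel_33

/-!
# Row 156, block (L): (TL1x) and (BoS) from the internal statements (helper63)
-/

set_option autoImplicit false

noncomputable section

namespace Crest.Agent.T156.Alt.L31

open MeasureTheory Set Real
open Crest.Agent.R164.GC Crest.Agent.R339.B Crest.Agent.R339.Var Crest.Agent.T157.Pf
open Crest.Agent.T156.Cut8
open Crest.Agent.T156.Gap27 (resN)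
open Crest.Agent.T156.Alt.Mp9 Crest.Agent.T156.Alt.L69 Crest.Agent.T156.Alt.C74

/-- glue with one small loss `L` -/
theorem glue63 {P R : CP} (H : CL P) (j : ℕ) (h : ∀ C : ℝ, ∃ K0 : ℝ, ∀ E L Λ S M m a, S.C = C →
    Cl S M → S.In m a → K0 ≤ L → 1000 ≤ L → L ^ j ≤ E → L ^ j ≤ Λ → S.θ ≤ 1 →
    S.v ≤ 1 / (S.n : ℝ) ^ 4 → P E L S M m a → R E Λ S M m a) : CL R :=
  H.glue fun C => ⟨5, fun A hA ε η hε hη => by
    obtain ⟨K0, h⟩ := h C
    have p : (0 : ℝ) < j + 1 := by positivity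
    have h0 : 0 < min ε η / (j + 1) := by positivity
    have h1 : min ε η / (j + 1) * j ≤ min ε η := by
      rw [div_mul_eq_mul_div, div_le_iff₀ p]
      exact mul_le_mul_of_nonneg_left (by linarith) (by positivity)
    refine ⟨ε, min ε η / (j + 1), K0, hε, h0, fun S M m a G c I q => ?_⟩
    have k : ∀ x, min ε η ≤ x → ((S.n : ℝ) ^ (min ε η / (j + 1))) ^ j ≤ (S.n : ℝ) ^ x := fun x hx => by
      rw [← rpow_natCast, ← rpow_mul G.N0.le]
      exact rpow_le_rpow_of_exponent_le G.N1.le (h1.trans hx)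
    exact h _ _ _ S M m a G.hC c I G.K_le G.num_le (k _ (min_le_left _ _)) (k _ (min_le_right _ _))
      (G.θ1 c) (L25.v4_of G c hA) q⟩

def BuP (θ0 : ℝ) : CP := fun E Λ S M m a =>
  ∀ p lam W Gn V0, Hx E lam S M m a p → lam ≤ W → W ^ 1000 ≤ E → Ng E W S M m a p Gn V0 →
  ∀ u v, Vs M p Gn u → Ve S M m a Gn V0 v → u < v →
  ∃ r1 r2 ω β f, Bk (Λ * W ^ 30) θ0 S M m a p Gn u v r1 r2 ω β f

def NgP : CP := fun E Λ S M m a => ∀ p lam, Hx E lam S M m a p →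
  ∃ Gn V0, Ng E (Λ * lam ^ 30) S M m a p Gn V0

def TxP : CP := fun E Λ S M m a => ∀ p lam K θ1 X4 t4 Gn V0, Hx E lam S M m a p → lam ≤ K →
  K ^ 1000 ≤ E → 1 ≤ K * θ1 → E * t4 ≤ S.C → L4 S p.V p.X t4 S.C X4 → Ng E K S M m a p Gn V0 →
  ∃ v, Ve S M m a Gn V0 v ∧ ∀ A A0 En βs, 0 ≤ A → A ≤ sb M m a (v + 1) → 0 ≤ A0 →
    8 * A0 ≤ M.s S.J → (∫ t in A0..2 * S.C, JJ M S m a (2 * S.C) t ^ 2) +
      (∫ t in (0 : ℝ)..A0, |JJ M S m a (2 * S.C) t|) ^ 2 ≤ En → 0 ≤ βs →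
    βs ≤ K * bE S M m a p (sb M m a (v + 1)) →
    Cont (2 * S.C) (uu M S m a (2 * S.C)) (rq S M m a)
      (resN (lb M S m a (2 * S.C)) M.b (sb M m a) (hb M) (v + 1)) βs A (sb M m a (v + 1))
      (θ1 * En + Λ * K ^ 990 * S.F ^ 10 * Nn S M p X4 t4)
      (L25.QT S M m a (2 * S.C) (sb M m a (v + 1)) (Λ * K ^ 990 * p.u2) (Λ * K ^ 990 * S.F) En
        (S.F ^ 10 * Nn S M p X4 t4))

def BoP : CP := fun E Λ S M m a => ∀ p lam W θ0 Gn V0 u v r1 r2 ω β f Eg,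
  Hx E lam S M m a p → p.l0 = p.l → p.V = cr S p.l * p.l → lam ≤ W → W ^ 1000 ≤ E →
  Λ ^ 1000 ≤ E → Ng E W S M m a p Gn V0 → Vs M p Gn u → M.s u ≤ 4 * p.l → Ve S M m a Gn V0 v →
  u < v → Bk W θ0 S M m a p Gn u v r1 r2 ω β f →
  ∫ r in (0 : ℝ)..2 * S.C, JJ M S m a (2 * S.C) r ^ 2 ≤ W * S.F ^ 12 * Eg →
  ∫ r in sb M m a (u + 1)..sb M m a (v + 1), HH M S m a (2 * S.C) r * uu M S m a (2 * S.C) r ≤
    W * S.F ^ 12 * Eg →
  ∃ ρ, Bo S M m a (2 * S.C) θ0 (Λ * W ^ 10) p.l p.X p.X2 Eg p.η u (sb M m a (v + 1)) ρ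
    r1 r2 ω β f

def RtP (K C B c θ0 : ℝ) : Prop :=
  ∀ (S : Sc) (M : Md) (m : ℕ) (a G1 L l X X2 Eg Y : ℝ) (η : ℝ → ℝ) (u : ℕ) (s ρ : ℝ)
    (r1 r2 ω β f : ℝ → ℝ), At S M m a (2 * C) → S.C = C → CeiG S M G1 →
  (∀ t t', 0 ≤ t → t ≤ t' → S.ms t' ≤ S.ms t + t' ^ 2) →
  Fr (2 * C) c B (Spl27.okT (2 * C)) (lvr 1) Pr.Gam Pr.GG → K ≤ L → 0 < l → L * S.v ≤ l ^ 2 →
  0 ≤ X2 → L ^ 4 * X2 ≤ mf S l → L ^ 2 * (cr S l * l) ≤ s →
  Bo S M m a (2 * C) θ0 L l X X2 Eg η u s ρ r1 r2 ω β f → 0 ≤ Y →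
  ρ ≤ L * ((sb M m a (u + 1) + l) * X2 + l * (cr S l * l) ^ 2 + √(sb M m a (u + 1) * Y)) →
  ∃ l' D f0 Ar, Rt (2 * C) B θ0 (lvr 1 (lh M (2 * C))) (lvr 1 (lb M S m a (2 * C))) (rq S M m a)
      (HH M S m a (2 * C)) r1 r2 ω β (mm M S m a) f (sb M m a (u + 1)) s l' D ρ f0 C
      (2 * (C * S.v)) ∧
    0 ≤ Ar ∧ l' ≤ L * (cr S l * l) ∧
    (∀ b, 2 * l' ≤ b → sb M m a (u + 1) ≤ b → b ≤ s →
      ρ * ∫ t in (0 : ℝ)..l', |uu M S m a (2 * C) t| ≤ Ar +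
        (∫ t in sb M m a (u + 1)..b, HH M S m a (2 * C) t * uu M S m a (2 * C) t) / 16 +
        c / 32 * ∫ t in (0 : ℝ)..b, JJ M S m a (2 * C) t ^ 2) ∧
    sb M m a (u + 1) * f0 + ρ ^ 2 / l' + Ar + mf S (sb M m a (u + 1)) * D ^ 2 * sb M m a (u + 1) ≤
      L ^ 70 * S.F ^ 10 * (W0 S l + cr S l * l * X2 ^ 2 + Y) +
      θ0 ^ 2 * ((∫ t in (0 : ℝ)..sb M m a (u + 1), JJ M S m a (2 * C) t ^ 2) +
        sb M m a (u + 1) * io M S m a (2 * C) ^ 2)

variable {S : Sc} {M : Md} {m : ℕ} {a E lam L W W' K B c θ0 KR X4 : ℝ} {p : Pa} {Gn : ℕ → Prop}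
  {V0 : ℕ}

theorem Hx.at' (H : Hx E lam S M m a p) (h : Cl S M) (I : S.In m a) : At S M m a (2 * S.C) :=
  ⟨h, I, by linarith [h.b1, H.ln.HJ], by linarith [h.sT, h.C1]⟩

theorem Ng.mono63 (G : Ng E W S M m a p Gn V0) (H : Hx E lam S M m a p) (A : At S M m a (2 * S.C))
    (hW : W ≤ W') : Ng E W' S M m a p Gn V0 := by
  have h := A.cl
  have F1 := h.F1
  have l0 := H.l00 h
  have τ0 : 0 ≤ p.τ := by
    have w : 0 ≤ S.w3 1 := div_nonneg (by linarith)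
      (mul_nonneg (mul_nonneg h.N0.le zero_le_one) (h.ms_pos zero_le_one).le)
    exact (Odd.pow_nonneg_iff (by decide : Odd 3)).1 (w.trans H.lp.tw)
  have e1 := H.η0 one_pos
  have g0 := H.γ0 h
  have m1 := L25.mf_pos' h zero_le_one
  refine ⟨Sz9.NG_mono G.ng A hW ((H.lp0 h).trans_le (le_max_left _ _))
    (lt_of_lt_of_le (by have := H.E1 h; positivity) H.ln.Lg0) (by positivity) (H.X20 h)
    fun k _ => ?_, G.n2.trans (mul_le_mul_of_nonneg_right hW (H.X20 h)),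
    fun k hk => (G.cru k hk).trans (mul_le_mul_of_nonneg_right hW ?_)⟩
  · rcases le_total (M.s k) 1 with q | q
    · exact e1.trans (H.ln.ηa q)
    · exact H.η0 (by linarith)
  · exact add_nonneg (mul_nonneg (zero_le_one.trans (Ab33.cr_one S _))
      (l0.le.trans (le_max_right _ _))) H.ln.V0

/-- the numbers of the root -/
theorem Hx.root (H : Hx E lam S M m a p) (h : Cl S M) (hθ : S.θ ≤ 1)
    (v4 : S.v ≤ 1 / (S.n : ℝ) ^ 4) {Q : ℝ} (Q1 : 1 ≤ Q) (hQ : Q ^ 18 ≤ E) :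
    Q ^ 3 * (cr S p.l * p.l) ≤ 1 ∧ Q * S.v ≤ p.l ^ 2 ∧ Q ^ 4 * p.X2 ≤ mf S p.l ∧
      Q * S.v ≤ 1 / (S.n : ℝ) ^ 3 := by
  have l0 := H.lp0 h
  have l1 := H.l_one h
  have F1 := h.F1
  have E1 := H.E1 h
  have n1 : (1 : ℝ) ≤ S.n := E1.trans (H.E_n h)
  have q1 : Q ≤ S.n := ((le_self_pow₀ Q1 (by norm_num)).trans hQ).trans (H.E_n h)
  have a4 : Q * S.v ≤ 1 / (S.n : ℝ) ^ 3 :=
    (mul_le_mul q1 v4 (v_pos h).le (by linarith)).trans (le_of_eq (by field_simp))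
  have m1 : S.ms p.l ≤ 1 := (h.ms1 _).trans hθ
  refine ⟨?_, ?_, (mul_le_mul_of_nonneg_right ((pow_le_pow_right₀ Q1 (by norm_num)).trans hQ)
    (H.X20 h)).trans H.ln.th3, a4⟩
  · have b1 : (cr S p.l * p.l) ^ 3 ≤ S.F * p.l := by
      rw [Ab33.cc_cube h l0]
      refine max_le ((pow_le_of_le_one l0.le l1 (by norm_num)).trans
        (le_mul_of_one_le_left l0.le F1)) (mul_le_mul_of_nonneg_right
          (mul_le_of_le_one_right (by linarith) m1) l0.le)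
    have b2 : Q ^ 9 * S.F ≤ E := by
      refine le_of_pow_le_pow_left₀ two_ne_zero (by linarith) ?_
      rw [mul_pow, ← pow_mul, sq E]
      exact mul_le_mul hQ ((pow_le_pow_right₀ F1 (by norm_num)).trans H.F40) (by positivity)
        (by linarith)
    refine le_of_pow_le_pow_left₀ three_ne_zero zero_le_one ?_
    rw [mul_pow, ← pow_mul, one_pow]
    refine (mul_le_mul_of_nonneg_left b1 (by positivity)).trans ?_
    rw [← mul_assoc]
    exact (mul_le_mul_of_nonneg_right b2 l0.le).trans H.ln.l1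
  · refine a4.trans ((H.n3 h).trans ?_)
    exact (mul_le_of_le_one_left (by positivity) m1).trans
      (pow_le_pow_of_le_one l0.le l1 (by norm_num))

theorem Hx.X40 (H : Hx E lam S M m a p) (h : Cl S M) (x4 : L4 S p.V p.X p.l S.C X4) : 0 ≤ X4 := by
  have h0 := H.lp0 h
  refine le_trans ?_ (x4 p.l le_rfl ((H.l_one h).trans h.C1))
  have c : 0 ≤ cl S p.V p.l :=
    add_nonneg (mul_nonneg (zero_le_one.trans (Ab33.cr_one S _)) h0.le) H.ln.V0
  have w : 0 ≤ S.w3 p.l := div_nonneg (by linarith [h.F1])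
    (mul_nonneg (mul_nonneg h.N0.le h0.le) (h.ms_pos h0.le).le)
  have : 0 ≤ ws S p.V p.l := mul_nonneg (div_nonneg c h0.le) (rpow_nonneg w _)
  have : 0 ≤ min p.X (cl S p.V p.l ^ 3) := le_min H.ln.X0.le (by positivity)
  positivity

/-- constants below the loss -/
structure Kc (S : Sc) (L c KR : ℝ) : Prop where
  L1 : 1000 ≤ L
  C : 10 ^ 15 * S.C ^ 17 ≤ L
  kr : KR ≤ L
  c8 : 8 / c ≤ L
  κ : κE c ≤ L

/-- **frame, energy and location at a point** -/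
theorem core63 (H : Hx E L S M m a p) (A : At S M m a (2 * S.C)) (e0 : p.l0 = p.l)
    (eV : p.V = cr S p.l * p.l) (x4 : L4 S p.V p.X p.l S.C X4) (hθ : S.θ ≤ 1)
    (v4 : S.v ≤ 1 / (S.n : ℝ) ^ 4)
    (F : Fr (2 * S.C) c B (Spl27.okT (2 * S.C)) (lvr 1) Pr.Gam Pr.GG) (th : Th (2 * S.C) S.C c θ0)
    (k : Kc S L c KR) (hK : K = L * (L * L ^ 30) ^ 30) (KE : K ^ 1000 ≤ E)
    (ng : NgP E L S M m a) (bu : BuP θ0 E L S M m a) (tx : TxP E L S M m a) (bo : BoP E L S M m a)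
    (rt : RtP KR S.C B c θ0) :
    ∃ Gn V0 u v, Ng E (L * L ^ 30) S M m a p Gn V0 ∧ Vs M p Gn u ∧ M.s u ≤ 4 * p.l ∧
      Ve S M m a Gn V0 v ∧ u < v ∧
      ∫ r in (0 : ℝ)..2 * S.C, JJ M S m a (2 * S.C) r ^ 2 ≤ K ^ 1101 * S.F ^ 10 * Hx.Eg S M p X4 ∧
      ∫ r in sb M m a (u + 1)..sb M m a (v + 1), HH M S m a (2 * S.C) r * uu M S m a (2 * S.C) r ≤
        K ^ 1101 * S.F ^ 10 * Hx.Eg S M p X4 ∧
      LO (K ^ 2100 * S.F ^ 12) S M m a p.l p.u2 (Hx.Eg S M p X4) := by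
  have h := A.cl
  have C1 := h.C1
  have F1 := h.F1
  have hc := F.c_pos
  have Lb := k.L1
  have L1 : 1 ≤ L := by linarith only [Lb]
  have v0 := v_pos h
  have l0 := H.lp0 h
  have l1 := H.l_one h
  have LW : L ≤ L * L ^ 30 := le_mul_of_one_le_right (by linarith only [L1]) (one_le_pow₀ L1)
  have W1 := L1.trans LW
  have WK : L * L ^ 30 ≤ K := hK ▸ (le_self_pow₀ W1 (by norm_num)).trans
    (le_mul_of_one_le_left (by positivity) L1)
  have LK := LW.trans WK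
  have K1 := L1.trans LK
  have pk : ∀ j ≤ 1000, K ^ j ≤ E := fun j hj => (pow_le_pow_right₀ K1 hj).trans KE
  have pc : ∀ j ≤ 17, 10 ^ 15 * S.C ^ j ≤ L := fun j hj =>
    (mul_le_mul_of_nonneg_left (pow_le_pow_right₀ C1 hj) (by norm_num)).trans k.C
  have E2 : 2 ≤ E := by linarith only [pk 1 (by norm_num), LK, Lb, pow_one K]
  obtain ⟨Gn, V0, G⟩ := ng p L H
  have G' := G.mono63 H A WK
  obtain ⟨Q, hQ⟩ : ∃ Q, Q = L * K ^ 10 := ⟨_, rfl⟩
  have KQ : L * K ≤ Q := hQ ▸ mul_le_mul_of_nonneg_left (le_self_pow₀ K1 (by norm_num))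
    (by linarith only [L1])
  have LQ : L ≤ Q := (le_mul_of_one_le_right (by linarith only [L1]) K1).trans KQ
  have Q1 := L1.trans LQ
  have Q0 : 0 < Q := by linarith only [Q1]
  have QK : Q ≤ K ^ 11 := by
    rw [hQ, pow_succ' K 10]
    exact mul_le_mul_of_nonneg_right LK (by positivity)
  obtain ⟨r3, rv, rX, rn⟩ := H.root h hθ v4 Q1
    ((pow_le_pow_left₀ Q0.le QK 18).trans (by rw [← pow_mul]; exact pk _ (by norm_num)))
  have cc : p.l ≤ cr S p.l * p.l := le_mul_of_one_le_left l0.le (Ab33.cr_one S _)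
  have c0 := l0.trans_le cc
  have q2 : 1000 * (Q ^ 2 * (cr S p.l * p.l)) ≤ 1 := by
    have := mul_le_mul_of_nonneg_right (Lb.trans LQ) (show 0 ≤ Q ^ 2 * (cr S p.l * p.l) by positivity)
    linarith only [this, r3]
  have q1 : Q * (cr S p.l * p.l) ≤ Q ^ 2 * (cr S p.l * p.l) :=
    mul_le_mul_of_nonneg_right (le_self_pow₀ Q1 two_ne_zero) c0.le
  have q0 : cr S p.l * p.l ≤ Q * (cr S p.l * p.l) := le_mul_of_one_le_left c0.le Q1
  have Ll : L * p.l ≤ 1 := by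
    linarith only [mul_le_mul LQ cc l0.le Q0.le, q1, q2]
  have c7 : 10 ^ 15 * S.C ^ 7 * p.l ≤ 1 :=
    (mul_le_mul_of_nonneg_right (pc 7 (by norm_num)) l0.le).trans Ll
  have c4 : S.C ^ 4 * p.l ≤ S.C ^ 7 * p.l :=
    mul_le_mul_of_nonneg_right (pow_le_pow_right₀ C1 (by norm_num)) l0.le
  have c2 : S.C ^ 2 * p.l ≤ S.C ^ 4 * p.l :=
    mul_le_mul_of_nonneg_right (pow_le_pow_right₀ C1 (by norm_num)) l0.le
  have c1 : p.l ≤ S.C ^ 2 * p.l := le_mul_of_one_le_left l0.le (one_le_pow₀ C1)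
  have lJ : 100 * (S.C ^ 4 * p.l) ≤ M.s S.J :=
    le_of_mul_le_mul_left (a := 3 * S.C ^ 3) (by linarith only [Ab33.sJ_ge h, c7, c4, c2, c1, l0])
      (by positivity)
  have JC : M.s S.J ≤ S.C := (h.sm h.i3).trans h.sT
  have jl : M.s S.jl ≤ p.l := ((le_mul_of_one_le_left (h.s_nn _) (H.E1 h)).trans H.ln.l0s).trans
    H.ln.l0l
  have c3 : 0 < S.C ^ 3 := by positivity
  obtain ⟨u, gu, ju, -, -, u1, u2⟩ := ng_gs (t := 9 / 4 * p.l) h G.ng (by positivity)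
    ((mul_le_mul (show 18 * S.C ^ 3 ≤ K by linarith only [pc 3 (by norm_num), LK, c3])
      WK (by positivity) (by positivity)).trans
      (((sq K).ge.trans (pk 2 (by norm_num))).trans ((le_mul_of_one_le_right (by linarith only [E2])
        (one_le_pow₀ F1)).trans H.ln.Lg0)))
    (by rw [e0]; exact max_le (by linarith only [l0]) (by linarith only [l0]))
    (by linarith only [jl, l0])
    (by
      have a1 := mul_le_mul_of_nonneg_right (show 32 * S.C ^ 3 ≤ Q by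
        linarith only [pc 3 (by norm_num), LQ, c3]) v0.le
      linarith only [a1, rv, pow_le_of_le_one l0.le l1 two_ne_zero, l0])
    (by linarith only [lJ, c2, c1, l0])
  have vs : Vs M p Gn u := ⟨gu, by
    rw [e0, max_eq_right (by linarith only [l0])]; linarith only [u1]⟩
  obtain ⟨v, ve, ext⟩ := tx p L K (c / 8) X4 p.l Gn V0 H LK KE
    (by
      have := (div_le_iff₀ hc).1 (k.c8.trans LK)
      linarith only [this]) (H.ln.l1.trans C1) x4 G'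
  obtain ⟨gv, vV, v1, v2, v3⟩ := id ve
  have uv : u < v := lt_of_not_ge fun q => by linarith only [h.sm q, v1, u2, lJ, c2, c1, l0]
  have vJ : v < S.J := by have := G.ng.hV; omega
  obtain ⟨r1, r2, ω, β, f, bk⟩ := bu p L _ Gn V0 H LW
    ((pow_le_pow_left₀ (by positivity) WK _).trans KE) G u v vs ve uv
  rw [← hK] at bk
  have kf : 1 ≤ K * S.F ^ 12 := one_le_mul_of_one_le_of_one_le K1 (one_le_pow₀ F1)
  have mx : ∀ x y : ℝ, x ≤ K * S.F ^ 12 * max (max x y) 0 ∧ y ≤ K * S.F ^ 12 * max (max x y) 0 :=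
    fun x y => by
      have := le_mul_of_one_le_left (le_max_right (max x y) 0) kf
      exact ⟨((le_max_left _ _).trans (le_max_left _ _)).trans this,
        ((le_max_right _ _).trans (le_max_left _ _)).trans this⟩
  obtain ⟨ρ, Z⟩ := bo p L K θ0 Gn V0 u v r1 r2 ω β f _ H e0 eV LK KE H.lE G' vs
    (by linarith only [u2, l0]) ve uv bk (mx _ _).1 (mx _ _).2
  rw [← hQ] at Z
  have X40 := H.X40 h x4
  have A0 := (A.sb_mem (Z.uJ.le.trans h.i3)).1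
  have AQ : sb M m a (u + 1) * Q < 1 := by
    linarith only [mul_le_mul_of_nonneg_right Z.cru Q0.le, q2]
  have As : sb M m a (u + 1) < sb M m a (v + 1) :=
    lt_of_mul_lt_mul_right (a := Q) (by linarith only [AQ, Z.s1.1]) Q0.le
  have Qs : Q ^ 2 * (cr S p.l * p.l) ≤ sb M m a (v + 1) :=
    le_of_mul_le_mul_left (a := Q) (by linarith only [r3, Z.s1.1]) Q0
  have ρ1 := Z.ρ1 (1 / Q) X4 ((lt_div_iff₀ Q0).2 AQ) ((le_div_iff₀ Q0).2 (by
      linarith only [mul_le_mul_of_nonneg_left cc (sq_nonneg Q), q2]))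
    (mul_one_div_cancel Q0.ne').le fun t a1 a2 => eV ▸ x4 t a1 (a2.trans (by
      rw [mul_one_div, div_le_iff₀ Q0]
      linarith only [le_mul_of_one_le_left Q0.le C1, LQ, Lb]))
  obtain ⟨l', D, f0, Ar, Zt, Ar0, ll, ar, rs⟩ := rt S M m a p.G1 Q p.l p.X p.X2 _ X4 p.η u _ ρ
    r1 r2 ω β f A rfl H.ce H.ln.sub F (k.kr.trans LQ) l0 rv (H.X20 h) rX Qs Z X40 ρ1
  obtain ⟨w1, w0⟩ := H.W0_le h X40
  have N0 := H.N0 h
  have nn := H.Nn_le h X4
  have x2 := sq_nonneg p.X2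
  have cb := Hx.cB0 h p.η p.l S.C
  have n3 : 0 ≤ 1 / (S.n : ℝ) ^ 3 := by positivity
  have e3 : Nn S M p X4 p.l =
    p.N + p.X2 ^ 2 + X4 + cB M S p.η p.l S.C + 1 / (S.n : ℝ) ^ 3 := rfl
  generalize hg : Hx.Eg S M p X4 = g at *
  have g0 : 0 ≤ g := by linarith only [w1, w0, N0, x2, X40]
  have up : ∀ y x, y ≤ Q ^ 100 → ∀ j ≤ 10, x ≤ y * (S.F ^ j * g) → x ≤ Q ^ 100 * S.F ^ 10 * g :=
    fun y x a1 j a2 a3 => a3.trans (by
      rw [mul_assoc]
      exact mul_le_mul a1 (mul_le_mul_of_nonneg_right (pow_le_pow_right₀ F1 a2) g0) (by positivity)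
        (by positivity))
  have QQ : Q ≤ Q ^ 100 := le_self_pow₀ Q1 (by norm_num)
  have sC : sb M m a (v + 1) ≤ S.C := v3.le.trans JC
  have lu : p.l ≤ M.s u := Z.su.1
  have ll' : 2 * l' ≤ sb M m a (v + 1) := by
    have := mul_le_mul_of_nonneg_right (show 2 ≤ Q by linarith only [LQ, Lb])
      (show 0 ≤ Q * (cr S p.l * p.l) by positivity)
    linarith only [this, ll, Qs]
  obtain ⟨z, z0, qt, b1, b2, b3, b4⟩ := en63 (X0 := Q ^ 100 * S.F ^ 10 * g) F A th Zt As v3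
    (fun t ht => L25.zs_of A (ju.trans uv).le vJ ht) (by linarith only [ll', Zt.l0])
    (ar _ ll' As.le le_rfl) Ar0
    (rs.trans (add_le_add ((mul_le_mul_of_nonneg_left (show _ ≤ g by
      linarith only [w1, N0, mul_le_mul_of_nonneg_right (show cr S p.l * p.l ≤ 1 by
        linarith only [q0, q1, q2, c0]) x2]) (by positivity)).trans
      (up _ _ (pow_le_pow_right₀ Q1 (show 70 ≤ 100 by norm_num)) 10 le_rfl (mul_assoc _ _ _).le))
      le_rfl))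
    ((bk.hF v p.l S.C uv.le le_rfl gv le_rfl lu (by linarith only [c7, c4, c2, c1, l0, C1])
      (by linarith only [c7, c4, c2, c1, l0]) ((h.sm vJ.le).trans JC) sC).trans (add_le_add
        (up (2 * K) _ (le_trans (by nlinarith only [KQ, Lb, K1]) QQ) 3 (by norm_num) (by
          have a1 : S.ms p.l * p.l ^ 2 * max (p.l - sb M m a (u + 1)) 0 ≤ g := by
            have := mul_le_mul_of_nonneg_left (max_le (show p.l - sb M m a (u + 1) ≤ p.l by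
              linarith only [A0]) l0.le) (mul_pos (h.ms_pos l0.le) (pow_pos l0 2)).le
            unfold W0 at w1
            linarith only [this, w1, N0, x2, X40, pow_pos l0 5]
          have a2 := mul_le_mul_of_nonneg_left a1 (show 0 ≤ S.F ^ 3 by positivity)
          have a3 := le_mul_of_one_le_left g0 (one_le_pow₀ (n := 3) F1)
          rw [mul_comm 2, mul_assoc K]
          exact mul_le_mul_of_nonneg_left (by linarith only [a2, a3, nn, e3, N0, x2, X40])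
            (by linarith only [K1]))) le_rfl))
    ((bk.hΩ v p.l S.C X4 uv.le le_rfl gv le_rfl lu (by linarith only [c7, c4, c2, c1, l0]) sC
      (by rwa [min_eq_right (by linarith only [C1])]) X40).trans (add_le_add
        (up (L * K) _ (KQ.trans QQ) 0 (by norm_num) (by
          have CL : S.C ≤ L := by linarith only [pc 1 (by norm_num), C1, pow_one S.C]
          have a1 := mul_le_mul_of_nonneg_right CL x2
          have a2 := le_mul_of_one_le_left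
            (show 0 ≤ p.N + X4 + cB M S p.η p.l S.C + 1 / (S.n : ℝ) ^ 3 by positivity) L1
          have a3 := mul_le_mul_of_nonneg_left (e3 ▸ nn) (show 0 ≤ L by positivity)
          rw [pow_zero, one_mul, mul_comm L, mul_assoc K]
          refine mul_le_mul_of_nonneg_left ?_ (by linarith only [K1])
          split_ifs <;> linarith only [a1, a2, a3, N0, cb])) le_rfl))
    (by
      rw [bk.r2s]
      refine (ext 0 0 _ _ le_rfl (A0.trans As.le) le_rfl (by linarith only [lJ, c2, c1, l0])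
        (by simp) bk.be.1 bk.be.2).mono (add_le_add le_rfl (up (L * K ^ 990) _ ?_ 10 le_rfl ?_))
        fun _ _ q => q
      · rw [hQ, mul_pow, ← pow_mul]
        exact mul_le_mul (le_self_pow₀ L1 (by norm_num)) (pow_le_pow_right₀ K1 (by norm_num))
          (by positivity) (by positivity)
      · rw [mul_assoc (L * K ^ 990)]
        exact mul_le_mul_of_nonneg_left (mul_le_mul_of_nonneg_left nn (by positivity))
          (by positivity))
    (up 1 _ (one_le_pow₀ Q1) 0 (by norm_num) (by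
      have C0 : S.C ≠ 0 := by positivity
      have w : S.v ≤ 1 := by
        linarith only [le_mul_of_one_le_left v0.le Q1, rv, pow_le_one₀ (n := 2) l0.le l1]
      have a1 := mul_le_mul_of_nonneg_left (pow_le_of_le_one v0.le w two_ne_zero)
        (show 0 ≤ S.C ^ 7 by positivity)
      have a2 := mul_le_mul (pow_le_pow_right₀ C1 (show 5 ≤ 7 by norm_num))
        (pow_le_of_le_one v0.le w four_ne_zero) (by positivity) (by positivity)
      have a3 := le_mul_of_one_le_left v0.le (one_le_pow₀ (n := 7) C1)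
      have a4 := mul_le_mul_of_nonneg_right ((pc 7 (by norm_num)).trans LQ) v0.le
      have a5 : 6 * (2 * (S.C * S.v)) / S.C = 12 * S.v := by field_simp; norm_num
      rw [a5, pow_zero, one_mul, one_mul]
      linarith only [a1, a2, a3, a4, rn, nn, e3, N0, x2, X40, cb, v0]))
  have fin : κE c * (Q ^ 100 * S.F ^ 10 * g) ≤ K ^ 1101 * S.F ^ 10 * g := by
    rw [← mul_assoc, ← mul_assoc]
    refine mul_le_mul_of_nonneg_right (mul_le_mul_of_nonneg_right ?_ (by positivity)) g0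
    rw [pow_succ' K 1100]
    exact mul_le_mul (k.κ.trans LK) ((pow_le_pow_left₀ Q0.le QK 100).trans_eq (by rw [← pow_mul]))
      (by positivity) (by positivity)
  have f11 : K ^ 1101 * S.F ^ 10 * g ≤ K ^ 1101 * S.F ^ 11 * g := mul_le_mul_of_nonneg_right
    (mul_le_mul_of_nonneg_left (pow_le_pow_right₀ F1 (by norm_num)) (by positivity)) g0
  have f2 := fin.trans f11
  refine ⟨Gn, V0, u, v, G, vs, by linarith only [u2, l0], ve, uv, b1.trans fin, b2.trans fin, ?_⟩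
  subst hg
  refine lo63 H A E2 hθ v4 X40 (ju.trans uv).le vJ v3.le (by linarith only [v2, lJ, c2, c1, l0])
    Zt.R.lH A0 As.le Zt.D1 Zt.D2 Zt.mass (one_le_mul_of_one_le_of_one_le L1 (one_le_pow₀ K1))
    (one_le_pow₀ K1) qt (b1.trans f2) (b2.trans f2) (b4.trans f2) (b1.trans f2) (b3.trans f2) ?_
  refine (mul_le_mul (k.C.trans LK) (mul_le_mul_of_nonneg_right (mul_le_mul_of_nonneg_right LK
    (by positivity)) (by positivity)) (by positivity) (by positivity)).trans ?_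
  rw [← pow_succ', ← pow_add, ← pow_succ']
  exact pow_le_pow_right₀ K1 (by norm_num)

/-- the constants of the energy -/
theorem exC (h : RtK) (C : ℝ) : ∃ θ0 K0 c B KR : ℝ, (0 < θ0 ∧ θ0 ≤ 1) ∧
    Fr (2 * C) c B (Spl27.okT (2 * C)) (lvr 1) Pr.Gam Pr.GG ∧ Th (2 * C) C c θ0 ∧ RtP KR C B c θ0 ∧
    ∀ (S : Sc) (L : ℝ), S.C = C → K0 ≤ L → 1000 ≤ L → Kc S L c KR := by
  obtain ⟨B, -, H⟩ := Gap27.hlip (2 * C)
  have F := (H _ le_rfl).2.2.2.2.2
  obtain ⟨θ0, a1, a2, th⟩ := exTh (2 * C) C F.c_pos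
  obtain ⟨KR, -, rt⟩ := h C B _ θ0 F.c_pos a1 a2
  refine ⟨θ0, max (max (10 ^ 15 * C ^ 17) KR) (max (8 / (exp (-14 * (2 * C)) / 4))
    (κE (exp (-14 * (2 * C)) / 4))), _, B, KR, ⟨a1, a2⟩, F, th, rt, fun S L e k k1 => ?_⟩
  simp only [max_le_iff] at k
  exact ⟨k1, e ▸ k.1.1, k.1.2, k.2.1, k.2.2⟩

theorem hx63 {G1 u1 u2 j γ Lc ηc τ l X Xp Vt V2 Lg Lp X2 X3 G0 N' N : ℝ} {η : ℝ → ℝ}
    (ce : CeiG S M G1) (ln : LN E S M l l (cr S l * l) X Lg X2 X3 G0 η)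
    (lp : LP E S M Xp Vt Lg Lp X2 X3 G0 G1 u1 u2 j γ Lc ηc τ η N')
    (lc : LC E S M Xp Vt V2 Lg Lp X2 G0 G1 u1 u2 j γ ηc τ η N) (f40 : S.F ^ 40 ≤ E)
    (ap : Ap S M m a l X Xp Vt u1 j) (ap2 : Ap2 S M m a V2 u1 u2) (L1 : 1 ≤ L) (LE : L ^ 1000 ≤ E)
    (cru : Cru L S M m a l) : Hx E L S M m a
      ⟨G1, u1, u2, j, γ, Lc, ηc, τ, l, l, cr S l * l, X, Xp, Vt, V2, Lg, Lp, X2, X3, G0, N', N, η⟩ :=
  ⟨ce, ln, lp, lc, f40, ap, ap2, L1, LE, le_rfl, fun k hk => (cru k hk).trans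
    (mul_le_mul_of_nonneg_left (le_add_of_nonneg_right ln.V0) (by linarith))⟩

theorem K_eq (L : ℝ) : L * (L * L ^ 30) ^ 30 = L ^ 931 := by ring

/-- **(TL1x)** -/
theorem tl1x63 (h0 : TL0) (h1 : NgX) (h2 : BuS) (h3 : TxS) (h4 : BoK) (h5 : RtK) : TL1x := by
  choose θ K0 c B KR θ0 F th rt kc using exC h5
  refine glue63 ((((h0.and h1).and (h2 θ θ0)).and h3).and h4) 2000000 fun C => ⟨K0 C, ?_⟩
  rintro E L Λ S M m a rfl h I k0 k1 LE LΛ hθ v4 ⟨⟨⟨⟨t0, ng⟩, bu⟩, tx⟩, bo⟩ G1 u1 u2 j γ Lc ηc τ l X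
    Xp Vt V2 Lg Lp X2 X3 X4 G0 η N' N ce ln x4 lp lc f40 ap ap2
  have L1 : 1 ≤ L := by linarith
  have H := hx63 ce ln lp lc f40 ap ap2 L1 ((pow_le_pow_right₀ L1 (by norm_num)).trans LE)
    (t0 G1 u1 u2 j γ Lc ηc τ l X Xp Vt Lg Lp X2 X3 G0 η N' ce ln lp f40 ap)
  obtain ⟨-, -, -, -, -, -, -, -, -, -, -, lo⟩ := core63 H (H.at' h I) rfl rfl x4 hθ v4 (F _) (th _)
    (kc _ S L rfl k0 k1) rfl (by
      rw [K_eq, ← pow_mul]; exact (pow_le_pow_right₀ L1 (by norm_num)).trans LE) ng bu tx bo (rt _)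
  have F1 := h.F1
  obtain ⟨w1, w0⟩ := H.W0_le h (H.X40 h x4)
  have g0 := le_trans (add_nonneg (add_nonneg (add_nonneg w0.le (sq_nonneg _)) (H.X40 h x4))
    (H.N0 h)) w1
  refine L25.lo_scale h lo (H.lp0 h).le (by positivity) le_rfl ?_ g0 (one_mul _).ge g0 (one_mul _).ge
    (H.u20 h)
  rw [mul_one, K_eq, ← pow_mul]
  exact mul_le_mul_of_nonneg_right ((pow_le_pow_right₀ L1 (by norm_num)).trans LΛ) (by positivity)

/-- the loss `Λ` as a value of the chain of losses -/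
theorem exW {Λ Y : ℝ} (L1 : 1 ≤ L) (Y1 : 1 ≤ Y) (h : L ^ 11 * Y ^ 300 ≤ Λ) :
    ∃ W, Y ≤ W ∧ L * (L * W ^ 30) ^ 10 = Λ := by
  have p : 0 < L ^ 11 := by positivity
  have q : Y ^ 300 ≤ Λ / L ^ 11 := by rw [le_div_iff₀ p]; linarith
  have q0 : 0 ≤ Λ / L ^ 11 := le_trans (by positivity) q
  have e : ((Λ / L ^ 11) ^ ((300 : ℕ) : ℝ)⁻¹) ^ 300 = Λ / L ^ 11 := rpow_inv_natCast_pow q0 (by norm_num)
  refine ⟨(Λ / L ^ 11) ^ ((300 : ℕ) : ℝ)⁻¹, le_of_pow_le_pow_left₀ (n := 300) (by norm_num)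
    (rpow_nonneg q0 _) (q.trans e.ge), ?_⟩
  generalize (Λ / L ^ 11) ^ ((300 : ℕ) : ℝ)⁻¹ = W at e ⊢
  rw [eq_div_iff p.ne'] at e
  rw [← e]; ring

/-- **(BoS)** -/
theorem boS63 (h0 : TL0) (h1 : NgX) (h2 : BuS) (h3 : TxS) (h4 : BoK) (h5 : RtK) : BoS := by
  intro θ' θ0'
  choose θ K0 c B KR θ0 F th rt kc using exC h5
  refine glue63 (((((h0.and h1).and (h2 θ θ0)).and h3).and h4).and (h2 θ' θ0')) 400000000
    fun C => ⟨K0 C, ?_⟩
  rintro E L Λ S M m a rfl h I k0 k1 LE LΛ hθ v4 ⟨⟨⟨⟨⟨t0, ng⟩, bu⟩, tx⟩, bo⟩, bu'⟩ G1 u1 u2 j γ Lc ηc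
    τ l X Xp Vt V2 Lg Lp X2 X3 X4 G0 η N' N ce ln x4 lp lc f40 ΛE ap ap2
  have L1 : 1 ≤ L := by linarith
  have H := hx63 ce ln lp lc f40 ap ap2 L1 ((pow_le_pow_right₀ L1 (by norm_num)).trans LE)
    (t0 G1 u1 u2 j γ Lc ηc τ l X Xp Vt Lg Lp X2 X3 G0 η N' ce ln lp f40 ap)
  have A := H.at' h I
  obtain ⟨Gn, V0, u, v, G, vs, ul, ve, uv, b1, b2, -⟩ := core63 H A rfl rfl x4 hθ v4 (F _) (th _)
    (kc _ S L rfl k0 k1) rfl (by
      rw [K_eq, ← pow_mul]; exact (pow_le_pow_right₀ L1 (by norm_num)).trans LE) ng bu tx bo (rt _)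
  rw [K_eq, ← pow_mul] at b1 b2
  obtain ⟨W, w1, w2⟩ := exW (Λ := Λ) (Y := L ^ (931 * 1101)) L1 (one_le_pow₀ L1) (by
    rw [← pow_mul, ← pow_add]; exact (pow_le_pow_right₀ L1 (by norm_num)).trans LΛ)
  have LW : L * L ^ 30 ≤ W := by
    rw [← pow_succ']; exact (pow_le_pow_right₀ L1 (by norm_num)).trans w1
  have LW' : L ≤ W := (le_mul_of_one_le_right (by linarith) (one_le_pow₀ L1)).trans LW
  have W1 := L1.trans LW'
  have WW : W ≤ L * W ^ 30 := (le_self_pow₀ W1 (by norm_num)).trans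
    (le_mul_of_one_le_left (by positivity) L1)
  have WΛ : L * W ^ 30 ≤ Λ := w2 ▸ (le_self_pow₀ (W1.trans WW) (by norm_num)).trans
    (le_mul_of_one_le_left (by positivity) L1)
  have WE : (L * W ^ 30) ^ 1000 ≤ E := (pow_le_pow_left₀ (by positivity) WΛ _).trans ΛE
  obtain ⟨r1, r2, ω, β, f, bk⟩ := bu' _ L W Gn V0 H LW'
    ((pow_le_pow_left₀ (by positivity) WW _).trans WE) (G.mono63 H A LW) u v vs ve uv
  have F1 := h.F1
  obtain ⟨g1, g2⟩ := H.W0_le h (H.X40 h x4)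
  have g0 := le_trans (add_nonneg (add_nonneg (add_nonneg g2.le (sq_nonneg _)) (H.X40 h x4))
    (H.N0 h)) g1
  have up := mul_le_mul_of_nonneg_right (mul_le_mul (w1.trans WW)
    (pow_le_pow_right₀ F1 (show 10 ≤ 12 by norm_num)) (by positivity) (by positivity)) g0
  obtain ⟨ρ, Z⟩ := bo _ L _ _ Gn V0 u v r1 r2 ω β f _ H rfl rfl (LW'.trans WW) WE H.lE
    (G.mono63 H A (LW.trans WW)) vs ul ve uv bk (b1.trans up) (b2.trans up)
  rw [w2] at Z
  exact ⟨u, _, ρ, r1, r2, ω, β, f, Z⟩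

end Crest.Agent.T156.Alt.L31

end
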