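import Crest.Agent.T156.TLqD_53

/-!
# Row 156, block (L): good nodes up to a free distance of the corner, statement (helper20)
-/

set_option autoImplicit false

noncomputable section

namespace Crest.Agent.T156.Alt.L63

open Crest.Agent.T156.Alt.L69

/-- **good nodes of the thick levels up to the distance `aa`** -/
def NdTq : Prop := CL fun E Λ S M m a =>
  ∀ G1 u1 u2 j γ Lc ηc τ l0 l X Xp Vt Lg Lp X2 X3 X4 G0 η N g t1 ℓ En p0,
  Hy E S M m a G1 u1 u2 j γ Lc ηc τ l0 l X Xp Vt Lg Lp X2 X3 X4 G0 η N g t1 (M.s S.J) ℓ En p0 →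
  ∀ aa g' R2, LQ E S M X Xp Vt Lg Lp X2 G0 u1 u2 j γ η aa g' R2 →
  ∃ Gn : ℕ → Prop, ∀ U V, 5 / 4 * l ≤ M.s U → M.s V + aa / 5 ≤ M.s S.J →
    Nt E Λ S M m a Lg X X2 η Gn U V

end Crest.Agent.T156.Alt.L63

end
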