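import Crest.Agent.T156.NdT_51
import Crest.Agent.T156.TLqN_20

/-!
# Row 156, block (L): the good nodes up to a free distance `aa` from the corner (helper51)
-/

set_option autoImplicit false

noncomputable section

namespace Crest.Agent.T156.Alt.L63

open Real Finset
open Crest.Agent.T156.Alt.L69 Crest.Agent.T156.Alt.Mp9
open Crest.Agent.T156.Alt.G89 (NG NdS Tau Ug gd)

/-- numbers of the free distance `aa` -/
structure NA (E : ℝ) (S : Sc) (M : Md) (X Lg j γ : ℝ) (η : ℝ → ℝ) (aa : ℝ) : Prop where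
  a1 : E * X ^ ((1 : ℝ) / 3) ≤ Lg * aa
  a2 : E * η (M.s S.J / 2) ≤ S.θ * aa
  a3 : E ^ 3 * S.w3 1 ≤ aa ^ 3
  a4 : j + S.θ + γ ≤ Lg * aa
  a6 : γ ≤ X ^ ((1 : ℝ) / 3)
  sm : E * aa ≤ √S.θ

variable {E L : ℝ} {S : Sc} {M : Md} {m : ℕ} {a G1 u1 u2 j γ Lc ηc τ l0 l X Xp Vt Lg Lp X2 X3 X4
  G0 : ℝ} {η : ℝ → ℝ} {N : ℝ} {g : ℝ → ℝ} {t1 tu ℓ En p0 aa : ℝ}

namespace Cx

variable (H : Cx E L S M m a G1 u1 u2 j γ Lc ηc τ l0 l X Xp Vt Lg Lp X2 X3 X4 G0 η N g t1 tu ℓ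
  En p0)
include H

/-- ahead of the reference, up to the corner -/
theorem up52 {k : ℕ} (k1 : S.j0 < k) (k2 : k ≤ S.J) :
    M.del m a k ≤ 4 * S.C ^ 3 * (X ^ ((1 : ℝ) / 3) + S.v + γ) := by
  have h := H.cl
  have C1 := h.C1
  have v0 := h.v0
  have R0 := H.R0
  have g0 := H.γ051
  have sw := Ap63.sw_q h ((Ap63.q_slow h h.i3 le_rfl).trans H.lp.γ0)
  have c1 : S.C ^ 2 ≤ S.C ^ 3 := pow_le_pow_right₀ C1 (by norm_num)
  have c2 : S.C ≤ S.C ^ 3 := le_self_pow₀ C1 (by norm_num)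
  have := (crude (z := M.z) (f := M.rb m a) (g := M.q) (lo := S.j0) (hi := S.Jp) (k := k)
    h.leg.zm (rb_mono H.A.m_pos) (L := S.C ^ 2) (e := S.C ^ 3 * S.v + S.C * S.v + γ)
    (ρ := 2 * S.C ^ 3 * (X ^ ((1 : ℝ) / 3) + S.v + γ)) (one_le_pow₀ C1) (by positivity) R0
    (by linarith [mul_le_mul_of_nonneg_right c1 R0.le, mul_le_mul_of_nonneg_right c2 v0.le,
      mul_le_mul_of_nonneg_right (C1.trans c2) g0])
    sw.mono (sw.lip h) ((H.Sdel le_rfl le_rfl).trans_eq H.R3.symm) k1 (k2.trans h.i3)).1 (by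
      have a0 : S.C * X ^ ((1 : ℝ) / 3) ≤ 1 :=
        (H.dv (by linarith [H.CE]) R0.le H.lt.lX).trans H.l1
      have a1 : X ^ ((1 : ℝ) / 3) ≤ 1 / S.C := by rwa [le_div_iff₀' h.C0]
      rw [h.top _ le_rfl]
      linarith [h.atom.2, h.leg.zm (show k - 1 ≤ S.J - 1 by omega)])
  unfold Md.del
  linarith

theorem eta52 {t K : ℝ} (t0 : 0 < t) (K1 : 1 ≤ K) (η0 : 0 ≤ η (K * t)) :
    η t ≤ 16 * K ^ 4 * η (K * t) := by
  have a2 : ∀ i : ℕ, η t ≤ 16 ^ i * η (2 ^ i * t) := fun i => by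
    induction i with
    | zero => simp
    | succ i ih =>
      rw [pow_succ, pow_succ' (2 : ℝ), mul_assoc, mul_assoc]
      exact ih.trans (mul_le_mul_of_nonneg_left (H.ln.η2 _ (by positivity)) (by positivity))
  obtain ⟨i, i1, i2⟩ := exists_nat_pow_near K1 one_lt_two
  have a3 : (16 : ℝ) ^ (i + 1) ≤ 16 * K ^ 4 := by
    rw [pow_succ', show (16 : ℝ) ^ i = (2 ^ i) ^ 4 by rw [← pow_mul, mul_comm, pow_mul]; norm_num]
    gcongr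
  exact (a2 (i + 1)).trans ((mul_le_mul_of_nonneg_left
    (H.ln.ηa (mul_le_mul_of_nonneg_right i2.le t0.le)) (by positivity)).trans
    (mul_le_mul_of_nonneg_right a3 η0))

variable (Q : NA E S M X Lg j γ η aa)
include Q

theorem aa52 : 0 < aa ∧ E * S.v ≤ aa ∧ E * aa ≤ 1 ∧ E * aa ≤ ℓ := by
  have E0 : 0 < E := by linarith [H.E1]
  have μ0 := H.μ0
  have a1 : (E * (1 / S.n)) ^ 3 ≤ aa ^ 3 := by
    rw [mul_pow]
    exact (mul_le_mul_of_nonneg_left ((pow_le_of_le_one μ0.le (H.μ1.trans H.l1)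
      three_ne_zero).trans (T5.w3_ge H.cl H.θ1)) (by positivity)).trans Q.a3
  have a2 := (Odd.pow_le_pow (⟨1, rfl⟩ : Odd 3)).1 a1
  exact ⟨(mul_pos E0 μ0).trans_le a2, (H.vμ.trans (le_mul_of_one_le_left μ0.le H.E1)).trans a2,
    Q.sm.trans (sqrt_le_one.2 H.θ1),
    Q.sm.trans (by simpa using H.dv H.E1 (sqrt_nonneg _) H.lt.ℓ1)⟩

theorem tau52 (O : ∀ k, S.J ≤ 8 * k → k < S.J →
      Gd65.Out L S M m a (2 * S.C) j γ (X ^ ((1 : ℝ) / 3)) k) :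
    Tau E S M m a (2 * S.C) Lg (L * (S.θ + j + γ + X ^ ((1 : ℝ) / 3))) (L ^ 3 * (aa / E)) η := by
  have h := H.cl
  have C0 := h.C0
  have C1 := h.C1
  have E1 := H.E1
  have E0 : 0 < E := by linarith
  have L1 := H.L1
  have L9 := H.L9
  have Lg1 := E1.trans H.ELg51
  obtain ⟨a0, -, a1, -⟩ := H.aa52 Q
  have τ0 : 0 < aa / E := by positivity
  refine ⟨fun k a b => (O k (by omega) b).2.2, fun k k1 k2 => ?_, ?_⟩
  · have s1 := Gd65.s_top h (show S.J ≤ 8 * k by omega) k2.le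
    have s0 : 0 < M.s k := h.s_pos (by have := h.i2; omega)
    have s2 : l ≤ M.s k := le_of_mul_le_mul_left (a := 24 * S.C ^ 5)
      ((H.dv (H.KE 5 (by norm_num)) H.l0'.le H.ln.l1).trans s1) (by positivity)
    have sC := h.s_le_C (k2.le.trans h.i3)
    have m0 := h.ms_pos s0.le
    have c5 : 1 ≤ S.C ^ 5 := one_le_pow₀ C1
    have b1 : S.θ ≤ 2304 * S.C ^ 10 * S.ms (M.s k) :=
      ((h.msm s1).trans (h.ms_mul s0.le (by linarith))).trans_eq (by ring)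
    have b2 : M.s S.J / 2 ≤ S.C ^ 2 * M.s k := by
      have d1 := (h.s_bds k2.le).1
      have d2 := (h.s_bds le_rfl).2
      have d3 : (S.J : ℝ) ≤ 2 * k := by exact_mod_cast k1
      rw [← mul_div_assoc, div_le_iff₀ C0] at d1
      linarith [mul_le_mul_of_nonneg_right d3 (mul_pos C0 h.v0).le,
        mul_le_mul_of_nonneg_left d1 C0.le]
    have η0 := H.μ0.le.trans (H.μη s2 sC)
    have η1 : 0 ≤ η (S.C ^ 2 * M.s k) := by
      by_contra c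
      obtain ⟨i, hi⟩ := pow_unbounded_of_one_lt (S.C ^ 2) (one_lt_two (α := ℝ))
      have key : ∀ i : ℕ, 0 ≤ η (2 ^ i * M.s k) := fun i => by
        induction i with
        | zero => simpa using η0
        | succ i ih =>
          rw [pow_succ', mul_assoc]
          linarith [H.ln.η2 _ (show 0 < 2 ^ i * M.s k by positivity)]
      exact c ((key i).trans (H.ln.ηa (mul_le_mul_of_nonneg_right hi.le s0.le)))
    have b3 : η (M.s S.J / 2) ≤ S.θ * (aa / E) := by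
      rw [← mul_div_assoc, le_div_iff₀' E0]; exact Q.a2
    have b4 : η (M.s k) ≤ L ^ 2 * (aa / E * S.ms (M.s k)) := by
      calc _ ≤ _ := H.eta52 s0 (one_le_pow₀ (n := 2) C1) η1
        _ ≤ 16 * (S.C ^ 2) ^ 4 * (2304 * S.C ^ 10 * S.ms (M.s k) * (aa / E)) :=
          mul_le_mul_of_nonneg_left ((H.ln.ηa b2).trans (b3.trans
            (mul_le_mul_of_nonneg_right b1 τ0.le))) (by positivity)
        _ = 16 * S.C ^ 8 * (2304 * S.C ^ 10) * (aa / E * S.ms (M.s k)) := by ring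
        _ ≤ _ := mul_le_mul_of_nonneg_right ((mul_le_mul (H.KL 8 (by norm_num))
          (H.KL 10 (by norm_num)) (by positivity) (by linarith)).trans_eq (sq L).symm)
          (by positivity)
    obtain ⟨u0, u1, -⟩ := Gd65.Ug_le h Lg1 s0
    have b5 := H.ln.th2 _ s2 sC
    rw [H.mf_eq] at b5 ⊢
    have b6 : Ug S Lg (M.s k) ^ 2 * Lg * E ≤ S.ms (M.s k) := by
      have d1 := mul_le_mul_of_nonneg_left (pow_le_pow_left₀ (by positivity) u1 2) E0.le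
      linarith [mul_le_mul_of_nonneg_left (le_self_pow₀ Lg1 two_ne_zero)
        (show 0 ≤ Ug S Lg (M.s k) ^ 2 * E by positivity)]
    have b7 : S.θ + j + γ + X ^ ((1 : ℝ) / 3) ≤ 2 * (Lg * E * (aa / E)) := by
      rw [mul_assoc, mul_div_cancel₀ _ E0.ne']
      linarith [Q.a4, le_mul_of_one_le_left H.R0.le E1, Q.a1]
    have b8 := mul_le_mul_of_nonneg_left b7 (show 0 ≤ Ug S Lg (M.s k) ^ 2 * L by positivity)
    have b9 := mul_le_mul_of_nonneg_left b6 (show 0 ≤ 2 * L * (aa / E) by positivity)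
    have c1 : L ^ 2 + 2 * L ≤ L ^ 3 := by nlinarith [mul_le_mul_of_nonneg_right L9 (sq_nonneg L)]
    refine ⟨by linarith [mul_le_mul_of_nonneg_right c1 (mul_pos τ0 m0).le], ?_⟩
    have d1 : S.w3 (M.s k) ≤ L ^ 2 * S.w3 1 := by
      have n0 := h.N0
      have θ0 := h.θ0
      have e1 : 1 * S.θ ≤ L * M.s k * (L * S.ms (M.s k)) := mul_le_mul
        (s1.trans (mul_le_mul_of_nonneg_right (H.KL 5 (by norm_num)) s0.le))
        (b1.trans (mul_le_mul_of_nonneg_right (H.KL 10 (by norm_num)) m0.le)) θ0.le (by positivity)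
      unfold Sc.w3
      change _ ≤ L ^ 2 * (S.F / (S.n * 1 * S.θ))
      rw [H.lt.F1, ← mul_div_assoc, div_le_div_iff₀ (by positivity) (by positivity)]
      linarith [mul_le_mul_of_nonneg_left e1 n0.le]
    have d2 : S.w3 1 ≤ (aa / E) ^ 3 := by rw [div_pow, le_div_iff₀' (by positivity)]; exact Q.a3
    refine le_of_pow_le_pow_left₀ three_ne_zero (by positivity) ?_
    rw [Sz9.w1, Sz9.cube_rp (H.w30 s0).le, mul_pow, ← pow_mul]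
    exact d1.trans (mul_le_mul (pow_le_pow_right₀ L1 (by norm_num)) d2 (H.w30 one_pos).le
      (by positivity))
  · rw [show E * (L ^ 3 * (aa / E)) ^ 2 = L ^ 6 * aa * (aa / E) by field_simp]
    have b1 : aa ≤ 1 := (le_mul_of_one_le_left a0.le E1).trans a1
    exact mul_le_one₀ (H.dv (H.LE 6) a0.le a1) τ0.le (div_le_one_of_le₀ (b1.trans E1) E0.le)

variable {W : ℝ} {Gn : ℕ → Prop} {V0 : ℕ}
  (G : NG E W S M m a (2 * S.C) l Lg X2 (L ^ 3 * (aa / E)) η Gn V0) (W1 : 1 ≤ W)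
  (WE : L ^ 4 * W ≤ E)
include G W1 WE

omit Q G in
theorem WE52 : L ^ 2 * W ≤ E := (mul_le_mul_of_nonneg_right
  (pow_le_pow_right₀ H.L1 (by norm_num)) (zero_le_one.trans W1)).trans WE

omit G W1 WE in
theorem del52 {k : ℕ} (h1 : l ≤ M.s k) (k2 : k ≤ S.J) :
    M.del m a k ≤ 8 * S.C ^ 3 * (X ^ ((1 : ℝ) / 3) + S.v) := by
  have c := pow_pos H.cl.C0 3
  linarith [H.up52 (H.cl.i1.trans_lt (H.jl51 h1)) k2, mul_le_mul_of_nonneg_left Q.a6 c.le,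
    mul_pos c H.cl.v0]

/-- the net reaches the distance `aa / 5` from the corner -/
theorem top52 {V : ℕ} (h1 : l ≤ M.s V) (hV : M.s V + aa / 5 ≤ M.s S.J) : V ≤ V0 := by
  have h := H.cl
  have C0 := h.C0
  have C1 := h.C1
  have E0 : 0 < E := by linarith [H.E1]
  have Lg1 := H.E1.trans H.ELg51
  have L1 := H.L1
  obtain ⟨a0, av, -⟩ := H.aa52 Q
  obtain ⟨i, -, i1, -, i2⟩ := H.low51 G W1 (H.WE52 W1 WE)
  have s0 : l ≤ M.s V0 := by linarith [h.sm i2, H.l0']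
  have hV0 := G.hV
  by_contra c
  have a1 := h.leg.zm (not_le.1 c).le
  have v2 : V < S.J := lt_of_not_ge fun d => by linarith [h.sm d]
  have a2 : aa ≤ 10 * S.C ^ 2 * (M.z (S.J - 1) - M.z V) := by
    have b1 := Ap63.s_z h (h.i1.trans (H.jl51 h1).le) (show V ≤ S.J - 1 by omega) (by omega)
    have b2 := (h.ss (S.J - 1) (by omega)).2
    rw [show S.J - 1 + 1 = S.J by omega] at b2
    have b3 : 100 * S.C * S.v ≤ aa := H.dv (by linarith [H.CE]) h.v0.le av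
    linarith [mul_pos C0 h.v0]
  have a3 := H.half51 W1 (H.WE52 W1 WE) (sub_nonneg.2 (h.leg.zm (show V0 ≤ S.J - 1 by omega))) G.top
    (H.ds51 (H.jl51 s0) (by omega) (by omega) (H.loc51 s0 (by omega)).1
      (H.del52 Q (s0.trans (h.sm (by omega))) (by omega)))
  have τ0 : 0 < aa / E := by positivity
  have a4 : S.C * (8 * S.C ^ 3 * (X ^ ((1 : ℝ) / 3) + S.v) +
      4 * S.C ^ 3 * (X ^ ((1 : ℝ) / 3) + S.v)) / Lg ≤ L ^ 3 * (aa / E) := by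
    have b1 : X ^ ((1 : ℝ) / 3) + S.v ≤ 2 * (Lg * (aa / E)) := by
      rw [← mul_div_assoc, ← mul_div_assoc, le_div_iff₀' E0]
      linarith [Q.a1, le_mul_of_one_le_left a0.le Lg1]
    have b2 := mul_le_mul_of_nonneg_right ((H.KL (c := 24) 4 (by norm_num)).trans
      (le_self_pow₀ L1 three_ne_zero)) (show 0 ≤ Lg * (aa / E) by positivity)
    rw [div_le_iff₀ (by linarith)]
    linarith [mul_le_mul_of_nonneg_left b1 (show 0 ≤ 12 * S.C ^ 4 by positivity)]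
  have a5 := mul_le_mul_of_nonneg_left a4 (show 0 ≤ 2 * W by linarith)
  have a6 : L ^ 4 * W * (aa / E) ≤ aa :=
    (mul_le_mul_of_nonneg_right WE τ0.le).trans_eq (by field_simp)
  have a7 := mul_le_mul_of_nonneg_right (H.KL (c := 100) 2 (by norm_num))
    (show 0 ≤ W * (L ^ 3 * (aa / E)) by positivity)
  have a8 := mul_le_mul_of_nonneg_left (show M.z (S.J - 1) - M.z V ≤
    4 * (W * (L ^ 3 * (aa / E))) by linarith) (show 0 ≤ 10 * S.C ^ 2 by positivity)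
  linarith

theorem nt53 {Λ : ℝ} (hΛ : L * W ≤ Λ) {U V : ℕ} (hU : 5 / 4 * l ≤ M.s U)
    (hV : M.s V + aa / 5 ≤ M.s S.J) : Nt E Λ S M m a Lg X X2 η Gn U V := by
  have V1 : U ≤ V → V ≤ V0 := fun b => H.top52 Q G W1 WE (by linarith [H.cl.sm b, H.l0']) hV
  refine H.nt52 G W1 hΛ hU V1 fun p q a1 a2 a3 hw => by_contra fun c => ?_
  have W2 := H.WE52 W1 WE
  obtain ⟨i, k, i2, k4, si, n⟩ := H.gap51 G W1 W2 hU a1 a2 (a3.trans (V1 (by omega))) c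
  have k2 := n.2.2.1
  have hV0 := G.hV
  have sl : l ≤ M.s i := by linarith [H.l0']
  linarith [H.win51 G W1 W2 sl (by omega) n (H.del52 Q (sl.trans (H.cl.sm n.2.1)) (by omega)),
    H.cl.leg.zm (show q ≤ k - 1 by omega), H.cl.leg.zm i2]

end Cx

/-- `NdS` with a property `Pc S M m a Lg i` of the good nodes -/
def NdSP (Pc : Sc → Md → ℕ → ℝ → ℝ → ℕ → Prop) : Prop := CL fun E Λ S M m a =>
  ∀ G1 l0 l V X Lg X2 X3 G0 η L W3 T D1 τ1, CeiG S M G1 →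
  LN E S M l0 l V X Lg X2 X3 G0 η → Sz9.Rev S M → Phi M S m a ≤ X → V ≤ cr S l * l → L ^ 100 ≤ E →
  Nd22.NI L S M m a l0 V X2 G0 W3 → W3 ≤ L * η S.C → At S M m a T → T ≤ 2 * S.C →
  Tau E S M m a T Lg D1 τ1 η →
  ∃ Gn V0, NG E (Λ * L ^ 16) S M m a T (max l (2 * l0)) Lg X2 τ1 η Gn V0 ∧
    ∀ i, max l (2 * l0) ≤ M.s i → i + 1 < S.J → Gn i → Pc S M m a Lg i

theorem ndSP_of (hN : NdS) : NdSP fun _ _ _ _ _ _ => True :=
  CL.mono hN fun _ _ _ _ _ _ _ _ _ _ H _ _ _ _ _ _ _ _ _ _ _ _ _ _ _ a1 a2 a3 a4 a5 a6 a7 a8 a9 b1 b2 =>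
    let ⟨Gn, V0, G⟩ := H _ _ _ _ _ _ _ _ _ _ _ _ _ _ _ a1 a2 a3 a4 a5 a6 a7 a8 a9 b1 b2
    ⟨Gn, V0, G, fun _ _ _ _ => trivial⟩

/-- the net up to the distance `aa / 5` from the corner -/
def NdUP (Pc : Sc → Md → ℕ → ℝ → ℝ → ℕ → Prop) : Prop := CL fun E Λ S M m a =>
  ∀ G1 u1 u2 j γ Lc ηc τ l0 l X Xp Vt Lg Lp X2 X3 X4 G0 η N g t1 tu ℓ En p0,
  Hy E S M m a G1 u1 u2 j γ Lc ηc τ l0 l X Xp Vt Lg Lp X2 X3 X4 G0 η N g t1 tu ℓ En p0 →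
  ∀ aa, NA E S M X Lg j γ η aa →
  At S M m a (2 * S.C) ∧ ∃ (W τ1 : ℝ) (Gn : ℕ → Prop) (V0 : ℕ), 1 ≤ W ∧ W ≤ Λ ∧ 0 < τ1 ∧
    E * τ1 ≤ Λ * aa ∧ NG E W S M m a (2 * S.C) l Lg X2 τ1 η Gn V0 ∧
    (∃ i, Gn i ∧ 9 / 8 * l ≤ M.s i ∧ M.s i < 5 / 4 * l ∧ i ≤ V0) ∧
    (∀ V, l ≤ M.s V → M.s V + aa / 5 ≤ M.s S.J → V ≤ V0) ∧
    (∀ U V, 5 / 4 * l ≤ M.s U → M.s V + aa / 5 ≤ M.s S.J → Nt E Λ S M m a Lg X X2 η Gn U V) ∧
    ∀ i, Gn i → l ≤ M.s i → M.s i + aa / 5 ≤ M.s S.J → Pc S M m a Lg i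

theorem ndUP_of {Pc : Sc → Md → ℕ → ℝ → ℝ → ℕ → Prop} (hT : SzTH) (hN : NdSP Pc) : NdUP Pc := by
  refine cx51 ((CL.and hN hT).and Gd65.gdT) fun E L Λ S M m a LE hΛ L1 c ⟨⟨q1, q2⟩, q3⟩
    G1 u1 u2 j γ Lc ηc τ l0 l X Xp Vt Lg Lp X2 X3 X4 G0 η N g t1 tu ℓ En p0 Y aa Q => ?_
  have H := c _ _ _ _ _ _ _ _ _ _ _ _ _ _ _ _ _ _ _ _ _ _ _ _ _ _ _ Y
  have O := (q3 l0 X Xp Vt u1 γ j _ H.A le_rfl Y.ln.l0s (Y.ln.l0l.trans H.l1) Y.ln.X0 Y.ln.X1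
    Y.lp.γ0 Y.lp.γ1 Y.ap).1
  obtain ⟨n1, n2⟩ := H.ni51 (q2 _ _ _ _ _ _ _ _ _ _ _ _ _ _ _ _ _ _ _ _ _ _ _ _ _ _ _ Y) le_rfl
  obtain ⟨Gn, V0, G, P⟩ := q1 G1 l0 l _ X Lg X2 X3 G0 η _ _ _ _ _ Y.ce Y.ln Y.lp.rev Y.ap.all
    (le_trans (by simpa using H.dv H.E1 H.R0.le Y.lt.lX)
      (le_mul_of_one_le_left H.l0'.le (Cx.cr1 S l)))
    (by rwa [← pow_mul]) n1 n2 H.A le_rfl (H.tau52 Q O)
  rw [max_eq_left Y.lt.l2] at G P
  rw [← pow_mul, ← pow_succ'] at G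
  have W1 := one_le_pow₀ (n := 2 * 16 + 1) L1
  have WE : L ^ 4 * L ^ (2 * 16 + 1) ≤ E := by
    rw [← pow_add]; exact (pow_le_pow_right₀ L1 (by norm_num)).trans LE
  have a0 := (H.aa52 Q).1
  have E0 : 0 < E := by linarith [H.E1]
  exact ⟨H.A, _, _, Gn, V0, W1, (pow_le_pow_right₀ L1 (by norm_num)).trans hΛ, by positivity, by
      rw [mul_left_comm, mul_div_cancel₀ _ E0.ne']
      exact mul_le_mul_of_nonneg_right ((pow_le_pow_right₀ L1 (by norm_num)).trans hΛ) a0.le,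
    G, H.low51 G W1 (H.WE52 W1 WE), fun V => H.top52 Q G W1 WE, fun U V => H.nt53 Q G W1 WE
      (by rw [← pow_succ']; exact (pow_le_pow_right₀ L1 (by norm_num)).trans hΛ),
    fun i gi b1 b2 => P i b1 ((Nat.succ_le_succ (H.top52 Q G W1 WE b1 b2)).trans_lt G.hV) gi⟩

variable (Y : Hy E S M m a G1 u1 u2 j γ Lc ηc τ l0 l X Xp Vt Lg Lp X2 X3 X4 G0 η N g t1 (M.s S.J) ℓ
  En p0) in
include Y in
theorem LQ.na {g' R2 : ℝ} (Q : LQ E S M X Xp Vt Lg Lp X2 G0 u1 u2 j γ η aa g' R2) (h : Cl S M)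
    (E1 : 1 ≤ E) : NA E S M X Lg j γ η aa := by
  refine ⟨Q.a1, Q.a2, Q.a3, Q.a4, Q.a6, le_trans (mul_le_mul_of_nonneg_left ?_ (by linarith)) Q.sm⟩
  have g0 : 0 ≤ γ := (sub_nonneg.2 (h.sm h.i3)).trans Y.lp.γ0
  have j0 : 0 ≤ j := le_trans (by positivity) Y.ap.j0
  have s0 := h.s_pos (h.i0.trans h.i1)
  have l0' : 0 < l0 := (mul_pos (by linarith) s0).trans_le Y.ln.l0s
  have x0 : 0 ≤ X2 := le_trans (by positivity) Y.ln.x2a
  have sJ := h.s_le_C h.i3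
  have s1 := h.s_pos (show 1 ≤ S.J by have := h.i2; omega)
  have m0 := mf_pos h s1.le
  have t0 : 0 < t1 := by linarith [Y.lt.t1a, Y.ln.l0l]
  have lJ : l ≤ M.s S.J := by
    linarith [Y.lt.t1a, Y.lt.t1b, le_mul_of_one_le_left t0.le E1, Y.ln.l0l]
  have η0 : 0 ≤ η (M.s S.J) := by
    have := Cx.cr1 S (M.s S.J)
    have := h.ms_pos s1.le
    have := h.N0
    have := h.F1
    have : 0 ≤ S.w3 (M.s S.J) := by unfold Sc.w3; positivity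
    have : 0 ≤ uw S Lg (M.s S.J) := by unfold uw; positivity
    have : 0 ≤ G0 := le_trans (by positivity) Y.ln.g0a
    have : 0 ≤ X3 := le_trans (by positivity) Y.ln.x3a
    have : 0 ≤ min (S.ms (M.s S.J) / M.s S.J) (M.s S.J) := le_min (by positivity) s1.le
    exact le_trans (by positivity) (Y.ln.ηb _ lJ sJ)
  have := Q.g0
  have : 0 ≤ bs S Lg X2 g' η (M.s S.J) := by unfold bs; positivity
  linarith

/-- **(NdTq)** with a property of the good nodes -/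
theorem ndTqP_of {Pc : Sc → Md → ℕ → ℝ → ℝ → ℕ → Prop} (hT : SzTG) (hN : NdSP Pc) :
    CL fun E Λ S M m a =>
    ∀ G1 u1 u2 j γ Lc ηc τ l0 l X Xp Vt Lg Lp X2 X3 X4 G0 η N g t1 ℓ En p0,
    Hy E S M m a G1 u1 u2 j γ Lc ηc τ l0 l X Xp Vt Lg Lp X2 X3 X4 G0 η N g t1 (M.s S.J) ℓ En p0 →
    ∀ aa g' R2, LQ E S M X Xp Vt Lg Lp X2 G0 u1 u2 j γ η aa g' R2 →
    ∃ Gn : ℕ → Prop, (∀ U V, 5 / 4 * l ≤ M.s U → M.s V + aa / 5 ≤ M.s S.J →
      Nt E Λ S M m a Lg X X2 η Gn U V) ∧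
      ∀ i, Gn i → l ≤ M.s i → M.s i + aa / 5 ≤ M.s S.J → Pc S M m a Lg i :=
  CL.mono (ndUP_of (szTH_of hT) hN)
    fun _ _ _ _ _ _ E1 _ h _ H _ _ _ _ _ _ _ _ _ _ _ _ _ _ _ _ _ _ _ _ _ _ _ _ _ _ Y _ _ _ Q =>
    let ⟨_, _, _, Gn, _, _, _, _, _, _, _, _, p⟩ :=
      H _ _ _ _ _ _ _ _ _ _ _ _ _ _ _ _ _ _ _ _ _ _ _ _ _ _ _ Y _ (Q.na Y h E1)
    ⟨Gn, p⟩

/-- **(NdTq)** -/
theorem ndTq_of (hT : SzTG) (hN : NdS) : NdTq :=
  CL.mono (ndTqP_of hT (ndSP_of hN))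
    fun _ _ _ _ _ _ _ _ _ _ H _ _ _ _ _ _ _ _ _ _ _ _ _ _ _ _ _ _ _ _ _ _ _ _ _ _ Y _ _ _ Q =>
    let ⟨Gn, p, _⟩ := H _ _ _ _ _ _ _ _ _ _ _ _ _ _ _ _ _ _ _ _ _ _ _ _ _ _ Y _ _ _ Q
    ⟨Gn, p⟩

end Crest.Agent.T156.Alt.L63

end
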