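import Crest.Agent.T156.NdB_89
import Crest.Agent.T156.NdS_22

/-!
# Row 156, block (L): the net of good nodes, class wrapper (helper22)
-/

set_option autoImplicit false

noncomputable section

namespace Crest.Agent.T156.Alt.G89

open Real Finset Filter
open Crest.Agent.T156.Alt.E61 Crest.Agent.T156.Alt.Mp9 Crest.Agent.T156.Alt.Sz9
open Crest.Agent.T156.Alt.L69 (LN cr cl mf uw gg Phi)
open Crest.Agent.T156.Alt.Nd22 (NI NO NodeS ee Go)
open Pre29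

/-- the pointwise form of `NdS` -/
def NgP : Prop := ∀ T0 C0 : ℝ, ∃ K : ℝ, ∀ (D E Λ L : ℝ) (S : Sc) (M : Md) (m : ℕ)
  (a T G1 l0 l V X Lg X2 X3 G0 W3 : ℝ) (η : ℝ → ℝ) (D1 τ1 : ℝ),
  Cz D E Λ L S M m a T G1 l0 l V X Lg X2 X3 G0 W3 η → K ≤ D → S.C ≤ C0 → T ≤ T0 →
  Tau E S M m a T Lg D1 τ1 η →
  ∃ Gn V0, NG E (D ^ 16) S M m a T (max l (2 * l0)) Lg X2 τ1 η Gn V0

namespace Cz

variable {D E Λ L : ℝ} {S : Sc} {M : Md} {m : ℕ} {a T G1 l0 l V X Lg X2 X3 G0 W3 : ℝ} {η : ℝ → ℝ}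
  (Z : Cz D E Λ L S M m a T G1 l0 l V X Lg X2 X3 G0 W3 η)
include Z

/-- the absolute residual at a good node -/
theorem ab {i : ℕ} (h1 : max l (2 * l0) ≤ M.s i) (gi : GN S M m a l0 V L Lg i)
    (oi : Okn S M m a Lg i) : |res M S m a T i| ≤
      D ^ 8 * η (M.s i) + D * Ug S Lg (M.s i) ^ 2 * gd M S m a T i +
      D ^ 4 * (pb M m a (S.C * S.v) i * X2 + ∑ k ∈ range i, M.dz m a k * u4 M m a k ^ 2) := by
  have G := E61.lg Z.A
  have p := Z.no.ab T Z.A i _ _ (Z.go h1 gi oi)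
  have q := Z.ee_le ((le_max_left _ _).trans h1) (Z.sC (show i < S.J by have := oi.1; omega))
  have p0 := pb_nn G (mul_pos Z.A.cl.C0 Z.A.cl.v0) i
  have r1 := mul_le_mul_of_nonneg_left Z.la_le p0
  have r2 := mul_le_mul_of_nonneg_right (Z.ΛD.trans (le_self_pow₀ (by linarith [Z.D4]) four_ne_zero))
    (sum_nonneg (s := range i) fun k _ => mul_nonneg (G.dz_nonneg k) (sq_nonneg (u4 M m a k)))
  have r3 := mul_le_mul_of_nonneg_right Z.ΛD
    (mul_nonneg (sq_nonneg (Ug S Lg (M.s i))) (show 0 ≤ gd M S m a T i from abs_nonneg _))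
  unfold gd Ug at *
  linarith

theorem tau_nn {D1 τ1 : ℝ} (t : Tau E S M m a T Lg D1 τ1 η) : 0 ≤ τ1 := by
  have i2 := Z.A.cl.i2
  refine le_trans ?_ (t.t1 (S.J - 1) (by omega) (by omega)).2
  exact rpow_nonneg (Z.w3p (Z.A.cl.s_pos (by have := Z.A.cl.i0; have := Z.A.cl.i1; omega))).le _

/-- the net is monotone in the loss -/
theorem ng_mono {W W' τ1 : ℝ} {Gn : ℕ → Prop} {V0 : ℕ} (τ0 : 0 ≤ τ1) (h : W ≤ W')
    (g : NG E W S M m a T (max l (2 * l0)) Lg X2 τ1 η Gn V0) :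
    NG E W' S M m a T (max l (2 * l0)) Lg X2 τ1 η Gn V0 := by
  have G := E61.lg Z.A
  have hV := g.hV
  have g0 : 0 ≤ Lg := by linarith [Z.E1, Z.EL]
  have hθ := div_le_div_of_nonneg_right h g0
  have X0 := Z.X20
  have k : ∀ {x : ℝ}, 0 ≤ x → W * x ≤ W' * x := fun hx => mul_le_mul_of_nonneg_right h hx
  have su : ∀ s : Finset ℕ, 0 ≤ ∑ k ∈ s, M.dz m a k * u4 M m a k ^ 2 := fun s =>
    sum_nonneg fun k _ => mul_nonneg (G.dz_nonneg k) (sq_nonneg _)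
  have nd : ∀ i, max l (2 * l0) ≤ M.s i → i ≤ V0 →
      W * η (M.s i) + W * Ug S Lg (M.s i) ^ 2 * gd M S m a T i ≤
        W' * η (M.s i) + W' * Ug S Lg (M.s i) ^ 2 * gd M S m a T i := fun i a1 a2 => by
    have b1 := k (Z.eta_pos ((le_max_left _ _).trans a1) (Z.sC (show i < S.J by omega))).le
    have b2 := k (mul_nonneg (sq_nonneg (Ug S Lg (M.s i))) (show 0 ≤ gd M S m a T i from abs_nonneg _))
    linarith
  refine ⟨g.gV, hV, g.big, g.top.trans (add_le_add (k τ0)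
    (mul_le_mul_of_nonneg_right hθ (ds_nn Z.A (by omega)))), fun i j a1 a2 a3 a4 a5 => ?_,
    fun i a1 a2 a3 => ?_, fun U i j y n a1 a2 a3 => (g.u4 U i j y n a1 a2 a3).trans (k ?_),
    fun i j a1 a2 a3 a4 a5 a6 => ?_, fun p q a1 a2 a3 a4 a5 => g.ex p q a1 a2 a3 a4
      ((k (Z.A.cl.s_nn p)).trans a5), fun p q D0 a1 a2 a3 a4 a5 => g.exs p q D0 a1 a2 a3 a4
      ((k a3.le).trans a5), g.sh⟩
  · have b1 := k (mul_nonneg X0 (ds_nn Z.A a2))
    linarith [g.e1 i j a1 a2 a3 a4 a5, nd i a1 (a2.trans a3), nd j (a1.trans (Z.A.cl.sm a2)) a3,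
      k (su (Ioo i j))]
  · linarith [g.ab i a1 a2 a3, nd i a1 a2, k (add_nonneg
      (mul_nonneg (pb_nn G (mul_pos Z.A.cl.C0 Z.A.cl.v0) i) X0) (su (range i)))]
  · exact add_nonneg (Z.Ug_nn ((le_max_left _ _).trans (a1.trans (Z.A.cl.sm a2))))
      (ds_nn Z.A (a2.trans a3))
  · obtain ⟨b1, b2⟩ := g.lab i j a1 a2 a3 a4 a5 a6
    have := mul_le_mul_of_nonneg_right hθ (ds_nn Z.A a2.le)
    exact ⟨by linarith, by linarith⟩

end Cz

/-- **(NdS)** from its pointwise form -/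
theorem ndS_of (h : NgP) : NdS := by
  unfold NdS
  refine CL.glue Nd22.nodeS fun C => ⟨3, fun A hA ε η' hε hη => ?_⟩
  obtain ⟨K, h⟩ := h (2 * C) C
  refine ⟨ε, min (η' / 16) (ε / 100), max K (10000 * C ^ 10), hε, by positivity,
    fun S M m a R c I H G1 l0 l V X Lg X2 X3 G0 η L W3 T D1 τ1 Ce N rv hX Vl hL ni hW A' hT ta => ?_⟩
  have n1 : 1 ≤ S.n := c.n1
  have L1 := ni.L1
  have e1 : ((S.n : ℝ) ^ min (η' / 16) (ε / 100)) ^ 100 ≤ (S.n : ℝ) ^ ε := by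
    rw [rp_pow]; exact rp_le n1 (by push_cast; linarith [min_le_right (η' / 16) (ε / 100)])
  have e2 : ((S.n : ℝ) ^ min (η' / 16) (ε / 100)) ^ 16 ≤ (S.n : ℝ) ^ η' := by
    rw [rp_pow]; exact rp_le n1 (by push_cast; linarith [min_le_left (η' / 16) (ε / 100)])
  have k1 := R.K_le
  have k2 := R.log_le
  have k3 := R.num_le
  have k4 := R.C_log
  have hC := R.hC
  have hA' : 3 ≤ S.A := R.hA ▸ hA
  subst hC
  generalize (S.n : ℝ) ^ min (η' / 16) (ε / 100) = lam at *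
  generalize (S.n : ℝ) ^ ε = E at *
  have C1 := c.C1
  have l1 : 1 ≤ lam := by linarith
  have E1 : 1 ≤ E := (one_le_pow₀ l1).trans e1
  have lD : lam ≤ lam * L := le_mul_of_one_le_right (by linarith) L1
  have DE : (lam * L) ^ 40 ≤ E := by
    refine le_of_pow_le_pow_left₀ (by norm_num : 5 ≠ 0) (by linarith) ?_
    calc _ = (lam ^ 100 * L ^ 100) ^ 2 := by ring
      _ ≤ (E * E) ^ 2 := pow_le_pow_left₀ (by positivity)
          (mul_le_mul e1 hL (by positivity) (by linarith)) 2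
      _ = E ^ 4 := by ring
      _ ≤ _ := pow_le_pow_right₀ E1 (by norm_num)
  have CD : 10000 * S.C ^ 10 ≤ lam := (le_max_right _ _).trans k1
  have N0 := c.N0
  have Z : Cz (lam * L) E lam L S M m a T G1 l0 l V X Lg X2 X3 G0 W3 η := by
    refine ⟨A', Ce, N, ni, H G1 l0 l V X Lg X2 X3 G0 η L W3 Ce N rv hX
      ((pow_le_pow_right₀ L1 (by norm_num)).trans hL) ni, Vl, hW, CD.trans lD, l1, lD,
      le_mul_of_one_le_left (by linarith) l1, k2.trans lD, DE, ?_, I.m1, ?_⟩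
    · have a1 : S.v * (S.n : ℝ) ^ 3 ≤ S.C := (mul_le_mul_of_nonneg_left
        (pow_le_pow_right₀ (by exact_mod_cast n1) hA') c.v0.le).trans c.v2
      have a2 : S.C ^ 2 ≤ S.n := by
        have b1 := (le_mul_of_one_le_right (by linarith) (one_le_pow₀ c.F1)).trans
          (N.Lg0.trans N.Lg1)
        linarith [pow_le_pow_right₀ C1 (by norm_num : 2 ≤ 10), sq_nonneg S.C,
          le_self_pow₀ l1 (by norm_num : 100 ≠ 0)]
      refine le_of_mul_le_mul_right ?_ N0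
      linarith [mul_le_mul_of_nonneg_left a1 c.C0.le]
    · have t0 : 0 ≤ S.θ := (c.ms_pos zero_le_one).le
      linarith [mul_le_mul_of_nonneg_left k4 t0, c.msθ]
  obtain ⟨Gn, V0, g⟩ := h _ _ _ _ _ _ _ _ _ _ _ _ _ _ _ _ _ _ _ _ _ _ Z
    (((le_max_left _ _).trans k1).trans lD) le_rfl hT ta
  refine ⟨Gn, V0, Z.ng_mono (Z.tau_nn ta) ?_ g⟩
  rw [mul_pow]
  exact mul_le_mul_of_nonneg_right e2 (by positivity)

end Crest.Agent.T156.Alt.G89

end
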