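import Crest.Agent.T156.NdG_89
import Crest.Agent.T156.NdW_22

/-!
# Row 156, block (L): the net of good nodes on the class (helper89)
-/

set_option autoImplicit false

noncomputable section

namespace Crest.Agent.T156.Alt.G89

theorem ngP : NgP := fun T0 C0 => by
  obtain ⟨K, h⟩ := ng T0 C0
  exact ⟨K, fun _ _ _ _ _ _ _ _ _ _ _ _ _ _ _ _ _ _ _ _ _ _ Z a b c d => ⟨_, h Z a b c d⟩⟩

/-- **(NdS)** -/
theorem ndS : NdS := ndS_of ngP

end Crest.Agent.T156.Alt.G89

end
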