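import Crest.Agent.T156.PlGA_49
import Crest.Agent.T156.ClAp_63
import Crest.Agent.T156.LDef_69

/-!
# Row 156, block (L): the plateau part of the weak input (helper49)
-/

set_option autoImplicit false
set_option linter.unusedSectionVars false

noncomputable section

namespace Crest.Agent.T156.Alt.G49

open Real Finset Filter
open Crest.Agent.T156.Alt.Md67 Crest.Agent.T156.Alt.E61 Crest.Agent.T156.Alt.C33
open Crest.Agent.T156.Alt.E49
open Crest.Agent.T156.Alt.Cost41 (aM)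
open Crest.Agent.T156.Alt.L69 (LN LP du dl ds mf Rp)

/-- **the plateau sums** -/
def PlG : Prop := CL fun E Λ S M m a =>
  ∀ l0 l V X Lg X2 X3 G0 η Xp Vt Lp G1 u1 u2 j γ Lc ηc τ N, LN E S M l0 l V X Lg X2 X3 G0 η →
  LP E S M Xp Vt Lg Lp X2 X3 G0 G1 u1 u2 j γ Lc ηc τ η N →
  M.En S m a M.q 2 (M.s S.J / 2) S.C ≤ Xp → 0 ≤ j →
  ∑ k ∈ Icc S.J S.Jp, M.dz m a k * aM M m a k ≤ Λ * G0 ^ 2 ∧
    ∑ k ∈ Ico S.J S.Jp, M.dz m a k * tM M m a k ≤ Λ * G0 ^ 2 ∧ S.w3 1 ≤ Λ * G0 ^ 2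

variable {S : Sc} {M : Md} {m : ℕ} {a : ℝ} {K : ℕ}

/-- the a priori frame: `R³` bounds the energy -/
structure Fr (S : Sc) (M : Md) (m : ℕ) (a R γ : ℝ) : Prop extends Fn S M m a where
  hJ : 4 * S.jl ≤ S.J
  R0 : 0 < R
  R1 : 24 * S.C ^ 5 * R ≤ 1
  vR : S.v ≤ R
  en : M.En S m a M.q 2 (M.s S.J / 2) S.C ≤ R ^ 3
  γ0 : M.s S.Jp - M.s S.J ≤ γ

namespace Fr
variable {R γ : ℝ} (F : Fr S M m a R γ)
include F

theorem sx {lo : ℕ} (h0 : S.j0 ≤ lo) (h : M.s S.J / 2 ≤ M.s (lo + 1)) :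
    Ap63.Sx M.z (fun j => M.rb m a j - M.q j) lo S.Jp 2 ≤ R ^ 3 := by
  refine le_trans (sum_le_sum_of_subset_of_nonneg (fun k hk => ?_) fun k _ _ =>
    mul_nonneg (Ap63.w_nn F.leg.zm k) (by positivity)) F.en
  obtain ⟨p, q⟩ := mem_Ioc.1 hk
  exact mem_filter.2 ⟨mem_Ioc.2 ⟨by omega, q⟩, h.trans (F.sm p), (F.sm q).trans F.sT⟩

theorem sx1 : Ap63.Sx M.z (fun j => M.rb m a j - M.q j) (S.J - 1) S.Jp 2 ≤ R ^ 3 := by
  have i1 := F.i1; have i2 := F.i2
  refine F.sx (by omega) ?_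
  rw [Nat.sub_add_cancel (by omega)]
  linarith [F.s_nonneg S.J]

theorem γn : 0 ≤ γ := (sub_nonneg.2 (F.sm F.i3)).trans F.γ0

theorem q_pl {k : ℕ} (h1 : S.J ≤ k) (h2 : k ≤ S.Jp) : M.q S.J ≤ M.q k ∧ M.q k ≤ M.q S.J + γ :=
  ⟨F.toCl.q_mono h1 (h2.trans F.i4.le), by
    linarith [Ap63.q_slow F.toCl h1 h2, F.sm h2, F.γ0]⟩

theorem CR : 4 * S.C * R ≤ 1 ∧ R ≤ 1 := by
  have a1 := mul_le_mul_of_nonneg_right (le_self_pow₀ F.C1 (show 5 ≠ 0 by norm_num)) F.R0.le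
  have a2 := mul_le_mul_of_nonneg_right F.C1 F.R0.le
  have := F.R0; have := F.R1
  constructor <;> linarith

theorem lag {i : ℕ} (hi : i < S.J) (h : 12 * S.C ^ 5 * (((S.J : ℝ) - i) * S.v) ≤ 1) :
    M.q i - M.rb m a i ≤ 3 * S.C * R := by
  have C0 := F.C0; have C1 := F.C1; have v0 := F.v0; have R0 := F.R0
  have i1 := F.i1; have i3 := F.i3; have hJ := F.hJ
  have ρm := Md67.rb_mono (M := M) (a := a) F.lg.m0
  obtain ⟨t, t1, t2⟩ : ∃ t : ℕ, R ≤ t * S.v ∧ t * S.v ≤ 2 * R := by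
    refine ⟨⌈R / S.v⌉₊, (div_le_iff₀ v0).1 (Nat.le_ceil _), ?_⟩
    have := mul_le_mul_of_nonneg_right (Nat.ceil_lt_add_one (by positivity : 0 ≤ R / S.v)).le v0.le
    rw [add_mul, div_mul_cancel₀ _ v0.ne'] at this
    linarith [F.vR]
  have x0 : 0 ≤ ((S.J : ℝ) - i + t) * S.v :=
    mul_nonneg (add_nonneg (sub_nonneg.2 (Nat.cast_le.2 hi.le)) (Nat.cast_nonneg t)) v0.le
  have a1 : 6 * S.C ^ 5 * (((S.J : ℝ) - i + t) * S.v) ≤ 1 := by
    linarith [mul_le_mul_of_nonneg_left t2 (by positivity : 0 ≤ 6 * S.C ^ 5), F.R1]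
  have a2 : 2 * S.C ^ 2 * (((S.J : ℝ) - i + t) * S.v) ≤ S.J * S.v :=
    le_of_mul_le_mul_left (by linarith [F.J_lo]) (by positivity : 0 < 3 * S.C ^ 3)
  have a3 : 2 * ((S.J : ℝ) - i + t) ≤ S.J := le_of_mul_le_mul_right (by
    linarith [mul_le_mul_of_nonneg_right (one_le_pow₀ (n := 2) C1) x0]) v0
  have a4 : S.J + 2 * t ≤ 2 * i := by
    have : (S.J : ℝ) + 2 * t ≤ 2 * i := by linarith
    exact_mod_cast this
  have e : ((i - t : ℕ) : ℝ) = i - t := Nat.cast_sub (by omega)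
  have a5 : M.s S.J / 2 ≤ M.s (i - t + 1) := by
    have b1 := (F.toCl.s_tel (i := i - t) (j := S.J) (by omega) le_rfl).2
    have b2 := (F.s_mem (k := S.J) le_rfl).1
    rw [e] at b1
    have b3 : 2 * (((S.J : ℝ) - (i - t)) * (S.C * S.v)) ≤ M.s S.J :=
      le_of_mul_le_mul_left (by linarith) C0
    linarith [F.sm (Nat.le_succ (i - t))]
  by_contra c
  rw [not_le] at c
  have CR : 0 < S.C * R := by positivity
  have b1 := (Ap63.blk_le (y := fun j => M.rb m a j - M.q j) (lo := i - t) (hi := S.Jp) F.leg.zm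
    le_rfl (Nat.sub_le i t) (by omega) (ρ := M.q i - M.rb m a i - 2 * (S.C * R)) (by linarith)
    (fun j p q => le_trans (by
      have c1 := Ap63.q_slow F.toCl q (by omega)
      have c2 := (F.toCl.s_tel q hi.le).2
      have c3 : (i : ℝ) - j ≤ t := by
        have : (i : ℝ) ≤ j + t := by exact_mod_cast (by omega : i ≤ j + t)
        linarith
      have c4 := mul_le_mul_of_nonneg_right c3 (by positivity : 0 ≤ S.C * S.v)
      have c5 := mul_le_mul_of_nonneg_left t2 C0.le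
      linarith [ρm q]) (neg_le_abs _)) 2).trans (F.sx (by omega) a5)
  have b2 := (F.toCl.z_tel (i := i - t) (j := i) (by omega) (Nat.sub_le _ _) hi).1
  rw [e, sub_sub_cancel, mul_div_assoc'] at b2
  have b3 := (div_le_div_of_nonneg_right t1 C0.le).trans b2
  have b4 : (S.C * R) ^ 2 < (M.q i - M.rb m a i - 2 * (S.C * R)) ^ 2 :=
    pow_lt_pow_left₀ (by linarith) CR.le two_ne_zero
  have b5 := (mul_lt_mul_of_pos_right b4 (div_pos R0 C0)).trans_le
    ((mul_le_mul_of_nonneg_left b3 (sq_nonneg _)).trans b1)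
  rw [show (S.C * R) ^ 2 * (R / S.C) = S.C * R ^ 3 by field_simp] at b5
  linarith [mul_le_mul_of_nonneg_right C1 (pow_pos R0 3).le]

theorem lead : M.rb m a (S.J - 1) - M.q S.J ≤ γ + S.C * R := by
  have C0 := F.C0; have C1 := F.C1; have R0 := F.R0; have i3 := F.i3; have i2 := F.i2
  have ρm := Md67.rb_mono (M := M) (a := a) F.lg.m0
  by_contra c
  rw [not_le] at c
  have CR : 0 < S.C * R := by positivity
  have b1 := (Ap63.blk_le (y := fun j => M.rb m a j - M.q j) (lo := S.J - 1) (hi := S.Jp) F.leg.zm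
    le_rfl (show S.J - 1 ≤ S.Jp by omega) le_rfl (ρ := M.rb m a (S.J - 1) - M.q S.J - γ)
    (by linarith) (fun j p q => le_trans (by
      linarith [(F.q_pl (k := j) (by omega) q).2, ρm p.le]) (le_abs_self _)) 2).trans F.sx1
  rw [F.top _ le_rfl] at b1
  have b4 : (S.C * R) ^ 2 < (M.rb m a (S.J - 1) - M.q S.J - γ) ^ 2 :=
    pow_lt_pow_left₀ (by linarith) CR.le two_ne_zero
  have b5 := (mul_lt_mul_of_pos_right b4 (one_div_pos.2 C0)).trans_le
    ((mul_le_mul_of_nonneg_left (show 1 / S.C ≤ 1 - M.z (S.J - 1) by linarith [F.atom.2])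
      (sq_nonneg _)).trans b1)
  rw [show (S.C * R) ^ 2 * (1 / S.C) = S.C * R ^ 2 by field_simp] at b5
  have b6 : R ^ 3 ≤ R ^ 2 := pow_le_pow_of_le_one R0.le F.CR.2 (by norm_num)
  linarith [mul_le_mul_of_nonneg_right C1 (pow_pos R0 2).le]

theorem rise {i : ℕ} (hi : i < S.J) : M.rb m a (S.J - 1) - M.rb m a i ≤
    12 * S.C ^ 5 * (((S.J : ℝ) - i) * S.v) + (4 * S.C * R + γ) := by
  have C0 := F.C0; have R0 := F.R0; have v0 := F.v0; have g := F.γn
  have CR : 0 < S.C * R := by positivity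
  rcases le_total (12 * S.C ^ 5 * (((S.J : ℝ) - i) * S.v)) 1 with h | h
  · have a1 := Ap63.q_slow F.toCl hi.le F.i3
    have a2 := (F.toCl.s_tel hi.le le_rfl).2
    have a3 := mul_le_mul_of_nonneg_right (le_self_pow₀ F.C1 (show 5 ≠ 0 by norm_num))
      (mul_nonneg (sub_nonneg.2 (Nat.cast_le.2 hi.le : (i : ℝ) ≤ S.J)) v0.le)
    have a4 := mul_nonneg (pow_pos C0 5).le
      (mul_nonneg (sub_nonneg.2 (Nat.cast_le.2 hi.le : (i : ℝ) ≤ S.J)) v0.le)
    linarith [F.lag hi h, F.lead]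
  · linarith [rb_le_one (M := M) (a := a) F.lg.m0 (S.J - 1), rb_nonneg (M := M) (a := a) F.lg.m0 i]

/-- the lag on the plateau -/
theorem lagp {j : ℕ} (h1 : S.J - 1 ≤ j) (h2 : j ≤ S.Jp) :
    max (M.q S.J - M.rb m a j) 0 ≤ 4 * S.C * R ∧
      max (M.q S.J - M.rb m a j) 0 ^ 2 * (M.z j - M.z (S.J - 1)) ≤ R ^ 3 := by
  have C0 := F.C0; have R0 := F.R0; have v0 := F.v0; have i2 := F.i2
  have ρm := Md67.rb_mono (M := M) (a := a) F.lg.m0
  constructor
  · refine max_le ?_ (by positivity)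
    have e : (S.J : ℝ) - (S.J - 1 : ℕ) = 1 := by rw [Nat.cast_sub (by omega)]; simp
    have a1 := F.lag (i := S.J - 1) (by omega) (by
      rw [e]; linarith [mul_le_mul_of_nonneg_left F.vR (by positivity : 0 ≤ 12 * S.C ^ 5), F.R1,
        (by positivity : 0 ≤ S.C ^ 5 * R)])
    have a2 := Ap63.q_slow F.toCl (Nat.sub_le S.J 1) F.i3
    have a3 := (F.toCl.s_tel (Nat.sub_le S.J 1) le_rfl).2
    rw [e] at a3
    linarith [mul_le_mul_of_nonneg_left F.vR C0.le, ρm h1]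
  · exact (Ap63.blk_le (y := fun j => M.rb m a j - M.q j) (lo := S.J - 1) (hi := S.Jp) F.leg.zm
      le_rfl h1 h2 (le_max_right _ _) (fun i p q => max_le (le_trans (by
        linarith [(F.q_pl (k := i) (by omega) (q.trans h2)).1, ρm q]) (neg_le_abs _))
        (abs_nonneg _)) 2).trans F.sx1

theorem mean : ∑ i ∈ Ioc (S.J - 1) S.Jp, (M.z i - M.z (i - 1)) * max (M.rb m a i - M.q S.J) 0 ≤
    √(R ^ 3) + γ := by
  have i2 := F.i2; have i3 := F.i3; have g := F.γn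
  have z1 : M.z S.Jp - M.z (S.J - 1) ≤ 1 := by linarith [F.leg.z1 S.Jp, F.z_pos (S.J - 1)]
  have a1 := (Ap63.Sx_one (y := fun j => M.rb m a j - M.q j) F.leg.zm
    (show S.J - 1 ≤ S.Jp by omega) z1).trans (sqrt_le_sqrt F.sx1)
  have a2 := mul_le_of_le_one_left g
    ((Ap63.tel M.z (show S.J - 1 ≤ S.Jp by omega)).trans_le z1)
  refine le_trans ?_ (add_le_add a1 a2)
  rw [Ap63.Sx, sum_mul, ← sum_add_distrib]
  refine sum_le_sum fun i hi => ?_
  rw [← mul_add, pow_one]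
  refine mul_le_mul_of_nonneg_left (max_le ?_ (by positivity)) (Ap63.w_nn F.leg.zm i)
  linarith [(F.q_pl (k := i) (by have := (mem_Ioc.1 hi).1; omega) (mem_Ioc.1 hi).2).2,
    le_abs_self (M.rb m a i - M.q i)]

/-- the weighted rise on the plateau -/
theorem rsum {p w : ℕ → ℝ} {α κ B L : ℝ} {Jc : ℕ} (J1 : S.J ≤ Jc) (J2 : Jc ≤ S.Jp) (α0 : 0 ≤ α)
    (κ0 : 0 ≤ κ) (B0 : 0 ≤ B) (hp : ∀ j, p j ≤ α * (1 - M.z j) ∧ p j ≤ κ * w j)
    (H : ∀ j, S.J - 1 ≤ j → j ≤ S.Jp → 0 < w j ∧ max (M.q S.J - M.rb m a j) 0 * w j ≤ B)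
    (wm : ∀ j, S.J - 1 ≤ j → w j ≤ w (j + 1)) (hL : log (w Jc / w (S.J - 1)) ≤ L) :
    ∑ j ∈ Ioc (S.J - 1) Jc, (M.rb m a j - M.rb m a (j - 1)) * p (j - 1) ≤
      α * (√(R ^ 3) + γ) + κ * (B * (1 + L)) := by
  have ρm := Md67.rb_mono (M := M) (a := a) F.lg.m0
  set f := fun j => max (M.rb m a j - M.q S.J) 0 with hf
  set e := fun j => max (M.q S.J - M.rb m a j) 0 with he
  have fm : ∀ j, 0 ≤ f j - f (j - 1) := fun j =>
    sub_nonneg.2 (max_le_max_right _ (by linarith [ρm (Nat.sub_le j 1)]))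
  have em : ∀ j, 0 ≤ e (j - 1) - e j := fun j =>
    sub_nonneg.2 (max_le_max_right _ (by linarith [ρm (Nat.sub_le j 1)]))
  have fe : ∀ j, f j - e j = M.rb m a j - M.q S.J := fun j => by
    have := max_zero_sub_max_neg_zero_eq_self (M.rb m a j - M.q S.J)
    rwa [neg_sub] at this
  have a1 := abel1 f M.z (show S.J - 1 ≤ S.Jp by omega)
  rw [F.top _ le_rfl, sub_self, mul_zero, add_zero] at a1
  have a2 : ∑ j ∈ Ioc (S.J - 1) Jc, (f j - f (j - 1)) * (1 - M.z (j - 1)) ≤ √(R ^ 3) + γ := by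
    refine (sum_le_sum_of_subset_of_nonneg (Ioc_subset_Ioc_right J2) fun j _ _ =>
      mul_nonneg (fm j) (sub_nonneg.2 (F.leg.z1 _))).trans (a1.trans_le ?_)
    have : 0 ≤ f (S.J - 1) * (1 - M.z (S.J - 1)) :=
      mul_nonneg (le_max_right _ _) (sub_nonneg.2 (F.leg.z1 _))
    linarith [F.mean]
  have a3 := drop (e := e) (w := w) (show S.J - 1 ≤ Jc by omega) (fun j p q => H j p (q.trans J2))
    (fun j p _ => wm j p) B0
  have a4 : 0 ≤ e Jc * w Jc := mul_nonneg (le_max_right _ _) (H Jc (by omega) J2).1.le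
  have a5 : ∑ j ∈ Ioc (S.J - 1) Jc, (e (j - 1) - e j) * w (j - 1) ≤ B * (1 + L) := by
    linarith [mul_le_mul_of_nonneg_left hL B0]
  refine le_trans ?_ (add_le_add (mul_le_mul_of_nonneg_left a2 α0) (mul_le_mul_of_nonneg_left a5 κ0))
  rw [mul_sum, mul_sum, ← sum_add_distrib]
  refine sum_le_sum fun j _ => ?_
  have b1 := mul_le_mul_of_nonneg_left (hp (j - 1)).1 (fm j)
  have b2 := mul_le_mul_of_nonneg_left (hp (j - 1)).2 (em j)
  have b3 : M.rb m a j - M.rb m a (j - 1) = f j - f (j - 1) + (e (j - 1) - e j) := by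
    linarith [fe j, fe (j - 1)]
  rw [b3]
  linarith

end Fr

/-- the shells below the cut -/
structure Me (S : Sc) (M : Md) (lm : ℝ) (Jc : ℕ) : Prop where
  J1 : S.J ≤ Jc
  J2 : Jc ≤ S.Jp
  l0 : 0 < lm
  l4 : 4 * (S.C * S.v) ≤ lm
  hl : ∀ k, S.J ≤ k → k < Jc → lm ≤ S.den (M.z (k - 1)) * ds M S k

/-- the weights of the lag -/
structure Br (S : Sc) (M : Md) (m : ℕ) (a R γ κ B G : ℝ) (w : ℕ → ℝ) (Jc K : ℕ) : Prop where
  κ0 : 0 < κ
  B0 : 0 ≤ B
  H : ∀ j, S.J - 1 ≤ j → j ≤ S.Jp → 0 < w j ∧ max (M.q S.J - M.rb m a j) 0 * w j ≤ B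
  wm : ∀ j, S.J - 1 ≤ j → w j ≤ w (j + 1)
  rat : ∀ j, S.J ≤ j → j < Jc → w j ≤ 2 * w (j - 1)
  av : ∀ j k, S.J - 1 ≤ j → j ≤ k → k < Jc → M.z k - M.z j ≤ ((k : ℝ) - j) * (S.v * (κ * w j))
  lg : log (w Jc / w (S.J - 1)) ≤ K
  n1 : gg S 1 * (κ * B) ≤ 8 * S.C ^ 2 * G
  n2 : gg S 1 * (κ * w (S.J - 1) * (28 * S.C ^ 5 * R + γ)) ≤ 56 * S.C ^ 6 * G
  n3 : κ * w (S.J - 1) ≤ 4 * S.C * S.n ^ 3

theorem dz_den (h : Cl S M) {k : ℕ} (h1 : S.J ≤ k) (h2 : k < S.Jp) {x y : ℝ} (y0 : 0 ≤ y)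
    (hx : x ≤ S.den (M.z (k - 1)) * y) : (M.z k - M.z (k - 1)) * x ≤ S.C * S.v * y := by
  linarith [mul_le_mul_of_nonneg_left hx (Ap63.w_nn h.leg.zm k),
    mul_le_mul_of_nonneg_right (h.plat k h1 h2).2 y0]

section me
variable {R γ lm : ℝ} {Jc : ℕ} (F : Fr S M m a R γ) (H : Me S M lm Jc)
include F H

theorem Me.dz {k : ℕ} (h1 : S.J ≤ k) (h2 : k < Jc) :
    (M.z k - M.z (k - 1)) * lm ≤ S.C * S.v * ds M S k ∧ 4 * (M.z k - M.z (k - 1)) ≤ ds M S k := by
  have d0 : 0 ≤ ds M S k := (pos_of_mul_pos_right (H.l0.trans_le (H.hl k h1 h2)) (F.den0 _).le).le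
  have a1 := dz_den F.toCl h1 (h2.trans_le H.J2) d0 (H.hl k h1 h2)
  refine ⟨a1, le_of_mul_le_mul_right ?_ H.l0⟩
  linarith [mul_le_mul_of_nonneg_right H.l4 d0]

theorem Me.av {j k : ℕ} (h1 : S.J - 1 ≤ j) (h2 : j ≤ k) (h3 : k < Jc) :
    M.z k - M.z j ≤ ((k : ℝ) - j) * (S.v * (S.C / lm * (1 - M.z j))) := by
  have C0 := F.C0; have v0 := F.v0; have l0 := H.l0; have i2 := F.i2
  rw [← Ap63.tel M.z h2]
  refine (sum_le_card_nsmul _ _ (S.v * (S.C / lm * (1 - M.z j))) fun i hi => ?_).trans_eq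
    (by rw [Nat.card_Ioc, nsmul_eq_mul, Nat.cast_sub h2])
  obtain ⟨p, q⟩ := mem_Ioc.1 hi
  have a1 := (H.dz F (k := i) (by omega) (by omega)).1.trans (mul_le_mul_of_nonneg_left
    ((min_le_right _ _).trans (show du M i ≤ 1 - M.z j from
      sub_le_sub_left (F.leg.zm (by omega)) 1)) (by positivity))
  rw [show S.v * (S.C / lm * (1 - M.z j)) = S.C * S.v * (1 - M.z j) / lm by ring, le_div_iff₀ l0]
  exact a1

theorem pt2 {κ B G : ℝ} {w : ℕ → ℝ} (b : Br S M m a R γ κ B G w Jc K) :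
    Pt2 S M m a (fun j => min (2 * (S.C / lm) * (1 - M.z j)) (2 * κ * w j))
      (1 / (κ * w (S.J - 1))) (12 * S.C ^ 5 + κ * w (S.J - 1) * (28 * S.C ^ 5 * R + γ))
      (2 * (S.C / lm) * (√(R ^ 3) + γ) + 2 * κ * (B * (1 + K))) (S.C * S.v / lm) Jc := by
  have C0 := F.C0; have v0 := F.v0; have l0 := H.l0; have i2 := F.i2; have i3 := F.i3
  have κ0 := b.κ0; have R0 := F.R0; have g := F.γn; have J2 := H.J2
  have w0 := (b.H _ le_rfl (by omega)).1
  have wp : ∀ j, S.J - 1 ≤ j → 0 < w j := fun j hj => by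
    induction j, hj using Nat.le_induction with
    | base => exact w0
    | succ j hj ih => exact ih.trans_le (b.wm j hj)
  have z1 : ∀ j, 0 ≤ 1 - M.z j := fun j => sub_nonneg.2 (F.leg.z1 j)
  refine ⟨H.J1, J2, fun j hj => le_min (by have := z1 j; positivity) (by have := wp j hj; positivity),
    by positivity, by positivity, fun j k p q r => ?_, fun k p q => ?_, fun k p q => ?_,
    by positivity, fun i hi => ?_, F.rsum H.J1 J2 (by positivity) (by positivity) b.B0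
      (fun j => ⟨min_le_left _ _, min_le_right _ _⟩) b.H b.wm b.lg⟩
  · have t0 : (0 : ℝ) ≤ (k : ℝ) - j := sub_nonneg.2 (Nat.cast_le.2 q)
    rw [mul_min_of_nonneg _ _ v0.le, mul_min_of_nonneg _ _ t0]
    refine le_min ((H.av F (by omega) q r).trans ?_) ((b.av j k (by omega) q r).trans ?_)
    · have a1 := mul_le_mul_of_nonneg_left (show 1 - M.z j ≤ 2 * (1 - M.z (j - 1)) by
        linarith [F.leg.zm (Nat.sub_le j 1), z1 (j - 1)]) (by positivity : 0 ≤ S.C / lm)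
      exact mul_le_mul_of_nonneg_left (mul_le_mul_of_nonneg_left (by linarith) v0.le) t0
    · have a1 := mul_le_mul_of_nonneg_left (b.rat j p (by omega)) κ0.le
      exact mul_le_mul_of_nonneg_left (mul_le_mul_of_nonneg_left (by linarith) v0.le) t0
  · rw [mul_one_div, div_le_iff₀ (by positivity), Nat.cast_sub (by omega), mul_assoc]
    exact b.av _ k le_rfl (by omega) q
  · have e : (k : ℝ) - (k - 1 : ℕ) = 1 := by rw [Nat.cast_sub (by omega)]; simp
    have a1 := H.av F (j := k - 1) (by omega) (Nat.sub_le k 1) q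
    have a2 := b.av (k - 1) k (by omega) (Nat.sub_le k 1) q
    rw [e, one_mul] at a1 a2
    obtain ⟨a3, a4⟩ := H.dz F p q
    have a5 : ds M S k ≤ 1 - M.z (k - 1) := min_le_right _ _
    rw [dz_up F.leg (by omega), mul_min_of_nonneg _ _ v0.le]
    refine ⟨le_min (a1.trans ?_) (a2.trans ?_), ?_⟩
    · have := mul_le_mul_of_nonneg_left (show 1 - M.z (k - 1) ≤ 2 * (1 - M.z k) by
        linarith [z1 (k - 1)]) (by positivity : 0 ≤ S.C / lm)
      exact mul_le_mul_of_nonneg_left (by linarith) v0.le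
    · have a6 := b.wm (k - 1) (by omega)
      rw [Nat.sub_add_cancel (by omega)] at a6
      have := mul_le_mul_of_nonneg_left a6 κ0.le
      have := mul_pos κ0 (wp k (by omega))
      exact mul_le_mul_of_nonneg_left (by linarith) v0.le
    · rw [le_div_iff₀ l0]
      exact a3.trans (mul_le_of_le_one_right (by positivity) (by linarith [F.z_pos (k - 1)]))
  · have a1 := F.rise (i := S.J - 1 - 1 - i) (by omega)
    have e : (S.J : ℝ) - (S.J - 1 - 1 - i : ℕ) = i + 2 := by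
      rw [show S.J - 1 - 1 - i = S.J - (i + 2) by omega, Nat.cast_sub (by omega)]; push_cast; ring
    rw [e] at a1
    have a2 := mul_le_mul_of_nonneg_left F.vR (by positivity : 0 ≤ 24 * S.C ^ 5)
    have a3 := mul_le_mul_of_nonneg_right (le_self_pow₀ F.C1 (show 5 ≠ 0 by norm_num)) R0.le
    have a4 : κ * w (S.J - 1) * (28 * S.C ^ 5 * R + γ) * (1 / (κ * w (S.J - 1))) =
        28 * S.C ^ 5 * R + γ := by field_simp
    have a5 : 0 ≤ κ * w (S.J - 1) * (28 * S.C ^ 5 * R + γ) * (i * S.v) := by positivity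
    have a6 : 0 ≤ 12 * S.C ^ 5 * (1 / (κ * w (S.J - 1))) := by positivity
    linarith

omit H in
/-- bounded density -/
theorem br_d {d G : ℝ} (J2 : Jc ≤ S.Jp) (d0 : 0 < d) (dn : 1 ≤ S.n ^ 3 * d)
    (hd : ∀ k, S.J ≤ k → k < Jc → d ≤ S.den (M.z (k - 1))) (hG : gg S 1 * (R + γ) ≤ d * G) :
    Br S M m a R γ (S.C / d) (4 * S.C * R) G (fun _ => 1) Jc K := by
  have C0 := F.C0; have C1 := F.C1; have v0 := F.v0; have R0 := F.R0; have g := F.γn
  have i2 := F.i2; have g0 := gg_pos F.toFn zero_le_one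
  have G0 : 0 ≤ G := (pos_of_mul_pos_right (lt_of_lt_of_le (by positivity) hG) d0.le).le
  refine ⟨by positivity, by positivity, fun j p q => ⟨one_pos, by
    rw [mul_one]; exact (F.lagp p q).1⟩, fun _ _ => le_rfl, fun _ _ _ => by norm_num,
    fun j k p q r => ?_, by simp, ?_, ?_, ?_⟩
  · rw [← Ap63.tel M.z q]
    refine (sum_le_card_nsmul _ _ (S.v * (S.C / d * 1)) fun i hi => ?_).trans_eq
      (by rw [Nat.card_Ioc, nsmul_eq_mul, Nat.cast_sub q])
    obtain ⟨p', q'⟩ := mem_Ioc.1 hi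
    rw [show S.v * (S.C / d * 1) = S.C * S.v * 1 / d by ring, le_div_iff₀ d0]
    exact dz_den F.toCl (by omega) (by omega) zero_le_one
      (by rw [mul_one]; exact hd i (by omega) (by omega))
  · rw [show gg S 1 * (S.C / d * (4 * S.C * R)) = 4 * S.C ^ 2 * (gg S 1 * R) / d by ring,
      div_le_iff₀ d0]
    linarith [mul_le_mul_of_nonneg_left hG (by positivity : 0 ≤ 8 * S.C ^ 2),
      (by positivity : 0 ≤ S.C ^ 2 * (gg S 1 * R)), (by positivity : 0 ≤ S.C ^ 2 * (gg S 1 * γ))]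
  · rw [show gg S 1 * (S.C / d * 1 * (28 * S.C ^ 5 * R + γ)) =
      S.C * (gg S 1 * (28 * S.C ^ 5 * R + γ)) / d by ring, div_le_iff₀ d0]
    linarith [mul_le_mul_of_nonneg_left hG (by positivity : 0 ≤ 56 * S.C ^ 6),
      (by positivity : 0 ≤ S.C ^ 6 * (gg S 1 * R)), (by positivity : 0 ≤ S.C ^ 6 * (gg S 1 * γ)),
      mul_le_mul_of_nonneg_right (le_self_pow₀ C1 (show 6 ≠ 0 by norm_num))
        (by positivity : 0 ≤ gg S 1 * γ)]
  · rw [mul_one, div_le_iff₀ d0]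
    linarith [mul_le_mul_of_nonneg_left dn C0.le, (by positivity : 0 ≤ S.C * S.n ^ 3 * d)]

omit F H in
theorem inv_step {s t c b : ℝ} (s0 : 0 < s) (h : s ≤ t) (b0 : 0 < b)
    (hc : (t ^ 2 - s ^ 2) * b ≤ c * s ^ 3) : 1 / s - 1 / t ≤ c / (2 * b) := by
  have t0 := s0.trans_le h
  have d0 := sub_nonneg.2 h
  rw [div_sub_div _ _ s0.ne' t0.ne', div_le_div_iff₀ (by positivity) (by positivity)]
  refine le_of_mul_le_mul_right ?_ (pow_pos s0 2)
  have a1 := mul_le_mul_of_nonneg_right hc t0.le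
  have a2 : 2 * s ^ 2 ≤ (t + s) * t := by nlinarith
  linarith [mul_le_mul_of_nonneg_left a2 (mul_nonneg d0 b0.le)]

/-- the density `y^{-3/2}` -/
theorem br_a {b G : ℝ} (u0 : 0 < S.u0) (u1 : S.u0 ≤ 1) (b0 : 0 < b) (bn : 1 ≤ S.n ^ 3 * b)
    (hb : ∀ k, S.J ≤ k → k < Jc → b ^ 2 ≤ S.den (M.z (k - 1)) ^ 2 * dl M S k ^ 3)
    (hG : gg S 1 * (√(R ^ 3) + γ + √S.u0 * R) ≤ b * G) (g1 : γ ≤ 1)
    (hK : 2 ≤ 2 ^ K * √(R ^ 3)) :
    Br S M m a R γ (2 * S.C / b) (2 * √(R ^ 3) + 4 * S.C * R * √S.u0) G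
      (fun j => √(M.z j - M.z (S.J - 1) + S.u0 + R ^ 3)) Jc K := by
  have C0 := F.C0; have C1 := F.C1; have v0 := F.v0; have R0 := F.R0; have g := F.γn
  have i2 := F.i2; have g0 := gg_pos F.toFn zero_le_one; have J1 := H.J1; have J2 := H.J2
  obtain ⟨R4, R1⟩ := F.CR
  have X0 : 0 < R ^ 3 := by positivity
  have X1 : R ^ 3 ≤ 1 := pow_le_one₀ R0.le R1
  have zm : ∀ j, S.J - 1 ≤ j → 0 ≤ M.z j - M.z (S.J - 1) := fun j h => sub_nonneg.2 (F.leg.zm h)
  have z1 : ∀ j, M.z j - M.z (S.J - 1) ≤ 1 := fun j => by linarith [F.leg.z1 j, F.z_pos (S.J - 1)]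
  set x := √(R ^ 3) with hx
  set y := √S.u0 with hy
  have x0 : 0 < x := sqrt_pos.2 X0
  have y0 : 0 < y := sqrt_pos.2 u0
  have x2 : x ^ 2 = R ^ 3 := sq_sqrt X0.le
  have y2 : y ^ 2 = S.u0 := sq_sqrt u0.le
  have x1 : x ≤ 1 := sqrt_le_one.2 X1
  have y1 : y ≤ 1 := sqrt_le_one.2 u1
  have w1 : √(M.z (S.J - 1) - M.z (S.J - 1) + S.u0 + R ^ 3) ≤ y + x :=
    sqrt_le_iff.2 ⟨by positivity, by nlinarith [mul_pos x0 y0]⟩
  have G0 : 0 ≤ G := (pos_of_mul_pos_right (lt_of_lt_of_le (by positivity) hG) b0.le).le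
  refine ⟨by positivity, by positivity, fun j p q => ⟨sqrt_pos.2 (by linarith [zm j p]), ?_⟩,
    fun j _ => sqrt_le_sqrt (by linarith [F.leg.zm j.le_succ]), fun j p q => ?_,
    fun j k p q r => ?_, ?_, ?_, ?_, ?_⟩
  · obtain ⟨a1, a2⟩ := F.lagp p q
    have e0 : 0 ≤ max (M.q S.J - M.rb m a j) 0 := le_max_right _ _
    set e := max (M.q S.J - M.rb m a j) 0
    refine (sq_le_sq₀ (by positivity) (by positivity)).1 ?_
    rw [mul_pow, sq_sqrt (by linarith [zm j p])]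
    have a3 := mul_le_mul_of_nonneg_right (pow_le_pow_left₀ e0 a1 2) u0.le
    have a4 := mul_le_mul_of_nonneg_right (pow_le_one₀ (n := 2) e0 (a1.trans R4)) X0.le
    have a5 : 0 ≤ x * (S.C * R * y) := by positivity
    have a6 : (2 * x + 4 * S.C * R * y) ^ 2 =
        4 * R ^ 3 + 16 * (x * (S.C * R * y)) + (4 * S.C * R) ^ 2 * S.u0 := by
      rw [← x2, ← y2]; ring
    linarith
  · have a1 := (H.dz F p q).2.trans (min_le_left _ _)
    have a2 := zm (j - 1) (by omega)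
    rw [dl] at a1
    refine sqrt_le_iff.2 ⟨by positivity, ?_⟩
    rw [mul_pow, sq_sqrt (by linarith)]
    linarith
  · set s := fun i => √(M.z i - M.z (S.J - 1) + S.u0) with hs
    have s0 : ∀ i, S.J - 1 ≤ i → 0 < s i := fun i h => sqrt_pos.2 (by linarith [zm i h])
    have s2 : ∀ i, S.J - 1 ≤ i → s i ^ 2 = M.z i - M.z (S.J - 1) + S.u0 := fun i h =>
      sq_sqrt (by linarith [zm i h])
    have sm : ∀ i k, i ≤ k → s i ≤ s k := fun i k h => sqrt_le_sqrt (by linarith [F.leg.zm h])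
    have a1 : 1 / s j - 1 / s k ≤ ((k : ℝ) - j) * (S.C * S.v / (2 * b)) := by
      have t := Ap63.tel (fun i => -(1 / s i)) q
      rw [show 1 / s j - 1 / s k = -(1 / s k) - -(1 / s j) by ring, ← t]
      refine (sum_le_card_nsmul _ _ (S.C * S.v / (2 * b)) fun i hi => ?_).trans_eq
        (by rw [Nat.card_Ioc, nsmul_eq_mul, Nat.cast_sub q])
      obtain ⟨p', q'⟩ := mem_Ioc.1 hi
      have c0 := s0 (i - 1) (by omega)
      have c1 : b ≤ S.den (M.z (i - 1)) * s (i - 1) ^ 3 := by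
        refine (sq_le_sq₀ b0.le (mul_nonneg (F.den0 _).le (by positivity))).1 ?_
        rw [mul_pow, ← pow_mul, show 3 * 2 = 2 * 3 from rfl, pow_mul, s2 _ (by omega)]
        exact hb i (by omega) (by omega)
      have c2 := dz_den F.toCl (k := i) (by omega) (by omega) (by positivity) c1
      have c3 := inv_step c0 (sm _ i (Nat.sub_le i 1)) b0 (c := S.C * S.v) (by
        rw [s2 i (by omega), s2 (i - 1) (by omega)]; linarith)
      linarith
    have sj := s0 j p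
    have sk := s0 k (by omega)
    have a2 : M.z k - M.z j = (1 / s j - 1 / s k) * (s j * (s k * (s j + s k))) := by
      rw [show M.z k - M.z j = s k ^ 2 - s j ^ 2 by rw [s2 j p, s2 k (by omega)]; ring]
      field_simp; ring
    have a3 : s k * (s j + s k) ≤ 4 := by
      nlinarith [mul_le_mul_of_nonneg_left (sm j k q) sk.le, s2 k (by omega), z1 k]
    have a4 : s j ≤ √(M.z j - M.z (S.J - 1) + S.u0 + R ^ 3) := sqrt_le_sqrt (by linarith)
    have t0 : (0 : ℝ) ≤ (k : ℝ) - j := sub_nonneg.2 (Nat.cast_le.2 q)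
    calc _ = _ := a2
      _ ≤ ((k : ℝ) - j) * (S.C * S.v / (2 * b)) *
          (√(M.z j - M.z (S.J - 1) + S.u0 + R ^ 3) * 4) := by gcongr
      _ = _ := by ring
  · have p1 : 0 < √(M.z (S.J - 1) - M.z (S.J - 1) + S.u0 + R ^ 3) := sqrt_pos.2 (by linarith)
    refine log_le_K (div_pos (sqrt_pos.2 (by linarith [zm Jc (by omega)])) p1) ?_
    rw [div_le_iff₀ p1]
    refine le_trans (sqrt_le_iff.2 ⟨zero_le_two, by linarith [z1 Jc]⟩) (hK.trans ?_)
    exact mul_le_mul_of_nonneg_left (sqrt_le_sqrt (by linarith)) (by positivity)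
  · rw [show gg S 1 * (2 * S.C / b * (2 * x + 4 * S.C * R * y)) =
      (4 * S.C * (gg S 1 * x) + 8 * S.C ^ 2 * (gg S 1 * (y * R))) / b by ring, div_le_iff₀ b0]
    linarith [mul_le_mul_of_nonneg_left hG (by positivity : 0 ≤ 8 * S.C ^ 2),
      (by positivity : 0 ≤ S.C ^ 2 * (gg S 1 * x)), (by positivity : 0 ≤ S.C ^ 2 * (gg S 1 * γ)),
      mul_le_mul_of_nonneg_right (le_self_pow₀ C1 two_ne_zero) (by positivity : 0 ≤ gg S 1 * x)]
  · have a1 : (y + x) * (28 * S.C ^ 5 * R + γ) ≤ 28 * S.C ^ 5 * (x + γ + y * R) := by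
      have c1 := mul_le_mul_of_nonneg_left R1 (by positivity : 0 ≤ 28 * S.C ^ 5 * x)
      have c2 := mul_le_mul_of_nonneg_right (add_le_add y1 x1) g
      have c3 := mul_le_mul_of_nonneg_right (one_le_pow₀ (n := 5) C1) g
      linarith
    calc _ ≤ gg S 1 * (2 * S.C / b * (y + x) * (28 * S.C ^ 5 * R + γ)) := by gcongr
      _ = 2 * S.C / b * gg S 1 * ((y + x) * (28 * S.C ^ 5 * R + γ)) := by ring
      _ ≤ 2 * S.C / b * gg S 1 * (28 * S.C ^ 5 * (x + γ + y * R)) := by gcongr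
      _ = 56 * S.C ^ 6 / b * (gg S 1 * (x + γ + y * R)) := by ring
      _ ≤ 56 * S.C ^ 6 / b * (b * G) := by gcongr
      _ = _ := by field_simp
  · calc _ ≤ 2 * S.C / b * 2 := mul_le_mul_of_nonneg_left (w1.trans (by linarith)) (by positivity)
      _ ≤ _ := by
        rw [div_mul_eq_mul_div, div_le_iff₀ b0]
        linarith [mul_le_mul_of_nonneg_left bn C0.le]

end me

/-- the constant -/
def DP (C : ℝ) : ℝ := 2 * (110592 * C ^ 14 * 200 * C ^ 7) + 8 * C ^ 2 + 4 * C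

theorem gg1 (S : Sc) : S.w3 1 = gg S 1 := by simp [Sc.w3, gg]

theorem fin_num {C K r G Y Z c1 c2 : ℝ} (C1 : 1 ≤ C) (K0 : 0 ≤ K) (G0 : 0 ≤ G) (r0 : 0 ≤ r)
    (hY : Y ≤ r * (1 + K) * G) (hZ : Z ≤ r * G) (h1 : c1 ≤ G) (h2 : c2 ≤ G) :
    (K + 2) * (2 * (1 + K) * Y + c1) + (K + 2) * (2 * (1 + K) * Z + c2) + G * 4 ≤
      (2 * r + 8) * (K + 2) ^ 4 * G := by
  have a1 := mul_le_mul_of_nonneg_left hY (by positivity : 0 ≤ (K + 2) * (2 * (1 + K)))
  have a2 := mul_le_mul_of_nonneg_left hZ (by positivity : 0 ≤ (K + 2) * (2 * (1 + K)))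
  have a3 := mul_le_mul_of_nonneg_left h1 (by positivity : 0 ≤ K + 2)
  have a4 := mul_le_mul_of_nonneg_left h2 (by positivity : 0 ≤ K + 2)
  have b1 : (K + 2) * (1 + K) * (K + 2) ≤ (K + 2) ^ 4 := by
    rw [show (K + 2) ^ 4 = (K + 2) * ((K + 2) * (K + 2)) * (K + 2) by ring]
    gcongr; nlinarith
  have b2 : K + 2 ≤ (K + 2) ^ 4 := le_self_pow₀ (by linarith) (by norm_num)
  linarith [mul_le_mul_of_nonneg_right b1 (mul_nonneg r0 G0), mul_le_mul_of_nonneg_right b2 G0,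
    mul_nonneg K0 G0]

set_option maxHeartbeats 800000 in
theorem main {E l0 l V X Lg X2 X3 G0 Xp Vt Lp G1 u1 u2 j γ Lc ηc τ N : ℝ} {η : ℝ → ℝ}
    (B : Big S M m a K) (hA : 6 ≤ S.A) (hE : (24 * S.C ^ 5) ^ 3 ≤ E)
    (n : LN E S M l0 l V X Lg X2 X3 G0 η)
    (p : LP E S M Xp Vt Lg Lp X2 X3 G0 G1 u1 u2 j γ Lc ηc τ η N)
    (en : M.En S m a M.q 2 (M.s S.J / 2) S.C ≤ Xp) (j0 : 0 ≤ j) :
    ∑ k ∈ Icc S.J S.Jp, M.dz m a k * aM M m a k ≤ DP S.C * (K + 2) ^ 4 * G0 ^ 2 ∧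
      ∑ k ∈ Ico S.J S.Jp, M.dz m a k * tM M m a k ≤ DP S.C * (K + 2) ^ 4 * G0 ^ 2 ∧
      gg S 1 ≤ 4 * S.C * G0 ^ 2 := by
  have F := B.toFn
  have L := F.lg
  have C0 := F.C0; have C1 := F.C1; have v0 := F.v0; have n1 := F.n1; have F1 := F.F1
  have i0 := F.i0; have i1 := F.i1; have i2 := F.i2; have i3 := F.i3; have i4 := F.i4
  have n3 : (3 : ℝ) ≤ S.n := by exact_mod_cast F.n3
  have K0 : (0 : ℝ) ≤ K := Nat.cast_nonneg K
  have c5 : S.C ^ 2 ≤ S.C ^ 5 := pow_le_pow_right₀ C1 (by norm_num)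
  have c2 : S.C ≤ S.C ^ 2 := le_self_pow₀ C1 two_ne_zero
  have E4 : 24 * S.C ^ 5 ≤ E := (le_self_pow₀ (by linarith) three_ne_zero).trans hE
  have E1 : 1 ≤ E := by linarith
  obtain ⟨X0, X1⟩ := p.Xp0
  obtain ⟨u12, u21⟩ := p.u1b
  have ue0 : 0 ≤ S.ue := (sub_nonneg.2 (L.z1 _)).trans F.last
  have u10 : 0 ≤ u1 := ue0.trans p.u1a
  have u1C : 24 * S.C * u1 ≤ 1 := by
    linarith only [mul_le_mul (show 24 * S.C ≤ E by linarith only [E4, c5, c2]) u12 u10
      (zero_le_one.trans E1), u21]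
  have γn : 0 ≤ γ := (sub_nonneg.2 (F.sm i3)).trans p.γ0
  have γ1 : γ ≤ 1 := (le_mul_of_one_le_left γn E1).trans p.γ1
  have sj : 0 < M.s S.jl := (pos_of_mul_pos_right (lt_of_lt_of_le
    (mul_pos (Nat.cast_pos.2 (by omega)) v0) (F.s_mem (k := S.jl) (by omega)).1) C0.le)
  have l0p : 0 < l0 := (mul_pos (zero_lt_one.trans_le E1) sj).trans_le n.l0s
  have lp : 0 < l := l0p.trans_le n.l0l
  have l1 : l ≤ 1 := (le_mul_of_one_le_left lp.le E1).trans n.l1
  have hJ : 4 * S.jl ≤ S.J := by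
    have a1 := (F.s_mem (k := S.jl) (by omega)).1
    have a2 := mul_le_mul_of_nonneg_right E4 sj.le
    have a3 := mul_le_mul_of_nonneg_left a1 (by positivity : 0 ≤ 12 * S.C ^ 3)
    have a4 := mul_le_mul_of_nonneg_right (pow_le_pow_right₀ C1 (show 4 ≤ 5 by norm_num)) sj.le
    have : 4 * (S.jl : ℝ) * (3 * S.C ^ 3 * S.v) ≤ S.J * (3 * S.C ^ 3 * S.v) := by
      linarith only [a2, a3, a4, F.J_lo, n.l0s, n.l0l, l1, (by positivity : 0 ≤ S.C ^ 5 * M.s S.jl)]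
    exact_mod_cast le_of_mul_le_mul_right this (by positivity)
  have Fn' : S.F ≤ S.n := by
    have m0 := F.ms_pos l0p.le
    have l01 := n.l0l.trans l1
    have := n.l0w.trans (pow_le_one₀ l0p.le l01)
    rw [Sc.w3, div_le_one (by positivity), mul_assoc] at this
    exact this.trans (mul_le_of_le_one_right (by positivity)
      (mul_le_one₀ l01 m0.le (F.ms_le_one l0)))
  have kb := B.kb Fn' n.HJ
  have mf1 : ∀ t, 0 ≤ t → 0 < mf S t ∧ mf S t ≤ 1 := fun t ht =>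
    ⟨div_pos (F.ms_pos ht) F.F0, (div_le_one F.F0).2 ((F.ms_le_one t).trans F1)⟩
  have G00 : 0 ≤ G0 := u10.trans p.g0p.1
  set G := G0 ^ 2 with hG
  have Gn : 0 ≤ G := sq_nonneg _
  have G1' : G ≤ 1 := by
    have a1 := (le_mul_of_one_le_left (by positivity) E1).trans
      (n.G04.trans (pow_le_one₀ (mf1 l lp.le).1.le (mf1 l lp.le).2))
    rw [show G0 ^ 4 = G ^ 2 by rw [hG]; ring] at a1
    exact (sq_le_one_iff₀ Gn).1 a1
  set R := Xp ^ ((1 : ℝ) / 3) with hR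
  have R0 : 0 < R := rpow_pos_of_pos X0 _
  have R3 : R ^ 3 = Xp := by
    rw [hR, ← rpow_natCast, ← rpow_mul X0.le]; norm_num
  have R1 : 24 * S.C ^ 5 * R ≤ 1 := by
    refine (pow_le_one_iff_of_nonneg (by positivity) three_ne_zero).1 ?_
    rw [mul_pow, R3]
    exact (mul_le_mul_of_nonneg_right hE X0.le).trans X1
  have R1' : R ≤ 1 := by
    linarith only [R1, mul_le_mul_of_nonneg_right (show 1 ≤ 24 * S.C ^ 5 by
      linarith only [C1, c2, c5]) R0.le]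
  have g0 := gg_pos F zero_le_one
  have ng : 1 ≤ S.n * gg S 1 := by
    have := F.ms_pos zero_le_one
    rw [gg, mul_div_assoc', le_div_iff₀ (by positivity), one_mul]
    exact mul_le_mul_of_nonneg_left ((F.ms_le_one 1).trans F1) (by positivity)
  have nR : 1 ≤ S.n * R := by
    have V0 := n.V0
    have cl0 : 0 ≤ L69.cl S V l0 :=
      add_nonneg (mul_nonneg (zero_le_one.trans (le_max_left _ _)) l0p.le) V0
    have x2 : 0 ≤ X2 := le_trans (by positivity) n.x2a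
    have x3 : 0 ≤ X3 := le_trans (by positivity) n.x3a
    have Lc0 : 0 < Lc := lt_of_lt_of_le (by positivity) (n.Lg0.trans p.Lc1.1)
    have w0 := F.w3_pos one_pos
    have th : 0 < S.θ := F.ms_pos zero_le_one
    obtain ⟨a1, -⟩ := p.ηc1 _ rfl
    have a2 : 1 / (S.n : ℝ) ≤ ηc := le_trans (le_add_of_nonneg_left (by positivity)) a1
    have a3 : ηc / mf S 1 ≤ R := (le_add_of_nonneg_left (by positivity)).trans (p.τ0.trans p.τ1)
    rw [div_le_iff₀ (mf1 1 zero_le_one).1] at a3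
    rw [← div_le_iff₀' (by positivity)]
    exact a2.trans (a3.trans (mul_le_of_le_one_right R0.le (mf1 1 zero_le_one).2))
  have x0 : 0 < √Xp := sqrt_pos.2 X0
  have nx : 1 ≤ S.n ^ 2 * √Xp := by
    have : R ^ 2 ≤ √Xp := le_sqrt_of_sq_le (by
      rw [← R3, ← pow_mul]; exact pow_le_pow_of_le_one R0.le R1' (by norm_num))
    calc (1 : ℝ) ≤ (S.n * R) ^ 2 := one_le_pow₀ nR
      _ = S.n ^ 2 * R ^ 2 := by ring
      _ ≤ _ := mul_le_mul_of_nonneg_left this (by positivity)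
  have ngx : 1 ≤ S.n ^ 3 * (gg S 1 * √Xp) := by
    linarith only [one_le_mul_of_one_le_of_one_le ng nx]
  have v4 : S.n ^ 3 * (4 * (S.C * S.v)) ≤ 1 := by
    have a1 := (mul_le_mul_of_nonneg_left (pow_le_pow_right₀ n1 hA) v0.le).trans F.v2
    have a2 : S.C ^ 2 ≤ S.n := (pow_le_pow_right₀ C1 (by norm_num)).trans B.C3
    have a3 : 4 * S.C ^ 2 ≤ S.n ^ 3 := by
      nlinarith only [a2, n3, mul_le_mul n3 n3 (by norm_num) (by positivity)]
    refine le_of_mul_le_mul_right ?_ (by positivity : (0 : ℝ) < S.n ^ 3)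
    linarith only [a3, mul_le_mul_of_nonneg_left a1 (by positivity : 0 ≤ 4 * S.C)]
  have vx : 4 * (S.C * S.v) ≤ gg S 1 * √Xp :=
    le_of_mul_le_mul_left (v4.trans ngx) (by positivity)
  have vR : S.v ≤ R := by
    refine le_of_mul_le_mul_left (le_trans ?_ nR) (by positivity : (0 : ℝ) < S.n)
    refine le_trans ?_ v4
    exact mul_le_mul (le_self_pow₀ n1 three_ne_zero) (by
      linarith only [v0, mul_le_mul_of_nonneg_right C1 v0.le]) v0.le (by positivity)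
  have Fr' : Fr S M m a R γ := ⟨F, hJ, R0, R1, vR, R3 ▸ en, p.γ0⟩
  obtain ⟨lm, lm0, hl, gl⟩ := p.g0c
  rw [gg1, ← hR, ← hG] at gl
  have u0 := p.u0
  have gl' : gg S 1 * (√Xp + γ) ≤ lm * G := le_trans (mul_le_mul_of_nonneg_left
    (by linarith only [u10, mul_pos u0 R0]) g0.le) gl
  have gx : gg S 1 * √Xp ≤ lm * G := le_trans (mul_le_mul_of_nonneg_left
    (le_add_of_nonneg_right γn) g0.le) gl'
  have lmG := mul_le_of_le_one_right lm0.le G1'
  obtain ⟨Jc, J1, J2, hc, hc'⟩ := cut (du M) u1 i3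
  have dJ : du M S.Jp ≤ S.ue := F.last
  have me : Me S M lm Jc := ⟨J1, J2, lm0, vx.trans (gx.trans lmG),
    fun k a b => hl k a (by omega) (hc k a b)⟩
  have gG : gg S 1 ≤ 4 * S.C * G := by
    have y0 : 0 < 1 / S.C := by positivity
    have y1 : 24 * u1 ≤ 1 / S.C := by rw [le_div_iff₀ C0]; linarith only [u1C]
    have y2 : 1 / S.C ≤ du M S.J := by rw [du]; linarith only [F.atom.2]
    obtain ⟨c, c1, c2, c3, c4⟩ := cut (du M) (du M S.J - 1 / S.C / 4) i3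
    have c5 : du M c ≤ du M S.J - 1 / S.C / 4 := by
      rcases c4 with rfl | c4
      · linarith only [dJ, p.u1a, y0, y1, y2]
      · exact c4.le
    have c6 : S.J < c := lt_of_le_of_ne c1 fun e => by rw [← e] at c5; linarith only [c5, y0]
    have c7 := c3 (c - 1) (by omega) (by omega)
    have c8 : c - 1 < Jc := by
      rcases hc' with rfl | h
      · omega
      · refine not_le.1 fun e => ?_
        have : du M (c - 1) ≤ du M Jc := sub_le_sub_left (L.zm (by omega)) 1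
        linarith only [this, h, c7, y0, y1, y2]
    have c9 := (me.dz Fr' (k := c - 1) (by omega) c8).2.trans (min_le_right _ _)
    have d1 : 1 / S.C / 4 ≤ du M c := by
      have e : du M c = du M (c - 1) - (M.z (c - 1) - M.z (c - 1 - 1)) := by rw [du, du]; ring
      linarith only [c9, c7, y2, y0, e]
    have d2 : 1 / S.C / 4 ≤ ds M S c := le_min (by
      rw [du, du] at c5; rw [dl]; linarith only [c5, u0]) d1
    have d3 := p.g0p.2 c c1 c2 (by linarith only [d1, y1, u10])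
    have d4 : 0 ≤ Rp M S Xp Vt γ c / S.den (M.z (c - 1)) := div_nonneg (add_nonneg (add_nonneg
      (sqrt_nonneg _) (le_min p.Vt0 (sqrt_nonneg _))) γn) (F.den0 _).le
    rw [gg1] at d3
    have d5 := (mul_le_mul_of_nonneg_left (d2.trans (le_add_of_nonneg_left d4)) g0.le).trans d3
    rw [div_div, mul_one_div, div_le_iff₀ (by positivity)] at d5
    linarith only [d5]
  have K8 : 9 * (S.n : ℝ) ^ 4 ≤ 2 ^ K := by
    refine le_trans ?_ ((pow_le_pow_right₀ n1 (show 2 + 4 ≤ S.A + 4 by omega)).trans B.hK')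
    rw [pow_add]
    exact mul_le_mul_of_nonneg_right (by nlinarith only [n3]) (by positivity)
  have n4 : (S.n : ℝ) ^ 2 ≤ S.n ^ 4 := pow_le_pow_right₀ n1 (by norm_num)
  have bd : ∀ d, 0 < d → (∀ k, S.J ≤ k → k < Jc → d ≤ S.den (M.z (k - 1))) →
      gg S 1 * (R + γ) ≤ d * G → ∃ κ B w, Br S M m a R γ κ B G w Jc K := fun d d0 hd hG => by
    refine ⟨_, _, _, br_d Fr' J2 d0 ?_ hd hG⟩
    have a1 : gg S 1 * R ≤ d := ((mul_le_mul_of_nonneg_left (le_add_of_nonneg_right γn) g0.le).trans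
      hG).trans (mul_le_of_le_one_right d0.le G1')
    calc (1 : ℝ) ≤ S.n * gg S 1 * (S.n * R) := one_le_mul_of_one_le_of_one_le ng nR
      _ = S.n ^ 2 * (gg S 1 * R) := by ring
      _ ≤ _ := mul_le_mul (pow_le_pow_right₀ n1 (by norm_num)) a1 (by positivity) (by positivity)
  obtain ⟨κ, B', w, br⟩ : ∃ κ B w, Br S M m a R γ κ B G w Jc K := by
    rcases p.g0d with ⟨b, b0, hb, gb⟩ | ⟨d, d0, hd, gd⟩
    · rw [gg1, ← hR, ← hG] at gb
      rcases le_total S.u0 1 with h | h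
      · refine ⟨_, _, _, br_a Fr' me u0 h b0 ?_ (fun k a c => hb k a (by omega) (hc k a c))
          (by rwa [R3]) γ1 ?_⟩
        · refine ngx.trans (mul_le_mul_of_nonneg_left (le_trans ?_ (gb.trans
            (mul_le_of_le_one_right b0.le G1'))) (by positivity))
          exact mul_le_mul_of_nonneg_left (by
            linarith only [γn, (by positivity : 0 ≤ √S.u0 * R)]) g0.le
        · rw [R3]
          linarith only [nx, mul_le_mul_of_nonneg_right (show 2 * (S.n : ℝ) ^ 2 ≤ 2 ^ K by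
            linarith only [K8, n4, (by positivity : (0 : ℝ) ≤ S.n ^ 4)]) x0.le]
      · refine bd lm lm0 (fun k a c => (me.hl k a c).trans (mul_le_of_le_one_right (F.den0 _).le
          ((min_le_right _ _).trans (sub_le_self 1 (F.z_pos _).le)))) (le_trans
            (mul_le_mul_of_nonneg_left ?_ g0.le) gl)
        linarith only [x0, u10, mul_le_mul_of_nonneg_right h R0.le]
    · rw [gg1, ← hR, ← hG] at gd
      exact bd d d0 (fun k a c => hd k a (by omega) (hc k a c)) gd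
  have P := pt2 Fr' me br
  have s1 := pl_aM F hJ P kb
  have t1 := pl_tM F hJ P
  rw [R3] at s1 t1
  obtain ⟨Je, e1, e2, e3, e4⟩ : ∃ Je, Jc ≤ Je ∧ Je ≤ S.Jp ∧ du M Je ≤ G ∧
      ∀ k, Jc ≤ k → k < Je → M.dz m a k ≤ S.v * (S.C * G / gg S 1) := by
    rcases p.g0e with h | ⟨h, h'⟩
    · refine ⟨Jc, le_rfl, J2, le_trans ?_ h, fun k a b => absurd a (not_le.2 b)⟩
      rcases hc' with rfl | h
      exacts [dJ.trans p.u1a, h.le]
    · obtain ⟨c, c1, c2, c3, c4⟩ := cut (du M) S.ue J2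
      refine ⟨c, c1, c2, le_trans ?_ h, fun k a b => ?_⟩
      · rcases c4 with rfl | h
        exacts [dJ, h.le]
      · have a1 := h' k (by omega) (by omega) (c3 k a b) (lt_of_le_of_lt
          (sub_le_sub_left (L.zm (by omega)) 1 : du M k ≤ du M Jc) (hc'.resolve_left (by omega)))
        rw [gg1, mul_comm] at a1
        rw [dz_up F.leg (by omega), show S.v * (S.C * G / gg S 1) = S.C * S.v * G / gg S 1 by ring,
          le_div_iff₀ g0]
        exact dz_den F.toCl (by omega) (by omega) Gn a1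
  obtain ⟨s2, t2⟩ := cst_sum F hJ kb (J1.trans e1 |> fun _ => J1) e1 e2 (by positivity) e4
  have mj := mj_u4 (M := M) (a := a) L.m0
  have u4 : ∀ k, E61.u4 M m a k ^ 2 ≤ 4 := fun k => by nlinarith only [mj.u0 k]
  have s3 : ∀ f : ℕ → ℝ, (∀ k ≤ S.Jp, f k ≤ 4) →
      ∑ k ∈ Ico Je (S.Jp + 1), M.dz m a k * f k ≤ G * 4 := fun f hf => by
    refine (sum_le_sum fun k hk => mul_le_mul_of_nonneg_left
      (hf k (by have := (mem_Ico.1 hk).2; omega)) (L.dz_nonneg k)).trans ?_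
    rw [← sum_mul, show Ico Je (S.Jp + 1) = Ioc (Je - 1) S.Jp by
      ext k; simp only [mem_Ico, mem_Ioc]; omega, Md67.sum_dz F.leg (by omega), F.top _ le_rfl]
    exact mul_le_mul_of_nonneg_right e3 (by norm_num)
  have w0 := (br.H _ le_rfl (by omega)).1
  have κ0 := br.κ0
  have lgK : log (1 + S.C ^ 2 / (1 / (κ * w (S.J - 1)))) ≤ K := by
    refine log_le_K (by positivity) ?_
    rw [one_div, div_inv_eq_mul]
    have a1 := mul_le_mul_of_nonneg_left br.n3 (by positivity : 0 ≤ S.C ^ 2)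
    have a2 := mul_le_mul_of_nonneg_right B.C3 (by positivity : (0 : ℝ) ≤ S.n ^ 3)
    linarith only [a1, a2, K8, one_le_pow₀ (n := 4) n1]
  have c7 : ∀ i ≤ 7, S.C ^ i * G ≤ S.C ^ 7 * G := fun i hi =>
    mul_le_mul_of_nonneg_right (pow_le_pow_right₀ C1 hi) Gn
  have q1 : gg S 1 * (2 * (S.C / lm) * (√Xp + γ) + 2 * κ * (B' * (1 + K))) ≤
      18 * S.C ^ 2 * (1 + K) * G := by
    have a1 : gg S 1 * (2 * (S.C / lm) * (√Xp + γ)) ≤ 2 * S.C * G := by
      rw [show gg S 1 * (2 * (S.C / lm) * (√Xp + γ)) = 2 * S.C * (gg S 1 * (√Xp + γ)) / lm by ring,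
        div_le_iff₀ lm0]
      linarith only [mul_le_mul_of_nonneg_left gl' (by positivity : 0 ≤ 2 * S.C)]
    linarith only [a1, mul_le_mul_of_nonneg_right br.n1 (by positivity : 0 ≤ 2 * (1 + (K : ℝ))),
      mul_le_mul_of_nonneg_right c2 Gn, (by positivity : 0 ≤ S.C ^ 2 * K * G)]
  have q2 : gg S 1 * (12 * S.C ^ 3 + (12 * S.C ^ 5 + κ * w (S.J - 1) * (28 * S.C ^ 5 * R + γ)) *
      (1 + log (1 + S.C ^ 2 / (1 / (κ * w (S.J - 1))))) +
      (2 * (S.C / lm) * (√Xp + γ) + 2 * κ * (B' * (1 + K)))) ≤ 200 * S.C ^ 7 * (1 + K) * G := by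
    have a1 := mul_le_mul_of_nonneg_left (add_le_add_left lgK 1) (by positivity :
      0 ≤ gg S 1 * (12 * S.C ^ 5 + κ * w (S.J - 1) * (28 * S.C ^ 5 * R + γ)))
    have a2 := mul_le_mul_of_nonneg_right br.n2 (by positivity : 0 ≤ 1 + (K : ℝ))
    have a3 := mul_le_mul_of_nonneg_left gG (by positivity : 0 ≤ 12 * S.C ^ 5 * (1 + K))
    have a4 := mul_le_mul_of_nonneg_left gG (by positivity : 0 ≤ 12 * S.C ^ 3)
    linarith only [a1, a2, a3, a4, q1, c7 4 (by norm_num), (by positivity : 0 ≤ S.C ^ 7 * G),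
      (by positivity : 0 ≤ S.C ^ 7 * K * G),
      mul_le_mul_of_nonneg_right (c7 6 (by norm_num)) (by positivity : 0 ≤ 1 + (K : ℝ)),
      mul_le_mul_of_nonneg_right (c7 2 (by norm_num)) (by positivity : 0 ≤ 1 + (K : ℝ))]
  have q3 : S.C * S.v / lm ≤ G := by
    rw [div_le_iff₀' lm0]; linarith only [vx, gx, mul_pos C0 v0]
  have q4 : S.v * (S.C * G / gg S 1) ≤ G := by
    rw [mul_div_assoc', div_le_iff₀ g0]
    linarith only [mul_le_mul_of_nonneg_right (B.v_gg zero_le_one) Gn]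
  have q5 : rt S * (S.C * G / gg S 1) = 110592 * S.C ^ 14 * (S.C * G) := by
    rw [rt]; field_simp
  have c14 : 0 ≤ 110592 * S.C ^ 14 := by positivity
  have k4 : 1 + (K : ℝ) ≤ (K + 2) ^ 4 :=
    le_trans (by linarith only []) (le_self_pow₀ (by linarith only [K0]) (by norm_num))
  refine ⟨?_, ?_, gG⟩
  · rw [← Ico_add_one_right_eq_Icc, ← sum_Ico_consecutive _ (J1.trans e1) (by omega),
      ← sum_Ico_consecutive _ J1 e1]
    refine (add_le_add (add_le_add s1 s2) (s3 _ fun k hk =>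
      (aM_le_u L mj (by omega)).trans (u4 k))).trans ((fin_num
        (r := 110592 * S.C ^ 14 * 200 * S.C ^ 7) C1 K0 Gn (by positivity) ?_ ?_ q3 q4).trans ?_)
    · rw [rt, mul_assoc (110592 * S.C ^ 14)]
      exact (mul_le_mul_of_nonneg_left q2 c14).trans_eq (by ring)
    · rw [q5]
      linarith only [mul_le_mul_of_nonneg_left (c7 1 (by norm_num)) c14,
        (by positivity : 0 ≤ S.C ^ 14 * (S.C ^ 7 * G))]
    · refine mul_le_mul_of_nonneg_right (mul_le_mul_of_nonneg_right ?_ (by positivity)) Gn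
      rw [DP]; linarith only [C1, c2]
  · rw [← sum_Ico_consecutive _ (J1.trans e1) e2, ← sum_Ico_consecutive _ J1 e1]
    have t3 := (sum_le_sum_of_subset_of_nonneg (Ico_subset_Ico_right S.Jp.le_succ) fun k _ _ =>
      mul_nonneg (L.dz_nonneg k) (tM_nn k)).trans (s3 (tM M m a) fun k hk => by
        have := (Vn_le_u L.m0 mj (show k < M.N by omega)).trans (u4 k)
        rw [Vn_eq] at this
        linarith only [this, vM_nn (M := M) (m := m) (a := a) k])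
    rw [mul_assoc (2 * S.C), q5] at t2
    rw [rt] at t1
    have a1 := mul_le_mul_of_nonneg_left q1 (by positivity : 0 ≤ 2 * S.C * (110592 * S.C ^ 14))
    have a2 := mul_le_mul_of_nonneg_left q3 (by positivity : 0 ≤ 2 * S.C ^ 2)
    have a3 := mul_le_mul_of_nonneg_left q4 (by positivity : 0 ≤ 2 * S.C ^ 2)
    have a4 := mul_le_mul_of_nonneg_left k4 (mul_nonneg (show 0 ≤ DP S.C by
      rw [DP]; positivity) Gn)
    rw [DP] at a4 ⊢
    linarith only [t1, t2, t3, a1, a2, a3, a4, mul_le_mul_of_nonneg_right C1 Gn,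
      mul_le_mul_of_nonneg_left (c7 2 (by norm_num)) c14,
      mul_le_mul_of_nonneg_left (c7 3 (by norm_num)) (mul_nonneg c14 (by positivity : 0 ≤ 1 + (K : ℝ))),
      (by positivity : 0 ≤ S.C ^ 14 * (S.C ^ 7 * G)), (by positivity : 0 ≤ S.C ^ 14 * (S.C ^ 7 * G) * K),
      (by positivity : 0 ≤ S.C ^ 2 * G), (by positivity : 0 ≤ S.C ^ 2 * G * K),
      (by positivity : 0 ≤ S.C * G * K)]

theorem plG : PlG := fun C => by
  filter_upwards [eventually_ge_atTop 6] with A hA ε hε η hη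
  filter_upwards [ev_big C (DP C) (show 3 ≤ A by omega) hη, Pre29.ev_K ((24 * C ^ 5) ^ 3) hε] with n
    hK hE S M b1 b2 b3 h m a I l0 l V X Lg X2 X3 G0 η' Xp Vt Lp G1 u1 u2 j γ Lc ηc τ N c p en j0
  obtain ⟨K, hK, B⟩ := hK
  replace B := B S M b1 b2 b3 h m a I
  subst b1 b2
  obtain ⟨a1, a2, a3⟩ := main B hA hE c p en j0
  have e := mul_le_mul_of_nonneg_right hK (sq_nonneg G0)
  refine ⟨a1.trans e, a2.trans e, (gg1 S).trans_le (a3.trans (le_trans
    (mul_le_mul_of_nonneg_right ?_ (sq_nonneg G0)) e))⟩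
  have C0 := B.C0
  refine le_trans ?_ (le_mul_of_one_le_right (by rw [DP]; positivity)
    (one_le_pow₀ (by linarith [(Nat.cast_nonneg K : (0 : ℝ) ≤ K)])))
  rw [DP]
  exact le_add_of_nonneg_left (by positivity)

/-- the same from the a priori bounds -/
theorem plG' : CL fun E Λ S M m a =>
    ∀ l0 l V X Lg X2 X3 G0 η Xp Vt Lp G1 u1 u2 j γ Lc ηc τ N l0' X',
    LN E S M l0 l V X Lg X2 X3 G0 η → LP E S M Xp Vt Lg Lp X2 X3 G0 G1 u1 u2 j γ Lc ηc τ η N →
    L69.Ap S M m a l0' X' Xp Vt u1 j →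
    ∑ k ∈ Icc S.J S.Jp, M.dz m a k * aM M m a k ≤ Λ * G0 ^ 2 ∧
      ∑ k ∈ Ico S.J S.Jp, M.dz m a k * tM M m a k ≤ Λ * G0 ^ 2 ∧ S.w3 1 ≤ Λ * G0 ^ 2 :=
  fun C => (plG C).mono fun _ H ε hε η hη => (H ε hε η hη).mono fun _ H S M b1 b2 b3 h m a I
    l0 l V X Lg X2 X3 G0 η' Xp Vt Lp G1 u1 u2 j γ Lc ηc τ N _ _ c p q =>
    H S M b1 b2 b3 h m a I l0 l V X Lg X2 X3 G0 η' Xp Vt Lp G1 u1 u2 j γ Lc ηc τ N c p q.top
      (le_trans (by positivity) q.j0)

end Crest.Agent.T156.Alt.G49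

end
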