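import Crest.Agent.T156.LDef_69
import Crest.Agent.T156.ClE1b_61

/-!
# Row 156, block (L): sizes on the top window and on the plateau, statements (helper98)
-/

set_option autoImplicit false

noncomputable section

namespace Crest.Agent.T156.Alt.SzT98

open Real Finset
open Crest.Agent.T156.Alt.L69

variable (M : Md) (S : Sc)

/-- clock length of the shell (`= Pl57.ls`) -/
def ls (k : ℕ) : ℝ := S.den (M.z (k - 1)) * ds M S k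
theorem ls_eq (k : ℕ) : ls M S k = lsh M S k := rfl

/-- the plateau seen from the shell of `k`: the lower shells stay in the cone -/
structure Far (E : ℝ) (S : Sc) (M : Md) (Xp Vt γ u1 Lp : ℝ) : Prop where
  u0 : 0 < S.u0
  jl : E * M.s S.jl ≤ 1
  rev : ∃ k1, S.Jp ≤ k1 ∧ k1 ≤ M.N ∧ 1 / S.C ≤ ((k1 : ℝ) - S.Jp) * S.v ∧
    ∀ k, S.Jp ≤ k → k < k1 → S.θ * S.v / (S.C * S.F) ≤ M.H (k + 1) - M.H k
  Xp0 : 0 < Xp ∧ E * Xp ≤ 1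
  Vt0 : 0 ≤ Vt
  u1a : S.ue ≤ u1
  u1b : E * u1 ≤ 1
  γ0 : M.s S.Jp - M.s S.J ≤ γ
  γ1 : E * γ ≤ 1
  Lp1 : 1 ≤ Lp ∧ Lp ≤ S.n
  far : L69.Far M S Xp Vt γ u1 Lp

/-- **plateau, pointwise**: slope `L (1 + (Rp + Xp^(1/3)) / ls)` and slack `e` on the shell only -/
def SzQ : Prop := CL fun E Λ S M m a => ∀ l0 X Xp Vt γ u1 j Lp, Far E S M Xp Vt γ u1 Lp →
  Ap S M m a l0 X Xp Vt u1 j → ∀ k L e, S.J ≤ k → k < S.Jp → 2 * u1 ≤ du M k → Lp ≤ L → 0 ≤ e →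
    (∀ i : ℕ, S.J / 2 ≤ i → i < S.Jp → |(i : ℝ) - k| * S.v ≤ ls M S k / (64 * S.C ^ 4) →
      |M.rb m a i - M.rb m a k| ≤
        e + L * (1 + (Rp M S Xp Vt γ k + Xp ^ ((1 : ℝ) / 3)) / ls M S k) * (|(i : ℝ) - k| * S.v)) →
    E61.u4 M m a k ≤ Λ * (L ^ ((2 : ℝ) / 3) * (ap M S Xp Vt γ k - √(S.w3 1 / lsh M S k)) +
      √(S.w3 1 / lsh M S k) + e)

/-- **top window, pointwise**: slope `κ` and slack `e` on the sloped nodes -/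
def SzW : Prop := CL fun E Λ S M m a => ∀ l0 X Xp Vt γ u1 j Lp, Far E S M Xp Vt γ u1 Lp →
  Ap S M m a l0 X Xp Vt u1 j → ∀ k κ e, 2 * S.J ≤ 3 * k → k < S.J → 1 ≤ κ → 0 ≤ e →
    (∀ i : ℕ, S.J / 2 ≤ i → i < S.J → |M.rb m a i - M.rb m a k| ≤ e + κ * (|(i : ℝ) - k| * S.v)) →
    E61.u4 M m a k ≤ Λ * (κ ^ ((2 : ℝ) / 3) * S.w3 1 ^ ((1 : ℝ) / 3) + e +
      min (S.w3 1 / (((S.J : ℝ) - k) * S.v) ^ 2)
        (S.w3 1 / S.u0 ^ 2 + min X Xp ^ ((1 : ℝ) / 3) + γ))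

/-- **plateau sums** -/
def SzS : Prop := CL fun E Λ S M m a => ∀ l0 X Xp Vt γ u1 j Lp, Far E S M Xp Vt γ u1 Lp →
  Ap S M m a l0 X Xp Vt u1 j → ∀ p, 2 ≤ p → p ≤ 4 →
    ∑ k ∈ Ico S.J M.N, M.dz m a k * E61.u4 M m a k ^ p ≤ Λ * Np M S Xp Vt γ u1 Lp p

/-- **top window sums** -/
def SzV : Prop := CL fun E Λ S M m a => ∀ l0 X Xp Vt γ u1 j Lp, Far E S M Xp Vt γ u1 Lp →
  Ap S M m a l0 X Xp Vt u1 j → 0 < X → E * X ≤ 1 → ∀ w, w = S.w3 1 ^ ((1 : ℝ) / 3) →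
    ∑ k ∈ (range S.J).filter fun k => 2 * S.J ≤ 3 * k, M.dz m a k * E61.u4 M m a k ^ 2 ≤
      Λ * (w ^ 2 + (w ^ 2) ^ ((3 : ℝ) / 7) * X ^ ((4 : ℝ) / 7) + Np M S Xp Vt γ u1 Lp 2) ∧
    ∑ k ∈ (range S.J).filter fun k => 2 * S.J ≤ 3 * k, M.dz m a k * E61.u4 M m a k ^ 3 ≤
      Λ * (w ^ 3 + (w ^ 3) ^ ((1 : ℝ) / 7) * (w * X) ^ ((6 : ℝ) / 7) + Np M S Xp Vt γ u1 Lp 3) ∧
    ∑ k ∈ (range S.J).filter fun k => 2 * S.J ≤ 3 * k, M.dz m a k * E61.u4 M m a k ^ 4 ≤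
      Λ * (w ^ 4 + w ^ ((3 : ℝ) / 2) * X ^ ((7 : ℝ) / 6) + Np M S Xp Vt γ u1 Lp 4)

/-- **a good node in the upper half of the shell** -/
def SzG : Prop := CL fun E Λ S M m a => ∀ l0 X Xp Vt γ u1 j Lp, Far E S M Xp Vt γ u1 Lp →
  Ap S M m a l0 X Xp Vt u1 j → E ≤ Lp → ∀ k, S.J ≤ k → k < S.Jp → 3 * u1 ≤ du M k →
    ∃ i, k ≤ i ∧ i < S.Jp ∧ M.z (i - 1) ≤ M.z (k - 1) + ds M S k / 4 ∧
      E61.u4 M m a i ≤ Λ * (Lp ^ ((2 : ℝ) / 3) * ap M S Xp Vt γ k)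

end Crest.Agent.T156.Alt.SzT98

end
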