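import Crest.Agent.T156.TL0D_9
import Crest.Agent.T156.ClSzC_61
import Crest.Agent.T156.SzTD_98
import Crest.Agent.T156.PlG_49

/-!
# Row 156, block (L) (helper64): the sums over the top window and the plateau, glue
-/

set_option autoImplicit false

noncomputable section

namespace Crest.Agent.T156.Alt.Tg64

open Real Finset
open Crest.Agent.T156.Alt.E61 Crest.Agent.T156.Alt.L69 Crest.Agent.T156.Alt.Sz9

variable {S : Sc} {M : Md} {m : ℕ} {a E l0 l V X Lg X2 X3 G0 Xp Vt Lp G1 u1 u2 j γ Lc ηc τ N : ℝ}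
  {η : ℝ → ℝ}

theorem le1 {x : ℝ} (E1 : 1 ≤ E) (h : E * x ≤ 1) : x ≤ 1 := by
  rcases le_total 0 x with c | c
  · exact (le_mul_of_one_le_left c E1).trans h
  · linarith

theorem l0_pos (h : Cl S M) (E1 : 1 ≤ E) (h1 : E * M.s S.jl ≤ l0) : 0 < l0 :=
  (mul_pos (by linarith) (h.s_pos (h.i0.trans h.i1))).trans_le h1

theorem far_LP (E1 : 1 ≤ E) (h : Cl S M) (B : LN E S M l0 l V X Lg X2 X3 G0 η)
    (P : LP E S M Xp Vt Lg Lp X2 X3 G0 G1 u1 u2 j γ Lc ηc τ η N) :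
    SzT98.Far E S M Xp Vt γ u1 Lp :=
  ⟨P.u0, B.l0s.trans (B.l0l.trans (le1 E1 B.l1)), P.rev, P.Xp0, P.Vt0, P.u1a,
    (mul_le_mul_of_nonneg_left P.u1b.1 (by linarith)).trans P.u1b.2, P.γ0, P.γ1, P.Lp1, P.far⟩

theorem far_TH (E1 : 1 ≤ E) (H : TH E S M m a l0 X Xp Vt X2 u1 j γ Lp) :
    SzT98.Far E S M Xp Vt γ u1 Lp :=
  ⟨H.u0, H.l0s.trans (le1 E1 H.l01), H.rev, ⟨H.Xp0, H.Xp1⟩, H.Vt0, H.u1a, H.u1b, H.γ0, H.γ1,
    ⟨E1.trans H.Lp0, H.Lp1⟩, H.far⟩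

/-- the top indices: sloped window and the rest -/
theorem tp_sum {f : ℕ → ℝ} (f0 : ∀ k, 0 ≤ f k) : ∑ k ∈ Tp S M, f k ≤
    ∑ k ∈ (range S.J).filter fun k => 2 * S.J ≤ 3 * k, f k + ∑ k ∈ Ico S.J M.N, f k := by
  rw [← sum_union (disjoint_left.2 fun k h1 h2 => by
    have := mem_range.1 (mem_filter.1 h1).1
    have := (mem_Ico.1 h2).1
    omega)]
  refine sum_le_sum_of_subset_of_nonneg (fun k hk => ?_) fun k _ _ => f0 k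
  simp only [Tp, mem_filter, mem_range, mem_union, mem_Ico] at hk ⊢
  omega

theorem tp_pow (h : Cl S M) (I : S.In m a) (p : ℕ) : ∑ k ∈ Tp S M, M.dz m a k * u4 M m a k ^ p ≤
    ∑ k ∈ (range S.J).filter fun k => 2 * S.J ≤ 3 * k, M.dz m a k * u4 M m a k ^ p +
      ∑ k ∈ Ico S.J M.N, M.dz m a k * u4 M m a k ^ p :=
  tp_sum fun k => mul_nonneg ((Md67.lg_cl h h.n1 I).dz_nonneg k) (pow_nonneg (u4_nn k) p)

theorem cl1 (V0 : 0 ≤ V) : 1 ≤ cl S V 1 := C61.cl_ge V0 zero_le_one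

theorem w_le (h : Cl S M) (V0 : 0 ≤ V) : 0 ≤ S.w3 1 ^ ((1 : ℝ) / 3) ∧
    S.w3 1 ^ ((1 : ℝ) / 3) ≤ ws S V 1 := by
  have w0 : 0 ≤ S.w3 1 ^ ((1 : ℝ) / 3) := rpow_nonneg (P33.w3_pos h one_pos).le _
  exact ⟨w0, le_mul_of_one_le_left w0 (by rw [div_one]; exact cl1 V0)⟩

theorem w_one (h : Cl S M) (l1 : 0 < l0) (l2 : l0 ≤ 1) (h2 : S.w3 l0 ≤ l0 ^ 3) :
    S.w3 1 ^ ((1 : ℝ) / 3) ≤ 1 :=
  rpow_le_one (P33.w3_pos h one_pos).le (((P33.w3_anti h l1 l2).trans h2).trans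
    (pow_le_one₀ l1.le l2)) (by norm_num)

theorem a2 {w c W Y : ℝ} (w0 : 0 ≤ w) (w1 : w ≤ 1) (c1 : 1 ≤ c) (hW : w ≤ W) (Y0 : 0 ≤ Y)
    (Y1 : Y ≤ 1) (H : min (1 * c ^ 2) (1 * W ^ 2 + (1 * W ^ 2) ^ ((3 : ℝ) / 7) * Y ^ ((4 : ℝ) / 7)) ≤ X2) :
    w ^ 2 + (w ^ 2) ^ ((3 : ℝ) / 7) * Y ^ ((4 : ℝ) / 7) ≤ 2 * X2 := by
  simp only [one_mul] at H
  have p0 : 0 ≤ w ^ 2 + (w ^ 2) ^ ((3 : ℝ) / 7) * Y ^ ((4 : ℝ) / 7) := by positivity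
  rcases min_le_iff.1 H with H | H
  · have b1 : w ^ 2 ≤ 1 := pow_le_one₀ w0 w1
    have b2 : (w ^ 2) ^ ((3 : ℝ) / 7) * Y ^ ((4 : ℝ) / 7) ≤ 1 :=
      mul_le_one₀ (rpow_le_one (by positivity) b1 (by norm_num)) (by positivity)
        (rpow_le_one Y0 Y1 (by norm_num))
    linarith [one_le_pow₀ (n := 2) c1]
  · have : w ^ 2 + (w ^ 2) ^ ((3 : ℝ) / 7) * Y ^ ((4 : ℝ) / 7) ≤
        W ^ 2 + (W ^ 2) ^ ((3 : ℝ) / 7) * Y ^ ((4 : ℝ) / 7) := by gcongr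
    linarith

theorem min_X (V0 : 0 ≤ V) (X1 : X ≤ 1) : min X (cl S V 1 ^ 3) = X :=
  min_eq_left (X1.trans (one_le_pow₀ (cl1 V0)))

/-- the sums of the powers over the top window and the plateau -/
def SzTP : Prop := CL fun E Λ S M m a =>
  ∀ G1 u1 u2 j γ Lc ηc τ l0 l V X Xp Vt Lg Lp X2 X3 G0 η N, LN E S M l0 l V X Lg X2 X3 G0 η →
    LP E S M Xp Vt Lg Lp X2 X3 G0 G1 u1 u2 j γ Lc ηc τ η N → Ap S M m a l0 X Xp Vt u1 j →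
    ∑ k ∈ Tp S M, M.dz m a k * u4 M m a k ^ 2 ≤ Λ * X2 ∧
    ∑ k ∈ Tp S M, M.dz m a k * u4 M m a k ^ 3 ≤ Λ * (X3 + η 1) ∧
    ∀ V' t0 t1 X4, 0 ≤ V' → t0 ≤ 1 → 1 ≤ t1 → L4 S V' X t0 t1 X4 →
      ∑ k ∈ Tp S M, M.dz m a k * u4 M m a k ^ 4 ≤ Λ * (X4 + Np M S Xp Vt γ u1 Lp 4)

/-- the top sums for general levels -/
def SzTG : Prop := CL fun E Λ S M m a =>
  ∀ G1 u1 u2 j γ Lc ηc τ l0 l V X Xp Vt Lg Lp X2 X3 G0 η N, CeiG S M G1 →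
    LN E S M l0 l V X Lg X2 X3 G0 η →
    LP E S M Xp Vt Lg Lp X2 X3 G0 G1 u1 u2 j γ Lc ηc τ η N → Ap S M m a l0 X Xp Vt u1 j →
    TpS Λ S M m a X2 X3 G0 η

theorem sq4 {x y L L' : ℝ} (L4 : 1000 ≤ L) (hL : L ^ 2 ≤ L') (y0 : 0 ≤ y) (h : x ≤ L * (4 * y)) :
    x ≤ L' * y := by
  have := mul_le_mul_of_nonneg_right hL y0
  have := mul_le_mul_of_nonneg_right L4 (mul_nonneg (by linarith : 0 ≤ L) y0)
  have := mul_nonneg (by linarith : 0 ≤ L) y0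
  nlinarith

theorem szTP_of (hS : SzT98.SzS) (hV : SzT98.SzV) : SzTP := by
  have key : CL fun E Λ S M m a => ∀ Λ', Λ ≤ Λ' →
      ∀ G1 u1 u2 j γ Lc ηc τ l0 l V X Xp Vt Lg Lp X2 X3 G0 η N, LN E S M l0 l V X Lg X2 X3 G0 η →
      LP E S M Xp Vt Lg Lp X2 X3 G0 G1 u1 u2 j γ Lc ηc τ η N → Ap S M m a l0 X Xp Vt u1 j →
      ∑ k ∈ Tp S M, M.dz m a k * u4 M m a k ^ 2 ≤ Λ' * X2 ∧
      ∑ k ∈ Tp S M, M.dz m a k * u4 M m a k ^ 3 ≤ Λ' * (X3 + η 1) ∧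
      ∀ V' t0 t1 X4, 0 ≤ V' → t0 ≤ 1 → 1 ≤ t1 → L4 S V' X t0 t1 X4 →
        ∑ k ∈ Tp S M, M.dz m a k * u4 M m a k ^ 4 ≤ Λ' * (X4 + Np M S Xp Vt γ u1 Lp 4) := by
    refine (CL.and hS hV).glue' (fun _ _ _ _ _ _ _ _ h H _ h' => H _ (h.trans h')) 0 le_rfl 1 2
      fun C _ ε η' hε _ => ⟨0, fun S M m a G _ _ _ h I ⟨s, v⟩ Λ hΛ G1 u1 u2 j γ Lc ηc τ l0 l V X Xp
        Vt Lg Lp X2 X3 G0 η N B P A => ?_⟩
    rw [pow_one] at B P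
    have E1 : 1 ≤ (S.n : ℝ) ^ ε := one_le_rpow G.N1.le hε.le
    have F := far_LP E1 h B P
    have s := s _ _ _ _ _ _ _ _ F A
    obtain ⟨v2, v3, v4⟩ := v _ _ _ _ _ _ _ _ F A B.X0 B.X1 _ rfl
    have s2 := s 2 le_rfl (by norm_num)
    have s3 := s 3 (by norm_num) (by norm_num)
    have s4 := s 4 (by norm_num) le_rfl
    have L4' := G.num_le
    generalize (S.n : ℝ) ^ η' = L at *
    have L0 : 0 ≤ L := by linarith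
    have l1 := l0_pos h E1 B.l0s
    have l2 := le1 E1 B.l1
    have X1 := le1 E1 B.X1
    have X0 := B.X0.le
    obtain ⟨w0, wW⟩ := w_le h B.V0
    have w1 := w_one h l1 (B.l0l.trans l2) B.l0w
    have c0 : 0 ≤ cl S V l0 := l1.le.trans (C61.cl_ge B.V0 l1.le)
    have X20 : 0 ≤ X2 := le_trans (by positivity) B.x2a
    have X30 : 0 ≤ X3 := le_trans (by positivity) B.x3a
    have b2 := B.x2b 1 (B.l0l.trans l2) h.C1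
    have b3 := B.ηc 1 1 l2 le_rfl h.C1
    rw [min_X B.V0 X1] at b2 b3
    have b2 := a2 w0 w1 (cl1 B.V0) wW X0 X1 b2
    simp only [one_mul] at b3
    have wl : ∀ V', 0 ≤ V' → S.w3 1 ^ ((1 : ℝ) / 3) ≤ ws S V' 1 := fun V' h' => (w_le h h').2
    generalize S.w3 1 ^ ((1 : ℝ) / 3) = w at *
    have W0 := w0.trans wW
    have b4 : w ^ 3 + (w ^ 3) ^ ((1 : ℝ) / 7) * (w * X) ^ ((6 : ℝ) / 7) ≤ η 1 :=
      le_trans (by gcongr) b3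
    have η0 : 0 ≤ η 1 := le_trans (by positivity) b4
    refine ⟨sq4 L4' hΛ X20 ((tp_pow h I 2).trans ?_), sq4 L4' hΛ (by positivity)
      ((tp_pow h I 3).trans ?_), fun V' t0 t1 X4 V0 t0' t1' H4 => ?_⟩
    · linarith [mul_le_mul_of_nonneg_left P.n2 L0, mul_le_mul_of_nonneg_left b2 L0]
    · linarith [mul_le_mul_of_nonneg_left P.n3 L0, mul_le_mul_of_nonneg_left b4 L0,
        mul_nonneg L0 η0, mul_nonneg L0 X30]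
    · have b5 := H4 1 t0' t1'
      rw [min_X V0 X1, one_mul] at b5
      have wW' := wl V' V0
      have W0' := w0.trans wW'
      have b6 : w ^ 4 + w ^ ((3 : ℝ) / 2) * X ^ ((7 : ℝ) / 6) ≤ X4 := le_trans (by gcongr) b5
      have X40 : 0 ≤ X4 := le_trans (by positivity) b6
      have n0 : 0 ≤ Np M S Xp Vt γ u1 Lp 4 := (mul_nonneg_iff_of_pos_left (by linarith)).1
        (le_trans (sum_nonneg fun k _ => mul_nonneg ((Md67.lg_cl h h.n1 I).dz_nonneg k)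
          (pow_nonneg (u4_nn k) 4)) s4)
      refine sq4 L4' hΛ (by positivity) ((tp_pow h I 4).trans ?_)
      linarith [mul_le_mul_of_nonneg_left b6 L0, mul_nonneg L0 X40, mul_nonneg L0 n0]
  exact key.mono fun _ _ _ _ _ _ _ _ _ _ H => H _ le_rfl

theorem szTG_of (hS : SzT98.SzS) (hV : SzT98.SzV) : SzTG :=
  (CL.and (szTP_of hS hV) G49.plG').mono fun _ _ _ _ _ _ _ _ _ _ ⟨H, G⟩
    G1 u1 u2 j γ Lc ηc τ l0 l V X Xp Vt Lg Lp X2 X3 G0 η N _ B P A =>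
    have H := H G1 u1 u2 j γ Lc ηc τ l0 l V X Xp Vt Lg Lp X2 X3 G0 η N B P A
    ⟨H.1, H.2.1, (G l0 l V X Lg X2 X3 G0 η Xp Vt Lp G1 u1 u2 j γ Lc ηc τ N _ _ B P A).1⟩

theorem szT9_of (h : SzTG) : SzT9 :=
  CL.mono h fun _ _ _ _ _ _ _ _ _ _ H G1 u1 u2 j γ Lc ηc τ l X Xp Vt Lg Lp X2 X3 G0 η N =>
    H G1 u1 u2 j γ Lc ηc τ l l _ X Xp Vt Lg Lp X2 X3 G0 η N

theorem szT2_of (hS : SzT98.SzS) (hV : SzT98.SzV) : C61.SzT2 := by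
  have key : CL fun E Λ S M m a => ∀ Λ', Λ ≤ Λ' → ∀ l0 X Xp Vt X2 u1 j γ Lp,
      TH E S M m a l0 X Xp Vt X2 u1 j γ Lp →
      ∑ k ∈ Tp S M, M.dz m a k * u4 M m a k ^ 2 ≤ Λ' * X2 := by
    refine (CL.and hS hV).glue' (fun _ _ _ _ _ _ _ _ h H _ h' => H _ (h.trans h')) 0 le_rfl 1 2
      fun C _ ε η' hε _ => ⟨0, fun S M m a G _ _ _ h I ⟨s, v⟩ Λ hΛ l0 X Xp Vt X2 u1 j γ Lp H => ?_⟩
    rw [pow_one] at H
    have E1 : 1 ≤ (S.n : ℝ) ^ ε := one_le_rpow G.N1.le hε.le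
    have F := far_TH E1 H
    have s2 := s _ _ _ _ _ _ _ _ F H.pri 2 le_rfl (by norm_num)
    obtain ⟨v2, -, -⟩ := v _ _ _ _ _ _ _ _ F H.pri H.X0 H.X1 _ rfl
    have L4' := G.num_le
    generalize (S.n : ℝ) ^ η' = L at *
    have L0 : 0 ≤ L := by linarith
    have l1 := l0_pos h E1 H.l0s
    have l2 := le1 E1 H.l01
    have X0 := H.X0.le
    have V0 : 0 ≤ X ^ ((1 : ℝ) / 3) := by positivity
    obtain ⟨w0, wW⟩ := w_le h V0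
    have X20 : 0 ≤ X2 := le_trans (by positivity) H.x2a
    have b2 := a2 w0 (w_one h l1 l2 H.l0w) (cl1 V0) wW X0 (le1 E1 H.X1) (H.x2b 1 l2 h.C1)
    refine sq4 L4' hΛ X20 ((tp_pow h I 2).trans ?_)
    linarith [mul_le_mul_of_nonneg_left H.n2 L0, mul_le_mul_of_nonneg_left b2 L0]
  exact key.mono fun _ _ _ _ _ _ _ _ _ _ H => H _ le_rfl

theorem szN2 (hS : SzT98.SzS) (hV : SzT98.SzV) : SzN2 := C61.szN2_of (szT2_of hS hV)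

theorem tl0 (hS : SzT98.SzS) (hV : SzT98.SzV) : TL0 :=
  tl0_of (szT9_of (szTG_of hS hV))

end Crest.Agent.T156.Alt.Tg64

end
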