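import Crest.Agent.T156.NgS_9
import Crest.Agent.T156.LInt_31
import Crest.Agent.T156.GdT_65
import Crest.Agent.T156.SzTG_64

/-!
Row 156, block (L) (helper9): the net of good nodes with the fine margin.
-/

set_option autoImplicit false

noncomputable section

namespace Crest.Agent.T156.Alt.Sz9

open Real Finset
open Crest.Agent.T156.Alt.E61 Crest.Agent.T156.Alt.Mp9 Crest.Agent.T156.Alt.L69
open Crest.Agent.T156.Alt.G89 (NG Tau Ug NdS)
open Crest.Agent.T156.Alt.Nd22 (NI NO)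
open Crest.Agent.T156.Alt.L31 (Hx Ng Pa NgX)

variable {S : Sc} {M : Md} {m : ℕ} {a T E Λ lo l0 l V Lg X X2 X3 G0 τ1 : ℝ} {η : ℝ → ℝ}
  {Gn : ℕ → Prop} {V0 : ℕ}

theorem NG_tau {K : ℝ} (N : NG E Λ S M m a T lo Lg X2 (K * τ1) η Gn V0) (A : At S M m a T)
    (K1 : 1 ≤ K) (Λ0 : 0 ≤ Λ) {Λ' : ℝ} (hΛ : Λ * K ≤ Λ') (lo0 : 0 < lo) (g0 : 0 < Lg) (τ0 : 0 ≤ τ1)
    (X0 : 0 ≤ X2) (η0 : ∀ k < S.J, 0 ≤ η (M.s k)) : NG E Λ' S M m a T lo Lg X2 τ1 η Gn V0 := by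
  have h1 := (le_mul_of_one_le_right Λ0 K1).trans hΛ
  have B := NG_mono N A h1 lo0 g0 (by positivity) X0 η0
  refine ⟨B.gV, B.hV, B.big, N.top.trans ?_, B.e1, B.ab, B.u4, B.lab, B.ex, B.exs, B.sh⟩
  have : 0 ≤ G89.ds M m a V0 (S.J - 1) :=
    sub_nonneg.2 (A.sb_mono (Nat.succ_le_succ (by have := N.hV; omega)))
  rw [← mul_assoc]
  gcongr

theorem η_dn (N : LN E S M l0 l V X Lg X2 X3 G0 η) (η0 : 0 ≤ η 1) {c t : ℝ} (c1 : 1 ≤ c)
    (t0 : 0 < t) (h : 1 ≤ c * t) : η t ≤ 16 * c ^ 4 * η 1 := by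
  have k : ∀ i : ℕ, η t ≤ 16 ^ i * η (2 ^ i * t) := fun i => by
    induction i with
    | zero => simp
    | succ i ih =>
      have := mul_le_mul_of_nonneg_left (N.η2 (2 ^ i * t) (by positivity))
        (by positivity : (0 : ℝ) ≤ 16 ^ i)
      rw [pow_succ, pow_succ' (2 : ℝ), mul_assoc 2]; linarith
  obtain ⟨i, h1, h2⟩ := exists_nat_pow_near c1 one_lt_two
  have h3 : (16 : ℝ) ^ (i + 1) ≤ 16 * c ^ 4 := by
    have := pow_le_pow_left₀ (by positivity) h1 4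
    rw [← pow_mul, mul_comm i, pow_mul] at this
    rw [pow_succ']; norm_num at this ⊢; linarith
  exact ((k (i + 1)).trans (mul_le_mul_of_nonneg_left (N.ηa (h.trans
    (mul_le_mul_of_nonneg_right h2.le t0.le))) (by positivity))).trans
    (mul_le_mul_of_nonneg_right h3 η0)

theorem rp_nat9 {x : ℝ} (x0 : 0 ≤ x) (p : ℝ) (i j : ℕ) (h : p * i = j) : (x ^ p) ^ i = x ^ j := by
  rw [← rpow_natCast, ← rpow_mul x0, h, rpow_natCast]

/-- interpolation -/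
theorem interp9 {A g w x e : ℝ} (g0 : 0 ≤ g) (w0 : 0 ≤ w) (x0 : 0 ≤ x) (e0 : 0 ≤ e)
    (hA : A ^ 3 = g ^ 4 * w ^ 6 * x) (h1 : g ^ 6 * w ^ 3 ≤ e) (h2 : w ^ 9 * x ^ 6 ≤ e ^ 7)
    (h3 : g ^ 7 * w ^ 27 * x ^ 4 ≤ e ^ 14) : A ≤ e := by
  rcases le_total 1 (g ^ 7 * w) with c | c
  · refine le_of_pow_le_pow_left₀ (n := 3 * 6) (by norm_num) e0 ?_
    rw [pow_mul, hA]
    calc _ ≤ (g ^ 7 * w) ^ 6 * (g ^ 4 * w ^ 6 * x) ^ 6 :=
          le_mul_of_one_le_left (by positivity) (one_le_pow₀ c)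
      _ = (g ^ 6 * w ^ 3) ^ 11 * (w ^ 9 * x ^ 6) := by ring
      _ ≤ e ^ 11 * e ^ 7 := by gcongr
      _ = _ := by ring
  · refine le_of_pow_le_pow_left₀ (n := 3 * 56) (by norm_num) e0 ?_
    rw [pow_mul, hA]
    calc _ = (g ^ 7 * w) ^ 21 * ((g ^ 7 * w ^ 27 * x ^ 4) ^ 11 * (w ^ 9 * x ^ 6) ^ 2) := by ring
      _ ≤ _ := mul_le_of_le_one_left (by positivity) (pow_le_one₀ (by positivity) c)
      _ ≤ (e ^ 14) ^ 11 * (e ^ 7) ^ 2 := by gcongr
      _ = _ := by ring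

/-- `Lg ^ (4/3) w² X ^ (1/3) ≤ η 1` -/
theorem ηX9 (h : Cl S M) (N : LN E S M l0 l V X Lg X2 X3 G0 η) (E1 : 1 ≤ E) :
    0 ≤ η 1 ∧ (Lg ^ ((2 : ℝ) / 3) * w1 S 1) ^ 2 * X ^ ((1 : ℝ) / 3) ≤ η 1 := by
  have l00 := Tg64.l0_pos h E1 N.l0s
  have l1 := Tg64.le1 E1 N.l1
  have X0 := N.X0.le
  have X1 := Tg64.le1 E1 N.X1
  have V0 := N.V0
  have c1 := cr1 S 1
  have g1 : 1 ≤ Lg := (one_le_mul_of_one_le_of_one_le E1 (one_le_pow₀ h.F1)).trans N.Lg0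
  have g0 : 0 ≤ Lg := by linarith
  have d1 := Tg64.cl1 (S := S) V0
  have G00 : 0 ≤ G0 := le_trans (by positivity) N.g0a
  have X20 : 0 ≤ X2 := le_trans (by positivity) N.x2a
  have X30 : 0 ≤ X3 := le_trans (by positivity) N.x3a
  have w3 := P33.w3_pos h one_pos
  obtain ⟨w0, wW⟩ := Tg64.w_le h V0
  have wo := Tg64.w_one h l00 (N.l0l.trans l1) N.l0w
  have e3 : w1 S 1 ^ 3 = S.w3 1 := cube_rp w3.le
  have eg : gg S 1 = w1 S 1 ^ 3 := by rw [e3]; unfold gg Sc.w3; rw [mul_one]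
  have b1 := N.ηb 1 l1 h.C1
  have b2 := N.ηc 1 1 l1 le_rfl h.C1
  have b3 := N.x2b 1 (N.l0l.trans l1) h.C1
  rw [min_eq_left (X1.trans (one_le_pow₀ d1))] at b2 b3
  simp only [one_mul] at b2 b3
  change 0 ≤ w1 S 1 at w0
  change w1 S 1 ≤ _ at wW wo
  have u1 : Lg ^ 2 * w1 S 1 ≤ uw S Lg 1 := (Gd65.Ug_le h g1 one_pos).2.2
  have m0 : 0 ≤ min (S.ms 1 / 1) 1 := le_min (div_pos (h.ms_pos zero_le_one) one_pos).le zero_le_one
  rw [eg] at b1
  generalize w1 S 1 = w at *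
  generalize ws S V 1 = W at *
  have W0 := w0.trans wW
  have U0 : 0 ≤ uw S Lg 1 := le_trans (by positivity) u1
  have a1 : 0 ≤ uw S Lg 1 ^ 2 * min (S.ms 1 / 1) 1 := by positivity
  have a2 : (0 : ℝ) ≤ 1 / S.n := by positivity
  have a3 : √(Lg * w ^ 3) * √X2 ≤ (√(Lg * cr S 1 * w ^ 3) + G0 + X2) * (uw S Lg 1 + √X2) :=
    mul_le_mul ((sqrt_le_sqrt (mul_le_mul_of_nonneg_right (le_mul_of_one_le_right g0 c1)
      (by positivity))).trans (by linarith)) (by linarith) (by positivity) (by positivity)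
  have a4 : 0 ≤ √(Lg * w ^ 3) * √X2 := by positivity
  have a5 := pow_le_pow_left₀ (by positivity) u1 3
  have a6 : 0 ≤ (Lg ^ 2 * w) ^ 3 := by positivity
  have e0 : 0 ≤ η 1 := by linarith
  have a7 : w ^ 6 * X ^ 4 ≤ X2 ^ 7 := by
    rcases min_le_iff.1 b3 with c | c
    · exact (mul_le_one₀ (pow_le_one₀ w0 wo) (by positivity) (pow_le_one₀ X0 X1)).trans
        (one_le_pow₀ ((one_le_pow₀ d1).trans c))
    · refine le_trans ?_ (pow_le_pow_left₀ (by positivity) (le_trans (le_add_of_nonneg_left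
        (sq_nonneg W)) c) 7)
      rw [mul_pow, rp_nat9 (sq_nonneg W) _ 7 3 (by norm_num), rp_nat9 X0 _ 7 4 (by norm_num),
        ← pow_mul]
      gcongr
  refine ⟨e0, interp9 g0 w0 X0 e0 ?_ (by linarith [show (Lg ^ 2 * w) ^ 3 = Lg ^ 6 * w ^ 3 by ring])
    ?_ ?_⟩
  · rw [mul_pow, ← pow_mul, mul_pow, rp_nat9 g0 _ _ 4 (by norm_num), rp_nat9 X0 _ 3 1 (by norm_num)]
    norm_num
  · refine le_trans ?_ (pow_le_pow_left₀ (by positivity) (le_trans (le_add_of_nonneg_left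
      (by positivity : 0 ≤ W ^ 3)) b2) 7)
    rw [mul_pow, rp_nat9 (by positivity) _ 7 1 (by norm_num),
      rp_nat9 (by positivity) _ 7 6 (by norm_num)]
    calc _ ≤ W ^ 9 * X ^ 6 := by gcongr
      _ = _ := by ring
  · refine le_trans ?_ (pow_le_pow_left₀ a4 (show _ ≤ η 1 by linarith) 14)
    rw [show 14 = 2 * 7 by norm_num, pow_mul, mul_pow _ _ 2, sq_sqrt (by positivity), sq_sqrt X20,
      mul_pow _ X2]
    calc _ = (Lg * w ^ 3) ^ 7 * (w ^ 6 * X ^ 4) := by ring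
      _ ≤ _ := by gcongr

/-- the fine margin -/
def t1x (S : Sc) (p : Pa) : ℝ := S.F * (p.τ + (p.η 1 + Ug S p.Lg 1 ^ 2 * p.γ) / mf S 1)

theorem tau_x9 {lam L : ℝ} {p : Pa} (h : Cl S M) (H : Hx E lam S M m a p) (θ1 : S.θ ≤ 1)
    (hL : 10 ^ 11 * S.C ^ 30 ≤ L) (hE : L ^ 10 ≤ E)
    (d1 : ∀ k, S.J ≤ 2 * k → k < S.J →
      G89.gd M S m a T k ≤ L * (S.θ + p.j + p.γ + p.X ^ ((1 : ℝ) / 3))) :
    0 ≤ t1x S p ∧ Tau E S M m a T p.Lg (L * (S.θ + p.j + p.γ + p.X ^ ((1 : ℝ) / 3)))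
      (L ^ 2 * t1x S p) p.η := by
  have N := H.ln
  have P := H.lp
  have C1 := h.C1
  have C0 := h.C0
  have F1 := h.F1
  have C30 : 1 ≤ S.C ^ 30 := one_le_pow₀ C1
  have L1 : 1 ≤ L := by linarith
  have L0 : 0 < L := by linarith
  have E1 : 1 ≤ E := (one_le_pow₀ L1).trans hE
  have E0 : 0 < E := by linarith
  have l1 := Tg64.le1 E1 N.l1
  have g1 : 1 ≤ p.Lg := (one_le_mul_of_one_le_of_one_le E1 (one_le_pow₀ F1)).trans N.Lg0
  have g0 : 0 ≤ p.Lg := by linarith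
  obtain ⟨η0, x1⟩ := ηX9 h N E1
  have w3 := P33.w3_pos h one_pos
  have w0 : 0 ≤ w1 S 1 := rpow_nonneg w3.le _
  have f0 : 0 < mf S 1 := div_pos (h.ms_pos zero_le_one) (by linarith)
  have j0 : 0 ≤ p.j := le_trans (by positivity) H.ap.j0
  have γ0 : 0 ≤ p.γ := (sub_nonneg.2 (h.sm h.i3)).trans P.γ0
  have θ0 := h.θ0
  have X0 := N.X0
  have Xp := P.Xp0.1
  have τ0 : 0 ≤ p.τ := (Odd.pow_nonneg_iff (by decide : Odd 3)).1 (w3.le.trans P.tw)
  have wτ : w1 S 1 ≤ p.τ :=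
    le_of_pow_le_pow_left₀ three_ne_zero τ0 ((cube_rp w3.le).le.trans P.tw)
  have G00 : 0 ≤ p.G0 := le_trans (by have := Tg64.l0_pos h E1 N.l0s; positivity) N.g0a
  have X20 : 0 ≤ p.X2 := le_trans (by have := Tg64.l0_pos h E1 N.l0s; positivity) N.x2a
  have X30 : 0 ≤ p.X3 := le_trans (by have := Tg64.l0_pos h E1 N.l0s; positivity) N.x3a
  obtain ⟨A, eA⟩ : ∃ A, A = p.Lg ^ ((2 : ℝ) / 3) * w1 S 1 := ⟨_, rfl⟩
  have A0 : 0 ≤ A := by rw [eA]; positivity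
  have A1 : A ≤ Ug S p.Lg 1 := by
    rw [eA]
    exact mul_le_mul_of_nonneg_right (rpow_le_rpow g0 (le_mul_of_one_le_right g0 (cr1 S 1))
      (by norm_num)) w0
  have A2 : A ^ 2 * (S.θ + p.j) ≤ p.τ * mf S 1 := by
    obtain ⟨b1, -⟩ := P.ηc1 _ rfl
    have b2 : A ≤ p.Lc ^ ((2 : ℝ) / 3) * S.w3 1 ^ ((1 : ℝ) / 3) := by
      rw [eA]; exact mul_le_mul_of_nonneg_right (rpow_le_rpow g0 P.Lc1.1 (by norm_num)) w0
    have b3 := A0.trans b2
    generalize p.Lc ^ ((2 : ℝ) / 3) * S.w3 1 ^ ((1 : ℝ) / 3) = u at *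
    have b4 : A ^ 2 * (S.θ + p.j) ≤ u ^ 2 * (S.θ + p.j + p.Xp ^ ((1 : ℝ) / 3)) :=
      mul_le_mul (pow_le_pow_left₀ A0 b2 2) (le_add_of_nonneg_right (by positivity)) (by positivity)
        (sq_nonneg _)
    have b5 : 0 ≤ (√(p.Lc * gg S 1) + p.G0 + p.X2) * (u + √p.X2) := by positivity
    have b6 : (0 : ℝ) ≤ 1 / S.n := by positivity
    have b7 : 0 ≤ p.Xp ^ ((1 : ℝ) / 3) / p.Lc := div_nonneg (by positivity) (g0.trans P.Lc1.1)
    have b8 := (div_le_iff₀ f0).1 (show p.ηc / mf S 1 ≤ p.τ by linarith [P.τ0])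
    linarith [pow_nonneg b3 3]
  rw [← eA] at x1
  have y0 : 0 ≤ Ug S p.Lg 1 ^ 2 * p.γ := by positivity
  have t0 : 0 ≤ t1x S p := by unfold t1x; positivity
  have eY : t1x S p * mf S 1 = S.F * (p.τ * mf S 1 + (p.η 1 + Ug S p.Lg 1 ^ 2 * p.γ)) := by
    unfold t1x; field_simp
  have tτ : p.τ ≤ t1x S p := (le_add_of_nonneg_right (by positivity)).trans
    (le_mul_of_one_le_left (by positivity) F1)
  refine ⟨t0, d1, fun k h1 h2 => ?_, ?_⟩
  · have s0 : 0 < M.s k := h.s_pos (by have := h.i2; omega)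
    have a1 := Gd65.s_top h (show S.J ≤ 8 * k by omega) h2.le
    obtain ⟨c, ec⟩ : ∃ c, c = 24 * S.C ^ 5 := ⟨_, rfl⟩
    have c1 : 1 ≤ c := by linarith [one_le_pow₀ (n := 5) C1]
    have c0 : 0 < c := by linarith
    have c6 : 80 * c ^ 6 ≤ L := by rw [ec]; linarith
    rw [← ec] at a1
    generalize M.s k = t at *
    have m0 := h.ms_pos s0.le
    have n0 := h.N0
    have a2 : S.ms 1 ≤ 4 * c ^ 2 * S.ms t := (h.msm a1).trans (h.ms_mul s0.le c1)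
    have a3 : mf S 1 ≤ 4 * c ^ 2 * mf S t := by
      unfold mf; rw [← mul_div_assoc]; exact div_le_div_of_nonneg_right a2 (by linarith)
    have a4 : w1 S t ≤ 2 * c * w1 S 1 := by
      refine le_of_pow_le_pow_left₀ three_ne_zero (by positivity) ?_
      rw [mul_pow, w1, w1, cube_rp w3.le, cube_rp (P33.w3_pos h s0).le]
      unfold Sc.w3
      rw [← mul_div_assoc, div_le_div_iff₀ (by positivity) (by have := h.ms_pos zero_le_one; positivity)]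
      have b1 := mul_le_mul a1 a2 (h.ms_pos zero_le_one).le (by positivity)
      have b2 := mul_le_mul_of_nonneg_left b1 (by positivity : 0 ≤ S.F * S.n)
      have : 0 ≤ c ^ 3 * S.F * (S.n * t * S.ms t) := by positivity
      linarith
    have a5 : cr S t ^ 2 ≤ c ^ 2 * S.F := by
      refine (pow_le_pow_right₀ (cr1 S t) (show 2 ≤ 3 by norm_num)).trans ?_
      rw [cr_cube h s0]
      refine max_le (one_le_mul_of_one_le_of_one_le (one_le_pow₀ c1) F1) ?_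
      rw [div_le_iff₀ (by positivity)]
      have b1 := mul_le_mul_of_nonneg_left (((h.ms1 t).trans θ1).trans (one_le_pow₀ (n := 2) a1))
        (by linarith : 0 ≤ S.F)
      linarith
    have a6 : Ug S p.Lg t ≤ cr S t * (2 * c * A) := by
      have c2 := cr1 S t
      have b1 := mul_le_mul (rpow_le_self_of_one_le c2 (by norm_num : (2 : ℝ) / 3 ≤ 1)) a4
        (rpow_nonneg (P33.w3_pos h s0).le _) (by linarith)
      have b2 := mul_le_mul_of_nonneg_left b1 (by positivity : 0 ≤ p.Lg ^ ((2 : ℝ) / 3))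
      unfold Ug Nd22.U
      rw [mul_rpow g0 (by linarith), eA]
      linarith
    have a7 : Ug S p.Lg t ^ 2 ≤ 4 * c ^ 4 * S.F * A ^ 2 := by
      have b1 := pow_le_pow_left₀ (Ug_nn h g0 s0) a6 2
      have b2 := mul_le_mul_of_nonneg_right a5 (sq_nonneg (2 * c * A))
      linarith
    have a8 : A ^ 2 * (S.θ + p.j + p.γ + p.X ^ ((1 : ℝ) / 3)) ≤
        p.τ * mf S 1 + (p.η 1 + Ug S p.Lg 1 ^ 2 * p.γ) := by
      linarith [mul_le_mul_of_nonneg_right (pow_le_pow_left₀ A0 A1 2) γ0]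
    have a9 : p.η 1 ≤ t1x S p * mf S 1 := by
      rw [eY]
      exact le_trans (by linarith [mul_nonneg τ0 f0.le]) (le_mul_of_one_le_left (by positivity) F1)
    have b1 := (η_dn N η0 c1 s0 a1).trans (mul_le_mul_of_nonneg_left a9 (by positivity))
    have b2 := mul_le_mul_of_nonneg_right a7
      (by positivity : 0 ≤ L * (S.θ + p.j + p.γ + p.X ^ ((1 : ℝ) / 3)))
    have b3 := mul_le_mul_of_nonneg_left a8 (by positivity : 0 ≤ 4 * c ^ 4 * S.F * L)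
    have b4 : Ug S p.Lg t ^ 2 * (L * (S.θ + p.j + p.γ + p.X ^ ((1 : ℝ) / 3))) ≤
        4 * c ^ 4 * L * (t1x S p * mf S 1) := by rw [eY]; linarith
    have z0 : 0 ≤ t1x S p * mf S 1 := by positivity
    have b5 := mul_le_mul_of_nonneg_right L1 (by positivity : 0 ≤ c ^ 4 * (t1x S p * mf S 1))
    have b6 := mul_le_mul_of_nonneg_left a3 (by positivity : 0 ≤ 20 * c ^ 4 * L * t1x S p)
    have f1 : 0 < mf S t := div_pos m0 (by linarith)
    have b7 := mul_le_mul_of_nonneg_right c6 (by positivity : 0 ≤ L * t1x S p * mf S t)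
    refine ⟨by linarith, a4.trans (mul_le_mul ?_ (wτ.trans tτ) w0 (by positivity))⟩
    linarith [le_self_pow₀ c1 (show 6 ≠ 0 by norm_num), le_self_pow₀ L1 two_ne_zero]
  · have a1 : E * t1x S p ≤ 3 * S.F := by
      have b1 := N.th4 1 l1 C1
      have b2 := (mul_le_mul_of_nonneg_left (pow_le_pow_left₀ (Ug_nn h g0 one_pos)
        (Ug_le h g1 one_pos) 2) E0.le).trans (N.th2 1 l1 C1)
      have b3 := mul_le_mul b2 (Tg64.le1 E1 P.γ1) γ0 f0.le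
      have b4 : E * ((p.η 1 + Ug S p.Lg 1 ^ 2 * p.γ) / mf S 1) ≤ 2 := by
        rw [← mul_div_assoc, div_le_iff₀ f0]; linarith
      have b5 := mul_le_mul_of_nonneg_left (show E * (p.τ + (p.η 1 + Ug S p.Lg 1 ^ 2 * p.γ) /
        mf S 1) ≤ 3 by linarith [P.j1, mul_nonneg E0.le j0]) (by linarith : 0 ≤ S.F)
      unfold t1x; linarith
    have a2 := mul_le_mul_of_nonneg_left (pow_le_pow_left₀ (by positivity) a1 2)
      (by positivity : 0 ≤ L ^ 4)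
    have a3 : S.F ^ 4 ≤ E := (pow_le_pow_right₀ F1 (by norm_num)).trans H.F40
    have a4 : 81 * L ^ 8 ≤ E := le_trans (by
      have := mul_le_mul_of_nonneg_right (show 81 ≤ L ^ 2 by nlinarith) (pow_pos L0 8).le
      linarith) hE
    refine le_of_mul_le_mul_left ?_ E0
    linarith [sq_nonneg (9 * L ^ 4 - S.F ^ 2)]

/-- **(NgX)** -/
theorem ngX_of (hT : Tg64.SzTG) (hN : NdS) : NgX := by
  refine ((hT.and Gd65.gdT).and (Nd22.nodeS.and hN)).glue fun C => ⟨2, fun A _ ε η hε hη =>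
    ⟨ε, min (ε / 400) (η / 35), 10 ^ 11 * C ^ 30, hε, by positivity,
      fun S M m a R h I ⟨⟨p2, p1⟩, p3, p4⟩ p lam H => ?_⟩⟩
  obtain rfl := R.hC
  have n1 := h.n1
  have hL := R.K_le
  have θ1 := R.θ1 h
  have hE : ((S.n : ℝ) ^ min (ε / 400) (η / 35)) ^ 400 ≤ (S.n : ℝ) ^ ε := by
    rw [Pre29.rp_pow]
    exact Pre29.rp_le n1 (by push_cast; linarith [min_le_left (ε / 400) (η / 35)])
  have hΛ : ((S.n : ℝ) ^ min (ε / 400) (η / 35)) ^ 35 ≤ (S.n : ℝ) ^ η := by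
    rw [Pre29.rp_pow]
    exact Pre29.rp_le n1 (by push_cast; linarith [min_le_right (ε / 400) (η / 35)])
  generalize (S.n : ℝ) ^ min (ε / 400) (η / 35) = L at *
  generalize (S.n : ℝ) ^ ε = E at *
  generalize (S.n : ℝ) ^ η = Λ at *
  have a2 := H.ln
  have a3 := H.lp
  have C1 := h.C1
  have C0 := h.C0
  have C9 : S.C ^ 4 ≤ S.C ^ 30 := pow_le_pow_right₀ C1 (by norm_num)
  have C4 : 1 ≤ S.C ^ 4 := one_le_pow₀ C1
  have L1 : 1 ≤ L := by linarith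
  have L0 : 0 < L := by linarith
  have l1 := H.l1
  have P : ∀ {i j : ℕ}, i ≤ j → L ^ i ≤ L ^ j := fun h => pow_le_pow_right₀ L1 h
  have Q : ∀ {i j : ℕ}, i ≤ 35 → j ≤ 30 → L ^ i * lam ^ j ≤ Λ * lam ^ 30 := fun h h' =>
    mul_le_mul ((P h).trans hΛ) (pow_le_pow_right₀ l1 h') (by positivity)
      ((pow_pos L0 _).le.trans hΛ)
  have E1 : 1 ≤ E := (one_le_pow₀ L1).trans hE
  have At' : At S M m a (2 * S.C) := ⟨h, I, by linarith [h.b1, a2.HJ], by linarith [h.sT]⟩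
  have l00 := Tg64.l0_pos h E1 a2.l0s
  have l' := Tg64.le1 E1 a2.l1
  have G00 : 0 ≤ p.G0 := le_trans (by positivity) a2.g0a
  have X20 : 0 ≤ p.X2 := le_trans (by positivity) a2.x2a
  have X30 : 0 ≤ p.X3 := le_trans (by positivity) a2.x3a
  have e1 := X3_η h a2 C0 (l'.trans C1) le_rfl G00 X20
  have η0 := X30.trans e1
  have e2 := η_C h a2 η0
  obtain ⟨t2, t3, pa⟩ := p2 _ _ _ _ _ _ _ _ _ _ _ _ _ _ _ _ _ _ _ _ _ H.ce a2 a3 H.ap
  have L2 : L ^ 2 ≤ L ^ 2 * lam := le_mul_of_one_le_right (by positivity) l1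
  have L3 : L ≤ L ^ 2 * lam := (le_self_pow₀ L1 two_ne_zero).trans L2
  have c0 : ∀ k, 0 ≤ cl S p.V (max (M.z k) p.l0) := fun k =>
    (le_max_of_le_right l00.le).trans (C61.cl_ge a2.V0 (le_max_of_le_right l00.le))
  have ni : NI (L ^ 2 * lam) S M m a p.l0 p.V p.X2 p.G0 (L * (p.X3 + p.η 1)) :=
    ⟨L1.trans L3, fun k hk => (H.cru k hk).trans (mul_le_mul_of_nonneg_right
      (le_mul_of_one_le_left (by linarith) (one_le_pow₀ L1)) (c0 k)), t2.trans (by gcongr), t3,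
      pa.trans (by gcongr)⟩
  have W3 : L * (p.X3 + p.η 1) ≤ L ^ 2 * lam * p.η S.C := by
    have := mul_le_mul_of_nonneg_right (show 16 * S.C ^ 4 + 1 ≤ L by linarith) η0
    refine le_trans ?_ (mul_le_mul_of_nonneg_right L2 η0)
    rw [sq, mul_assoc]
    exact mul_le_mul_of_nonneg_left (by linarith) L0.le
  have LE : (L ^ 2 * lam) ^ 100 ≤ E := by
    have b1 := (pow_le_pow_right₀ l1 (show 200 ≤ 1000 by norm_num)).trans H.lE
    rw [show 200 = 100 * 2 by norm_num, pow_mul] at b1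
    rw [show 400 = 2 * 100 * 2 by norm_num, pow_mul, pow_mul] at hE
    rw [mul_pow]
    generalize (L ^ 2) ^ 100 = x at *
    generalize lam ^ 100 = y at *
    linarith [sq_nonneg (x - y)]
  have O := p3 _ _ _ _ _ _ _ _ _ _ _ _ H.ce a2 a3.rev H.ap.all
    ((pow_le_pow_right₀ (L1.trans L3) (by norm_num)).trans LE) ni
  obtain ⟨τ0, hτ⟩ := tau_x9 (T := 2 * S.C) h H θ1 hL ((P (by norm_num)).trans hE) fun k b1 b2 =>
    ((p1 _ _ _ _ _ _ _ _ At' le_rfl a2.l0s (a2.l0l.trans l') a2.X0 a2.X1 a3.γ0 a3.γ1 H.ap).1 k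
      (by omega) b2).2.2
  obtain ⟨Gn, V0, B⟩ := p4 _ _ _ _ _ _ _ _ _ _ _ _ _ _ _ H.ce a2 a3.rev H.ap.all H.Vl LE ni W3 At'
    le_rfl hτ
  exact ⟨Gn, V0, NG_tau B At' (one_le_pow₀ L1) (by positivity)
    (le_trans (le_of_eq (by ring)) (Q (i := 35) (j := 16) le_rfl (by norm_num)))
    (lt_max_of_lt_right (by linarith)) (lt_of_lt_of_le (by have := h.F1; positivity) a2.Lg0) τ0 X20
    fun k hk => η0.trans (a2.ηa (h.s_le_C (hk.le.trans h.i3))),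
    O.n2.trans (mul_le_mul_of_nonneg_right
      (le_trans (le_of_eq (by ring)) (Q (i := 7) (j := 3) (by norm_num) (by norm_num))) X20),
    fun k hk => (O.cru k hk).trans (mul_le_mul_of_nonneg_right
      (le_trans (le_of_eq (by ring)) (Q (i := 3) (j := 1) (by norm_num) (by norm_num))) (c0 k))⟩

end Crest.Agent.T156.Alt.Sz9

end
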