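import Crest.Agent.T156.SzTD_98
import Crest.Agent.T156.QPl_57
import Crest.Agent.T156.QCl_33

/-!
# Row 156, block (L): geometry of the shells and a priori rise (helper98)
-/

set_option autoImplicit false
set_option linter.unusedSectionVars false
set_option linter.unusedVariables false
set_option maxHeartbeats 400000

noncomputable section

namespace Crest.Agent.T156.Alt.SzT98

open Real Finset
open Crest.Agent.T156.Alt.L69 Crest.Agent.T156.Alt.Pl57 Crest.Agent.T156.Alt.Md67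

variable {S : Sc} {M : Md}

theorem ds_eq (k : ℕ) : ds M S k = uu S M (M.z (k - 1)) := rfl
theorem ds_le_dl (k : ℕ) : ds M S k ≤ dl M S k := min_le_left _ _
theorem ds_le_du (k : ℕ) : ds M S k ≤ du M k := min_le_right _ _

section geo
variable (h : Cl S M) (u0 : 0 < S.u0)
include h u0

theorem ds_pos {k : ℕ} (k1 : S.J ≤ k) (k2 : k < S.Jp) : 0 < ds M S k := uu_pos h u0 k1 k2

theorem ls_pos' {k : ℕ} (k1 : S.J ≤ k) (k2 : k < S.Jp) : 0 < ls M S k := ls_pos h u0 k1 k2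

theorem du_anti {i k : ℕ} (hik : i ≤ k) : du M k ≤ du M i :=
  sub_le_sub_left (h.leg.zm (by omega)) 1

theorem quarter {k n : ℕ} (hn : n * S.v ≤ ls M S k / (4 * S.C ^ 2)) :
    n * (S.C ^ 2 * S.v / S.den (M.z (k - 1))) ≤ ds M S k / 4 := by
  have d0 := h.den0 (M.z (k - 1))
  have C0 := h.C0
  rw [le_div_iff₀ (by positivity), ls] at hn
  rw [← mul_div_assoc, div_le_div_iff₀ d0 (by norm_num)]
  linarith

/-- the upper quarter of the shell -/
theorem sh_up {k : ℕ} (k1 : S.J ≤ k) (k2 : k < S.Jp) (hu : 3 * S.ue ≤ 2 * du M k) :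
    ∀ n : ℕ, n * S.v ≤ ls M S k / (4 * S.C ^ 2) → k + n < S.Jp ∧
      M.z (k + n - 1) - M.z (k - 1) ≤ n * (S.C ^ 2 * S.v / S.den (M.z (k - 1)))
  | 0, _ => ⟨k2, by simp⟩
  | n + 1, hn => by
    have v0 := h.v0
    have d0 := h.den0 (M.z (k - 1))
    have j1 : 1 ≤ S.J := by have := h.i2; omega
    have hn' : n * S.v ≤ ls M S k / (4 * S.C ^ 2) := le_trans (by push_cast; nlinarith) hn
    obtain ⟨a, b⟩ := sh_up k1 k2 hu n hn'
    have q1 := quarter h u0 hn'
    have q2 := quarter h u0 hn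
    have p := ds_pos h u0 k1 k2
    have m1 : M.z (k - 1) ≤ M.z (k + n - 1) := h.leg.zm (by omega)
    have s := (step h (x_ge h k1) (x_lt h k1 k2) (y := k + n) (by omega) a
      (by rw [← ds_eq, abs_of_nonneg (by linarith)]; linarith)).2
    have e : M.z (k + n) - M.z (k - 1) ≤
        ((n + 1 : ℕ) : ℝ) * (S.C ^ 2 * S.v / S.den (M.z (k - 1))) := by
      have : M.z (k + n) - M.z (k + n - 1) ≤ S.C ^ 2 * S.v / S.den (M.z (k - 1)) := by
        rw [le_div_iff₀ d0]; linarith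
      push_cast; linarith
    refine ⟨?_, by rwa [show k + (n + 1) - 1 = k + n by omega]⟩
    by_contra hc
    have l := h.last
    rw [show S.Jp - 1 = k + n by omega] at l
    have := ds_le_du (M := M) (S := S) k
    unfold du at *
    linarith

/-- the lower quarter of the shell -/
theorem sh_dn {k : ℕ} (k1 : S.J ≤ k) (k2 : k < S.Jp)
    (fine : ∀ y, S.J ≤ y → y ≤ k → 8 * S.C * S.v ≤ ls M S y) :
    ∀ n : ℕ, S.J + n ≤ k → n * S.v ≤ ls M S k / (4 * S.C ^ 2) →
      M.z (k - 1) - M.z (k - n - 1) ≤ n * (S.C ^ 2 * S.v / S.den (M.z (k - 1)))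
  | 0, _, _ => by simp
  | n + 1, hk, hn => by
    have v0 := h.v0
    have d0 := h.den0 (M.z (k - 1))
    have j1 : 1 ≤ S.J := by have := h.i2; omega
    have hn' : n * S.v ≤ ls M S k / (4 * S.C ^ 2) := le_trans (by push_cast; nlinarith) hn
    have b := sh_dn k1 k2 fine n (by omega) hn'
    have q1 := quarter h u0 hn'
    have p := ds_pos h u0 k1 k2
    set y := k - (n + 1) with hy
    rw [show k - n - 1 = y by omega] at b
    have m1 : M.z (y - 1) ≤ M.z y := h.leg.zm (by omega)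
    have m2 : M.z y ≤ M.z (k - 1) := h.leg.zm (by omega)
    have f := fine y (by omega) (by omega)
    have d1 := h.den0 (M.z (y - 1))
    have p1 := (h.plat y (by omega) (by omega)).2
    have e1 : 8 * (M.z y - M.z (y - 1)) ≤ ds M S y :=
      le_of_mul_le_mul_left (a := S.den (M.z (y - 1))) (by rw [ls] at f; linarith) d1
    have e2 := uu_lip (S := S) (M := M) (M.z (y - 1)) (M.z (k - 1))
    rw [← ds_eq, ← ds_eq, abs_of_nonpos (by linarith)] at e2
    have s := (step h (x_ge h k1) (x_lt h k1 k2) (y := y) (by omega) (by omega)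
      (by rw [← ds_eq, abs_of_nonpos (by linarith)]; linarith)).2
    have : M.z y - M.z (y - 1) ≤ S.C ^ 2 * S.v / S.den (M.z (k - 1)) := by
      rw [le_div_iff₀ d0]; linarith
    push_cast; linarith

/-- facts on a node `i` of the shell of `k` -/
structure Sh (S : Sc) (M : Md) (k i : ℕ) : Prop where
  lt : i < S.Jp
  z : |M.z (i - 1) - M.z (k - 1)| ≤ ds M S k / 4
  dz1 : S.v ≤ S.C ^ 2 * S.den (M.z (k - 1)) * (M.z i - M.z (i - 1))
  dz2 : S.den (M.z (k - 1)) * (M.z i - M.z (i - 1)) ≤ S.C ^ 2 * S.v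
  den1 : S.den (M.z (k - 1)) ≤ S.C * S.den (M.z (i - 1))
  den2 : S.den (M.z (i - 1)) ≤ S.C * S.den (M.z (k - 1))
  ds1 : 3 * ds M S k ≤ 4 * ds M S i
  ds2 : 4 * ds M S i ≤ 5 * ds M S k
  du1 : 3 * du M k ≤ 4 * du M i
  dl1 : 3 * dl M S k ≤ 4 * dl M S i
  ls1 : ls M S k ≤ 2 * S.C * ls M S i
  ls2 : ls M S i ≤ 2 * S.C * ls M S k

theorem sh_of {k i : ℕ} (k1 : S.J ≤ k) (k2 : k < S.Jp) (i1 : S.J ≤ i) (i2 : i < S.Jp)
    (z : |M.z (i - 1) - M.z (k - 1)| ≤ ds M S k / 4) : Sh S M k i := by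
  have p := ds_pos h u0 k1 k2
  have p' := ds_pos h u0 i1 i2
  have z' : |M.z (i - 1) - M.z (k - 1)| ≤ uu S M (M.z (k - 1)) / 2 := by rw [← ds_eq]; linarith
  obtain ⟨a1, a2⟩ := step h (x_ge h k1) (x_lt h k1 k2) i1 i2 z'
  obtain ⟨b1, b2⟩ := cmp h (x_ge h k1) (x_lt h k1 k2) (x_ge h i1) z'
  have e1 := uu_lip (S := S) (M := M) (M.z (i - 1)) (M.z (k - 1))
  have e2 := uu_lip (S := S) (M := M) (M.z (k - 1)) (M.z (i - 1))
  rw [← ds_eq, ← ds_eq] at e1 e2
  rw [abs_sub_comm] at e2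
  obtain ⟨z1, z2⟩ := abs_le.1 z
  have c1 := ds_le_dl (M := M) (S := S) k
  have c2 := ds_le_du (M := M) (S := S) k
  have d1 := h.den0 (M.z (k - 1))
  have d2 := h.den0 (M.z (i - 1))
  have C0 := h.C0
  refine ⟨i2, z, a1, a2, b1, b2, by linarith, by linarith, by unfold du at *; linarith,
    by unfold dl at *; linarith, ?_, ?_⟩
  · calc _ ≤ S.C * S.den (M.z (i - 1)) * (2 * ds M S i) := by rw [ls]; gcongr; linarith
      _ = _ := by rw [ls]; ring
  · calc _ ≤ S.C * S.den (M.z (k - 1)) * (2 * ds M S k) := by rw [ls]; gcongr; linarith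
      _ = _ := by rw [ls]; ring

theorem sh_up' {k i : ℕ} (k1 : S.J ≤ k) (k2 : k < S.Jp) (hu : 3 * S.ue ≤ 2 * du M k) (hi : k ≤ i)
    (hd : ((i : ℝ) - k) * S.v ≤ ls M S k / (4 * S.C ^ 2)) : Sh S M k i := by
  obtain ⟨n, rfl⟩ := Nat.exists_eq_add_of_le hi
  rw [Nat.cast_add, add_sub_cancel_left] at hd
  obtain ⟨a, b⟩ := sh_up h u0 k1 k2 hu n hd
  have m1 : M.z (k - 1) ≤ M.z (k + n - 1) := h.leg.zm (by omega)
  exact sh_of h u0 k1 k2 (by omega) a
    (by rw [abs_of_nonneg (by linarith)]; exact b.trans (quarter h u0 hd))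

/-- **the shell** -/
theorem sh {k i : ℕ} (k1 : S.J ≤ k) (k2 : k < S.Jp) (hu : 3 * S.ue ≤ 2 * du M k)
    (fine : ∀ y, S.J ≤ y → y ≤ k → 8 * S.C * S.v ≤ ls M S y) (i1 : S.J ≤ i)
    (hd : |(i : ℝ) - k| * S.v ≤ ls M S k / (4 * S.C ^ 2)) : Sh S M k i := by
  have v0 := h.v0
  rcases le_total k i with hi | hi
  · exact sh_up' h u0 k1 k2 hu hi (le_trans (by gcongr; exact le_abs_self _) hd)
  · obtain ⟨n, rfl⟩ := Nat.exists_eq_add_of_le hi
    rw [Nat.cast_add, sub_add_cancel_left, abs_neg, Nat.abs_cast] at hd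
    have b := sh_dn h u0 k1 k2 fine n (by omega) hd
    rw [show i + n - n - 1 = i - 1 by omega] at b
    have m1 : M.z (i - 1) ≤ M.z (i + n - 1) := h.leg.zm (by omega)
    exact sh_of h u0 k1 k2 i1 (by omega)
      (by rw [abs_of_nonpos (by linarith)]; linarith [quarter h u0 hd])

/-- a lower shell is not longer than the distance -/
theorem ls_lo {i k : ℕ} (i1 : S.J ≤ i) (hik : i ≤ k) (k2 : k < S.Jp) (hu : 3 * S.ue ≤ 2 * du M k) :
    ls M S i ≤ 2 * S.C * ls M S k + 4 * S.C ^ 2 * (((k : ℝ) - i) * S.v) := by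
  have C0 := h.C0
  have v0 := h.v0
  have p := ls_pos' h u0 (i1.trans hik) k2
  have d0 : 0 ≤ ((k : ℝ) - i) * S.v := mul_nonneg (sub_nonneg.2 (by exact_mod_cast hik)) v0.le
  rcases le_total (((k : ℝ) - i) * S.v) (ls M S i / (4 * S.C ^ 2)) with e | e
  · have := (sh_up' h u0 i1 (by omega) (by linarith [du_anti h u0 hik]) hik e).ls1
    nlinarith [mul_nonneg (sq_nonneg S.C) d0]
  · rw [div_le_iff₀ (by positivity)] at e
    nlinarith [mul_pos C0 p]

end geo

section loc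
variable {m : ℕ} {a Y γ : ℝ} (h : Cl S M) (hm : 0 < m) (hθ : S.C * S.θ ≤ 1 / 2)
  (hY : M.En S m a M.q 2 (M.s S.J / 2) S.C ≤ Y) (hγ : M.s S.Jp - M.s S.J ≤ γ)
include h hm hθ hY hγ

theorem mem_top {y : ℕ} (h0 : S.j0 < y) (h1 : y ≤ S.Jp) (h2 : M.s S.J / 2 ≤ M.s y) :
    y ∈ M.blk S (M.s S.J / 2) S.C :=
  mem_filter.2 ⟨mem_Ioc.2 ⟨h0, h1⟩, h2, h.s_le_C h1⟩

theorem mem_pl {y : ℕ} (h0 : S.J ≤ y) (h1 : y ≤ S.Jp) : y ∈ M.blk S (M.s S.J / 2) S.C :=
  mem_top h hm hθ hY hγ (h.j0_lt.trans_le h0) h1 (by linarith [h.sm h0, h.s_nn S.J])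

theorem q_pl {i k : ℕ} (i1 : S.J ≤ i) (hik : i ≤ k) (k2 : k ≤ S.Jp) : M.q k - M.q i ≤ γ := by
  linarith [(h.q_tel hθ hik k2).2, h.sm i1, h.sm k2]

theorem γ_nn : 0 ≤ γ := by linarith [h.sm h.i3]

theorem Y_nn : 0 ≤ Y := le_trans (sum_nonneg fun k hk => mul_nonneg
  (sub_nonneg.2 (h.leg.zm (Nat.sub_le _ _))) (by positivity)) hY

theorem del_up {k : ℕ} (k1 : S.J ≤ k) (k2 : k ≤ S.Jp) (hu : 0 < du M k) :
    M.del m a k ≤ γ + 2 * √(Y / du M k) := by
  have j1 : 1 ≤ S.J := by have := h.i2; omega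
  have Y0 := Y_nn h hm hθ hY hγ
  have key := persist h.leg.zm (f := fun y => M.rb m a y - M.q y) (a := k - 1) (b := S.Jp)
    (F := M.del m a k - γ) (by omega) (fun y hy => mem_pl h hm hθ hY hγ
      (by have := mem_Ioc.1 hy; omega) (mem_Ioc.1 hy).2) two_ne_zero hY hu
    (by rw [h.top _ le_rfl]; unfold du at *; linarith) (sqrt_nonneg (Y / du M k))
    (by rw [sq_sqrt (by positivity), div_mul_cancel₀ _ hu.ne']) fun y a1 a2 => by
      have := q_pl h hm hθ hY hγ k1 (show k ≤ y by omega) a2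
      have := rb_mono (M := M) (a := a) hm (show k ≤ y by omega)
      exact le_trans (by unfold Md.del; linarith) (le_abs_self _)
  linarith

theorem del_lo {k : ℕ} (k1 : S.J ≤ k) (k2 : k ≤ S.Jp) (hu : 0 < dl M S k - S.u0) :
    -M.del m a k ≤ γ + 2 * √(Y / (dl M S k - S.u0)) := by
  have j1 : 1 ≤ S.J := by have := h.i2; omega
  have Y0 := Y_nn h hm hθ hY hγ
  have key := persist h.leg.zm (f := fun y => M.rb m a y - M.q y) (a := S.J - 1) (b := k)
    (F := -M.del m a k - γ) (by omega) (fun y hy => mem_pl h hm hθ hY hγ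
      (by have := mem_Ioc.1 hy; omega) ((mem_Ioc.1 hy).2.trans k2)) two_ne_zero hY hu
    (by have := h.leg.zm (Nat.sub_le k 1); unfold dl at *; linarith)
    (sqrt_nonneg (Y / (dl M S k - S.u0)))
    (by rw [sq_sqrt (by positivity), div_mul_cancel₀ _ hu.ne']) fun y a1 a2 => by
      have := q_pl h hm hθ hY hγ (show S.J ≤ y by omega) a2 k2
      have := rb_mono (M := M) (a := a) hm a2
      exact le_trans (by unfold Md.del; linarith) (neg_le_abs _)
  linarith

/-- one-sided location in the top window and on the plateau -/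
theorem del_r {k : ℕ} {r : ℝ} (k1 : 3 / 4 * M.s S.J ≤ M.s k) (k2 : k ≤ S.Jp) (hr : Y ≤ r ^ 3)
    (hv : S.v ≤ r) (r1 : 12 * S.C * r ≤ M.s S.J) (hj : M.s S.jl < M.s S.J / 2) :
    -M.del m a k ≤ γ + 5 * S.C * r := by
  have j1 : 1 ≤ S.J := by have := h.i2; omega
  have v0 := h.v0
  have C1 := h.C1
  have γ0 := γ_nn h hm hθ hY hγ
  have r0 : 0 < r := v0.trans_le hv
  set b := min k (S.J - 1) with hb
  set n := ⌈r / S.v⌉₊ with hn
  have n1 : r ≤ n * S.v := by have := Nat.le_ceil (r / S.v); rwa [div_le_iff₀ v0] at this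
  have n2 : n * S.v ≤ 2 * r := by
    have := (Nat.ceil_lt_add_one (show 0 ≤ r / S.v by positivity)).le
    have e := mul_le_mul_of_nonneg_right this v0.le
    rw [add_mul, div_mul_cancel₀ _ v0.ne'] at e
    linarith
  have s1 : M.s k - M.s b ≤ γ + S.C * S.v ∧ 3 / 4 * M.s S.J - S.C * S.v ≤ M.s b := by
    rcases le_or_gt k (S.J - 1) with e | e
    · rw [hb, min_eq_left e]; constructor <;> nlinarith
    · rw [hb, min_eq_right e.le]
      have e1 := (h.ss (S.J - 1) (by omega)).2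
      rw [show S.J - 1 + 1 = S.J by omega] at e1
      constructor <;> linarith [h.sm k2, h.s_nn S.J]
  have cv : S.C * S.v ≤ S.C * r := by gcongr
  have cn : S.C * (n * S.v) ≤ S.C * (2 * r) := by gcongr
  have nb : n ≤ b := by
    have e := (h.s_bds (k := b) (by omega)).2
    have : (n : ℝ) * (S.C * S.v) ≤ b * (S.C * S.v) := by nlinarith [s1.2, mul_pos (h.C0) r0]
    exact_mod_cast le_of_mul_le_mul_right this (by positivity)
  have s2 : ∀ y, b - n ≤ y → y ≤ b → M.s b - M.s y ≤ 2 * S.C * r := fun y a1 a2 => by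
    have e := (h.s_tel a2 (by omega)).2
    have : (b : ℝ) - y ≤ n := by
      have : (b : ℝ) ≤ y + n := by exact_mod_cast (by omega : b ≤ y + n)
      linarith
    nlinarith [mul_le_mul_of_nonneg_right this (show 0 ≤ S.C * S.v by positivity)]
  have s3 : ∀ y, b - n ≤ y → y ≤ b → M.s S.J / 2 ≤ M.s y := fun y a1 a2 => by
    linarith [s2 y a1 a2, s1.2]
  have jb : S.jl < b - n := by
    by_contra hc
    linarith [s3 (b - n) le_rfl (by omega), h.sm (not_lt.1 hc)]
  have i1 := h.i1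
  have z := (h.z_tel (i := b - n) (j := b) (by omega) (by omega) (by omega)).1
  rw [Nat.cast_sub nb, sub_sub_cancel] at z
  have key := persist h.leg.zm (f := fun y => M.rb m a y - M.q y) (a := b - n) (b := b)
    (F := -M.del m a k - γ - 3 * S.C * r) (W := r / S.C) (l := S.C * r) (by omega)
    (fun y hy => mem_top h hm hθ hY hγ (by have := mem_Ioc.1 hy; omega)
      (by have := mem_Ioc.1 hy; omega) (s3 y (mem_Ioc.1 hy).1.le (mem_Ioc.1 hy).2))
    two_ne_zero hY (by positivity) (by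
      have : r / S.C ≤ n * (S.v / S.C) := by rw [← mul_div_assoc]; gcongr
      have : 0 < r / S.C := by positivity
      linarith) (by positivity)
    (hr.trans (by
      rw [show (S.C * r) ^ 2 * (r / S.C) = S.C * r ^ 3 by field_simp]
      exact le_mul_of_one_le_left (by positivity) C1)) fun y a1 a2 => by
      have e1 := (h.q_tel hθ (show y ≤ k by omega) k2).2
      have := rb_mono (M := M) (a := a) hm (show y ≤ k by omega)
      have := s2 y a1.le a2
      exact le_trans (by unfold Md.del; linarith [s1.1]) (neg_le_abs _)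
  linarith

end loc

end Crest.Agent.T156.Alt.SzT98

end
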