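import Crest.Agent.T156.PgX_33
import Crest.Agent.T156.SzGeo_98

/-!
# Row 156, block (L): good nodes in every shell of the plateau (helper33)
-/

set_option autoImplicit false
set_option linter.unusedSectionVars false

noncomputable section

namespace Crest.Agent.T156.Alt.Nd33

open Real Finset Filter
open Crest.Agent.T156.Alt.Md67 Crest.Agent.T156.Alt.L69 Crest.Agent.T156.Alt.E61

variable {S : Sc} {M : Md} {m : ℕ} {a Xp γ V : ℝ}

/-- the unit of the slope -/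
def sl (M : Md) (S : Sc) (Xp V γ : ℝ) (k : ℕ) : ℝ :=
  1 + (Rp M S Xp V γ k + Xp ^ ((1 : ℝ) / 3)) / lsh M S k

/-- **a good node in the shell of `k`** from any pointwise size `f` -/
theorem RH.pg (H : RH S M m a Xp γ) {k : ℕ} (h0 : S.J ≤ k) (hu : 2 * S.ue < du M k) (V0 : 0 ≤ V)
    (hV : ∀ b, S.J ≤ b → b ≤ S.Jp → du M k / 2 ≤ du M b → M.del m a b ≤ V)
    (fine : 16 * S.C ^ 2 * S.v ≤ lsh M S k) {L : ℝ} (hL : 500 * S.C ^ 5 ≤ L) {f : ℕ → ℝ}
    (hn : ∀ i, S.J ≤ i → i < S.Jp → 7 / 8 * du M k ≤ du M i → 1 ≤ S.n * lsh M S i)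
    (leaf : ∀ i, S.J ≤ i → i < S.Jp → 7 / 8 * du M k ≤ du M i →
      (∀ y : ℕ, y < S.Jp → |(y : ℝ) - i| * S.v ≤ lsh M S i / (4 * S.C ^ 2) →
        |M.rb m a y - M.rb m a i| ≤ L * sl M S Xp V γ i * (|(y : ℝ) - i| * S.v)) →
      u4 M m a i ≤ f i) :
    ∃ i, k < i ∧ i + 1 < S.Jp ∧ M.z (i - 1) ≤ M.z (k - 1) + ds M S k / 8 ∧
      M.z i ≤ M.z (k - 1) + ds M S k / 4 ∧ PG S M m a i (L * sl M S Xp V γ i) (f i) := by
  have h := H.cl
  have C0 := h.C0
  have C1 := h.C1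
  have v0 := h.v0
  have γ0 := H.γ_nn
  have p0 : 0 < Xp ^ ((1 : ℝ) / 3) := rpow_pos_of_pos H.X0 _
  obtain ⟨i, i1, i2, i3, i4, cn⟩ := H.cone_ex h0 hu V0 hV fine le_rfl
  have zz := h.leg.zm (show k - 1 ≤ i - 1 by omega)
  have D0 := SzT98.ds_pos h H.u0 h0 (by omega)
  have sd : ds M S k ≤ du M k := min_le_right _ _
  have sh := SzT98.sh_of h H.u0 h0 (by omega) (i := i) (by omega) (by omega)
    (by rw [abs_of_nonneg (by linarith)]; linarith)
  have d1 : 7 / 8 * du M k ≤ du M i := by unfold du at sd ⊢; linarith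
  have d2 : du M i ≤ du M k := by unfold du; linarith
  have lk : 0 < lsh M S k := SzT98.ls_pos' h H.u0 h0 (by omega)
  have li : 0 < lsh M S i := SzT98.ls_pos' h H.u0 (by omega) (by omega)
  have m0 : 0 ≤ min V (√(Xp / du M i)) := le_min V0 (sqrt_nonneg _)
  have r1 : Rp M S Xp V γ k + Xp ^ ((1 : ℝ) / 3) ≤ 2 * (Rp M S Xp V γ i + Xp ^ ((1 : ℝ) / 3)) := by
    have a1 : √(Xp / max (dl M S k - S.u0) (Xp ^ ((1 : ℝ) / 3))) ≤ Xp ^ ((1 : ℝ) / 3) := by
      refine sqrt_le_iff.2 ⟨p0.le, ?_⟩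
      rw [div_le_iff₀ (p0.trans_le (le_max_right _ _))]
      refine le_trans (le_of_eq ?_) (mul_le_mul_of_nonneg_left (le_max_right _ _) (sq_nonneg _))
      rw [← pow_succ, ← rpow_natCast, ← rpow_mul H.X0.le]; norm_num
    have a2 : min V (√(Xp / du M k)) ≤ min V (√(Xp / du M i)) := min_le_min_left _
      (sqrt_le_sqrt (div_le_div_of_nonneg_left H.X0.le (by linarith) d2))
    unfold Rp
    linarith [sqrt_nonneg (Xp / max (dl M S i - S.u0) (Xp ^ ((1 : ℝ) / 3)))]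
  have R0 : 0 ≤ Rp M S Xp V γ i + Xp ^ ((1 : ℝ) / 3) := by unfold Rp; positivity
  have r2 : (Rp M S Xp V γ k + Xp ^ ((1 : ℝ) / 3)) / lsh M S k ≤
      4 * S.C * ((Rp M S Xp V γ i + Xp ^ ((1 : ℝ) / 3)) / lsh M S i) := by
    rw [mul_div_assoc', div_le_div_iff₀ lk li]
    linarith [mul_le_mul r1 (show lsh M S i ≤ 2 * S.C * lsh M S k from sh.ls2) li.le (by positivity)]
  have q0 : 0 ≤ (Rp M S Xp V γ i + Xp ^ ((1 : ℝ) / 3)) / lsh M S i := by positivity
  have r3 : 125 * S.C ^ 4 * (1 + (Rp M S Xp V γ k + Xp ^ ((1 : ℝ) / 3)) / lsh M S k) ≤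
      L * sl M S Xp V γ i := by
    refine le_trans ?_ (mul_le_mul_of_nonneg_right hL (by unfold sl; positivity))
    have := mul_le_mul_of_nonneg_left r2 (show 0 ≤ 125 * S.C ^ 4 by positivity)
    have := pow_le_pow_right₀ C1 (show 4 ≤ 5 by norm_num)
    have := pow_pos C0 5
    unfold sl
    linarith
  have cn' : ∀ y : ℕ, y < S.Jp → M.z (y - 1) ≤ M.z (k - 1) + ds M S k / 2 →
      |M.rb m a y - M.rb m a i| ≤ L * sl M S Xp V γ i * |(y : ℝ) - i| * S.v := fun y y1 y2 =>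
    (cn y y1 y2).trans (by gcongr)
  refine ⟨i, i1, i2, i3, i4, by omega, by omega, (hn i (by omega) (by omega) d1).trans ?_,
    fun y _ y2 => cn' y (by omega) ?_, leaf i (by omega) (by omega) d1 fun y y1 y2 => ?_⟩
  · refine mul_le_mul_of_nonneg_left (mul_le_of_le_one_right (h.den0 _).le
      ((min_le_right _ _).trans ?_)) (Nat.cast_nonneg _)
    unfold du
    linarith [h.z_pos (i - 1)]
  · linarith [h.leg.zm (show y - 1 ≤ i by omega)]
  · rw [← mul_assoc]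
    refine cn' y y1 ?_
    rcases le_total y i with e | e
    · linarith [h.leg.zm (show y - 1 ≤ i - 1 by omega)]
    · have := (abs_le.1 (SzT98.sh_up' h H.u0 (k := i) (by omega) (by omega)
        (by linarith [h.last, h.leg.z1 (S.Jp - 1)]) e
        ((mul_le_mul_of_nonneg_right (le_abs_self _) v0.le).trans y2)).z).2
      linarith [sh.ds2]

/-- the pointwise size without slack -/
def SzQ0 : Prop := CL fun E Λ S M m a => ∀ l0 X Xp Vt γ u1 j Lp, SzT98.Far E S M Xp Vt γ u1 Lp →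
  Ap S M m a l0 X Xp Vt u1 j → ∀ k L, S.J ≤ k → k < S.Jp → 2 * u1 ≤ du M k → Lp ≤ L →
    (∀ y : ℕ, y < S.Jp → |(y : ℝ) - k| * S.v ≤ lsh M S k / (4 * S.C ^ 2) →
      |M.rb m a y - M.rb m a k| ≤ L * sl M S Xp Vt γ k * (|(y : ℝ) - k| * S.v)) →
    u4 M m a k ≤ Λ * (L ^ ((2 : ℝ) / 3) * ap M S Xp Vt γ k)

/-- **(PgS)** a good node in every shell -/
def PgS : Prop := CL fun E Λ S M m a => ∀ l0 X Xp Vt γ u1 j Lp,
  SzT98.Far E S M Xp Vt γ u1 Lp → Ap S M m a l0 X Xp Vt u1 j → RH S M m a Xp γ ∧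
  ∀ k, S.J ≤ k → k ≤ S.Jp → 3 * u1 ≤ du M k →
    ∃ i, k < i ∧ i + 1 < S.Jp ∧ M.z (i - 1) ≤ M.z (k - 1) + ds M S k / 8 ∧
      M.z i ≤ M.z (k - 1) + ds M S k / 4 ∧ PG S M m a i (Λ * Lp * sl M S Xp Vt γ i)
        (Λ * (Lp ^ ((2 : ℝ) / 3) * ap M S Xp Vt γ i))

theorem PG.mono {j : ℕ} {κ κ' up up' : ℝ} (P : PG S M m a j κ up) (v0 : 0 ≤ S.v) (h1 : κ ≤ κ')
    (h2 : up ≤ up') : PG S M m a j κ' up' :=
  ⟨P.lo, P.hi, P.den, fun i a b => (P.cone i a b).trans (by gcongr), P.u.trans h2⟩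

theorem pgS_of (hQ : SzQ0) : PgS := by
  intro C
  filter_upwards [hQ C, eventually_ge_atTop 3] with A H hA ε hε η hη
  filter_upwards [H ε hε _ (half_pos hη), E49.ev_big C 0 hA hη, Pre29.ev_K ((48 * C ^ 4) ^ 3) hε,
    Pre29.ev_K (500 * C ^ 5) (half_pos hη),
    tendsto_natCast_atTop_atTop.eventually_ge_atTop (2600 * C ^ 4)]
    with n H B e1 e2 e3 S M b1 b2 b3 h m a I l0 X Xp Vt γ u1 j Lp F P
  obtain ⟨K, -, B⟩ := B
  replace B := B S M b1 b2 b3 h m a I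
  replace H := H S M b1 b2 b3 h m a I l0 X Xp Vt γ u1 j Lp F P
  subst b1 b3
  have C0 := h.C0
  have C1 := h.C1
  have v0 := h.v0
  have n1 := B.n1
  have X0 := F.Xp0.1
  have c24 : S.C ^ 2 ≤ S.C ^ 4 := pow_le_pow_right₀ C1 (by norm_num)
  have c1 : 1 ≤ S.C ^ 4 := one_le_pow₀ C1
  obtain ⟨-, -, m3⟩ := mesh B (by linarith)
  have hv : 2600 * S.C ^ 4 * (S.n * S.v) ≤ 1 := by
    rw [le_div_iff₀ (by positivity)] at m3
    have a1 := mul_le_mul_of_nonneg_right e3 (show 0 ≤ S.n * S.v by positivity)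
    have a2 := mul_le_mul_of_nonneg_right C1 (show 0 ≤ S.n * (S.n * S.v) by positivity)
    linarith
  have nv : S.v ≤ S.n * S.v := le_mul_of_one_le_left v0.le n1
  have R : RH S M m a Xp γ := by
    refine ⟨h, B.toFn.lg.m0, F.u0, X0, ?_, ?_, ?_, P.top, F.γ0⟩
    · refine le_of_pow_le_pow_left₀ three_ne_zero zero_le_one ?_
      rw [mul_pow, ← rpow_natCast (Xp ^ _), ← rpow_mul X0.le]
      norm_num
      linarith [F.Xp0.2, mul_le_mul_of_nonneg_right e1 X0.le]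
    · nlinarith [mul_le_mul_of_nonneg_left nv (show 0 ≤ 48 * S.C ^ 4 by positivity),
        mul_pos (pow_pos C0 4) (v0.trans_le nv)]
    · have a1 := mul_le_mul_of_nonneg_right e1 (h.s_nn S.jl)
      have a2 := Ab33.sJ_ge h
      have a3 : 48 * S.C ^ 3 ≤ (48 * S.C ^ 4) ^ 3 := le_trans
        (by linarith [pow_le_pow_right₀ C1 (show 3 ≤ 4 by norm_num)])
        (le_self_pow₀ (by linarith) (by norm_num))
      have a4 := mul_le_mul_of_nonneg_right a3 (h.s_nn S.jl)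
      refine lt_of_mul_lt_mul_left ?_ (show 0 ≤ 3 * S.C ^ 3 by positivity)
      linarith [F.jl]
  refine ⟨R, fun k k1 k2 k3 => ?_⟩
  have ue0 : 0 ≤ S.ue := by linarith [h.last, h.leg.z1 (S.Jp - 1)]
  have u0 := ue0.trans F.u1a
  have jk := P.jn.fine k k1 k2 (by linarith)
  have lk : 0 < lsh M S k := (mul_pos_iff_of_pos_left (by positivity)).1 (zero_lt_one.trans_le jk)
  have dk : 0 < du M k := ((mul_pos_iff_of_pos_left (h.den0 _)).1 lk).trans_le (min_le_right _ _)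
  have L1 := F.Lp1.1
  have c5 : 1 ≤ 500 * S.C ^ 5 := by linarith [one_le_pow₀ (n := 5) C1]
  have Λ0 : (0 : ℝ) < (S.n : ℝ) ^ (η / 2) := by positivity
  have e : (S.n : ℝ) ^ η = (S.n : ℝ) ^ (η / 2) * (S.n : ℝ) ^ (η / 2) := by
    rw [← rpow_add (by positivity), add_halves]
  obtain ⟨i, i1, i2, i3, i4, G⟩ := R.pg k1 (by linarith [F.u1a]) F.Vt0
    (fun b x y z => P.vt b x y (by linarith)) (L := 500 * S.C ^ 5 * Lp)
    (f := fun i => (S.n : ℝ) ^ (η / 2) * ((500 * S.C ^ 5 * Lp) ^ ((2 : ℝ) / 3) * ap M S Xp Vt γ i))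
    (by
      refine le_of_mul_le_mul_left (le_trans ?_ jk) (show (0 : ℝ) < S.n by positivity)
      nlinarith [mul_le_mul_of_nonneg_right c24 (show 0 ≤ S.n * S.v by positivity),
        mul_pos (pow_pos C0 4) (v0.trans_le nv)])
    (le_mul_of_one_le_right (by positivity) L1)
    (fun i x y z => P.jn.fine i x y.le (by linarith)) fun i x y z c =>
      H i _ x y (by linarith) (le_mul_of_one_le_left (by linarith) c5) c
  have s0 : 0 ≤ sl M S Xp Vt γ i := by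
    have := F.Vt0
    have := R.γ_nn
    have : 0 < lsh M S i := SzT98.ls_pos' h F.u0 G.lo G.hi
    unfold sl Rp
    positivity
  have a0 : 0 ≤ ap M S Xp Vt γ i := by
    have := B.w3_pos one_pos
    have := h.den0 (M.z (i - 1))
    have : 0 < lsh M S i := SzT98.ls_pos' h F.u0 G.lo G.hi
    unfold ap
    positivity
  refine ⟨i, i1, i2, i3, i4, G.mono v0.le ?_ ?_⟩
  · have : (S.n : ℝ) ^ (η / 2) ≤ (S.n : ℝ) ^ η := rpow_le_rpow_of_exponent_le n1 (by linarith)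
    have := e2.trans this
    gcongr
  · rw [e, mul_rpow (x := 500 * S.C ^ 5) (by positivity) (by linarith), mul_assoc, mul_assoc]
    refine mul_le_mul_of_nonneg_left (mul_le_mul_of_nonneg_right (le_trans ?_ e2)
      (by positivity)) Λ0.le
    exact (rpow_le_rpow_of_exponent_le c5 (by norm_num)).trans_eq (rpow_one _)

theorem szQ0_of (hQ : SzT98.SzQ) : SzQ0 := CL.mono hQ
  fun _ _ S M m a _ Λ1 h _ H l0 X Xp Vt γ u1 j Lp F P k L k1 k2 k3 hL c => by
    have C1 := h.C1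
    have c24 : S.C ^ 2 ≤ S.C ^ 4 := pow_le_pow_right₀ C1 (by norm_num)
    have := H l0 X Xp Vt γ u1 j Lp F P k L 0 k1 k2 k3 hL le_rfl fun y _ y2 y3 => by
      rw [zero_add]
      exact c y y2 (y3.trans (div_le_div_of_nonneg_left (SzT98.ls_pos' h F.u0 k1 k2).le
        (by positivity) (by linarith [pow_pos h.C0 4])))
    have a1 := le_mul_of_one_le_left (sqrt_nonneg (S.w3 1 / lsh M S k))
      (one_le_rpow (F.Lp1.1.trans hL) (show (0 : ℝ) ≤ 2 / 3 by norm_num))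
    exact this.trans (mul_le_mul_of_nonneg_left (by linarith) (by linarith))

end Crest.Agent.T156.Alt.Nd33

end
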