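import Crest.Agent.T156.LOa_25
import Crest.Agent.T156.ClTh_9
import Crest.Agent.T156.ClMid_8

/-!
Row 156, block (L) (helper25): node sums of a member of the class on a window of sloped nodes and
on the plateau, from time integrals.
-/

set_option autoImplicit false

noncomputable section

namespace Crest.Agent.T156.Alt.Mp9

open MeasureTheory Set Real
open Crest.Agent.R164.GC Crest.Agent.R339.B Crest.Agent.R339.Var Crest.Agent.T157.Pf
open Crest.Agent.T156.Pp.Area50 Crest.Agent.T156.Spl27 Crest.Agent.T156.Zb9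
open Crest.Agent.T156.Lo25 Crest.Agent.T156.Cut8

/-- `u` with the mean profile truncated at the label of the node `k0` -/
def ut (M : Md) (S : Sc) (m : ℕ) (a T : ℝ) (k0 : ℕ) (t : ℝ) : ℝ :=
  min (lvr 1 (lb M S m a T) t) (M.z k0) - lvr 1 (lh M T) t

namespace At
variable {S : Sc} {M : Md} {m : ℕ} {a T : ℝ}

theorem LB_zb (A : At S M m a T) : LB T (lvr 1 (lb M S m a T)) :=
  .of_mono (Sc48.lvr_mono A.okb.1.1)
theorem LB_zh (A : At S M m a T) : LB T (lvr 1 (lh M T)) := .of_mono (Sc48.lvr_mono A.okh.1.1)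
theorem LB_u (A : At S M m a T) : LB T fun t => lvr 1 (lb M S m a T) t - lvr 1 (lh M T) t :=
  A.LB_zb.sub A.LB_zh
theorem LB_ut (A : At S M m a T) (k0 : ℕ) : LB T (ut M S m a T k0) :=
  (LB_min A.LB_zb (LB.const _)).sub A.LB_zh
theorem sJ_T (A : At S M m a T) : M.s S.J ≤ T := (A.cl.sm A.cl.i3).trans A.t2
theorem T_nn (A : At S M m a T) : 0 ≤ T := (s_nn A.cl _).trans A.t2
theorem LB_J2 (A : At S M m a T) :
    LB T fun t => Jf T (lvr 1 (lh M T)) (lvr 1 (lb M S m a T)) t ^ 2 :=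
  (LB.of_cont (Lab36.jf_cont A.LB_u A.T_nn)).sq

/-- label weight of sloped nodes with times in `[p, q]` -/
theorem wt_le_25 (A : At S M m a T) {U : Finset ℕ} {p q : ℝ} (hpq : p ≤ q)
    (hU : ∀ k ∈ U, S.j0 < k ∧ k < S.J ∧ p ≤ M.s k ∧ M.s k ≤ q) :
    ∑ k ∈ U, (M.z k - M.z (k - 1)) ≤ S.C ^ 2 * (q - p) + S.C * S.v := by
  have C0 := A.c_pos
  have v0 := v_pos A.cl
  rcases U.eq_empty_or_nonempty with rfl | ne
  · have : 0 ≤ q - p := by linarith
    simp only [Finset.sum_empty]; positivity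
  obtain ⟨a1, a2, a3, -⟩ := hU _ (U.min'_mem ne)
  obtain ⟨-, b2, -, b4⟩ := hU _ (U.max'_mem ne)
  have le := U.min'_le_max' ne
  have s1 : ∑ k ∈ U, (M.z k - M.z (k - 1)) ≤
      ∑ k ∈ Finset.Ioc (U.min' ne - 1) (U.max' ne), (M.z k - M.z (k - 1)) :=
    Finset.sum_le_sum_of_subset_of_nonneg (fun k hk => Finset.mem_Ioc.2
      ⟨by have := U.min'_le k hk; omega, U.le_max' k hk⟩) fun k _ _ => A.dz_nn k
  rw [sum_dz M (by omega)] at s1
  have s2 := (A.s_z a1.le le b2).1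
  have s3 := (A.cl.zs (U.min' ne - 1) (by omega) (by omega)).2
  rw [Nat.sub_add_cancel (by omega)] at s3
  rw [one_div_mul_eq_div, div_le_iff₀ (by positivity)] at s2
  have s4 := mul_le_mul_of_nonneg_right (show M.s (U.max' ne) - M.s (U.min' ne) ≤ q - p by linarith)
    (sq_nonneg S.C)
  linarith

theorem wt_one_25 (A : At S M m a T) {U : Finset ℕ} (hU : ∀ k ∈ U, 0 < k ∧ k ≤ S.Jp) :
    ∑ k ∈ U, (M.z k - M.z (k - 1)) ≤ 1 := by
  have s1 : ∑ k ∈ U, (M.z k - M.z (k - 1)) ≤ ∑ k ∈ Finset.Ioc 0 S.Jp, (M.z k - M.z (k - 1)) :=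
    Finset.sum_le_sum_of_subset_of_nonneg (fun k hk => Finset.mem_Ioc.2 (hU k hk))
      fun k _ _ => A.dz_nn k
  rw [sum_dz M (Nat.zero_le _), A.cl.top _ le_rfl] at s1
  linarith [A.cl.z_pos 0]

theorem zh_node_25 (A : At S M m a T) {k0 : ℕ} (h0 : S.j0 ≤ k0) (h1 : k0 < S.J) {t : ℝ}
    (ht : t ≤ M.s k0) : lvr 1 (lh M T) t ≤ M.z k0 := by
  rw [← A.lvh_node h0 h1]; exact Sc48.lvr_mono A.okh.1.1 ht

theorem cl_pow (A : At S M m a T) {k0 : ℕ} {a' : ℝ} (h0 : S.j0 ≤ k0) (h1 : k0 < S.J)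
    (ha : M.s S.j0 ≤ a') (hb : a' ≤ M.s k0) {U : Finset ℕ}
    (hU : ∀ k ∈ U, S.j0 < k ∧ k ≤ k0 ∧ a' ≤ M.s k) (p : ℕ) :
    ∑ k ∈ U, (M.z k - M.z (k - 1)) * |Pp.Area50.cl a' (M.s k0) (sb M m a (k + 1)) - M.s k| ^ (p + 1) ≤
      (p + 1) * (2 * S.C) ^ p * ((∫ t in a'..M.s k0, |ut M S m a T k0 t| ^ (p + 1)) +
        (S.C * S.v) ^ (p + 1) * (M.s k0 - a')) := by
  have C0 := A.c_pos
  have := en_cl A.ux A.ub A.uh (A.sl' ha (A.cl.s_lt h1 h1)) hb (by positivity)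
    (mul_pos C0 (v_pos A.cl)).le (x0 := M.z k0) (fun t ht => by
      rw [← A.lvh (ha.trans ht.1)]; exact A.zh_node_25 h0 h1 ht.2) (S := U) (fun k hk => by
      obtain ⟨p1, p2, p3⟩ := hU k hk
      exact ⟨by have := A.cl.i3; omega, by rw [A.sh_succ p1.le]; exact ⟨p3, A.cl.sm p2⟩,
        A.cl.leg.zm p2⟩) p
  refine (Finset.sum_congr rfl fun k hk => ?_).trans_le (this.trans_eq ?_)
  · have := (hU k hk).1
    obtain ⟨k, rfl⟩ : ∃ j, k = j + 1 := ⟨k - 1, by omega⟩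
    simp only [xb, sh, max_eq_left this.le, Nat.add_sub_cancel]
  · congr 1
    · rw [mul_pow, one_div, inv_pow, div_inv_eq_mul, mul_assoc]
    · congr 1
      refine intervalIntegral.integral_congr fun t ht => ?_
      rw [uIcc_of_le hb] at ht
      simp only [ut, A.lvb ((s_nn A.cl _).trans (ha.trans ht.1)), A.lvh (ha.trans ht.1)]

/-- **node sums on a window of sloped nodes**: `y` = excess of the last node, `ℓ` = level below
which the nodes are not located -/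
theorem win_pow (A : At S M m a T) {k0 : ℕ} {a' y ℓ : ℝ} (h0 : S.j0 ≤ k0) (h1 : k0 < S.J)
    (ha : M.s S.j0 ≤ a') (hb : a' ≤ M.s k0) (y0 : 0 ≤ y) (l0 : 0 ≤ ℓ)
    (hy : sb M m a (k0 + 1) ≤ M.s k0 + y) {U : Finset ℕ}
    (hU : ∀ k ∈ U, S.j0 < k ∧ k ≤ k0 ∧ a' ≤ M.s k ∧
      (a' ≤ sb M m a (k + 1) ∨ 2 * a' ≤ M.s k ∨ M.s k ≤ ℓ)) (p : ℕ) :
    ∑ k ∈ U, (M.z k - M.z (k - 1)) * |sb M m a (k + 1) - M.s k| ^ (p + 1) ≤
      2 ^ (p + 1) * ((p + 1) * (2 * S.C) ^ p *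
        ((∫ t in a'..M.s k0, |ut M S m a T k0 t| ^ (p + 1)) +
          (S.C * S.v) ^ (p + 1) * (M.s k0 - a'))) +
      (2 * y) ^ (p + 1) * (S.C ^ 2 * y + S.C * S.v) + ℓ ^ (p + 1) * (S.C ^ 2 * ℓ + S.C * S.v) := by
  classical
  have q1 := A.cl_pow h0 h1 ha hb (fun k hk => ⟨(hU k hk).1, (hU k hk).2.1, (hU k hk).2.2.1⟩) p
  have q2 := A.wt_le_25 (U := U.filter fun k => M.s k0 - y ≤ M.s k) (p := M.s k0 - y)
    (q := M.s k0) (by linarith) fun k hk => by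
      obtain ⟨k1, k2⟩ := Finset.mem_filter.1 hk
      exact ⟨(hU k k1).1, (hU k k1).2.1.trans_lt h1, k2, A.cl.sm (hU k k1).2.1⟩
  have q3 := A.wt_le_25 (U := U.filter fun k => M.s k ≤ ℓ) (p := 0) (q := ℓ) l0 fun k hk => by
      obtain ⟨k1, k2⟩ := Finset.mem_filter.1 hk
      exact ⟨(hU k k1).1, (hU k k1).2.1.trans_lt h1, s_nn A.cl k, k2⟩
  rw [sub_sub_cancel] at q2
  rw [sub_zero] at q3
  have q4 := mul_le_mul_of_nonneg_left q1 (show (0 : ℝ) ≤ 2 ^ (p + 1) by positivity)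
  have q5 := mul_le_mul_of_nonneg_left q2 (show (0 : ℝ) ≤ (2 * y) ^ (p + 1) by positivity)
  have q6 := mul_le_mul_of_nonneg_left q3 (show (0 : ℝ) ≤ ℓ ^ (p + 1) by positivity)
  refine le_trans ?_ (add_le_add (add_le_add q4 q5) q6)
  rw [Finset.sum_filter, Finset.sum_filter, Finset.mul_sum, Finset.mul_sum, Finset.mul_sum,
    ← Finset.sum_add_distrib, ← Finset.sum_add_distrib]
  refine Finset.sum_le_sum fun k hk => ?_
  obtain ⟨k1, k2, k3, k4⟩ := hU k hk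
  have w0 := A.dz_nn k
  have kp : k ≤ S.Jp := by have := A.cl.i3; omega
  set w := M.z k - M.z (k - 1)
  set d := |Pp.Area50.cl a' (M.s k0) (sb M m a (k + 1)) - M.s k|
  have d0 : 0 ≤ d := abs_nonneg _
  have n1 : 0 ≤ 2 ^ (p + 1) * (w * d ^ (p + 1)) := by positivity
  have n2 : 0 ≤ (2 * y) ^ (p + 1) * (if M.s k0 - y ≤ M.s k then w else 0) :=
    mul_nonneg (by positivity) (by split_ifs <;> positivity)
  have n3 : 0 ≤ ℓ ^ (p + 1) * (if M.s k ≤ ℓ then w else 0) :=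
    mul_nonneg (by positivity) (by split_ifs <;> positivity)
  rcases abs_le_cl (y := y) (ℓ := ℓ) ⟨k3, A.cl.sm k2⟩ (A.sb_mem kp).1
    ((A.sb_mono (Nat.succ_le_succ k2)).trans hy) k4 with z | ⟨z1, z⟩ | ⟨z1, z⟩
  · have := mul_le_mul_of_nonneg_left (pow_le_pow_left₀ (abs_nonneg _) z (p + 1)) w0
    rw [mul_pow, mul_left_comm] at this
    linarith
  · have := mul_le_mul_of_nonneg_left (pow_le_pow_left₀ (abs_nonneg _) z (p + 1)) w0
    rw [if_pos z1] at *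
    linarith
  · have := mul_le_mul_of_nonneg_left (pow_le_pow_left₀ (abs_nonneg _) z (p + 1)) w0
    rw [if_pos z1] at *
    linarith

/-- sign and size of the truncated difference -/
theorem ut_sign (A : At S M m a T) {k0 : ℕ} {t : ℝ} (h : lvr 1 (lh M T) t ≤ M.z k0) :
    ut M S m a T k0 t ≤ max (uu M S m a T t) 0 ∧ -ut M S m a T k0 t ≤ max (-uu M S m a T t) 0 ∧
      ut M S m a T k0 t ≤ M.z k0 - lvr 1 (lh M T) t ∧
      ut M S m a T k0 t ^ 2 ≤ uu M S m a T t ^ 2 ∧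
      ut M S m a T k0 t ^ 2 ≤ min (uu M S m a T t) 0 ^ 2 +
        max (uu M S m a T t) 0 * (M.z k0 - lvr 1 (lh M T) t) := by
  have _ := A.c_pos
  unfold ut uu
  generalize lvr 1 (lb M S m a T) t = x at *
  generalize lvr 1 (lh M T) t = y at *
  generalize M.z k0 = z at *
  rcases le_total x z with c | c
  · rw [min_eq_left c]
    refine ⟨le_max_left _ _, le_max_left _ _, by linarith, le_rfl, ?_⟩
    rcases le_total 0 (x - y) with d | d
    · rw [min_eq_right d, max_eq_left d]; nlinarith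
    · rw [min_eq_left d, max_eq_right d]; linarith
  · rw [min_eq_right c, max_eq_left (by linarith : 0 ≤ x - y), min_eq_right (by linarith : 0 ≤ x - y)]
    exact ⟨by linarith, le_trans (by linarith) (le_max_right _ _), le_rfl, by nlinarith,
      by nlinarith⟩

/-- **the quartic integral from the energy on `[a0, B0]`** -/
theorem ut_four (A : At S M m a T) {k0 : ℕ} {a0 a' B0 : ℝ} (h0 : S.j0 ≤ k0) (h1 : k0 < S.J)
    (p0 : 0 ≤ a0) (p1 : a0 ≤ a') (hb : a' ≤ M.s k0) (hB : M.s (k0 + 1) ≤ B0) (hT : B0 ≤ T)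
    (room : ∀ t ∈ Icc a' (M.s k0), -(2 * S.C ^ 2 * (t - a0)) ≤ uu M S m a T t) :
    ∫ t in a'..M.s k0, |ut M S m a T k0 t| ^ 4 ≤ 4096 * S.C ^ 4 *
      ((∫ t in a0..B0, Jf T (lvr 1 (lh M T)) (lvr 1 (lb M S m a T)) t ^ 2) +
        (S.C * S.v) ^ 2 * T ^ 3) + 8 * (S.C * S.v) ^ 4 * T := by
  have C0 := A.c_pos
  have C1 := A.cl.C1
  have v0 := v_pos A.cl
  have s1 := (A.cl.ss k0 h1).1
  have e : S.v / S.C = 2 * (S.v / (2 * S.C)) := by field_simp
  have r0 : 0 < S.v / (2 * S.C) := by positivity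
  have sJ : M.s (k0 + 1) ≤ M.s S.J := A.cl.sm h1
  set b0 := M.s k0 + S.v / (2 * S.C) with hb0
  have O := A.aosl p0 (b' := b0) (by linarith) (by linarith)
  have CC : S.C ≤ S.C ^ 2 := by nlinarith
  have O' : Sun9.AOSL a0 b0 (S.C ^ 2) (S.C * S.v) (uu M S m a T)
      (Jf T (lvr 1 (lh M T)) (lvr 1 (lb M S m a T))) :=
    ⟨by positivity, O.le, fun s t a1 a2 a3 => by
      linarith [O.lower s t a1 a2 a3, mul_le_mul_of_nonneg_right CC (sub_nonneg.2 a2)], O.int, O.prim⟩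
  have l4 : LB T fun t => ut M S m a T k0 t ^ 4 := by
    simpa only [← pow_mul] using (A.LB_ut k0).sq.sq
  have f := four_tr O' (w := ut M S m a T k0) p1 hb (by linarith)
    (l4.ii ⟨by linarith, by linarith⟩ ⟨by linarith, by linarith⟩) fun t ht => by
      obtain ⟨u1, u2, u3, -⟩ := A.ut_sign (A.zh_node_25 h0 h1 ht.2)
      have u4 := (A.sl (A.cl.s_lt h1 h1) t _ (by linarith [ht.1]) ht.2 le_rfl).2
      rw [A.lvh_node h0 h1] at u4
      have u5 := mul_le_mul_of_nonneg_right CC (sub_nonneg.2 ht.2)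
      have u6 : 2 * S.C ^ 2 * (b0 - t) = 2 * S.C ^ 2 * (M.s k0 - t) + S.C * S.v := by
        rw [hb0]; field_simp; ring
      have u7 : 0 ≤ S.C * (M.s k0 - t) := mul_nonneg C0.le (sub_nonneg.2 ht.2)
      have u8 : 0 ≤ 2 * S.C ^ 2 * (t - a0) := mul_nonneg (by positivity) (by linarith [ht.1])
      exact ⟨⟨u1, by linarith⟩, u2, u2.trans (max_le (by linarith [room t ht]) u8)⟩
  simp only [Even.pow_abs (show Even 4 by decide)]
  unfold Sun9.AOSL.En at f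
  have g1 := int_sub_le A.LB_J2 p0 le_rfl O.le (show b0 ≤ B0 by linarith) hT fun _ _ _ => sq_nonneg _
  have g2 : (b0 - a0) ^ 3 ≤ T ^ 3 := pow_le_pow_left₀ (by linarith [O.le]) (by linarith) 3
  have g3 := mul_le_mul_of_nonneg_left g1 (show 0 ≤ 4096 * S.C ^ 4 by positivity)
  have g4 := mul_le_mul_of_nonneg_left g2 (show 0 ≤ 4096 * S.C ^ 4 * (S.C * S.v) ^ 2 by positivity)
  have g5 := mul_le_mul_of_nonneg_left (show M.s k0 - a' ≤ T by linarith)
    (show 0 ≤ 8 * (S.C * S.v) ^ 4 by positivity)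
  linarith

/-- `room` for `a0 = 0` -/
theorem room_zero (A : At S M m a T) {t : ℝ} (h0 : 2 * S.v ≤ t) (h1 : t < M.s S.J) :
    -(2 * S.C ^ 2 * (t - 0)) ≤ uu M S m a T t := by
  have C0 := A.c_pos
  have C1 := A.cl.C1
  have v0 := v_pos A.cl
  have u1 := (A.sl h1 0 t le_rfl (by linarith) le_rfl).2
  have u2 := A.cl.lv0
  rw [← A.lvh' le_rfl] at u2
  have u3 := Pp.Ode3.lvr_pos A.okb.1.1 t
  have u4 : S.C * (2 * S.v) ≤ S.C * t := mul_le_mul_of_nonneg_left h0 C0.le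
  have u5 : S.C * t ≤ S.C ^ 2 * t := mul_le_mul_of_nonneg_right (by nlinarith) (by linarith)
  unfold uu
  linarith

/-- the excess of the last sloped node above `s Jp` -/
theorem exc_cube (A : At S M m a T) {a0 : ℝ} (p0 : 0 ≤ a0) (p1 : a0 ≤ M.s S.Jp) :
    max (sb M m a S.J - M.s S.Jp) 0 ^ 3 ≤
      64 * S.C ^ 2 * ∫ t in a0..T, Jf T (lvr 1 (lh M T)) (lvr 1 (lb M S m a T)) t ^ 2 := by
  have C0 := A.c_pos
  obtain ⟨j1, j2, j3⟩ := A.J_pred
  have jp : S.J - 1 ≤ S.Jp := j2.le.trans A.cl.i3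
  have i0 : 0 ≤ ∫ t in a0..T, Jf T (lvr 1 (lh M T)) (lvr 1 (lb M S m a T)) t ^ 2 :=
    intervalIntegral.integral_nonneg (p1.trans A.t2) fun _ _ => sq_nonneg _
  rcases le_total (sb M m a S.J - M.s S.Jp) 0 with c | c
  · rw [max_eq_right c]; simpa using by positivity
  rw [max_eq_left c]
  have sT := (A.sb_mem jp).2
  rw [j3] at sT
  have g := Lab36.gap_neg A.LB_u (u := M.s S.Jp) (κ := 1 / S.C) (s_nn A.cl _) c (by linarith)
    (by positivity) fun t t1 t2 => by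
      have z1 : lvr 1 (lb M S m a T) t ≤ M.z (S.J - 1) := by
        rw [← A.lvb_node (by have := A.cl.i2; omega) jp, j3]
        exact Sc48.lvr_mono A.okb.1.1 (by linarith)
      rw [A.lvh' ((s_nn A.cl _).trans t1.le), A.cl.lv1 t t1.le]
      linarith [A.cl.atom.2]
  have g1 := int_sub_le A.LB_J2 p0 p1 (le_add_of_nonneg_right c)
    (show M.s S.Jp + (sb M m a S.J - M.s S.Jp) ≤ T by linarith) le_rfl fun _ _ _ => sq_nonneg _
  have g2 := mul_le_mul_of_nonneg_left (g.trans g1) (show 0 ≤ 64 * S.C ^ 2 by positivity)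
  refine le_of_eq_of_le ?_ g2
  field_simp

/-- sums over the plateau against one time -/
theorem pla_eq (A : At S M m a T) {x y r : ℝ} (h0 : 0 ≤ x) (h1 : x ≤ r) (h2 : r ≤ y) :
    ∑ k ∈ Finset.Icc S.J S.Jp, (M.z k - M.z (k - 1)) * (Pp.Area50.cl x y (sb M m a (k + 1)) - r) ^ 2 =
      2 * ∫ t in x..y, |max (lvr 1 (lb M S m a T) t) (M.z (S.J - 1)) -
        (if r ≤ t then 1 else M.z (S.J - 1))| * |t - r| := by
  obtain ⟨j1, j2, j3⟩ := A.J_pred
  have := pla_area A.ux A.ub (i0 := S.J) (by have := A.cl.i3; omega) h1 h2 1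
  have e1 : xb M a S.J = M.z (S.J - 1) := by rw [← j3]; rfl
  have e2 : xb M a (S.Jp + 1) = 1 := A.cl.top _ le_rfl
  rw [e1, e2, Finset.Ico_add_one_right_eq_Icc] at this
  simp only [show (1 + 1 : ℕ) = 2 from rfl, sq_abs, pow_one] at this
  refine (Finset.sum_congr rfl fun k hk => ?_).trans (this.trans ?_)
  · have := (Finset.mem_Icc.1 hk).1
    obtain ⟨k, rfl⟩ : ∃ j, k = j + 1 := ⟨k - 1, by omega⟩
    simp only [xb, Nat.add_sub_cancel]
  · congr 1
    · norm_num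
    · refine intervalIntegral.integral_congr fun t ht => ?_
      rw [uIcc_of_le (h1.trans h2)] at ht
      simp only [A.lvb (h0.trans ht.1)]

end At

end Crest.Agent.T156.Alt.Mp9

end
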