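import Crest.Agent.T156.Abel_33
import Crest.Agent.T156.TL1cD_74

/-!
# Row 156, block (L): the root numbers from the local energy (helper93)
(`root_loc` follows `Ab33.root_ineq`)
-/

set_option autoImplicit false

noncomputable section

namespace Crest.Agent.T156.Alt.C74

open Real MeasureTheory Crest.Agent.T156.Alt.Mp9 Crest.Agent.T156.Cut8

theorem root_loc (T : ℝ) : ∃ K : ℝ, 1 ≤ K ∧ ∀ {S : Sc} {M : Md} {m : ℕ} {a : ℝ},
    At S M m a T → ∀ {u : ℕ} {E1 ι : ℝ}, S.jl < u → u ≤ S.Jp → sb M m a (u + 1) ≤ M.s S.Jp →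
    ∫ r in (0 : ℝ)..sb M m a (u + 1), JJ M S m a T r ^ 2 ≤ E1 → io M S m a T ≤ ι →
    sb M m a (u + 1) * S.ms (sb M m a (u + 1)) ≤ 8 * S.C * (M.H u + S.C * |res M S m a T u|) +
      8 * S.C ^ 2 * K * (√(sb M m a (u + 1) * E1) + sb M m a (u + 1) * ι) := by
  obtain ⟨C, C1, H⟩ := Gap27.hlip T
  refine ⟨C, C1, ?_⟩
  intro S M m a A u En ι h1 h2 h3 hE i1
  obtain ⟨-, -, -, -, -, F⟩ := H T le_rfl
  have h := A.cl
  have C0 := h.C0
  obtain ⟨b1, b2⟩ := A.b_mem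
  have mA := A.sb_mem h2
  have e1 := A.Mf_b h1 h2
  generalize sb M m a (u + 1) = x at *
  obtain ⟨x0, xT⟩ := mA
  have T0' := x0.trans xT
  have lJ : LB T (JJ M S m a T) := F.lbJ A.okh A.okb ⟨T0', le_rfl⟩
  have ι0 : 0 ≤ ι := (intervalIntegral.integral_nonneg T0' fun _ _ => abs_nonneg _).trans i1
  have i2 := int_abs_le lJ le_rfl x0 xT hE
  rw [sub_zero] at i2
  have gb := LB.of_cont (F.cont _ A.okb)
  have gh := LB.of_cont (F.cont _ A.okh)
  have i3 : Pr.Gam (lb M S m a T) x - Pr.Gam (lh M T) x ≤ C * (√(x * En) + x * ι) := by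
    rw [F.gam _ A.okb x ⟨x0, xT⟩, F.gam _ A.okh x ⟨x0, xT⟩,
      ← intervalIntegral.integral_sub (gb.ii ⟨le_rfl, T0'⟩ ⟨x0, xT⟩) (gh.ii ⟨le_rfl, T0'⟩ ⟨x0, xT⟩)]
    refine (int_mono (gb.sub gh) ((LB.const C).mul (lJ.abs.add (LB.const ι))) le_rfl x0 xT
      fun t t0 t1 => (le_abs_self _).trans ((F.lip _ _ A.okh A.okb t ⟨t0.le, t1.le.trans xT⟩).trans
        (mul_le_mul_of_nonneg_left (add_le_add le_rfl i1) (by linarith)))).trans ?_
    rw [intervalIntegral.integral_const_mul, intervalIntegral.integral_add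
      (lJ.abs.ii ⟨le_rfl, T0'⟩ ⟨x0, xT⟩) intervalIntegrable_const, intervalIntegral.integral_const,
      sub_zero, smul_eq_mul]
    exact mul_le_mul_of_nonneg_left (add_le_add i2 le_rfl) (by linarith)
  have m1 := (A.Mf_sl (a' := x / 2) (b' := x) (by linarith) h3 (x / 2) x le_rfl (by linarith)
    le_rfl).1
  have m2 := (A.Mf_sl (a' := 0) (b' := x) le_rfl h3 0 (x / 2) le_rfl (by linarith)
    (by linarith)).1
  have m3 : Rig.Mf M.b (lh M T) 0 = 0 := by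
    have := A.gam_h (Nat.zero_le S.Jp)
    rw [h.s0, h.q0] at this
    show 0 - M.b * Pr.Gam (lh M T) 0 = 0
    rw [this]; ring
  have m4 : 0 ≤ S.ms 0 / S.C * (x / 2 - 0) :=
    mul_nonneg (div_pos (h.ms_pos le_rfl) C0).le (by linarith)
  have m5 := h.ms2 (x / 2) (by linarith)
  rw [show 2 * (x / 2) = x by ring] at m5
  have m6 : x * S.ms x ≤ 8 * S.C * (S.ms (x / 2) / S.C * (x - x / 2)) := by
    rw [show 8 * S.C * (S.ms (x / 2) / S.C * (x - x / 2)) = x * (4 * S.ms (x / 2)) by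
      field_simp; ring]
    exact mul_le_mul_of_nonneg_left m5 x0
  have e2 : Rig.Mf M.b (lh M T) x - Rig.Mf M.b (lb M S m a T) x =
      M.b * (Pr.Gam (lb M S m a T) x - Pr.Gam (lh M T) x) := by
    show x - M.b * Pr.Gam (lh M T) x - (x - M.b * Pr.Gam (lb M S m a T) x) = _
    ring
  have r0 : 0 ≤ M.b * M.rb m a u / (m + 1) := by
    have := (rb_mem (M := M) (a := a) A.m_pos u).1
    positivity
  have r1 : -(M.b * res M S m a T u) ≤ S.C * |res M S m a T u| := by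
    nlinarith [neg_abs_le (res M S m a T u), abs_nonneg (res M S m a T u)]
  have r2 : M.b * (Pr.Gam (lb M S m a T) x - Pr.Gam (lh M T) x) ≤
      S.C * (C * (√(x * En) + x * ι)) :=
    (mul_le_mul_of_nonneg_left i3 (by linarith)).trans
      (mul_le_mul_of_nonneg_right b2 (by positivity))
  have r3 := mul_le_mul_of_nonneg_left (show S.ms (x / 2) / S.C * (x - x / 2) ≤
    M.H u + S.C * |res M S m a T u| + S.C * (C * (√(x * En) + x * ι)) by linarith)
    (show 0 ≤ 8 * S.C by positivity)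
  linarith

/-- the short root -/
theorem rt_one {A l μ F L τ mA : ℝ} (l0 : 0 < l) (μ0 : 0 < μ) (F1 : 1 ≤ F) (L1 : 100 ≤ L)
    (A0 : 0 ≤ A) (hA : A ≤ L ^ 7 * F ^ 2 * l) (hτ : τ ≤ l ^ 2 + F * μ)
    (hm : mA ≤ μ + (A + L * l) ^ 2) : (A + L * l) ^ 3 * ((A + L * l) ^ 2 + τ + mA) ≤
      L ^ 60 * F ^ 10 * (l ^ 5 + μ * l ^ 3) := by
  have L0 : 1 ≤ L := by linarith
  obtain ⟨q, hq⟩ : ∃ q, q = L ^ 8 * F ^ 2 := ⟨_, rfl⟩
  have f2 : 1 ≤ F ^ 2 := one_le_pow₀ F1
  have a0 : L ≤ L ^ 7 * F ^ 2 := (le_self_pow₀ L0 (by norm_num)).trans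
    (le_mul_of_one_le_right (by positivity) f2)
  have a1 : 2 * (L ^ 7 * F ^ 2) ≤ q := by
    rw [hq, show L ^ 8 * F ^ 2 = L * (L ^ 7 * F ^ 2) by ring]
    exact mul_le_mul_of_nonneg_right (by linarith) (by positivity)
  have a2 : A + L * l ≤ q * l := by
    nlinarith [mul_le_mul_of_nonneg_right a0 l0.le, mul_le_mul_of_nonneg_right a1 l0.le]
  have q1 : 1 ≤ q := by linarith
  have qF : F ≤ q ^ 2 := by
    refine le_trans ?_ (le_self_pow₀ q1 two_ne_zero)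
    rw [hq]
    exact (le_self_pow₀ F1 two_ne_zero).trans (le_mul_of_one_le_left (by positivity)
      (one_le_pow₀ L0))
  have b2 := pow_le_pow_left₀ (by positivity) a2 2
  have b3 := pow_le_pow_left₀ (by positivity) a2 3
  have q2 : 1 ≤ q ^ 2 := one_le_pow₀ q1
  have c1 : (A + L * l) ^ 2 + τ + mA ≤ 3 * q ^ 2 * (l ^ 2 + μ) := by
    nlinarith [mul_le_mul_of_nonneg_right qF μ0.le, mul_le_mul_of_nonneg_right q2 μ0.le,
      mul_le_mul_of_nonneg_right q2 (sq_nonneg l)]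
  have c2 : 3 * q ^ 5 ≤ L ^ 60 * F ^ 10 := by
    rw [hq, show 3 * (L ^ 8 * F ^ 2) ^ 5 = 3 * (L ^ 40 * F ^ 10) by ring,
      show L ^ 60 * F ^ 10 = L ^ 20 * (L ^ 40 * F ^ 10) by ring]
    exact mul_le_mul_of_nonneg_right ((show 3 ≤ L by linarith).trans
      (le_self_pow₀ L0 (by norm_num))) (by positivity)
  calc _ ≤ (A + L * l) ^ 3 * (3 * q ^ 2 * (l ^ 2 + μ)) :=
        mul_le_mul_of_nonneg_left c1 (by positivity)
    _ ≤ (q * l) ^ 3 * (3 * q ^ 2 * (l ^ 2 + μ)) := mul_le_mul_of_nonneg_right b3 (by positivity)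
    _ = 3 * q ^ 5 * (l ^ 5 + μ * l ^ 3) := by ring
    _ ≤ _ := mul_le_mul_of_nonneg_right c2 (by positivity)

/-- the long root -/
theorem rt_two {A l μ F L τ mA K y E : ℝ} (l0 : 0 < l) (μ0 : 0 < μ) (F1 : 1 ≤ F) (L1 : 100 ≤ L)
    (K0 : 0 ≤ K) (hK : 32 * K ≤ L) (hA : L ^ 7 * F ^ 2 * l ≤ A) (h3 : A ^ 3 ≤ L ^ 3 * (F * μ * l))
    (hτ : τ ≤ l ^ 2 + F * μ) (hm : μ ≤ mA) (y0 : 0 ≤ y) (hy : y ^ 2 ≤ 2 * A * E)
    (h : A * mA ≤ L ^ 4 * F * (μ * l + l ^ 3) + 2 * K * y) :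
    (A + L * l) ^ 3 * ((A + L * l) ^ 2 + τ + mA) ≤ E / L := by
  have L0 : 1 ≤ L := by linarith
  have f2 : 1 ≤ F ^ 2 := one_le_pow₀ F1
  have a0 : L ≤ L ^ 7 * F ^ 2 := (le_self_pow₀ L0 (by norm_num)).trans
    (le_mul_of_one_le_right (by positivity) f2)
  have a1 : L * l ≤ A := (mul_le_mul_of_nonneg_right a0 l0.le).trans hA
  have a2 : l ≤ A := (le_mul_of_one_le_left l0.le L0).trans a1
  have A0 : 0 < A := l0.trans_le a2
  have m0 : 0 < mA := μ0.trans_le hm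
  have b1 : L ^ 4 * F * A ^ 2 ≤ μ := by
    refine le_of_mul_le_mul_left ?_ A0
    calc A * (L ^ 4 * F * A ^ 2) = L ^ 4 * F * A ^ 3 := by ring
      _ ≤ L ^ 4 * F * (L ^ 3 * (F * μ * l)) := mul_le_mul_of_nonneg_left h3 (by positivity)
      _ = L ^ 7 * F ^ 2 * l * μ := by ring
      _ ≤ _ := mul_le_mul_of_nonneg_right hA μ0.le
  have l4 : 4 ≤ L ^ 4 * F := ((show 4 ≤ L by linarith).trans (le_self_pow₀ L0 (by norm_num))).trans
    (le_mul_of_one_le_right (by positivity) F1)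
  have b2 : 4 * A ^ 2 ≤ μ := (mul_le_mul_of_nonneg_right l4 (sq_nonneg A)).trans b1
  have b3 : l ^ 2 ≤ μ := by nlinarith [pow_le_pow_left₀ l0.le a2 2]
  have l3 : 4 ≤ L ^ 3 * F := ((show 4 ≤ L by linarith).trans (le_self_pow₀ L0 (by norm_num))).trans
    (le_mul_of_one_le_right (by positivity) F1)
  have b4 : 4 * (L ^ 4 * F * (μ * l)) ≤ A * mA :=
    calc _ ≤ L ^ 3 * F * (L ^ 4 * F * (μ * l)) := mul_le_mul_of_nonneg_right l3 (by positivity)
      _ = L ^ 7 * F ^ 2 * l * μ := by ring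
      _ ≤ _ := mul_le_mul hA hm μ0.le A0.le
  have b5 := mul_le_mul_of_nonneg_left (mul_le_mul_of_nonneg_right b3 l0.le)
    (show 0 ≤ L ^ 4 * F by positivity)
  have b6 : A * mA ≤ 4 * K * y := by linarith
  have b7 : A * mA ^ 2 ≤ 32 * K ^ 2 * E := by
    refine le_of_mul_le_mul_left ?_ A0
    have := pow_le_pow_left₀ (by positivity) b6 2
    nlinarith [mul_le_mul_of_nonneg_left hy (sq_nonneg K)]
  have c1 : (A + L * l) ^ 2 + τ + mA ≤ 4 * F * mA := by
    have := pow_le_pow_left₀ (by positivity) (show A + L * l ≤ 2 * A by linarith) 2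
    nlinarith [mul_le_mul_of_nonneg_left hm (show 0 ≤ F by linarith),
      mul_le_mul_of_nonneg_right F1 m0.le]
  have c2 := pow_le_pow_left₀ (by positivity) (show A + L * l ≤ 2 * A by linarith) 3
  have E0 : 0 ≤ E := by
    by_contra c
    nlinarith [mul_pos A0 (neg_pos.2 (not_le.1 c)), sq_nonneg y]
  have c3 : 1024 * K ^ 2 ≤ L ^ 3 := by
    have := pow_le_pow_left₀ (by positivity) hK 2
    linarith [pow_le_pow_right₀ L0 (show 2 ≤ 3 by norm_num)]
  rw [le_div_iff₀ (by linarith)]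
  refine le_of_mul_le_mul_left ?_ (show 0 < L ^ 3 by positivity)
  calc L ^ 3 * ((A + L * l) ^ 3 * ((A + L * l) ^ 2 + τ + mA) * L)
      = L ^ 4 * ((A + L * l) ^ 3 * ((A + L * l) ^ 2 + τ + mA)) := by ring
    _ ≤ L ^ 4 * ((2 * A) ^ 3 * (4 * F * mA)) := mul_le_mul_of_nonneg_left
        ((mul_le_mul_of_nonneg_left c1 (by positivity)).trans
          (mul_le_mul_of_nonneg_right c2 (by positivity))) (by positivity)
    _ = 32 * (A * mA) * (L ^ 4 * F * A ^ 2) := by ring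
    _ ≤ 32 * (A * mA) * mA := mul_le_mul_of_nonneg_left (b1.trans hm) (by positivity)
    _ = 32 * (A * mA ^ 2) := by ring
    _ ≤ _ := by linarith [mul_le_mul_of_nonneg_right c3 E0]

theorem rtN : RtN := by
  intro C
  obtain ⟨K, K1, H⟩ := root_loc (2 * C)
  refine ⟨100 + 48 * C ^ 4 + 256 * C ^ 2 * K, by
    have : 0 ≤ 48 * C ^ 4 + 256 * C ^ 2 * K := by positivity
    linarith, ?_⟩
  intro S M m a G1 L l E1 ι u A hC E sub hL l0 h1 h2 h3 h4 h5 h6 h7 h8
  subst hC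
  have h := A.cl
  have C1 := h.C1
  have F1 := h.F1
  have p4 : 0 ≤ S.C ^ 4 := by positivity
  have pK : 0 ≤ S.C ^ 2 * K := by positivity
  have L1 : 100 ≤ L := by linarith
  have k := H A h1 (h2.le.trans h.i3) (h4.trans (h.sm h.i3)) h7 h8
  obtain ⟨x0, xT⟩ := A.sb_mem (h2.le.trans h.i3)
  have E0 : 0 ≤ E1 := (intervalIntegral.integral_nonneg x0 fun _ _ => sq_nonneg _).trans h7
  have ι0 : 0 ≤ ι := (intervalIntegral.integral_nonneg (x0.trans xT)
    fun _ _ => abs_nonneg _).trans h8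
  have μ0 := h.ms_pos l0.le
  have lL : l ≤ L * l := le_mul_of_one_le_left l0.le (by linarith)
  have hH : M.H u ≤ 2 * S.C ^ 2 * (S.F * (S.ms l + (L * l) ^ 2) * (L * l)) :=
    (Ab33.H_le h E h1 h2.le).trans (by
      have := (h.msm h3).trans (sub l _ l0.le lL)
      have := h.s_nn u
      gcongr)
  have hτ : ts S l ^ 2 ≤ l ^ 2 + S.F * S.ms l := by
    have e : √(S.F * S.ms l) ^ 2 = S.F * S.ms l := sq_sqrt (by positivity)
    unfold ts
    rcases le_total l (√(S.F * S.ms l)) with c | c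
    · rw [max_eq_right c, e]; linarith [sq_nonneg l]
    · rw [max_eq_left c]; linarith [show 0 ≤ S.F * S.ms l by positivity]
  have cc := Ab33.cc_cube h l0
  generalize sb M m a (u + 1) = x at *
  have W0' : 0 ≤ L ^ 60 * S.F ^ 10 * W0 S l := by unfold W0; positivity
  have E0' : 0 ≤ (E1 + x * ι ^ 2) / L := by positivity
  rcases le_total x (L ^ 7 * S.F ^ 2 * l) with c | c
  · have := rt_one l0 μ0 F1 L1 x0 c hτ ((h.msm (show x ≤ x + L * l by linarith)).trans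
      (sub l _ l0.le (by linarith)))
    unfold W0
    linarith
  have L0 : 1 ≤ L := by linarith
  have f2 : 1 ≤ S.F ^ 2 := one_le_pow₀ F1
  have a0 : L ^ 2 ≤ L ^ 7 * S.F ^ 2 := (pow_le_pow_right₀ L0 (by norm_num)).trans
    (le_mul_of_one_le_right (by positivity) f2)
  have a1 : L ^ 2 * l ≤ x := (mul_le_mul_of_nonneg_right a0 l0.le).trans c
  have a2 : l ≤ x := (le_mul_of_one_le_left l0.le (one_le_pow₀ L0)).trans a1
  have a3 := pow_le_pow_left₀ x0 h5 3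
  rw [mul_pow, cc] at a3
  have a4 : x ^ 3 ≤ L ^ 3 * (S.F * S.ms l * l) := by
    rcases le_total (l ^ 3) (S.F * S.ms l * l) with d | d
    · rwa [max_eq_right d] at a3
    · rw [max_eq_left d, ← mul_pow] at a3
      have := le_of_pow_le_pow_left₀ three_ne_zero (by positivity) a3
      nlinarith [mul_pos (show 0 < L by linarith) l0]
  have hm := h.msm a2
  have sq : √(x * E1) ^ 2 = x * E1 := sq_sqrt (by positivity)
  refine (rt_two (K := 8 * S.C ^ 2 * K) (y := √(x * E1) + x * ι) (E := E1 + x * ι ^ 2) l0 μ0 F1 L1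
    (by positivity) (by linarith) c a4 hτ hm (by positivity)
    (by nlinarith [sq_nonneg (√(x * E1) - x * ι)]) ?_).trans (by linarith)
  obtain ⟨w, hw⟩ : ∃ w, w = L ^ 3 * S.F * (S.ms l * l + l ^ 3) := ⟨_, rfl⟩
  have w0 : 0 ≤ w := by rw [hw]; positivity
  have L3 : L ≤ L ^ 3 := le_self_pow₀ L0 three_ne_zero
  have c2 : S.C ^ 2 ≤ S.C ^ 4 := pow_le_pow_right₀ C1 (by norm_num)
  have c3 : S.C ^ 3 ≤ S.C ^ 4 := pow_le_pow_right₀ C1 (by norm_num)
  have b1 : S.F * (S.ms l + (L * l) ^ 2) * (L * l) ≤ w := by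
    have := mul_le_mul_of_nonneg_right L3 (show 0 ≤ S.F * (S.ms l * l) by positivity)
    rw [hw]; linarith
  have b2 : L * (S.F * S.ms l * l + l ^ 3) ≤ w := by
    have := mul_le_mul_of_nonneg_right L3 (show 0 ≤ S.F * (S.ms l * l + l ^ 3) by positivity)
    have := mul_le_mul_of_nonneg_right F1 (show 0 ≤ L * l ^ 3 by positivity)
    rw [hw]; linarith
  have b3 : 16 * S.C ^ 2 * (S.ms l * x / L) ≤ x * S.ms x := by
    rw [← mul_div_assoc, div_le_iff₀ (by linarith)]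
    calc _ ≤ L * (S.ms x * x) := mul_le_mul (by linarith) (mul_le_mul_of_nonneg_right hm x0)
          (by positivity) (by linarith)
      _ = _ := by ring
  have b4 := mul_le_mul_of_nonneg_left (hH.trans (mul_le_mul_of_nonneg_left b1 (by positivity)))
    (show 0 ≤ 8 * S.C by positivity)
  have b5 := mul_le_mul_of_nonneg_left (h6.trans (add_le_add_left b2 _))
    (show 0 ≤ 8 * S.C ^ 2 by positivity)
  have b6 := mul_le_mul_of_nonneg_right (show 32 * S.C ^ 3 + 16 * S.C ^ 2 ≤ L by linarith) w0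
  rw [show L ^ 4 * S.F * (S.ms l * l + l ^ 3) = L * w by rw [hw]; ring]
  linarith

end Crest.Agent.T156.Alt.C74
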