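import Crest.Agent.T156.LInt_31
import Crest.Agent.T156.RtN_93
import Crest.Agent.T156.LOb_25

/-!
Row 156, block (L) (helper25): the root data from the local energy.
-/

set_option autoImplicit false

noncomputable section

namespace Crest.Agent.T156.Alt.L31

open MeasureTheory Set Real
open Crest.Agent.R164.GC Crest.Agent.R339.B Crest.Agent.R339.Var Crest.Agent.T157.Pf
open Crest.Agent.T156.Cut8 (LB Res Jf Cont Rt Fr int_split int_mono int_le_const int_sub_le)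
open Crest.Agent.T156.Alt.Mp9 Crest.Agent.T156.Alt.L69 Crest.Agent.T156.Alt.C74

namespace R25

theorem ex_cbrt {x : ℝ} (hx : 0 ≤ x) : ∃ y : ℝ, 0 ≤ y ∧ y ^ 3 = x :=
  ⟨x ^ ((1 : ℝ) / 3), by positivity, by rw [← Real.rpow_natCast, ← Real.rpow_mul hx]; norm_num⟩

theorem four4 {x y z w : ℝ} : (x + y + z + w) ^ 4 ≤ 64 * (x ^ 4 + y ^ 4 + z ^ 4 + w ^ 4) := by
  have h2 : ∀ x y z w : ℝ, (x + y + z + w) ^ 2 ≤ 4 * (x ^ 2 + y ^ 2 + z ^ 2 + w ^ 2) :=
    fun x y z w => by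
      linarith [sq_nonneg (x - y), sq_nonneg (x - z), sq_nonneg (y - z), sq_nonneg (x - w),
        sq_nonneg (y - w), sq_nonneg (z - w)]
  have := pow_le_pow_left₀ (sq_nonneg _) (h2 x y z w) 2
  linarith [h2 (x ^ 2) (y ^ 2) (z ^ 2) (w ^ 2)]

/-- the quartic form at the root -/
theorem num_root {θ B C L l c t A X2 ρ R Y : ℝ} (θ0 : 0 < θ) (θ1 : θ ≤ 1) (B0 : 0 ≤ B) (C0 : 0 ≤ C)
    (L1 : 1 ≤ L) (l0 : 0 < l) (c0 : 0 ≤ c) (ct : c ≤ t) (c3 : c ^ 3 = l * t ^ 2) (A0 : 0 ≤ A)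
    (hA : A ≤ L * c) (X0 : 0 ≤ X2) (hR : R = A + L * l) (Y0 : 0 ≤ Y)
    (hρ : ρ ≤ L * ((A + l) * X2 + l * c ^ 2 + √(A * Y))) :
    ∃ f0, 0 ≤ f0 ∧ Gap27.Num θ 0 f0 (ρ + B * A ^ 2 * (2 * C * R)) 0 (B * A) ∧
      A * f0 ≤ 128 / θ ^ 4 * (L ^ 3 * (c * X2 ^ 2 + Y) + (2 + (1 + B + 2 * B * C) ^ 4) * R ^ 5 +
        R ^ 3 * t ^ 2) := by
  have Ll : l ≤ L * l := le_mul_of_one_le_left l0.le L1
  have R1 : A ≤ R := by linarith
  have R2 : L * l ≤ R := by linarith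
  have R0 : 0 < R := by linarith
  have t0 := c0.trans ct
  obtain ⟨x, x0, x3⟩ := ex_cbrt (show 0 ≤ L * R * X2 by positivity)
  obtain ⟨y, y0, y3⟩ := ex_cbrt (show 0 ≤ L * l * c ^ 2 by positivity)
  obtain ⟨z, z0', z3⟩ := ex_cbrt (show 0 ≤ L * √(A * Y) by positivity)
  set k := 1 + B + 2 * B * C with hk
  have BC : 0 ≤ B * C := by positivity
  have k1 : 1 ≤ k := by linarith
  have k3 : 2 * B * C ≤ k ^ 3 := le_trans (by linarith) (le_self_pow₀ k1 (by norm_num))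
  have z0 : 0 ≤ k * R := by positivity
  refine ⟨2 * ((x + y + z + k * R) / θ) ^ 4, by positivity,
    .inl ⟨(x + y + z + k * R) / θ, by positivity, ?_, ?_, le_rfl⟩, ?_⟩
  · have e : θ * ((x + y + z + k * R) / θ) ^ 3 = (x + y + z + k * R) ^ 3 / θ ^ 2 := by field_simp
    have a1 : x ^ 3 + y ^ 3 + z ^ 3 + (k * R) ^ 3 ≤ (x + y + z + k * R) ^ 3 := by
      linarith [pow_add_pow_le x0 y0 three_ne_zero,
        pow_add_pow_le (add_nonneg x0 y0) z0' three_ne_zero,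
        pow_add_pow_le (add_nonneg (add_nonneg x0 y0) z0') z0 three_ne_zero]
    have a2 : B * A ^ 2 * (2 * C * R) ≤ (k * R) ^ 3 := by
      have : 2 * B * C * (A ^ 2 * R) ≤ k ^ 3 * (R ^ 2 * R) := by gcongr
      linarith
    have a3 : L * ((A + l) * X2) ≤ L * (R * X2) := by gcongr; linarith
    rw [e]
    refine le_trans ?_ (le_div_self (by positivity) (by positivity) (pow_le_one₀ θ0.le θ1))
    linarith
  · have e : θ * ((x + y + z + k * R) / θ) ^ 2 = (x + y + z + k * R) ^ 2 / θ := by field_simp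
    rw [e, zero_add]
    refine div_le_div_of_nonneg_right (pow_le_pow_left₀ (by positivity) ?_ 2) θ0.le
    have : B * A ≤ k * R := mul_le_mul (by linarith) R1 A0 (by linarith)
    linarith
  · have a1 : x ^ 4 ≤ (L * X2) ^ 2 + R ^ 4 := by
      rcases le_total x R with h | h
      · linarith [pow_le_pow_left₀ x0 h 4, sq_nonneg (L * X2)]
      · have xp : 0 < x := R0.trans_le h
        have : x ^ 2 ≤ L * X2 := le_of_mul_le_mul_left (by
          have : R * (L * X2) ≤ x * (L * X2) := by gcongr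
          linarith) xp
        have := pow_le_pow_left₀ (sq_nonneg x) this 2
        linarith [pow_nonneg R0.le 4]
    have a2 : y * c ^ 2 ≤ R * t ^ 2 := by
      refine le_of_pow_le_pow_left₀ (n := 3) (by norm_num) (by positivity) ?_
      have e : (y * c ^ 2) ^ 3 = L * l * l * l * c ^ 2 * t ^ 4 := by
        rw [mul_pow, y3, show (c ^ 2) ^ 3 = (c ^ 3) ^ 2 by ring, c3]; ring
      have : L * l * l * l * c ^ 2 * t ^ 4 ≤ R * R * R * t ^ 2 * t ^ 4 := by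
        have lR : l ≤ R := Ll.trans R2
        gcongr
      rw [e]
      linarith
    have a3 : A * y ^ 4 ≤ R ^ 3 * t ^ 2 := by
      have e : A * y ^ 4 = A * (L * l) * (y * c ^ 2) := by
        rw [show y ^ 4 = y * y ^ 3 by ring, y3]; ring
      have : A * (L * l) * (y * c ^ 2) ≤ R * R * (R * t ^ 2) := by gcongr
      rw [e]
      linarith
    have a4 : A * x ^ 4 ≤ L ^ 3 * (c * X2 ^ 2) + R ^ 5 := by
      have b1 := mul_le_mul_of_nonneg_left a1 A0
      have b2 := mul_le_mul_of_nonneg_right hA (sq_nonneg (L * X2))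
      have b3 := mul_le_mul_of_nonneg_right R1 (pow_nonneg R0.le 4)
      linarith
    have a5 : A * (k * R) ^ 4 ≤ k ^ 4 * R ^ 5 := by
      linarith [mul_le_mul_of_nonneg_right R1 (pow_nonneg z0 4)]
    have a7 : A * z ^ 4 ≤ L ^ 3 * Y + R ^ 5 := by
      have l3 : L ^ 2 * Y ≤ L ^ 3 * Y :=
        mul_le_mul_of_nonneg_right (pow_le_pow_right₀ L1 (by norm_num)) Y0
      have l2 : 0 ≤ L ^ 2 * Y := by positivity
      rcases le_total z A with h | h
      · have : A * z ^ 4 ≤ R * R ^ 4 := by have := h.trans R1; gcongr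
        linarith
      rcases A0.eq_or_lt with e | e
      · rw [← e, zero_mul]; positivity
      have z6 : z ^ 6 = L ^ 2 * (A * Y) := by
        rw [show z ^ 6 = (z ^ 3) ^ 2 by ring, z3, mul_pow, Real.sq_sqrt (by positivity)]
      have : A * z ^ 4 ≤ L ^ 2 * Y := le_of_mul_le_mul_left (by
        have : A * A * z ^ 4 ≤ z * z * z ^ 4 := by gcongr
        linarith) e
      linarith [pow_nonneg R0.le 5]
    have a6 := mul_le_mul_of_nonneg_left (four4 (x := x) (y := y) (z := z) (w := k * R)) A0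
    have e : A * (2 * ((x + y + z + k * R) / θ) ^ 4) =
        128 / θ ^ 4 * (A * (x + y + z + k * R) ^ 4 / 64) := by
      field_simp; ring
    rw [e]
    exact mul_le_mul_of_nonneg_left (by linarith) (by positivity)

/-- the sum of the root sources -/
theorem num_sum {θ L F k0 k1 k2 C P W0 Y E Z r : ℝ} (θ0 : 0 < θ) (θ1 : θ ≤ 1) (L1 : 16 ≤ L)
    (F1 : 1 ≤ F) (p0 : 0 ≤ k0) (p1 : 0 ≤ k1) (p2 : 0 ≤ k2) (C0 : 0 ≤ C) (W00 : 0 ≤ W0) (Y0 : 0 ≤ Y)
    (E0 : 0 ≤ E) (h0 : k0 ≤ L) (h1 : k1 / θ ^ 2 ≤ L) (h2 : k2 ≤ L) (h3 : C ≤ L)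
    (hP : P ≤ L ^ 60 * F ^ 10 * W0 + E / L) (hr : r ≤ 16 * L ^ 4 * Y + 4 * L ^ 2 * (F * W0))
    (hZ : Z ≤ k0 * (L ^ 3 * Y) + k1 * P + k2 * F ^ 2 * r + C * W0) :
    Z ≤ L ^ 70 * F ^ 10 * (W0 + Y) + θ ^ 2 * E := by
  have L0 : 0 < L := by linarith
  have t2 : 0 < θ ^ 2 := by positivity
  rw [div_le_iff₀ t2] at h1
  have h4 : k1 ≤ L := h1.trans (mul_le_of_le_one_right L0.le (pow_le_one₀ θ0.le θ1))
  have a1 : k1 * (E / L) ≤ θ ^ 2 * E := by
    rw [← mul_div_assoc, div_le_iff₀ L0]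
    linarith [mul_le_mul_of_nonneg_right h1 E0]
  have a2 : k1 * (L ^ 60 * F ^ 10 * W0) ≤ L * (L ^ 60 * F ^ 10 * W0) := by gcongr
  have a3 : k2 * F ^ 2 * (16 * L ^ 4 * Y + 4 * L ^ 2 * (F * W0)) ≤
      L * F ^ 2 * (16 * L ^ 4 * Y + 4 * L ^ 2 * (F * W0)) := by gcongr
  have a4 : k0 * (L ^ 3 * Y) ≤ L * (L ^ 3 * Y) := by gcongr
  have a5 := mul_le_mul_of_nonneg_left hP p1
  have a6 := mul_le_mul_of_nonneg_left hr (show 0 ≤ k2 * F ^ 2 by positivity)
  have a7 := mul_le_mul_of_nonneg_right h3 W00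
  have pw : ∀ i j, i ≤ 69 → j ≤ 10 → 16 * (L ^ i * F ^ j) ≤ L ^ 70 * F ^ 10 := fun i j hi hj => by
    have : 16 * (L ^ i * F ^ j) ≤ L * (L ^ 69 * F ^ 10) :=
      mul_le_mul L1 (mul_le_mul (pow_le_pow_right₀ (by linarith) hi) (pow_le_pow_right₀ F1 hj)
        (by positivity) (by positivity)) (by positivity) L0.le
    linarith
  have b1 := mul_le_mul_of_nonneg_right (pw 61 10 (by norm_num) le_rfl) W00
  have b2 := mul_le_mul_of_nonneg_right (pw 3 3 (by norm_num) (by norm_num)) W00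
  have b3 := mul_le_mul_of_nonneg_right (pw 1 0 (by norm_num) (by norm_num)) W00
  have b4 := mul_le_mul_of_nonneg_right (pw 6 2 (by norm_num) (by norm_num)) Y0
  have b8 := mul_le_mul_of_nonneg_right L1 (show 0 ≤ L ^ 5 * F ^ 2 * Y by positivity)
  have b5 := mul_le_mul_of_nonneg_right (pw 4 0 (by norm_num) (by norm_num)) Y0
  have b6 : 0 ≤ L ^ 70 * F ^ 10 * W0 := by positivity
  have b7 : 0 ≤ L ^ 70 * F ^ 10 * Y := by positivity
  linarith

theorem rho_sq {ρ L c X l W A Y : ℝ} (ρ0 : 0 ≤ ρ) (L1 : 1 ≤ L) (A0 : 0 ≤ A) (Y0 : 0 ≤ Y)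
    (hA : A ≤ L * c) (h : ρ ≤ L * (2 * L * c * X + l * c ^ 2 + √(A * Y))) (c0 : 0 ≤ c)
    (h3 : l ^ 2 * c ^ 3 ≤ W) : ρ ^ 2 ≤ (16 * L ^ 4 * (c * X ^ 2 + Y) + 4 * L ^ 2 * W) * c := by
  have a2 := pow_le_pow_left₀ ρ0 h 2
  have a4 := mul_le_mul_of_nonneg_left h3 (show 0 ≤ 4 * L ^ 2 * c by positivity)
  have a5 : L ^ 2 * √(A * Y) ^ 2 ≤ L ^ 4 * (c * Y) := by
    rw [Real.sq_sqrt (by positivity)]
    have b1 := mul_le_mul_of_nonneg_right hA (show 0 ≤ L ^ 2 * Y by positivity)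
    have b2 := mul_le_mul_of_nonneg_right (pow_le_pow_right₀ L1 (show 3 ≤ 4 by norm_num))
      (mul_nonneg c0 Y0)
    linarith
  have a6 : 0 ≤ L ^ 4 * (c * Y) := by positivity
  generalize √(A * Y) = w at *
  linarith [mul_nonneg (sq_nonneg L) (sq_nonneg (2 * L * c * X - l * c ^ 2)),
    mul_nonneg (sq_nonneg L) (sq_nonneg (2 * L * c * X + l * c ^ 2 - w))]

theorem rho_R {L A R Y : ℝ} (A0 : 0 ≤ A) (hA : A ≤ R) (Y0 : 0 ≤ Y) :
    2 * (L * √(A * Y) * R ^ 2) ≤ L ^ 2 * Y + R ^ 5 := by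
  have e : √(A * Y) = √A * √Y := Real.sqrt_mul A0 Y
  have a1 := Real.sq_sqrt A0
  have a2 := Real.sq_sqrt Y0
  have a3 := mul_le_mul_of_nonneg_right hA (show 0 ≤ R ^ 4 by positivity)
  have a4 := sq_nonneg (L * √Y - √A * R ^ 2)
  rw [sub_sq, mul_pow, mul_pow, a1, a2] at a4
  rw [e]
  linarith

variable {S : Sc} {M : Md} {m : ℕ} {a T : ℝ}

theorem mm_Mx (A : At S M m a T) {t : ℝ} (t0 : 0 ≤ t) : mm M S m a t ≤ Mx M S m a t := by
  have p := A.ms_pos (t0.trans (At.le_lev (M := M) (S := S) (m := m) (a := a) t))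
  have F1 := A.cl.F1
  have q : 1 ≤ S.C ^ 2 * S.F := by nlinarith [one_le_pow₀ A.cl.C1 (n := 2)]
  have r : 1 ≤ S.C ^ 5 * S.F := by nlinarith [one_le_pow₀ A.cl.C1 (n := 5)]
  exact (div_le_self p.le (by linarith)).trans (le_mul_of_one_le_left p.le q)

/-- the area below `l`, thin form -/
theorem ar_thin (A : At S M m a T) {l b ρ c : ℝ} (l0 : 0 < l) (vl : S.v ≤ l) (hb : 2 * l ≤ b)
    (bJ : b < M.s S.J) (ρ0 : 0 ≤ ρ) (c0 : 0 < c) :
    ρ * ∫ t in (0 : ℝ)..l, |uu M S m a T t| ≤ 4 * S.C * (ρ ^ 2 / l + l ^ 5) + 512 / c * (ρ ^ 2 / l) +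
      c / 32 * ∫ t in (0 : ℝ)..b, JJ M S m a T t ^ 2 := by
  have C0 := A.c_pos
  have sT := A.sJ_T
  have lu : LB T (uu M S m a T) := A.LB_u
  have mh := Sc48.lvr_mono A.okh.1.1 (l := lh M T)
  have mb := Sc48.lvr_mono A.okb.1.1 (l := lb M S m a T)
  have z2 := A.zh_le' (t := 2 * l) (by linarith) (by linarith)
  have cv := mul_le_mul_of_nonneg_left vl C0.le
  set κ := max (lvr 1 (lb M S m a T) l - lvr 1 (lh M T) (2 * l)) 0 with hκ
  have κ0 : 0 ≤ κ := le_max_right _ _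
  have g : κ ^ 2 * l ^ 3 / 64 ≤ ∫ t in (0 : ℝ)..b, JJ M S m a T t ^ 2 := by
    rcases le_total (lvr 1 (lb M S m a T) l - lvr 1 (lh M T) (2 * l)) 0 with h | h
    · rw [hκ, max_eq_right h]
      simpa using intervalIntegral.integral_nonneg (by linarith) fun _ _ => sq_nonneg _
    · refine (Lab36.gap_pos A.LB_u (u := l) l0.le l0.le (by linarith) κ0 fun t t1 t2 => ?_).trans
        (int_sub_le A.LB_J2 le_rfl l0.le (by linarith) (by linarith) (by linarith)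
          fun _ _ _ => sq_nonneg _)
      rw [hκ, max_eq_left h]
      linarith [mb t1.le, mh (show t ≤ 2 * l by linarith)]
  have p := int_le_const lu.abs (K := κ + 4 * S.C * l) le_rfl l0.le (by linarith) fun t t1 t2 => by
    have := mb t2.le
    have := mh (show t ≤ 2 * l by linarith)
    have := Pp.Ode3.lvr_pos A.okb.1.1 (l := lb M S m a T) t
    have := Pp.Ode3.lvr_pos A.okh.1.1 (l := lh M T) t
    have := le_max_left (lvr 1 (lb M S m a T) l - lvr 1 (lh M T) (2 * l)) 0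
    unfold uu
    exact abs_le.2 ⟨by linarith, by linarith⟩
  have q := mul_le_mul_of_nonneg_left p ρ0
  obtain ⟨x, rfl⟩ : ∃ x, ρ = x * l := ⟨ρ / l, by field_simp⟩
  have e : (x * l) ^ 2 / l = x ^ 2 * l := by field_simp
  rw [e]
  have y1 : x * l * (l * κ) ≤ 512 / c * (x ^ 2 * l) + c / 32 * (κ ^ 2 * l ^ 3 / 64) := by
    have : 512 / c * (x ^ 2 * l) + c / 32 * (κ ^ 2 * l ^ 3 / 64) - x * l * (l * κ) =
        l * (1024 * x - c * κ * l) ^ 2 / (2048 * c) := by field_simp; ring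
    have : 0 ≤ l * (1024 * x - c * κ * l) ^ 2 / (2048 * c) := by positivity
    linarith
  have y2 : x * l ^ 3 ≤ x ^ 2 * l + l ^ 5 := by
    nlinarith [mul_nonneg l0.le (sq_nonneg (x - l ^ 2)), mul_nonneg l0.le (sq_nonneg x), pow_pos l0 5]
  linarith [mul_le_mul_of_nonneg_left y2 (show 0 ≤ 4 * S.C by positivity),
    mul_le_mul_of_nonneg_left g (show 0 ≤ c / 32 by positivity)]

/-- the area below `l`, thick form -/
theorem ar_thick (A : At S M m a T) {l x b ρ D μ : ℝ} (l0 : 0 < l) (x0 : 0 ≤ x) (hb : l ≤ b)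
    (xb : x ≤ b) (bT : b ≤ T) (ρ0 : 0 ≤ ρ) (μ0 : 0 < μ) (lH : LB T (HH M S m a T))
    (hD : ∀ t, 0 < t → t < x → |uu M S m a T t| ≤ D) (D0 : 0 ≤ D)
    (hμ : ∀ t, x < t → μ ≤ mm M S m a t) :
    ρ * ∫ t in (0 : ℝ)..l, |uu M S m a T t| ≤ ρ * (x * D) + l * (4 * ρ ^ 2 / μ) +
      (∫ t in x..b, HH M S m a T t * uu M S m a T t) / 16 := by
  have lu : LB T (uu M S m a T) := A.LB_u
  have fl : ∀ t, 0 ≤ t → mm M S m a t * uu M S m a T t ^ 2 ≤ HH M S m a T t * uu M S m a T t :=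
    fun t t0 => Gap27.HN_floor (mm_Mx A t0)
  have nn : ∀ t, 0 ≤ t → 0 ≤ HH M S m a T t * uu M S m a T t := fun t t0 =>
    (mul_nonneg (A.mm_pos t0).le (sq_nonneg _)).trans (fl t t0)
  have q0 : 0 ≤ 4 * ρ ^ 2 / μ := by positivity
  have low : ∀ y, 0 ≤ y → y ≤ x → ρ * ∫ t in (0 : ℝ)..y, |uu M S m a T t| ≤ ρ * (x * D) :=
    fun y y0 y1 => mul_le_mul_of_nonneg_left ((int_le_const lu.abs le_rfl y0 (by linarith)
      fun t t1 t2 => hD t t1 (by linarith)).trans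
        (mul_le_mul_of_nonneg_right (by linarith) D0)) ρ0
  rcases le_total l x with h | h
  · have : 0 ≤ ∫ t in x..b, HH M S m a T t * uu M S m a T t :=
      intervalIntegral.integral_nonneg xb fun t ht => nn t (x0.trans ht.1)
    linarith [low l l0.le h, mul_nonneg l0.le q0]
  have mx : x ∈ Icc 0 T := ⟨x0, by linarith⟩
  have ml : l ∈ Icc 0 T := ⟨l0.le, by linarith⟩
  have p := int_mono ((LB.const ρ).mul lu.abs) (((lH.mul lu).div 16).add (LB.const (4 * ρ ^ 2 / μ)))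
    x0 h ml.2 fun t t1 _ => by
      have a1 := mul_le_mul_of_nonneg_right (hμ t t1) (sq_nonneg (uu M S m a T t))
      have a2 : ρ * |uu M S m a T t| ≤ μ * uu M S m a T t ^ 2 / 16 + 4 * ρ ^ 2 / μ := by
        rw [← sq_abs (uu M S m a T t)]
        generalize |uu M S m a T t| = w
        have : μ * w ^ 2 / 16 + 4 * ρ ^ 2 / μ - ρ * w = (μ * w - 8 * ρ) ^ 2 / (16 * μ) := by
          field_simp; ring
        have : 0 ≤ (μ * w - 8 * ρ) ^ 2 / (16 * μ) := by positivity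
        linarith
      linarith [fl t (by linarith)]
  rw [intervalIntegral.integral_const_mul, intervalIntegral.integral_add
    (((lH.mul lu).div 16).ii mx ml) ((LB.const _).ii mx ml), intervalIntegral.integral_div,
    intervalIntegral.integral_const, smul_eq_mul] at p
  have q := int_sub_le (lH.mul lu) x0 le_rfl h hb bT fun t t1 _ => nn t (by linarith)
  rw [int_split lu.abs (b := x) ⟨le_rfl, by linarith⟩ mx ml, mul_add]
  linarith [low x x0 le_rfl, mul_nonneg x0 q0]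

end R25

open R25 in
set_option maxHeartbeats 1600000 in
/-- the root data, with the quartic part `√(A Y)` of the slow residual -/
theorem rt_core (h : RtN) (C B c θ : ℝ) (c0 : 0 < c) (θ0 : 0 < θ) (θ1 : θ ≤ 1) : ∃ K : ℝ, 1 ≤ K ∧
  ∀ (S : Sc) (M : Md) (m : ℕ) (a G1 L l X2 Y : ℝ) (u : ℕ) (s ρ : ℝ)
    (r1 r2 ω β f : ℝ → ℝ), At S M m a (2 * C) → S.C = C → CeiG S M G1 →
  (∀ t t', 0 ≤ t → t ≤ t' → S.ms t' ≤ S.ms t + t' ^ 2) →
  Fr (2 * C) c B (Spl27.okT (2 * C)) (lvr 1) Pr.Gam Pr.GG → K ≤ L → 0 < l → L * S.v ≤ l ^ 2 →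
  0 ≤ X2 → L ^ 4 * X2 ≤ mf S l → L ^ 2 * (cr S l * l) ≤ s → S.jl < u → u < S.J →
  (l ≤ M.s u ∧ M.s u ≤ L * l) → s < M.s S.J → sb M m a (u + 1) ≤ L * (cr S l * l) →
  |res M S m a (2 * C) u| ≤ L * (S.F * S.ms l * l + l ^ 3) + S.ms l * sb M m a (u + 1) / L →
  0 ≤ ρ → 0 ≤ Y →
  ρ ≤ L * ((sb M m a (u + 1) + l) * X2 + l * (cr S l * l) ^ 2 + √(sb M m a (u + 1) * Y)) →
  LB (2 * C) f → Res (2 * C) (uu M S m a (2 * C))
    (fun t => Pr.Gam (lb M S m a (2 * C)) t - Pr.Gam (lh M (2 * C)) t) (HH M S m a (2 * C))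
    r1 r2 ω β (fun t => Gap27.xi θ (mm M S m a t) (f t) (io M S m a (2 * C)) (uu M S m a (2 * C) t)
      (JJ M S m a (2 * C) t)) (sb M m a (u + 1)) s →
  (∀ t, sb M m a (u + 1) ≤ t → t ≤ s → |r2 t| ≤ (∫ r in sb M m a (u + 1)..t, ω r) + ρ + β t) →
  ∃ l' D f0 Ar, Rt (2 * C) B θ (lvr 1 (lh M (2 * C))) (lvr 1 (lb M S m a (2 * C))) (rq S M m a)
      (HH M S m a (2 * C)) r1 r2 ω β (mm M S m a) f (sb M m a (u + 1)) s l' D ρ f0 C
      (2 * (C * S.v)) ∧
    0 ≤ Ar ∧ l' ≤ L * (cr S l * l) ∧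
    (∀ b, 2 * l' ≤ b → sb M m a (u + 1) ≤ b → b ≤ s →
      ρ * ∫ t in (0 : ℝ)..l', |uu M S m a (2 * C) t| ≤ Ar +
        (∫ t in sb M m a (u + 1)..b, HH M S m a (2 * C) t * uu M S m a (2 * C) t) / 16 +
        c / 32 * ∫ t in (0 : ℝ)..b, JJ M S m a (2 * C) t ^ 2) ∧
    sb M m a (u + 1) * f0 + ρ ^ 2 / l' + Ar + mf S (sb M m a (u + 1)) * D ^ 2 * sb M m a (u + 1) ≤
      L ^ 70 * S.F ^ 10 * (W0 S l + (cr S l * l * X2 ^ 2 + Y)) +
      θ ^ 2 * ((∫ t in (0 : ℝ)..sb M m a (u + 1), JJ M S m a (2 * C) t ^ 2) +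
        sb M m a (u + 1) * io M S m a (2 * C) ^ 2) := by
  obtain ⟨K0, K1, h⟩ := h C
  refine ⟨max K0 (17 + 128 / θ ^ 4 + (128 / θ ^ 4 * (2 + (1 + B + 2 * B * C) ^ 4) + 5 * C +
    4 * C ^ 2) / θ ^ 2 + (1 + 4 * C + 512 / c + 1536 * C ^ 5)), K1.trans (le_max_left _ _),
    fun S M m a G1 L l X2 Y u s ρ r1 r2 ω β f A hC ce sub F hK l0 hv X0 hX hs ju uJ su sJ cru ru ρ0
      Y0 ρ1 lf Rs ab => ?_⟩
  subst hC
  have B0 := F.C_nn
  have C0 := A.c_pos
  have C1 := A.cl.C1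
  have F1 := A.cl.F1
  have v0 := v_pos A.cl
  obtain ⟨hK0, hK⟩ := max_le_iff.1 hK
  set k0 := 128 / θ ^ 4 with hk0
  set k := (1 + B + 2 * B * S.C) ^ 4 with hk
  set k1 := k0 * (2 + k) + 5 * S.C + 4 * S.C ^ 2 with hk1
  set k2 := 1 + 4 * S.C + 512 / c + 1536 * S.C ^ 5 with hk2
  have p0 : 0 ≤ k0 := by positivity
  have pk : 0 ≤ k := by positivity
  have p1 : 0 ≤ k1 := by positivity
  have p1' : 0 ≤ k1 / θ ^ 2 := by positivity
  have pc : 0 ≤ 512 / c := by positivity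
  have p5 : 0 ≤ 1536 * S.C ^ 5 := by positivity
  have p2 : 0 ≤ k2 := by positivity
  have L16 : 16 ≤ L := by linarith
  have n0 : k0 + 1 ≤ L := by linarith
  have n1 : k1 / θ ^ 2 ≤ L := by linarith
  have n2 : k2 ≤ L := by linarith
  have n3 : 4 * S.C ≤ L := by linarith
  clear_value k0 k k1 k2
  have L1 : 1 ≤ L := by linarith
  have m0 := A.ms_pos l0.le
  have up := uJ.le.trans A.cl.i3
  have mA := A.sb_mem up
  set A0 := sb M m a (u + 1) with hA0
  set cl0 := cr S l * l with hcl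
  have lc : l ≤ cl0 := le_mul_of_one_le_left l0.le (le_max_left _ _)
  have cl1 : 0 < cl0 := l0.trans_le lc
  have c3 := Ab33.cc_cube A.cl l0
  rw [← hcl] at c3
  have t2 : ts S l ^ 2 = max (l ^ 2) (S.F * S.ms l) := by
    have q : √(S.F * S.ms l) ^ 2 = S.F * S.ms l := Real.sq_sqrt (by positivity)
    rcases le_total l (√(S.F * S.ms l)) with e | e
    · rw [ts, max_eq_right e, q, max_eq_right (q ▸ pow_le_pow_left₀ l0.le e 2)]
    · rw [ts, max_eq_left e, max_eq_left (q ▸ pow_le_pow_left₀ (Real.sqrt_nonneg _) e 2)]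
  have lt : l ≤ ts S l := le_max_left _ _
  have c3' : cl0 ^ 3 = l * ts S l ^ 2 := by
    rw [c3, t2, mul_max_of_nonneg _ _ l0.le]; congr 1 <;> ring
  have ct : cl0 ≤ ts S l := le_of_pow_le_pow_left₀ (n := 3) (by norm_num) (l0.le.trans lt) (by
    rw [c3']; linarith [mul_le_mul_of_nonneg_right lt (sq_nonneg (ts S l))])
  have Lc : cl0 ≤ L * cl0 := le_mul_of_one_le_left cl1.le L1
  have Lc2 : L * cl0 ≤ L ^ 2 * cl0 := mul_le_mul_of_nonneg_right (by nlinarith) cl1.le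
  have As : A0 ≤ s := by linarith [cru]
  have sT := A.sJ_T
  have Ll : 16 * l ≤ L * l := mul_le_mul_of_nonneg_right L16 l0.le
  have vl : S.v ≤ l := by
    have : l ≤ L := by linarith
    exact le_of_mul_le_mul_left (hv.trans (by nlinarith)) (show 0 < L by linarith)
  have hP := h S M m a G1 L l _ _ u A rfl ce sub hK0 l0 ju uJ su.2 (by linarith) cru ru
    le_rfl le_rfl
  rw [← hA0] at hP
  set R := A0 + L * l with hR
  have R1 : A0 ≤ R := by linarith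
  have R2 : L * l ≤ R := by linarith [mA.1]
  have R0 : 0 < R := by linarith
  have mA0 := (A.ms_pos mA.1).le
  obtain ⟨f0, f00, nm, hf⟩ := num_root θ0 θ1 B0 C0.le L1 l0 cl1.le ct c3' mA.1 cru X0 hR Y0 ρ1
  rw [← hk0, ← hk] at hf
  have cv : S.C * (2 * S.v) ≤ S.C * R := mul_le_mul_of_nonneg_left (by linarith) C0.le
  have D1 : lvr 1 (lb M S m a (2 * S.C)) A0 ≤ 2 * S.C * R := by
    rw [hA0, A.lvb_node ju.le up, ← A.lvh_node (A.cl.i1.trans ju.le) uJ]
    have := A.zh_le' (s_nn A.cl u) ((s_lt A.cl uJ).trans_le (A.cl.sm uJ))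
    linarith [mul_le_mul_of_nonneg_left (su.2.trans R2) C0.le]
  have D2 : lvr 1 (lh M (2 * S.C)) A0 ≤ 2 * S.C * R := by
    have := A.zh_le' mA.1 (by linarith)
    linarith [mul_le_mul_of_nonneg_left R1 C0.le]
  have W00 : 0 ≤ W0 S l := by unfold W0; positivity
  have l5 : l ^ 5 ≤ W0 S l := le_add_of_nonneg_right (by positivity)
  have r0 : 0 ≤ ρ ^ 2 / cl0 := by positivity
  have P0 : 0 ≤ R ^ 3 * ts S l ^ 2 := by positivity
  have ρR : ρ ≤ 2 * (R * ts S l ^ 2) + L * √(A0 * Y) := by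
    have a1 : L * X2 ≤ ts S l ^ 2 := by
      have : L * X2 ≤ L ^ 4 * X2 :=
        mul_le_mul_of_nonneg_right (le_self_pow₀ L1 (by norm_num)) X0
      have q : mf S l ≤ S.ms l := div_le_self m0.le F1
      rw [t2]
      exact le_max_of_le_right (by linarith [le_mul_of_one_le_left m0.le F1])
    have a2 : (A0 + l) * (L * X2) ≤ R * ts S l ^ 2 :=
      mul_le_mul (by linarith) a1 (by positivity) R0.le
    have a3 : L * l * cl0 ^ 2 ≤ R * ts S l ^ 2 :=
      mul_le_mul R2 (pow_le_pow_left₀ cl1.le ct 2) (by positivity) R0.le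
    linarith [ρ1]
  refine ⟨cl0, 2 * S.C * R, f0, 4 * S.C * (R ^ 3 * ts S l ^ 2) + S.C * (L ^ 2 * Y + R ^ 5) +
    (4 * S.C + 512 / c + 1536 * S.C ^ 5) * S.F ^ 2 * (ρ ^ 2 / cl0) + 4 * S.C * l ^ 5,
    ⟨mA.1, by linarith, θ0, A.LB_mm, lf, Rs, fun t t0 _ => Gap27.HN_floor (mm_Mx A (by linarith [mA.1])),
      fun t t' a1 a2 a3 => by linarith [(A.sl sJ t t' a1 a2 a3).2, mul_pos C0 v0], ?_, D1, D2, ρ0,
      ab, f00, nm, cl1⟩, by positivity, Lc, fun y y1 y2 y3 => ?_, ?_⟩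
  · have := A.zh_le' le_rfl (by linarith [mA.1])
    linarith
  · have F2 : 1 ≤ S.F ^ 2 := one_le_pow₀ F1
    have i1 : 0 ≤ ∫ t in A0..y, HH M S m a (2 * S.C) t * uu M S m a (2 * S.C) t :=
      intervalIntegral.integral_nonneg y2 fun t ht => (mul_nonneg (A.mm_pos (mA.1.trans ht.1)).le
        (sq_nonneg _)).trans (Gap27.HN_floor (mm_Mx A (mA.1.trans ht.1)))
    have i2 : 0 ≤ c / 32 * ∫ t in (0 : ℝ)..y, JJ M S m a (2 * S.C) t ^ 2 :=
      mul_nonneg (by positivity) (intervalIntegral.integral_nonneg (by linarith) fun _ _ => sq_nonneg _)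
    have j1 := mul_le_mul_of_nonneg_right (le_mul_of_one_le_right
      (show 0 ≤ 4 * S.C + 512 / c by positivity) F2) r0
    have j2 : 0 ≤ 1536 * S.C ^ 5 * S.F ^ 2 * (ρ ^ 2 / cl0) := by positivity
    have j3 : 0 ≤ (4 * S.C + 512 / c) * (ρ ^ 2 / cl0) := by positivity
    have j4 : 0 ≤ 4 * S.C * (R ^ 3 * ts S l ^ 2) := by positivity
    have j5 : 0 ≤ 4 * S.C * l ^ 5 := by positivity
    have j6 : 0 ≤ S.C * (L ^ 2 * Y + R ^ 5) := by positivity
    rcases le_total (S.F * S.ms l) (l ^ 2) with e | e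
    · have e1 : cl0 = l := by
        rw [t2, max_eq_left e] at c3'
        exact (pow_left_inj₀ cl1.le l0.le (by norm_num : 3 ≠ 0)).1 (c3'.trans (by ring))
      have := ar_thin A cl1 (vl.trans lc) y1 (by linarith) ρ0 c0
      rw [show cl0 ^ 5 = l ^ 5 by rw [e1]] at this
      linarith only [this, i1, j1, j2, j4, j6]
    · have K0 := A.K_pos
      have := ar_thick A cl1 mA.1 (b := y) (by linarith) y2 (by linarith) ρ0 (div_pos m0 K0) Rs.lH
        (D := 2 * S.C * R) (fun t t1 t2 => by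
          have := Sc48.lvr_mono A.okb.1.1 t2.le
          have := Sc48.lvr_mono A.okh.1.1 t2.le
          have := Pp.Ode3.lvr_pos A.okb.1.1 (l := lb M S m a (2 * S.C)) t
          have := Pp.Ode3.lvr_pos A.okh.1.1 (l := lh M (2 * S.C)) t
          unfold uu
          exact abs_le.2 ⟨by linarith, by linarith⟩) (by positivity) fun t t1 => by
          refine div_le_div_of_nonneg_right (A.cl.msm (su.1.trans ?_)) K0.le
          refine le_trans ?_ (A.lev_mono t1.le)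
          rw [hA0, A.lev_cell (A.cell ju.le up)]
          exact le_max_right _ _
      have a1 : ρ * (A0 * (2 * S.C * R)) ≤
          (2 * (R * ts S l ^ 2) + L * √(A0 * Y)) * (R * (2 * S.C * R)) := by
        have := mA.1; have : 0 ≤ L := by linarith
        gcongr
      have a0 := mul_le_mul_of_nonneg_left (rho_R (L := L) mA.1 R1 Y0) C0.le
      have a2 : cl0 * (4 * ρ ^ 2 / (S.ms l / (384 * S.C ^ 5 * S.F))) ≤
          1536 * S.C ^ 5 * S.F ^ 2 * (ρ ^ 2 / cl0) := by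
        have q : cl0 ^ 2 ≤ S.F * S.ms l := by
          have := pow_le_pow_left₀ cl1.le ct 2
          rwa [t2, max_eq_right e] at this
        have e2 : cl0 * (4 * ρ ^ 2 / (S.ms l / (384 * S.C ^ 5 * S.F))) =
            1536 * S.C ^ 5 * S.F * (ρ ^ 2 / cl0) * (cl0 ^ 2 / S.ms l) := by field_simp; ring
        have q' : cl0 ^ 2 / S.ms l ≤ S.F := by rwa [div_le_iff₀ m0]
        rw [e2]
        linarith [mul_le_mul_of_nonneg_left q' (show 0 ≤ 1536 * S.C ^ 5 * S.F * (ρ ^ 2 / cl0) by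
          positivity)]
      linarith only [this, a0, a1, a2, i2, j1, j3, j5]
  · refine num_sum (r := ρ ^ 2 / cl0) (C := 4 * S.C) θ0 θ1 L16 F1
      (add_nonneg p0 zero_le_one) p1
      p2 (by positivity) W00 (by positivity) (add_nonneg (intervalIntegral.integral_nonneg mA.1
        fun _ _ => sq_nonneg _) (mul_nonneg mA.1 (sq_nonneg _))) n0 n1 n2 n3 hP ?_ ?_
    · rw [div_le_iff₀ cl1]
      have a1 : ρ ≤ L * (2 * L * cl0 * X2 + l * cl0 ^ 2 + √(A0 * Y)) :=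
        ρ1.trans (mul_le_mul_of_nonneg_left (add_le_add (add_le_add
          (mul_le_mul_of_nonneg_right (by linarith [cru]) X0) le_rfl) le_rfl) (by linarith))
      refine rho_sq ρ0 L1 mA.1 Y0 cru a1 cl1.le ?_
      rw [c3, mul_max_of_nonneg _ _ (sq_nonneg l), W0]
      have q1 := le_mul_of_one_le_left (pow_pos l0 5).le F1
      have q2 : 0 ≤ S.F * (S.ms l * l ^ 3) := by positivity
      have q3 := pow_pos l0 5
      exact max_le (by linarith only [q1, q2, q3]) (by linarith only [q1, q2, q3])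
    · have F2 : 1 ≤ S.F ^ 2 := one_le_pow₀ F1
      have a1 : mf S A0 * (2 * S.C * R) ^ 2 * A0 ≤ S.ms A0 * (2 * S.C * R) ^ 2 * R := by
        have : mf S A0 ≤ S.ms A0 := div_le_self mA0 F1
        have := mA.1
        gcongr
      have a2 := le_mul_of_one_le_left r0 F2
      have a3 := mul_le_mul_of_nonneg_left l5 (show 0 ≤ 4 * S.C by positivity)
      have q1 : 0 ≤ R ^ 5 := by positivity
      have q2 : 0 ≤ R ^ 3 * S.ms A0 := by positivity
      have g1 : S.C * (L ^ 2 * Y) ≤ L * (L ^ 2 * Y) :=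
        mul_le_mul_of_nonneg_right (by linarith only [n3, C0]) (by positivity)
      have g6 : 0 ≤ L ^ 3 * (cl0 * X2 ^ 2) := by have : 0 ≤ L := by linarith only [L1]
                                                 positivity
      have g7 := mul_nonneg C0.le P0
      have g2 := mul_nonneg (mul_nonneg p0 (add_nonneg zero_le_one pk)) P0
      have g3 := mul_nonneg (mul_nonneg p0 (add_nonneg zero_le_two pk)) q2
      have g4 := mul_nonneg C0.le (add_nonneg q1 q2)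
      have g5 := mul_nonneg (sq_nonneg S.C) (add_nonneg q1 P0)
      have g8 := mul_nonneg C0.le q2
      rw [hk1, hk2]
      linarith only [hf, a1, a2, a3, g1, g2, g3, g4, g5, g6, g7, g8]

/-- **(RtK)** -/
theorem rtK_of (h : RtN) : RtK := fun C B c θ c0 θ0 θ1 => by
  obtain ⟨K, K1, h⟩ := rt_core h C B c θ c0 θ0 θ1
  refine ⟨K, K1, fun S M m a G1 L l X X2 Eg Y η u s ρ r1 r2 ω β f A hC ce sub F hK l0 hv X0 hX hs b
    Y0 hρ => ?_⟩
  simpa only [add_assoc] using h S M m a G1 L l X2 Y u s ρ r1 r2 ω β f A hC ce sub F hK l0 hv X0 hX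
    hs b.ju b.uJ b.su b.s1.2 b.cru b.ru b.ρ0 Y0 hρ b.lf b.R b.ab

theorem rtK : RtK := rtK_of rtN

end Crest.Agent.T156.Alt.L31

end
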