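import Crest.Agent.T156.NdP_33
import Crest.Agent.T156.QPl_57
import Crest.Agent.T156.Abel_33

/-!
# Row 156, block (L): a node with a two-sided cone in every shell of the plateau (helper33)
-/

set_option autoImplicit false
set_option linter.unusedSectionVars false

noncomputable section

namespace Crest.Agent.T156.Alt.Nd33

open Real Finset Filter
open Crest.Agent.T156.Alt.Md67 Crest.Agent.T156.Alt.L69

/-- the data of the rise: energy `Xp`, spread `γ` -/
structure RH (S : Sc) (M : Md) (m : ℕ) (a Xp γ : ℝ) : Prop where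
  cl : Cl S M
  m0 : 0 < m
  u0 : 0 < S.u0
  X0 : 0 < Xp
  X1 : 48 * S.C ^ 4 * Xp ^ ((1 : ℝ) / 3) ≤ 1
  v1 : 48 * S.C ^ 4 * S.v ≤ 1
  jl : 2 * M.s S.jl < M.s S.J
  top : M.En S m a M.q 2 (M.s S.J / 2) S.C ≤ Xp
  γ0 : M.s S.Jp - M.s S.J ≤ γ

variable {S : Sc} {M : Md} {m : ℕ} {a Xp γ V : ℝ}

namespace RH
variable (H : RH S M m a Xp γ)
include H

theorem mem {y : ℕ} (h0 : S.jl < y) (h1 : y ≤ S.Jp) (h2 : M.s S.J / 2 ≤ M.s y) :
    y ∈ M.blk S (M.s S.J / 2) S.C :=
  mem_filter.2 ⟨mem_Ioc.2 ⟨H.cl.i1.trans_lt h0, h1⟩, h2, H.cl.s_le_C h1⟩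

theorem γ_nn : 0 ≤ γ := (sub_nonneg.2 (H.cl.sm H.cl.i3)).trans H.γ0

/-- lower location on the top window -/
theorem lo {i : ℕ} (hi : i < S.J) (hs : 3 / 4 * M.s S.J ≤ M.s i) :
    -M.del m a i ≤ 3 * S.C * Xp ^ ((1 : ℝ) / 3) + S.C * S.v := by
  have h := H.cl
  have v0 := h.v0
  have C0 := h.C0
  have C1 := h.C1
  have i3 := h.i3
  have i4 := h.i4
  have p3 : (Xp ^ ((1 : ℝ) / 3)) ^ 3 = Xp := by
    rw [← rpow_natCast, ← rpow_mul H.X0.le]; norm_num
  have p0 : 0 < Xp ^ ((1 : ℝ) / 3) := rpow_pos_of_pos H.X0 _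
  have x1 := H.X1
  have hE := H.top
  generalize Xp ^ ((1 : ℝ) / 3) = q at *
  obtain ⟨n, n1, n2⟩ : ∃ n : ℕ, q ≤ n * S.v ∧ n * S.v ≤ q + S.v :=
    ⟨⌈q / S.v⌉₊, (div_le_iff₀ v0).1 (Nat.le_ceil _), by
      have := (lt_div_iff₀ v0).1 (sub_lt_iff_lt_add.2 (Nat.ceil_lt_add_one (div_pos p0 v0).le))
      linarith⟩
  have sJ := Ab33.sJ_ge h
  have s0 : 0 < M.s S.J := h.s_pos (by have := h.i2; omega)
  have e1 : 8 * (n * (S.C * S.v)) ≤ M.s S.J := by
    refine le_of_mul_le_mul_left ?_ (show 0 < 3 * S.C ^ 3 by positivity)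
    linarith [H.v1, mul_le_mul_of_nonneg_left n2 (show 0 ≤ 24 * S.C ^ 4 by positivity)]
  have ni : n ≤ i := by
    by_contra e
    have e3 : (i : ℝ) ≤ n := by exact_mod_cast (not_le.1 e).le
    have := (h.s_bds hi.le).2.trans (mul_le_mul_of_nonneg_right e3 (by positivity))
    linarith
  have e4 := (h.s_tel (i := i - n) (j := i) (by omega) hi.le).2
  rw [Nat.cast_sub ni, sub_sub_cancel] at e4
  have e5 : S.jl < i - n := h.sm.reflect_lt (by linarith [H.jl])
  have n0 : 0 < n := Nat.cast_pos.1 (pos_of_mul_pos_left (p0.trans_le n1) v0.le)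
  have := Pl57.lo_slope h (f := M.del m a) (K := S.C) (l := S.C * q) (kb := i - n)
    (k := i) C0.le (h.i1.trans e5.le) n0 (by omega) hi (fun y _ y1 => by
      have a1 := rb_mono (M := M) (a := a) H.m0 y.le_succ
      have a2 := q_lip h y.le_succ (by omega)
      have a3 := (h.ss y (by omega)).2
      unfold Md.del
      linarith) (fun y hy => by
      obtain ⟨y0, y1⟩ := mem_Ioc.1 hy
      have := h.sm y0.le
      exact H.mem (by omega) (by omega) (by linarith)) two_ne_zero hE (by positivity) (by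
      calc Xp = q ^ 2 * q := by rw [← p3]; ring
        _ ≤ 2 * S.C * q ^ 2 * (n * S.v) := by gcongr; nlinarith [sq_nonneg q]
        _ = _ := by field_simp)
  linarith [mul_le_mul_of_nonneg_left n2 C0.le]

/-- upper location on the plateau -/
theorem up {b : ℕ} (h0 : S.J ≤ b) (h1 : b ≤ S.Jp) {W : ℝ} (W0 : 0 < W) (hW : W / 2 ≤ du M b) :
    M.del m a b ≤ γ + 2 * √(Xp / W) := by
  have h := H.cl
  have i2 := h.i2
  have i4 := h.i4
  have s0 : 0 < M.s S.J := h.s_pos (by omega)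
  have := Pl57.persist h.leg.zm (f := M.del m a) (a := b - 1) (b := S.Jp) (i := 2)
    (F := M.del m a b - γ) (l := √(Xp / W)) (by omega) (fun y hy => by
      obtain ⟨y0, y1⟩ := mem_Ioc.1 hy
      exact H.mem (by omega) y1 (by linarith [h.sm (show S.J ≤ y by omega)])) two_ne_zero H.top W0
    (by rw [h.top _ le_rfl]; exact hW) (sqrt_nonneg _)
    (by rw [sq_sqrt (div_pos H.X0 W0).le, div_mul_cancel₀ _ W0.ne']) fun y y0 y1 => by
      have a1 := rb_mono (M := M) (a := a) H.m0 (show b ≤ y by omega)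
      have a2 := q_lip h (show b ≤ y by omega) (by omega)
      refine le_trans ?_ (le_abs_self _)
      unfold Md.del
      linarith [H.γ0, h.sm y1, h.sm h0]
  linarith

/-- **the rise** up to a node of the plateau -/
theorem rise {b : ℕ} (h0 : S.J ≤ b) (h1 : b ≤ S.Jp) (i : ℕ) : M.rb m a b - M.rb m a i ≤
    max (M.del m a b) 0 + γ + 3 * S.C * Xp ^ ((1 : ℝ) / 3) + 2 * S.C * S.v +
      12 * S.C ^ 4 * (((S.J - i : ℕ) : ℝ) * S.v) := by
  have h := H.cl
  have v0 := h.v0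
  have C0 := h.C0
  have C1 := h.C1
  have i2 := h.i2
  have i4 := h.i4
  have γ0 := H.γ_nn
  have p0 : 0 < Xp ^ ((1 : ℝ) / 3) := rpow_pos_of_pos H.X0 _
  have sJ := Ab33.sJ_ge h
  have c4 : S.C ≤ S.C ^ 4 := le_self_pow₀ C1 (by norm_num)
  have d0 := le_max_left (M.del m a b) 0
  have d1 := le_max_right (M.del m a b) 0
  have key : ∀ i < S.J, 3 / 4 * M.s S.J ≤ M.s i → M.rb m a b - M.rb m a i ≤
      max (M.del m a b) 0 + γ + 3 * S.C * Xp ^ ((1 : ℝ) / 3) + S.C * S.v +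
        S.C * (((S.J - i : ℕ) : ℝ) * S.v) := fun i hi hs => by
    have a1 := H.lo hi hs
    have a2 := q_lip h (show i ≤ b by omega) (by omega)
    have a3 := (h.s_tel hi.le le_rfl).2
    rw [Nat.cast_sub hi.le]
    unfold Md.del at a1 d0 ⊢
    linarith [H.γ0, h.sm h1]
  have nn : 0 ≤ ((S.J - i : ℕ) : ℝ) * S.v := by positivity
  rcases lt_or_ge i S.J with c | c
  · rcases le_total (3 / 4 * M.s S.J) (M.s i) with d | d
    · linarith [key i c d, mul_le_mul_of_nonneg_right c4 nn, mul_pos C0 v0,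
        mul_nonneg (pow_pos C0 4).le nn]
    · have a3 := mul_le_mul_of_nonneg_left (h.s_tel c.le le_rfl).2
        (show 0 ≤ 12 * S.C ^ 3 by positivity)
      have a4 := mul_le_mul_of_nonneg_left d (show 0 ≤ 12 * S.C ^ 3 by positivity)
      rw [Nat.cast_sub c.le]
      linarith [rb_nonneg (M := M) (a := a) H.m0 i, rb_le_one (M := M) (a := a) H.m0 b,
        mul_pos C0 v0, mul_pos C0 p0]
  · have a1 := (h.ss (S.J - 1) (by omega)).2
    rw [Nat.sub_add_cancel (by omega)] at a1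
    have a2 : 4 * (S.C * S.v) ≤ M.s S.J := by
      refine le_of_mul_le_mul_left ?_ (show 0 < 3 * S.C ^ 3 by positivity)
      linarith [H.v1, mul_pos (pow_pos C0 4) v0]
    have a3 := key (S.J - 1) (by omega) (by linarith)
    rw [show S.J - (S.J - 1) = 1 by omega, Nat.cast_one, one_mul] at a3
    linarith [rb_mono (M := M) (a := a) H.m0 (show S.J - 1 ≤ i by omega),
      mul_nonneg (pow_pos C0 4).le nn]

/-- counting upwards in the shell -/
theorem cnt {k : ℕ} (h0 : S.J ≤ k) (hu : 2 * S.ue < du M k) (n : ℕ)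
    (hn : n * (S.C ^ 2 * S.v) ≤ lsh M S k / 2) : k + n < S.Jp ∧
      S.den (M.z (k - 1)) * (M.z (k + n - 1) - M.z (k - 1)) ≤ n * (S.C ^ 2 * S.v) := by
  have h := H.cl
  have i2 := h.i2
  have d0 := h.den0 (M.z (k - 1))
  have cv : 0 < S.C ^ 2 * S.v := by have := h.C0; have := h.v0; positivity
  have sd : ds M S k ≤ du M k := min_le_right _ _
  have ue := h.last
  have z1 := h.leg.z1 (S.Jp - 1)
  have lt : ∀ t : ℕ, t * (S.C ^ 2 * S.v) ≤ lsh M S k / 2 →
      S.den (M.z (k - 1)) * (M.z (k + t - 1) - M.z (k - 1)) ≤ t * (S.C ^ 2 * S.v) →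
      M.z (k + t - 1) - M.z (k - 1) ≤ ds M S k / 2 ∧ k + t < S.Jp := fun t a b => by
    have c : M.z (k + t - 1) - M.z (k - 1) ≤ ds M S k / 2 :=
      le_of_mul_le_mul_left (by unfold lsh at a; linarith) d0
    refine ⟨c, not_le.1 fun e => ?_⟩
    have := h.leg.zm (show S.Jp - 1 ≤ k + t - 1 by omega)
    unfold du at hu sd
    linarith
  suffices s : S.den (M.z (k - 1)) * (M.z (k + n - 1) - M.z (k - 1)) ≤ n * (S.C ^ 2 * S.v) from
    ⟨(lt n hn s).2, s⟩
  induction n with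
  | zero => simp
  | succ n ih =>
    push_cast at hn ⊢
    have a1 := ih (by linarith)
    obtain ⟨a2, a3⟩ := lt n (by linarith) a1
    have a4 := h.leg.zm (show k - 1 ≤ k + n - 1 by omega)
    have := (Pl57.step h (Pl57.x_ge h h0) (Pl57.x_lt h h0 (by omega)) (y := k + n) (by omega) a3
      (by rw [abs_of_nonneg (by linarith)]; exact a2)).2
    rw [show k + (n + 1) - 1 = k + n by omega]
    linarith

/-- **a node with a two-sided cone in the shell of `k`** -/
theorem cone_ex {k : ℕ} (h0 : S.J ≤ k) (hu : 2 * S.ue < du M k) (V0 : 0 ≤ V)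
    (hV : ∀ b, S.J ≤ b → b ≤ S.Jp → du M k / 2 ≤ du M b → M.del m a b ≤ V)
    (fine : 16 * S.C ^ 2 * S.v ≤ lsh M S k) {κ : ℝ}
    (hκ : 125 * S.C ^ 4 * (1 + (Rp M S Xp V γ k + Xp ^ ((1 : ℝ) / 3)) / lsh M S k) ≤ κ) :
    ∃ j, k < j ∧ j + 1 < S.Jp ∧ M.z (j - 1) ≤ M.z (k - 1) + ds M S k / 8 ∧
      M.z j ≤ M.z (k - 1) + ds M S k / 4 ∧ ∀ i : ℕ, i < S.Jp →
        M.z (i - 1) ≤ M.z (k - 1) + ds M S k / 2 →
        |M.rb m a i - M.rb m a j| ≤ κ * |(i : ℝ) - j| * S.v := by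
  classical
  have h := H.cl
  have v0 := h.v0
  have C0 := h.C0
  have C1 := h.C1
  have d0 := h.den0 (M.z (k - 1))
  have cv : 0 < S.C ^ 2 * S.v := by positivity
  have l0 : 0 < lsh M S k := by linarith
  have γ0 := H.γ_nn
  have p0 : 0 < Xp ^ ((1 : ℝ) / 3) := rpow_pos_of_pos H.X0 _
  have ρm := rb_mono (M := M) (a := a) H.m0
  have sd : ds M S k ≤ du M k := min_le_right _ _
  have D0 : 0 < ds M S k := (mul_pos_iff_of_pos_left d0).1 l0
  obtain ⟨n, n1, n2⟩ : ∃ n : ℕ, n * (S.C ^ 2 * S.v) ≤ lsh M S k / 8 ∧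
      lsh M S k / 16 ≤ n * (S.C ^ 2 * S.v) :=
    ⟨⌊lsh M S k / 8 / (S.C ^ 2 * S.v)⌋₊, (le_div_iff₀ cv).1 (Nat.floor_le (by positivity)), by
      have := (div_lt_iff₀ cv).1 (Nat.lt_floor_add_one (lsh M S k / 8 / (S.C ^ 2 * S.v)))
      linarith⟩
  have n0 : (0 : ℝ) < n := pos_of_mul_pos_left (show 0 < n * (S.C ^ 2 * S.v) by linarith) cv.le
  have n0' : 1 ≤ n := Nat.cast_pos.1 n0
  have nv : S.v ≤ n * S.v := le_mul_of_one_le_left v0.le (by exact_mod_cast n0')
  obtain ⟨-, c1⟩ := H.cnt h0 hu n (by linarith)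
  obtain ⟨c2, c3⟩ := H.cnt h0 hu (n + 2) (by push_cast; linarith)
  have c4 : M.z (k + n - 1) ≤ M.z (k - 1) + ds M S k / 8 := by
    have : M.z (k + n - 1) - M.z (k - 1) ≤ ds M S k / 8 :=
      le_of_mul_le_mul_left (by unfold lsh at n1; linarith) d0
    linarith
  have c5 : M.z (k + n + 1) ≤ M.z (k - 1) + ds M S k / 4 := by
    have : M.z (k + (n + 2) - 1) - M.z (k - 1) ≤ ds M S k / 4 :=
      le_of_mul_le_mul_left (by push_cast at c3; unfold lsh at n1 fine; linarith) d0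
    rw [show k + (n + 2) - 1 = k + n + 1 by omega] at this
    linarith
  set b := Nat.findGreatest (fun i => M.z (i - 1) ≤ M.z (k - 1) + ds M S k / 2) (S.Jp - 1) with hb
  have pb : M.z (k + n + 1 - 1) ≤ M.z (k - 1) + ds M S k / 2 := by
    linarith [h.leg.zm (show k + n + 1 - 1 ≤ k + n + 1 by omega)]
  have b1 : k + n + 1 ≤ b := Nat.le_findGreatest (by omega) pb
  have b2 : b ≤ S.Jp - 1 := Nat.findGreatest_le _
  have b3 : M.z (b - 1) ≤ M.z (k - 1) + ds M S k / 2 :=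
    Nat.findGreatest_spec (P := fun i => M.z (i - 1) ≤ M.z (k - 1) + ds M S k / 2)
      (m := k + n + 1) (by omega) pb
  have b4 : du M k / 2 ≤ du M b := by unfold du at sd ⊢; linarith
  have r1 : max (M.del m a b) 0 ≤ γ + 2 * min V (√(Xp / du M k)) := by
    have a1 := hV b (by omega) (by omega) b4
    have a2 := H.up (b := b) (by omega) (by omega) (D0.trans_le sd) b4
    have a3 := sqrt_nonneg (Xp / du M k)
    rcases le_total V (√(Xp / du M k)) with e | e
    · rw [min_eq_left e]; exact max_le (by linarith) (by linarith)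
    · rw [min_eq_right e]; exact max_le (by linarith) (by linarith)
  set R := Rp M S Xp V γ k + Xp ^ ((1 : ℝ) / 3) with hR
  have m0 : 0 ≤ min V (√(Xp / du M k)) := le_min V0 (sqrt_nonneg _)
  have r2 : min V (√(Xp / du M k)) + γ + Xp ^ ((1 : ℝ) / 3) ≤ R := by
    rw [hR, Rp]
    linarith [sqrt_nonneg (Xp / max (dl M S k - S.u0) (Xp ^ ((1 : ℝ) / 3)))]
  have R0 : 0 ≤ R := by linarith
  have c4' : S.C ≤ S.C ^ 4 := le_self_pow₀ C1 (by norm_num)
  have r3 : ∀ (i : ℕ) (y : ℝ), n * S.v ≤ y → ((S.J - i : ℕ) : ℝ) * S.v ≤ y →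
      2 * (M.rb m a b - M.rb m a i) < κ * y := fun i y y1 y2 => by
    have y0 : 0 < y := v0.trans_le (nv.trans y1)
    have a1 := H.rise (b := b) (by omega) (by omega) i
    have a2 : S.C * R ≤ 16 * S.C ^ 4 * (R / lsh M S k) * y := by
      rw [mul_div_assoc', div_mul_eq_mul_div, le_div_iff₀ l0]
      have a3 : lsh M S k ≤ 16 * S.C ^ 3 * y := by
        have := mul_le_mul_of_nonneg_left y1 (show 0 ≤ 16 * S.C ^ 2 by positivity)
        have := mul_le_mul_of_nonneg_right (pow_le_pow_right₀ C1 (show 2 ≤ 3 by norm_num)) y0.le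
        linarith
      linarith [mul_le_mul_of_nonneg_left a3 (mul_nonneg C0.le R0)]
    have a3 := mul_le_mul_of_nonneg_right hκ y0.le
    have a4 := mul_le_mul_of_nonneg_left y2 (show 0 ≤ 12 * S.C ^ 4 by positivity)
    have a5 := mul_le_mul c4' (nv.trans y1) v0.le (by positivity)
    have a6 := mul_le_mul_of_nonneg_left r2 C0.le
    have a7 := mul_le_mul_of_nonneg_right C1 m0
    have a8 := mul_le_mul_of_nonneg_right C1 γ0
    have a9 : 0 < S.C ^ 4 * y := by positivity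
    have a10 : 0 ≤ S.C ^ 4 * (R / lsh M S k) * y := by positivity
    linarith
  have κ0 : 0 ≤ κ := le_trans (by positivity) hκ
  obtain ⟨j, j1, j2, g1, g2⟩ := Sun9.exists_good (x := fun i => i * S.v) ρm κ0 (u := k - n)
    (v := b) (p := k + 1) (q := k + n) (by omega) (by omega) (by omega) v0.le
    (fun i _ _ => by push_cast; linarith) (by
      have := r3 (k - n) (n * S.v) le_rfl (mul_le_mul_of_nonneg_right
        (by exact_mod_cast (by omega : S.J - (k - n) ≤ n)) v0.le)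
      push_cast
      linarith)
  refine ⟨j, j1, by omega, (h.leg.zm (by omega)).trans c4, (h.leg.zm (by omega)).trans c5,
    fun i i1 i2 => ?_⟩
  have ib : i ≤ b := Nat.le_findGreatest (by omega) i2
  rcases le_total j i with e | e
  · have e' : (j : ℝ) ≤ i := by exact_mod_cast e
    rw [abs_of_nonneg (sub_nonneg.2 (ρm e)), abs_of_nonneg (sub_nonneg.2 e')]
    linarith [g1 i e ib]
  · have e' : (i : ℝ) ≤ j := by exact_mod_cast e
    rw [abs_of_nonpos (sub_nonpos.2 (ρm e)), abs_of_nonpos (sub_nonpos.2 e')]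
    rcases le_or_gt (k - n) i with f | f
    · linarith [g2 i f e]
    · have e1 : ((j - i : ℕ) : ℝ) = j - i := Nat.cast_sub e
      have := r3 i ((j - i : ℕ) * S.v) (mul_le_mul_of_nonneg_right
        (by exact_mod_cast (by omega : n ≤ j - i)) v0.le) (mul_le_mul_of_nonneg_right
        (by exact_mod_cast (by omega : S.J - i ≤ j - i)) v0.le)
      rw [e1] at this
      linarith [ρm (show j ≤ b by omega), ρm e]

end RH

end Crest.Agent.T156.Alt.Nd33

end
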