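import Crest.Agent.T156.SzQD_5
import Crest.Agent.T156.SzGeo_98
import Crest.Agent.T156.PgX_33
import Crest.Agent.T156.TLt_5

/-!
# Row 156, block (L) (helper5): a good node in the shells of the plateau, `TLt` from the sizes
-/

set_option autoImplicit false
set_option maxHeartbeats 400000

noncomputable section

namespace Crest.Agent.T156.Alt.L69

namespace G5

open Real Finset Filter
open Crest.Agent.T156.Alt.Md67 Crest.Agent.T156.Alt.Nd33 Crest.Agent.T156.Alt.SzT98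

variable {S : Sc} {M : Md} {m : ℕ} {a Xp γ V : ℝ}

/-- **a node with a two-sided cone in the shell of `k`** -/
theorem cone_ex (H : RH S M m a Xp γ) {k : ℕ} (h0 : S.J ≤ k) (k2 : k < S.Jp)
    (hu : 3 * S.ue ≤ 2 * du M k) (V0 : 0 ≤ V)
    (hV : ∀ b, S.J ≤ b → b ≤ S.Jp → du M k / 2 ≤ du M b → M.del m a b ≤ V)
    (fine : 16 * S.C ^ 2 * S.v ≤ lsh M S k) {κ : ℝ}
    (hκ : 125 * S.C ^ 4 * (1 + (Rp M S Xp V γ k + Xp ^ ((1 : ℝ) / 3)) / lsh M S k) ≤ κ) :
    ∃ j, k < j ∧ j + 1 < S.Jp ∧ M.z (j - 1) ≤ M.z (k - 1) + ds M S k / 8 ∧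
      M.z j ≤ M.z (k - 1) + ds M S k / 4 ∧ ∀ i : ℕ, i < S.Jp →
        M.z (i - 1) ≤ M.z (k - 1) + ds M S k / 2 →
        |M.rb m a i - M.rb m a j| ≤ κ * |(i : ℝ) - j| * S.v := by
  classical
  have h := H.cl
  have v0 := h.v0
  have C0 := h.C0
  have C1 := h.C1
  have d0 := h.den0 (M.z (k - 1))
  have cv : 0 < S.C ^ 2 * S.v := by positivity
  have l0 : 0 < lsh M S k := by linarith
  have γ0 := H.γ_nn
  have p0 : 0 < Xp ^ ((1 : ℝ) / 3) := rpow_pos_of_pos H.X0 _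
  have ρm := rb_mono (M := M) (a := a) H.m0
  have sd : ds M S k ≤ du M k := min_le_right _ _
  have D0 : 0 < ds M S k := (mul_pos_iff_of_pos_left d0).1 l0
  obtain ⟨n, n1, n2⟩ : ∃ n : ℕ, n * (S.C ^ 2 * S.v) ≤ lsh M S k / 8 ∧
      lsh M S k / 16 ≤ n * (S.C ^ 2 * S.v) :=
    ⟨⌊lsh M S k / 8 / (S.C ^ 2 * S.v)⌋₊, (le_div_iff₀ cv).1 (Nat.floor_le (by positivity)), by
      have := (div_lt_iff₀ cv).1 (Nat.lt_floor_add_one (lsh M S k / 8 / (S.C ^ 2 * S.v)))
      linarith⟩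
  have n0 : (0 : ℝ) < n := pos_of_mul_pos_left (show 0 < n * (S.C ^ 2 * S.v) by linarith) cv.le
  have n0' : 1 ≤ n := Nat.cast_pos.1 n0
  have nv : S.v ≤ n * S.v := le_mul_of_one_le_left v0.le (by exact_mod_cast n0')
  have cnt : ∀ n : ℕ, n * (S.C ^ 2 * S.v) ≤ lsh M S k / 4 → k + n < S.Jp ∧
      S.den (M.z (k - 1)) * (M.z (k + n - 1) - M.z (k - 1)) ≤ n * (S.C ^ 2 * S.v) := fun n hn => by
    obtain ⟨b1, b2⟩ := sh_up h H.u0 h0 k2 hu n (by
      rw [le_div_iff₀ (by positivity), ls_eq]; linarith)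
    rw [← mul_div_assoc, le_div_iff₀ d0] at b2
    exact ⟨b1, by linarith⟩
  obtain ⟨-, c1⟩ := cnt n (by linarith)
  obtain ⟨c2, c3⟩ := cnt (n + 2) (by push_cast; linarith)
  have c4 : M.z (k + n - 1) ≤ M.z (k - 1) + ds M S k / 8 := by
    have : M.z (k + n - 1) - M.z (k - 1) ≤ ds M S k / 8 :=
      le_of_mul_le_mul_left (by unfold lsh at n1; linarith) d0
    linarith
  have c5 : M.z (k + n + 1) ≤ M.z (k - 1) + ds M S k / 4 := by
    have : M.z (k + (n + 2) - 1) - M.z (k - 1) ≤ ds M S k / 4 :=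
      le_of_mul_le_mul_left (by push_cast at c3; unfold lsh at n1 fine; linarith) d0
    rw [show k + (n + 2) - 1 = k + n + 1 by omega] at this
    linarith
  set b := Nat.findGreatest (fun i => M.z (i - 1) ≤ M.z (k - 1) + ds M S k / 2) (S.Jp - 1) with hb
  have pb : M.z (k + n + 1 - 1) ≤ M.z (k - 1) + ds M S k / 2 := by
    linarith [h.leg.zm (show k + n + 1 - 1 ≤ k + n + 1 by omega)]
  have b1 : k + n + 1 ≤ b := Nat.le_findGreatest (by omega) pb
  have b2 : b ≤ S.Jp - 1 := Nat.findGreatest_le _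
  have b3 : M.z (b - 1) ≤ M.z (k - 1) + ds M S k / 2 :=
    Nat.findGreatest_spec (P := fun i => M.z (i - 1) ≤ M.z (k - 1) + ds M S k / 2)
      (m := k + n + 1) (by omega) pb
  have b4 : du M k / 2 ≤ du M b := by unfold du at sd ⊢; linarith
  have r1 : max (M.del m a b) 0 ≤ γ + 2 * min V (√(Xp / du M k)) := by
    have a1 := hV b (by omega) (by omega) b4
    have a2 := H.up (b := b) (by omega) (by omega) (D0.trans_le sd) b4
    have a3 := sqrt_nonneg (Xp / du M k)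
    rcases le_total V (√(Xp / du M k)) with e | e
    · rw [min_eq_left e]; exact max_le (by linarith) (by linarith)
    · rw [min_eq_right e]; exact max_le (by linarith) (by linarith)
  set R := Rp M S Xp V γ k + Xp ^ ((1 : ℝ) / 3) with hR
  have m0 : 0 ≤ min V (√(Xp / du M k)) := le_min V0 (sqrt_nonneg _)
  have r2 : min V (√(Xp / du M k)) + γ + Xp ^ ((1 : ℝ) / 3) ≤ R := by
    rw [hR, Rp]
    linarith [sqrt_nonneg (Xp / max (dl M S k - S.u0) (Xp ^ ((1 : ℝ) / 3)))]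
  have R0 : 0 ≤ R := by linarith
  have c4' : S.C ≤ S.C ^ 4 := le_self_pow₀ C1 (by norm_num)
  have r3 : ∀ (i : ℕ) (y : ℝ), n * S.v ≤ y → ((S.J - i : ℕ) : ℝ) * S.v ≤ y →
      2 * (M.rb m a b - M.rb m a i) < κ * y := fun i y y1 y2 => by
    have y0 : 0 < y := v0.trans_le (nv.trans y1)
    have a1 := H.rise (b := b) (by omega) (by omega) i
    have a2 : S.C * R ≤ 16 * S.C ^ 4 * (R / lsh M S k) * y := by
      rw [mul_div_assoc', div_mul_eq_mul_div, le_div_iff₀ l0]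
      have a3 : lsh M S k ≤ 16 * S.C ^ 3 * y := by
        have := mul_le_mul_of_nonneg_left y1 (show 0 ≤ 16 * S.C ^ 2 by positivity)
        have := mul_le_mul_of_nonneg_right (pow_le_pow_right₀ C1 (show 2 ≤ 3 by norm_num)) y0.le
        linarith
      linarith [mul_le_mul_of_nonneg_left a3 (mul_nonneg C0.le R0)]
    have a3 := mul_le_mul_of_nonneg_right hκ y0.le
    have a4 := mul_le_mul_of_nonneg_left y2 (show 0 ≤ 12 * S.C ^ 4 by positivity)
    have a5 := mul_le_mul c4' (nv.trans y1) v0.le (by positivity)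
    have a6 := mul_le_mul_of_nonneg_left r2 C0.le
    have a7 := mul_le_mul_of_nonneg_right C1 m0
    have a8 := mul_le_mul_of_nonneg_right C1 γ0
    have a9 : 0 < S.C ^ 4 * y := by positivity
    have a10 : 0 ≤ S.C ^ 4 * (R / lsh M S k) * y := by positivity
    linarith
  have κ0 : 0 ≤ κ := le_trans (by positivity) hκ
  obtain ⟨j, j1, j2, g1, g2⟩ := Sun9.exists_good (x := fun i => i * S.v) ρm κ0 (u := k - n)
    (v := b) (p := k + 1) (q := k + n) (by omega) (by omega) (by omega) v0.le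
    (fun i _ _ => by push_cast; linarith) (by
      have := r3 (k - n) (n * S.v) le_rfl (mul_le_mul_of_nonneg_right
        (by exact_mod_cast (by omega : S.J - (k - n) ≤ n)) v0.le)
      push_cast
      linarith)
  refine ⟨j, j1, by omega, (h.leg.zm (by omega)).trans c4, (h.leg.zm (by omega)).trans c5,
    fun i i1 i2 => ?_⟩
  have ib : i ≤ b := Nat.le_findGreatest (by omega) i2
  rcases le_total j i with e | e
  · have e' : (j : ℝ) ≤ i := by exact_mod_cast e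
    rw [abs_of_nonneg (sub_nonneg.2 (ρm e)), abs_of_nonneg (sub_nonneg.2 e')]
    linarith [g1 i e ib]
  · have e' : (i : ℝ) ≤ j := by exact_mod_cast e
    rw [abs_of_nonpos (sub_nonpos.2 (ρm e)), abs_of_nonpos (sub_nonpos.2 e')]
    rcases le_or_gt (k - n) i with f | f
    · linarith [g2 i f e]
    · have e1 : ((j - i : ℕ) : ℝ) = j - i := Nat.cast_sub e
      have := r3 i ((j - i : ℕ) * S.v) (mul_le_mul_of_nonneg_right
        (by exact_mod_cast (by omega : n ≤ j - i)) v0.le) (mul_le_mul_of_nonneg_right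
        (by exact_mod_cast (by omega : S.J - i ≤ j - i)) v0.le)
      rw [e1] at this
      linarith [ρm (show j ≤ b by omega), ρm e]


/-- the rise is comparable on the shell -/
theorem R_le (X0 : 0 < Xp) {i k : ℕ} (d0 : 0 < du M k) (d : du M k ≤ 4 * du M i) (V0 : 0 ≤ V) (g0 : 0 ≤ γ) :
    Rp M S Xp V γ i + Xp ^ ((1 : ℝ) / 3) ≤ 2 * (Rp M S Xp V γ k + Xp ^ ((1 : ℝ) / 3)) := by
  have p3 : (Xp ^ ((1 : ℝ) / 3)) ^ 3 = Xp := by
    rw [← rpow_natCast, ← rpow_mul X0.le]; norm_num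
  have p0 : 0 < Xp ^ ((1 : ℝ) / 3) := rpow_pos_of_pos X0 _
  have a1 : √(Xp / max (dl M S i - S.u0) (Xp ^ ((1 : ℝ) / 3))) ≤ Xp ^ ((1 : ℝ) / 3) := by
    refine sqrt_le_iff.2 ⟨p0.le, ?_⟩
    refine (div_le_div_of_nonneg_left X0.le p0 (le_max_right _ _)).trans ?_
    rw [div_le_iff₀ p0]
    linarith [p3, pow_succ (Xp ^ ((1 : ℝ) / 3)) 2]
  have a2 : √(Xp / du M i) ≤ 2 * √(Xp / du M k) := by
    refine sqrt_le_iff.2 ⟨by positivity, ?_⟩
    rw [mul_pow, sq_sqrt (by positivity), ← mul_div_assoc, div_le_div_iff₀ (by linarith) d0]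
    linarith [mul_le_mul_of_nonneg_left d X0.le]
  have a3 : min V √(Xp / du M i) ≤ 2 * min V √(Xp / du M k) := by
    rcases le_total V √(Xp / du M k) with e | e
    · rw [min_eq_left e]; linarith [min_le_left V √(Xp / du M i)]
    · rw [min_eq_right e]; linarith [min_le_right V √(Xp / du M i)]
  unfold Rp
  linarith [sqrt_nonneg (Xp / max (dl M S k - S.u0) (Xp ^ ((1 : ℝ) / 3)))]

/-- the size is comparable on the shell -/
theorem ap_le (h : Cl S M) (X0 : 0 < Xp) {i k : ℕ} (s : Sh S M k i) (D0 : 0 < ds M S k)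
    (V0 : 0 ≤ V) (g0 : 0 ≤ γ) : ap M S Xp V γ i ≤ 8 * S.C * ap M S Xp V γ k := by
  have C1 := h.C1
  have C0 := h.C0
  have w0 := T5.w3_pos h
  have d1 := h.den0 (M.z (k - 1))
  have d2 := h.den0 (M.z (i - 1))
  have D1 : 0 < ds M S i := by linarith [s.ds1]
  have u0 : 0 < du M k := D0.trans_le (min_le_right _ _)
  have r1 := R_le (S := S) X0 (i := i) u0 (by linarith [s.du1]) V0 g0
  have r0 : 0 ≤ Rp M S Xp V γ i + Xp ^ ((1 : ℝ) / 3) := by unfold Rp; positivity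
  have e1 : ds M S k ^ 2 ≤ 2 * ds M S i ^ 2 := by nlinarith [s.ds1]
  have e2 : ds M S k ^ 2 * S.den (M.z (k - 1)) ≤ 2 * S.C * (ds M S i ^ 2 * S.den (M.z (i - 1))) :=
    (mul_le_mul e1 s.den1 d1.le (by positivity)).trans (by ring_nf; rfl)
  have e3 : ∀ x, 0 ≤ x → x / (ds M S i ^ 2 * S.den (M.z (i - 1))) ≤
      2 * S.C * (x / (ds M S k ^ 2 * S.den (M.z (k - 1)))) := fun x x0 => by
    rw [← mul_div_assoc, div_le_div_iff₀ (by positivity) (by positivity)]
    linarith [mul_le_mul_of_nonneg_left e2 x0]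
  have l0 : 0 < lsh M S k := mul_pos d1 D0
  have l1 : 0 < lsh M S i := mul_pos d2 D1
  have b3 : √(S.w3 1 / lsh M S i) ≤ 8 * S.C * √(S.w3 1 / lsh M S k) := by
    refine sqrt_le_iff.2 ⟨by positivity, ?_⟩
    rw [mul_pow, sq_sqrt (by positivity), ← mul_div_assoc, div_le_div_iff₀ l1 l0]
    have a1 : lsh M S k ≤ 2 * S.C * lsh M S i := s.ls1
    have a2 : 2 * S.C ≤ (8 * S.C) ^ 2 := by nlinarith
    linarith [mul_le_mul_of_nonneg_left (a1.trans (mul_le_mul_of_nonneg_right a2 l1.le)) w0.le]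
  have b2 : S.w3 1 / (S.den (M.z (i - 1)) * ds M S i ^ 2) ≤
      8 * S.C * (S.w3 1 / (S.den (M.z (k - 1)) * ds M S k ^ 2)) := by
    rw [mul_comm (S.den _), mul_comm (S.den _)]
    refine (e3 _ w0.le).trans (mul_le_mul_of_nonneg_right (by linarith) (by positivity))
  have b1 : S.w3 1 * (S.den (M.z (i - 1)) + (Rp M S Xp V γ i + Xp ^ ((1 : ℝ) / 3)) ^ 2 /
      (ds M S i ^ 2 * S.den (M.z (i - 1)))) ≤ 8 * S.C * (S.w3 1 * (S.den (M.z (k - 1)) +
      (Rp M S Xp V γ k + Xp ^ ((1 : ℝ) / 3)) ^ 2 / (ds M S k ^ 2 * S.den (M.z (k - 1))))) := by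
    have a1 := pow_le_pow_left₀ r0 r1 2
    generalize Rp M S Xp V γ i + Xp ^ ((1 : ℝ) / 3) = x at a1
    generalize Rp M S Xp V γ k + Xp ^ ((1 : ℝ) / 3) = y at a1
    rw [mul_left_comm]
    refine mul_le_mul_of_nonneg_left ?_ w0.le
    have a2 : x ^ 2 / (ds M S k ^ 2 * S.den (M.z (k - 1))) ≤
        4 * (y ^ 2 / (ds M S k ^ 2 * S.den (M.z (k - 1)))) := by
      rw [← mul_div_assoc]
      exact div_le_div_of_nonneg_right (by linarith) (by positivity)
    linarith [e3 _ (sq_nonneg x), mul_le_mul_of_nonneg_left a2 (by positivity : 0 ≤ 2 * S.C),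
      s.den2, mul_pos C0 d1]
  have b0 := rpow_le_rpow (by positivity) b1 (by norm_num : (0 : ℝ) ≤ 1 / 3)
  rw [mul_rpow (x := 8 * S.C) (by positivity) (by positivity)] at b0
  have b4 := b0.trans (mul_le_mul_of_nonneg_right (rpow_le_self_of_one_le
    (by linarith : 1 ≤ 8 * S.C) (by norm_num : (1 : ℝ) / 3 ≤ 1)) (by positivity))
  unfold ap
  linarith

end G5

open G5 Crest.Agent.T156.Alt.Nd33 Crest.Agent.T156.Alt.SzT98 in
/-- the hypotheses of `TLt` contain those of the sizes -/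
theorem TH.far98 {E : ℝ} {S : Sc} {M : Md} {m : ℕ} {a l0 X Xp Vt X2 u1 j γ Lp : ℝ} (h : Cl S M)
    (E1 : 1 ≤ E) (H : TH E S M m a l0 X Xp Vt X2 u1 j γ Lp) : SzT98.Far E S M Xp Vt γ u1 Lp :=
  have l0' : 0 ≤ l0 := (mul_nonneg (by linarith) (h.s_nn _)).trans H.l0s
  ⟨H.u0, H.l0s.trans ((le_mul_of_one_le_left l0' E1).trans H.l01), H.rev, ⟨H.Xp0, H.Xp1⟩, H.Vt0,
    H.u1a, H.u1b, H.γ0, H.γ1, ⟨E1.trans H.Lp0, H.Lp1⟩, H.far⟩

open Real G5 Crest.Agent.T156.Alt.Nd33 Crest.Agent.T156.Alt.SzT98 in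
/-- **a good node in every shell** -/
theorem szG_of (HQ : SzQ5) : L69.SzG := by
  refine CL.glue HQ fun C => ⟨3, fun A hA ε η hε hη => ⟨ε, min (min ε 1) (η / 2), (500 * C ^ 5) ^ 3,
    hε, by positivity, fun S M m a G h I P l0 X Xp Vt X2 u1 j γ Lp H k a1 a2 a3 _ _ => ?_⟩⟩
  have n1 := G.N1.le
  have n0 := h.N0
  have C1 := h.C1
  have C0 := h.C0
  have v0 := h.v0
  have K1 := G.K_le
  rw [← G.hC] at K1
  have L0 : (0 : ℝ) < S.n ^ min (min ε 1) (η / 2) := by positivity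
  have L1 : (S.n : ℝ) ^ min (min ε 1) (η / 2) ≤ S.n ^ ε :=
    rpow_le_rpow_of_exponent_le n1 ((min_le_left _ _).trans (min_le_left _ _))
  have L2 : (S.n : ℝ) ^ min (min ε 1) (η / 2) ≤ S.n := by
    simpa using rpow_le_rpow_of_exponent_le n1 ((min_le_left _ (η / 2)).trans (min_le_right ε 1))
  have L3 : (S.n : ℝ) ^ min (min ε 1) (η / 2) * S.n ^ min (min ε 1) (η / 2) ≤ S.n ^ η := by
    rw [← rpow_add n0]
    exact rpow_le_rpow_of_exponent_le n1 (by linarith [min_le_right (min ε 1) (η / 2)])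
  have v3 : S.v * (S.n : ℝ) ^ 3 ≤ S.C := (mul_le_mul_of_nonneg_left
    (pow_le_pow_right₀ n1 (by rw [G.hA]; exact hA)) v0.le).trans h.v2
  have m0 : 0 < m := lt_of_lt_of_le h.n1 I.m1
  generalize (S.n : ℝ) ^ min (min ε 1) (η / 2) = Λ at *
  generalize (S.n : ℝ) ^ ε = E at *
  generalize (S.n : ℝ) ^ η = Λ' at *
  have cp : ∀ i ≤ 5, S.C ^ i ≤ S.C ^ 5 := fun i hi => pow_le_pow_right₀ C1 hi
  have c0 : 1 ≤ S.C ^ 5 := one_le_pow₀ C1
  have K2 : 500 * S.C ^ 5 ≤ Λ := (le_self_pow₀ (by linarith) (by norm_num)).trans K1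
  have E1 : 1 ≤ E := by linarith
  have F := H.far98 h E1
  have p3 : (Xp ^ ((1 : ℝ) / 3)) ^ 3 = Xp := by
    rw [← rpow_natCast, ← rpow_mul H.Xp0.le]; norm_num
  have p0 : 0 < Xp ^ ((1 : ℝ) / 3) := rpow_pos_of_pos H.Xp0 _
  have u10 : 0 ≤ u1 := le_trans (by linarith [h.leg.z1 (S.Jp - 1), h.last]) H.u1a
  have v4 : 48 * S.C ^ 4 * S.v * S.n ≤ 1 := by
    refine le_of_mul_le_mul_right ?_ (by positivity : 0 < (S.n : ℝ) ^ 2)
    have b1 := mul_le_mul_of_nonneg_left v3 (by positivity : 0 ≤ 48 * S.C ^ 4)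
    have b2 : (S.n : ℝ) ≤ S.n ^ 2 := le_self_pow₀ n1 two_ne_zero
    linarith
  have R : RH S M m a Xp γ := by
    refine ⟨h, m0, H.u0, H.Xp0, ?_, (le_mul_of_one_le_right (by positivity) n1).trans v4, ?_,
      H.pri.top, H.γ0⟩
    · refine (pow_le_one_iff_of_nonneg (by positivity) three_ne_zero).1 ?_
      rw [mul_pow, p3]
      refine le_trans (mul_le_mul_of_nonneg_right ?_ H.Xp0.le) H.Xp1
      exact (pow_le_pow_left₀ (by positivity) (by linarith [cp 4 (by norm_num)]) 3).trans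
        (K1.trans L1)
    · refine lt_of_mul_lt_mul_left (a := 3 * S.C ^ 3) ?_ (by positivity)
      have b1 := mul_le_mul_of_nonneg_right (show 12 * S.C ^ 3 ≤ E by
        linarith [cp 3 (by norm_num)]) (h.s_nn S.jl)
      linarith [Ab33.sJ_ge h, F.jl]
  have f1 := H.pri.jn.fine k a1 a2 (by linarith)
  have l0k : 0 < lsh M S k := pos_of_mul_pos_right (one_pos.trans_le f1) n0.le
  have D0 : 0 < ds M S k := (mul_pos_iff_of_pos_left (h.den0 _)).1 l0k
  have sd : ds M S k ≤ du M k := min_le_right _ _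
  have k2 : k < S.Jp := lt_of_le_of_ne a2 fun e => by
    have := h.last
    rw [← e] at this
    unfold du at a3 sd
    linarith [H.u1a]
  have g0 := R.γ_nn
  obtain ⟨i, i1, i2, i3, -, i5⟩ := cone_ex R a1 k2 (by linarith [H.u1a]) H.Vt0
    (fun b b1 b2 b3 => H.pri.vt b b1 b2 (by linarith)) (by
      refine le_of_mul_le_mul_left ?_ n0
      have b1 := mul_le_mul_of_nonneg_right (pow_le_pow_right₀ C1 (show 2 ≤ 4 by norm_num))
        (by positivity : 0 ≤ S.v * S.n)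
      have b2 : 0 ≤ S.C ^ 4 * (S.v * S.n) := by positivity
      linarith) le_rfl
  have z1 : M.z (k - 1) ≤ M.z (i - 1) := h.leg.zm (by omega)
  have iJ : S.J ≤ i := by omega
  have ip : i < S.Jp := by omega
  have s := sh_of h H.u0 a1 k2 iJ ip (by rw [abs_of_nonneg (by linarith)]; linarith)
  have d1 : 7 * du M k ≤ 8 * du M i := by unfold du at sd ⊢; linarith
  have li := ls_pos' h H.u0 iJ ip
  have Lp1 : 1 ≤ Lp := E1.trans H.Lp0
  have q := P l0 X Xp Vt γ u1 j Lp F H.pri i Lp 0 iJ ip (by linarith) le_rfl le_rfl fun y _ y1 y2 => by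
    refine (i5 y y1 ?_).trans ?_
    · rcases le_total y i with e | e
      · linarith [h.leg.zm (show y - 1 ≤ i - 1 by omega)]
      · have t := sh_up' h H.u0 iJ ip (by linarith [H.u1a]) e
          ((mul_le_mul_of_nonneg_right (le_abs_self _) v0.le).trans (y2.trans
            (div_le_div_of_nonneg_left li.le (by positivity) (by
              linarith [pow_le_pow_right₀ C1 (show 2 ≤ 4 by norm_num), pow_pos C0 4]))))
        linarith [(abs_le.1 t.z).2, s.ds2]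
    · rw [zero_add, mul_assoc]
      refine mul_le_mul_of_nonneg_right ?_ (by positivity)
      have r1 := R_le (S := S) H.Xp0 (i := k) (k := i) (by linarith)
        (by linarith [T5.du_anti h i1.le]) H.Vt0 g0
      have r0 : 0 ≤ Rp M S Xp Vt γ i + Xp ^ ((1 : ℝ) / 3) := by
        have := H.Vt0; unfold Rp; positivity
      generalize Rp M S Xp Vt γ i + Xp ^ ((1 : ℝ) / 3) = x at r0 r1
      generalize Rp M S Xp Vt γ k + Xp ^ ((1 : ℝ) / 3) = y at r1
      have r2 : y / lsh M S k ≤ 4 * S.C * (x / ls M S i) := by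
        rw [← mul_div_assoc, div_le_div_iff₀ l0k li]
        have b1 : ls M S i ≤ 2 * S.C * lsh M S k := s.ls2
        linarith [mul_le_mul r1 b1 li.le (by positivity)]
      have r3 : 0 ≤ x / ls M S i := by positivity
      have r4 := mul_le_mul_of_nonneg_right (show 500 * S.C ^ 5 ≤ Lp by linarith [H.Lp0])
        (by positivity : 0 ≤ 1 + x / ls M S i)
      linarith [mul_le_mul_of_nonneg_left r2 (by positivity : 0 ≤ 125 * S.C ^ 4), cp 4 (by norm_num)]
  refine ⟨i, i1.le, ip, by linarith, q.trans ?_⟩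
  have w1 : √(S.w3 1 / lsh M S i) ≤ ap M S Xp Vt γ i := by
    have := T5.w3_pos h
    have := h.den0 (M.z (i - 1))
    exact le_add_of_nonneg_left (by positivity)
  have w2 := mul_le_mul_of_nonneg_right (rpow_le_self_of_one_le Lp1 (by norm_num : (2 : ℝ) / 3 ≤ 1))
    (sub_nonneg.2 w1)
  have w3 := le_mul_of_one_le_left (sqrt_nonneg (S.w3 1 / lsh M S i)) Lp1
  have w4 := mul_le_mul_of_nonneg_left (ap_le (V := Vt) h H.Xp0 s D0 H.Vt0 g0) (by linarith : 0 ≤ Lp)
  have w5 : 0 ≤ Lp * ap M S Xp Vt γ k := mul_nonneg (by linarith) (T5.ap_nn h _ _ _ _)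
  have w6 := mul_le_mul_of_nonneg_right (show 8 * S.C ≤ Λ by linarith [cp 1 (by norm_num), pow_one S.C]) w5
  refine (mul_le_mul_of_nonneg_left (show _ ≤ Λ * (Lp * ap M S Xp Vt γ k) by linarith) L0.le).trans ?_
  rw [← mul_assoc]
  exact mul_le_mul_of_nonneg_right L3 w5

/-- **(TLt)** from `N 2` and the pointwise size -/
theorem tlt_q (h2 : SzN2) (HQ : SzT98.SzQ5) : TLt := tlt_of h2 (szG_of HQ)

end Crest.Agent.T156.Alt.L69

end
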