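import Crest.Agent.T156.SzTD_98
import Crest.Agent.T156.ClReg_29

/-!
# Row 156, block (L) (helper5): the pointwise size on the plateau with the margin `3 / 2`
-/

set_option autoImplicit false

noncomputable section

namespace Crest.Agent.T156.Alt.SzT98

open Real Finset
open Crest.Agent.T156.Alt.L69

/-- `SzQ` with `3 u1 ≤ 2 du k` in place of `2 u1 ≤ du k` -/
def SzQ5 : Prop := CL fun E Λ S M m a => ∀ l0 X Xp Vt γ u1 j Lp, Far E S M Xp Vt γ u1 Lp →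
  Ap S M m a l0 X Xp Vt u1 j → ∀ k L e, S.J ≤ k → k < S.Jp → 3 * u1 ≤ 2 * du M k → Lp ≤ L →
    0 ≤ e →
    (∀ i : ℕ, S.J / 2 ≤ i → i < S.Jp → |(i : ℝ) - k| * S.v ≤ ls M S k / (64 * S.C ^ 4) →
      |M.rb m a i - M.rb m a k| ≤
        e + L * (1 + (Rp M S Xp Vt γ k + Xp ^ ((1 : ℝ) / 3)) / ls M S k) * (|(i : ℝ) - k| * S.v)) →
    E61.u4 M m a k ≤ Λ * (L ^ ((2 : ℝ) / 3) * (ap M S Xp Vt γ k - √(S.w3 1 / lsh M S k)) +
      √(S.w3 1 / lsh M S k) + e)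

theorem szQ_of5 (H : SzQ5) : SzQ := CL.mono H
  fun _ _ S _ _ _ _ _ h _ P l0 X Xp Vt γ u1 j Lp F A k L e a1 a2 a3 =>
    P l0 X Xp Vt γ u1 j Lp F A k L e a1 a2 (by
      linarith [h.leg.z1 (S.Jp - 1), h.last, F.u1a])

end Crest.Agent.T156.Alt.SzT98

end
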