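import Crest.Agent.T156.SzF_98
import Crest.Agent.T156.QTw_57
import Crest.Agent.T156.SzQD_5

/-!
# Row 156, block (L): pointwise size on the plateau (helper98)
-/

set_option autoImplicit false
set_option maxHeartbeats 400000

noncomputable section

namespace Crest.Agent.T156.Alt.SzT98

open Real Finset Filter
open Crest.Agent.T156.Alt.L69 Crest.Agent.T156.Alt.Md67 Crest.Agent.T156.Alt.C33 Pre29

/-- the pair bound from the frame -/
def QFS : Prop := ∀ K : ℝ, 1 ≤ K → CL fun _ Λ S M m a => ∀ Λ₀ k0 k1 c ρ τ D,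
  QF K Λ₀ S M m a 1 k0 k1 c ρ τ D → ∀ k, Inn K S 1 k0 k1 k →
    M.E2 m a (fun R => (R - c k) ^ 4) k ≤ (Λ * Λ₀ * τ k) ^ 4

theorem nums {w dn ds r P A e g c T : ℝ} (w0 : 0 < w) (dn0 : 0 < dn) (ds0 : 0 < ds) (ds1 : ds ≤ 1)
    (r0 : 0 ≤ r) (P1 : 1 ≤ P) (A0 : 0 ≤ A) (hA : A ^ 3 = w * (dn + r ^ 2 / (ds ^ 2 * dn)))
    (e0 : 0 ≤ e) (g1 : 1 ≤ g) (c1 : 1 ≤ c) (cg : 2 * c ≤ g ^ 2)
    (hT : T = g ^ 2 * (P ^ 2 * (A + w / (dn * ds ^ 2)) + √(w / (dn * ds)) + e)) (T1 : T ≤ 1) :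
    ∃ l L κ : ℝ, 0 < l ∧ l ≤ L ∧ L ≤ 1 ∧ g * L ≤ dn * ds ∧ κ * l = T ∧
      c * (P ^ 3 * (1 + r / (dn * ds))) ≤ κ ∧ P ^ 3 * (w * dn) ≤ κ * (dn * ds) ^ 3 ∧
      w ≤ T * l ∧ w ≤ T ^ 2 * L ∧ w * dn ≤ T * l ^ 2 := by
  obtain ⟨q, hq⟩ : ∃ q, q = 1 + r / (dn * ds) := ⟨_, rfl⟩
  obtain ⟨b, hb⟩ : ∃ b, b = w / (dn * ds ^ 2) := ⟨_, rfl⟩
  obtain ⟨B, hB⟩ : ∃ B, B = g ^ 2 := ⟨_, rfl⟩
  have u0 : 0 ≤ r / (dn * ds) := by positivity
  have q1 : 1 ≤ q := by linarith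
  have b0 : 0 < b := by rw [hb]; positivity
  have bw : b * (dn * ds ^ 2) = w := by rw [hb]; field_simp
  have B2 : 2 ≤ B := by linarith
  have gB : g ≤ B := by rw [hB]; exact le_self_pow₀ g1 two_ne_zero
  have P0 : 0 < P := by linarith
  have P2 : 1 ≤ P ^ 2 := one_le_pow₀ P1
  have f1 : w * dn * q ^ 2 ≤ 2 * A ^ 3 := by
    have a1 : A ^ 3 = w * dn * (1 + (r / (dn * ds)) ^ 2) := by rw [hA]; field_simp
    have a2 : q ^ 2 ≤ 2 * (1 + (r / (dn * ds)) ^ 2) := by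
      rw [hq]; nlinarith [sq_nonneg (1 - r / (dn * ds))]
    have := mul_le_mul_of_nonneg_left a2 (mul_pos w0 dn0).le
    linarith
  have f2 : w * q ≤ 2 * (A + b) ^ 2 := by
    refine le_of_pow_le_pow_left₀ two_ne_zero (by positivity) ?_
    have a1 : A ^ 3 * b ≤ (A + b) ^ 3 * (A + b) := by gcongr <;> linarith
    have a2 : w ≤ b * dn := by
      rw [← bw]
      have : ds ^ 2 ≤ 1 := pow_le_one₀ ds0.le ds1
      gcongr
      exact mul_le_of_le_one_right dn0.le this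
    have a3 := mul_le_mul_of_nonneg_right f1 b0.le
    have a4 := mul_le_mul_of_nonneg_left a2 (show 0 ≤ w * q ^ 2 by positivity)
    have a5 : 0 ≤ A ^ 3 * b := by positivity
    linarith
  rw [← hb, ← hB] at hT
  rw [← hq]
  have s0 := sqrt_nonneg (w / (dn * ds))
  have T2 : B * (P ^ 2 * (A + b)) ≤ T := by
    rw [hT]; exact mul_le_mul_of_nonneg_left (by linarith) (by linarith)
  have T3 : B * √(w / (dn * ds)) ≤ T := by
    have : 0 ≤ P ^ 2 * (A + b) := by positivity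
    rw [hT]; exact mul_le_mul_of_nonneg_left (by linarith) (by linarith)
  have S0 : 0 < A + b := by linarith
  have T4 : 2 * (A + b) ≤ T := le_trans (mul_le_mul B2 (le_mul_of_one_le_left S0.le P2) S0.le
    (by linarith)) T2
  have T0 : 0 < T := by linarith
  have T5 : B * (P ^ 2 * b) ≤ T := le_trans (by gcongr; linarith) T2
  have T6 : B * (P ^ 2 * A) ≤ T := le_trans (by gcongr; linarith) T2
  have wq : w ≤ 2 * (A + b) ^ 2 := (le_mul_of_one_le_right w0.le q1).trans f2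
  obtain ⟨L, hL⟩ : ∃ L, L = min 1 (dn * ds / g) := ⟨_, rfl⟩
  have g0 : 0 < g := by linarith
  have L0 : 0 < L := by rw [hL]; positivity
  have L1 : L ≤ 1 := hL ▸ min_le_left _ _
  have L2 : g * L ≤ dn * ds := by
    rw [mul_comm, ← le_div_iff₀ g0]; exact hL ▸ min_le_right _ _
  have Lc : L = 1 ∨ g * L = dn * ds := by
    rcases min_choice 1 (dn * ds / g) with h | h
    · exact Or.inl (hL.trans h)
    · right; rw [hL, h]; field_simp
  obtain ⟨k, hk⟩ : ∃ k, k = c * (P ^ 3 * q) := ⟨_, rfl⟩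
  have k0 : 0 < k := by rw [hk]; positivity
  obtain ⟨l, hl⟩ : ∃ l, l = min (L / P) (T / k) := ⟨_, rfl⟩
  have l0 : 0 < l := by rw [hl]; positivity
  have l1 : P * l ≤ L := by rw [mul_comm, ← le_div_iff₀ P0]; exact hl ▸ min_le_left _ _
  have l2 : k * l ≤ T := by rw [mul_comm, ← le_div_iff₀ k0]; exact hl ▸ min_le_right _ _
  have lc : P * l = L ∨ k * l = T := by
    rcases min_choice (L / P) (T / k) with h | h
    · left; rw [hl, h]; field_simp
    · right; rw [hl, h]; field_simp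
  refine ⟨l, L, T / l, l0, (le_mul_of_one_le_left l0.le P1).trans l1, L1, L2,
    div_mul_cancel₀ _ l0.ne', hk ▸ (le_div_iff₀ l0).2 l2, ?_, ?_, ?_, ?_⟩
  · rw [div_mul_eq_mul_div, le_div_iff₀ l0]
    have a1 : P * l ≤ dn * ds := l1.trans ((le_mul_of_one_le_left L0.le g1).trans L2)
    have a2 : P ^ 2 * b ≤ T := (le_mul_of_one_le_left (by positivity) (by linarith)).trans T5
    calc _ = P ^ 2 * b * (P * l) * (dn * ds) ^ 2 := by rw [← bw]; ring
      _ ≤ T * (dn * ds) * (dn * ds) ^ 2 := by gcongr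
      _ = _ := by ring
  · rcases lc with h | h
    · have a1 : B * (P * (A + b)) * L ≤ T * l := by
        rw [← h]
        calc _ = B * (P ^ 2 * (A + b)) * l := by ring
          _ ≤ _ := by gcongr
      refine le_trans ?_ a1
      have a2 : A + b ≤ P * (A + b) := le_mul_of_one_le_left S0.le P1
      rcases Lc with h' | h'
      · rw [h', mul_one]
        have := mul_le_mul B2 a2 S0.le (by linarith)
        have := mul_le_mul_of_nonneg_left (T4.trans T1) S0.le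
        linarith
      · calc w = b * ds * (g * L) := by rw [h', ← bw]; ring
          _ ≤ P * (A + b) * 1 * (B * L) := by gcongr; linarith
          _ = _ := by ring
    · refine le_of_mul_le_mul_left ?_ k0
      have a1 : k * (T * l) = T * T := by rw [mul_left_comm, h]
      have a2 : (B * (P ^ 2 * (A + b))) ^ 2 ≤ T ^ 2 := by gcongr
      have a3 : 2 * c ≤ B ^ 2 := (hB ▸ cg).trans (le_self_pow₀ (by linarith) two_ne_zero)
      have a4 : P ^ 3 ≤ P ^ 4 := pow_le_pow_right₀ P1 (by norm_num)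
      calc k * w = c * P ^ 3 * (w * q) := by rw [hk]; ring
        _ ≤ c * P ^ 4 * (2 * (A + b) ^ 2) := by gcongr
        _ = 2 * c * (P ^ 2 * (A + b)) ^ 2 := by ring
        _ ≤ B ^ 2 * (P ^ 2 * (A + b)) ^ 2 := by gcongr
        _ ≤ _ := by rw [a1, ← mul_pow, ← sq]; exact a2
  · rcases Lc with h' | h'
    · rw [h', mul_one]
      have := pow_le_pow_left₀ (by positivity) T4 2
      linarith [sq_nonneg (A + b)]
    · have a1 := pow_le_pow_left₀ (by positivity) T3 2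
      rw [mul_pow, sq_sqrt (by positivity)] at a1
      have a2 : g ≤ B ^ 2 := gB.trans (le_self_pow₀ (by linarith) two_ne_zero)
      calc w = g * (w / (dn * ds)) * L := by rw [← h']; field_simp
        _ ≤ B ^ 2 * (w / (dn * ds)) * L := by gcongr
        _ ≤ _ := by gcongr
  · have a0 : w * dn ≤ 2 * A ^ 3 :=
      (le_mul_of_one_le_right (by positivity) (one_le_pow₀ q1)).trans f1
    rcases lc with h | h
    · have a1 : B * (A + b) * L ^ 2 ≤ T * l ^ 2 := by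
        rw [← h]
        calc _ = B * (P ^ 2 * (A + b)) * l ^ 2 := by ring
          _ ≤ _ := by gcongr
      refine le_trans ?_ a1
      rcases Lc with h' | h'
      · rw [h', one_pow, mul_one]
        have a2 : A ^ 3 ≤ A := pow_le_of_le_one A0 (by linarith) three_ne_zero
        have := mul_le_mul_of_nonneg_right B2 S0.le
        linarith
      · calc w * dn = b * (g * L) ^ 2 := by rw [h', ← bw]; ring
          _ = B * b * L ^ 2 := by rw [hB]; ring
          _ ≤ _ := by gcongr; linarith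
    · refine le_of_mul_le_mul_left ?_ (pow_pos k0 2)
      have a1 : k ^ 2 * (T * l ^ 2) = T ^ 3 := by
        rw [show k ^ 2 * (T * l ^ 2) = T * (k * l) ^ 2 by ring, h]; ring
      have a3 : 2 * c ^ 2 ≤ B ^ 3 := by
        have := pow_le_pow_left₀ (by positivity) (hB ▸ cg : 2 * c ≤ B) 2
        have : B ^ 2 ≤ B ^ 3 := pow_le_pow_right₀ (by linarith) (by norm_num)
        linarith [sq_nonneg c]
      calc k ^ 2 * (w * dn) = c ^ 2 * P ^ 6 * (w * dn * q ^ 2) := by rw [hk]; ring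
        _ ≤ c ^ 2 * P ^ 6 * (2 * A ^ 3) := by gcongr
        _ = 2 * c ^ 2 * (P ^ 2 * A) ^ 3 := by ring
        _ ≤ B ^ 3 * (P ^ 2 * A) ^ 3 := by gcongr
        _ ≤ _ := by rw [a1, ← mul_pow]; gcongr

section cl

variable {S : Sc} {M : Md} {m : ℕ} {a E l0 X Xp Vt γ u1 j0 Lp : ℝ}

/-- regime -/
structure Rg (E : ℝ) (S : Sc) (M : Md) (m : ℕ) (a : ℝ) : Prop where
  F : Fn S M m a
  θ : S.C * S.θ ≤ 1 / 2
  lg : 1 ≤ log S.n
  v : 72 * S.C ^ 5 * (S.n * S.v) ≤ 1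
  E : (72 * S.C ^ 5) ^ 3 ≤ E

variable (G : Rg E S M m a) (H : Far E S M Xp Vt γ u1 Lp) (P : Ap S M m a l0 X Xp Vt u1 j0)
include G

theorem Rg.v' : 72 * S.C ^ 5 * S.v ≤ 1 := le_trans (by
  have := G.F.C0
  have := le_mul_of_one_le_left G.F.v0.le G.F.n1
  gcongr) G.v

theorem Rg.sJ : 1 ≤ 3 * S.C ^ 4 * M.s S.J := by
  have := G.F.C0
  have := mul_le_mul_of_nonneg_left (G.F.s_mem le_rfl).1 (show 0 ≤ 3 * S.C ^ 3 by positivity)
  linarith [G.F.J_lo]

theorem Rg.nw : 1 ≤ S.n * S.w3 1 := by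
  have h := G.F.toCl
  have := h.ms_pos zero_le_one
  have := h.N0
  rw [Sc.w3, mul_div_assoc', le_div_iff₀ (by positivity), one_mul, mul_one]
  exact mul_le_mul_of_nonneg_left ((G.F.ms_le_one 1).trans h.F1) h.N0.le

/-- the first node of the block -/
theorem Rg.k0 : ∃ k0, S.J / 2 ≤ k0 ∧ k0 ≤ S.J ∧ 3 / 4 * M.s S.J ≤ M.s k0 ∧
    1 ≤ 24 * S.C ^ 5 * (((S.J : ℝ) - k0) * S.v) := by
  have h := G.F.toCl
  have C1 := h.C1
  have C0 := h.C0
  have v0 := h.v0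
  obtain ⟨N, hN⟩ : ∃ N, N = ⌊(S.J : ℝ) / (4 * S.C ^ 2)⌋₊ := ⟨_, rfl⟩
  have a1 : (N : ℝ) * (4 * S.C ^ 2) ≤ S.J := by
    rw [← le_div_iff₀ (by positivity), hN]; exact Nat.floor_le (by positivity)
  have a2 : (S.J : ℝ) ≤ (N + 1) * (4 * S.C ^ 2) := by
    rw [← div_le_iff₀ (by positivity), hN]; exact (Nat.lt_floor_add_one _).le
  have a3 : 4 * N ≤ S.J := by
    have := mul_le_mul_of_nonneg_left (one_le_pow₀ (n := 2) C1) (Nat.cast_nonneg (α := ℝ) N)
    exact_mod_cast (by linarith : 4 * (N : ℝ) ≤ S.J)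
  have a4 := (h.s_tel (Nat.sub_le S.J N) le_rfl).2
  refine ⟨S.J - N, by omega, by omega, ?_, ?_⟩
  · rw [Nat.cast_sub (by omega), sub_sub_cancel] at a4
    have a5 : (N : ℝ) * (4 * S.C ^ 2) * S.v ≤ S.C * M.s S.J :=
      (mul_le_mul_of_nonneg_right a1 v0.le).trans (G.F.s_mem le_rfl).1
    have a6 : 4 * (N * (S.C * S.v)) ≤ M.s S.J := le_of_mul_le_mul_left (by linarith) C0
    linarith
  · rw [Nat.cast_sub (by omega), sub_sub_cancel]
    have := mul_le_mul_of_nonneg_right a2 (show 0 ≤ 3 * S.C ^ 3 * S.v by positivity)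
    have : 0 ≤ S.C ^ 5 * S.v := by positivity
    linarith [G.F.J_lo, G.v']

include H

theorem Rg.jl : M.s S.jl < M.s S.J / 2 := by
  have h := G.F.toCl
  have C1 := h.C1
  have a1 : S.C ^ 4 ≤ S.C ^ 5 := pow_le_pow_right₀ C1 (by norm_num)
  have a2 : 72 * S.C ^ 5 ≤ E :=
    (le_self_pow₀ (by linarith [one_le_pow₀ (n := 5) C1]) three_ne_zero).trans G.E
  have a3 := mul_le_mul_of_nonneg_right (show 72 * S.C ^ 4 ≤ E by linarith) (h.s_nn S.jl)
  have a4 : 0 < S.C ^ 4 := by positivity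
  refine lt_of_mul_lt_mul_left (a := 72 * S.C ^ 4) ?_ (by positivity)
  linarith [G.sJ, H.jl]

include P

/-- rise from the lower nodes -/
theorem Rg.rise {i k : ℕ} (i1 : 3 / 4 * M.s S.J ≤ M.s i) (ik : i < k) (k1 : S.J ≤ k)
    (k2 : k < S.Jp) (hu : u1 ≤ du M k) : M.rb m a k - M.rb m a i ≤
      5 * S.C * (Rp M S Xp Vt γ k + Xp ^ ((1 : ℝ) / 3)) + 6 * S.C * (((k : ℝ) - i) * S.v) := by
  have h := G.F.toCl
  have C1 := h.C1
  have C0 := h.C0
  have v0 := h.v0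
  have m0 : 0 < m := h.n1.trans G.F.m1
  have X0 := H.Xp0.1
  obtain ⟨x, hx⟩ : ∃ x, x = Xp ^ ((1 : ℝ) / 3) := ⟨_, rfl⟩
  have x0 : 0 < x := by rw [hx]; positivity
  have x3 : x ^ 3 = Xp := by
    rw [hx, ← rpow_natCast, ← rpow_mul X0.le]; norm_num
  have x1 : 72 * S.C ^ 5 * x ≤ 1 := by
    refine le_of_pow_le_pow_left₀ three_ne_zero zero_le_one ?_
    rw [mul_pow, x3, one_pow]
    exact (mul_le_mul_of_nonneg_right G.E X0.le).trans H.Xp0.2
  have γ0 := γ_nn h m0 G.θ P.top H.γ0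
  have d0 : 0 < du M k := (ds_pos h H.u0 k1 k2).trans_le (ds_le_du k)
  have a1 := del_up h m0 G.θ P.top H.γ0 k1 k2.le d0
  have a2 := P.vt k k1 k2.le hu
  have a3 : -M.del m a i ≤ γ + 5 * S.C * (x + S.v) :=
    del_r h m0 G.θ P.top H.γ0 i1 (by omega) (x3 ▸ by gcongr; linarith) (by linarith)
      (le_of_mul_le_mul_left (a := 3 * S.C ^ 4) (by linarith [G.sJ, G.v']) (by positivity)) (G.jl H)
  have a4 : min Vt √(Xp / du M k) + γ ≤ Rp M S Xp Vt γ k := by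
    unfold Rp; linarith [sqrt_nonneg (Xp / max (dl M S k - S.u0) (Xp ^ ((1 : ℝ) / 3)))]
  have a5 : 0 ≤ min Vt √(Xp / du M k) := le_min H.Vt0 (sqrt_nonneg _)
  have a6 : M.del m a k ≤ γ + 2 * min Vt √(Xp / du M k) := by
    rcases min_choice Vt √(Xp / du M k) with e | e <;> rw [e]
    · linarith [H.Vt0]
    · exact a1
  have d1 : S.v ≤ ((k : ℝ) - i) * S.v := le_mul_of_one_le_left v0.le (by
    have : (i : ℝ) + 1 ≤ k := by exact_mod_cast ik
    linarith)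
  have a7 : M.s k - M.s i ≤ γ + S.C * (((k : ℝ) - i) * S.v) := by
    have b1 := h.sm k2.le
    have b2 := H.γ0
    rcases le_total S.J i with e | e
    · have := h.sm e
      have : 0 ≤ S.C * (((k : ℝ) - i) * S.v) := mul_nonneg C0.le (by linarith)
      linarith
    · have b3 := (h.s_tel e le_rfl).2
      have : (S.J : ℝ) ≤ k := by exact_mod_cast k1
      have := mul_le_mul_of_nonneg_right (show (S.J : ℝ) - i ≤ k - i by linarith)
        (mul_pos C0 v0).le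
      linarith
  have a8 := (h.q_tel G.θ ik.le k2.le).2
  have a9 := mul_le_mul_of_nonneg_left d1 C0.le
  have := mul_le_mul_of_nonneg_right C1 (show 0 ≤ Rp M S Xp Vt γ k by linarith)
  unfold Md.del at a3 a6
  rw [← hx]
  linarith

omit H P in
/-- label weight against the density -/
theorem Rg.dz (P : Ap S M m a l0 X Xp Vt u1 j0) {y : ℕ} (y1 : S.jl < y) (y2 : y < S.Jp) :
    S.v ≤ S.C ^ 2 * M.dz m a y * S.den (M.z (max y S.J - 1)) := by
  have h := G.F.toCl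
  have C1 := h.C1
  have C0 := h.C0
  have z0 := G.F.lg.dz_nonneg y
  rcases le_or_gt S.J y with e | e
  · have a1 := (h.plat y e y2).1
    rw [← dz_up (m := m) (a := a) h.leg (by omega), div_le_iff₀ C0] at a1
    rw [max_eq_left e]
    have := h.den0 (M.z (y - 1))
    have : S.C ≤ S.C ^ 2 := le_self_pow₀ C1 two_ne_zero
    calc _ ≤ S.C * M.dz m a y * S.den (M.z (y - 1)) := by linarith
      _ ≤ _ := by gcongr
  · have a1 := T57.den_lo (m := m) (a := a) h y1 e zero_le_one h.v0.le le_rfl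
    rw [max_eq_right e.le]
    have := mul_le_mul_of_nonneg_left P.jn.dj1 (show 0 ≤ S.C * M.dz m a y by positivity)
    linarith

/-- **the frame of a plateau node** -/
theorem Rg.qf {k : ℕ} {L e κ0 l L0 κ : ℝ} (k1 : S.J ≤ k) (k2 : k < S.Jp)
    (hu : 3 * u1 ≤ 2 * du M k) (hL : Lp ≤ L)
    (h0 : κ0 = L * (1 + (Rp M S Xp Vt γ k + Xp ^ ((1 : ℝ) / 3)) / ls M S k))
    (he : ∀ i : ℕ, S.J / 2 ≤ i → i < S.Jp → |(i : ℝ) - k| * S.v ≤ ls M S k / (64 * S.C ^ 4) →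
      |M.rb m a i - M.rb m a k| ≤ e + κ0 * (|(i : ℝ) - k| * S.v))
    (lp : 0 < l) (lL : l ≤ L0) (L1 : L0 ≤ 1) (Lg : 128 * S.C ^ 4 * log S.n * L0 ≤ ls M S k)
    (T1 : κ * l ≤ 1) (eT : e ≤ κ * l) (κ1 : 320 * S.C ^ 5 * κ0 ≤ κ)
    (κ2 : L * (S.w3 1 * S.den (M.z (k - 1))) ≤ κ * ls M S k ^ 3) (t4 : S.w3 1 ≤ κ * l * l)
    (t5 : S.w3 1 ≤ (κ * l) ^ 2 * L0) (t3 : S.w3 1 * S.den (M.z (k - 1)) ≤ κ * l * l ^ 2) :
    ∃ k0 k', QF (4 * 10 ^ 7 * S.C ^ 17) (4 * 10 ^ 7 * S.C ^ 17) S M m a 1 k0 k'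
      (fun _ => M.rb m a k) (rr S.v l L0 k) (tt S.v l L0 κ k) (DD S.v L0 k) ∧
      Inn (4 * 10 ^ 7 * S.C ^ 17) S 1 k0 k' k := by
  obtain ⟨k', r1, r2, r3, r4⟩ := H.rev
  obtain ⟨k0, b1, b2, b3, b4⟩ := G.k0
  have h := G.F.toCl
  have C1 := h.C1
  have C0 := h.C0
  have v0 := h.v0
  have m0 : 0 < m := h.n1.trans G.F.m1
  have w0 := G.F.w3_pos one_pos
  have cp : ∀ i, i ≤ 17 → S.C ^ i ≤ S.C ^ 17 := fun i hi => pow_le_pow_right₀ C1 hi
  have c0 : 1 ≤ S.C ^ 17 := one_le_pow₀ C1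
  have c1 : S.C ≤ S.C ^ 5 := le_self_pow₀ C1 (by norm_num)
  have c4 : 1 ≤ S.C ^ 4 := one_le_pow₀ C1
  have c2 : S.C ^ 2 ≤ S.C ^ 4 := pow_le_pow_right₀ C1 (by norm_num)
  have c5 : S.C ^ 4 ≤ S.C ^ 5 := pow_le_pow_right₀ C1 (by norm_num)
  have l0 := ls_pos' h H.u0 k1 k2
  have d0 : 0 < du M k := (ds_pos h H.u0 k1 k2).trans_le (ds_le_du k)
  have hu1 : u1 ≤ du M k := by rcases le_total u1 0 with e | e <;> linarith
  have hue : 3 * S.ue ≤ 2 * du M k := by linarith [H.u1a]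
  have fine : ∀ y, S.J ≤ y → y ≤ k → 8 * S.C * S.v ≤ ls M S y := fun y y1 y2 => by
    have a1 := P.jn.fine y y1 (by omega) (hu1.trans (du_anti h H.u0 y2))
    refine le_of_mul_le_mul_left ?_ h.N0
    have := mul_le_mul_of_nonneg_right c1 (mul_pos h.N0 v0).le
    have : 0 ≤ S.C ^ 5 * (S.n * S.v) := by have := h.N0; positivity
    rw [ls_eq]
    linarith [G.v]
  have jk : S.jl < k0 := by
    by_contra hc
    linarith [h.sm (not_lt.1 hc), G.jl H, h.s_nn S.J]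
  have x0 : 0 ≤ Xp ^ ((1 : ℝ) / 3) := by have := H.Xp0.1; positivity
  have R0 : 0 ≤ Rp M S Xp Vt γ k := by
    have := γ_nn h m0 G.θ P.top H.γ0
    have := le_min H.Vt0 (sqrt_nonneg (Xp / du M k))
    unfold Rp; positivity
  have L1' : 1 ≤ L := H.Lp1.1.trans hL
  obtain ⟨u, hu'⟩ : ∃ u, u = (Rp M S Xp Vt γ k + Xp ^ ((1 : ℝ) / 3)) / ls M S k := ⟨_, rfl⟩
  have u0 : 0 ≤ u := by rw [hu']; positivity
  have ul : Rp M S Xp Vt γ k + Xp ^ ((1 : ℝ) / 3) = u * ls M S k := by rw [hu']; field_simp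
  rw [← hu'] at h0
  have q1 : 1 + u ≤ κ0 := h0 ▸ le_mul_of_one_le_left (by linarith) L1'
  have q2 : κ0 ≤ κ := le_trans (le_mul_of_one_le_left (by linarith) (by linarith)) κ1
  have l1 := lL.trans L1
  have wl : S.w3 1 ≤ l := t4.trans (mul_le_of_le_one_left lp.le T1)
  have s0 : 1 ≤ 4 * S.C ^ 4 * M.s k0 := by
    linarith [G.sJ, mul_le_mul_of_nonneg_left b3 (show 0 ≤ 4 * S.C ^ 4 by positivity)]
  have DD' : ls M S k / (64 * S.C ^ 4) ≤ ls M S k / (4 * S.C ^ 2) := by gcongr; linarith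
  have shy : ∀ y : ℕ, |(y : ℝ) - k| * S.v ≤ ls M S k / (64 * S.C ^ 4) →
      y < S.Jp ∧ Sh S M k (max y S.J) := fun y d => by
    have : Sh S M k (max y S.J) := by
      refine sh h H.u0 k1 k2 hue fine (le_max_right _ _) (le_trans ?_ (d.trans DD'))
      rcases le_total y S.J with e | e
      · have e1 : (y : ℝ) ≤ S.J := by exact_mod_cast e
        have e2 : (S.J : ℝ) ≤ k := by exact_mod_cast k1
        rw [max_eq_right e, abs_of_nonpos (by linarith), abs_of_nonpos (by linarith)]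
        gcongr
      · rw [max_eq_left e]
    exact ⟨(le_max_left _ _).trans_lt this.lt, this⟩
  have farl : ∀ y : ℕ, ls M S k / (64 * S.C ^ 4) < ((k : ℝ) - y) * S.v →
      y < k ∧ ls M S k ≤ 64 * S.C ^ 4 * (((k : ℝ) - y) * S.v) := fun y d => by
    have a1 : 0 < ((k : ℝ) - y) * S.v := lt_trans (by positivity) d
    have a2 : (y : ℝ) < k := sub_pos.1 ((mul_pos_iff_of_pos_right v0).1 a1)
    rw [div_lt_iff₀ (by positivity)] at d
    exact ⟨by exact_mod_cast a2, by linarith⟩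
  refine ⟨k0, k', frame (D := ls M S k / (64 * S.C ^ 4))
    ⟨one_pos, jk.le, by omega, by omega, r2, ?_, (h.leg.z1 _).trans (by linarith), by linarith,
      fun i b d => le_trans ?_ (r4 i b d)⟩
    (T57.crude_top m0 (by linarith) (by linarith)) m0 h (by linarith) lp lL L1 G.lg
    (by rw [le_div_iff₀ (by positivity)]; linarith) (by linarith)
    (G.nw.trans (mul_le_mul_of_nonneg_left wl h.N0.le)) t4 t5 (fun i b d => ?_) (fun y b d => ?_)
    (fun y b d => ?_) G.F.lg.dz_nonneg, ?_, ?_⟩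
  · exact s0.trans (mul_le_mul_of_nonneg_right (by linarith [cp 4 (by norm_num)]) (h.s_nn _))
  · have := h.ms_pos (h.s_nn i)
    have := h.ms1 (M.s i)
    have := h.F1
    have := h.θ0
    have := le_mul_of_one_le_left C0.le (show 1 ≤ 4 * 10 ^ 7 * S.C ^ 17 by linarith)
    gcongr
  · have z0 : 0 ≤ |(i : ℝ) - k| * S.v := by positivity
    rcases le_or_gt (((k : ℝ) - i) * S.v) (ls M S k / (64 * S.C ^ 4)) with f | f
    · have d' : |(i : ℝ) - k| * S.v ≤ ls M S k / (64 * S.C ^ 4) := by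
        rw [← abs_of_pos v0, ← abs_mul]
        exact abs_le.2 ⟨by linarith, d⟩
      have := mul_le_mul_of_nonneg_right q2 z0
      linarith [he i (by omega) (shy i d').1 d']
    · obtain ⟨f1, f2⟩ := farl i f
      have f3 : (i : ℝ) ≤ k := by exact_mod_cast f1.le
      have a1 := G.rise H P (b3.trans (h.sm b)) f1 k1 k2 hu1
      rw [abs_of_nonpos (sub_nonpos.2 (rb_mono m0 f1.le)), abs_of_nonpos (by linarith), neg_sub,
        neg_sub]
      rw [abs_of_nonpos (by linarith), neg_sub] at z0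
      rw [ul] at a1
      have a2 := mul_le_mul_of_nonneg_left f2 (show 0 ≤ 5 * S.C * u by positivity)
      have a3 := mul_le_mul_of_nonneg_right c1 z0
      have a4 := mul_le_mul_of_nonneg_right
        ((mul_le_mul_of_nonneg_left q1 (show 0 ≤ 320 * S.C ^ 5 by positivity)).trans κ1) z0
      have : 0 ≤ S.C ^ 5 * (((k : ℝ) - i) * S.v) := by positivity
      have : 0 < κ * l := mul_pos (by linarith) lp
      linarith
  · obtain ⟨y2, Y⟩ := shy y d
    have a1 := G.dz P (jk.trans b) y2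
    have z0 := G.F.lg.dz_nonneg y
    have a2 := Y.den2
    calc _ ≤ S.w3 1 * (S.C ^ 2 * M.dz m a y * (S.C * S.den (M.z (k - 1)))) := by
          refine mul_le_mul_of_nonneg_left (a1.trans ?_) w0.le
          gcongr
      _ = S.C ^ 3 * M.dz m a y * (S.w3 1 * S.den (M.z (k - 1))) := by ring
      _ ≤ _ := by
          have := h.den0 (M.z (k - 1))
          gcongr
          linarith [cp 3 (by norm_num)]
  · obtain ⟨f1, f2⟩ := farl y d
    obtain ⟨x, hx⟩ : ∃ x, x = ((k : ℝ) - y) * S.v := ⟨_, rfl⟩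
    rw [← hx] at f2 ⊢
    have x0' : 0 < x :=
      (mul_pos_iff_of_pos_left (show 0 < 64 * S.C ^ 4 by positivity)).1 (l0.trans_le f2)
    have a1 := G.dz P (jk.trans b) (f1.trans k2)
    have z0 := G.F.lg.dz_nonneg y
    have y2 : max y S.J ≤ k := max_le f1.le k1
    have a2 := H.far (max y S.J) k (le_max_right _ _) y2 k2.le hu1
    have a3 := ls_lo h H.u0 (le_max_right y S.J) y2 k2 hue
    have a4 : ((k : ℝ) - (max y S.J : ℕ)) * S.v ≤ x := by
      have : (y : ℝ) ≤ (max y S.J : ℕ) := by exact_mod_cast le_max_left _ _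
      rw [hx]; gcongr
    have a5 : max 1 (lsh M S (max y S.J) / lsh M S k) ≤ 132 * S.C ^ 5 * x / ls M S k := by
      have e1 := mul_le_mul_of_nonneg_right c5 x0'.le
      have e2 := mul_le_mul_of_nonneg_right (c2.trans c5) x0'.le
      have e3 := mul_le_mul_of_nonneg_left f2 C0.le
      have e4 := mul_le_mul_of_nonneg_left a4 (show 0 ≤ 4 * S.C ^ 2 by positivity)
      have : 0 ≤ S.C ^ 5 * x := by positivity
      refine max_le ((one_le_div l0).2 (by linarith)) ?_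
      rw [← ls_eq, ← ls_eq]
      gcongr
      linarith
    have a6 : Lp * ((lsh M S k + Xp ^ ((1 : ℝ) / 3)) * lsh M S k ^ 2 +
        S.w3 1 * S.den (M.z (k - 1))) ≤ 2 * κ * ls M S k ^ 3 := by
      have := h.den0 (M.z (k - 1))
      rw [← ls_eq]
      have e1 : (ls M S k + Xp ^ ((1 : ℝ) / 3)) * ls M S k ^ 2 ≤
          (1 + u) * ls M S k * ls M S k ^ 2 := by gcongr; linarith
      have e2 := mul_le_mul_of_nonneg_right (h0 ▸ q2) (pow_pos l0 3).le
      refine (mul_le_mul hL (add_le_add e1 le_rfl) (by positivity) (by linarith)).trans ?_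
      linarith
    have a7 : S.w3 1 * S.den (M.z (max y S.J - 1)) ≤
        2 * κ * ls M S k ^ 3 * (132 * S.C ^ 5 * x / ls M S k) ^ 3 := by
      have : 0 ≤ κ := by linarith
      refine a2.trans (mul_le_mul a6 (pow_le_pow_left₀ (by positivity) a5 3) (by positivity)
        (by positivity))
    have a8 : 2 * κ * ls M S k ^ 3 * (132 * S.C ^ 5 * x / ls M S k) ^ 3 =
        36799488 * S.C ^ 15 * (κ * (x / 2) ^ 3) := by field_simp; ring
    have : 0 ≤ κ * (x / 2) ^ 3 := mul_nonneg (by linarith) (by positivity)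
    calc _ ≤ S.w3 1 * (S.C ^ 2 * M.dz m a y * S.den (M.z (max y S.J - 1))) := by gcongr
      _ = S.C ^ 2 * M.dz m a y * (S.w3 1 * S.den (M.z (max y S.J - 1))) := by ring
      _ ≤ S.C ^ 2 * M.dz m a y * (36799488 * S.C ^ 15 * (κ * (x / 2) ^ 3)) := by
          rw [← a8]; gcongr
      _ = 36799488 * S.C ^ 17 * M.dz m a y * (κ * (x / 2) ^ 3) := by ring
      _ ≤ _ := by gcongr; norm_num
  · have e : (S.J : ℝ) ≤ k := by exact_mod_cast k1
    rw [div_le_iff₀ (by positivity), mul_comm]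
    refine b4.trans (mul_le_mul (by linarith [cp 5 (by norm_num)]) (by gcongr) ?_ (by positivity))
    have : (k0 : ℝ) ≤ S.J := by exact_mod_cast b2
    exact mul_nonneg (by linarith) v0.le
  · have e : (k : ℝ) ≤ S.Jp := by exact_mod_cast k2.le
    refine le_trans ?_ (r3.trans (mul_le_mul_of_nonneg_right (by linarith) v0.le))
    exact one_div_le_one_div_of_le C0 (by linarith [cp 5 (by norm_num)])

end cl

/-- **`SzQ`** from the pair bound of the frame -/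
theorem szQ_of (hQ : QFS) : SzQ5 := by
  intro C
  have hK : 1 ≤ 4 * 10 ^ 7 * max C 1 ^ 17 := by
    linarith [one_le_pow₀ (n := 17) (le_max_right C 1)]
  filter_upwards [hQ _ hK C, eventually_ge_atTop 2] with A Q hA ε hε η hη
  filter_upwards [Q 1 one_pos _ (half_pos hη), ev_fn C hA, ev_K ((72 * C ^ 5) ^ 3) hε,
    ev_rgc C hA (show 0 < η / 6 by positivity) (4 * 10 ^ 7 * C ^ 17 * (2 * (128 * C ^ 4) ^ 2)),
    ev_K (72 * C ^ 6) one_pos]
    with n Q F e1 G e2 S M b1 b2 b3 h m a I l0 X Xp Vt γ u1 j Lp H P k L e k1 k2 hu hL e0 he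
  replace F := F S M b1 b2 b3 h m a I
  replace Q := Q S M b1 b2 b3 h m a I
  replace G := G S b1 b2 b3
  subst b1 b3
  rw [max_eq_left h.C1] at Q
  have C1 := h.C1
  have C0 := h.C0
  have n0 := h.N0
  have lg := G.log1
  have m0 : 0 < m := h.n1.trans F.m1
  have w0 := F.w3_pos one_pos
  have R : Rg ((S.n : ℝ) ^ ε) S M m a := by
    refine ⟨F, G.Cθ h, lg, le_of_mul_le_mul_left ?_ n0, e1⟩
    rw [rpow_one] at e2
    have a1 : S.v * (S.n : ℝ) ^ 2 ≤ S.C := (mul_le_mul_of_nonneg_left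
      (pow_le_pow_right₀ F.n1 (b2 ▸ hA)) h.v0.le).trans h.v2
    have := mul_le_mul_of_nonneg_left a1 (show 0 ≤ 72 * S.C ^ 5 by positivity)
    linarith
  have L1 : 1 ≤ L := H.Lp1.1.trans hL
  obtain ⟨p, hp⟩ : ∃ p, p = L ^ ((1 : ℝ) / 3) := ⟨_, rfl⟩
  have p1 : 1 ≤ p := hp ▸ one_le_rpow L1 (by norm_num)
  have p3 : p ^ 3 = L := by
    rw [hp, ← rpow_natCast, ← rpow_mul (by linarith)]; norm_num
  have p2 : L ^ ((2 : ℝ) / 3) = p ^ 2 := by
    rw [hp, ← rpow_natCast, ← rpow_mul (by linarith)]; norm_num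
  have d0 := h.den0 (M.z (k - 1))
  have s0 := ds_pos h H.u0 k1 k2
  have s1 : ds M S k ≤ 1 := (ds_le_du k).trans (by unfold du; linarith [(F.z_pos (k - 1)).le])
  have r0 : 0 ≤ Rp M S Xp Vt γ k + Xp ^ ((1 : ℝ) / 3) := by
    have := γ_nn h m0 R.θ P.top H.γ0
    have := le_min H.Vt0 (sqrt_nonneg (Xp / du M k))
    have := H.Xp0.1
    unfold Rp; positivity
  obtain ⟨A, hA'⟩ : ∃ A, A = (S.w3 1 * (S.den (M.z (k - 1)) + (Rp M S Xp Vt γ k +
    Xp ^ ((1 : ℝ) / 3)) ^ 2 / (ds M S k ^ 2 * S.den (M.z (k - 1))))) ^ ((1 : ℝ) / 3) := ⟨_, rfl⟩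
  obtain ⟨s, hs⟩ : ∃ s, s = p ^ 2 * (A + S.w3 1 / (S.den (M.z (k - 1)) * ds M S k ^ 2)) +
    √(S.w3 1 / (S.den (M.z (k - 1)) * ds M S k)) + e := ⟨_, rfl⟩
  have A0 : 0 ≤ A := by rw [hA']; positivity
  have es : e ≤ s := hs ▸ le_add_of_nonneg_left (by positivity)
  rw [p2, ap, add_sub_cancel_right, ← hA', lsh, ← hs]
  obtain ⟨g, hg⟩ : ∃ g, g = 128 * S.C ^ 4 * log S.n := ⟨_, rfl⟩
  have c4 : 1 ≤ S.C ^ 4 := one_le_pow₀ C1
  have g0 : 128 * S.C ^ 4 ≤ g := hg ▸ le_mul_of_one_le_right (by positivity) lg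
  have g1 : 1 ≤ g := by linarith
  have K1 : 1 ≤ 4 * 10 ^ 7 * S.C ^ 17 := by linarith [one_le_pow₀ (n := 17) C1]
  have L0 := G.rp0 (η / 2)
  have Λ1 : 1 ≤ (S.n : ℝ) ^ (η / 2) := one_le_rpow F.n1 (by positivity)
  have fin : (S.n : ℝ) ^ (η / 2) * (4 * 10 ^ 7 * S.C ^ 17) * (2 * (g ^ 2 * s)) ≤
      (S.n : ℝ) ^ η * s := by
    have e : (S.n : ℝ) ^ η = (S.n : ℝ) ^ (η / 2) *
        ((S.n : ℝ) ^ (η / 6) * ((S.n : ℝ) ^ (η / 6)) ^ 2) := by
      rw [← pow_succ', ← rpow_natCast, ← rpow_mul n0.le, ← rpow_add n0]; congr 1; push_cast; ring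
    have := G.K_le
    have := G.log_le
    have := e0.trans es
    calc _ = (S.n : ℝ) ^ (η / 2) * (4 * 10 ^ 7 * S.C ^ 17 * (2 * (128 * S.C ^ 4) ^ 2) *
          log S.n ^ 2) * s := by rw [hg]; ring
      _ ≤ _ := by rw [e]; gcongr
  have T0 : s ≤ g ^ 2 * s := le_mul_of_one_le_left (e0.trans es) (one_le_pow₀ g1)
  refine le_trans ?_ fin
  rcases le_total 1 (g ^ 2 * s) with T | T
  · exact ((E61.mj_u4 (M := M) (a := a) m0).u0 k).2.trans (le_trans (by linarith)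
      (le_mul_of_one_le_left (by linarith) (one_le_mul_of_one_le_of_one_le Λ1 K1)))
  obtain ⟨l, L', κ, n1, n2, n3, n4, n5, n6, n7, n8, n9, n10⟩ := nums (c := 320 * S.C ^ 5) w0 d0 s0
    s1 r0 p1 A0 (by rw [hA', ← rpow_natCast, ← rpow_mul (by positivity)]; norm_num) e0 g1
    (by linarith [one_le_pow₀ (n := 5) C1]) (by
      have := pow_le_pow_left₀ (by positivity) g0 2
      have : S.C ^ 5 ≤ S.C ^ 8 := pow_le_pow_right₀ C1 (by norm_num)
      have : 0 ≤ S.C ^ 5 := by positivity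
      linarith) (congrArg _ hs) T
  rw [p3] at n6 n7
  rw [← n5] at n8 n9 n10 T T0 ⊢
  obtain ⟨k0, k', W, In⟩ := R.qf H P k1 k2 hu hL rfl he n1 n2 n3 (hg ▸ n4) T (es.trans T0) n6 n7
    n8 n9 n10
  have u := Q _ _ _ _ _ _ _ W k In
  rw [tt_self] at u
  have : 0 ≤ κ * l := (e0.trans es).trans T0
  refine (E61.u4_le (M := M) (m := m) (a := a) (k := k) (by positivity) u).trans ?_
  exact mul_le_mul_of_nonneg_left (by linarith) (by positivity)

theorem QF.qw {K Λ₀ t : ℝ} {S : Sc} {M : Md} {m : ℕ} {a : ℝ} {k0 k1 : ℕ} {c ρ τ D : ℕ → ℝ}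
    (W : QF K Λ₀ S M m a t k0 k1 c ρ τ D) : QW K Λ₀ S M m a t k0 k1 c ρ τ :=
  ⟨W.blk, W.crude, W.c0, W.clk, W.lip, W.rn, W.ge, W.loc, W.up, W.dn, W.t4, W.den⟩

theorem qFS : QFS := by
  intro K hK C
  filter_upwards [T57.qGenW K 2 hK C] with A Q ε hε η hη
  filter_upwards [Q ε hε _ (half_pos hη), ev_K 2 (half_pos hη)]
    with n Q e2 S M b1 b2 b3 h m a I Λ₀ k0 k1 c ρ τ D W k In
  have v0 := h.v0
  have K0 : 0 < 1 / K := by positivity
  have a0 : k0 ≤ k := by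
    have := (mul_pos_iff_of_pos_right v0).1 (K0.trans_le In.1)
    exact_mod_cast (sub_pos.1 this).le
  have a1 : k ≤ k1 := by
    have := (mul_pos_iff_of_pos_right v0).1 (K0.trans_le In.2)
    exact_mod_cast (sub_pos.1 this).le
  have r0 : 0 < ρ k := (mul_pos_iff_of_pos_left h.N0).1 (one_pos.trans_le (W.rn k a0 a1))
  have D0 := r0.trans_le (W.rD k)
  have t0 := r0.trans_le (W.ge k a0 a1)
  have u := (Q S M b1 b2 b3 h m a I _ _ _ _ _ _ _ W.qw).pair k (D k) In (by linarith) D0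
    fun i b _ d => W.fw k i b d
  have s : √(S.w3 1 / min (D k) 1) ≤ τ k :=
    sqrt_le_iff.2 ⟨t0.le, (div_le_iff₀ (lt_min D0 one_pos)).2 (W.w4 k)⟩
  have n0 : (0 : ℝ) < n := b3 ▸ h.N0
  have L1 := W.crude.1
  refine u.trans (pow_le_pow_left₀ (by positivity) ?_ _)
  have e : (n : ℝ) ^ η = (n : ℝ) ^ (η / 2) * (n : ℝ) ^ (η / 2) := by
    rw [← rpow_add n0, add_halves]
  calc _ ≤ (n : ℝ) ^ (η / 2) * Λ₀ * (2 * τ k) := by gcongr; linarith
    _ = (n : ℝ) ^ (η / 2) * 2 * Λ₀ * τ k := by ring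
    _ ≤ _ := by rw [e]; gcongr

/-- **pointwise size on the plateau** -/
theorem szQ5 : SzQ5 := szQ_of qFS

theorem szQ : SzQ := szQ_of5 szQ5

end Crest.Agent.T156.Alt.SzT98

end
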