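import Crest.Agent.T156.SzR_50

/-!
# Row 156, block (L) (helper50): the plateau sums from the pointwise size
-/

set_option autoImplicit false
set_option linter.unusedSectionVars false
set_option linter.unusedVariables false
set_option maxHeartbeats 400000

noncomputable section

namespace Crest.Agent.T156.Alt.S50

open Real Finset
open Crest.Agent.T156.Alt.L69 Crest.Agent.T156.Alt.SzT98 Crest.Agent.T156.Alt.Md67

variable {S : Sc} {M : Md} {m : ℕ} {a Xp Vt γ u1 Lp Λ : ℝ}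

/-- the pointwise size, for any `u` -/
def PQ (Λ : ℝ) (S : Sc) (M : Md) (m : ℕ) (a Xp Vt γ u1 Lp : ℝ) (u : ℕ → ℝ) : Prop :=
  ∀ k L e, S.J ≤ k → k < S.Jp → 2 * u1 ≤ du M k → Lp ≤ L → 0 ≤ e →
    (∀ i : ℕ, S.J / 2 ≤ i → i < S.Jp → |(i : ℝ) - k| * S.v ≤ ls M S k / (64 * S.C ^ 4) →
      |M.rb m a i - M.rb m a k| ≤
        e + L * (1 + (Rp M S Xp Vt γ k + Xp ^ ((1 : ℝ) / 3)) / ls M S k) * (|(i : ℝ) - k| * S.v)) →
    u k ≤ Λ * (L ^ ((2 : ℝ) / 3) * a0 M S Xp Vt γ k + √(S.w3 1 / ls M S k) + e)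

theorem tail (h : Cl S M) {i : ℕ} (i1 : 1 ≤ i) (N : ℕ) : ∑ k ∈ Ico i N, dx M k ≤ du M i := by
  rcases le_total N i with c | c
  · rw [Ico_eq_empty_of_le c, sum_empty]; exact sub_nonneg.2 (h.leg.z1 _)
  have : ∑ k ∈ Ico i N, dx M k = M.z (N - 1) - M.z (i - 1) := by
    induction N, c using Nat.le_induction with
    | base => simp
    | succ N c ih => rw [sum_Ico_succ_top c, ih, dx, Nat.add_sub_cancel]; ring
  rw [this]; exact sub_le_sub_right (h.leg.z1 _) _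

theorem dx_nn (h : Cl S M) (k : ℕ) : 0 ≤ dx M k := sub_nonneg.2 (h.leg.zm (Nat.sub_le _ _))

namespace DC

variable (D : DC S M m a Xp Vt γ u1)
include D

/-- the size on the block of `k0`, from a cone on the window of the block -/
theorem pt {u : ℕ → ℝ} (Λ0 : 0 < Λ) (L1 : 1 ≤ Lp) (P : PQ Λ S M m a Xp Vt γ u1 Lp u) {k0 n k : ℕ}
    (k1 : S.J ≤ k0) (k2 : k0 < S.Jp) (k3 : 2 * u1 ≤ du M k0)
    (n1 : n * S.v ≤ ls M S k0 / (16 * S.C ^ 2)) (n2 : ls M S k0 / (32 * S.C ^ 2) ≤ n * S.v)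
    (h1 : k0 ≤ k) (h2 : k ≤ k0 + n) (h3 : 2 * u1 ≤ du M k) {L e : ℝ} (hL : Lp ≤ L) (e0 : 0 ≤ e)
    (hc : ∀ j, k0 - n ≤ j → j ≤ k0 + 2 * n → |M.rb m a j - M.rb m a k| ≤ e +
      L * (ls M S k0 + Rp M S Xp Vt γ k0 + Xp ^ ((1 : ℝ) / 3)) * S.v / (4 * S.C ^ 2 * ls M S k0) *
        |(j : ℝ) - k|) : u k ≤ Λ * (2 * S.C * (L ^ ((2 : ℝ) / 3) * a0 M S Xp Vt γ k0 +
      √(S.w3 1 / ls M S k0)) + e) := by
  have C1 := D.h.C1
  have C0 := D.h.C0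
  have v0 := D.h.v0
  have l0 := ls_pos' D.h D.u0 k1 k2
  have L0 : 0 < L := by linarith
  have r1 : (k0 : ℝ) ≤ k := by exact_mod_cast h1
  have r2 : (k : ℝ) ≤ k0 + n := by exact_mod_cast h2
  have s := D.sh k1 k2 k3 (k1.trans h1) (by
    rw [abs_of_nonneg (sub_nonneg.2 r1)]
    refine le_trans (by gcongr; linarith) (n1.trans ?_)
    gcongr; norm_num)
  have l1 := ls_pos' D.h D.u0 (k1.trans h1) s.lt
  obtain ⟨⟨a1, -⟩, a2, -⟩ := D.a_var k1 k2 h1 s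
  have a3 := (D.R_var k1 k2 h1 s).2
  have x0 := D.x0
  have Rk := D.R0 k
  have R0 := D.R0 k0
  refine (P k L e (k1.trans h1) s.lt h3 hL e0 fun i _ _ hi => ?_).trans ?_
  · have b1 : |(i : ℝ) - k| ≤ n := by
      refine le_of_mul_le_mul_right (hi.trans (le_trans ?_ n2)) v0
      rw [div_le_div_iff₀ (by positivity) (by positivity)]
      have e1 : S.C ^ 3 ≤ S.C ^ 4 := pow_le_pow_right₀ C1 (by norm_num)
      nlinarith [mul_le_mul_of_nonneg_left s.ls2 (sq_nonneg S.C),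
        mul_le_mul_of_nonneg_right e1 l0.le]
    obtain ⟨b2, b3⟩ := abs_le.1 b1
    have b4 : k ≤ i + n := by exact_mod_cast (show (k : ℝ) ≤ i + n by linarith)
    have b5 : i ≤ k + n := by exact_mod_cast (show (i : ℝ) ≤ k + n by linarith)
    refine (hc i (by omega) (by omega)).trans (add_le_add le_rfl ?_)
    have b6 : (ls M S k0 + Rp M S Xp Vt γ k0 + Xp ^ ((1 : ℝ) / 3)) / (4 * S.C ^ 2 * ls M S k0) ≤
        1 + (Rp M S Xp Vt γ k + Xp ^ ((1 : ℝ) / 3)) / ls M S k := by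
      rw [one_add_div l1.ne', div_le_div_iff₀ (by positivity) l1]
      have e1 : ls M S k0 + Rp M S Xp Vt γ k0 + Xp ^ ((1 : ℝ) / 3) ≤
          2 * S.C * (ls M S k + (Rp M S Xp Vt γ k + Xp ^ ((1 : ℝ) / 3))) := by
        nlinarith [s.ls1, mul_le_mul_of_nonneg_right C1 Rk, mul_le_mul_of_nonneg_right C1 x0.le]
      have := mul_le_mul e1 s.ls2 l1.le (by positivity)
      linarith
    have := mul_le_mul_of_nonneg_left b6 (show 0 ≤ L * (|(i : ℝ) - k| * S.v) by positivity)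
    refine le_trans (le_of_eq (by ring)) (this.trans (le_of_eq (by ring)))
  · have := mul_le_mul_of_nonneg_left a1 (show 0 ≤ L ^ ((2 : ℝ) / 3) by positivity)
    exact mul_le_mul_of_nonneg_left (by linarith) Λ0.le

theorem ex_n {k0 : ℕ} (k1 : S.J ≤ k0) (k2 : k0 < S.Jp) (k3 : 2 * u1 ≤ du M k0) :
    ∃ n : ℕ, 0 < n ∧ n * S.v ≤ ls M S k0 / (16 * S.C ^ 2) ∧
      ls M S k0 / (32 * S.C ^ 2) ≤ n * S.v := by
  have C0 := D.h.C0
  have v0 := D.h.v0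
  have l0 := ls_pos' D.h D.u0 k1 k2
  have f := D.fine k0 k1 k2.le (by linarith [D.u1_nn])
  have a1 := Nat.floor_le (show 0 ≤ ls M S k0 / (16 * S.C ^ 2) / S.v by positivity)
  have a2 := Nat.lt_floor_add_one (ls M S k0 / (16 * S.C ^ 2) / S.v)
  rw [le_div_iff₀ v0] at a1
  rw [div_lt_iff₀ v0] at a2
  have a3 : S.v ≤ ls M S k0 / (32 * S.C ^ 2) := by rw [le_div_iff₀ (by positivity)]; linarith
  have a4 : ls M S k0 / (16 * S.C ^ 2) = 2 * (ls M S k0 / (32 * S.C ^ 2)) := by field_simp; norm_num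
  have a5 : ls M S k0 / (32 * S.C ^ 2) ≤ ⌊ls M S k0 / (16 * S.C ^ 2) / S.v⌋₊ * S.v := by linarith
  refine ⟨_, Nat.pos_of_ne_zero fun e => ?_, a1, a5⟩
  rw [e] at a5
  simp only [Nat.cast_zero, zero_mul] at a5
  linarith

theorem block {u : ℕ → ℝ} (Λ0 : 0 < Λ) (L1 : 1 ≤ Lp) (u0 : ∀ k, 0 ≤ u k)
    (P : PQ Λ S M m a Xp Vt γ u1 Lp u) {q : ℕ} (q2 : q ≤ 2) {k0 : ℕ} (k1 : S.J ≤ k0)
    (k2 : k0 < S.Jp) (k3 : 2 * u1 ≤ du M k0) : ∃ k', k0 < k' ∧ k' ≤ S.Jp ∧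
      ∑ k ∈ (Ico k0 k').filter fun k => 2 * u1 ≤ du M k, dx M k * u k ^ (q + 2) ≤
      ∑ k ∈ Ico k0 k', if u1 ≤ du M k then (44 * S.C * Λ) ^ (q + 2) * (5000000 * S.C ^ 13) *
        (dx M k * Gp M S Xp Vt γ Lp (q + 2) k) else 0 := by
  obtain ⟨n, n0, n1, n2⟩ := D.ex_n k1 k2 k3
  have h := D.h
  have C1 := h.C1
  have C0 := h.C0
  have v0 := h.v0
  have l0 := ls_pos' h D.u0 k1 k2
  have s0 := ds_pos h D.u0 k1 k2
  have d0 := h.den0 (M.z (k0 - 1))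
  have L0 : 0 < Lp := by linarith
  have x0 := D.x0
  have R0 := D.R0 k0
  have w0 := D.w0
  have n3 : 2 * (n * S.v) ≤ ls M S k0 / (8 * S.C ^ 2) := by
    rw [show ls M S k0 / (8 * S.C ^ 2) = 2 * (ls M S k0 / (16 * S.C ^ 2)) by field_simp; norm_num]
    linarith
  have nv : 0 ≤ n * S.v := by positivity
  have up : ∀ j : ℕ, j ≤ k0 + 2 * n → ((j : ℝ) - k0) * S.v ≤ ls M S k0 / (8 * S.C ^ 2) :=
    fun j hj => by
      have : (j : ℝ) ≤ k0 + 2 * n := by exact_mod_cast hj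
      nlinarith
  have sh : ∀ k, k0 ≤ k → k ≤ k0 + n → Sh S M k0 k := fun k b1 b2 =>
    D.sh k1 k2 k3 (k1.trans b1) (by
      rw [abs_of_nonneg (sub_nonneg.2 (by exact_mod_cast b1))]; exact up k (by omega))
  have rs := D.rise k1 k2 k3 (Nat.sub_le k0 n) (Nat.le_add_right k0 (2 * n)) (by
    have : (k0 : ℝ) ≤ ((k0 - n : ℕ) : ℝ) + n := by exact_mod_cast (by omega : k0 ≤ k0 - n + n)
    nlinarith) (up _ le_rfl)
  have mono := rb_mono (M := M) (a := a) D.hm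
  have mem : ∀ k ∈ (Ico k0 (k0 + n)).filter fun k => 2 * u1 ≤ du M k,
      k0 ≤ k ∧ k ≤ k0 + n ∧ 2 * u1 ≤ du M k := fun k hk =>
    ⟨(mem_Ico.1 (mem_filter.1 hk).1).1, (mem_Ico.1 (mem_filter.1 hk).1).2.le, (mem_filter.1 hk).2⟩
  obtain ⟨α, hα⟩ : ∃ α, α = Lp ^ ((2 : ℝ) / 3) * a0 M S Xp Vt γ k0 := ⟨_, rfl⟩
  obtain ⟨β, hβ⟩ : ∃ β, β = √(S.w3 1 / ls M S k0) := ⟨_, rfl⟩
  have α0 : 0 < α := hα ▸ mul_pos (by positivity) (af_pos w0 d0 s0)
  have β0 : 0 ≤ β := hβ ▸ sqrt_nonneg _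
  have K0 : 0 < 11 * S.C * Λ := by positivity
  obtain ⟨W, hW⟩ : ∃ W, W = ∑ k ∈ Ico k0 (k0 + n), dx M k := ⟨_, rfl⟩
  have W1 : ds M S k0 ≤ 32 * S.C ^ 4 * W := by
    have b1 := card_nsmul_le_sum (Ico k0 (k0 + n)) (dx M)
      (S.v / (S.C ^ 2 * S.den (M.z (k0 - 1)))) fun k hk => by
        rw [div_le_iff₀' (by positivity)]
        exact (sh k (mem_Ico.1 hk).1 (mem_Ico.1 hk).2.le).dz1
    rw [Nat.card_Ico, Nat.add_sub_cancel_left, nsmul_eq_mul, ← hW, ← mul_div_assoc,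
      div_le_iff₀ (by positivity)] at b1
    rw [div_le_iff₀ (by positivity), ls] at n2
    refine le_of_mul_le_mul_left ?_ d0
    nlinarith [mul_le_mul_of_nonneg_right b1 (show 0 ≤ 32 * S.C ^ 2 by positivity)]
  have W0 : 0 ≤ W := hW ▸ sum_nonneg fun k _ => dx_nn h k
  have B := blk (f := M.rb m a) (w := dx M) (u := fun k => u k / (11 * S.C * Λ)) (W := W)
    (s := (Ico k0 (k0 + n)).filter fun k => 2 * u1 ≤ du M k) (a := k0 - n) (b := k0 + 2 * n)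
    (σ := Lp * (ls M S k0 + Rp M S Xp Vt γ k0 + Xp ^ ((1 : ℝ) / 3)) * S.v /
      (4 * S.C ^ 2 * ls M S k0)) (μ := S.C ^ 2 * S.v / S.den (M.z (k0 - 1))) mono (by omega)
    (fun k hk => mem_Icc.2 (by have := mem k hk; omega))
    (fun k hk => ⟨dx_nn h k, by
      rw [le_div_iff₀' d0]; exact (sh k (mem k hk).1 (mem k hk).2.1).dz2⟩)
    (hW ▸ sum_le_sum_of_subset_of_nonneg (filter_subset _ _) fun k _ _ => dx_nn h k)
    (by positivity) α0 β0 R0 (by positivity) rs (fun k _ => div_nonneg (u0 k) K0.le)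
    (fun k hk i hc => by
      obtain ⟨b1, b2, b3⟩ := mem k hk
      have t := D.pt Λ0 L1 P k1 k2 k3 n1 n2 b1 b2 b3 (L := 8 ^ i * Lp) (e := 0)
        (le_mul_of_one_le_left L0.le (one_le_pow₀ (by norm_num))) le_rfl fun j j1 j2 =>
          (hc j j1 j2).trans (le_of_eq (by ring))
      have e : ((8 : ℝ) ^ i) ^ ((2 : ℝ) / 3) = 4 ^ i := by
        rw [show (8 : ℝ) ^ i = (2 ^ i) ^ 3 by rw [← pow_mul, mul_comm, pow_mul]; norm_num,
          ← rpow_natCast _ 3, ← rpow_mul (by positivity),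
          show ((3 : ℕ) : ℝ) * (2 / 3) = (2 : ℕ) by norm_num, rpow_natCast, ← pow_mul, mul_comm,
          pow_mul]
        norm_num
      rw [mul_rpow (by positivity) L0.le, e, mul_assoc, mul_assoc, ← hα, ← hβ] at t
      rw [div_le_iff₀ K0]
      have : 0 ≤ S.C * Λ * (4 ^ i * α + β) := by positivity
      linarith)
    (fun k hk => by
      obtain ⟨b1, b2, b3⟩ := mem k hk
      have t := D.pt Λ0 L1 P k1 k2 k3 n1 n2 b1 b2 b3 (L := Lp)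
        (e := 11 * S.C * Rp M S Xp Vt γ k0) le_rfl (by positivity) fun j j1 j2 => by
          have := mono j1
          have := mono j2
          have := mono (show k0 - n ≤ k by omega)
          have := mono (show k ≤ k0 + 2 * n by omega)
          exact le_add_of_le_of_nonneg (abs_le.2 ⟨by linarith, by linarith⟩) (by positivity)
      rw [← hα, ← hβ] at t
      rw [div_le_iff₀ K0]
      have : 0 ≤ S.C * Λ * (α + β) := by positivity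
      linarith) q
  have N := num q w0 d0 s0 R0 x0.le L1 hα
  have G0 := D.G0 L0.le (q + 2) k0
  obtain ⟨μ, hμ⟩ : ∃ μ, μ = min (Rp M S Xp Vt γ k0 ^ (q + 2) / Lp)
    (√(S.w3 1 / (S.den (M.z (k0 - 1)) * ds M S k0 ^ 2)) *
      Rp M S Xp Vt γ k0 ^ (((q + 2 : ℕ) : ℝ) - 1 / 2)) := ⟨_, rfl⟩
  have μ0 : 0 ≤ μ := hμ ▸ le_min (by positivity) (by positivity)
  have t1 : 1 ≤ Lp ^ ((2 : ℝ) / 3) := one_le_rpow L1 (by norm_num)
  have t2 : α + β ≤ Lp ^ ((2 : ℝ) / 3) * ap M S Xp Vt γ k0 := by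
    rw [ap_eq, mul_add, ← hα, ← hβ]; linarith [le_mul_of_one_le_left β0 t1]
  have t3 : α ^ (q + 2) + μ ≤ Gp M S Xp Vt γ Lp (q + 2) k0 := by
    rw [Gp, ← hμ]; exact add_le_add (pow_le_pow_left₀ α0.le (by linarith) _) le_rfl
  have t4 : β ^ (q + 2) + μ ≤ Gp M S Xp Vt γ Lp (q + 2) k0 := by
    rw [Gp, ← hμ]; exact add_le_add (pow_le_pow_left₀ β0 (by linarith) _) le_rfl
  rw [← hμ, ← ls] at N
  obtain ⟨Z, hZ⟩ : ∃ Z, Z = Rp M S Xp Vt γ k0 / (Lp * (ls M S k0 + Rp M S Xp Vt γ k0 +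
    Xp ^ ((1 : ℝ) / 3))) * (α * √α * (√(Rp M S Xp Vt γ k0) * Rp M S Xp Vt γ k0 ^ q)) := ⟨_, rfl⟩
  have Z0 : 0 ≤ Z := by rw [hZ]; positivity
  have e1 : S.C ^ 2 * S.v / S.den (M.z (k0 - 1)) * (11 * S.C * Rp M S Xp Vt γ k0) /
      (Lp * (ls M S k0 + Rp M S Xp Vt γ k0 + Xp ^ ((1 : ℝ) / 3)) * S.v /
      (4 * S.C ^ 2 * ls M S k0)) * (α * √α * (√(Rp M S Xp Vt γ k0) * Rp M S Xp Vt γ k0 ^ q)) =
      44 * S.C ^ 5 * ds M S k0 * Z := by
    have e : ds M S k0 = ls M S k0 / S.den (M.z (k0 - 1)) := by rw [ls]; field_simp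
    rw [hZ, e]; field_simp; ring
  rw [e1] at B
  rw [← hZ] at N
  have C9 : 1 ≤ S.C ^ 9 := one_le_pow₀ C1
  have e2 : W * (α ^ (q + 2) + β ^ (q + 2)) + 32 * (44 * S.C ^ 5 * ds M S k0 * Z) ≤
      150000 * S.C ^ 9 * (W * Gp M S Xp Vt γ Lp (q + 2) k0) := by
    have c1 := mul_le_mul W1 (N.trans (mul_le_mul_of_nonneg_left t3 zero_le_three)) Z0
      (by positivity)
    have c2 := mul_le_mul_of_nonneg_left c1 (show 0 ≤ 32 * 44 * S.C ^ 5 by positivity)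
    have c3 := mul_le_mul_of_nonneg_left (show α ^ (q + 2) + β ^ (q + 2) ≤
      2 * Gp M S Xp Vt γ Lp (q + 2) k0 by linarith) W0
    have c4 := mul_le_mul_of_nonneg_right C9 (mul_nonneg W0 G0)
    have c5 := mul_nonneg W0 G0
    linarith
  have e3 : W * Gp M S Xp Vt γ Lp (q + 2) k0 ≤
      32 * S.C ^ 4 * ∑ k ∈ Ico k0 (k0 + n), dx M k * Gp M S Xp Vt γ Lp (q + 2) k := by
    rw [hW, sum_mul, mul_sum]
    refine sum_le_sum fun k hk => ?_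
    rw [mul_left_comm]
    exact mul_le_mul_of_nonneg_left (D.G_var L0 (by omega) k1 k2 (mem_Ico.1 hk).1 (by omega)
      (sh k (mem_Ico.1 hk).1 (mem_Ico.1 hk).2.le)) (dx_nn h k)
  refine ⟨k0 + n, by omega, (sh _ (by omega) le_rfl).lt.le, ?_⟩
  rw [sum_congr rfl fun k hk => if_pos (by
    linarith [(sh k (mem_Ico.1 hk).1 (mem_Ico.1 hk).2.le).du1, D.u1_nn]), ← mul_sum]
  have e4 : 0 ≤ ∑ k ∈ Ico k0 (k0 + n), dx M k * Gp M S Xp Vt γ Lp (q + 2) k :=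
    sum_nonneg fun k _ => mul_nonneg (dx_nn h k) (D.G0 L0.le _ _)
  simp only [div_pow, ← mul_div_assoc] at B
  rw [← sum_div, div_le_iff₀ (by positivity)] at B
  have e5 := e2.trans (mul_le_mul_of_nonneg_left e3 (by positivity))
  refine B.trans ?_
  rw [show 44 * S.C * Λ = 4 * (11 * S.C * Λ) by ring, mul_pow 4, mul_right_comm, mul_assoc _ (_ * _)]
  refine mul_le_mul_of_nonneg_left (e5.trans ?_) (by positivity)
  nlinarith [mul_nonneg (show 0 ≤ S.C ^ 13 by positivity) e4]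

/-- **the plateau sums**, for any `0 ≤ u ≤ 2` with the pointwise size -/
theorem sums {u : ℕ → ℝ} (Λ1 : 1 ≤ Λ) (L1 : 1 ≤ Lp) (u0 : ∀ k, 0 ≤ u k ∧ u k ≤ 2)
    (P : PQ Λ S M m a Xp Vt γ u1 Lp u) {p : ℕ} (p2 : 2 ≤ p) (p4 : p ≤ 4) :
    ∑ k ∈ Ico S.J M.N, M.dz m a k * u k ^ p ≤
      (44 * S.C * Λ) ^ 4 * (5000000 * S.C ^ 13) * Np M S Xp Vt γ u1 Lp p := by
  obtain ⟨q, rfl⟩ : ∃ q, p = q + 2 := ⟨p - 2, by omega⟩
  have h := D.h
  have C1 := h.C1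
  have j1 : 1 ≤ S.J := by have := h.i2; omega
  have un := D.u1_nn
  have K1 : 1 ≤ 44 * S.C * Λ := by nlinarith
  have C13 : 1 ≤ S.C ^ 13 := one_le_pow₀ C1
  have G0 : ∀ k, 0 ≤ dx M k * Gp M S Xp Vt γ Lp (q + 2) k := fun k =>
    mul_nonneg (dx_nn h k) (D.G0 (by linarith) _ _)
  have g := greedy (J := S.J) (N := S.Jp) (P := fun k => 2 * u1 ≤ du M k)
    (F := fun k => dx M k * u k ^ (q + 2))
    (G := fun k => if u1 ≤ du M k then (44 * S.C * Λ) ^ (q + 2) * (5000000 * S.C ^ 13) *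
      (dx M k * Gp M S Xp Vt γ Lp (q + 2) k) else 0) (fun k _ => by
      have := G0 k
      split_ifs <;> positivity) (fun i k hik hk => hk.trans (du_anti h D.u0 hik))
    fun k0 k1 k2 k3 => D.block (by linarith) L1 (fun k => (u0 k).1) P (q := q) (by omega) k1 k2 k3
  rw [← sum_filter, ← mul_sum] at g
  have g2 : ∑ k ∈ (Ico S.J S.Jp).filter fun k => u1 ≤ du M k, dx M k * Gp M S Xp Vt γ Lp (q + 2) k ≤
      ∑ k ∈ (Icc S.J S.Jp).filter fun k => u1 ≤ du M k, dx M k * Gp M S Xp Vt γ Lp (q + 2) k :=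
    sum_le_sum_of_subset_of_nonneg (filter_subset_filter _ Ico_subset_Icc_self) fun k _ _ => G0 k
  have cr : ∀ T : Finset ℕ, ∀ i N, 1 ≤ i → T ⊆ Ico i N →
      ∑ k ∈ T, dx M k * u k ^ (q + 2) ≤ 16 * du M i := fun T i N i1 hT => by
    have b := (sum_le_sum_of_subset_of_nonneg hT fun k _ _ => dx_nn h k).trans (tail h i1 N)
    refine le_trans (sum_le_sum (g := fun k => 16 * dx M k) fun k _ => ?_)
      (by rw [← mul_sum]; linarith)
    rw [mul_comm]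
    exact mul_le_mul_of_nonneg_right ((pow_le_pow_left₀ (u0 k).1 (u0 k).2 _).trans
      ((pow_le_pow_right₀ one_le_two p4).trans (by norm_num))) (dx_nn h k)
  have e1 := cr _ S.Jp M.N (j1.trans h.i3) Subset.rfl
  have e2 : ∑ k ∈ (Ico S.J S.Jp).filter fun k => ¬2 * u1 ≤ du M k, dx M k * u k ^ (q + 2) ≤
      32 * u1 := by
    rcases ((Ico S.J S.Jp).filter fun k => ¬2 * u1 ≤ du M k).eq_empty_or_nonempty with e | e
    · rw [e, sum_empty]; linarith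
    obtain ⟨i, hi, hm⟩ := exists_min_image _ id e
    have := cr _ i S.Jp (j1.trans (mem_Ico.1 (mem_filter.1 hi).1).1) fun k hk =>
      mem_Ico.2 ⟨hm k hk, (mem_Ico.1 (mem_filter.1 hk).1).2⟩
    linarith [not_le.1 (mem_filter.1 hi).2]
  have e3 : du M S.Jp ≤ u1 := h.last.trans D.ue
  rw [sum_congr rfl fun k hk => by
      rw [dz_up h.leg (show 0 < k by have := (mem_Ico.1 hk).1; omega), ← dx],
    ← sum_Ico_consecutive _ h.i3 h.i4.le,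
    ← sum_filter_add_sum_filter_not (Ico S.J S.Jp) fun k => 2 * u1 ≤ du M k]
  have K4 : (44 * S.C * Λ) ^ (q + 2) ≤ (44 * S.C * Λ) ^ 4 := pow_le_pow_right₀ K1 p4
  have K5 : 1 ≤ (44 * S.C * Λ) ^ 4 := one_le_pow₀ K1
  have e4 := g.trans (mul_le_mul (mul_le_mul_of_nonneg_right K4 (by positivity)) g2
    (sum_nonneg fun k _ => G0 k) (by positivity))
  have e5 : 48 * u1 ≤ (44 * S.C * Λ) ^ 4 * (5000000 * S.C ^ 13) * u1 :=
    mul_le_mul_of_nonneg_right (by nlinarith) un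
  change _ ≤ _ * (u1 + ∑ k ∈ (Icc S.J S.Jp).filter fun k => u1 ≤ du M k,
    dx M k * Gp M S Xp Vt γ Lp (q + 2) k)
  linarith

end DC

theorem dc_of {E l0 X j : ℝ} (h : Cl S M) (I : S.In m a) (hθ : S.C * S.θ ≤ 1 / 2) (A2 : 2 ≤ S.A)
    (hn : 32 * S.C ^ 3 ≤ S.n) (hE : 13824 * S.C ^ 9 ≤ E) (F : SzT98.Far E S M Xp Vt γ u1 Lp)
    (A : Ap S M m a l0 X Xp Vt u1 j) : DC S M m a Xp Vt γ u1 := by
  have C1 := h.C1
  have C0 := h.C0
  have v0 := h.v0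
  have N0 := h.N0
  have N1 : (1 : ℝ) ≤ S.n := by exact_mod_cast h.n1
  have X0 := F.Xp0.1
  have x0 : 0 < Xp ^ ((1 : ℝ) / 3) := rpow_pos_of_pos X0 _
  have b1 : S.v * (S.n : ℝ) ^ 2 ≤ S.C :=
    (mul_le_mul_of_nonneg_left (pow_le_pow_right₀ N1 A2) v0.le).trans h.v2
  have b2 : S.n * (32 * S.C ^ 2 * S.v) ≤ 1 := by
    refine le_of_mul_le_mul_right ?_ N0
    nlinarith [mul_le_mul_of_nonneg_left b1 (show 0 ≤ 32 * S.C ^ 2 by positivity)]
  have b3 : 32 * S.C ^ 2 * S.v ≤ 1 :=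
    (le_mul_of_one_le_left (by positivity) N1).trans b2
  have b4 : 1 ≤ 2 * S.C ^ 2 * M.s S.J := by
    have e1 := (h.z_s (k := S.J - 1) (by have := h.j0_lt; omega) (by have := h.j0_lt; omega)).2
    have e2 := h.atom.1.trans e1
    rw [div_le_iff₀ C0] at e2
    nlinarith [mul_le_mul_of_nonneg_left (h.sm (Nat.sub_le S.J 1)) (sq_nonneg S.C)]
  have b5 : 24 * S.C ^ 3 * Xp ^ ((1 : ℝ) / 3) ≤ 1 := by
    refine le_of_pow_le_pow_left₀ three_ne_zero zero_le_one ?_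
    rw [mul_pow, rp3 X0.le]
    nlinarith [mul_le_mul_of_nonneg_right hE X0.le, F.Xp0.2]
  have C9 : S.C ^ 2 ≤ S.C ^ 9 := pow_le_pow_right₀ C1 (by norm_num)
  have C2 : 0 < S.C ^ 2 := by positivity
  refine ⟨h, lt_of_lt_of_le h.n1 I.m1, hθ, ?_, F.u0, X0, F.Vt0, F.u1a, F.γ0, A.top, A.vt,
    A.jn.dj2, le_of_pow_le_pow_left₀ three_ne_zero x0.le (by rw [rp3 X0.le]; exact A.jn.u03),
    fun k k1 k2 k3 => le_of_mul_le_mul_left (b2.trans (A.jn.fine k k1 k2 k3)) N0, ?_, ?_⟩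
  · have := h.F1
    have := h.ms_pos zero_le_one
    unfold Sc.w3; positivity
  · refine le_of_mul_le_mul_left (a := 2 * S.C ^ 2) ?_ (by positivity)
    linarith
  · refine lt_of_mul_lt_mul_left (a := 4 * S.C ^ 2) ?_ (by positivity)
    have e1 := mul_le_mul_of_nonneg_right (show 8 * S.C ^ 2 ≤ E by linarith) (h.s_nn S.jl)
    linarith [F.jl]

theorem DC.Np0 (D : DC S M m a Xp Vt γ u1) (L0 : 0 ≤ Lp) (p : ℕ) : 0 ≤ Np M S Xp Vt γ u1 Lp p :=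
  add_nonneg D.u1_nn (sum_nonneg fun k _ => mul_nonneg (dx_nn D.h k) (D.G0 L0 p k))

/-- **plateau sums** -/
theorem szS_of (H : SzQ) : SzS := by
  refine CL.mono (P := fun E Λ S M m a => ∀ l0 X Xp Vt γ u1 j Lp,
    SzT98.Far E S M Xp Vt γ u1 Lp → Ap S M m a l0 X Xp Vt u1 j → ∀ p, 2 ≤ p → p ≤ 4 →
      0 ≤ Np M S Xp Vt γ u1 Lp p ∧
      ∑ k ∈ Ico S.J M.N, M.dz m a k * E61.u4 M m a k ^ p ≤ Λ * Np M S Xp Vt γ u1 Lp p) ?_
    fun E Λ S M m a _ _ _ _ R l0 X Xp Vt γ u1 j Lp F A p p2 p4 =>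
      (R l0 X Xp Vt γ u1 j Lp F A p p2 p4).2
  refine CL.glue' H (fun E Λ Λ' S M m a l1 h R l0 X Xp Vt γ u1 j Lp F A p p2 p4 => ?_) 0 le_rfl 1 5
    fun C A ε η _ _ =>
    ⟨2 * 10 ^ 13 * C ^ 17, fun S M m a G _ b1 _ h I P l0 X Xp Vt γ u1 j Lp F A p p2 p4 => ?_⟩
  · obtain ⟨a1, a2⟩ := R l0 X Xp Vt γ u1 j Lp F A p p2 p4
    exact ⟨a1, a2.trans (mul_le_mul_of_nonneg_right h a1)⟩
  · have C1 := h.C1
    have K := G.K_le
    have K' := G.K_log.trans ((log_le_sub_one_of_pos G.N0).trans (sub_le_self _ zero_le_one))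
    rw [← G.hC] at K K'
    rw [pow_one] at F
    have e1 : S.C ^ 3 ≤ S.C ^ 17 := pow_le_pow_right₀ C1 (by norm_num)
    have e2 : S.C ^ 9 ≤ S.C ^ 17 := pow_le_pow_right₀ C1 (by norm_num)
    have e3 : 0 < S.C ^ 17 := by positivity
    have D := dc_of h I (G.Cθ h) (G.hA ▸ G.A2) (by linarith)
      (le_trans (by linarith) (Pre29.rp_le G.n1 (show η ≤ ε by simpa using b1))) F A
    have T := D.sums G.Λ1 F.Lp1.1 (E61.mj_u4 D.hm).u0 (fun k L e k1 k2 k3 hL e0 hc => by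
      have := P l0 X Xp Vt γ u1 j Lp F A k L e k1 k2 (by linarith [D.u1_nn]) hL e0 hc
      rwa [ap_eq, ← ls_eq, add_sub_cancel_right] at this) p2 p4
    have N0 := D.Np0 (zero_le_one.trans F.Lp1.1) p
    refine ⟨N0, T.trans (mul_le_mul_of_nonneg_right ?_ N0)⟩
    have := mul_le_mul_of_nonneg_right K (pow_nonneg (G.rp0 η).le 4)
    nlinarith [mul_pos e3 (pow_pos (G.rp0 η) 4)]

end Crest.Agent.T156.Alt.S50

end
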