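import Crest.Agent.T156.SzT_33
import Crest.Agent.T156.ClSzB_61
import Crest.Agent.T156.SzTD_98

/-!
# Row 156, block (L) (helper61): pointwise size on the top window
-/

set_option autoImplicit false
set_option linter.unusedSectionVars false

noncomputable section

namespace Crest.Agent.T156.Alt.Sz9.W61

open Real Finset Filter
open Crest.Agent.T156.Alt.E61 Crest.Agent.T156.Alt.Md67 Crest.Agent.T156.Alt.C33
open Crest.Agent.T156.Alt.Sz9.P33

variable {S : Sc} {M : Md} {m : ℕ} {a lam : ℝ}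

/-- **the frame of a node at the level one**, cut at the node `J'` -/
theorem qg_cut (F : Fn S M m a) (lg : 1 ≤ log S.n) (R : Rev S M) {k k0 J' : ℕ} {K κ l : ℝ}
    (KC : S.C ≤ K) (K3 : 3 ≤ K) (j0 : S.jl ≤ k0) (hs : 1 ≤ K * M.s k0)
    (h0 : 1 / K ≤ ((k : ℝ) - k0) * S.v) (h00 : k0 ≤ k) (h2 : k ≤ S.Jp) (k1 : 1 ≤ κ) (lp : 0 < l)
    (l1 : κ * l ≤ 1) (l3 : S.w3 1 ≤ κ * l ^ 3) (he : ∀ i, k0 ≤ i → i < J' →
      |M.rb m a i - M.rb m a k| ≤ κ * (l + |(i : ℝ) - k| * S.v))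
    (hd : ∀ y, k0 < y → y < J' → S.v ≤ K * M.dz m a y)
    (far : 2 * log S.n * l ≤ ((J' : ℝ) - k) * S.v) :
    ∃ k', QG K K S M m a 1 k0 k' (fun _ => M.rb m a k) (rT S l k) (tT S κ l k) ∧
      Inn K S 1 k0 k' k := by
  obtain ⟨k', r1, r2, r3, r4⟩ := R
  have h := F.toCl
  have C1 := h.C1
  have C0 := h.C0
  have v0 := h.v0
  have n1 := F.n1
  have m0 : 0 < m := h.n1.trans F.m1
  have K1 : 1 ≤ K := by linarith
  have l1' : l ≤ 1 := (le_mul_of_one_le_left lp.le k1).trans l1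
  have l2 : S.w3 1 ≤ l ^ 2 := l3.trans (by nlinarith [mul_le_mul_of_nonneg_right l1 (sq_nonneg l)])
  have nl : 1 ≤ S.n * l := by
    have a2 := w3_ge F one_pos
    rw [mul_one] at a2
    have a3 := mul_le_mul_of_nonneg_right l2 h.N0.le
    refine le_of_pow_le_pow_left₀ two_ne_zero (by positivity) ?_
    nlinarith [mul_le_mul_of_nonneg_right n1 (show 0 ≤ l ^ 2 * S.n by positivity)]
  have rl : ∀ i, l ≤ rT S l k i := fun i =>
    le_add_of_nonneg_right (mul_nonneg (le_max_right _ _) v0.le)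
  have r0 : ∀ i, 0 < rT S l k i := fun i => lp.trans_le (rl i)
  have g1 : ∀ i, 1 ≤ gT S l k i := fun i =>
    one_le_exp (div_nonneg (mul_nonneg (le_max_right _ _) v0.le) lp.le)
  have rt : ∀ i, κ * rT S l k i ≤ tT S κ l k i := fun i =>
    le_mul_of_one_le_right (by have := r0 i; positivity) (g1 i)
  have lt : ∀ i, κ * l ≤ tT S κ l k i := fun i =>
    (mul_le_mul_of_nonneg_left (rl i) (by linarith)).trans (rt i)
  have ge : ∀ i, rT S l k i ≤ tT S κ l k i := fun i =>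
    (le_mul_of_one_le_left (r0 i).le k1).trans (rt i)
  have big : ∀ i : ℕ, log S.n * l ≤ max ((i : ℝ) - k) 0 * S.v → 1 ≤ tT S κ l k i := fun i b => by
    have a1 : (S.n : ℝ) ≤ gT S l k i := by
      rw [gT, ← exp_log h.N0]
      exact exp_le_exp.2 ((le_div_iff₀ lp).2 b)
    have a2 := mul_le_mul ((le_mul_of_one_le_left lp.le k1).trans
      (mul_le_mul_of_nonneg_left (rl i) (by linarith))) a1 h.N0.le (by have := r0 i; positivity)
    unfold tT
    linarith
  have win : ∀ i y : ℕ, ((y : ℝ) - i) * S.v ≤ rT S l k i →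
      ((y : ℝ) - k) * S.v ≤ l + max ((i : ℝ) - k) 0 * S.v := fun i y b => by
    rw [← max_id, neg_sub]
    unfold rT at b
    linarith
  have mn : 0 < min l 1 := lt_min lp one_pos
  have wl : S.w3 1 ≤ κ * l * min l 1 ^ 2 := by rw [min_eq_left l1']; linarith
  have Jk : log S.n * l ≤ ((J' : ℝ) - k) * S.v - l := by nlinarith
  refine ⟨k', ⟨⟨one_pos, j0, by omega, by omega, r2, hs, (h.leg.z1 _).trans (by linarith),
    l2.trans (by rw [one_pow]; exact pow_le_one₀ lp.le l1'),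
    fun i b d => le_trans ?_ (r4 i b d)⟩, T57.crude_top m0 K1 (by linarith), rb_nonneg m0 k,
    fun _ _ _ => ⟨le_rfl, le_add_of_nonneg_right (by positivity)⟩, fun i _ _ => ?_,
    fun i _ _ => nl.trans (mul_le_mul_of_nonneg_left (rl i) h.N0.le), fun i _ _ => ge i,
    fun i b _ => ?_, fun i y _ b _ d => ?_, fun i y _ b _ => ?_, fun i _ _ => ?_,
    fun i y _ _ b _ d => ?_⟩, h0, ?_⟩
  · have := h.ms_pos (h.s_nn i)
    have := h.ms1 (M.s i)
    have := h.F1
    have := h.θ0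
    have := le_mul_of_one_le_left C0.le K1
    gcongr
  · have e := abs_max_sub_max_le_abs ((k : ℝ) - (i + 1 : ℕ)) ((k : ℝ) - i) 0
    rw [show (k : ℝ) - (i + 1 : ℕ) - ((k : ℝ) - i) = -1 by push_cast; ring, abs_neg, abs_one] at e
    rw [rT, rT, add_sub_add_left_eq_sub, ← sub_mul, abs_mul, abs_of_pos v0]
    exact mul_le_mul_of_nonneg_right (e.trans K1) v0.le
  · rcases lt_or_ge i J' with d | d
    · refine (he i b d).trans ?_
      rcases le_total ((i : ℝ) - k) 0 with e | e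
      · refine le_trans (le_of_eq ?_) (rt i)
        rw [abs_of_nonpos e, rT, max_eq_left (by linarith), neg_sub]
      · rw [abs_of_nonneg e, tT, mul_assoc κ]
        refine mul_le_mul_of_nonneg_left ?_ (by linarith)
        have a1 := add_one_le_exp (((i : ℝ) - k) * S.v / l)
        rw [gT, max_eq_left e]
        refine le_trans (le_of_eq ?_) (mul_le_mul (rl i) a1 (by positivity) (r0 i).le)
        field_simp
        ring
    · refine le_trans (abs_le.2 ⟨?_, ?_⟩) (big i ?_)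
      · linarith [rb_nonneg (M := M) (a := a) m0 i, rb_le_one (M := M) (a := a) m0 k]
      · linarith [rb_nonneg (M := M) (a := a) m0 k, rb_le_one (M := M) (a := a) m0 i]
      · have d' : (J' : ℝ) ≤ i := by exact_mod_cast d
        have := mul_le_mul_of_nonneg_right
          ((show (J' : ℝ) - k ≤ i - k by linarith).trans (le_max_left _ 0)) v0.le
        linarith
  · have b' : (i : ℝ) ≤ y := by exact_mod_cast b
    have a1 : rT S l k y ≤ rT S l k i := by unfold rT; gcongr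
    have a2 : gT S l k y ≤ 3 * gT S l k i := by
      have a3 : max ((y : ℝ) - k) 0 * S.v ≤ l + max ((i : ℝ) - k) 0 * S.v := by
        rcases le_total ((y : ℝ) - k) 0 with e | e
        · rw [max_eq_right e, zero_mul]
          have := le_max_right ((i : ℝ) - k) 0
          positivity
        · rw [max_eq_left e]; exact win i y d
      calc gT S l k y ≤ exp (1 + max ((i : ℝ) - k) 0 * S.v / l) := exp_le_exp.2 (by
            rw [div_le_iff₀ lp, add_mul, one_mul, div_mul_cancel₀ _ lp.ne']; exact a3)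
        _ ≤ _ := by
            rw [exp_add]
            exact mul_le_mul_of_nonneg_right (exp_one_lt_d9.le.trans (by norm_num)) (exp_pos _).le
    have := r0 i
    have := r0 y
    have := g1 y
    have := g1 i
    calc tT S κ l k y ≤ κ * rT S l k i * (3 * gT S l k i) := by unfold tT; gcongr
      _ = 3 * tT S κ l k i := by unfold tT; ring
      _ ≤ _ := mul_le_mul_of_nonneg_right K3 (by unfold tT; positivity)
  · have b' : (i : ℝ) ≤ y := by exact_mod_cast b
    have a1 : rT S l k i ≤ rT S l k y + ((y : ℝ) - i) * S.v := by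
      have : max ((k : ℝ) - i) 0 ≤ max ((k : ℝ) - y) 0 + (y - i) :=
        max_le (by linarith [le_max_left ((k : ℝ) - y) 0])
          (by linarith [le_max_right ((k : ℝ) - y) 0])
      unfold rT
      linarith [mul_le_mul_of_nonneg_right this v0.le]
    have a2 : gT S l k i ≤ gT S l k y := by unfold gT; gcongr
    have := r0 i
    have := r0 y
    have := g1 y
    have := g1 i
    have : 0 ≤ ((y : ℝ) - i) * S.v := mul_nonneg (by linarith) v0.le
    calc tT S κ l k i * rT S l k y ≤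
        κ * (rT S l k y + ((y : ℝ) - i) * S.v) * gT S l k y * rT S l k y := by unfold tT; gcongr
      _ = 1 * tT S κ l k y * (rT S l k y + ((y : ℝ) - i) * S.v) := by unfold tT; ring
      _ ≤ _ := by
          have : 0 ≤ tT S κ l k y := by unfold tT; positivity
          gcongr
  · refine l3.trans ?_
    have := lt i
    have a1 : l ≤ min (rT S l k i) 1 := le_min (rl i) l1'
    have a2 : l ≤ min (tT S κ l k i) 1 := le_min ((rl i).trans (ge i)) l1'
    have := (r0 i).trans_le (ge i)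
    have := lp.trans_le a1
    calc κ * l ^ 3 = κ * l * l * l := by ring
      _ ≤ _ := by gcongr
  · rcases lt_or_ge y J' with e | e
    · right
      have := lt i
      have := rl i
      have := (r0 i).trans_le (ge i)
      have := F.lg.dz_nonneg y
      rw [mul_comm]
      exact mul_le_mul (hd y b e)
        (wl.trans (show _ ≤ tT S κ l k i * min (rT S l k i) 1 ^ 2 by gcongr))
        (F.w3_pos one_pos).le (by positivity)
    · left
      have e' : (J' : ℝ) ≤ y := by exact_mod_cast e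
      have a1 := win i y (le_trans (mul_le_mul_of_nonneg_right (le_abs_self _) v0.le) d)
      have a2 := mul_le_mul_of_nonneg_right (show (J' : ℝ) - k ≤ y - k by linarith) v0.le
      exact big i (by linarith)
  · have e : (k : ℝ) ≤ S.Jp := by exact_mod_cast h2
    exact (one_div_le_one_div_of_le C0 KC).trans
      (r3.trans (mul_le_mul_of_nonneg_right (by linarith) v0.le))

/-- the context at a fixed size -/
structure Kw (lam : ℝ) (S : Sc) (M : Md) (m : ℕ) (a : ℝ) : Prop where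
  fn : Fn S M m a
  l2 : 2 ≤ lam
  lg1 : 1 ≤ log S.n
  lg2 : log S.n ≤ lam
  cn : 48 * S.C ^ 6 ≤ S.n
  gen : ∀ k0 k1 c ρ τ k, QG (18 * S.C ^ 4) (18 * S.C ^ 4) S M m a 1 k0 k1 c ρ τ →
    Inn (18 * S.C ^ 4) S 1 k0 k1 k → 0 ≤ τ k → c k = M.rb m a k → u4 M m a k ≤ lam * τ k

theorem of_kw {R : CP} (K : ℝ → ℝ) (k : ℕ) (h : ∀ E lam Λ S M m a, Kw lam S M m a →
    K S.C ≤ lam → lam ≤ E → lam ^ k ≤ Λ → R E Λ S M m a) : CL R := by
  have key : CL fun E Λ S M m a => ∀ Λ', Λ ≤ Λ' → R E Λ' S M m a := by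
    refine ((CL_dep fun C => T57.qGenS (18 * max C 1 ^ 4) 2 (by
      nlinarith [one_le_pow₀ (n := 4) (le_max_right C 1)])).and CL_fn).glue'
      (fun _ _ _ _ _ _ _ _ h H _ h' => H _ (h.trans h')) 0 le_rfl 2 (2 * k) fun C A ε η _ _ =>
      ⟨max (K C) (48 * C ^ 6), fun S M m a G _ b1 _ c _ ⟨H, F⟩ Λ hΛ => ?_⟩
    have l3 := G.num_le
    have a1 := G.K_le
    have a2 := G.log_le
    have a4 := G.K_log
    rw [← G.hC] at a1 a4
    have a5 : ((S.n : ℝ) ^ η) ^ 2 ≤ (S.n : ℝ) ^ ε := by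
      rw [Pre29.rp_pow]; exact Pre29.rp_le G.n1 (by push_cast at b1 ⊢; linarith)
    rw [pow_one]
    rw [pow_mul] at hΛ
    rw [max_eq_left c.C1] at H
    generalize (S.n : ℝ) ^ η = l at *
    have e2 : l ≤ l ^ 2 := le_self_pow₀ (by linarith) two_ne_zero
    have c4 : S.C ^ 4 ≤ S.C ^ 6 := pow_le_pow_right₀ c.C1 (by norm_num)
    have c0 : 0 < S.C ^ 6 := pow_pos c.C0 6
    refine h _ (l ^ 2) Λ S M m a ⟨F, by linarith, G.log1, a2.trans e2, ((le_max_right _ _).trans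
      a4).trans ((log_le_sub_one_of_pos G.N0).trans (by linarith)), fun k0 k1 c' ρ τ k Q I t0 e => ?_⟩
      (((le_max_left _ _).trans a1).trans e2) a5 hΛ
    have := (H _ _ _ _ _ _ _ Q).pair k I
    rw [e] at this
    refine (u4_le (by have := c.C0; positivity) this).trans (mul_le_mul_of_nonneg_right ?_ t0)
    rw [sq]
    exact mul_le_mul_of_nonneg_left (by linarith [(le_max_right _ _).trans a1]) (by linarith)
  exact key.mono fun _ _ _ _ _ _ _ _ _ _ H => H _ le_rfl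

/-- **size from a cone up to the cut `J'`** at the distance `2 d log n` -/
theorem Kw.cut (X : Kw lam S M m a) (R : Rev S M) (hj : 3 * S.jl ≤ S.J) {k J' : ℕ} {κ e d w : ℝ}
    (h1 : 2 * S.J ≤ 3 * k) (h2 : k ≤ S.Jp) (k1 : 1 ≤ κ) (e0 : 0 ≤ e) (d0 : 0 < d) (w0 : 0 < w)
    (hw : w ^ 3 = S.w3 1 * κ ^ 2) (he : ∀ i, S.J / 2 ≤ i → i < J' →
      |M.rb m a i - M.rb m a k| ≤ e + κ * (|(i : ℝ) - k| * S.v))
    (hd : ∀ y, S.J / 2 < y → y < J' → S.v ≤ S.C ^ 3 * M.dz m a y)
    (far : 2 * log S.n * d ≤ ((J' : ℝ) - k) * S.v) :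
    u4 M m a k ≤ lam * (w + e + S.w3 1 / d ^ 2) := by
  have F := X.fn
  have C1 := F.C1
  have C0 := F.C0
  have v0 := F.v0
  have l2 := X.l2
  have lg := X.lg1
  have W0 := F.w3_pos one_pos
  have i0 := F.i0.trans F.i1
  have k0 : 0 < κ := by linarith
  set l := min ((w + e) / κ) d with hl
  have l0 : 0 < l := lt_min (by positivity) d0
  set κ' := max κ (max (S.w3 1 / l ^ 3) (e / l)) with hκ
  have b1 : κ ≤ κ' := le_max_left _ _
  have b2 : S.w3 1 ≤ κ' * l ^ 3 :=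
    (div_le_iff₀ (by positivity)).1 ((le_max_left _ _).trans (le_max_right _ _))
  have b3 : e ≤ κ' * l := (div_le_iff₀ l0).1 ((le_max_right _ _).trans (le_max_right _ _))
  have p0 : 0 ≤ S.w3 1 / d ^ 2 := by positivity
  have b4 : κ' * l ≤ w + e + S.w3 1 / d ^ 2 := by
    rw [hκ, max_mul_of_nonneg _ _ l0.le, max_mul_of_nonneg _ _ l0.le, div_mul_cancel₀ _ l0.ne',
      show S.w3 1 / l ^ 3 * l = S.w3 1 / l ^ 2 by field_simp]
    refine max_le ?_ (max_le ?_ (by linarith))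
    · have := (le_div_iff₀' k0).1 (min_le_left ((w + e) / κ) d)
      linarith
    · rcases min_choice ((w + e) / κ) d with c | c <;> rw [hl, c]
      · refine le_trans ?_ (le_add_of_nonneg_right p0)
        rw [div_pow, div_div_eq_mul_div, div_le_iff₀ (by positivity), ← hw, ← pow_succ']
        exact pow_le_pow_left₀ w0.le (by linarith) 3
      · linarith
  rcases le_total 1 (κ' * l) with c | c
  · exact ((mj_u4 F.lg.m0).u0 k).2.trans (by nlinarith)
  have c3 : S.C ^ 3 ≤ S.C ^ 4 := pow_le_pow_right₀ C1 (by norm_num)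
  have c1 : S.C ≤ S.C ^ 4 := le_self_pow₀ C1 (by norm_num)
  have c0 : 0 < S.C ^ 3 := by positivity
  obtain ⟨k', Q, I⟩ := qg_cut F lg R (k := k) (k0 := S.J / 2) (J' := J') (K := 18 * S.C ^ 4)
    (by linarith) (by linarith) (by omega) (by
      have a1 : (S.J : ℝ) ≤ 3 * ((S.J / 2 : ℕ) : ℝ) := by
        exact_mod_cast (by omega : S.J ≤ 3 * (S.J / 2))
      have a2 := mul_le_mul_of_nonneg_left (mul_le_mul_of_nonneg_right a1 v0.le) c0.le
      have a3 := mul_le_mul_of_nonneg_left (F.s_mem (k := S.J / 2) (by omega)).1 c0.le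
      have a4 : 0 ≤ S.C ^ 4 * M.s (S.J / 2) := mul_nonneg (by positivity) (F.s_nonneg _)
      nlinarith [F.J_lo]) (by
      have a1 : (S.J : ℝ) ≤ 6 * ((k : ℝ) - ((S.J / 2 : ℕ) : ℝ)) := by
        rw [← Nat.cast_sub (by omega)]; exact_mod_cast (by omega : S.J ≤ 6 * (k - S.J / 2))
      have a2 := mul_le_mul_of_nonneg_left (mul_le_mul_of_nonneg_right a1 v0.le) c0.le
      have a3 : 0 ≤ ((k : ℝ) - ((S.J / 2 : ℕ) : ℝ)) * S.v :=
        mul_nonneg (by linarith [Nat.cast_nonneg (α := ℝ) S.J]) v0.le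
      rw [div_le_iff₀ (by positivity)]
      nlinarith [F.J_lo, mul_le_mul_of_nonneg_right c3 a3]) (by omega) h2 (k1.trans b1) l0 c b2
    (fun i a1 a2 => (he i a1 a2).trans (by
      have := mul_le_mul_of_nonneg_right b1 (show 0 ≤ |(i : ℝ) - k| * S.v by positivity)
      linarith))
    (fun y a1 a2 => (hd y a1 a2).trans
      (mul_le_mul_of_nonneg_right (by linarith) (F.lg.dz_nonneg y)))
    (le_trans (mul_le_mul_of_nonneg_left (min_le_right _ _) (by linarith)) far)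
  have := X.gen _ _ _ _ _ k Q I (by rw [tT_self]; positivity) rfl
  rw [tT_self] at this
  exact this.trans (mul_le_mul_of_nonneg_left b4 (by linarith))

/-! ### the first shell -/

theorem shell (h : Cl S M) {δ : ℝ} (d1 : δ ≤ S.u0) (d2 : δ ≤ 1 / (2 * S.C))
    (hu : S.ue < 1 / (2 * S.C)) (dj : 1 ≤ S.C * S.den (M.z (S.J - 1)) ∧ S.den (M.z (S.J - 1)) ≤ S.C)
    (i : ℕ) (hi : i * (S.C ^ 3 * S.v) ≤ δ) : M.z (S.J - 1 + i) ≤ M.z (S.J - 1) + i * (S.C ^ 3 * S.v) ∧
      S.J + i < S.Jp ∧ S.v ≤ S.C ^ 3 * (M.z (S.J + i) - M.z (S.J - 1 + i)) ∧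
      M.z (S.J + i) - M.z (S.J - 1 + i) ≤ S.C ^ 3 * S.v := by
  have C0 := h.C0
  have v0 := h.v0
  have i2 := h.i2
  have e2 : 1 / S.C = 2 * (1 / (2 * S.C)) := by field_simp
  have step : ∀ i : ℕ, M.z (S.J - 1 + i) ≤ M.z (S.J - 1) + δ → S.J + i < S.Jp ∧
      S.v ≤ S.C ^ 3 * (M.z (S.J + i) - M.z (S.J - 1 + i)) ∧
      M.z (S.J + i) - M.z (S.J - 1 + i) ≤ S.C ^ 3 * S.v := fun i b => by
    have a0 := h.atom.2
    have a1 : S.J + i < S.Jp := lt_of_not_ge fun c => by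
      linarith [h.leg.zm (show S.Jp - 1 ≤ S.J - 1 + i by omega), h.last]
    have a2 := h.plat (S.J + i) (by omega) a1
    rw [show S.J + i - 1 = S.J - 1 + i by omega] at a2
    have a3 := h.dens (M.z (S.J - 1)) (M.z (S.J - 1 + i)) le_rfl (h.leg.zm (by omega))
      (by have : 0 < 1 / (2 * S.C) := by positivity
          linarith) (le_min (by linarith) (by linarith))
    have d0 := h.den0 (M.z (S.J - 1 + i))
    have w0 := sub_nonneg.2 (h.leg.zm (show S.J - 1 + i ≤ S.J + i by omega))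
    generalize M.z (S.J + i) - M.z (S.J - 1 + i) = x at *
    generalize S.den (M.z (S.J - 1 + i)) = D at *
    have b1 : D ≤ S.C ^ 2 := by nlinarith [mul_le_mul_of_nonneg_left dj.2 C0.le]
    have b2 : 1 ≤ S.C ^ 2 * D := by nlinarith [mul_le_mul_of_nonneg_left a3.1 C0.le]
    have b3 := (div_le_iff₀' C0).1 a2.1
    exact ⟨a1, by nlinarith [mul_le_mul_of_nonneg_left b1 (mul_nonneg C0.le w0)],
      by nlinarith [mul_le_mul_of_nonneg_left a2.2 (sq_nonneg S.C), mul_le_mul_of_nonneg_left b2 w0]⟩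
  induction i with
  | zero =>
    exact ⟨by simp, step 0 (by simp only [Nat.cast_zero, zero_mul] at hi; simpa using hi)⟩
  | succ i ih =>
    have g0 : 0 ≤ S.C ^ 3 * S.v := by positivity
    push_cast at hi ⊢
    obtain ⟨b1, -, -, b4⟩ := ih (by linarith)
    have : M.z (S.J - 1 + (i + 1)) ≤ M.z (S.J - 1) + (i + 1) * (S.C ^ 3 * S.v) := by
      rw [show S.J - 1 + (i + 1) = S.J + i by omega]; linarith
    exact ⟨this, step (i + 1) (by linarith)⟩

/-- the rise from the corner to a plateau node below the label `1 - 1 / (2 C)` -/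
theorem rise (F : Fn S M m a) (hn : 48 * S.C ^ 6 ≤ S.n) (hj : 3 * S.jl ≤ S.J) {x γ : ℝ} (x0 : 0 ≤ x)
    (x1 : 48 * S.C ^ 6 * x ≤ 1) (hx : M.En S m a M.q 2 (M.s S.J / 2) S.C ≤ x ^ 3)
    (hγ : M.s S.Jp - M.s S.J ≤ γ) {i : ℕ} (h1 : S.J ≤ i) (h2 : i ≤ S.Jp)
    (h3 : 1 / (2 * S.C) ≤ 1 - M.z (i - 1)) :
    M.rb m a i - M.rb m a (S.J - 1) ≤ 4 * S.C ^ 2 * x + γ + 3 * (S.C * S.v) := by
  have h := F.toCl
  have C0 := F.C0
  have C1 := F.C1
  have v0 := F.v0
  have i0 := F.i0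
  have i1 := F.i1
  have i2 := F.i2
  have i3 := F.i3
  have i4 := F.i4
  have n1 := F.n1
  have g0 : 0 < S.C * S.v := by positivity
  have c : ∀ {i j : ℕ}, i ≤ j → S.C ^ i ≤ S.C ^ j := fun e => pow_le_pow_right₀ C1 e
  have c2 : 1 ≤ S.C ^ 2 := one_le_pow₀ C1
  have p0 : 0 ≤ S.C ^ 2 * x := by positivity
  have rm := Md67.rb_mono (M := M) (a := a) F.lg.m0
  have sJ : 1 ≤ 3 * S.C ^ 4 * M.s S.J := by
    nlinarith [F.J_lo, mul_le_mul_of_nonneg_left (F.s_mem le_rfl).1 (pow_pos C0 3).le]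
  have blk : ∀ p q : ℕ, S.j0 ≤ p → p ≤ q → q ≤ S.Jp → M.s S.J / 2 ≤ M.s (p + 1) → ∀ ρ, 0 ≤ ρ →
      (∀ j, p < j → j ≤ q → ρ ≤ |M.del m a j|) → ρ ^ 2 * (M.z q - M.z p) ≤ x ^ 3 :=
    fun p q a1 a2 a3 a4 ρ ρ0 a5 => by
      refine ((Ap63.blk_le (y := M.del m a) F.leg.zm le_rfl a2 le_rfl ρ0 a5 2).trans ?_).trans hx
      refine sum_le_sum_of_subset_of_nonneg (fun j hj => ?_) fun j _ _ =>
        mul_nonneg (Ap63.w_nn F.leg.zm j) (by positivity)
      have := mem_Ioc.1 hj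
      exact mem_filter.2 ⟨mem_Ioc.2 ⟨by omega, by omega⟩, a4.trans (F.sm this.1),
        h.s_le_C (by omega)⟩
  have up : M.rb m a i - M.q S.Jp ≤ 2 * (S.C ^ 2 * x) := by
    rcases le_total (M.rb m a i - M.q S.Jp) 0 with e | e
    · linarith
    have b := blk (i - 1) S.Jp (by omega) (by omega) le_rfl (by
      have := F.sm (show S.J ≤ i - 1 + 1 by omega)
      linarith [F.s_nonneg S.J]) _ e fun j b1 b2 => le_trans (by
        have := rm (show i ≤ j by omega)
        have := h.q_mono b2 i4.le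
        unfold Md.del; linarith) (le_abs_self _)
    rw [h.top _ le_rfl] at b
    have b1 := (mul_le_mul_of_nonneg_left h3 (sq_nonneg _)).trans b
    rw [mul_one_div, div_le_iff₀ (by positivity)] at b1
    have b2 : x ≤ 1 := by nlinarith [one_le_pow₀ (n := 6) C1]
    have b3 : x ^ 3 ≤ x ^ 2 := pow_le_pow_of_le_one x0 b2 (by norm_num)
    refine le_of_pow_le_pow_left₀ two_ne_zero (by positivity) (b1.trans ?_)
    have b4 := le_self_pow₀ C1 (show 4 ≠ 0 by norm_num)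
    calc x ^ 3 * (2 * S.C) ≤ x ^ 2 * (4 * S.C ^ 4) := by gcongr; linarith
      _ = _ := by ring
  have v1 : 48 * S.C ^ 4 * (S.C * S.v) ≤ 1 := by
    have := mul_le_mul_of_nonneg_left F.vn (show 0 ≤ 48 * S.C ^ 5 by positivity)
    refine le_of_mul_le_mul_right ?_ h.N0
    nlinarith
  have dn : M.q (S.J - 1) - M.rb m a (S.J - 1) ≤ 2 * (S.C ^ 2 * x + S.C * S.v) := by
    refine not_lt.1 fun e => ?_
    obtain ⟨ρ, a1, a2, a3⟩ : ∃ ρ, S.C ^ 2 * x + S.C * S.v < ρ ∧
        2 * ρ ≤ M.q (S.J - 1) - M.rb m a (S.J - 1) ∧ 12 * S.C ^ 4 * ρ ≤ 1 := by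
      refine ⟨min ((M.q (S.J - 1) - M.rb m a (S.J - 1)) / 2) (1 / (12 * S.C ^ 4)),
        lt_min (by linarith) ?_, (le_div_iff₀' two_pos).1 (min_le_left _ _),
        (le_div_iff₀' (by positivity)).1 (min_le_right _ _)⟩
      rw [lt_div_iff₀ (by positivity)]
      nlinarith
    have ρ0 : 0 < ρ := by linarith
    have f1 := Nat.floor_le (show 0 ≤ ρ / (S.C * S.v) by positivity)
    have f2 := Nat.lt_floor_add_one (ρ / (S.C * S.v))
    generalize ⌊ρ / (S.C * S.v)⌋₊ = r at f1 f2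
    rw [le_div_iff₀ g0] at f1
    rw [div_lt_iff₀ g0] at f2
    have r4 : 4 * r ≤ S.J := by
      have b1 : S.C ^ 3 * S.v * (4 * r) ≤ S.C ^ 3 * S.v * S.J := by
        have b2 := mul_le_mul_of_nonneg_left f1 (show 0 ≤ 12 * S.C ^ 4 by positivity)
        have b3 := mul_le_mul_of_nonneg_right (c (show 3 ≤ 5 by norm_num))
          (show 0 ≤ (r : ℝ) * S.v by positivity)
        nlinarith [F.J_lo]
      exact_mod_cast le_of_mul_le_mul_left b1 (by positivity)
    have b := blk (S.J - 1 - r) (S.J - 1) (by omega) (by omega) (by omega) (by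
      have b1 := (h.s_tel (show S.J - 1 - r + 1 ≤ S.J by omega) le_rfl).2
      rw [show S.J - 1 - r + 1 = S.J - r by omega, Nat.cast_sub (by omega), sub_sub_cancel] at b1
      rw [show S.J - 1 - r + 1 = S.J - r by omega]
      have b2 : 4 * ρ ≤ M.s S.J := le_of_mul_le_mul_left (by linarith)
        (show 0 < 3 * S.C ^ 4 by positivity)
      linarith) ρ ρ0.le fun j b1 b2 => le_trans (by
        have c1 := (Ap63.q_slow h b2 (by omega)).trans (h.s_tel b2 (by omega)).2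
        have c2 : (((S.J - 1 : ℕ) : ℝ) - j) ≤ r := by
          have : ((S.J - 1 : ℕ) : ℝ) ≤ ((j + r : ℕ) : ℝ) := by
            exact_mod_cast (by omega : S.J - 1 ≤ j + r)
          push_cast at this; linarith
        have c3 := rm b2
        unfold Md.del
        nlinarith [mul_le_mul_of_nonneg_right c2 g0.le]) (neg_le_abs _)
    have d := (h.z_tel (i := S.J - 1 - r) (j := S.J - 1) (by omega) (by omega) (by omega)).1
    rw [Nat.cast_sub (show r ≤ S.J - 1 by omega), sub_sub_cancel] at d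
    have a4 := mul_le_mul_of_nonneg_left ((mul_le_mul_of_nonneg_left d (sq_nonneg ρ)).trans b)
      (sq_nonneg S.C)
    have a5 : S.C ^ 2 * (ρ ^ 2 * (r * (S.v / S.C))) = ρ ^ 2 * (r * (S.C * S.v)) := by field_simp
    have a6 : x ^ 2 ≤ ρ ^ 2 :=
      pow_le_pow_left₀ x0 (by linarith [le_mul_of_one_le_left x0 c2]) 2
    have a7 := mul_lt_mul_of_pos_left (show S.C ^ 2 * x < r * (S.C * S.v) by linarith)
      (pow_pos ρ0 2)
    nlinarith [mul_le_mul_of_nonneg_right a6 p0]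
  have q1 := Ap63.q_slow h i3 le_rfl
  have q2 := (Ap63.q_slow h (show S.J - 1 ≤ S.J by omega) i3).trans
    (h.s_tel (show S.J - 1 ≤ S.J by omega) le_rfl).2
  rw [Nat.cast_sub (by omega), Nat.cast_one, sub_sub_cancel, one_mul] at q2
  linarith

set_option maxHeartbeats 1000000 in
/-- **top window, pointwise**, explicit hypotheses -/
theorem Kw.top (X : Kw lam S M m a) (R : Rev S M) {E x γ : ℝ} (hE : 200000 * S.C ^ 18 ≤ E)
    (jl : E * M.s S.jl ≤ 1) (u0 : 0 < S.u0) (ue : E * S.ue ≤ 1)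
    (dj : 1 ≤ S.C * S.den (M.z (S.J - 1)) ∧ S.den (M.z (S.J - 1)) ≤ S.C) (x0 : 0 ≤ x)
    (x1 : E * x ^ 3 ≤ 1) (hx : M.En S m a M.q 2 (M.s S.J / 2) S.C ≤ x ^ 3)
    (hγ : M.s S.Jp - M.s S.J ≤ γ) {k : ℕ} {κ e w : ℝ} (h1 : 2 * S.J ≤ 3 * k) (h2 : k < S.J)
    (k1 : 1 ≤ κ) (e0 : 0 ≤ e) (w0 : 0 < w) (hw : w ^ 3 = S.w3 1 * κ ^ 2)
    (he : ∀ i, S.J / 2 ≤ i → i < S.J →
      |M.rb m a i - M.rb m a k| ≤ e + κ * (|(i : ℝ) - k| * S.v)) :
    u4 M m a k ≤ 20 * S.C ^ 8 * lam ^ 3 * (w + e +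
      min (S.w3 1 / (((S.J : ℝ) - k) * S.v) ^ 2) (S.w3 1 / S.u0 ^ 2 + x + γ)) := by
  have F := X.fn
  have h := F.toCl
  have C1 := F.C1
  have C0 := F.C0
  have v0 := F.v0
  have l2 := X.l2
  have lg := X.lg1
  have lg2 := X.lg2
  have W0 := F.w3_pos one_pos
  have i1 := F.i1
  have i3 := F.i3
  have γ0 : 0 ≤ γ := (sub_nonneg.2 (F.sm i3)).trans hγ
  have c : ∀ {i j : ℕ}, i ≤ j → S.C ^ i ≤ S.C ^ j := fun e => pow_le_pow_right₀ C1 e
  have c18 : 1 ≤ S.C ^ 18 := one_le_pow₀ C1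
  have c8 : 1 ≤ S.C ^ 8 := one_le_pow₀ C1
  have hj : 3 * S.jl ≤ S.J := by
    have a1 := (F.s_mem h.jl_lt.le).1
    have a2 : 9 * S.C ^ 4 * M.s S.jl ≤ 1 := le_trans (mul_le_mul_of_nonneg_right
      (by linarith [c (show 4 ≤ 18 by norm_num)]) (F.s_nonneg _)) jl
    have a3 : S.C ^ 3 * S.v * (3 * S.jl) ≤ S.C ^ 3 * S.v * S.J := by
      nlinarith [F.J_lo, mul_le_mul_of_nonneg_left a1 (pow_pos C0 3).le]
    exact_mod_cast le_of_mul_le_mul_left a3 (by positivity)
  have kJ : (0 : ℝ) < (S.J : ℝ) - k := sub_pos.2 (by exact_mod_cast h2)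
  have hd : ∀ y, S.J / 2 < y → y < S.J → S.v ≤ S.C ^ 3 * M.dz m a y := fun y a1 a2 => by
    obtain ⟨y, rfl⟩ : ∃ r, y = r + 1 := ⟨y - 1, by omega⟩
    have := (div_le_iff₀' C0).1 (h.zs y (by omega) a2).1
    rw [← dz_succ (m := m) (a := a) h.leg] at this
    exact this.trans (mul_le_mul_of_nonneg_right (le_self_pow₀ C1 (by norm_num)) (F.lg.dz_nonneg _))
  have l3 : lam ≤ lam ^ 3 := le_self_pow₀ (by linarith) (by norm_num)
  have lq : log S.n ^ 2 ≤ lam ^ 2 := by gcongr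
  have l1 : 1 ≤ lam ^ 2 := one_le_pow₀ (by linarith)
  rcases le_total 1 w with w1 | w1
  · refine ((mj_u4 F.lg.m0).u0 k).2.trans ?_
    have : 0 ≤ min (S.w3 1 / (((S.J : ℝ) - k) * S.v) ^ 2) (S.w3 1 / S.u0 ^ 2 + x + γ) := by
      positivity
    calc (2 : ℝ) ≤ 20 * 1 * 2 * 1 := by norm_num
      _ ≤ _ := by gcongr <;> linarith
  have Ww : S.w3 1 ≤ w := by
    have a1 : w ^ 3 ≤ w ^ 1 := pow_le_pow_of_le_one w0.le w1 (by norm_num)
    nlinarith [mul_le_mul_of_nonneg_left (one_le_pow₀ (n := 2) k1) W0.le]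
  rcases min_choice (S.w3 1 / (((S.J : ℝ) - k) * S.v) ^ 2) (S.w3 1 / S.u0 ^ 2 + x + γ) with
    e1 | e1 <;> rw [e1]
  · refine (X.cut R hj (J' := S.J) (d := ((S.J : ℝ) - k) * S.v / (2 * log S.n)) h1 (by omega) k1 e0
      (by positivity) w0 hw he hd (le_of_eq (by field_simp))).trans ?_
    rw [show S.w3 1 / (((S.J : ℝ) - k) * S.v / (2 * log S.n)) ^ 2 =
      4 * log S.n ^ 2 * (S.w3 1 / (((S.J : ℝ) - k) * S.v) ^ 2) by field_simp; ring]
    have p0 : 0 ≤ S.w3 1 / (((S.J : ℝ) - k) * S.v) ^ 2 := by positivity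
    generalize S.w3 1 / (((S.J : ℝ) - k) * S.v) ^ 2 = y at *
    calc _ ≤ lam * (4 * lam ^ 2 * (w + e + y)) := by
          refine mul_le_mul_of_nonneg_left ?_ (by linarith)
          nlinarith [mul_le_mul_of_nonneg_right lq p0, mul_le_mul_of_nonneg_right l1 w0.le,
            mul_le_mul_of_nonneg_right l1 e0]
      _ = 4 * 1 * lam ^ 3 * (w + e + y) := by ring
      _ ≤ _ := by gcongr; norm_num
  · set δ := min S.u0 (1 / (2 * S.C)) with hδ
    have δ0 : 0 < δ := lt_min u0 (by positivity)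
    have g0 : 0 < S.C ^ 3 * S.v := by positivity
    have f1 := Nat.floor_le (show 0 ≤ δ / (S.C ^ 3 * S.v) by positivity)
    have f2 := Nat.lt_floor_add_one (δ / (S.C ^ 3 * S.v))
    generalize ⌊δ / (S.C ^ 3 * S.v)⌋₊ = r at f1 f2
    rw [le_div_iff₀ g0] at f1
    rw [div_lt_iff₀ g0] at f2
    have hu : S.ue < 1 / (2 * S.C) := by
      rw [lt_div_iff₀ (by positivity)]
      rcases le_total S.ue 0 with b | b
      · nlinarith
      · have := le_self_pow₀ C1 (show 18 ≠ 0 by norm_num)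
        nlinarith [mul_le_mul_of_nonneg_right hE b, mul_le_mul_of_nonneg_right this b]
    have sh := fun (i : ℕ) (hi : i ≤ r) => shell h (min_le_left _ _) (min_le_right _ _) hu dj i
      (le_trans (mul_le_mul_of_nonneg_right (by exact_mod_cast hi) g0.le) f1)
    have x2 : 48 * S.C ^ 6 * x ≤ 1 := le_of_pow_le_pow_left₀ three_ne_zero zero_le_one (by
      have : 0 ≤ S.C ^ 18 * x ^ 3 := by positivity
      nlinarith [mul_le_mul_of_nonneg_right hE (pow_nonneg x0 3)])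
    have vw : S.v ≤ S.C ^ 2 * w := (B61.v_le_w F one_pos C1).trans (mul_le_mul_of_nonneg_left
      (le_of_pow_le_pow_left₀ three_ne_zero w0.le (by
        rw [Sz9.w1, rp3 W0.le, hw]
        exact le_mul_of_one_le_right W0.le (one_le_pow₀ k1))) (by positivity))
    have rm := Md67.rb_mono (M := M) (a := a) F.lg.m0
    refine (X.cut R hj (J' := S.J + r) (d := δ / (2 * S.C ^ 3 * log S.n))
      (e := e + (4 * S.C ^ 2 * x + γ + 3 * (S.C * S.v))) h1 (by omega) k1 (by positivity)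
      (by positivity) w0 hw (fun i a1 a2 => ?_) (fun y a1 a2 => ?_) ?_).trans ?_
    · rcases lt_or_ge i S.J with b | b
      · have : 0 ≤ 4 * S.C ^ 2 * x + γ + 3 * (S.C * S.v) := by positivity
        linarith [he i a1 b]
      obtain ⟨i, rfl⟩ := Nat.exists_eq_add_of_le b
      obtain ⟨b1, b2, -⟩ := sh i (by omega)
      have b3 : (i : ℝ) * (S.C ^ 3 * S.v) ≤ 1 / (2 * S.C) := (le_trans (mul_le_mul_of_nonneg_right
        (by exact_mod_cast (by omega : i ≤ r)) g0.le) f1).trans (min_le_right _ _)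
      have b4 := rise F X.cn hj x0 x2 hx hγ b b2.le (by
        rw [show S.J + i - 1 = S.J - 1 + i by omega]
        have : 1 / S.C = 2 * (1 / (2 * S.C)) := by field_simp
        linarith [h.atom.2])
      have b5 := (le_abs_self _).trans (he (S.J - 1) (by omega) (by omega))
      have b6 : |((S.J - 1 : ℕ) : ℝ) - k| ≤ |((S.J + i : ℕ) : ℝ) - k| := by
        have p1 : (k : ℝ) ≤ ((S.J - 1 : ℕ) : ℝ) := by exact_mod_cast (by omega : k ≤ S.J - 1)
        have p2 : ((S.J - 1 : ℕ) : ℝ) ≤ ((S.J + i : ℕ) : ℝ) := by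
          exact_mod_cast (by omega : S.J - 1 ≤ S.J + i)
        rw [abs_of_nonneg (by linarith), abs_of_nonneg (by linarith)]; linarith
      have b7 : κ * (|((S.J - 1 : ℕ) : ℝ) - k| * S.v) ≤ κ * (|((S.J + i : ℕ) : ℝ) - k| * S.v) := by
        gcongr
      rw [abs_of_nonneg (sub_nonneg.2 (rm (by omega)))]
      linarith
    · rcases lt_or_ge y S.J with b | b
      · exact hd y a1 b
      obtain ⟨i, rfl⟩ := Nat.exists_eq_add_of_le b
      rw [dz_up h.leg (by omega), show S.J + i - 1 = S.J - 1 + i by omega]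
      exact (sh i (by omega)).2.2.1
    · have a1 : (r : ℝ) + 1 ≤ ((S.J + r : ℕ) : ℝ) - k := by
        have : ((k + 1 : ℕ) : ℝ) ≤ S.J := by exact_mod_cast h2
        push_cast at this ⊢; linarith
      rw [show 2 * log S.n * (δ / (2 * S.C ^ 3 * log S.n)) = δ / S.C ^ 3 by field_simp,
        div_le_iff₀ (by positivity)]
      nlinarith [mul_le_mul_of_nonneg_right a1 g0.le]
    · have p0 : 0 ≤ S.w3 1 / S.u0 ^ 2 := by positivity
      have a1 : S.w3 1 / δ ^ 2 ≤ S.w3 1 / S.u0 ^ 2 + 4 * S.C ^ 2 * w := by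
        rcases min_choice S.u0 (1 / (2 * S.C)) with b | b <;> rw [hδ, b]
        · exact le_add_of_nonneg_right (by positivity)
        · rw [show S.w3 1 / (1 / (2 * S.C)) ^ 2 = 4 * S.C ^ 2 * S.w3 1 by field_simp; ring]
          exact le_add_of_nonneg_of_le p0 (by gcongr)
      rw [show S.w3 1 / (δ / (2 * S.C ^ 3 * log S.n)) ^ 2 =
        4 * S.C ^ 6 * log S.n ^ 2 * (S.w3 1 / δ ^ 2) by field_simp; ring]
      generalize S.w3 1 / S.u0 ^ 2 = y at *
      have a2 : 4 * S.C ^ 6 * log S.n ^ 2 * (S.w3 1 / δ ^ 2) ≤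
          4 * S.C ^ 6 * lam ^ 2 * (y + 4 * S.C ^ 2 * w) := by gcongr
      have a3 : S.C * S.v ≤ S.C ^ 8 * w := (mul_le_mul_of_nonneg_left vw C0.le).trans (by
        rw [← mul_assoc, ← pow_succ']
        exact mul_le_mul_of_nonneg_right (c (by norm_num)) w0.le)
      have a4 : w + (e + (4 * S.C ^ 2 * x + γ + 3 * (S.C * S.v))) ≤
          4 * S.C ^ 8 * (w + e + (y + x + γ)) := by
        have := c (show 2 ≤ 8 by norm_num)
        nlinarith [mul_le_mul_of_nonneg_right c8 w0.le, mul_le_mul_of_nonneg_right c8 e0,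
          mul_le_mul_of_nonneg_right c8 γ0, mul_le_mul_of_nonneg_right this x0,
          mul_nonneg (pow_pos C0 8).le p0]
      have a5 : 4 * S.C ^ 6 * lam ^ 2 * (y + 4 * S.C ^ 2 * w) ≤
          16 * S.C ^ 8 * lam ^ 2 * (w + e + (y + x + γ)) := by
        have b1 := mul_le_mul_of_nonneg_right (c (show 6 ≤ 8 by norm_num))
          (show 0 ≤ lam ^ 2 * y by positivity)
        have b2 : 0 ≤ S.C ^ 8 * lam ^ 2 * (e + y + x + γ) := by positivity
        have b3 : 0 ≤ S.C ^ 8 * lam ^ 2 * y := by positivity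
        have b4 : 0 ≤ S.C ^ 8 * lam ^ 2 * (e + x + γ) := by positivity
        nlinarith
      have a6 := mul_le_mul_of_nonneg_left l1 (show 0 ≤ 4 * S.C ^ 8 * (w + e + (y + x + γ)) by
        positivity)
      calc _ ≤ lam * (20 * S.C ^ 8 * lam ^ 2 * (w + e + (y + x + γ))) :=
            mul_le_mul_of_nonneg_left (by linarith) (by linarith)
        _ = _ := by ring

end Crest.Agent.T156.Alt.Sz9.W61

namespace Crest.Agent.T156.Alt.SzT98

open Real Crest.Agent.T156.Alt.Sz9 Crest.Agent.T156.Alt.Sz9.W61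

/-- **`SzW`** -/
theorem szW : SzW := by
  refine of_kw (fun C => 200000 * C ^ 18) 4
    fun E lam Λ S M m a K b1 b2 b3 l0 X Xp Vt γ u1 j Lp H A k κ e h1 h2 k1 e0 he => ?_
  have F := K.fn
  have h := F.toCl
  have C1 := F.C1
  have l2 := K.l2
  have W0 := F.w3_pos one_pos
  have k0 : 0 < κ := by linarith
  have n0 : ∀ i, 0 ≤ (M.z i - M.z (i - 1)) * |M.rb m a i - M.q i| ^ 2 := fun i =>
    mul_nonneg (Ap63.w_nn h.leg.zm i) (by positivity)
  have t1 : M.En S m a M.q 2 (M.s S.J / 2) S.C ≤ X := le_trans (Finset.sum_le_sum_of_subset_of_nonneg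
    (fun i hi => Finset.mem_filter.2 ⟨(Finset.mem_filter.1 hi).1, h.s_nn i,
      (Finset.mem_filter.1 hi).2.2⟩) fun i _ _ => n0 i) A.all
  have m0 : 0 ≤ min X Xp := le_min (le_trans (Finset.sum_nonneg fun i _ => n0 i) t1) H.Xp0.1.le
  have E0 : 0 ≤ E := by linarith
  have γ0 : 0 ≤ γ := (sub_nonneg.2 (F.sm F.i3)).trans H.γ0
  have u0 := H.u0
  have kJ : (0 : ℝ) < (S.J : ℝ) - k := sub_pos.2 (by exact_mod_cast h2)
  have v0 := F.v0
  refine (K.top (x := min X Xp ^ ((1 : ℝ) / 3)) (w := κ ^ ((2 : ℝ) / 3) * S.w3 1 ^ ((1 : ℝ) / 3))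
    H.rev (b1.trans b2) H.jl u0 ((mul_le_mul_of_nonneg_left H.u1a E0).trans H.u1b) ⟨A.jn.dj1, A.jn.dj2⟩
    (by positivity) (by
      rw [rp3 m0]; exact (mul_le_mul_of_nonneg_left (min_le_right _ _) E0).trans H.Xp0.2)
    (by rw [rp3 m0]; exact le_min t1 A.top) H.γ0 h1 h2 k1 e0 (by positivity)
    (by rw [mul_pow, rp3 W0.le, rp23 k0.le, mul_comm]) he).trans
    (mul_le_mul_of_nonneg_right (le_trans ?_ b3) (by positivity))
  rw [pow_succ' lam 3]
  refine mul_le_mul_of_nonneg_right (le_trans ?_ b1) (by positivity)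
  gcongr <;> norm_num

end Crest.Agent.T156.Alt.SzT98

end
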