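import Crest.Agent.T156.SzV_32
import Crest.Agent.T156.SzW_61

/-!
# Row 156, block (L) (helper32): the sums over the top window
-/

namespace Crest.Agent.T156.Alt.SzT98

theorem szV : SzV := szV_of szW

end Crest.Agent.T156.Alt.SzT98
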