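import Crest.Agent.T156.LOut_25

/-!
Row 156, block (L) (helper25): tools for `LO` and `Eo`; the blocks below an upper cut.
-/

set_option autoImplicit false

noncomputable section

namespace Crest.Agent.T156.Alt.L25

open MeasureTheory Set Real
open Crest.Agent.R164.GC Crest.Agent.R339.B Crest.Agent.R339.Var Crest.Agent.T157.Pf
open Crest.Agent.T156.Spl27 Crest.Agent.T156.Zb9
open Crest.Agent.T156.Lo25 Crest.Agent.T156.Cut8 Crest.Agent.T156.Alt.Mp9
open Crest.Agent.T156.Alt.L69 (mf LO dx GS GP Pla)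
open Crest.Agent.T156.Pr.Mid8.Mid (ff)

variable {S : Sc} {M : Md} {m : ℕ} {a T B a0 a1 b s Q t0 ℓ u1 En : ℝ}

theorem dx_nn (h : Cl S M) (k : ℕ) : 0 ≤ dx M k := sub_nonneg.2 (h.leg.zm (Nat.sub_le _ _))
theorem GS_nn (h : Cl S M) (t t' : ℝ) : 0 ≤ GS M S t t' :=
  Finset.sum_nonneg fun k _ => mul_nonneg (dx_nn h k) (sq_nonneg _)
theorem GP_nn (h : Cl S M) : 0 ≤ GP M S :=
  Finset.sum_nonneg fun k _ => mul_nonneg (dx_nn h k) (sq_nonneg _)
theorem mf_pos' (h : Cl S M) {t : ℝ} (ht : 0 ≤ t) : 0 < mf S t :=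
  div_pos (h.ms_pos ht) (by linarith [h.F1])

theorem min_scale {K x y x' y' : ℝ} (h1 : x' ≤ K * x) (h2 : y' ≤ K * y) :
    min x' y' ≤ K * min x y := by
  rcases min_choice x y with c | c <;> rw [c]
  exacts [(min_le_left _ _).trans h1, (min_le_right _ _).trans h2]

/-- a larger energy, a larger last shell and a larger constant: `En ≤ K En'`, `u1 ≤ K u1'` -/
theorem lo_scale (h : Cl S M) {Λ Λ' K En' u1' : ℝ} (H : LO Λ S M m a t0 u1 En) (t00 : 0 ≤ t0)
    (Λ0 : 0 ≤ Λ) (K1 : 1 ≤ K) (hΛ : Λ * K ≤ Λ') (E0 : 0 ≤ En) (hE : En ≤ K * En') (E0' : 0 ≤ En')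
    (hu : u1 ≤ K * u1') (u0 : 0 ≤ u1') : LO Λ' S M m a t0 u1' En' := by
  have K0 : 0 ≤ K := by linarith
  have fin : ∀ Z X X' : ℝ, Z ≤ Λ * X → X ≤ K * X' → 0 ≤ X' → Z ≤ Λ' * X' := fun Z X X' a b c =>
    a.trans ((mul_le_mul_of_nonneg_left b Λ0).trans (by
      rw [← mul_assoc]; exact mul_le_mul_of_nonneg_right hΛ c))
  have up : ∀ x : ℝ, 0 ≤ x → x ≤ K * x := fun x hx => le_mul_of_one_le_left hx K1
  have θ0 := h.θ0
  refine ⟨fun t t' h1 h2 => ?_, ?_, ?_⟩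
  · have m0 := mf_pos' h (t00.trans h1)
    have t0' : 0 ≤ t' := t00.trans (h1.trans h2)
    have x1 : √(t' * En) ≤ K * √(t' * En') := by
      rw [← Real.sqrt_sq K0, ← Real.sqrt_mul (sq_nonneg _)]
      refine Real.sqrt_le_sqrt ?_
      have := mul_le_mul_of_nonneg_left (hE.trans (up _ (mul_nonneg K0 E0'))) t0'
      linarith
    have x2 : En / mf S t ≤ K * (En' / mf S t) := by
      rw [← mul_div_assoc]; exact div_le_div_of_nonneg_right hE m0.le
    have x3 := min_scale x1 x2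
    have x4 : 0 ≤ min (√(t' * En')) (En' / mf S t) := le_min (Real.sqrt_nonneg _) (by positivity)
    have g := GS_nn h t t'
    have q : (0 : ℝ) ≤ 1 / (S.n : ℝ) ^ 2 := by positivity
    exact fin _ _ _ (H.two t t' h1 h2) (by linarith [up _ g, up _ q]) (by linarith)
  · have g : 0 ≤ ∑ k ∈ (M.blk S t0 S.C).filter (· < S.J), dx M k * M.G k ^ 4 :=
      Finset.sum_nonneg fun k _ => mul_nonneg (dx_nn h k) (by positivity)
    have q : (0 : ℝ) ≤ 1 / (S.n : ℝ) ^ 4 := by positivity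
    exact fin _ _ _ H.four (by linarith [up _ g, up _ q]) (by linarith)
  · have x1 : En ^ ((3 : ℝ) / 5) ≤ K * En' ^ ((3 : ℝ) / 5) := by
      refine (Real.rpow_le_rpow E0 hE (by norm_num)).trans ?_
      rw [Real.mul_rpow K0 E0']
      exact mul_le_mul_of_nonneg_right ((Real.rpow_le_rpow_of_exponent_le K1
        (by norm_num : (3 : ℝ) / 5 ≤ 1)).trans_eq (Real.rpow_one K)) (by positivity)
    have x2 : En / S.θ ≤ K * (En' / S.θ) := by
      rw [← mul_div_assoc]; exact div_le_div_of_nonneg_right hE θ0.le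
    have x3 := min_scale x1 x2
    have x4 : 0 ≤ min (En' ^ ((3 : ℝ) / 5)) (En' / S.θ) := le_min (by positivity) (by positivity)
    have g := GP_nn h
    have q : (0 : ℝ) ≤ 1 / (S.n : ℝ) ^ 2 := by positivity
    have r := sq_nonneg (M.s S.Jp - M.s S.J)
    exact fin _ _ _ H.pla (by linarith [up _ g, up _ q, up _ r]) (by linarith)

theorem del_one (A : At S M m a T) {k : ℕ} (hk : k ≤ S.Jp) : |M.del m a k| ≤ 1 := by
  obtain ⟨r0, r1⟩ := rb_mem (M := M) (a := a) A.m_pos k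
  have q0 := A.cl.q_nn (A.jp_le hk)
  have q1 : M.q k ≤ 1 := Pp.Ode3.Gam_le_one _ _
  exact abs_le.2 ⟨by simp only [Md.del]; linarith, by simp only [Md.del]; linarith⟩

theorem sum_del_le (A : At S M m a T) {U : Finset ℕ} (hU : ∀ k ∈ U, k ≤ S.Jp) (p : ℕ) :
    ∑ k ∈ U, dx M k * |M.del m a k| ^ p ≤ ∑ k ∈ U, (M.z k - M.z (k - 1)) :=
  Finset.sum_le_sum fun k hk => mul_le_of_le_one_right (A.dz_nn k)
    (pow_le_one₀ (abs_nonneg _) (del_one A (hU k hk)))

theorem mem_blk {t t' : ℝ} {k : ℕ} (hk : k ∈ (M.blk S t t').filter (· < S.J)) :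
    S.j0 < k ∧ k < S.J ∧ t ≤ M.s k ∧ M.s k ≤ t' := by
  obtain ⟨h1, h2⟩ := Finset.mem_filter.1 hk
  obtain ⟨h3, h4⟩ := Finset.mem_filter.1 h1
  exact ⟨(Finset.mem_Ioc.1 h3).1, h2, h4⟩

/-- label weight of a block -/
theorem wt_blk (A : At S M m a T) (hC : S.C ≤ B) {t' : ℝ} (h : M.s S.jl ≤ t') {U : Finset ℕ}
    (hU : ∀ k ∈ U, S.j0 < k ∧ k < S.J ∧ M.s k ≤ t') :
    ∑ k ∈ U, (M.z k - M.z (k - 1)) ≤ 2 * B ^ 2 * t' := by
  have C0 := A.c_pos
  have t1 : 0 ≤ t' := (s_nn A.cl _).trans h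
  have W2 := A.wt_le_25 (U := U) (p := 0) (q := t') t1 fun k hk =>
    ⟨(hU k hk).1, (hU k hk).2.1, s_nn A.cl k, (hU k hk).2.2⟩
  have v1 : S.v ≤ S.C * t' := by
    have a1 := (A.cl.ss 0 (by have := A.cl.i2; omega)).1
    have a2 := A.cl.sm (show 0 + 1 ≤ S.jl by have := A.cl.i0; have := A.cl.i1; omega)
    rw [A.cl.s0, sub_zero, div_le_iff₀ C0] at a1
    nlinarith
  have a1 := mul_le_mul_of_nonneg_left v1 C0.le
  have a2 : S.C ^ 2 * t' ≤ B ^ 2 * t' := by gcongr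
  linarith

/-- a large energy says nothing -/
theorem lo_big (A : At S M m a T) (hC : S.C ≤ B) (hθ : S.θ ≤ 1) (jl : M.s S.jl ≤ t0) (u0 : 0 ≤ u1)
    (hE : 1 ≤ En) : LO (10 ^ 8 * B ^ 12) S M m a t0 u1 En := by
  have B1 := A.cl.C1.trans hC
  have B12 : B ≤ B ^ 12 := by simpa using pow_le_pow_right₀ B1 (show 1 ≤ 12 by norm_num)
  have θ0 := A.cl.θ0
  have t00 := (s_nn A.cl _).trans jl
  have fin : ∀ Z X : ℝ, Z ≤ 2 * B * X → 0 ≤ X → Z ≤ 10 ^ 8 * B ^ 12 * X := fun Z X a b =>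
    a.trans (mul_le_mul_of_nonneg_right (by linarith) b)
  have one : ∀ U : Finset ℕ, (∀ k ∈ U, S.j0 < k ∧ k ≤ S.Jp) →
      ∑ k ∈ U, (M.z k - M.z (k - 1)) ≤ 1 := fun U hU =>
    A.wt_one_25 fun k hk => ⟨by have := (hU k hk).1; omega, (hU k hk).2⟩
  refine ⟨fun t t' h1 h2 => ?_, ?_, ?_⟩
  · have p := sum_del_le A (U := (M.blk S t t').filter (· < S.J))
      (fun k hk => (mem_blk hk).2.1.le.trans A.cl.i3) 2
    have W1 := one ((M.blk S t t').filter (· < S.J)) fun k hk =>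
      ⟨(mem_blk hk).1, (mem_blk hk).2.1.le.trans A.cl.i3⟩
    have W2 := wt_blk A hC (jl.trans (h1.trans h2)) (U := (M.blk S t t').filter (· < S.J))
      fun k hk => ⟨(mem_blk hk).1, (mem_blk hk).2.1, (mem_blk hk).2.2.2⟩
    have W0 : 0 ≤ ∑ k ∈ (M.blk S t t').filter (· < S.J), (M.z k - M.z (k - 1)) :=
      Finset.sum_nonneg fun k _ => A.dz_nn k
    simp only [sq_abs] at p
    set W := ∑ k ∈ (M.blk S t t').filter (· < S.J), (M.z k - M.z (k - 1))
    have t1 : 0 ≤ t' := t00.trans (h1.trans h2)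
    have m0 := mf_pos A (t00.trans h1)
    have x1 : W ≤ 2 * B * √(t' * En) := by
      refine le_of_pow_le_pow_left₀ (n := 2) (by norm_num) (by positivity) ?_
      rw [mul_pow, Real.sq_sqrt (by positivity)]
      have a1 : W ^ 2 ≤ W := pow_le_of_le_one W0 W1 (by norm_num)
      have a2 : B ^ 2 * t' ≤ B ^ 2 * t' * En := le_mul_of_one_le_right (by positivity) hE
      have a3 : 0 ≤ B ^ 2 * t' := by positivity
      linarith
    have x2 : W ≤ 2 * B * (En / mf S t) := by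
      have := le_div_self (by linarith : 0 ≤ En) m0 ((mf_θ A (t00.trans h1)).trans hθ)
      nlinarith
    have x3 := min_scale x1 x2
    rw [min_self] at x3
    have x4 : 0 ≤ min (√(t' * En)) (En / mf S t) := le_min (Real.sqrt_nonneg _) (by positivity)
    have g := GS_nn A.cl t t'
    have q : (0 : ℝ) ≤ 1 / (S.n : ℝ) ^ 2 := by positivity
    refine fin _ _ ((p.trans x3).trans (mul_le_mul_of_nonneg_left (by linarith) (by positivity)))
      (by linarith)
  · have p := sum_del_le A (U := (M.blk S t0 S.C).filter (· < S.J))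
      (fun k hk => (mem_blk hk).2.1.le.trans A.cl.i3) 4
    have W1 := one ((M.blk S t0 S.C).filter (· < S.J)) fun k hk =>
      ⟨(mem_blk hk).1, (mem_blk hk).2.1.le.trans A.cl.i3⟩
    simp only [Even.pow_abs (show Even 4 by decide)] at p
    have g : 0 ≤ ∑ k ∈ (M.blk S t0 S.C).filter (· < S.J), dx M k * M.G k ^ 4 :=
      Finset.sum_nonneg fun k _ => mul_nonneg (dx_nn A.cl k) (by positivity)
    have q : (0 : ℝ) ≤ 1 / (S.n : ℝ) ^ 4 := by positivity
    exact fin _ _ ((p.trans W1).trans (by nlinarith)) (by linarith)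
  · have p := sum_del_le A (U := Finset.Icc S.J S.Jp) (fun k hk => (Finset.mem_Icc.1 hk).2) 2
    have W1 := one (Finset.Icc S.J S.Jp) fun k hk =>
      ⟨A.j0_lt.trans_le (Finset.mem_Icc.1 hk).1, (Finset.mem_Icc.1 hk).2⟩
    have x : 1 ≤ min (En ^ ((3 : ℝ) / 5)) (En / S.θ) :=
      le_min (Real.one_le_rpow hE (by norm_num)) (hE.trans (le_div_self (by linarith) θ0 hθ))
    have g := GP_nn A.cl
    have q : (0 : ℝ) ≤ 1 / (S.n : ℝ) ^ 2 := by positivity
    have r := sq_nonneg (M.s S.Jp - M.s S.J)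
    exact fin _ _ ((p.trans W1).trans (by nlinarith)) (by linarith)

/-- `LO` from `Eo` in the case `En ≤ 1` -/
theorem lo_of (A : At S M m a T) (hC : S.C ≤ B) (hT : T ≤ B) (hθ : S.θ ≤ 1) (jl : M.s S.jl ≤ t0)
    (u0 : 0 ≤ u1) (h : En ≤ 1 → ∃ a0 a1 s Q ℓ, Eo S M m a T a0 a1 s Q t0 ℓ u1 En) :
    LO (10 ^ 8 * B ^ 12) S M m a t0 u1 En := by
  rcases le_total En 1 with c | c
  · obtain ⟨a0, a1, s, Q, ℓ, E⟩ := h c
    exact E.lo A hC hT hθ
  · exact lo_big A hC hθ jl u0 c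

/-- the mesh -/
theorem v4_of {C η K : ℝ} {A : ℕ} (H : RgC C A η K S) (h : Cl S M) (hA : 5 ≤ A) :
    S.v ≤ 1 / (S.n : ℝ) ^ 4 := by
  have n0 := H.N0
  have v2 := h.v2
  have c1 : S.C ≤ S.n := by
    have := Real.log_le_sub_one_of_pos n0
    have := H.C_log
    rw [← H.hC] at this
    linarith [h.C0]
  have p : (S.n : ℝ) ^ 5 ≤ (S.n : ℝ) ^ S.A := pow_le_pow_right₀ H.N1.le (H.hA ▸ hA)
  have q := mul_le_mul_of_nonneg_left p h.v0.le
  rw [le_div_iff₀ (by positivity)]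
  refine le_of_mul_le_mul_right ?_ n0
  linarith

/-- the field `mass` from another mass function -/
theorem mass_of (A : At S M m a T) {μ : ℝ → ℝ} {K X x y : ℝ} (lμ : LB T μ) (K0 : 0 ≤ K) (hx : 0 ≤ x)
    (hxy : x ≤ y) (hy : y ≤ T) (h : ∀ t, x < t → t < y → mf S t ≤ K * μ t)
    (hX : ∫ t in x..y, μ t * uu M S m a T t ^ 2 ≤ X) :
    ∫ t in x..y, mf S t * uu M S m a T t ^ 2 ≤ K * X := by
  have lu : LB T (uu M S m a T) := A.LB_u
  have p := int_mono ((LB.of_mono (mf_mono A)).mul lu.sq) ((LB.const K).mul (lμ.mul lu.sq)) hx hxy hy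
    fun t a b => by
      rw [← mul_assoc]; exact mul_le_mul_of_nonneg_right (h t a b) (sq_nonneg _)
  rw [intervalIntegral.integral_const_mul] at p
  exact p.trans (mul_le_mul_of_nonneg_left hX K0)

/-- the field `neg`: `u ≥ 0` up to the distance `w` from the corner, `u ≥ -d` on the rest -/
theorem neg_of (A : At S M m a T) {w d : ℝ} (s0 : 0 ≤ s) (hs : s ≤ M.s S.J) (w0 : 0 ≤ w) (d0 : 0 ≤ d)
    (pos : ∀ t, s < t → t < M.s S.J - w → 0 ≤ uu M S m a T t)
    (dlo : ∀ t, s < t → t < M.s S.J → -d ≤ uu M S m a T t) :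
    ∫ t in s..M.s S.J, min (uu M S m a T t) 0 ^ 2 ≤ w * d ^ 2 := by
  have lu : LB T (uu M S m a T) := A.LB_u
  have ln := (LB_min lu (LB.const 0)).sq
  have sT := A.sJ_T
  have y1 : max s (M.s S.J - w) ≤ M.s S.J := max_le hs (by linarith)
  have y0 := le_max_left s (M.s S.J - w)
  rw [int_split ln (b := max s (M.s S.J - w)) ⟨s0, by linarith⟩ ⟨by linarith, by linarith⟩
    ⟨by linarith, sT⟩]
  have p1 := int_le_const ln (K := 0) s0 y0 (by linarith) fun t a b => by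
    rw [min_eq_right (pos t a ((lt_max_iff.1 b).resolve_left (by linarith)))]; simp
  have p2 := int_le_const ln (K := d ^ 2) (by linarith) y1 sT fun t a b =>
    sq_le_sq' (le_min (dlo t (by linarith) b) (by linarith)) ((min_le_right _ _).trans d0)
  have p3 := mul_le_mul_of_nonneg_right
    (show M.s S.J - max s (M.s S.J - w) ≤ w by linarith [le_max_right s (M.s S.J - w)]) (sq_nonneg d)
  linarith

/-- moving the base point of a weighted integral -/
theorem shift {ρ : ℝ → ℝ} (lρ : LB T ρ) {σ x y : ℝ} (σ0 : 0 ≤ σ) (h1 : σ ≤ x) (h2 : x ≤ y) (hy : y ≤ T)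
    (r0 : ∀ t, 0 ≤ ρ t) (r1 : ∀ t, ρ t ≤ 1) (p : ℕ) :
    ∫ t in x..y, (t - σ) ^ p * ρ t ≤
      (2 * (x - σ)) ^ p * (x - σ) + 2 ^ p * ∫ t in x..y, (t - x) ^ p * ρ t := by
  have l1 : LB T fun t => (t - σ) ^ p * ρ t := (LB.of_cont (by fun_prop)).mul lρ
  have l2 : LB T fun t => (t - x) ^ p * ρ t := (LB.of_cont (by fun_prop)).mul lρ
  set R := min (x + (x - σ)) y
  have R1 : x ≤ R := le_min (by linarith) h2
  have R2 : R ≤ y := min_le_right _ _
  have R3 : R ≤ x + (x - σ) := min_le_left _ _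
  rw [int_split l1 (b := R) ⟨by linarith, by linarith⟩ ⟨by linarith, by linarith⟩ ⟨by linarith, hy⟩]
  have d0 : 0 ≤ x - σ := by linarith
  have q1 := int_le_const l1 (K := (2 * (x - σ)) ^ p) (by linarith) R1 (by linarith) fun t t1 t2 =>
    (mul_le_of_le_one_right (pow_nonneg (by linarith) _) (r1 t)).trans
      (pow_le_pow_left₀ (by linarith) (by linarith) p)
  have q2 := int_mono l1 ((LB.const (2 ^ p)).mul l2) (by linarith) R2 hy fun t t1 t2 => by
    have : x + (x - σ) < t := (min_lt_iff.1 t1).resolve_right (by linarith)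
    rw [← mul_assoc, ← mul_pow]
    exact mul_le_mul_of_nonneg_right (pow_le_pow_left₀ (by linarith) (by linarith) p) (r0 t)
  rw [intervalIntegral.integral_const_mul] at q2
  have q3 := int_sub_le l2 (by linarith) R1 R2 le_rfl hy fun t t1 _ =>
    mul_nonneg (pow_nonneg (by linarith) _) (r0 t)
  have q4 := mul_le_mul_of_nonneg_left q3 (show (0 : ℝ) ≤ 2 ^ p by positivity)
  have q5 := mul_le_mul_of_nonneg_right (show R - x ≤ x - σ by linarith)
    (show 0 ≤ (2 * (x - σ)) ^ p by positivity)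
  linarith

/-- the field `top` from the gains of the middle zone `[s, Mt]` and of the plateau -/
theorem top_of (A : At S M m a T) {Mt P κ I1 W : ℝ} (s0 : 0 ≤ s) (hs : s ≤ M.s S.Jp) (h1 : s ≤ Mt)
    (h2 : Mt ≤ T) (hP : P ≤ T) (κ0 : 0 < κ) (hκ : ∀ t < Mt, κ ≤ 1 - lvr 1 (lb M S m a T) t)
    (hI : ∫ t in s..Mt, |t - M.s S.Jp| * ff (lb M S m a T) (lh M T) (M.s S.Jp) t ≤ I1)
    (hW : ∫ t in max Mt (M.s S.Jp)..max (max Mt (M.s S.Jp)) P,
      (t - max Mt (M.s S.Jp)) * (1 - lvr 1 (lb M S m a T) t) ≤ W) :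
    ∫ t in s..max (max Mt (M.s S.Jp)) P, |t - M.s S.Jp| * ff (lb M S m a T) (lh M T) (M.s S.Jp) t ≤
      (1 + 8 / κ) * I1 + 2 * W + 2 * (max Mt (M.s S.J) - Mt) ^ 2 + 2 * (M.s S.Jp - M.s S.J) ^ 2 := by
  have σ0 := s_nn A.cl S.Jp
  have σT := A.t2
  have sp : M.s S.J ≤ M.s S.Jp := A.cl.sm A.cl.i3
  have z1 := fun t => Pp.Ode3.lvr_le_one A.okb.1.1 (l := lb M S m a T) t
  have z0 := fun t => Pp.Ode3.lvr_pos A.okb.1.1 (l := lb M S m a T) t
  set σ := M.s S.Jp with hσ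
  have lt := LB_top A σ
  have f0 : ∀ t, 0 ≤ |t - σ| * ff (lb M S m a T) (lh M T) σ t := fun t =>
    mul_nonneg (abs_nonneg _) (ff_nn _ _ _ _)
  have ef : ∀ t, σ ≤ t → |t - σ| * ff (lb M S m a T) (lh M T) σ t =
      (t - σ) * (1 - lvr 1 (lb M S m a T) t) := fun t ht => by
    have u6 : ff (lb M S m a T) (lh M T) σ t =
        |lvr 1 (lb M S m a T) t - lvr 1 (lh M T) t| := if_neg (by linarith)
    rw [u6, abs_of_nonneg (by linarith : 0 ≤ t - σ), A.lvh' (by linarith), A.cl.lv1 t ht,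
      abs_sub_comm, abs_of_nonneg (by linarith [z1 t])]
  have I0 : 0 ≤ I1 := (intervalIntegral.integral_nonneg h1 fun t _ => f0 t).trans hI
  set S0 := max Mt σ with hS
  have S1 : Mt ≤ S0 := le_max_left _ _
  have S2 : σ ≤ S0 := le_max_right _ _
  have S3 : S0 ≤ T := max_le h2 σT
  set Q := max S0 P
  have Q1 : S0 ≤ Q := le_max_left _ _
  have Q2 : Q ≤ T := max_le S3 hP
  rw [int_split lt (b := Mt) ⟨s0, by linarith⟩ ⟨by linarith, h2⟩ ⟨by linarith, Q2⟩,
    int_split lt (a := Mt) (b := S0) ⟨by linarith, h2⟩ ⟨by linarith, S3⟩ ⟨by linarith, Q2⟩,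
    intervalIntegral.integral_congr (a := S0) (b := Q)
      (g := fun t => (t - σ) ^ 1 * (1 - lvr 1 (lb M S m a T) t)) fun t ht => by
        rw [uIcc_of_le Q1] at ht
        simp only [pow_one, ef t (S2.trans ht.1)]]
  have p := shift ((LB.const 1).sub A.LB_zb) σ0 S2 Q1 Q2 (fun t => by linarith [z1 t])
    (fun t => by linarith [z0 t]) 1
  simp only [pow_one] at p ⊢
  have n1 := sq_nonneg (max Mt (M.s S.J) - Mt)
  have n2 := sq_nonneg (σ - M.s S.J)
  have k8 : 0 ≤ 8 / κ * I1 := by positivity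
  rcases le_total Mt σ with c | c
  · have e : S0 = σ := max_eq_right c
    have q := int_le_const lt (K := σ - Mt) (by linarith) S1 S3 fun t t1 t2 => by
      have f1 : ff (lb M S m a T) (lh M T) σ t ≤ 1 := by
        have := Sc48.lvr_sub_le A.okh.1.1 A.okb.1.1 t
        unfold ff; split_ifs
        exacts [max_le ((le_abs_self _).trans this) zero_le_one, this]
      rw [abs_sub_comm, abs_of_nonneg (by linarith)]
      exact (mul_le_of_le_one_right (by linarith) f1).trans (by linarith)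
    have r : (σ - Mt) ^ 2 ≤ (max Mt (M.s S.J) - Mt + (σ - M.s S.J)) ^ 2 :=
      pow_le_pow_left₀ (by linarith) (by linarith [le_max_right Mt (M.s S.J)]) 2
    rw [e] at q p hW ⊢
    linarith [sq_nonneg (max Mt (M.s S.J) - Mt - (σ - M.s S.J))]
  · have e : S0 = Mt := max_eq_left c
    have q1 := int_mono (LB.const ((Mt - σ) / 2 * κ)) lt (a := (σ + Mt) / 2) (b := Mt) (by linarith)
      (by linarith) h2 fun t t1 t2 => by
        rw [ef t (by linarith)]
        exact mul_le_mul (by linarith) (hκ t t2) κ0.le (by linarith)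
    have q2 := int_sub_le lt s0 (show s ≤ (σ + Mt) / 2 by linarith) (by linarith) le_rfl h2
      fun t _ _ => f0 t
    rw [intervalIntegral.integral_const, smul_eq_mul] at q1
    have q3 : 2 * (Mt - σ) * (Mt - σ) ≤ 8 / κ * I1 := by
      rw [div_mul_eq_mul_div, le_div_iff₀ κ0]; linarith
    rw [e] at p hW ⊢
    rw [intervalIntegral.integral_same]
    linarith

/-- the field `cub` -/
theorem cub_of (A : At S M m a T) {Mt P κ E W2 : ℝ} (p0 : 0 ≤ a0) (p1 : a0 ≤ M.s S.Jp)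
    (h2 : Mt ≤ T) (hP : P ≤ T) (κ0 : 0 < κ) (hκ : ∀ t < Mt, κ ≤ 1 - lvr 1 (lb M S m a T) t)
    (hE : ∫ t in a0..T, Jf T (lvr 1 (lh M T)) (lvr 1 (lb M S m a T)) t ^ 2 ≤ E)
    (hW : ∫ t in max Mt (M.s S.Jp)..max (max Mt (M.s S.Jp)) P,
      (t - max Mt (M.s S.Jp)) ^ 2 * (1 - lvr 1 (lb M S m a T) t) ≤ W2) :
    ∫ t in M.s S.Jp..max (max Mt (M.s S.Jp)) P,
      (t - M.s S.Jp) ^ 2 * (1 - lvr 1 (lb M S m a T) t) ≤ 320 / κ ^ 2 * E + 4 * W2 := by
  have σ0 := s_nn A.cl S.Jp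
  have σT := A.t2
  have z1 := fun t => Pp.Ode3.lvr_le_one A.okb.1.1 (l := lb M S m a T) t
  have z0 := fun t => Pp.Ode3.lvr_pos A.okb.1.1 (l := lb M S m a T) t
  set σ := M.s S.Jp with hσ
  set S0 := max Mt σ with hS
  have S2 : σ ≤ S0 := le_max_right _ _
  have S3 : S0 ≤ T := max_le h2 σT
  set Q := max S0 P
  have Q1 : S0 ≤ Q := le_max_left _ _
  have Q2 : Q ≤ T := max_le S3 hP
  have lr : LB T fun t => 1 - lvr 1 (lb M S m a T) t := (LB.const 1).sub A.LB_zb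
  have l1 : LB T fun t => (t - σ) ^ 2 * (1 - lvr 1 (lb M S m a T) t) :=
    (LB.of_cont (by fun_prop)).mul lr
  rw [int_split l1 (b := S0) ⟨σ0, σT⟩ ⟨by linarith, S3⟩ ⟨by linarith, Q2⟩]
  have p := shift lr σ0 S2 Q1 Q2 (fun t => by linarith [z1 t]) (fun t => by linarith [z0 t]) 2
  have q := int_le_const l1 (K := (S0 - σ) ^ 2) σ0 S2 S3 fun t t1 t2 =>
    (mul_le_of_le_one_right (sq_nonneg _) (by linarith [z0 t])).trans
      (pow_le_pow_left₀ (by linarith) (by linarith) 2)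
  have g := Lab36.gap_neg A.LB_u (u := σ) (ℓ := S0 - σ) (κ := κ) σ0 (by linarith) (by linarith) κ0.le
    fun t t1 t2 => by
      have := hκ t ((lt_max_iff.1 (show t < max Mt σ by linarith)).resolve_right (by linarith))
      rw [A.lvh' (by linarith), A.cl.lv1 t t1.le]
      linarith
  have g1 := int_sub_le A.LB_J2 p0 p1 (show σ ≤ σ + (S0 - σ) by linarith)
    (show σ + (S0 - σ) ≤ T by linarith) le_rfl fun _ _ _ => sq_nonneg _
  have g2 : 5 * (S0 - σ) ^ 3 ≤ 320 / κ ^ 2 * E := by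
    rw [div_mul_eq_mul_div, le_div_iff₀ (by positivity)]; linarith
  linarith

/-! ### blocks below an upper cut -/

/-- **local energy facts** on `[a0, b]` -/
structure El (S : Sc) (M : Md) (m : ℕ) (a T a0 a1 b t0 ℓ En : ℝ) : Prop where
  a00 : 0 ≤ a0
  a01 : a0 ≤ a1
  a1t : a1 ≤ t0
  j0a : M.s S.j0 ≤ a1
  jl : M.s S.jl < t0
  bJ : b ≤ M.s S.J
  en : ∫ t in a0..b, Jf T (lvr 1 (lh M T)) (lvr 1 (lb M S m a T)) t ^ 2 ≤ En
  room : ∀ t, a1 ≤ t → t < b → -(2 * S.C ^ 2 * (t - a0)) ≤ uu M S m a T t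
  mass : ∫ t in a1..b, mf S t * uu M S m a T t ^ 2 ≤ En
  l0 : 0 ≤ ℓ
  low : ∀ k < S.J, t0 ≤ M.s k → a1 ≤ sb M m a (k + 1) ∨ 2 * a1 ≤ M.s k ∨ M.s k ≤ ℓ
  l5 : ℓ ^ 5 ≤ En
  l3 : mf S ℓ * ℓ ^ 3 ≤ En
  En0 : 0 ≤ En
  En1 : En ≤ 1
  v4 : S.v ≤ 1 / (S.n : ℝ) ^ 4

/-- `win_pow` for located nodes -/
theorem win_loc (A : At S M m a T) {k0 : ℕ} {a' : ℝ} (h0 : S.j0 ≤ k0) (h1 : k0 < S.J)
    (ha : M.s S.j0 ≤ a') (hb : a' ≤ M.s k0) (l0 : 0 ≤ ℓ) {U : Finset ℕ}
    (hU : ∀ k ∈ U, S.j0 < k ∧ k ≤ k0 ∧ a' ≤ M.s k ∧ sb M m a (k + 1) ≤ M.s k0 ∧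
      (a' ≤ sb M m a (k + 1) ∨ 2 * a' ≤ M.s k ∨ M.s k ≤ ℓ)) (p : ℕ) :
    ∑ k ∈ U, (M.z k - M.z (k - 1)) * |sb M m a (k + 1) - M.s k| ^ (p + 1) ≤
      2 ^ (p + 1) * ((p + 1) * (2 * S.C) ^ p *
        ((∫ t in a'..M.s k0, |ut M S m a T k0 t| ^ (p + 1)) +
          (S.C * S.v) ^ (p + 1) * (M.s k0 - a'))) + ℓ ^ (p + 1) * (S.C ^ 2 * ℓ + S.C * S.v) := by
  classical
  have q1 := A.cl_pow h0 h1 ha hb (fun k hk => ⟨(hU k hk).1, (hU k hk).2.1, (hU k hk).2.2.1⟩) p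
  have q3 := A.wt_le_25 (U := U.filter fun k => M.s k ≤ ℓ) (p := 0) (q := ℓ) l0 fun k hk => by
      obtain ⟨k1, k2⟩ := Finset.mem_filter.1 hk
      exact ⟨(hU k k1).1, (hU k k1).2.1.trans_lt h1, s_nn A.cl k, k2⟩
  rw [sub_zero] at q3
  have q4 := mul_le_mul_of_nonneg_left q1 (show (0 : ℝ) ≤ 2 ^ (p + 1) by positivity)
  have q6 := mul_le_mul_of_nonneg_left q3 (show (0 : ℝ) ≤ ℓ ^ (p + 1) by positivity)
  refine le_trans ?_ (add_le_add q4 q6)
  rw [Finset.sum_filter, Finset.mul_sum, Finset.mul_sum, ← Finset.sum_add_distrib]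
  refine Finset.sum_le_sum fun k hk => ?_
  obtain ⟨k1, k2, k3, k5, k4⟩ := hU k hk
  have w0 := A.dz_nn k
  have kp : k ≤ S.Jp := by have := A.cl.i3; omega
  set w := M.z k - M.z (k - 1)
  set d := |Pp.Area50.cl a' (M.s k0) (sb M m a (k + 1)) - M.s k|
  have d0 : 0 ≤ d := abs_nonneg _
  have n1 : 0 ≤ 2 ^ (p + 1) * (w * d ^ (p + 1)) := by positivity
  have n3 : 0 ≤ ℓ ^ (p + 1) * (if M.s k ≤ ℓ then w else 0) :=
    mul_nonneg (by positivity) (by split_ifs <;> positivity)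
  rcases abs_le_cl (y := 0) (ℓ := ℓ) ⟨k3, A.cl.sm k2⟩ (A.sb_mem kp).1 (by linarith) k4 with
    z | ⟨-, z⟩ | ⟨z1, z⟩
  · have := mul_le_mul_of_nonneg_left (pow_le_pow_left₀ (abs_nonneg _) z (p + 1)) w0
    rw [mul_pow, mul_left_comm] at this
    linarith
  · have := mul_le_mul_of_nonneg_left (pow_le_pow_left₀ (abs_nonneg _) z (p + 1)) w0
    rw [mul_zero, zero_pow (Nat.succ_ne_zero p), mul_zero] at this
    linarith
  · have := mul_le_mul_of_nonneg_left (pow_le_pow_left₀ (abs_nonneg _) z (p + 1)) w0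
    rw [if_pos z1] at *
    linarith

set_option maxHeartbeats 800000 in
/-- **blocks below an upper cut** -/
theorem El.two (E : El S M m a T a0 a1 b t0 ℓ En) (A : At S M m a T) (hC : S.C ≤ B) (hT : T ≤ B)
    (hθ : S.θ ≤ 1) {t t' : ℝ} (h1 : t0 ≤ t) (h2 : t ≤ t') (g1 : 16 * S.C ^ 2 * S.v ≤ b - t')
    (g2 : 262144 * S.C ^ 2 * En < (b - t') ^ 5) :
    ∑ k ∈ M.blk S t t', dx M k * M.del m a k ^ 2 ≤
      10 ^ 8 * B ^ 12 * (min (√(t' * En)) (En / mf S t) + GS M S t t' + 1 / (S.n : ℝ) ^ 2) := by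
  have C0 := A.c_pos
  have C1 := A.cl.C1
  have B1 := C1.trans hC
  have E0 := E.En0
  have v0 := v_pos A.cl
  have n1 : (1 : ℝ) ≤ S.n := by exact_mod_cast A.cl.n1
  have t1 : 0 ≤ t := ((s_nn A.cl _).trans E.jl.le).trans h1
  have m0 := mf_pos A t1
  have sT := A.sJ_T
  have bJ := E.bJ
  have a00 := E.a00
  have a01 := E.a01
  have a1t := E.a1t
  set q := 1 / (S.n : ℝ) ^ 2 with hq
  have q0 : 0 < q := by positivity
  have qw : 1 / (S.n : ℝ) ^ 4 = q ^ 2 := by rw [hq]; field_simp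
  have q1 : q ≤ 1 := by rw [hq, div_le_one (by positivity)]; exact one_le_pow₀ n1
  have w1 : 1 / (S.n : ℝ) ^ 4 ≤ 1 := by rw [qw]; exact pow_le_one₀ q0.le q1
  have l1 : ℓ ≤ 1 :=
    le_of_pow_le_pow_left₀ (n := 5) (by norm_num) zero_le_one (by simpa using E.l5.trans E.En1)
  have cv : S.C * S.v ≤ S.C ^ 2 * S.v := mul_le_mul_of_nonneg_right (by nlinarith) v0.le
  have cv0 : 0 < S.C * S.v := by positivity
  set g := b - t' with hg
  obtain ⟨k0, k1, k2, k3⟩ := A.cl.exists_node (t := t' + 3 * g / 4) (by linarith) (by linarith)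
  have k4 := (A.cl.ss k0 k1).2
  have k5 : S.j0 ≤ k0 := (A.idx (k := k0) (by linarith [E.j0a]) (by linarith)).1.le
  set U := M.blk S t t' with hU
  have mem : ∀ k ∈ U, S.jl < k ∧ k ≤ k0 ∧ t ≤ M.s k ∧ M.s k ≤ t' := fun k hk => by
    obtain ⟨-, h3, h4⟩ := Finset.mem_filter.1 hk
    exact ⟨lt_of_not_ge fun z => by linarith [A.cl.sm z, E.jl],
      le_of_not_gt fun z => by linarith [A.cl.sm z.le], h3, h4⟩
  have j0 : ∀ k ∈ U, S.j0 < k := fun k hk => A.cl.i1.trans_lt (mem k hk).1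
  have loc : ∀ k ∈ U, sb M m a (k + 1) ≤ M.s k0 := fun k hk => by
    obtain ⟨m1, m2, m3, m4⟩ := mem k hk
    by_contra hn
    have hn := not_le.1 hn
    have gp := Lab36.gap_neg A.LB_u (u := t' + g / 4) (ℓ := g / 4) (κ := g / (8 * S.C))
      (by linarith) (by linarith) (by linarith) (div_nonneg (by linarith) (by positivity))
      fun r r1 r2 => by
        have z1 : lvr 1 (lb M S m a T) r ≤ M.z k := by
          rw [← A.lvb_node m1.le (by have := A.cl.i3; omega)]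
          exact Sc48.lvr_mono A.okb.1.1 (by linarith)
        have z2 := (A.sl (b' := r) (by linarith) _ r (s_nn A.cl k) (by linarith) le_rfl).1
        rw [A.lvh_node (j0 k hk).le (by omega)] at z2
        have z3 : g / (8 * S.C) ≤ 1 / S.C * (r - M.s k) - S.C * S.v := by
          rw [div_le_iff₀ (by positivity)]
          have : (1 / S.C * (r - M.s k) - S.C * S.v) * (8 * S.C) =
              8 * (r - M.s k) - 8 * (S.C ^ 2 * S.v) := by field_simp
          linarith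
        linarith
    have g3 := int_sub_le A.LB_J2 a00 (show a0 ≤ t' + g / 4 by linarith)
      (show t' + g / 4 ≤ t' + g / 4 + g / 4 by linarith) (show t' + g / 4 + g / 4 ≤ b by linarith)
      (by linarith) fun _ _ _ => sq_nonneg _
    have g4 : (g / (8 * S.C)) ^ 2 * (g / 4) ^ 3 / 64 = g ^ 5 / (262144 * S.C ^ 2) := by
      field_simp; ring
    have g5 := (gp.trans g3).trans E.en
    rw [g4, div_le_iff₀ (by positivity)] at g5
    linarith
  have y3 : (0 : ℝ) ^ 3 ≤ 9 * (65 * B ^ 2 * En + B ^ 3 * (1 / (S.n : ℝ) ^ 4)) := by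
    rw [zero_pow (by norm_num)]; positivity
  have s1 : ∑ k ∈ U, (M.z k - M.z (k - 1)) * |sb M m a (k + 1) - M.s k| ^ 2 ≤
      2500 * B ^ 7 * (√(t' * En) + q) := by
    have hb : a1 ≤ M.s k0 := by linarith
    have p := win_loc A k5 k1 E.j0a hb E.l0 (U := U) (fun k hk => by
      obtain ⟨m1, m2, m3, m4⟩ := mem k hk
      exact ⟨j0 k hk, m2, by linarith, loc k hk, E.low k (by omega) (by linarith)⟩) 3
    have i4 := A.ut_four k5 k1 a00 a01 hb (B0 := b) (by linarith) (by linarith)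
      fun r hr => E.room r hr.1 (by linarith [hr.2])
    have r := num4 B1 C0.le hC A.T_nn hT v0.le E.v4 w1 le_rfl (by linarith) E0 y3 E.l0 l1
      E.l5 E.en (d := M.s k0 - a1) (by linarith) (by linarith) i4
    have p4 : ∑ k ∈ U, (M.z k - M.z (k - 1)) * |sb M m a (k + 1) - M.s k| ^ 4 ≤
        3000000 * B ^ 12 * (En + q ^ 2) := by
      rw [← qw]
      refine p.trans (le_of_eq_of_le ?_ r)
      norm_num
    have p := cs_25 (U := U) (f := fun k => |sb M m a (k + 1) - M.s k|) A.dz_nn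
    have W1 := A.wt_one_25 (U := U) fun k hk =>
      ⟨by have := j0 k hk; omega, by have := (mem k hk).2.1; have := A.cl.i3; omega⟩
    have W3 := wt_blk A hC (t' := t') (by linarith [E.jl]) (U := U) fun k hk =>
      ⟨j0 k hk, (mem k hk).2.1.trans_lt k1, (mem k hk).2.2.2⟩
    have W0 : 0 ≤ ∑ k ∈ U, (M.z k - M.z (k - 1)) := Finset.sum_nonneg fun k _ => A.dz_nn k
    set W := ∑ k ∈ U, (M.z k - M.z (k - 1))
    have r0 := Real.sqrt_nonneg (t' * En)
    have t2 : 0 ≤ t' := by linarith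
    have r2 : √(t' * En) ^ 2 = t' * En := Real.sq_sqrt (mul_nonneg t2 E0)
    refine le_of_pow_le_pow_left₀ (n := 2) (by norm_num) (by positivity) (p.trans ?_)
    have a1 := mul_le_mul_of_nonneg_left p4 W0
    have a2 := mul_le_mul_of_nonneg_right W3 (show 0 ≤ 3000000 * B ^ 12 * En by positivity)
    have a3 := mul_le_mul_of_nonneg_right W1 (show 0 ≤ 3000000 * B ^ 12 * q ^ 2 by positivity)
    have a4 := mul_le_mul_of_nonneg_right (pow_le_pow_right₀ B1 (show 12 ≤ 14 by norm_num))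
      (sq_nonneg q)
    have a5 : 0 ≤ B ^ 14 * (√(t' * En) * q) := by positivity
    have a6 : 0 ≤ B ^ 14 * (t' * En) := by positivity
    have a7 : 0 ≤ B ^ 14 * q ^ 2 := by positivity
    have e : (2500 * B ^ 7 * (√(t' * En) + q)) ^ 2 = 6250000 * (B ^ 14 * (t' * En)) +
        12500000 * (B ^ 14 * (√(t' * En) * q)) + 6250000 * (B ^ 14 * q ^ 2) := by
      rw [mul_pow, add_sq, r2]; ring
    rw [e]
    linarith
  have s2 : ∑ k ∈ U, (M.z k - M.z (k - 1)) * |sb M m a (k + 1) - M.s k| ^ 2 ≤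
      2500 * B ^ 7 * (En / mf S t + q) := by
    have at' : max a1 (t / 2) ≤ t := max_le (a1t.trans h1) (by linarith)
    have am := le_max_left a1 (t / 2)
    have am' := le_max_right a1 (t / 2)
    have hb : max a1 (t / 2) ≤ M.s k0 := by linarith
    have lt0 : 0 ≤ (if t ≤ ℓ then ℓ else 0) := by split_ifs; exacts [E.l0, le_rfl]
    have lt1 : (if t ≤ ℓ then ℓ else 0) ≤ 1 := by split_ifs; exacts [l1, zero_le_one]
    have lt3 : (if t ≤ ℓ then ℓ else 0) ^ 3 ≤ En / mf S t := by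
      split_ifs with c
      · rw [le_div_iff₀ m0]
        have := mul_le_mul_of_nonneg_right (mf_mono A c) (pow_nonneg E.l0 3)
        linarith [E.l3]
      · simpa using by positivity
    have p := win_loc A k5 k1 (E.j0a.trans am) hb lt0 (U := U) (fun k hk => by
      obtain ⟨m1, m2, m3, m4⟩ := mem k hk
      refine ⟨j0 k hk, m2, at'.trans m3, loc k hk, ?_⟩
      rcases le_total a1 (t / 2) with c | c
      · rw [max_eq_right c]; exact .inr (.inl (by linarith))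
      · rw [max_eq_left c]
        refine (E.low k (by omega) (h1.trans m3)).imp_right (Or.imp_right fun z => ?_)
        rwa [if_pos (m3.trans z)]) 1
    have lu : LB T (uu M S m a T) := A.LB_u
    have lm : LB T fun r => mf S r * uu M S m a T r ^ 2 := (LB.of_mono (mf_mono A)).mul lu.sq
    have X0 : 0 ≤ En / mf S t := by positivity
    have i2 : ∫ r in max a1 (t / 2)..M.s k0, |ut M S m a T k0 r| ^ 2 ≤
        (5 + S.C) * (En / mf S t) + S.C * S.v * T := by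
      simp only [sq_abs]
      have p := int_mono ((LB.const (mf S t / 4)).mul (A.LB_ut k0).sq) lm (by linarith) hb
        (by linarith) fun r r1 r2 => mul_le_mul
          (by linarith [mf_half A t1, mf_mono A (show t / 2 ≤ r by linarith)])
          (A.ut_sign (A.zh_node_25 k5 k1 r2.le)).2.2.2.1 (sq_nonneg _) (mf_pos A (by linarith)).le
      rw [intervalIntegral.integral_const_mul] at p
      have q := int_sub_le lm (by linarith) am hb (show M.s k0 ≤ b by linarith) (by linarith)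
        fun r r1 _ => mul_nonneg (mf_pos A (by linarith)).le (sq_nonneg _)
      have : ∫ r in max a1 (t / 2)..M.s k0, ut M S m a T k0 r ^ 2 ≤ 4 * (En / mf S t) := by
        rw [← mul_div_assoc, le_div_iff₀ m0]
        linarith [E.mass]
      have c1 := mul_nonneg C0.le X0
      have c2 : 0 ≤ S.C * S.v * T := mul_nonneg cv0.le A.T_nn
      linarith
    have EX : En ≤ En / mf S t := le_div_self E0 m0 ((mf_θ A t1).trans hθ)
    have r := num2 B1 C0.le hC A.T_nn hT v0.le E.v4 w1 le_rfl (by linarith) E0 EX y3 lt0 lt1 lt3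
      (d := M.s k0 - max a1 (t / 2)) (by linarith) (by linarith) i2
    have z : 2500 * B ^ 7 * (En / mf S t + 1 / (S.n : ℝ) ^ 4) ≤ 2500 * B ^ 7 * (En / mf S t + q) :=
      mul_le_mul_of_nonneg_left (by rw [qw]; nlinarith) (by positivity)
    refine p.trans (le_of_eq_of_le ?_ (r.trans z))
    norm_num
  have s3 : ∑ k ∈ U, (M.z k - M.z (k - 1)) * |sb M m a (k + 1) - M.s k| ^ 2 ≤
      2500 * B ^ 7 * (min (√(t' * En)) (En / mf S t) + q) := by
    rcases min_choice (√(t' * En)) (En / mf S t) with c | c <;> rwa [c]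
  have kp : ∀ k ∈ U, k ≤ S.Jp := fun k hk => by have := (mem k hk).2.1; have := A.cl.i3; omega
  have d1 := A.sum_del kp 1
  obtain ⟨c0, c1⟩ := cm_le A hC
  have c2 : (S.C / (m + 1)) ^ 2 ≤ B ^ 2 * q :=
    (pow_le_pow_left₀ c0 c1 2).trans_eq (by rw [hq]; field_simp)
  have W1 := A.wt_one_25 (U := U) fun k hk => ⟨by have := j0 k hk; omega, kp k hk⟩
  have d2 : ∑ k ∈ U, (M.z k - M.z (k - 1)) * (|M.G k| + S.C / (m + 1)) ^ 2 ≤
      2 * ∑ k ∈ U, (M.z k - M.z (k - 1)) * M.G k ^ 2 +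
        (∑ k ∈ U, (M.z k - M.z (k - 1))) * (2 * (B ^ 2 * q)) := by
    rw [Finset.mul_sum, Finset.sum_mul, ← Finset.sum_add_distrib]
    refine Finset.sum_le_sum fun k _ => ?_
    have := mul_le_mul_of_nonneg_left (show (|M.G k| + S.C / (m + 1)) ^ 2 ≤
      2 * M.G k ^ 2 + 2 * (B ^ 2 * q) by
        linarith [sq_nonneg (|M.G k| - S.C / (m + 1)), sq_abs (M.G k)]) (A.dz_nn k)
    linarith
  have d3 := mul_le_of_le_one_left (show 0 ≤ 2 * (B ^ 2 * q) by positivity) W1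
  have d4 : ∑ k ∈ U, (M.z k - M.z (k - 1)) * M.G k ^ 2 ≤ GS M S t t' :=
    Finset.sum_le_sum_of_subset_of_nonneg (fun k hk => by
      obtain ⟨m1, m2, m3, m4⟩ := mem k hk
      exact Finset.mem_filter.2 ⟨Finset.mem_Ioo.2 ⟨m1, by omega⟩, m3, m4⟩)
      fun k _ _ => mul_nonneg (A.dz_nn k) (sq_nonneg _)
  have G0 := GS_nn A.cl t t'
  have X0 : 0 ≤ min (√(t' * En)) (En / mf S t) := le_min (Real.sqrt_nonneg _) (by positivity)
  simp only [show (1 + 1 : ℕ) = 2 from rfl, sq_abs, pow_one] at d1 s3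
  simp only [dx, Md.del]
  generalize min (√(t' * En)) (En / mf S t) = X at *
  have pw : ∀ i, i ≤ 12 → B ^ i ≤ B ^ 12 := fun i hi => pow_le_pow_right₀ B1 hi
  have f1 := mul_le_mul_of_nonneg_right (pw 7 (by norm_num)) X0
  have f2 := mul_le_mul_of_nonneg_right (pw 7 (by norm_num)) q0.le
  have f3 := mul_le_mul_of_nonneg_right (pw 2 (by norm_num)) q0.le
  have f4 := mul_le_mul_of_nonneg_right (pw 0 (by norm_num)) G0
  have f5 : 0 ≤ B ^ 12 * X := by positivity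
  have f6 : 0 ≤ B ^ 12 * q := by positivity
  linarith

end Crest.Agent.T156.Alt.L25

end
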