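import Crest.Agent.T156.TL1cB_74
import Crest.Agent.T156.RtN_93
import Crest.Agent.T156.LOc_25

/-!
# Row 156, block (L): (TL1cx) from the bulk output (helper74)
-/

set_option autoImplicit false

noncomputable section

namespace Crest.Agent.T156.Alt.C74

open MeasureTheory Set Real
open Crest.Agent.R164.GC Crest.Agent.R339.B Crest.Agent.R339.Var Crest.Agent.T157.Pf
open Crest.Agent.T156.Zb9
open Crest.Agent.T156.Cut8 (LB Res Jf int_split int_mono int_le_const int_sub_le Fr EU)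
open Crest.Agent.T156.Alt.Mp9 Crest.Agent.T156.Alt.L69

variable {S : Sc} {M : Md} {m : ℕ} {a : ℝ}

theorem cB_nn (h : Cl S M) (η : ℝ → ℝ) (t t' : ℝ) : 0 ≤ cB M S η t t' :=
  Finset.sum_nonneg fun k _ => mul_nonneg (L25.dx_nn h k) (add_nonneg
    (mul_nonneg (zero_le_one.trans (Ab33.cr_one S _))
      (div_nonneg (sq_nonneg _) (L25.mf_pos' h (h.s_nn k)).le))
    (le_min (by positivity) (div_nonneg (sq_nonneg _) (L25.mf_pos' h (h.s_nn k)).le)))

theorem L4_nn (h : Cl S M) {V X t0 t1 Y : ℝ} (V0 : 0 ≤ V) (X0 : 0 ≤ X) (h0 : 0 < t0) (h1 : t0 ≤ t1)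
    (H : L4 S V X t0 t1 Y) : 0 ≤ Y := by
  refine le_trans ?_ (H t0 le_rfl h1)
  have c : 0 ≤ cl S V t0 := add_nonneg (mul_nonneg (zero_le_one.trans (Ab33.cr_one S _)) h0.le) V0
  have w : 0 ≤ S.w3 t0 := div_nonneg (by linarith [h.F1])
    (mul_nonneg (mul_nonneg h.N0.le h0.le) (h.ms_pos h0.le).le)
  have : 0 ≤ ws S V t0 := mul_nonneg (div_nonneg c h0.le) (rpow_nonneg w _)
  have : 0 ≤ min X (cl S V t0 ^ 3) := le_min X0 (by positivity)
  positivity

theorem pow_le_E {L F E : ℝ} (L1 : 1 ≤ L) (F1 : 1 ≤ F) (hL : L ^ 1000 ≤ E) (hF : F ^ 40 ≤ E) :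
    L ^ 62 * F ^ 12 ≤ E := by
  have E1 : 1 ≤ E := (one_le_pow₀ L1).trans hL
  refine le_of_pow_le_pow_left₀ (n := 10) (by norm_num) (by linarith) ?_
  calc (L ^ 62 * F ^ 12) ^ 10 = L ^ 620 * (F ^ 40) ^ 3 := by ring
    _ ≤ E ^ 7 * E ^ 3 := mul_le_mul (((pow_le_pow_right₀ L1 (by norm_num)).trans hL).trans
        (le_self_pow₀ E1 (by norm_num))) (pow_le_pow_left₀ (by positivity) hF 3) (by positivity)
        (by positivity)
    _ = E ^ 10 := by ring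

/-- the output of the level `t` -/
theorem out (C c : ℝ) (c0 : 0 < c) : ∃ K : ℝ, 1 ≤ K ∧ ∀ {S : Sc} {M : Md} {m : ℕ}
    {a G1 θ0 L l X X2 Eg s ρ t En I2 : ℝ} {η r1 r2 ω β f : ℝ → ℝ} {u : ℕ},
    At S M m a (2 * C) → S.C = C → CeiG S M G1 →
    (∀ t t', 0 ≤ t → t ≤ t' → S.ms t' ≤ S.ms t + t' ^ 2) → K ≤ L →
    Bo S M m a (2 * C) θ0 L l X X2 Eg η u s ρ r1 r2 ω β f →
    Nl S M m a (2 * C) L l X X2 η t (L ^ 60 * S.F ^ 12 * En) En I2 →
    EE M S m a (2 * C) c u (2 * t) ≤ 16 * (L * (L ^ 60 * S.F ^ 12 * En)) →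
    S.v ≤ 1 / (S.n : ℝ) ^ 4 → 2 * M.s S.jl ≤ l → ∀ t0 t', l ≤ t0 → t0 ≤ t' → t' ≤ t →
    ∑ k ∈ M.blk S t0 t', dx M k * M.del m a k ^ 2 ≤ L ^ 64 * S.F ^ 12 *
      (min (√(t' * En)) (En / mf S t0) + GS M S t0 t' + 1 / (S.n : ℝ) ^ 2) := by
  obtain ⟨K0, K1, HR⟩ := root_bd rtN C
  obtain ⟨Rk, hRk⟩ : ∃ x, x = 2 + 32 / c := ⟨_, rfl⟩
  have Rk0 : 0 < Rk := by rw [hRk]; positivity
  have p1 : 0 ≤ 2 ^ 26 * C ^ 8 * Rk := by positivity
  have p2 : 0 ≤ 9 * C ^ 2 * Rk := by positivity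
  have p3 : 0 ≤ 12288 * C ^ 6 := by positivity
  refine ⟨K0 + 2 ^ 26 * C ^ 8 * Rk + 9 * C ^ 2 * Rk + 12288 * C ^ 6 + Rk, by linarith, ?_⟩
  intro S M m a G1 θ0 L l X X2 Eg s ρ t En I2 η r1 r2 ω β f u A hC E sub hL Z N hE v4 jl t0 t' h0
    h1 h2
  subst hC
  have C1 := A.cl.C1
  have C0 := A.c_pos
  have F1 := A.cl.F1
  have c2 : 1 ≤ S.C ^ 2 := one_le_pow₀ C1
  have cp : ∀ i ≤ 6, S.C ^ i ≤ S.C ^ 6 := fun i hi => pow_le_pow_right₀ C1 hi
  have c1 : S.C ≤ S.C ^ 6 := le_self_pow₀ C1 (by norm_num)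
  obtain ⟨L1, a1, a4, a5, a2, a3, a6, -, -, -, a10⟩ := N.basic A.cl (by linarith [cp 2 (by norm_num)])
  obtain ⟨b1, b2, hR0⟩ := HR c0 A rfl E sub (by linarith) Z N hE
  rw [← hRk] at hR0
  have y2 := N.y2
  have l0 := N.l0
  obtain ⟨y, hy⟩ : ∃ y, y = L ^ 60 * S.F ^ 12 * En := ⟨_, rfl⟩
  rw [← hy] at hR0 hE y2 a10
  have y0 : 0 ≤ y := by rw [hy]; positivity
  have x0 := (A.sb_mem (Z.uJ.le.trans A.cl.i3)).1
  have sJ := Z.s1.2
  have sT := sJ.le.trans A.sJ_T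
  have δ0 : 0 < S.C * S.v := mul_pos C0 A.cl.v0
  have ll : l ≤ L * l := le_mul_of_one_le_left l0.le L1
  have d1 := mul_le_mul_of_nonneg_right c2 δ0.le
  have rD := root_D A (x := sb M m a (u + 1) + L * l) Z.ju Z.uJ (by linarith) (by linarith)
    (by linarith [Z.su.2]) (by linarith)
  obtain ⟨eJ, eH⟩ := EE_J A c0 Z.uJ (show _ ≤ 2 * t by linarith) hE
  have e16 : t / (16 * S.C) * (16 * S.C) = t := by field_simp
  obtain ⟨-, -, μ1, -, -⟩ := nums1 C1 δ0 a5 a2 a3 a10 (by linarith [cp 3 (by norm_num)]) e16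
  have Ly : y ≤ L * y := le_mul_of_one_le_left y0 L1
  have hW : 2 / c * (16 * (L * y)) + (S.C * S.v) ^ 2 * (2 * S.C) ^ 3 + (S.C * S.v) ^ 4 * (2 * S.C) ≤
      Rk * (L * y) := by
    have : 2 / c * (16 * (L * y)) = 32 / c * (L * y) := by ring
    have : 0 ≤ S.C * S.v / S.C := by positivity
    rw [hRk]; linarith
  have t5 : 0 < t ^ 5 := pow_pos (by linarith) 5
  have key := A.loc_two_74 (t := t) (t0 := t0) (t' := t') (by linarith) eJ
    (fun x x0 xb => mass_loc A Z.uJ Z.R.lH (by linarith) (by linarith) rD.2.2 x0 xb) (by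
      refine lt_of_mul_lt_mul_left ?_ (show 0 ≤ L by linarith)
      have q1 := mul_le_mul_of_nonneg_left hW (show 0 ≤ L * (2 ^ 25 * S.C ^ 8) by positivity)
      have q2 := mul_le_mul_of_nonneg_left y2 (show 0 ≤ 2 ^ 25 * S.C ^ 8 * Rk by positivity)
      have q3 := mul_lt_mul_of_pos_right (show 2 ^ 25 * S.C ^ 8 * Rk < L by linarith) t5
      linarith)
    (by linarith [mul_le_mul_of_nonneg_right (le_self_pow₀ C1 two_ne_zero) δ0.le]) (by linarith) h1 h2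
  refine key.trans ?_
  have m0 := A.ms_pos (show 0 ≤ t0 by linarith)
  have mA := A.ms_pos x0
  have t'0 : 0 ≤ t' := by linarith
  have P1 : 1 ≤ L ^ 64 * S.F ^ 12 := one_le_mul_of_one_le_of_one_le (one_le_pow₀ L1) (one_le_pow₀ F1)
  have LP : L ≤ L ^ 64 * S.F ^ 12 := (le_self_pow₀ L1 (by norm_num)).trans
    (le_mul_of_one_le_right (by positivity) (one_le_pow₀ F1))
  have s1 : 4096 * S.C ^ 5 * √(t' * (2 / c * (16 * (L * y)) + (S.C * S.v) ^ 2 * (2 * S.C) ^ 3 +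
      (S.C * S.v) ^ 4 * (2 * S.C))) ≤ L ^ 64 * S.F ^ 12 * √(t' * En) := by
    have q1 : t' * (Rk * (L * y)) ≤ (L ^ 31 * S.F ^ 6) ^ 2 * (t' * En) := by
      have := mul_le_mul_of_nonneg_right (show Rk ≤ L by linarith)
        (show 0 ≤ t' * (L * y) by positivity)
      calc _ ≤ L * (t' * (L * y)) := by linarith
        _ = _ := by rw [hy]; ring
    have q2 := sqrt_le_sqrt ((mul_le_mul_of_nonneg_left hW t'0).trans q1)
    rw [sqrt_mul (sq_nonneg _), sqrt_sq (by positivity)] at q2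
    have q3 : 4096 * S.C ^ 5 * (L ^ 31 * S.F ^ 6) ≤ L ^ 64 * S.F ^ 12 := by
      calc _ ≤ L * (L ^ 31 * S.F ^ 6) := by gcongr; linarith [cp 5 (by norm_num)]
        _ = L ^ 32 * S.F ^ 6 := by ring
        _ ≤ _ := by gcongr <;> norm_num
    calc _ ≤ 4096 * S.C ^ 5 * (L ^ 31 * S.F ^ 6 * √(t' * En)) := by gcongr
      _ = 4096 * S.C ^ 5 * (L ^ 31 * S.F ^ 6) * √(t' * En) := by ring
      _ ≤ _ := by gcongr
  have s2 : 128 * S.C * ((S.ms (sb M m a (u + 1)) * (sb M m a (u + 1) *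
      (3 * S.C * (sb M m a (u + 1) + L * l)) ^ 2) + 384 * S.C ^ 5 * S.F *
      ∫ r in sb M m a (u + 1)..2 * t, HH M S m a (2 * S.C) r * uu M S m a (2 * S.C) r) / S.ms t0) ≤
      L ^ 64 * S.F ^ 12 * (En / mf S t0) := by
    generalize ∫ r in sb M m a (u + 1)..2 * t, HH M S m a (2 * S.C) r * uu M S m a (2 * S.C) r = I at *
    generalize S.ms (sb M m a (u + 1)) = w at *
    generalize sb M m a (u + 1) = x at *
    have hx : x ≤ x + L * l := by linarith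
    generalize x + L * l = z at *
    have z0 : 0 ≤ z := x0.trans hx
    have q1 : w * (x * (3 * S.C * z) ^ 2) ≤ 9 * S.C ^ 2 * (Rk * y) := by
      have r1 : z ^ 3 * w ≤ Rk * y := le_trans (mul_le_mul_of_nonneg_left
        (by linarith [sq_nonneg z, sq_nonneg (ts S l)]) (pow_nonneg z0 3)) hR0
      calc _ ≤ w * (z * (3 * S.C * z) ^ 2) := by gcongr
        _ = 9 * S.C ^ 2 * (z ^ 3 * w) := by ring
        _ ≤ _ := by gcongr
    have q2 := mul_le_mul_of_nonneg_left eH (show 0 ≤ 384 * S.C ^ 5 * S.F by positivity)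
    have FL : y ≤ S.F * (L * y) := Ly.trans (le_mul_of_one_le_left (by positivity) F1)
    have q3 := mul_le_mul_of_nonneg_left FL p2
    have q4 := mul_le_mul_of_nonneg_right (show 9 * S.C ^ 2 * Rk + 12288 * S.C ^ 5 ≤ L by
      linarith [cp 5 (by norm_num)]) (show 0 ≤ S.F * (L * y) by positivity)
    have q5 : w * (x * (3 * S.C * z) ^ 2) + 384 * S.C ^ 5 * S.F * I ≤ L * (S.F * (L * y)) := by
      linarith
    have q6 : En / mf S t0 = S.F * En / S.ms t0 := by unfold mf; field_simp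
    rw [q6, ← mul_div_assoc, ← mul_div_assoc]
    refine div_le_div_of_nonneg_right ?_ m0.le
    calc _ ≤ L * (L * (S.F * (L * y))) := (mul_le_mul_of_nonneg_left q5 (by positivity)).trans
          (mul_le_mul_of_nonneg_right (by linarith) (by positivity))
      _ = L ^ 63 * S.F ^ 12 * (S.F * En) := by rw [hy]; ring
      _ ≤ _ := by gcongr; norm_num
  have n1 : (1 : ℝ) ≤ S.n := by exact_mod_cast A.cl.n1
  have n2 : 0 < 1 / (S.n : ℝ) ^ 2 := by positivity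
  have s3 : S.v ^ 2 ≤ 1 / (S.n : ℝ) ^ 2 := by
    have q1 : S.v ≤ 1 / (S.n : ℝ) :=
      v4.trans (one_div_le_one_div_of_le (by linarith) (le_self_pow₀ n1 (by norm_num)))
    have := pow_le_pow_left₀ A.cl.v0.le q1 2
    rwa [div_pow, one_pow] at this
  have s4 : (S.C / (m + 1)) ^ 2 ≤ S.C ^ 2 * (1 / (S.n : ℝ) ^ 2) := by
    have q1 : (S.n : ℝ) ≤ m + 1 := by
      have : (S.n : ℝ) ≤ m := by exact_mod_cast A.mem.m1
      linarith
    rw [div_pow, mul_one_div]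
    gcongr
  have s5 := mul_le_mul_of_nonneg_left s3 (show 0 ≤ 64 * S.C ^ 4 by positivity)
  have s6 := mul_le_mul_of_nonneg_right (show 64 * S.C ^ 4 + 4 * S.C ^ 2 ≤ L ^ 64 * S.F ^ 12 by
    linarith [cp 4 (by norm_num), cp 2 (by norm_num)]) n2.le
  have s7 := mul_le_mul_of_nonneg_right (show 4 ≤ L ^ 64 * S.F ^ 12 by
    linarith [cp 0 (by norm_num), pow_zero S.C]) (L25.GS_nn A.cl t0 t')
  have e0 : 0 ≤ 32 * S.C * ((S.C * S.v) ^ 2 * (2 * S.C)) := by positivity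
  rw [mul_add (L ^ 64 * S.F ^ 12), mul_add (L ^ 64 * S.F ^ 12), mul_min_of_nonneg _ _ (by linarith)]
  have := min_le_min (s1.trans (le_add_of_nonneg_right e0)) (add_le_add s2 (le_refl
    (32 * S.C * ((S.C * S.v) ^ 2 * (2 * S.C)))))
  rw [min_add_add_right] at this
  linarith

set_option maxHeartbeats 1000000 in
theorem tl1cx_of (h : BoS) : TL1cx := by
  have key : ∀ C : ℝ, ∃ θ0 K c : ℝ, 0 < θ0 ∧ θ0 ≤ 1 ∧ 0 < c ∧ (1 ≤ C → ∀ {S : Sc} {M : Md} {m : ℕ}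
      {a G1 L l X X2 Eg s ρ t y En I2 : ℝ} {η r1 r2 ω β f : ℝ → ℝ} {u : ℕ},
      At S M m a (2 * C) → S.C = C → CeiG S M G1 →
      (∀ t t', 0 ≤ t → t ≤ t' → S.ms t' ≤ S.ms t + t' ^ 2) → K ≤ L →
      Bo S M m a (2 * C) θ0 L l X X2 Eg η u s ρ r1 r2 ω β f →
      Nl S M m a (2 * C) L l X X2 η t y En I2 → EE M S m a (2 * C) c u (2 * t) ≤ 16 * (L * y) →
      EE M S m a (2 * C) c u t ≤ L * y) := fun C => by
    by_cases C1 : 1 ≤ C
    · obtain ⟨B, B1, H⟩ := Gap27.hlip (2 * C)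
      have F := (H _ le_rfl).2.2.2.2.2
      obtain ⟨θ0, K, a, b, -, d⟩ := step rtN C _ B C1 B1 F
      exact ⟨θ0, K, _, a, b, F.c_pos, fun _ => d⟩
    · exact ⟨1, 1, 1, one_pos, le_rfl, one_pos, fun c => absurd c C1⟩
  choose θ K c θ0 θ1 c0 st using key
  have gen : ∀ R : CP, CL (fun E Λ S M m a => Cl S M → R E Λ S M m a) → CL R :=
    fun R H => H.mono fun _ _ _ _ _ _ _ _ c _ h => h c
  refine gen _ (CL.glue' (h θ fun C => ⟨θ0 C, θ1 C⟩) ?_ 5 (i := 1) le_rfl 1000 64 ?_)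
  · intro E Λ Λ' S M m a L1 hL H cl G1 u1 u2 j γ Lc ηc τ l X Xp Vt V2 Lg Lp X2 X3 X4 G0 η N' N t g En
      a1 a2 a3 a4 a5 a6 a7 a8 a9 a10 a11 t0 t' b1 b2 b3
    have := H cl G1 u1 u2 j γ Lc ηc τ l X Xp Vt V2 Lg Lp X2 X3 X4 G0 η N' N t g En
      a1 a2 a3 a4 a5 a6 a7 a8 a9 a10 a11 t0 t' b1 b2 b3
    have p := (Finset.sum_nonneg fun k _ => mul_nonneg (L25.dx_nn cl k) (sq_nonneg _)).trans this
    rw [mul_assoc] at this p ⊢
    exact this.trans (mul_le_mul_of_nonneg_right hL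
      (le_of_mul_le_mul_left (a := Λ) (by rwa [mul_zero]) (by linarith)))
  intro C A ε η' ε0 η0
  obtain ⟨K2, -, ho⟩ := out C (c C) (c0 C)
  refine ⟨max (max (K C) K2) (c C + 1), ?_⟩
  intro S M m a R hA hε hη cl I H _ G1 u1 u2 j γ Lc ηc τ l X Xp Vt V2 Lg Lp X2 X3 X4 G0 η N' N t g En
    ce ln l4 lp lc f40 ap ap2 ht0 ht1 hh
  rw [pow_one] at ln lp lc f40 ht0 ht1 hh
  have v4 := L25.v4_of R cl hA
  have L1 := R.Λ1
  have hK := R.K_le
  have CL := R.C2_le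
  have n1 := R.N1
  have hLE : ((S.n : ℝ) ^ η') ^ 1000 ≤ (S.n : ℝ) ^ ε := by
    rw [← rpow_natCast, ← rpow_mul R.N0.le]
    exact rpow_le_rpow_of_exponent_le n1.le (by push_cast at hε ⊢; linarith)
  have hLn : ((S.n : ℝ) ^ η') ^ 2 ≤ S.n := by
    rw [← rpow_natCast, ← rpow_mul R.N0.le]
    exact (rpow_le_rpow_of_exponent_le n1.le (by push_cast at hη ⊢; linarith)).trans_eq (rpow_one _)
  have L2 : 2 ≤ (S.n : ℝ) ^ η' := by linarith [R.num_le]
  have θ1' := R.θ1 cl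
  obtain ⟨u, s, ρ, r1, r2, ω, β, f, Z⟩ := H G1 u1 u2 j γ Lc ηc τ l X Xp Vt V2 Lg Lp X2 X3 X4 G0 η
    N' N ce ln l4 lp lc f40 hLE ap ap2
  have hC := R.hC
  generalize (S.n : ℝ) ^ η' = L at *
  generalize (S.n : ℝ) ^ ε = E at *
  subst hC
  have C1 := cl.C1
  have F1 := cl.F1
  have At' : At S M m a (2 * S.C) :=
    ⟨cl, I, by linarith [cl.b1, ln.HJ], by linarith [cl.sT]⟩
  have LE : 2 * L ≤ E := le_trans (by nlinarith only [L2])
    ((pow_le_pow_right₀ L1 (by norm_num : 2 ≤ 1000)).trans hLE)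
  have E0 : 0 < E := by linarith
  have sj := cl.s_pos (cl.i0.trans cl.i1)
  have jl : 2 * M.s S.jl ≤ l := le_trans (mul_le_mul_of_nonneg_right (by linarith) sj.le) ln.l0s
  have l0 : 0 < l := by linarith
  have l1 : l ≤ 1 := (le_mul_of_one_le_left l0.le (by linarith)).trans ln.l1
  have cc : l ≤ cr S l * l := le_mul_of_one_le_left l0.le (Ab33.cr_one S l)
  have t0 : 0 < t := lt_of_lt_of_le (mul_pos E0 (l0.trans_le cc)) ht0
  have W0' := W0_nn cl l0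
  have X40 := L4_nn cl (by linarith) ln.X0.le l0 (l1.trans C1) l4
  have N0 : 0 ≤ N := le_trans (div_nonneg (by
    have := L25.GP_nn cl
    have := L25.GS_nn cl (1 / (8 * S.C ^ 2)) S.C
    positivity) cl.θ0.le) lc.c2
  have cB0 := cB_nn cl η l
  obtain ⟨Eg, hEg⟩ : ∃ x, x = l ^ 5 + S.ms l * l ^ 3 + cB M S η l S.C + X2 ^ 2 + X4 + N := ⟨_, rfl⟩
  rw [← hEg] at Z hh
  have X2E : X2 ^ 2 ≤ Eg := by
    have := cB0 S.C
    unfold W0 at W0'
    linarith
  have Eg0 : 0 ≤ Eg := (sq_nonneg _).trans X2E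
  have me : L * (S.C * S.v) ≤ l ^ 5 := by
    have m0 := cl.ms_pos l0.le
    have q1 := ln.l0w
    unfold Sc.w3 at q1
    rw [div_le_iff₀ (by positivity)] at q1
    have q2 : 1 ≤ S.n * l ^ 4 := by
      have := mul_le_mul_of_nonneg_left ((cl.ms1 l).trans θ1') (show 0 ≤ S.n * l ^ 4 by positivity)
      linarith
    have q3 : 1 ≤ S.n * l := q2.trans (mul_le_mul_of_nonneg_left
      (pow_le_of_le_one l0.le l1 (by norm_num)) (by positivity))
    have q4 := one_le_mul_of_one_le_of_one_le q2 q3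
    rw [le_div_iff₀ (by positivity)] at v4
    have q5 : L * S.C ≤ S.n := by nlinarith only [hLn, CL, C1, L1]
    have q6 := mul_le_mul_of_nonneg_right q5 cl.v0.le
    have q7 : (S.n : ℝ) ^ 3 ≤ S.n ^ 4 := pow_le_pow_right₀ n1.le (by norm_num)
    have q8 := mul_le_mul_of_nonneg_left q7 cl.v0.le
    refine le_of_mul_le_mul_left ?_ (show (0 : ℝ) < S.n ^ 2 by positivity)
    have q9 := mul_le_mul_of_nonneg_left q6 (show (0 : ℝ) ≤ S.n ^ 2 by positivity)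
    linarith
  have pE := pow_le_E L1 F1 hLE f40
  have gJ := Z.gJ
  have io2 : io M S m a (2 * S.C) ^ 2 ≤ 2 * S.C * (L * S.F ^ 12 * Eg) := by
    have q := Cut8.int_abs_le (LB.of_cont (Lab36.jf_cont At'.LB_u At'.T_nn)) le_rfl At'.T_nn le_rfl gJ
    rw [sub_zero] at q
    have := pow_le_pow_left₀ (intervalIntegral.integral_nonneg At'.T_nn fun _ _ => abs_nonneg _) q 2
    rwa [sq_sqrt (by positivity)] at this
  have nl : ∀ r, t ≤ r → E * r ≤ 1 → Nl S M m a (2 * S.C) L l X X2 η r (L ^ 60 * S.F ^ 12 * En r)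
      (En r) (2 * S.C * (L * S.F ^ 12 * Eg)) := fun r h1 h2 => by
    obtain ⟨-, q2, q3, q4, q5, -, -⟩ := hh r h1 h2
    have r0 : 0 < r := t0.trans_le h1
    have p1 : 0 ≤ (η r + g r) ^ 2 / r := by positivity
    have p2 : 0 ≤ r * Eg := by positivity
    have p3 := cB0 (4 * r)
    have p4 : r * Eg ≤ En r := by unfold W0 at W0'; linarith
    have m4 := cl.ms_pos (show 0 ≤ 4 * r by linarith)
    refine ⟨l0, me, ((mul_le_mul_of_nonneg_right LE (by linarith)).trans ht0).trans h1,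
      (mul_le_mul_of_nonneg_right LE r0.le).trans h2, ?_, by unfold W0; linarith, by unfold W0; linarith,
      (mul_le_mul_of_nonneg_left X2E r0.le).trans p4, q4, le_rfl, ?_, io2, ?_⟩
    · have := pow_le_pow_left₀ (by positivity) q2 2
      rw [mul_pow, sq_sqrt m4.le] at this
      refine le_trans (mul_le_mul_of_nonneg_right ?_ m4.le) this
      rw [sq]
      exact mul_le_mul (by linarith) ((pow_le_pow_right₀ F1 (by norm_num)).trans f40)
        (by positivity) E0.le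
    · calc _ = L ^ 62 * S.F ^ 12 * En r := by ring
        _ ≤ E * En r := mul_le_mul_of_nonneg_right pE (p2.trans p4)
        _ ≤ _ := q3
    · calc _ = 2 * S.C * L * S.F ^ 12 * (r * Eg) := by ring
        _ ≤ L * L * S.F ^ 12 * En r := by gcongr
        _ = L ^ 2 * S.F ^ 12 * En r := by ring
        _ ≤ _ := by
          have := p2.trans p4
          gcongr
          norm_num
  have x0 := (At'.sb_mem (Z.uJ.le.trans cl.i3)).1
  have sT := Z.s1.2.le.trans At'.sJ_T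
  have top : ∀ r, t ≤ r → r ≤ 1 / E → 1 / E < 2 * r →
      EE M S m a (2 * S.C) (c S.C) u (2 * r) ≤ 16 * (L * (L ^ 60 * S.F ^ 12 * En r)) := by
    intro r h1 h2 h3
    rw [le_div_iff₀ E0] at h2
    rw [div_lt_iff₀ E0] at h3
    have N := nl r h1 (by linarith)
    have q1 := (hh r h1 (by linarith)).2.2.2.2.2.2 (by linarith)
    have b1 : sb M m a (u + 1) ≤ 2 * r := by
      have := N.t0
      have := Z.cru
      linarith
    have b2 : 2 * r ≤ s := le_of_mul_le_mul_left (by linarith [N.t1, Z.s1.1]) (show 0 < L by linarith)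
    have j1 := (int_sub_le At'.LB_J2 le_rfl le_rfl (x0.trans b1) (b2.trans sT) le_rfl
      fun _ _ _ => sq_nonneg _).trans gJ
    have j2 := (int_sub_le (Z.R.lH.mul At'.LB_u) x0 le_rfl b1 b2 sT
      fun x hx _ => Hu_nn At' (x0.trans hx.le)).trans Z.gH
    have j3 := mul_le_mul_of_nonneg_left j1 (c0 S.C).le
    have j4 : (c S.C + 1) * (L * S.F ^ 12 * Eg) ≤ L * (L ^ 60 * S.F ^ 12 * En r) := by
      have : L ≤ L ^ 60 := le_self_pow₀ L1 (by norm_num)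
      have := (le_max_right _ _).trans hK
      gcongr
    have j5 : 0 ≤ L * (L ^ 60 * S.F ^ 12 * En r) := by
      have := Eg0.trans q1
      positivity
    unfold EE EU
    linarith
  have dbl : ∀ r, t ≤ r → 2 * r ≤ 1 / E → L * (L ^ 60 * S.F ^ 12 * En (2 * r)) ≤
      16 * (L * (L ^ 60 * S.F ^ 12 * En r)) := fun r h1 h2 => by
    rw [le_div_iff₀ E0] at h2
    have r0 : 0 < r := t0.trans_le h1
    have := mul_le_mul_of_nonneg_left ((hh r h1 (by linarith [mul_pos r0 E0])).2.2.2.2.2.1 (by linarith))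
      (show 0 ≤ L * (L ^ 60 * S.F ^ 12) by positivity)
    linarith
  have all := Cut8.dyad (e := EE M S m a (2 * S.C) (c S.C) u)
    (a := fun r => L * (L ^ 60 * S.F ^ 12 * En r)) (t1 := 1 / E) t0
    (fun r h1 h2 h3 => st S.C C1 At' rfl ce ln.sub
      (((le_max_left _ _).trans (le_max_left _ _)).trans hK) Z
      (nl r h1 (by rw [le_div_iff₀ E0] at h2; linarith)) h3) dbl top
  refine ho At' rfl ce ln.sub (((le_max_right _ _).trans (le_max_left _ _)).trans hK) Z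
    (nl t le_rfl ht1) ?_ v4 jl
  rcases le_or_gt (2 * t) (1 / E) with h2 | h2
  · exact (all (2 * t) (by linarith) h2).trans (dbl t le_rfl h2)
  · exact top t le_rfl (by rw [le_div_iff₀ E0]; linarith) h2

end Crest.Agent.T156.Alt.C74

end
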