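import Crest.Agent.T156.TL2C_63

/-!
# Row 156, block (L): `TL2x`, `TL2y` from `TkA` and `TkE` (helper63)
-/

set_option autoImplicit false

noncomputable section

namespace Crest.Agent.T156.Alt.L63

open MeasureTheory Real Set
open Crest.Agent.T156.Alt.L69 Crest.Agent.T156.Alt.Mp9 Crest.Agent.T156.Cut8

variable {E L : ℝ} {S : Sc} {M : Md} {m : ℕ} {a G1 u1 u2 j γ Lc ηc τ l0 l X Xp Vt Lg Lp X2 X3 X4
  G0 : ℝ} {η : ℝ → ℝ} {N : ℝ} {g : ℝ → ℝ} {t1 tu ℓ En p0 : ℝ}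

/-- the conclusion of `TkE` -/
def TE (Λ : ℝ) (S : Sc) (M : Md) (m : ℕ) (a t1 u2 En : ℝ) : Prop :=
  ∀ D ε, (∀ t, t1 ≤ t → t ≤ 2 * t1 → |uq S M m a t| ≤ D ∧ Hq S M m a t ≤ D) →
    ∫ t in (0 : ℝ)..2 * t1, |Jq S M m a t| ≤ ε →
    ∫ t in 2 * t1..2 * S.C, Jq S M m a t ^ 2 ≤ Λ * (En + (S.ms t1 * D) ^ 2 / t1 + ε ^ 2) ∧
      LO Λ S M m a (2 * t1) u2 (En + (S.ms t1 * D) ^ 2 / t1 + ε ^ 2)

namespace Cx

variable (H : Cx E L S M m a G1 u1 u2 j γ Lc ηc τ l0 l X Xp Vt Lg Lp X2 X3 X4 G0 η N g t1 tu ℓ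
  En p0)
include H

/-- a located node in the middle of the thick zone -/
theorem exV0 : ∃ V, M.s V + ℓ / 4 ≤ tu ∧ sb M m a (V + 1) + ℓ / 4 ≤ tu ∧
    tu / (16 * S.C ^ 3) ≤ sb M m a (V + 1) ∧ 2 * t1 + ℓ / 8 ≤ sb M m a (V + 1) := by
  have C0 := H.cl.C0
  have C1 := H.cl.C1
  have t10 := H.t10
  have ℓu := H.ℓu
  have ℓ0 := H.ℓ0
  have vl := H.vl
  have t1a := H.lt.t1a
  have tu0 : 0 < tu := by linarith [H.t1u]
  set d := tu / (16 * S.C ^ 3) with hd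
  have C3 : 0 < 16 * S.C ^ 3 := by positivity
  have d0 : 0 < d := by positivity
  have d1 : d ≤ tu / 16 :=
    div_le_div_of_nonneg_left tu0.le (by norm_num) (by linarith [one_le_pow₀ C1 (n := 3)])
  have d3 : 4 * t1 ≤ d := by
    rw [hd, le_div_iff₀ C3]; linarith [H.dv (H.KE (c := 64) 3 (by norm_num)) t10.le H.lt.t1b]
  have d4 : ℓ ≤ d := by
    rw [hd, le_div_iff₀ C3]; linarith [H.dv (H.KE (c := 16) 3 (by norm_num)) ℓ0.le H.lt.ℓ2]
  have d5 : 2 * d ≤ 1 / (4 * S.C ^ 2) := by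
    rw [hd, ← mul_div_assoc, div_le_div_iff₀ C3 (by positivity)]
    nlinarith [mul_le_mul_of_nonneg_right H.tuC (sq_nonneg S.C), pow_pos C0 3]
  obtain ⟨V, -, k2, -, k4⟩ := H.cl.exists_node (t := 2 * d) (by linarith) (by linarith [H.lt.tu1])
  obtain ⟨p, q⟩ := H.dsb_cr (k := V) (by linarith) (by linarith)
  have := q (k2.trans d5)
  exact ⟨V, by linarith, by linarith, by linarith, by linarith⟩

set_option maxHeartbeats 1000000 in
/-- a located node near the top of the thick zone -/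
theorem exV1 (tp : TP E S M X Xp t1 tu ℓ En p0) {Λ : ℝ} (Λ1 : 1 ≤ Λ) (hΛ : Λ ≤ L ^ 14)
    (lo : LO Λ S M m a (2 * t1) u2 (En + t1 * p0 ^ 2)) :
    ∃ V, M.s V + ℓ / 4 ≤ tu ∧ sb M m a (V + 1) + ℓ / 4 ≤ tu ∧ tu - ℓ / 2 ≤ sb M m a (V + 1) := by
  have C0 := H.cl.C0
  have C1 := H.cl.C1
  have t10 := H.t10
  have ℓu := H.ℓu
  have ℓ0 := H.ℓ0
  have vℓ := H.vℓ
  have t1a := H.lt.t1a
  have t1u := H.t1u
  have tu1 := H.lt.tu1
  have v0 := H.cl.v0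
  have l0 := H.l0'
  have i3 := H.cl.i3
  have E1 := H.E1
  have cv := mul_pos C0 v0
  obtain ⟨p, -, p2, p3, p4⟩ := H.cl.exists_node (t := tu - 3 / 4 * ℓ) (by linarith) (by linarith)
  obtain ⟨V, -, v2, -, v4⟩ := H.cl.exists_node (t := tu - 3 / 8 * ℓ) (by linarith) (by linarith)
  obtain ⟨q, q1, q2, -, q4⟩ := H.cl.exists_node (t := tu - ℓ / 8) (by linarith) (by linarith)
  obtain ⟨p0', p1⟩ := H.idx (k := p) (by linarith) (by linarith)
  have p5 := (H.cl.ss p p1).2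
  have pV : p < V := lt_of_not_ge fun h => by linarith [H.cl.sm h]
  have Vq : V ≤ q := le_of_not_gt fun h => by linarith [H.cl.sm h.le]
  have pq := pV.le.trans Vq
  have j0 := H.cl.i1.trans p0'.le
  have mem : ∀ k, p < k → k ≤ q → tu - 3 / 4 * ℓ ≤ M.s k ∧ M.s k ≤ tu - ℓ / 8 := fun k a b =>
    ⟨p3.le.trans (H.cl.sm a), (H.cl.sm b).trans q2⟩
  obtain ⟨g1, g2⟩ := H.g_le (t := tu) (by linarith) le_rfl
  have g0 := H.lt.g0 tu
  have ℓ3 : ℓ ^ 3 ≤ 1 := pow_le_one₀ ℓ0.le H.ℓ1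
  have g3 : E * g tu ^ 2 ≤ ℓ ^ 3 := by
    have : g tu ≤ 1 := by linarith [H.dv E1 g0 g2]
    nlinarith [mul_nonneg (zero_le_one.trans E1) g0]
  have m3 : E * (1 / (S.n : ℝ)) ^ 2 ≤ ℓ ^ 3 := by
    have r0 := sqrt_nonneg S.θ
    have a1 : √S.θ ≤ ℓ := by simpa using H.dv E1 r0 H.lt.ℓ1
    have a2 : 1 / (S.n : ℝ) ≤ ℓ ^ 2 := (H.μms zero_le_one).trans
      ((sq_sqrt H.cl.θ0.le).ge.trans (pow_le_pow_left₀ r0 a1 2))
    linarith [mul_le_mul H.μℓ a2 H.μ0.le ℓ0.le]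
  have wt : ∀ U : Finset ℕ, U ⊆ Finset.Ioc S.jl S.Jp →
      (∀ k ∈ U, k < S.J ∧ tu - 3 / 4 * ℓ ≤ M.s k ∧ M.s k ≤ tu - ℓ / 8) →
      ∑ k ∈ U, dx M k * M.G k ^ 2 ≤ g tu ^ 2 := fun U h1 h2 => by
    have a1 : ∑ k ∈ U, dx M k * M.G k ^ 2 ≤ ∑ k ∈ U, dx M k * g tu ^ 2 :=
      Finset.sum_le_sum fun k hk => mul_le_mul_of_nonneg_left (sq_le_sq' (neg_le_of_abs_le
        (H.lt.g1 tu k (Finset.mem_Ioc.1 (h1 hk)).1 (h2 k hk).1 (by linarith [(h2 k hk).2.1])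
          (by linarith [(h2 k hk).2.2]) (by linarith [(h2 k hk).2.2]))) (le_of_abs_le
        (H.lt.g1 tu k (Finset.mem_Ioc.1 (h1 hk)).1 (h2 k hk).1 (by linarith [(h2 k hk).2.1])
          (by linarith [(h2 k hk).2.2]) (by linarith [(h2 k hk).2.2])))) (dx_nn H.cl k)
    rw [← Finset.sum_mul] at a1
    have a2 := Finset.sum_le_sum_of_subset_of_nonneg h1 (f := dx M) fun k _ _ => dx_nn H.cl k
    have a3 : ∑ k ∈ Finset.Ioc S.jl S.Jp, dx M k = M.z S.Jp - M.z S.jl :=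
      Ap63.tel M.z (H.cl.jl_lt.le.trans i3)
    exact a1.trans (mul_le_of_le_one_left (sq_nonneg _)
      (by linarith [H.cl.leg.z1 S.Jp, H.cl.z_pos S.jl]))
  have SG : Ap63.Sx M.z M.G p q 2 ≤ g tu ^ 2 := by
    rw [Ap63.Sx_two]
    exact wt _ (Finset.Ioc_subset_Ioc p0'.le (by omega)) fun k hk =>
      let h := Finset.mem_Ioc.1 hk
      ⟨h.2.trans_lt q1, mem k h.1 h.2⟩
  have sub : ∀ t t', t ≤ tu - 3 / 4 * ℓ → tu - ℓ / 8 ≤ t' →
      Finset.Ioc p q ⊆ (M.blk S t t').filter (· < S.J) := fun t t' a b k hk => by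
    obtain ⟨c, d⟩ := Finset.mem_Ioc.1 hk
    exact Finset.mem_filter.2 ⟨Finset.mem_filter.2 ⟨Finset.mem_Ioc.2 ⟨by omega, by omega⟩,
      a.trans (mem k c d).1, (mem k c d).2.trans b⟩, d.trans_lt q1⟩
  have ℓ30 := pow_pos ℓ0 3
  have SD : E * Ap63.Sx M.z (M.del m a) p q 2 ≤ 6 * Λ * ℓ ^ 3 := by
    have Λ3 := mul_le_mul_of_nonneg_right Λ1 ℓ30.le
    have E0 : 0 ≤ E := by linarith
    rcases tp with h | ⟨h, h'⟩ | h
    · linarith [mul_le_mul_of_nonneg_left (H.Sdel j0 (show q ≤ S.Jp by omega)) E0]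
    · have : Ap63.Sx M.z (M.del m a) p q 2 ≤ Xp := le_trans
        (Finset.sum_le_sum_of_subset_of_nonneg ((sub (M.s S.J / 2) S.C (by linarith)
          (by linarith [H.tuC])).trans (Finset.filter_subset _ _))
          fun k _ _ => mul_nonneg (dx_nn H.cl k) (by positivity)) H.ap.top
      linarith [mul_le_mul_of_nonneg_left this E0]
    · have a1 := lo.two (tu - 3 / 4 * ℓ) (tu - ℓ / 8) (by linarith) (by linarith)
      have a2 : Ap63.Sx M.z (M.del m a) p q 2 ≤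
          ∑ k ∈ (M.blk S (tu - 3 / 4 * ℓ) (tu - ℓ / 8)).filter (· < S.J), dx M k * M.del m a k ^ 2 := by
        rw [Ap63.Sx_two]
        exact Finset.sum_le_sum_of_subset_of_nonneg (sub _ _ le_rfl le_rfl)
          fun k _ _ => mul_nonneg (dx_nn H.cl k) (sq_nonneg _)
      have a3 : GS M S (tu - 3 / 4 * ℓ) (tu - ℓ / 8) ≤ g tu ^ 2 := wt _ (fun k hk => by
        have := Finset.mem_Ioo.1 (Finset.mem_filter.1 hk).1
        exact Finset.mem_Ioc.2 ⟨this.1, by omega⟩) fun k hk =>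
          ⟨(Finset.mem_Ioo.1 (Finset.mem_filter.1 hk).1).2, (Finset.mem_filter.1 hk).2⟩
      have m0 := H.cl.ms_pos (t := tu - 3 / 4 * ℓ) (by linarith)
      have a4 : E * ((En + t1 * p0 ^ 2) / mf S (tu - 3 / 4 * ℓ)) ≤ 4 * ℓ ^ 3 := by
        rw [H.mf_eq, ← mul_div_assoc, div_le_iff₀ m0]
        have := (H.cl.msm (show tu ≤ 2 * (tu - 3 / 4 * ℓ) by linarith)).trans
          (H.cl.ms2 _ (by linarith))
        linarith [mul_le_mul_of_nonneg_right this ℓ30.le]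
      have a5 := mul_le_mul_of_nonneg_left (min_le_right (√((tu - ℓ / 8) * (En + t1 * p0 ^ 2)))
        ((En + t1 * p0 ^ 2) / mf S (tu - 3 / 4 * ℓ))) E0
      have a6 := mul_le_mul_of_nonneg_left a3 E0
      have a7 : E * (min (√((tu - ℓ / 8) * (En + t1 * p0 ^ 2)))
          ((En + t1 * p0 ^ 2) / mf S (tu - 3 / 4 * ℓ)) + GS M S (tu - 3 / 4 * ℓ) (tu - ℓ / 8) +
          1 / (S.n : ℝ) ^ 2) ≤ 6 * ℓ ^ 3 := by
        rw [div_pow, one_pow] at m3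
        linarith
      linarith [mul_le_mul_of_nonneg_left (a2.trans a1) E0,
        mul_le_mul_of_nonneg_left a7 (zero_le_one.trans Λ1)]
  set R := ℓ / (128 * S.C ^ 2) with hR
  have C2 : 0 < 128 * S.C ^ 2 := by positivity
  have R0 : 0 < R := by positivity
  have R1 : 128 * S.C ^ 2 * R = ℓ := mul_div_cancel₀ _ C2.ne'
  have SS : Ap63.Sx M.z (dsb M m a) p q 2 ≤ R ^ 3 := by
    have c2 : 1 ≤ S.C ^ 2 := one_le_pow₀ C1
    have a1 := mul_le_mul_of_nonneg_left (H.Sdsb pq q1) (zero_le_one.trans E1)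
    have a2 := mul_le_mul_of_nonneg_left SD (sq_nonneg S.C)
    have a3 := mul_le_mul_of_nonneg_left SG (zero_le_one.trans E1)
    have a4 := mul_le_mul_of_nonneg_left m3 (sq_nonneg S.C)
    have a5 := mul_le_mul_of_nonneg_right Λ1 (mul_pos (pow_pos C0 2) ℓ30).le
    have a6 := mul_le_mul_of_nonneg_right c2 ℓ30.le
    have a7 : E * Ap63.Sx M.z (dsb M m a) p q 2 ≤ 24 * S.C ^ 2 * Λ * ℓ ^ 3 := by linarith
    have a8 : 24 * 128 ^ 3 * S.C ^ 8 * Λ ≤ E := le_trans ((mul_le_mul (H.KL 8 (by norm_num)) hΛ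
      (by linarith) (by linarith [H.L1])).trans_eq (by ring)) H.EL
    have a9 := mul_le_mul_of_nonneg_right a8 (pow_pos R0 3).le
    rw [← R1] at a7
    exact le_of_mul_le_mul_left (a := E) (by linarith) (by linarith)
  have c3 : 1000 * (S.C ^ 3 * S.v) ≤ ℓ := by
    have := H.dv (H.KE (c := 1000) 3 (by norm_num)) v0.le H.vμ
    linarith [H.dv E1 H.μ0.le H.μℓ]
  obtain ⟨up, dn⟩ := crude (z := M.z) (f := fun k => sb M m a (k + 1)) (g := M.s) (lo := p)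
    (hi := q) (k := V) H.cl.leg.zm (fun _ _ h => H.A.sb_mono (Nat.succ_le_succ h))
    (L := S.C ^ 2) (e := S.C ^ 3 * S.v) (ρ := ℓ / 32) (one_le_pow₀ C1) (by positivity) R0
    (by linarith) (fun i k a _ => H.cl.sm a)
    (fun i k a b c => H.s_lip (j0.trans a) b (by omega)) SS pV Vq
  have w : R ≤ M.z q - M.z (V - 1) := by
    have := Ap63.s_z H.cl (j0.trans pV.le) Vq q1
    have : S.C ^ 2 * R ≤ S.C ^ 2 * (M.z q - M.z V) := by linarith
    linarith [le_of_mul_le_mul_left this (pow_pos C0 2), H.cl.leg.zm (Nat.sub_le V 1)]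
  have u1 := up w
  have u2 := dn.resolve_right (by intro h; linarith)
  exact ⟨V, by linarith, by linarith, by linarith⟩

set_option maxHeartbeats 1000000 in
/-- **the closing argument** -/
theorem core (hA : TA L S M m a l Lg X2 η g tu ℓ) (hE : TE L S M m a t1 u2 En) :
    (∀ Λ, L ^ 14 ≤ Λ → LO Λ S M m a (2 * t1) u2 (En + t1 * p0 ^ 2)) ∧
    io S M m a ≤ L ^ 5 * p0 ∧
    ∫ t in 2 * t1..2 * S.C, Jq S M m a t ^ 2 ≤ L ^ 14 * (En + t1 * p0 ^ 2) ∧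
    ∀ V, M.s V + ℓ / 4 ≤ tu → sb M m a (V + 1) + ℓ / 4 ≤ tu → tu / 16 ≤ sb M m a (V + 1) →
      ∀ t, 7 / 4 * l ≤ t → t + L ^ 3 * √S.θ ≤ sb M m a (V + 1) → Hq S M m a t ≤ L ^ 5 * p0 ∧
        ∀ t', l ≤ t' → t' ≤ tu → t' ≤ 2 * t → t ≤ 2 * t' →
          |uq S M m a t| ≤ L * (L ^ 5 * p0 + bs S Lg X2 (g t') η t') := by
  have L3θ := H.L3θ
  have C0 := H.cl.C0
  have C1 := H.cl.C1
  have t10 := H.t10
  have t11 := H.t11
  have ℓu := H.ℓu
  have ℓ0 := H.ℓ0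
  have t1a := H.lt.t1a
  have t1u := H.t1u
  have l0 := H.l0'
  have L1 := H.L1
  have L9 := H.L9
  have L0 : 0 < L := by linarith
  have E0 : 0 < E := by linarith [H.E1]
  have tuC := H.tuC
  have tu0 : 0 < tu := by linarith
  have En0 := H.En0
  obtain ⟨pa1, pa2, -⟩ := H.pa
  have p00 : 0 ≤ p0 := (sqrt_nonneg _).trans pa1
  set e := √(∫ t in 2 * t1..2 * S.C, Jq S M m a t ^ 2) with he
  have e0 : 0 ≤ e := sqrt_nonneg _
  have e1 : ∫ t in 2 * t1..2 * S.C, Jq S M m a t ^ 2 ≤ e ^ 2 :=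
    (sq_sqrt (intervalIntegral.integral_nonneg (by linarith) fun _ _ => sq_nonneg _)).ge
  have e2 : e ^ 2 ≤ ∫ t in 2 * t1..2 * S.C, Jq S M m a t ^ 2 :=
    (sq_sqrt (intervalIntegral.integral_nonneg (by linarith) fun _ _ => sq_nonneg _)).le
  obtain ⟨V0, a1, a2, a3, a4⟩ := H.exV0
  have b0 := fun t => H.jb hA e0 e1 a1 a2 a3 (t := t)
  have ι0 := H.io0
  set ι := io S M m a with hι
  set jx := jj L S M m a tu p0 e with hj
  have r0 : 0 < √tu := sqrt_pos.2 tu0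
  have j0 : 0 ≤ jx := by have := H.μ0; rw [hj, jj]; positivity
  have bs1 := H.bs0 (t := t1) (by linarith) (by linarith)
  have lw := H.low (c := 2 * t1) (jj := jx) (by linarith) (by linarith)
    fun t a b => (b0 t a (by linarith)).1
  obtain ⟨c1, c2⟩ := hE (L * (jx + ι + bs S Lg X2 (g t1) η t1)) _ (fun t a b => by
    obtain ⟨p, q⟩ := b0 t (by linarith) (by linarith)
    refine ⟨q t1 (by linarith) (by linarith) (by linarith) b, ?_⟩
    rw [H.Hq_eq]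
    linarith [le_mul_of_one_le_left (show 0 ≤ jx + ι + bs S Lg X2 (g t1) η t1 by positivity) L1]) lw
  have c3 := alg1 (L := L) (P := jx + ι) (by linarith) t10 t11 (H.cl.ms_pos t10.le).le
    (H.ms_le (by linarith) (by linarith)) j0 (by linarith) En0 H.en.2.2
  have P0 : 0 ≤ jx + ι := by positivity
  have c4 : e ≤ 3 * L ^ 2 * √En + 4 * L ^ 2 * (t1 * (jx + ι)) := by
    refine abs_le_of_sq_le_sq' ?_ (by positivity) |>.2
    have f1 := mul_le_mul_of_nonneg_left c3 L0.le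
    have f2 : (3 * L ^ 2 * √En) ^ 2 = 9 * L ^ 4 * En := by rw [mul_pow, sq_sqrt En0]; ring
    have f3 : L ^ 3 ≤ L ^ 4 := pow_le_pow_right₀ L1 (by norm_num)
    have f4 := mul_le_mul_of_nonneg_right f3 En0
    have f5 := mul_le_mul_of_nonneg_right f3 (sq_nonneg (t1 * (jx + ι)))
    have f6 : 0 ≤ 3 * L ^ 2 * √En * (4 * L ^ 2 * (t1 * (jx + ι))) := by positivity
    have f7 : 0 ≤ L ^ 4 * En := by positivity
    have f8 : 0 ≤ L ^ 4 * (t1 * (jx + ι)) ^ 2 := by positivity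
    rw [add_sq, f2]
    linarith
  have κ0 : 0 ≤ S.C / E := by positivity
  have κ1 : t1 ≤ S.C / E := by rw [le_div_iff₀ E0]; linarith [H.lt.t1b]
  have κ2 : t1 / √tu ≤ S.C / E := by
    rw [div_le_div_iff₀ r0 E0]
    have : √tu ≤ S.C := sqrt_le_iff.2 ⟨C0.le, tuC.trans (le_self_pow₀ C1 (by norm_num))⟩
    linarith [H.lt.t1b, mul_le_mul_of_nonneg_right this r0.le, mul_self_sqrt tu0.le]
  have κ3 := mul_le_mul_of_nonneg_right κ1 P0
  have κ4 := mul_le_mul_of_nonneg_right κ2 P0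
  have L2 : 0 ≤ L ^ 2 := sq_nonneg _
  have y1 : e ≤ 3 * L ^ 2 * p0 + 4 * L ^ 2 * (S.C / E * (jx + ι)) := by
    linarith [mul_le_mul_of_nonneg_left pa2 L2, mul_le_mul_of_nonneg_left κ3 L2]
  have y2 : e / √tu ≤ 3 * L ^ 2 * p0 + 4 * L ^ 2 * (S.C / E * (jx + ι)) := by
    have := div_le_div_of_nonneg_right c4 r0.le
    rw [sqrt_div En0] at pa1
    have q : (3 * L ^ 2 * √En + 4 * L ^ 2 * (t1 * (jx + ι))) / √tu =
      3 * L ^ 2 * (√En / √tu) + 4 * L ^ 2 * (t1 / √tu * (jx + ι)) := by ring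
    linarith [mul_le_mul_of_nonneg_left pa1 L2, mul_le_mul_of_nonneg_left κ4 L2]
  have io1 := H.tl.iota (by linarith) (by linarith) e0 lw e1
  have hP : jx + ι ≤ L ^ 5 * p0 := alg2 (y := max e (e / √tu)) (by linarith) p00 P0 κ0
    (by
      rw [← mul_div_assoc, div_le_one E0]
      have := mul_le_mul_of_nonneg_left (H.KL (c := 40) 1 (by norm_num)) (pow_pos L0 4).le
      linarith [H.LE 5])
    (max_le y1 y2) (le_max_of_le_left e0)
    (by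
      rw [hj, jj]
      linarith [mul_le_mul_of_nonneg_left (le_max_right e (e / √tu)) L2, H.μe])
    (by
      have q1 : (1 + 2 * S.C) * e ≤ L * max e (e / √tu) :=
        mul_le_mul (by linarith [H.KL (c := 3) 1 (by norm_num)]) (le_max_left _ _) e0 L0.le
      have q2 := mul_le_mul_of_nonneg_left (show jx ≤ jx + ι by linarith) t10.le
      unfold io at hι
      linarith [mul_le_mul_of_nonneg_left pa2 L0.le]) rfl
  have c5 : En + (S.ms t1 * (L * (jx + ι + bs S Lg X2 (g t1) η t1))) ^ 2 / t1 +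
      (2 * t1 * jx + L * √En) ^ 2 ≤ L ^ 13 * (En + t1 * p0 ^ 2) := by
    have f1 : (t1 * (jx + ι)) ^ 2 ≤ (t1 * (L ^ 5 * p0)) ^ 2 :=
      pow_le_pow_left₀ (by positivity) (mul_le_mul_of_nonneg_left hP t10.le) 2
    have f2 := mul_le_mul_of_nonneg_left f1 L2
    have f3 := mul_le_mul_of_nonneg_left t11 (by positivity : 0 ≤ L ^ 12 * (t1 * p0 ^ 2))
    have f4 := mul_le_mul_of_nonneg_right (show 10 ≤ L by linarith)
      (by positivity : 0 ≤ L ^ 12 * (t1 * p0 ^ 2))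
    have f5 := mul_le_mul_of_nonneg_right (show 5 ≤ L by linarith) (mul_nonneg L2 En0)
    have f6 := mul_le_mul_of_nonneg_right (pow_le_pow_right₀ L1 (by norm_num : 3 ≤ 13)) En0
    linarith
  have u20 : 0 ≤ u2 := by linarith [H.cl.last, H.cl.leg.z1 (S.Jp - 1), H.lp.u1a, H.lp.u1b.1]
  have sc : ∀ c, L ^ 13 ≤ c → LO (L * c) S M m a (2 * t1) u2 (En + t1 * p0 ^ 2) := fun c hc =>
    lo_scale H.cl c2 L0.le ((one_le_pow₀ L1).trans hc) (by linarith) u20 (by positivity)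
      (by positivity) (c5.trans (mul_le_mul_of_nonneg_right hc (by positivity)))
  have v4 : tu / (16 * S.C ^ 3) ≤ tu / 16 :=
    div_le_div_of_nonneg_left tu0.le (by norm_num) (by linarith [one_le_pow₀ C1 (n := 3)])
  refine ⟨fun Λ hΛ => by
    simpa only [mul_div_cancel₀ _ L0.ne'] using sc (Λ / L) (by rw [le_div_iff₀ L0]; linarith),
    by linarith, by linarith [mul_le_mul_of_nonneg_left c5 L0.le], fun V v1 v2 v3 t a b => ?_⟩
  obtain ⟨p, q⟩ := H.jb hA e0 e1 v1 v2 (v4.trans v3) a b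
  exact ⟨by rw [H.Hq_eq]; linarith, fun t' c d e f =>
    (q t' c d e f).trans (mul_le_mul_of_nonneg_left (by linarith) L0.le)⟩

/-- the nodes -/
theorem nodes (hA : TA L S M m a l Lg X2 η g tu ℓ) (hE : TE L S M m a t1 u2 En)
    (tp : TP E S M X Xp t1 tu ℓ En p0) {k : ℕ} (k1 : 2 * l ≤ M.s k) (k2 : M.s k + ℓ ≤ tu) :
    |M.del m a k| ≤ L ^ 7 * (p0 + bs S Lg X2 (g (M.s k)) η (M.s k)) := by
  obtain ⟨sc, -, -, hu⟩ := H.core hA hE
  have L3θ := H.L3θ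
  have C0 := H.cl.C0
  have C1 := H.cl.C1
  have ℓu := H.ℓu
  have ℓ0 := H.ℓ0
  have l0 := H.l0'
  have L1 := H.L1
  have L9 := H.L9
  have L0 : 0 < L := by linarith
  have E0 : 0 < E := by linarith [H.E1]
  have tuC := H.tuC
  have p00 : 0 ≤ p0 := (sqrt_nonneg _).trans H.pa.1
  obtain ⟨V, v1, v2, v3⟩ := H.exV1 tp (one_le_pow₀ L1) le_rfl (sc _ le_rfl)
  have kl : l ≤ M.s k := by linarith
  have ku : M.s k ≤ tu := by linarith
  have kC := ku.trans tuC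
  obtain ⟨i1, i2⟩ := H.idx kl (by linarith)
  set b := bs S Lg X2 (g (M.s k)) η (M.s k) with hb
  have b1 : 1 / (S.n : ℝ) ≤ b := H.μbs kl kC
  have b2 : g (M.s k) ≤ b := H.gbs kl kC
  have b3 : E * b ≤ 4 * √(S.ms (M.s k)) := H.bs_le kl ku
  obtain ⟨b4, b4'⟩ := H.lt.pc
  have μ0 := H.μ0
  have b5 : 0 < b := by linarith
  have cv := mul_pos C0 H.cl.v0
  have Cv := H.Cv
  have L6 : L ≤ L ^ 6 := le_self_pow₀ L1 (by norm_num)
  have U1 : L * (L ^ 5 * p0 + b) + S.C * S.v ≤ 2 * L ^ 6 * (p0 + b) := by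
    linarith [mul_le_mul_of_nonneg_right L6 b5.le, mul_le_mul_of_nonneg_right (L1.trans L6) b5.le,
      mul_nonneg (pow_pos L0 6).le p00]
  have U0 : 0 < 2 * L ^ 6 * (p0 + b) := by positivity
  have U2 : 2 * (S.C * (2 * L ^ 6 * (p0 + b))) ≤ L ^ 7 * (p0 + b) / 2 := by
    linarith [mul_le_mul_of_nonneg_right (H.KL (c := 8) 1 (by norm_num)) U0.le]
  have r1 := sqrt_nonneg (S.ms (M.s k))
  have U3 : 8 * (L ^ 7 * (p0 + b)) ≤ E * p0 + E * b := by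
    have : 8 * L ^ 7 ≤ E := le_trans (by nlinarith [pow_pos L0 7]) (H.LE 8)
    linarith [mul_le_mul_of_nonneg_right this (show 0 ≤ p0 + b by linarith)]
  have U4 : 8 * √(S.ms (M.s k)) ≤ M.s k := H.dv (by linarith [H.E9]) r1 (H.lt.ml _ kl kC)
  have U5 : 8 * √(S.ms (M.s k)) ≤ ℓ := by
    linarith [H.dv (c := 8) (by linarith [H.E9]) (sqrt_nonneg _) H.lt.ℓ1,
      sqrt_le_sqrt (H.cl.ms1 (M.s k))]
  have CU := mul_le_mul_of_nonneg_left U1 C0.le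
  have CU0 := mul_pos C0 U0
  have fin := (H.A.node_of_u (a' := M.s k - L ^ 7 * (p0 + b) / 2) (b' := M.s k + L ^ 7 * (p0 + b) / 2)
    (U := L * (L ^ 5 * p0 + b)) (ℓ := L ^ 7 * (p0 + b) / 2) (k := k)
    (by linarith [H.cl.sm H.cl.i1, H.jl_l0, H.ln.l0l]) (by linarith [H.lt.tu1]) (by linarith)
    (by linarith) (fun t ht => (hu V v1 v2 (by linarith) t (by linarith [ht.1])
      (by linarith [ht.2])).2 _ kl ku (by linarith [ht.1]) (by linarith [ht.2]))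
    (by linarith) le_rfl).2
  have g1 := H.lt.g1 (M.s k) k i1 i2 kl (by linarith) (by linarith)
  have f1 := mul_le_mul_of_nonneg_left b1 C0.le
  have f2 := mul_le_mul_of_nonneg_right (H.KL (c := 4) 1 (by norm_num)) b5.le
  have f3 := mul_le_mul_of_nonneg_right C1 b5.le
  have f4 := mul_le_mul_of_nonneg_right (le_self_pow₀ L1 (by norm_num : 7 ≠ 0)) b5.le
  linarith [H.Cm, mul_nonneg (pow_pos L0 7).le p00]

end Cx

/-- the regime of the closing argument -/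
theorem cx_glue {R : CP} (hA : TkA) (hE : TkE) (h : ∀ E L Λ S M m a, L ^ 14 ≤ Λ →
    (∀ G1 u1 u2 j γ Lc ηc τ l0 l X Xp Vt Lg Lp X2 X3 X4 G0 η N g t1 tu ℓ En p0,
      Hy E S M m a G1 u1 u2 j γ Lc ηc τ l0 l X Xp Vt Lg Lp X2 X3 X4 G0 η N g t1 tu ℓ En p0 →
      Cx E L S M m a G1 u1 u2 j γ Lc ηc τ l0 l X Xp Vt Lg Lp X2 X3 X4 G0 η N g t1 tu ℓ En p0 ∧
        TA L S M m a l Lg X2 η g tu ℓ ∧ TE L S M m a t1 u2 En) → R E Λ S M m a) : CL R := by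
  unfold TkA at hA
  unfold TkE at hE
  refine (hA.and hE).glue fun C => ⟨2, fun A _ ε η hε hη => ⟨ε, min (ε / 15) (η / 14),
    10 ^ 9 * C ^ 13, hε, by positivity, ?_⟩⟩
  rintro S M m a G hC hm ⟨hA, hE⟩
  have N1 := G.N1
  have pw : ∀ (k : ℕ) (x : ℝ), min (ε / 15) (η / 14) * k ≤ x →
      ((S.n : ℝ) ^ min (ε / 15) (η / 14)) ^ k ≤ (S.n : ℝ) ^ x := fun k x hx => by
    rw [← rpow_natCast, ← rpow_mul G.N0.le]
    exact rpow_le_rpow_of_exponent_le N1.le hx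
  refine h _ _ _ S M m a (pw 14 _ ?_) fun G1 u1 u2 j γ Lc ηc τ l0 l X Xp Vt Lg Lp X2 X3 X4 G0 η' N
    g t1 tu ℓ En p0 H => ⟨⟨H, hC, hm, G.hC ▸ G.K_le, pw 15 _ ?_, G.log_le, G.hC ▸ G.C_log, ?_⟩,
      hA _ _ _ _ _ _ _ _ _ _ _ _ _ _ _ _ _ _ _ _ _ _ _ _ _ _ _ H,
      hE _ _ _ _ _ _ _ _ _ _ _ _ _ _ _ _ _ _ _ _ _ _ _ _ _ _ _ H⟩
  · push_cast; linarith [min_le_right (ε / 15) (η / 14)]
  · push_cast; linarith [min_le_left (ε / 15) (η / 14)]
  · have := mul_le_mul_of_nonneg_left (pow_le_pow_right₀ N1.le (G.hA ▸ G.A2 : 2 ≤ S.A)) hC.v0.le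
    rw [div_pow, one_pow, mul_one_div, le_div_iff₀ (pow_pos G.N0 2)]
    exact this.trans hC.v2

/-- **(TL2x)** from the two analytic pieces -/
theorem tl2x_of (hA : TkA) (hE : TkE) : TL2x := cx_glue hA hE
  fun E L Λ S M m a hΛ h G1 u1 u2 j γ Lc ηc τ l0 l X Xp Vt Lg Lp X2 X3 X4 G0 η N g t1 tu ℓ En p0 H
    tp => by
  obtain ⟨H, hA, hE⟩ := h _ _ _ _ _ _ _ _ _ _ _ _ _ _ _ _ _ _ _ _ _ _ _ _ _ _ _ H
  refine ⟨fun k k1 k2 => (H.nodes hA hE tp k1 k2).trans (mul_le_mul_of_nonneg_right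
    ((pow_le_pow_right₀ H.L1 (by norm_num)).trans hΛ) ?_), (H.core hA hE).1 _ hΛ⟩
  exact add_nonneg ((sqrt_nonneg _).trans H.pa.1)
    (H.bs0 (by linarith [H.l0']) (by linarith [H.ℓ0, H.tuC]))

/-- **(TL2y)** from the two analytic pieces -/
theorem tl2y_of (hA : TkA) (hE : TkE) : TL2y := cx_glue hA hE
  fun E L Λ S M m a hΛ h G1 u1 u2 j γ Lc ηc τ l0 l X Xp Vt Lg Lp X2 X3 X4 G0 η N g t1 tu ℓ En p0
    H => by
  obtain ⟨H, hA, hE⟩ := h _ _ _ _ _ _ _ _ _ _ _ _ _ _ _ _ _ _ _ _ _ _ _ _ _ _ _ H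
  obtain ⟨c1, c2, c3, c4⟩ := H.core hA hE
  have p00 : 0 ≤ p0 := (sqrt_nonneg _).trans H.pa.1
  have pw : ∀ k ≤ 14, L ^ k ≤ Λ := fun k hk => (pow_le_pow_right₀ H.L1 hk).trans hΛ
  have q5 := mul_le_mul_of_nonneg_right (pw 5 (by norm_num)) p00
  refine ⟨c1 _ hΛ, c2.trans q5, c3.trans (mul_le_mul_of_nonneg_right hΛ
    (add_nonneg H.En0 (mul_nonneg H.t10.le (sq_nonneg _)))), fun V v1 v2 v3 t a b => ?_⟩
  obtain ⟨p, q⟩ := c4 V v1 v2 v3 t a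
    (by linarith [mul_le_mul_of_nonneg_right (pw 3 (by norm_num)) (sqrt_nonneg S.θ)])
  refine ⟨p.trans q5, fun t' c d e f => (q t' c d e f).trans ?_⟩
  linarith [mul_le_mul_of_nonneg_right (pw 6 (by norm_num)) p00,
    mul_le_mul_of_nonneg_right (pw 1 (by norm_num)) (H.bs0 c (d.trans H.tuC))]

end Crest.Agent.T156.Alt.L63

end
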