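import Crest.Agent.T156.TL2Q_63
import Crest.Agent.T156.ClRes_27
import Crest.Agent.T156.TkB_20
import Crest.Agent.T156.Cvx_25

/-!
# Row 156, block (L), the corner: the last located time and the floor point (helper26)
-/

set_option autoImplicit false

noncomputable section

namespace Crest.Agent.T156.Alt.L63

open MeasureTheory Real Set
open Crest.Agent.T156.Alt.L69 Crest.Agent.T156.Alt.Mp9 Crest.Agent.T156.Zb9

variable {E L : ℝ} {S : Sc} {M : Md} {m : ℕ} {a G1 u1 u2 j γ Lc ηc τ l0 l X Xp Vt Lg Lp X2 X3 X4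
  G0 : ℝ} {η : ℝ → ℝ} {N : ℝ} {g : ℝ → ℝ} {t1 tu ℓ En p0 : ℝ}

/-- output of the first step at the corner; `b` is the local size at the top -/
structure P1 (E Λ : ℝ) (S : Sc) (M : Md) (m : ℕ) (a X X2 ℓ p0 b : ℝ) (V k0 : ℕ) (t0 f : ℝ) :
    Prop where
  V1 : S.jl < V
  V2 : V < S.J
  sV : M.s V + ℓ / 4 ≤ M.s S.J
  yV : sb M m a (V + 1) + ℓ / 4 ≤ M.s S.J
  dich : M.s S.J - ℓ / 2 ≤ sb M m a (V + 1) ∨ M.z (S.J - 1) - M.z V ≤ S.C * ℓ
  t0a : sb M m a (V + 1) - ℓ / 8 ≤ t0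
  t0b : t0 < sb M m a (V + 1)
  low : 3 / 4 * M.s S.J ≤ t0 - ℓ
  w : M.s S.J - t0 ≤ 2 * ℓ + Λ * (X ^ ((1 : ℝ) / 3) + M.s S.jl)
  hq : ∀ t, M.s S.J / 2 ≤ t → t ≤ t0 → Hq S M m a t ≤ Λ * p0 ∧ |uq S M m a t| ≤ Λ * (p0 + b)
  p00 : 0 ≤ p0
  b0 : 1 / (S.n : ℝ) ≤ b
  sm : E * (p0 + b) ≤ 5 * ℓ
  k1 : S.jl < k0
  k2 : k0 < V
  k3 : t0 - Λ * (p0 + b) ≤ M.s k0
  k4 : M.s k0 ≤ t0
  k5 : |sb M m a (k0 + 1) - t0| ≤ Λ * (p0 + b)
  loc : ∀ k, 3 / 4 * M.s S.J ≤ M.s k → k ≤ k0 → |sb M m a (k + 1) - M.s k| ≤ Λ * (p0 + b)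
  f1 : t0 - ℓ ≤ f
  f2 : f ≤ t0
  f3 : M.b * Pr.GG (lb M S m a (2 * S.C)) f ≤ 1 + Λ * (X2 + 1 / S.n)
  X20 : 0 ≤ X2
  jl0 : 0 ≤ M.s S.jl

theorem P1.mono {Λ Λ' b t0 f : ℝ} {V k0 : ℕ} (h : P1 E Λ S M m a X X2 ℓ p0 b V k0 t0 f)
    (hΛ : Λ ≤ Λ') (X0 : 0 ≤ X) : P1 E Λ' S M m a X X2 ℓ p0 b V k0 t0 f :=
  have n0 : (0 : ℝ) ≤ 1 / S.n := by positivity
  have p := h.p00
  have x := h.X20
  have s0 := h.jl0
  have q := mul_le_mul_of_nonneg_right hΛ (add_nonneg p (n0.trans h.b0))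
  { h with
    w := h.w.trans (by gcongr)
    hq := fun t a b => ⟨(h.hq t a b).1.trans (by gcongr), (h.hq t a b).2.trans q⟩
    k3 := by linarith [h.k3]
    k5 := h.k5.trans q
    loc := fun k a b => (h.loc k a b).trans q
    f3 := h.f3.trans (by gcongr) }

/-- the closing argument below a located node (text of `TL2y`) -/
def Y26 (Λ : ℝ) (S : Sc) (M : Md) (m : ℕ) (a l Lg X2 : ℝ) (η g : ℝ → ℝ) (tu ℓ p0 : ℝ) : Prop :=
  ∀ V, M.s V + ℓ / 4 ≤ tu → sb M m a (V + 1) + ℓ / 4 ≤ tu → tu / 16 ≤ sb M m a (V + 1) →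
    ∀ t, 7 / 4 * l ≤ t → t + Λ * √S.θ ≤ sb M m a (V + 1) → Hq S M m a t ≤ Λ * p0 ∧
      ∀ t', l ≤ t' → t' ≤ tu → t' ≤ 2 * t → t ≤ 2 * t' →
        |uq S M m a t| ≤ Λ * (p0 + bs S Lg X2 (g t') η t')

/-- a located node near every time of a located interval -/
theorem loc26 {T : ℝ} (A : At S M m a T) {k1 V : ℕ} {x y q D t : ℝ} (h0 : S.j0 ≤ k1)
    (hV : V < S.J) (hx : sb M m a (k1 + 1) ≤ x) (hy : y < sb M m a (V + 1)) (yJ : y < M.s S.J)
    (x0 : 0 ≤ x) (hu : ∀ t, x ≤ t → t ≤ y → |uu M S m a T t| ≤ q)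
    (hD : S.C * (q + S.C * S.v) ≤ D) (D0 : 0 < D) (h1 : x + 3 * D ≤ t) (h2 : t ≤ y) :
    ∃ p, k1 ≤ p ∧ p < V ∧ sb M m a (p + 1) ≤ t ∧ t - 3 * D ≤ sb M m a (p + 1) ∧
      |t - M.s p| ≤ D := by
  have i3 := A.cl.i3
  have kV : k1 + 1 < V + 1 := lt_of_not_ge fun h => by linarith [A.sb_mono h]
  obtain ⟨k, c⟩ := exists_Cell A.ub t
  have c1 := c.ge A.ub (i := k1 + 1) (by omega) (by linarith)
  have c2 := c.lt A.ub (i := V + 1) (by omega) (by linarith)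
  obtain ⟨p, rfl⟩ : ∃ p, k = p + 1 := ⟨k - 1, by omega⟩
  have key : ∀ r, x ≤ r → r ≤ y → Cell (sb M m a) (S.Jp + 1) (p + 1) r → |r - M.s p| ≤ D :=
    fun r r1 r2 cr => (A.dist_le cr (by omega) (by omega) (by linarith) (by linarith)).trans
      ((mul_le_mul_of_nonneg_left (add_le_add (hu r r1 r2) le_rfl) A.c_pos.le).trans hD)
  have d := key t (by linarith) h2 c
  refine ⟨p, by omega, by omega, c.2.1 (by omega), le_of_not_gt fun h => ?_, d⟩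
  have d' := key (t - 3 * D) (by linarith) (by linarith)
    ⟨c.1, fun _ => h.le, fun e => by linarith [c.2.2 e]⟩
  linarith [(abs_le.1 d).2, (abs_le.1 d').1]

theorem Hp_nn26 {T : ℝ} (A : At S M m a T) (t : ℝ) : 0 ≤ Rig.Hp (lh M T) (lb M S m a T) t :=
  add_nonneg (abs_nonneg _) (intervalIntegral.integral_nonneg
    (by rw [A.okh.2]; exact (s_nn A.cl _).trans A.t2) fun _ _ => abs_nonneg _)

namespace Cx

variable (H : Cx E L S M m a G1 u1 u2 j γ Lc ηc τ l0 l X Xp Vt Lg Lp X2 X3 X4 G0 η N g t1 tu ℓ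
  En p0)
include H

theorem rθ : √S.θ ≤ ℓ := by simpa using H.dv H.E1 (sqrt_nonneg _) H.lt.ℓ1

theorem Lg1' : 1 ≤ Lg := by
  have := H.ln.Lg0
  rw [H.lt.F1] at this
  linarith [H.E1]

theorem Lgℓ : E * X ^ ((1 : ℝ) / 3) ≤ Lg * ℓ := by
  first
  | exact H.lt.Lg3
  | exact H.lt.Lg3.trans (mul_le_mul_of_nonneg_left ((sqrt_le_sqrt (H.cl.ms1 l)).trans H.rθ)
      (zero_le_one.trans H.Lg1'))

theorem pℓ : E * p0 ≤ ℓ := by
  first
  | exact H.lt.pc.trans ((sqrt_le_sqrt (H.cl.ms1 _)).trans H.rθ)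
  | exact H.lt.pc.2

theorem ltu : 2000 * l ≤ tu := by linarith [H.t1u, H.lt.t1a]

theorem LL {c : ℝ} (k : ℕ) (hc : c ≤ 10 ^ 9) (i : ℕ) (hk : k ≤ 13 := by norm_num)
    (hi : i + 1 ≤ 15 := by norm_num) : c * S.C ^ k * L ^ i ≤ E := by
  refine le_trans ?_ (H.LE (i + 1) hi)
  rw [pow_succ']
  exact mul_le_mul_of_nonneg_right (H.KL k hc hk) (pow_nonneg (zero_le_one.trans H.L1) _)

theorem win : S.C ^ 2 * (L * (X ^ ((1 : ℝ) / 3) / Lg + S.v)) ≤ min ℓ l / 40 := by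
  have g0 : 0 < Lg := one_pos.trans_le H.Lg1'
  have R0 := H.R0
  have v0 := H.cl.v0
  have a1 : E * (X ^ ((1 : ℝ) / 3) / Lg) ≤ ℓ := by
    rw [← mul_div_assoc, div_le_iff₀ g0, mul_comm ℓ]; exact H.Lgℓ
  have a2 : E * (X ^ ((1 : ℝ) / 3) / Lg) ≤ l := (mul_le_mul_of_nonneg_left
    (div_le_self R0.le H.Lg1') (zero_le_one.trans H.E1)).trans H.lt.lX
  have a3 : 1 / (S.n : ℝ) ≤ ℓ := by simpa using H.dv H.E1 H.μ0.le H.μℓ
  have a4 : E * (X ^ ((1 : ℝ) / 3) / Lg + S.v) ≤ 2 * min ℓ l := by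
    rw [mul_add]
    linarith [le_min a1 a2, le_min (H.vμ.trans a3) (H.vμ.trans H.μ1)]
  have := H.dv (H.LL (c := 80) 2 (by norm_num) 1) (by positivity) a4
  linarith

variable {Gn : ℕ → Prop} {U W : ℕ}

theorem good (nt : Nt E L S M m a Lg X X2 η Gn U W) {p q : ℕ} (h1 : U ≤ p) (h2 : q ≤ W)
    (h3 : S.j0 ≤ p) (h4 : q < S.J) (hd : min ℓ l / 40 ≤ M.s q - M.s p) :
    ∃ i, p ≤ i ∧ i ≤ q ∧ Gn i := by
  have d0 := lt_min H.ℓ0 H.l0'
  have pq : p ≤ q := le_of_not_gt fun h => by linarith [H.cl.sm h.le]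
  exact nt.ex p q h1 pq h2 (le_of_mul_le_mul_left
    ((H.win.trans hd).trans (Ap63.s_z H.cl h3 pq h4)) (pow_pos H.cl.C0 2))

theorem gap2 (nt : Nt E L S M m a Lg X X2 η Gn U W) {i k : ℕ} (n : Nx Gn U W i k) :
    L ^ 2 * (sb M m a (k + 1) - sb M m a (i + 1)) ≤ √S.θ := by
  have L0 : 0 < L := one_pos.trans_le H.L1
  refine le_of_pow_le_pow_left₀ (n := 6) (by norm_num) (sqrt_nonneg _) ?_
  have a1 := nt.sh i k n
  have a2 : S.ms (M.s i) ^ 3 ≤ S.θ ^ 3 :=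
    pow_le_pow_left₀ (H.cl.ms_pos (H.cl.s_nn i)).le (H.cl.ms1 _) 3
  have a3 := mul_le_mul_of_nonneg_right (H.LE 13)
    (show 0 ≤ (sb M m a (k + 1) - sb M m a (i + 1)) ^ 6 by positivity)
  have a4 : √S.θ ^ 6 = S.θ ^ 3 := by
    rw [show 6 = 2 * 3 from rfl, pow_mul, sq_sqrt H.cl.θ0.le]
  rw [a4]
  refine le_of_mul_le_mul_left ?_ L0
  have := mul_le_mul_of_nonneg_left a2 L0.le
  linarith

theorem sJ : 1 / (2 * S.C ^ 2) ≤ M.s S.J := by
  have C0 := H.cl.C0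
  have i1 := H.cl.i1
  have i2 := H.cl.i2
  have a1 := H.cl.atom.1.trans (H.cl.z_s (k := S.J - 1) (by omega) (by omega)).2
  have a2 : 4 * S.C ^ 2 * S.v ≤ 1 := (H.dv (H.KE 2 (by norm_num)) H.cl.v0.le H.vμ).trans
    (H.μ1.trans H.l1)
  have a3 := mul_le_mul_of_nonneg_left (H.cl.sm (Nat.sub_le S.J 1)) (pow_pos C0 2).le
  rw [div_le_iff₀ (by positivity)] at a1 ⊢
  linarith

/-- the last node below the corner -/
theorem exV (htu : tu = M.s S.J) (hN : ∀ U V, 5 / 4 * l ≤ M.s U → M.s V + ℓ / 5 ≤ tu →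
    Nt E L S M m a Lg X X2 η Gn U V) : ∃ k1 V, S.jl < k1 ∧ k1 ≤ V ∧ V < S.J ∧
      sb M m a (k1 + 1) ≤ 3 * l ∧ M.s V + ℓ / 4 ≤ tu ∧ sb M m a (V + 1) + ℓ / 4 ≤ tu ∧
      (tu - ℓ / 2 ≤ sb M m a (V + 1) ∨ M.z (S.J - 1) - M.z V ≤ S.C * ℓ) ∧
      tu - sb M m a (V + 1) ≤ ℓ + 10 * S.C ^ 4 * (X ^ ((1 : ℝ) / 3) + M.s S.jl) := by
  classical
  have h := H.cl
  have C0 := h.C0
  have C1 := h.C1
  have v0 := h.v0
  have l0 := H.l0'
  have ℓ0 := H.ℓ0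
  have lu := H.ltu
  have ℓu := H.ℓu
  have R0 := H.R0
  have j0 := H.jl0
  have nℓ : 1000 * S.C * (1 / S.n) ≤ ℓ := H.dv H.CE H.μ0.le H.μℓ
  have nℓ' : 1 / (S.n : ℝ) ≤ ℓ := by simpa using H.dv H.E1 H.μ0.le H.μℓ
  have c1 := H.Cv.trans H.μ1
  have c2 := H.Cv.trans nℓ'
  have c3 : 1000 * S.C ^ 4 * S.v ≤ ℓ := (H.dv (H.KE 4 (by norm_num)) v0.le H.vμ).trans nℓ'
  obtain ⟨k1, -, a1, -, a2⟩ := h.exists_node (t := 2 * l) (by linarith) (by linarith)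
  have a3 : 8 * S.C ^ 2 * l ≤ 1 := H.dv (H.KE 2 (by norm_num)) l0.le H.ln.l1
  have a4 := (H.dsb_cr (k := k1) (by linarith) (by linarith)).2
    (by rw [le_div_iff₀ (by positivity)]; nlinarith [sq_nonneg S.C])
  obtain ⟨a5, a6⟩ := H.idx (k := k1) (by linarith) (by linarith)
  set P : ℕ → Prop := fun k => M.s k + ℓ / 4 ≤ tu ∧ sb M m a (k + 1) + ℓ / 4 ≤ tu with hP
  have p1 : P k1 := ⟨by linarith, by linarith⟩
  have b1 := Nat.le_findGreatest a6.le p1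
  have b2 : P (Nat.findGreatest P S.J) := Nat.findGreatest_spec a6.le p1
  have b3 : ∀ k, Nat.findGreatest P S.J < k → k ≤ S.J → ¬P k := fun k =>
    Nat.findGreatest_is_greatest
  generalize Nat.findGreatest P S.J = V at b1 b2 b3
  have sV := h.sm b1
  obtain ⟨b4, b5⟩ := H.idx (k := V) (by linarith) (by linarith [b2.1])
  have b6 := b3 (V + 1) V.lt_succ_self b5
  refine ⟨k1, V, a5, b1, b5, by linarith, b2.1, b2.2, ?_⟩
  have z0 : 0 ≤ 10 * S.C ^ 4 * (X ^ ((1 : ℝ) / 3) + M.s S.jl) := by positivity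
  by_cases e : M.s (V + 1) + ℓ / 4 ≤ tu
  · have e2 : tu < sb M m a (V + 1 + 1) + ℓ / 4 := lt_of_not_ge fun x => b6 ⟨e, x⟩
    obtain ⟨U, -, u1, -, u2⟩ := h.exists_node (t := 3 / 2 * l) (by linarith) (by linarith)
    obtain ⟨W, w0, w1, -, w2⟩ := h.exists_node (t := tu - ℓ / 5) (by linarith) (by linarith)
    have nt := hN U W (by linarith) (by linarith)
    have VW : V + 1 ≤ W := le_of_not_gt fun x => by linarith [h.sm x.le]
    have i1 := h.i1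
    obtain ⟨i, i2, i3, gi⟩ := H.good nt le_rfl (q := k1) (by omega)
      (i1.trans (H.idx (k := U) (by linarith) (by linarith)).1.le) a6
      (by linarith [min_le_right ℓ l])
    obtain ⟨k, k2, k3, gk⟩ := H.good nt (p := V + 1) (by omega) le_rfl (by omega) w0
      (by linarith [min_le_left ℓ l])
    obtain ⟨i', k', n, q1, q2⟩ := exists_nx (σ := fun k => (k : ℝ)) (t := V + 1 / 2)
      (show i ≤ k by omega) gi gk
      (by have : (i : ℝ) ≤ V := by exact_mod_cast i3.trans b1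
          linarith)
      (by have : ((V + 1 : ℕ) : ℝ) ≤ k := by exact_mod_cast k2
          push_cast at this; linarith)
    have r1 : i' < V + 1 := by
      have : (i' : ℝ) < ((V + 1 : ℕ) : ℝ) := by push_cast; linarith
      exact_mod_cast this
    have r2 : V < k' := by
      have : (V : ℝ) < k' := by linarith
      exact_mod_cast this
    have r3 := H.gap2 nt (n.up i2 k3)
    have r4 := H.A.sb_mono (show i' + 1 ≤ V + 1 from r1)
    have r5 := H.A.sb_mono (show V + 1 + 1 ≤ k' + 1 by omega)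
    have r6 := H.A.sb_mono (show V + 1 ≤ V + 1 + 1 by omega)
    have r7 := le_mul_of_one_le_left (show 0 ≤ sb M m a (k' + 1) - sb M m a (i' + 1) by linarith)
      (one_le_pow₀ (n := 2) H.L1)
    have r8 : 1000 * √S.θ ≤ ℓ := H.dv (by linarith [H.E9]) (sqrt_nonneg _) H.lt.ℓ1
    exact ⟨.inl (by linarith), by linarith⟩
  · have e := lt_of_not_ge e
    have s1 := (h.ss V b5).2
    have i1 := h.i1
    have j1 : S.j0 ≤ S.J - 1 := by omega
    have j2 : S.J - 1 < S.J := by omega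
    have s2 : M.s (S.J - 1) < M.s S.J := h.s_lt j2 j2
    refine ⟨.inr ?_, ?_⟩
    · have := (h.lip _ _ (h.s_nn V) (h.sm (show V ≤ S.J - 1 by omega)) s2).2
      rw [h.z_eq j1 j2, h.z_eq (by omega) b5] at this
      refine this.trans (mul_le_mul_of_nonneg_left ?_ C0.le)
      linarith [le_mul_of_one_le_left v0.le C1]
    · have kN : V ≤ M.N := (b5.trans h.J_lt).le
      have p := (H.del_cr (σ := X ^ ((1 : ℝ) / 3) + S.v + M.s S.jl) (by linarith) (by linarith)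
        (by linarith) (i1.trans_lt b4) b5).1
      have g1 := abs_le.1 (H.lt.g1 (M.s V) V b4 b5 (by linarith) (by linarith) (by linarith [b2.1]))
      have g2 : 1000 * g (M.s V) ≤ ℓ := (H.dv (by linarith [H.E9]) (H.lt.g0 _)
        (H.g_le (t := M.s V) (by linarith) (by linarith [b2.1])).2).trans
          (pow_le_of_le_one ℓ0.le H.ℓ1 (by norm_num))
      obtain ⟨-, t2⟩ := H.A.tail_mem kN
      have e1 := At.sb_sub M m a V
      have d0 : 0 ≤ M.d V := by linarith [h.d_ge V]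
      have d1 := mul_le_mul_of_nonneg_right ((h.d_le kN).trans h.b1)
        (show 0 ≤ 10 * S.C ^ 3 * (X ^ ((1 : ℝ) / 3) + S.v + M.s S.jl) by positivity)
      linarith [mul_le_mul_of_nonneg_left p d0, H.Cm]

/-- the label clock between two good nodes -/
theorem clk26 (nt : Nt E L S M m a Lg X X2 η Gn U W) (hU : l ≤ M.s U) (hW : W < S.J)
    (jU : S.j0 ≤ U) {i k : ℕ} (h1 : U ≤ i) (h2 : i ≤ k) (h3 : k ≤ W) (gi : Gn i) (gk : Gn k) :
    L ^ 2 * ∑ y ∈ Finset.Ioo i k, M.dz m a y * E61.u4 M m a y ^ 2 ≤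
      4 * S.θ * (((k : ℝ) - i) * (S.C * S.v)) := by
  have h := H.cl
  have L0 : 0 < L := one_pos.trans_le H.L1
  have θ0 := h.θ0
  refine le_trans ?_ (mul_le_mul_of_nonneg_left (h.z_tel (jU.trans h1) h2 (h3.trans_lt hW)).2
    (by positivity))
  rw [← At.sum_dz M h2, Finset.mul_sum, Finset.mul_sum]
  refine (Finset.sum_le_sum fun y hy => ?_).trans (Finset.sum_le_sum_of_subset_of_nonneg
    Finset.Ioo_subset_Ioc_self fun y _ _ => mul_nonneg (by positivity) (H.A.dz_nn y))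
  obtain ⟨y1, y2⟩ := Finset.mem_Ioo.1 hy
  obtain ⟨i', k', n, p, q⟩ := exists_nx' gi gk y1.le y2.le
  have n' := n.up h1 h3
  have a1 := nt.u4 i' k' y n' p q
  have a2 := H.gap2 nt n'
  have si := hU.trans (h.sm n'.1)
  have a3 := H.ln.th2 (M.s i') si
    (h.s_le_C ((n'.2.1.trans n'.2.2.1).trans (hW.le.trans h.i3)))
  rw [H.mf_eq] at a3
  have a4 : L ^ 2 * uw S Lg (M.s i') ≤ √S.θ := le_sqrt_of_sq_le (by
    have := H.dv (H.LE 4) (sq_nonneg _) (a3.trans (h.ms1 _))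
    linarith)
  have a5 : L * E61.u4 M m a y ≤ 2 * √S.θ := by
    have := mul_le_mul_of_nonneg_left a1 L0.le
    linarith
  have a6 := pow_le_pow_left₀ (mul_nonneg L0.le (show 0 ≤ E61.u4 M m a y from sqrt_nonneg _)) a5 2
  rw [mul_pow, mul_pow, sq_sqrt θ0.le] at a6
  rw [Md67.dz_up h.leg (by omega)]
  have := mul_le_mul_of_nonneg_left a6 (H.A.dz_nn y)
  linarith

/-- **the floor point** between two good nodes -/
theorem floor26 (nt : Nt E L S M m a Lg X X2 η Gn U W) (hU : M.s S.J / 2 ≤ M.s U) (hW : W < S.J)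
    (htu : tu = M.s S.J) {i k : ℕ} (h1 : U ≤ i) (h3 : k ≤ W) (gi : Gn i) (gk : Gn k)
    (hd : ℓ / 5 ≤ M.s k - M.s i)
    (di : |T156.L0.Gd (lb M S m a (2 * S.C)) (sb M m a (i + 1))| ≤ ℓ)
    (dk : |T156.L0.Gd (lb M S m a (2 * S.C)) (sb M m a (k + 1))| ≤ ℓ) :
    ∃ f ∈ Icc (sb M m a (i + 1)) (sb M m a (k + 1)),
      M.b * Pr.GG (lb M S m a (2 * S.C)) f ≤ 1 + L ^ 2 * (X2 + 1 / S.n) := by
  have h := H.cl
  have C0 := h.C0
  have C1 := h.C1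
  have L0 : 0 < L := one_pos.trans_le H.L1
  have ℓ0 := H.ℓ0
  have lu := H.ltu
  have l0 := H.l0'
  have x0 := H.X20
  have ik : i < k := lt_of_not_ge fun x => by linarith [h.sm x]
  have kJ := h3.trans_lt hW
  have lU : l ≤ M.s U := by linarith
  have si := h.sm h1
  have li := lU.trans si
  have sk := h.s_lt kJ kJ
  obtain ⟨jU, -⟩ := H.idx lU (by linarith [h.sm ik.le])
  have iC := h.s_le_C (ik.le.trans (kJ.le.trans h.i3))
  have c1 := H.clk26 nt lU hW (h.i1.trans jU.le) h1 ik.le h3 gi gk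
  have c2 := (h.s_tel ik.le kJ.le).2
  have e1 := (le_abs_self _).trans (nt.e1 i k h1 ik.le h3 gi gk)
  have μ0 := h.ms_pos (h.s_nn i)
  have t1 := H.ln.th1 _ li iC
  have t2 := H.ln.th2 _ li iC
  rw [H.mf_eq] at t1 t2
  rw [r32 μ0] at t1
  have θμ : S.θ ≤ 64 * S.C ^ 4 * S.ms (M.s i) := by
    have a1 := h.ms_mul (h.s_nn i) (k := 4 * S.C ^ 2) (by nlinarith)
    have a2 := H.sJ
    rw [div_le_iff₀ (by positivity)] at a2
    have a3 := mul_le_mul_of_nonneg_left (hU.trans si) (show 0 ≤ 4 * S.C ^ 2 by positivity)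
    have a4 := h.msm (show 1 ≤ 4 * S.C ^ 2 * M.s i by linarith)
    unfold Sc.θ
    linarith
  have η0 : 0 ≤ η (M.s i) := H.μ0.le.trans (H.μη li iC)
  have rℓ : √(S.ms (M.s i)) ≤ ℓ := (sqrt_le_sqrt (h.ms1 _)).trans H.rθ
  generalize hn : ((k : ℝ) - i) * (S.C * S.v) = n at c1 c2
  generalize hZ : ∑ y ∈ Finset.Ioo i k, M.dz m a y * E61.u4 M m a y ^ 2 = Z at c1 e1
  generalize hμ : S.ms (M.s i) = μ at μ0 t1 t2 θμ rℓ
  have n5 : ℓ ≤ 5 * n := by linarith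
  have n0 : 0 < n := by linarith
  have z1 : 15 * S.C ^ 3 * L ^ 1 * η (M.s i) ≤ μ * (5 * n) :=
    H.dv (H.LL 3 (by norm_num) 1) η0 (t1.trans (mul_le_mul_of_nonneg_left (rℓ.trans n5) μ0.le))
  have z2 : 30 * S.C ^ 3 * L ^ 1 * uw S Lg (M.s i) ^ 2 ≤ μ :=
    H.dv (H.LL 3 (by norm_num) 1) (sq_nonneg _) t2
  have z3 := mul_le_mul_of_nonneg_right z2 n0.le
  have z4 : 3 * S.C ^ 3 * L * Z ≤ μ * n := by
    refine le_of_mul_le_mul_left ?_ L0
    have a1 := mul_le_mul_of_nonneg_left c1 (show 0 ≤ 3 * S.C ^ 3 by positivity)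
    have a2 := mul_le_mul_of_nonneg_left θμ (show 0 ≤ 12 * S.C ^ 3 * n by positivity)
    have a3 := mul_le_mul_of_nonneg_right (H.KL (c := 768) 7 (by norm_num)) (mul_pos μ0 n0).le
    linarith
  have z5 := mul_le_mul_of_nonneg_left (show |T156.L0.Gd (lb M S m a (2 * S.C)) (sb M m a (i + 1))| +
    |T156.L0.Gd (lb M S m a (2 * S.C)) (sb M m a (k + 1))| ≤ 10 * n by linarith)
    (mul_nonneg L0.le (sq_nonneg (uw S Lg (M.s i))))
  have Z0 : 0 ≤ Z := hZ ▸ Finset.sum_nonneg fun y hy => by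
    rw [Md67.dz_up h.leg (by have := (Finset.mem_Ioo.1 hy).1; omega)]
    exact mul_nonneg (H.A.dz_nn y) (sq_nonneg _)
  obtain ⟨f, f1, f2, -⟩ := H.A.floor_pt (jU.trans_le h1) ik (kJ.le.trans h.i3)
    (er := L * (η (M.s i) + uw S Lg (M.s i) ^ 2 * (10 * n) + Z)) (la := L * X2) (by linarith) (by
      refine (mul_le_mul_of_nonneg_right h.b1 (by positivity)).trans ?_
      rw [H.lt.F1, hμ, show ((k : ℝ) - i) * (μ * S.v / (S.C * 1)) = μ * n / S.C ^ 2 by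
        rw [← hn]; field_simp, le_div_iff₀ (by positivity)]
      linarith)
  refine ⟨f, f1, f2.trans ?_⟩
  have a1 := mul_le_mul_of_nonneg_right (h.b1.trans (by simpa using H.KL (c := 1) 1 (by norm_num)))
    (mul_nonneg L0.le x0)
  have a2 : 1 / (m : ℝ) ≤ 1 / S.n := one_div_le_one_div_of_le h.N0 (by exact_mod_cast H.mem.m1)
  linarith [le_mul_of_one_le_left H.μ0.le (one_le_pow₀ (n := 2) H.L1)]

/-- **the first step at the corner** -/
theorem p1 (htu : tu = M.s S.J) {K : ℝ} (hK : K ≤ L)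
    (hG : ∀ {a' b' t : ℝ}, 0 < a' → b' < M.s S.J → t ∈ Icc a' b' →
      |T156.L0.Gd (lb M S m a (2 * S.C)) t| ≤ S.C * (S.ms b' / a') + K * Hq S M m a t +
        2 * |uq S M m a t|)
    (hN : ∀ U V, 5 / 4 * l ≤ M.s U → M.s V + ℓ / 5 ≤ tu → Nt E L S M m a Lg X X2 η Gn U V)
    (hY : Y26 L S M m a l Lg X2 η g tu ℓ p0) :
    ∃ V k0 t0 f, P1 E (L ^ 2) S M m a X X2 ℓ p0 (bs S Lg X2 (g tu) η tu) V k0 t0 f := by
  have h := H.cl
  have A := H.A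
  have C0 := h.C0
  have C1 := h.C1
  have L1 := H.L1
  have L0 : 0 < L := one_pos.trans_le L1
  have ℓ0 := H.ℓ0
  have l0 := H.l0'
  have lu := H.ltu
  have ℓu := H.ℓu
  have R0 := H.R0
  have j0 := H.jl0
  have E0 := zero_le_one.trans H.E1
  have LL2 : L ≤ L ^ 2 := le_self_pow₀ L1 two_ne_zero
  obtain ⟨k1, V, a1, a2, a3, a4, a5, a6, a7, a8⟩ := H.exV htu hN
  have cr : 100 * S.C ^ 4 * (X ^ ((1 : ℝ) / 3) + M.s S.jl) ≤ 2 * l :=
    H.dv (H.KE 4 (by norm_num)) (by positivity)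
      (by rw [mul_add]; linarith [H.lt.lX, H.ln.l0s, H.ln.l0l])
  have r0 := sqrt_pos.2 h.θ0
  have r1 : 8 * S.C ^ 0 * L ^ 1 * √S.θ ≤ ℓ := H.dv (H.LL 0 (by norm_num) 1) r0.le H.lt.ℓ1
  have r2 := mul_pos L0 r0
  have ltu : l ≤ tu := by linarith
  have b0 := H.μbs ltu H.tuC
  have b1 := H.bs_le ltu le_rfl
  have b2 : √(S.ms tu) ≤ ℓ := (sqrt_le_sqrt (h.ms1 _)).trans H.rθ
  have p00 : 0 ≤ p0 := (sqrt_nonneg _).trans H.pa.2.1
  have hq := fun t (q1 : tu / 2 ≤ t) (q2 : t ≤ sb M m a (V + 1) - L * √S.θ) =>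
    hY V a5 a6 (by linarith) t (by linarith) (by linarith)
  have hu := fun t q1 q2 => (hq t q1 q2).2 tu ltu le_rfl (by linarith) (by linarith)
  generalize bs S Lg X2 (g tu) η tu = b at b0 b1 hu ⊢
  generalize hy : sb M m a (V + 1) - L * √S.θ = t0 at hq hu
  have μ0 := H.μ0
  have sm : E * (p0 + b) ≤ 5 * ℓ := by linarith [H.pℓ]
  have P0 : 0 < p0 + b := by linarith
  have D1 : 1000 * S.C ^ 1 * L ^ 1 * (p0 + b) ≤ 5 * ℓ := H.dv (H.LL 1 (by norm_num) 1) P0.le sm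
  have D2 : 1000 * S.C ^ 0 * L ^ 2 * (p0 + b) ≤ 5 * ℓ := H.dv (H.LL 0 (by norm_num) 2) P0.le sm
  have D3 := mul_le_mul_of_nonneg_right (H.KL (c := 8) 1 (by norm_num)) (mul_pos L0 P0).le
  have D4 := le_mul_of_one_le_left P0.le L1
  have D5 := mul_le_mul_of_nonneg_right LL2 P0.le
  have D0 : 0 < 2 * S.C * (L * (p0 + b)) := by positivity
  have loc := fun t => loc26 A (x := t0 - ℓ) (y := t0) (q := L * (p0 + b))
    (D := 2 * S.C * (L * (p0 + b))) (t := t) (h.i1.trans a1.le) a3 (by linarith) (by linarith)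
    (by linarith) (by linarith) (fun t q1 q2 => hu t (by linarith) q2)
    (by nlinarith [H.Cv, mul_pos C0 h.v0]) D0
  generalize hD : 2 * S.C * (L * (p0 + b)) = D at loc D0
  have D6 : 100 * D ≤ ℓ := by linarith
  have D7 : 4 * D ≤ L ^ 2 * (p0 + b) := by linarith
  obtain ⟨k0, c1, c2, c3, c4, c5⟩ := loc (t0 - D) (by linarith) (by linarith)
  obtain ⟨n1, -, d2, -, d4, d5⟩ := loc (t0 - 7 / 8 * ℓ) (by linarith) (by linarith)
  obtain ⟨n2, -, e2, -, -, e5⟩ := loc (t0 - 5 / 8 * ℓ) (by linarith) (by linarith)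
  obtain ⟨n3, -, -, -, -, f5⟩ := loc (t0 - 3 / 8 * ℓ) (by linarith) (by linarith)
  obtain ⟨n4, -, g2, g3, -, g5⟩ := loc t0 (by linarith) le_rfl
  rw [abs_le] at c5 d5 e5 f5 g5
  have nt := hN n1 V (by linarith) (by linarith)
  have mℓ := min_le_left ℓ l
  have jn := h.i1.trans (H.idx (k := n1) (by linarith) (by linarith)).1.le
  have n13 : n1 ≤ n3 := le_of_not_gt fun x => by linarith [h.sm x.le]
  obtain ⟨i, i1, i2, gi⟩ := H.good nt le_rfl e2.le jn (e2.trans a3) (by linarith)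
  obtain ⟨k, k2, k3, gk⟩ := H.good nt n13 g2.le (jn.trans n13) (g2.trans a3) (by linarith)
  have si := h.sm i2
  have sk := h.sm k2
  have ik : i ≤ k := le_of_not_gt fun x => by linarith [h.sm x.le]
  have y1 := A.sb_mono (Nat.succ_le_succ i1)
  have y2 := A.sb_mono (Nat.succ_le_succ ik)
  have y3 := A.sb_mono (Nat.succ_le_succ k3)
  have gd : ∀ t, t0 - ℓ ≤ t → t ≤ t0 → |T156.L0.Gd (lb M S m a (2 * S.C)) t| ≤ ℓ := fun t q1 q2 => by
    have x1 := hG (a' := tu / 2) (b' := t0) (t := t) (by linarith) (by linarith) ⟨by linarith, q2⟩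
    have x2 := (hq t (by linarith) q2).1
    have x3 := hu t (by linarith) q2
    have x4 := mul_le_mul hK (x2.trans (mul_le_mul_of_nonneg_left
      (show p0 ≤ p0 + b by linarith) L0.le)) (Hp_nn26 A t) L0.le
    have x5 : S.ms t0 / (tu / 2) ≤ 4 * S.C ^ 2 * S.θ := by
      have := H.sJ
      rw [div_le_iff₀ (by positivity)] at this
      rw [div_le_iff₀ (by linarith), htu]
      nlinarith [h.ms1 t0, h.θ0]
    have x6 : S.θ ≤ √S.θ := le_sqrt_of_sq_le (by nlinarith [h.θ0, H.θ1])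
    have x7 : 8 * S.C ^ 3 * S.θ ≤ ℓ := H.dv (H.KE 3 (by norm_num)) h.θ0.le
      ((mul_le_mul_of_nonneg_left x6 E0).trans H.lt.ℓ1)
    linarith [mul_le_mul_of_nonneg_left x5 C0.le]
  obtain ⟨f, f1, f2⟩ := H.floor26 nt (by linarith) a3 htu i1 (k3.trans g2.le) gi gk (by linarith)
    (gd _ (by linarith) (by linarith)) (gd _ (by linarith) (by linarith))
  have w1 := mul_le_mul_of_nonneg_right ((H.KL (c := 10) 4 (by norm_num)).trans LL2)
    (show 0 ≤ X ^ ((1 : ℝ) / 3) + M.s S.jl by positivity)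
  have lc : ∀ k, 3 / 4 * tu ≤ M.s k → k ≤ k0 → |sb M m a (k + 1) - M.s k| ≤ L ^ 2 * (p0 + b) :=
    fun k q1 q2 => by
    have x1 := h.sm q2
    have x2 := A.sb_mono (Nat.succ_le_succ q2)
    obtain ⟨x3, x4⟩ := H.idx (k := k) (by linarith) (by linarith)
    have x5 := (H.dsb_cr (k := k) (by linarith) (by linarith)).1
    have x6 := A.dist_le (A.cell x3.le (x4.le.trans h.i3)) (h.i1.trans x3.le) x4 (by linarith)
      (by linarith)
    have x7 := hu (sb M m a (k + 1)) (by linarith) (by linarith)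
    refine x6.trans (le_trans ?_ (show D ≤ L ^ 2 * (p0 + b) by linarith))
    rw [← hD]
    nlinarith [H.Cv, mul_pos C0 h.v0]
  subst htu
  exact ⟨V, k0, t0, f, a1.trans_le a2, a3, a5, a6, a7, by linarith, by linarith, by linarith,
    by linarith, fun t q1 q2 => ⟨(hq t q1 q2).1.trans (mul_le_mul_of_nonneg_right LL2 p00),
      (hu t q1 q2).trans D5⟩, p00, b0, sm, a1.trans_le c1, c2, by linarith, by linarith,
    abs_le.2 ⟨by linarith, by linarith⟩, lc, by linarith [f1.1], by linarith [f1.2], f2, H.X20, j0.le⟩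

end Cx

/-- **(P1)** the first step at the corner -/
def P1S : Prop := CL fun E Λ S M m a =>
  ∀ G1 u1 u2 j γ Lc ηc τ l0 l X Xp Vt Lg Lp X2 X3 X4 G0 η N g t1 ℓ En p0,
  Hy E S M m a G1 u1 u2 j γ Lc ηc τ l0 l X Xp Vt Lg Lp X2 X3 X4 G0 η N g t1 (M.s S.J) ℓ En p0 →
  ∃ V k0 t0 f, P1 E Λ S M m a X X2 ℓ p0 (bs S Lg X2 (g (M.s S.J)) η (M.s S.J)) V k0 t0 f

theorem p1_of (hY : TL2y) (hN : NdT) : P1S := by
  unfold P1S
  refine CL.glue' (CL.and hY hN) (fun E Λ Λ' S M m a h1 h2 h G1 u1 u2 j γ Lc ηc τ l0 l X Xp Vt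
      Lg Lp X2 X3 X4 G0 η N g t1 ℓ En p0 hy => ?_) 2 le_rfl 15 2 fun C A ε η hε hη => ?_
  · obtain ⟨V, k0, t0, f, p⟩ := h _ _ _ _ _ _ _ _ _ _ _ _ _ _ _ _ _ _ _ _ _ _ _ _ _ _ hy
    exact ⟨V, k0, t0, f, p.mono h2 hy.ln.X0.le⟩
  obtain ⟨K, K1, HK⟩ := gd_le (2 * C)
  refine ⟨max K (10 ^ 9 * C ^ 13), fun S M m a G _ e1 _ h hm P G1 u1 u2 j γ Lc ηc τ l0 l X Xp Vt Lg
    Lp X2 X3 X4 G0 η' N g t1 ℓ En p0 hy => ?_⟩
  rw [pow_one] at hy ⊢
  obtain ⟨Gn, hN⟩ := P.2 _ _ _ _ _ _ _ _ _ _ _ _ _ _ _ _ _ _ _ _ _ _ _ _ _ _ _ hy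
  have y := (P.1 _ _ _ _ _ _ _ _ _ _ _ _ _ _ _ _ _ _ _ _ _ _ _ _ _ _ _ hy).2.2.2
  have n0 := G.N0
  have H : Cx ((S.n : ℝ) ^ ε) ((S.n : ℝ) ^ η) S M m a G1 u1 u2 j γ Lc ηc τ l0 l X Xp Vt Lg Lp X2 X3
      X4 G0 η' N g t1 (M.s S.J) ℓ En p0 := by
    refine ⟨hy, h, hm, ?_, ?_, G.log_le, ?_, ?_⟩
    · rw [G.hC]; exact (le_max_right _ _).trans G.K_le
    · rw [← rpow_natCast, ← rpow_mul n0.le]
      exact rpow_le_rpow_of_exponent_le G.N1.le (by rw [mul_comm]; exact e1)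
    · rw [G.hC]; exact G.C_log
    · have a2 : (S.n : ℝ) ^ 2 ≤ (S.n : ℝ) ^ S.A := pow_le_pow_right₀ G.N1.le (G.hA ▸ G.A2)
      rw [one_div, inv_pow, ← div_eq_mul_inv, le_div_iff₀ (pow_pos n0 2)]
      exact (mul_le_mul_of_nonneg_left a2 h.v0.le).trans h.v2
  exact H.p1 rfl ((le_max_left _ _).trans G.K_le) (HK H.A (by rw [G.hC])) hN y

end Crest.Agent.T156.Alt.L63

end
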