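import Crest.Agent.T156.NdA_89

/-!
# Row 156, block (L): the net of good nodes, node facts (helper89)
-/

set_option autoImplicit false

noncomputable section

namespace Crest.Agent.T156.Alt.G89

open Real Finset
open Crest.Agent.T156.Alt.E61 Crest.Agent.T156.Alt.Mp9 Crest.Agent.T156.Alt.Sz9
open Crest.Agent.T156.Alt.L69 (LN cr cl mf uw gg Phi)
open Crest.Agent.T156.Alt.Nd22 (NI NO NodeS ee Go)

/-- the good set -/
def GN (S : Sc) (M : Md) (m : ℕ) (a l0 V L Lg : ℝ) : ℕ → Prop :=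
  Gn S M m a l0 (fun t => L * cl S V t) (Lg / (4 * S.C ^ 4 * L)) (S.J - 1)
/-- the envelope -/
def evn (S : Sc) (M : Md) (m : ℕ) (a Lg : ℝ) (y : ℕ) : ℝ :=
  Env96.ev (M.rb m a) (Lg * cr S (M.s y) * S.v) (y - y / 3) (min (y + y / 3) (S.J - 1)) y
/-- nodes far enough from the corner -/
def Okn (S : Sc) (M : Md) (m : ℕ) (a Lg : ℝ) (y : ℕ) : Prop :=
  y + 1 < S.J ∧ (y + y / 3 < S.J ∨ 2 * log S.n * (Ug S Lg (M.s y) + evn S M m a Lg y) ≤
    Lg * cr S (M.s y) * (((S.J : ℝ) - y) * S.v))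

namespace Cz

variable {D E Λ L : ℝ} {S : Sc} {M : Md} {m : ℕ} {a T G1 l0 l V X Lg X2 X3 G0 W3 : ℝ} {η : ℝ → ℝ}
  (Z : Cz D E Λ L S M m a T G1 l0 l V X Lg X2 X3 G0 W3 η)
include Z

theorem sC {y : ℕ} (h : y < S.J) : M.s y ≤ S.C := Z.A.cl.s_le_C (by have := Z.A.cl.i3; omega)

theorem jl4 {y : ℕ} (h1 : l0 ≤ M.s y) (h2 : y ≤ S.J) : 4 * S.jl ≤ y := by
  have h := Z.A.cl
  have a1 := (h.s_bds h2).2
  have a2 := (h.s_bds h.jl_lt.le).1
  have c := h.C0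
  have v := h.v0
  have a3 : 4 * S.C ^ 2 ≤ E := by
    linarith [Z.Cp (k := 2) (by norm_num), Z.D_E, show 0 < S.C ^ 2 by positivity]
  have a4 : 4 * S.C ^ 2 * (S.jl * (S.v / S.C)) ≤ y * (S.C * S.v) :=
    (mul_le_mul a3 a2 (by positivity) (by linarith [Z.E1])).trans (Z.ln.l0s.trans (h1.trans a1))
  have e : 4 * S.C ^ 2 * (S.jl * (S.v / S.C)) = (4 * S.jl : ℕ) * (S.C * S.v) := by
    push_cast; field_simp
  rw [e] at a4
  exact_mod_cast le_of_mul_le_mul_right a4 (by positivity)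

theorem Lq_pos : 0 < Lg / (4 * S.C ^ 4 * L) := by
  have := Z.A.cl.C0
  have := Z.ni.L1
  have := Z.E1.trans Z.EL
  positivity

theorem kap {y : ℕ} (h1 : l ≤ M.s y) : 2 * S.C ^ 3 * (Lg / (4 * S.C ^ 4 * L)) *
    cq M l0 (fun t => L * cl S V t) y ≤ Lg * cr S (M.s y) / S.C := by
  have c := Z.A.cl.C0
  have L1 := Z.ni.L1
  have g := Z.E1.trans Z.EL
  have t0 := Z.lp.trans_le h1
  have a1 : cq M l0 (fun t => L * cl S V t) y ≤ 2 * L * cr S (M.s y) := by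
    rw [cq, tl_eq (Z.ln.l0l.trans h1), div_le_iff₀ t0]
    nlinarith [mul_le_mul_of_nonneg_left (Z.cl_le h1) (show 0 ≤ L by linarith)]
  refine (mul_le_mul_of_nonneg_left a1 (by positivity)).trans_eq ?_
  field_simp
  ring

theorem ev_le {p y q : ℕ} (h1 : l ≤ M.s y) (gp : GN S M m a l0 V L Lg p)
    (gq : GN S M m a l0 V L Lg q ∨ q = S.J - 1) (u1 : p ≤ y) (u2 : y ≤ q) (u3 : q < S.J) :
    evn S M m a Lg y ≤ 2 * ds M m a p q := by
  have c := Z.A.cl.C1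
  have a0 := Z.kap h1
  have a1 : 0 ≤ Lg * cr S (M.s y) := by
    have := Ab33.cr_one S (M.s y); have := Z.E1.trans Z.EL; positivity
  have a2 := div_le_self a1 c
  have a3 := mul_le_mul_of_nonneg_right (show 2 * S.C ^ 2 ≤ 2 * S.C ^ 3 by nlinarith)
    (mul_nonneg Z.Lq_pos.le (zero_le_one.trans (Z.cx.cq_ge y)))
  have a4 := Z.cx.ev_gap gp gq Z.Lq_pos.le (Nat.sub_le _ _) u1 u2 (by omega)
    (κ := Lg * cr S (M.s y)) (by linarith)
  have a5 := Z.A.sb_rb (u1.trans u2) (k := q) (u3.trans Z.A.cl.J_lt).le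
  have a6 := Z.A.cl.leg.Hm (u1.trans u2)
  unfold evn ds
  linarith

theorem k1 {y : ℕ} (h1 : l ≤ M.s y) : L * cl S V (M.s y) ≤ Lg * cr S (M.s y) * M.s y := by
  have t0 := Z.lp.trans_le h1
  have c := Ab33.cr_one S (M.s y)
  have a1 : 2 * L ≤ Lg := by
    nlinarith [Z.DpE (i := 2) (by norm_num), Z.EL, Z.LD, Z.D4]
  nlinarith [mul_le_mul_of_nonneg_left (Z.cl_le h1) (show 0 ≤ L by linarith [Z.ni.L1]),
    mul_le_mul_of_nonneg_right a1 (show 0 ≤ cr S (M.s y) * M.s y by positivity)]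

theorem go {j : ℕ} (h1 : max l (2 * l0) ≤ M.s j) (g : GN S M m a l0 V L Lg j)
    (o : Okn S M m a Lg j) : Go L S M m a l0 l V Lg η j (Lg * cr S (M.s j)) (η (M.s j)) := by
  obtain ⟨o1, o2⟩ := o
  have a1 := (le_max_left _ _).trans h1
  have a2 := Z.sC (show j < S.J by omega)
  have a3 := Z.jl4 (Z.ln.l0l.trans a1) (show j ≤ S.J by omega)
  have := Z.A.cl.i1
  refine ⟨a1, (le_max_right _ _).trans h1, o1, Z.k1 a1, le_mul_of_one_le_right
    (by linarith [Z.E1, Z.EL]) (Ab33.cr_one S _), Z.kap_le a1 a2, o2.imp id fun h => ?_,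
    Z.cx.gd g Z.Lq_pos.le (by omega) (by omega) (by omega) (Z.kap a1), (Z.eta_pos a1 a2).le,
    fun _ => le_rfl⟩
  have := mul_nonneg (log_natCast_nonneg S.n) (show 0 ≤ evn S M m a Lg j from Env96.ev_nonneg)
  unfold Ug at h
  linarith

theorem pt {p y q : ℕ} (h1 : l ≤ M.s y) (gp : GN S M m a l0 V L Lg p)
    (gq : GN S M m a l0 V L Lg q) (u1 : p ≤ y) (u2 : y ≤ q) (u3 : q < S.J)
    (o : Okn S M m a Lg y) : u4 M m a y ≤ Λ * (Ug S Lg (M.s y) + 2 * ds M m a p q) :=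
  (Z.no.pt y _ _ (Z.ln.l0l.trans h1) (by omega) (Z.k1 h1) (Z.kap_le h1 (Z.sC (by omega))) le_rfl
    o.2).trans (mul_le_mul_of_nonneg_left (add_le_add_right
      (Z.ev_le h1 gp (Or.inl gq) u1 u2 u3) _) (by linarith [Z.Λ1]))

theorem ee_le {t : ℝ} (h1 : l ≤ t) (h2 : t ≤ S.C) :
    Λ * L ^ 5 * ee S X2 X3 G0 W3 (Lg * cr S t) t (η t) ≤ D ^ 8 * η t := by
  have L1 := Z.ni.L1
  have Λ1 := Z.Λ1
  have e0 := Z.eta_pos h1 h2
  have D4 := Z.D4
  calc _ ≤ Λ * L ^ 5 * ((2 + L) * η t) := by gcongr; exact (Z.eta_b h1 h2).2.2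
    _ ≤ D * D ^ 5 * ((D * D) * η t) := by
        gcongr
        exacts [Z.ΛD, Z.LD, by nlinarith [Z.LD]]
    _ = _ := by ring

theorem la_le : Λ * L ^ 3 * X2 ≤ D ^ 4 * X2 := by
  have L1 := Z.ni.L1
  have D4 := Z.D4
  have := Z.X20
  calc _ ≤ D * D ^ 3 * X2 := by gcongr; exacts [Z.ΛD, Z.LD]
    _ = _ := by ring

theorem e1 {i k : ℕ} (h1 : max l (2 * l0) ≤ M.s i) (h : i ≤ k) (gi : GN S M m a l0 V L Lg i)
    (gk : GN S M m a l0 V L Lg k) (oi : Okn S M m a Lg i) (ok : Okn S M m a Lg k) :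
    |res M S m a T k - res M S m a T i| ≤
      D ^ 8 * η (M.s i) + D * Ug S Lg (M.s i) ^ 2 * gd M S m a T i +
      (D ^ 8 * η (M.s k) + D * Ug S Lg (M.s k) ^ 2 * gd M S m a T k) +
      (D ^ 4 * X2 * ds M m a i k + D * ∑ y ∈ Ioo i k, M.dz m a y * u4 M m a y ^ 2) := by
  have h2 := h1.trans (Z.A.cl.sm h)
  have a1 := (le_max_left _ _).trans h1
  have a2 := (le_max_left _ _).trans h2
  have b1 := Z.sC (show i < S.J by have := oi.1; omega)
  have b2 := Z.sC (show k < S.J by have := ok.1; omega)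
  have D0 : 0 ≤ D := by linarith [Z.D4]
  have g1 : 0 ≤ gd M S m a T i := abs_nonneg _
  have g2 : 0 ≤ gd M S m a T k := abs_nonneg _
  rcases h.eq_or_lt with rfl | c
  · have := Z.eta_pos a1 b1
    simp only [sub_self, abs_zero, ds, Ioo_self, sum_empty, mul_zero, add_zero]
    positivity
  have c1 := Z.no.df T Z.A i _ _ k _ _ (Z.go h1 gi oi) (Z.go h2 gk ok) c
  have c2 := mul_le_mul_of_nonneg_right Z.ΛD (mul_nonneg (sq_nonneg (Ug S Lg (M.s i))) g1)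
  have c3 := mul_le_mul_of_nonneg_right Z.ΛD (mul_nonneg (sq_nonneg (Ug S Lg (M.s k))) g2)
  have c4 := mul_le_mul_of_nonneg_right Z.la_le (ds_nn Z.A h)
  have c5 := mul_le_mul_of_nonneg_right Z.ΛD (sum_nonneg (s := Ioo i k)
    (f := fun y => M.dz m a y * u4 M m a y ^ 2) fun y hy => mul_nonneg (by
      rw [Md67.dz_up Z.A.cl.leg (by have := (mem_Ioo.1 hy).1; omega)]
      exact Z.A.dz_nn y) (sq_nonneg _))
  have c6 := Z.ee_le a1 b1
  have c7 := Z.ee_le a2 b2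
  unfold Ug gd ds at *
  linarith

theorem th_le : 4 * S.C / (Lg / (4 * S.C ^ 4 * L)) ≤ D ^ 2 / Lg := by
  have c := Z.A.cl.C0
  have L1 := Z.ni.L1
  have g := Z.E1.trans Z.EL
  rw [div_div_eq_mul_div]
  gcongr
  nlinarith [mul_le_mul (show 16 * S.C ^ 5 ≤ D by
    linarith [Z.Cp (k := 5) (by norm_num), show 0 < S.C ^ 5 by positivity]) Z.LD (by linarith)
    (by linarith [Z.D4])]

theorem lab {i k : ℕ} (h1 : l0 ≤ M.s i) (h : i < k) (hk : k < S.J) (gi : GN S M m a l0 V L Lg i)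
    (gk : GN S M m a l0 V L Lg k ∨ k = S.J - 1)
    (hb : ∀ y, i < y → y < k → ¬ GN S M m a l0 V L Lg y) :
    M.z (k - 1) - M.z i ≤ D ^ 2 / Lg * ds M m a i k ∧
      M.z k ≤ M.z i + (S.C * S.v + D ^ 2 / Lg * ds M m a i k) := by
  have a1 := Z.jl4 h1 (show i ≤ S.J by omega)
  have := Z.A.cl.i1
  obtain ⟨b1, b2⟩ := Z.cx.gap_lab Z.A gi gk Z.Lq_pos (by omega) h hk hb
  have b3 := mul_le_mul_of_nonneg_right Z.th_le (ds_nn Z.A h.le)
  unfold ds at *
  constructor <;> linarith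

theorem ex {p q : ℕ} (h1 : l ≤ M.s p) (h : p ≤ q) (hq : q < S.J) (h2 : 2 * q ≤ 3 * p)
    (big : D ^ 3 * M.s p ≤ Lg * S.v * ((q : ℝ) - p + 1)) :
    ∃ i, p ≤ i ∧ i ≤ q ∧ GN S M m a l0 V L Lg i := by
  have a1 := Z.jl4 (Z.ln.l0l.trans h1) (show p ≤ S.J by omega)
  have := Z.A.cl.i1
  have c := Z.A.cl.C0
  have L1 := Z.ni.L1
  have t0 := Z.lp.trans_le h1
  have D4 := Z.D4
  refine Z.cx.exists_cru Z.Lq_pos.le (by omega) h h2 (by omega) (by omega) ?_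
  rw [tl_eq (Z.ln.l0l.trans h1), div_mul_eq_mul_div, div_mul_eq_mul_div, lt_div_iff₀ (by positivity)]
  refine lt_of_lt_of_le ?_ big
  have b1 : 96 * S.C ^ 7 < D := by
    linarith [Z.Cp (k := 7) (by norm_num), show 0 < S.C ^ 7 by positivity]
  have b2 : 4 * S.C ^ 4 ≤ D := by
    linarith [Z.Cp (k := 4) (by norm_num), show 0 < S.C ^ 4 by positivity]
  calc _ < D * M.s p * (D * D) := by
        refine mul_lt_mul (by gcongr) (mul_le_mul b2 Z.LD (by linarith) (by linarith))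
          (by positivity) (by positivity)
    _ = _ := by ring

theorem exs {p q : ℕ} {D0 : ℝ} (h : p ≤ q) (hq : q < S.J) (d0 : 0 < D0)
    (hD : ∀ k, p - p / 3 ≤ k → k ≤ min (q + q / 3) (S.J - 1) → |M.del m a k| ≤ D0)
    (big : D ^ 2 * D0 ≤ Lg * S.v * ((q : ℝ) - p + 1)) :
    ∃ i, p ≤ i ∧ i ≤ q ∧ GN S M m a l0 V L Lg i := by
  have c := Z.A.cl.C0
  have L1 := Z.ni.L1
  have D4 := Z.D4
  have b : ∀ k ≤ 10, 100 * S.C ^ k * L ≤ D ^ 2 := fun k hk => by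
    nlinarith [mul_le_mul (Z.Cp hk) Z.LD (by linarith) (by linarith),
      show 0 < S.C ^ k * L by positivity]
  refine Z.cx.exists_sup Z.hθ ?_ h (by omega) (by omega) hD ?_
  · rw [le_div_iff₀ (by positivity)]
    linarith [b 5 (by norm_num), Z.DpE (i := 2) (by norm_num), Z.EL,
      show 0 < S.C ^ 5 * L by positivity]
  · rw [div_mul_eq_mul_div, div_mul_eq_mul_div, lt_div_iff₀ (by positivity)]
    nlinarith [mul_le_mul_of_nonneg_right (b 4 (by norm_num)) d0.le,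
      show 0 < S.C ^ 4 * L * D0 by positivity]

/-- **the last usable good node** -/
theorem exV {U : ℕ} {D1 τ1 : ℝ} (P : Tau E S M m a T Lg D1 τ1 η) (h1 : l ≤ M.s U)
    (gU : GN S M m a l0 V L Lg U) (hU : 4 * U < 3 * S.J) : ∃ V1, GN S M m a l0 V L Lg V1 ∧
    (∀ y ≤ V1, Okn S M m a Lg y) ∧ (∀ j, GN S M m a l0 V L Lg j → 4 * j < 3 * S.J → j ≤ V1) ∧
    M.z (S.J - 1) - M.z V1 ≤ S.C * S.v + D ^ 2 * τ1 + 2 * D ^ 2 / Lg * ds M m a V1 (S.J - 1) := by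
  classical
  have h := Z.A.cl
  have a0 := Z.jl4 (Z.ln.l0l.trans h1) (show U ≤ S.J by omega)
  have := h.i0
  have := h.i1
  have ex : ∃ y, ¬ Okn S M m a Lg y := ⟨S.J - 1, fun o => by have := o.1; omega⟩
  have y1 : Nat.find ex ≤ S.J - 1 := Nat.find_min' ex fun o => by have := o.1; omega
  have y2 := Nat.find_spec ex
  have y3 : ∀ y < Nat.find ex, Okn S M m a Lg y := fun y c => not_not.1 (Nat.find_min ex c)
  set y := Nat.find ex
  have y4 : 3 * S.J ≤ 4 * y := by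
    by_contra c
    exact y2 ⟨by omega, Or.inl (by omega)⟩
  have v1 : ∀ j, GN S M m a l0 V L Lg j → j < y → j ≤ Nat.findGreatest (GN S M m a l0 V L Lg) (y - 1) :=
    fun j g c => Nat.le_findGreatest (by omega) g
  have v2 : Nat.findGreatest (GN S M m a l0 V L Lg) (y - 1) ≤ y - 1 := Nat.findGreatest_le _
  have v3 := Nat.findGreatest_spec (show U ≤ y - 1 by omega) gU
  set V1 := Nat.findGreatest (GN S M m a l0 V L Lg) (y - 1)
  have uV := v1 U gU (by omega)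
  refine ⟨V1, v3, fun x c => y3 x (by omega), fun j g c => v1 j g (by omega), ?_⟩
  have eq : ∃ q, V1 < q ∧ (GN S M m a l0 V L Lg q ∨ q = S.J - 1) := ⟨S.J - 1, by omega, Or.inr rfl⟩
  obtain ⟨q1, q2⟩ := Nat.find_spec eq
  have q3 : Nat.find eq ≤ S.J - 1 := Nat.find_min' eq ⟨by omega, Or.inr rfl⟩
  have q4 : ∀ x, V1 < x → x < Nat.find eq → ¬ GN S M m a l0 V L Lg x := fun x c1 c2 g =>
    Nat.find_min eq c2 ⟨c1, Or.inl g⟩
  set q := Nat.find eq
  have q5 : y ≤ q := by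
    by_contra c
    rcases q2 with g | g
    · have := v1 q g (by omega); omega
    · omega
  have s1 : l ≤ M.s V1 := h1.trans (h.sm uV)
  have s2 : l ≤ M.s y := s1.trans (h.sm (by omega))
  have b1 := (Z.lab (Z.ln.l0l.trans s1) q1 (by omega) v3 q2 q4).2
  have b2 : ds M m a V1 q ≤ ds M m a V1 (S.J - 1) := sub_le_sub_right (Z.A.sb_mono (by omega)) _
  have b3 := ds_nn Z.A q1.le
  have g := Z.E1.trans Z.EL
  have D4 := Z.D4
  have b4 : D ^ 2 / Lg * ds M m a V1 q ≤ D ^ 2 / Lg * ds M m a V1 (S.J - 1) := by gcongr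
  have b5 := h.leg.zm q5
  have w := Z.w3p (Z.lp.trans_le s2)
  have w0 : 0 ≤ w1 S (M.s y) := by unfold w1; positivity
  have t1 := (P.t1 y (by omega) (by omega)).2
  have e : 2 * D ^ 2 / Lg * ds M m a V1 (S.J - 1) = 2 * (D ^ 2 / Lg * ds M m a V1 (S.J - 1)) := by
    ring
  have b6 : 0 ≤ D ^ 2 / Lg * ds M m a V1 (S.J - 1) := le_trans (by positivity) b4
  suffices M.z (S.J - 1) - M.z y ≤ D ^ 2 * τ1 + D ^ 2 / Lg * ds M m a V1 (S.J - 1) by linarith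
  rcases y1.eq_or_lt with c | c
  · rw [← c, sub_self, c]
    exact add_nonneg (mul_nonneg (by positivity) (w0.trans t1)) b6
  have c1 : Lg * cr S (M.s y) * (((S.J : ℝ) - y) * S.v) <
      2 * log S.n * (Ug S Lg (M.s y) + evn S M m a Lg y) :=
    not_le.1 fun o => y2 ⟨by omega, Or.inr o⟩
  have c2 := Z.ev_le s2 v3 q2 (by omega) q5 (by omega)
  have cr1 := Ab33.cr_one S (M.s y)
  have k1 : 1 ≤ Lg * cr S (M.s y) := one_le_mul_of_one_le_of_one_le g cr1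
  have c3 : Ug S Lg (M.s y) ≤ Lg * cr S (M.s y) * τ1 := by
    unfold Ug Nd22.U
    exact mul_le_mul (rpow_le_self_of_one_le k1 (by norm_num)) t1 w0 (by linarith)
  have c4 : 2 * ds M m a V1 (S.J - 1) ≤ Lg * cr S (M.s y) * (2 / Lg * ds M m a V1 (S.J - 1)) := by
    rw [show Lg * cr S (M.s y) * (2 / Lg * ds M m a V1 (S.J - 1)) =
      cr S (M.s y) * (2 * ds M m a V1 (S.J - 1)) by field_simp]
    exact le_mul_of_one_le_left (by linarith) cr1
  have c5 : ((S.J : ℝ) - y) * S.v ≤ 2 * D * (τ1 + 2 / Lg * ds M m a V1 (S.J - 1)) := by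
    refine le_of_mul_le_mul_left (c1.le.trans ?_) (show 0 < Lg * cr S (M.s y) by linarith)
    have := mul_le_mul Z.lg (show Ug S Lg (M.s y) + evn S M m a Lg y ≤
      Lg * cr S (M.s y) * (τ1 + 2 / Lg * ds M m a V1 (S.J - 1)) by linarith)
      (add_nonneg (Z.Ug_nn s2) Env96.ev_nonneg) (by linarith)
    linarith
  have c6 := (h.z_tel (i := y) (j := S.J - 1) (by omega) y1 (by omega)).2
  rw [Nat.cast_sub (by omega), Nat.cast_one] at c6
  have c7 := mul_le_mul_of_nonneg_left c5 h.C0.le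
  have c8 : 4 * S.C ≤ D := by linarith [Z.Cp (k := 1) (by norm_num), h.C0]
  have c9 := mul_le_mul_of_nonneg_right c8 (show 0 ≤ D * τ1 from mul_nonneg (by linarith) (w0.trans t1))
  have d1 := mul_le_mul_of_nonneg_right c8 (show 0 ≤ D / Lg * ds M m a V1 (S.J - 1) from
    mul_nonneg (by positivity) (b3.trans b2))
  have d2 := mul_pos h.C0 h.v0
  have d3 := mul_nonneg h.C0.le (show 0 ≤ D * τ1 from mul_nonneg (by linarith) (w0.trans t1))
  have e1 : D ^ 2 / Lg * ds M m a V1 (S.J - 1) = D * (D / Lg * ds M m a V1 (S.J - 1)) := by ring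
  have e2 : S.C * (2 * D * (τ1 + 2 / Lg * ds M m a V1 (S.J - 1))) =
    2 * (S.C * (D * τ1)) + 4 * S.C * (D / Lg * ds M m a V1 (S.J - 1)) := by ring
  linarith

end Cz

end Crest.Agent.T156.Alt.G89

end
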