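import Crest.Agent.T156.TLp_62
import Crest.Agent.T156.PgZ_33
import Crest.Agent.T156.NdB_89
import Crest.Agent.T156.NdS_22
import Crest.Agent.T156.GdT_65

/-!
# Row 156, block (L): good nodes of the plateau and their sloped partners (helper54)
-/

set_option autoImplicit false

noncomputable section

namespace Crest.Agent.T156.Alt.L62

open Real Finset
open Crest.Agent.T156.Alt.L69 Crest.Agent.T156.Alt.Mp9 Crest.Agent.T156.Alt.L63
open Crest.Agent.T156.Alt.E61 Crest.Agent.T156.Alt.Sz9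
open Crest.Agent.T156.Alt.Nd22 (NI NO)
open Crest.Agent.T156.Alt.Nd33 (PG SV PO ep sl PgS)
open Crest.Agent.T156.Alt.G89 (Cz GN Okn Ug)

/-- crude location and the top sums under the hypotheses of (TL2) -/
def NiS54 : Prop := CL fun E Λ S M m a =>
  ∀ G1 u1 u2 j γ Lc ηc τ l0 l X Xp Vt Lg Lp X2 X3 X4 G0 η N g t1 tu ℓ En p0,
  Hy E S M m a G1 u1 u2 j γ Lc ηc τ l0 l X Xp Vt Lg Lp X2 X3 X4 G0 η N g t1 tu ℓ En p0 →
  ∃ W3, NI Λ S M m a l0 (X ^ ((1 : ℝ) / 3)) X2 G0 W3 ∧ W3 ≤ Λ * η S.C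

theorem young54 {u s : ℝ} (u0 : 0 ≤ u) (s0 : 0 < s) : u ^ 2 ≤ s ^ 2 + u ^ 3 / s := by
  rcases le_total u s with h | h
  · have := pow_le_pow_left₀ u0 h 2
    have : 0 ≤ u ^ 3 / s := by positivity
    linarith
  · have : u ^ 2 ≤ u ^ 3 / s := by
      rw [le_div_iff₀ s0]
      nlinarith [mul_le_mul_of_nonneg_left h (sq_nonneg u)]
    linarith [sq_nonneg s]

theorem idx54 {S : Sc} {M : Md} (h : Cl S M) {x : ℝ} (x0 : 0 ≤ x) (x1 : x < M.s S.J) :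
    ∃ k, k < S.J ∧ M.s k ≤ x ∧ x < M.s (k + 1) := by
  have jl := h.jl_lt
  have ex : ∃ k, x < M.s (k + 1) := ⟨S.J - 1, by rwa [Nat.sub_add_cancel (by omega)]⟩
  classical
  refine ⟨Nat.find ex, ?_, ?_, Nat.find_spec ex⟩
  · have := Nat.find_min' ex (m := S.J - 1) (by rwa [Nat.sub_add_cancel (by omega)])
    omega
  · rcases Nat.eq_zero_or_pos (Nat.find ex) with e | e
    · rw [e, h.s0]; exact x0
    · have := Nat.find_min ex (m := Nat.find ex - 1) (by omega)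
      rw [Nat.sub_add_cancel e] at this
      exact not_lt.1 this

/-- the slope term against the size -/
theorem wr_le {S : Sc} {M : Md} (h : Cl S M) (u0 : 0 < S.u0) {Xp Vt γ : ℝ} (X0 : 0 < Xp)
    (V0 : 0 ≤ Vt) (γ0 : 0 ≤ γ) (w0 : 0 ≤ S.w3 1) {k : ℕ} (k1 : S.J ≤ k) (k2 : k < S.Jp) :
    0 ≤ ap M S Xp Vt γ k ∧ 0 ≤ sl M S Xp Vt γ k - 1 ∧
      S.w3 1 * (sl M S Xp Vt γ k - 1) ≤ ap M S Xp Vt γ k ^ 2 := by
  have d0 := SzT98.ds_pos h u0 k1 k2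
  have d1 : ds M S k ≤ 1 := (min_le_right _ _).trans (by unfold du; linarith [h.z_pos (k - 1)])
  have n0 := h.den0 (M.z (k - 1))
  have r0 : 0 ≤ Rp M S Xp Vt γ k + Xp ^ ((1 : ℝ) / 3) := by
    have : 0 ≤ min Vt (√(Xp / du M k)) := le_min V0 (sqrt_nonneg _)
    unfold Rp; positivity
  unfold ap sl lsh
  generalize Rp M S Xp Vt γ k + Xp ^ ((1 : ℝ) / 3) = ρ at *
  generalize S.den (M.z (k - 1)) = n at *
  generalize ds M S k = d at *
  generalize S.w3 1 = w at *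
  have c0 := sqrt_nonneg (w / (n * d))
  have b0 : 0 ≤ w / (n * d ^ 2) := by positivity
  have i0 : 0 ≤ w * (n + ρ ^ 2 / (d ^ 2 * n)) := by positivity
  have a3 := Nd22.cb3 i0
  have a0 : 0 ≤ (w * (n + ρ ^ 2 / (d ^ 2 * n))) ^ ((1 : ℝ) / 3) := by positivity
  generalize (w * (n + ρ ^ 2 / (d ^ 2 * n))) ^ ((1 : ℝ) / 3) = A at *
  refine ⟨by positivity, by rw [add_sub_cancel_left]; positivity, ?_⟩
  rw [add_sub_cancel_left, show w * (ρ / (n * d)) = w / (n * d) * ρ by ring]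
  have W0 : 0 ≤ w / (n * d) := by positivity
  have Wb : w / (n * d) ≤ w / (n * d ^ 2) :=
    div_le_div_of_nonneg_left w0 (by positivity) (by nlinarith [mul_pos n0 d0])
  have WA : w / (n * d) * ρ ^ 2 ≤ A ^ 3 := by
    rw [a3]
    have := mul_le_mul_of_nonneg_right Wb (sq_nonneg ρ)
    have e : w * (n + ρ ^ 2 / (d ^ 2 * n)) = w * n + w / (n * d ^ 2) * ρ ^ 2 := by
      field_simp
    have : 0 ≤ w * n := by positivity
    linarith
  generalize w / (n * d) = W at *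
  generalize w / (n * d ^ 2) = B at *
  generalize √W = c at *
  rcases le_total ρ W with e | e
  · have x1 : W * ρ ≤ B * B := mul_le_mul Wb (e.trans Wb) r0 b0
    have x2 : B ^ 2 ≤ (A + B + c) ^ 2 := pow_le_pow_left₀ b0 (by linarith) 2
    linarith
  · have x1 : W * ρ ≤ A ^ 2 := by
      refine le_of_pow_le_pow_left₀ three_ne_zero (sq_nonneg _) ?_
      have y1 : (W * ρ ^ 2) ^ 2 ≤ (A ^ 3) ^ 2 := pow_le_pow_left₀ (by positivity) WA 2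
      have y2 := mul_le_mul_of_nonneg_left e (show 0 ≤ W ^ 2 * ρ ^ 3 by positivity)
      linarith
    have x2 : A ^ 2 ≤ (A + B + c) ^ 2 := pow_le_pow_left₀ a0 (by linarith) 2
    linarith

/-- the pointwise context -/
structure C54 (D E : ℝ) (S : Sc) (M : Md) (m : ℕ) (a G1 u1 u2 j γ Lc ηc τ l0 l X Xp Vt Lg Lp X2 X3
    X4 G0 : ℝ) (η : ℝ → ℝ) (N : ℝ) (g : ℝ → ℝ) (t1 ℓ En p0 W3 : ℝ) : Prop where
  Z : Cz D E D D S M m a (2 * S.C) G1 l0 l (X ^ ((1 : ℝ) / 3)) X Lg X2 X3 G0 W3 η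
  H : Hy E S M m a G1 u1 u2 j γ Lc ηc τ l0 l X Xp Vt Lg Lp X2 X3 X4 G0 η N g t1 (M.s S.J) ℓ En p0
  po : 8 * S.jl ≤ S.J → ∀ v G ev N2, v ≤ S.J → SV S M m a v G ev → Nu M m a (u4 M m a) 2 ≤ N2 →
    PO D S M m a G ev N2
  sz : ∑ k ∈ Ico S.J M.N, M.dz m a k * u4 M m a k ^ 2 ≤ D * Np M S Xp Vt γ u1 Lp 2
  out : ∀ k, S.J ≤ 8 * k → k < S.J → Gd65.Out D S M m a (2 * S.C) j γ (X ^ ((1 : ℝ) / 3)) k

namespace C54

variable {D E : ℝ} {S : Sc} {M : Md} {m : ℕ} {a G1 u1 u2 j γ Lc ηc τ l0 l X Xp Vt Lg Lp X2 X3 X4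
  G0 : ℝ} {η : ℝ → ℝ} {N : ℝ} {g : ℝ → ℝ} {t1 ℓ En p0 W3 : ℝ}
  (Q : C54 D E S M m a G1 u1 u2 j γ Lc ηc τ l0 l X Xp Vt Lg Lp X2 X3 X4 G0 η N g t1 ℓ En p0 W3)
include Q

theorem cE {k : ℕ} (hk : k ≤ 10) : 10000 * S.C ^ k ≤ E := (Q.Z.Cp hk).trans Q.Z.D_E

theorem l1 : l ≤ 1 := by nlinarith [Q.H.ln.l1, Q.Z.E1, Q.Z.lp]

theorem lE {k : ℕ} (hk : k ≤ 10) : 10000 * S.C ^ k * l ≤ 1 :=
  (mul_le_mul_of_nonneg_right (Q.cE hk) Q.Z.lp.le).trans Q.H.ln.l1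

theorem th : 0 < S.θ ∧ S.θ ≤ √S.θ ∧ 1 / S.n ≤ S.θ := by
  have h := Q.Z.A.cl
  have t0 := h.θ0
  have t1 : S.θ ≤ 1 := by nlinarith [Q.Z.hθ, h.C1]
  refine ⟨t0, le_sqrt' t0 |>.2 (by nlinarith), ?_⟩
  have := h.ms0.trans (h.ms1 0)
  rwa [rpow_neg_one, inv_eq_one_div] at this

theorem ell : 0 < ℓ ∧ E * S.θ ≤ ℓ ∧ 10 * (S.C * S.v) ≤ ℓ := by
  obtain ⟨t0, t1, t2⟩ := Q.th
  have h := Q.Z.A.cl
  have E1 := Q.Z.E1
  have a : E * S.θ ≤ ℓ := (mul_le_mul_of_nonneg_left t1 (by linarith)).trans Q.H.lt.ℓ1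
  refine ⟨lt_of_lt_of_le (by positivity) a, a, ?_⟩
  have n0 := h.N0
  have n1 : (1 : ℝ) ≤ S.n := by exact_mod_cast h.n1
  have cv := mul_pos h.C0 h.v0
  have b : S.C * S.v ≤ 1 / S.n := by
    rw [le_div_iff₀ n0]
    nlinarith [Q.Z.hv, mul_le_mul_of_nonneg_left n1 (mul_pos cv n0).le]
  have c : (10 : ℝ) ≤ E := by linarith [Q.Z.D4, Q.Z.D_E]
  nlinarith [mul_le_mul_of_nonneg_right c t0.le]

theorem jl8 : 8 * S.jl ≤ S.J := by
  have h := Q.Z.A.cl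
  have C0 := h.C0
  have v0 := h.v0
  have a := (h.s_tel (Nat.zero_le S.jl) h.jl_lt.le).1
  have b := (h.s_tel (Nat.zero_le S.J) le_rfl).2
  have c := Ab33.sJ_ge h
  rw [h.s0] at a b
  simp only [Nat.cast_zero, sub_zero] at a b
  have d : 10000 * S.C ^ 5 * M.s S.jl ≤ 1 :=
    (mul_le_mul_of_nonneg_right (Q.cE (by norm_num)) (h.s_nn _)).trans
      (Q.H.ln.l0s.trans (Q.H.ln.l0l.trans Q.l1))
  rw [← mul_div_assoc, div_le_iff₀ C0] at a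
  have e : (8 * S.jl : ℝ) * (3 * S.C ^ 4 * S.v) ≤ S.J * (3 * S.C ^ 4 * S.v) := by
    have a' := mul_le_mul_of_nonneg_left a (show 0 ≤ 24 * S.C ^ 4 by positivity)
    have b' := mul_le_mul_of_nonneg_left b (show 0 ≤ 3 * S.C ^ 3 by positivity)
    have := mul_nonneg (show 0 ≤ S.C ^ 5 by positivity) (h.s_nn S.jl)
    linarith
  exact_mod_cast le_of_mul_le_mul_right e (by positivity)

/-- the window below the corner -/
theorem win {i : ℕ} (hi : i ≤ S.J) (h1 : M.s S.J - 100 * S.C ^ 3 * ℓ ≤ M.s i) :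
    7 * S.J ≤ 8 * i ∧ 1 ≤ 4 * S.C ^ 4 * M.s i ∧ l ≤ M.s i ∧ M.s i ≤ S.C := by
  have h := Q.Z.A.cl
  have C0 := h.C0
  have C1 := h.C1
  have v0 := h.v0
  have l0 := Q.ell.1
  have a := (h.s_tel hi le_rfl).1
  have b := (h.s_tel (Nat.zero_le S.J) le_rfl).2
  have c := Ab33.sJ_ge h
  rw [h.s0] at b
  simp only [Nat.cast_zero, sub_zero] at b
  have d : ∀ k ≤ 10, 10000 * S.C ^ k * ℓ ≤ M.s S.J := fun k hk =>
    (mul_le_mul_of_nonneg_right (Q.cE hk) l0.le).trans Q.H.lt.ℓ2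
  have d3 := d 3 (by norm_num)
  have d5 := d 5 (by norm_num)
  rw [← mul_div_assoc, div_le_iff₀ C0] at a
  have s0 := h.s_nn i
  have f : 1 ≤ 4 * S.C ^ 3 * M.s i := by
    nlinarith [mul_le_mul_of_nonneg_left (show 99 / 100 * M.s S.J ≤ M.s i by linarith)
      (show 0 ≤ 4 * S.C ^ 3 by positivity)]
  refine ⟨?_, f.trans (by gcongr; norm_num), ?_, h.s_le_C (hi.trans h.i3)⟩
  · have e : (7 * S.J : ℝ) * (S.C * S.v) ≤ 8 * i * (S.C * S.v) := by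
      have a1 : (M.s S.J - M.s i) * S.C ≤ 100 * S.C ^ 3 * ℓ * S.C :=
        mul_le_mul_of_nonneg_right (by linarith) C0.le
      have a2 := mul_le_mul_of_nonneg_left (a.trans a1) C0.le
      have := mul_pos (pow_pos C0 5) l0
      linarith
    exact_mod_cast le_of_mul_le_mul_right e (by positivity)
  · have := Q.lE (k := 3) (by norm_num)
    refine le_of_mul_le_mul_left ?_ (show 0 < 4 * S.C ^ 3 by positivity)
    have := mul_pos (pow_pos C0 3) Q.Z.lp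
    linarith

/-- levels of order one -/
theorem lev {t : ℝ} (h1 : l ≤ t) (h2 : t ≤ S.C) (h3 : 1 ≤ 4 * S.C ^ 4 * t) :
    η t ≤ D ^ 2 * η 1 ∧ Ug S Lg t ≤ D ^ 2 * Ug S Lg 1 ∧ Lg * cr S t * gg S t ≤ D * η 1 := by
  have h := Q.Z.A.cl
  have C0 := h.C0
  have C1 := h.C1
  have c2 : S.C ≤ S.C ^ 2 := le_self_pow₀ C1 two_ne_zero
  have D4 := Q.Z.D4
  have e0 := Q.Z.eta_pos Q.l1 C1
  have U0 := Q.Z.Ug_nn Q.l1
  have t0 := Q.Z.lp.trans_le h1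
  have DD : D ≤ D ^ 2 := le_self_pow₀ (by linarith) two_ne_zero
  have key : η t ≤ D ^ 2 * η 1 ∧ Ug S Lg t ≤ D ^ 2 * Ug S Lg 1 := by
    rcases le_total 1 (2 * S.C ^ 2 * t) with e | e
    · obtain ⟨a, -, b, -⟩ := Q.Z.cmp Q.l1 h1 C1 (by linarith) e
      exact ⟨a.trans (mul_le_mul_of_nonneg_right DD e0.le),
        b.trans (mul_le_mul_of_nonneg_right DD U0)⟩
    · have p : 0 < 2 * S.C ^ 2 := by positivity
      have q : 2 * S.C ^ 2 * (1 / (2 * S.C ^ 2)) = 1 := by field_simp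
      have r1 : 1 / (2 * S.C ^ 2) ≤ 1 := by rw [div_le_one p]; linarith
      have r2 : l ≤ 1 / (2 * S.C ^ 2) := by
        rw [le_div_iff₀ p]
        have := mul_pos (pow_pos C0 2) Q.Z.lp
        linarith [Q.lE (k := 2) (by norm_num)]
      obtain ⟨a, -, b, -⟩ := Q.Z.cmp Q.l1 r2 C1 (by linarith) q.ge
      obtain ⟨a', -, b', -⟩ := Q.Z.cmp r2 h1 (r1.trans C1) (by
        rw [q]; nlinarith [mul_le_mul_of_nonneg_right (C1.trans c2) t0.le])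
        (by rw [div_le_iff₀ p]; linarith)
      exact ⟨by linarith [mul_le_mul_of_nonneg_left a (show 0 ≤ D by linarith)],
        by linarith [mul_le_mul_of_nonneg_left b (show 0 ≤ D by linarith)]⟩
  refine ⟨key.1, key.2, ?_⟩
  have m0 := h.ms_pos t0.le
  have m1 := h.θ0
  have n0 := h.N0
  have E1 := Q.Z.E1
  have cr1 : cr S t = 1 := by
    refine max_eq_left (rpow_le_one (by rw [Q.H.lt.F1]; positivity) ?_ (by norm_num))
    rw [Q.H.lt.F1, one_mul, div_le_one (by positivity)]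
    have a := Q.H.lt.ml t h1 h2
    have b : √(S.ms t) ≤ t := (le_mul_of_one_le_left (sqrt_nonneg _) E1).trans a
    exact (sqrt_le_left t0.le).1 b
  have c4 : 1 ≤ 4 * S.C ^ 4 := by linarith [one_le_pow₀ (n := 4) C1]
  have g1 : gg S t ≤ D * S.w3 1 := by
    have a := (h.msm h3).trans (h.ms_mul t0.le c4)
    have b := Q.Z.Cp (k := 8) (by norm_num)
    unfold gg Sc.w3
    rw [Q.H.lt.F1, ← mul_div_assoc, div_le_div_iff₀ (by positivity) (by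
      have : 0 < S.ms 1 := m1
      positivity)]
    have c : 4 * (4 * S.C ^ 4) ^ 2 * S.ms t ≤ D * S.ms t :=
      mul_le_mul_of_nonneg_right (by linarith [pow_pos C0 8]) m0.le
    linarith [mul_le_mul_of_nonneg_left (a.trans c) n0.le]
  have w0 := (Q.Z.w3p one_pos).le
  have g2 := E1.trans Q.Z.EL
  have g3 : Lg * S.w3 1 ≤ η 1 := by
    refine le_trans ?_ (Q.Z.eta_b Q.l1 C1).2.1
    rw [G89.uw_cube w0]
    refine mul_le_mul_of_nonneg_right ?_ w0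
    have a : Lg ≤ Lg ^ 2 * cr S 1 := (le_self_pow₀ g2 two_ne_zero).trans
      (le_mul_of_one_le_right (by positivity) (Ab33.cr_one S 1))
    exact a.trans (le_self_pow₀ (g2.trans a) three_ne_zero)
  rw [cr1, mul_one]
  linarith [mul_le_mul_of_nonneg_left g1 (show 0 ≤ Lg by linarith),
    mul_le_mul_of_nonneg_left g3 (show 0 ≤ D by linarith)]

/-- a good sloped node in every window -/
theorem node {p q : ℕ} (h1 : p ≤ q) (h2 : q < S.J) (h3 : M.s S.J - 100 * S.C ^ 3 * ℓ ≤ M.s p)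
    (h4 : M.s q + ℓ / 5 ≤ M.s S.J) (h5 : ℓ / (100 * S.C ^ 3) ≤ M.z q - M.z p) :
    ∃ i G ev, p ≤ i ∧ i ≤ q ∧ SV S M m a i G ev ∧ ev ≤ D ^ 10 * η 1 ∧
      (∃ Gb, 0 ≤ Gb ∧ G ≤ Gb ∧ Gb ^ 2 ≤ 2 * D ^ 7 * (η 1 + G0 ^ 2)) ∧
      u4 M m a i ≤ D ^ 3 * Ug S Lg 1 := by
  have h := Q.Z.A.cl
  have C0 := h.C0
  have C1 := h.C1
  have v0 := h.v0
  have D4 := Q.Z.D4
  have D0 : 0 < D := by linarith
  have E1 := Q.Z.E1
  obtain ⟨l0', l1', l2'⟩ := Q.ell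
  obtain ⟨t0, t1', -⟩ := Q.th
  have g2 := E1.trans Q.Z.EL
  have R0 : 0 < X ^ ((1 : ℝ) / 3) := rpow_pos_of_pos Q.H.ln.X0 _
  have γ0 : 0 ≤ γ := (sub_nonneg.2 (h.sm h.i3)).trans Q.H.lp.γ0
  have j0 : 0 ≤ j := le_trans (by positivity) Q.H.ap.j0
  obtain ⟨w1, -⟩ := Q.win (h1.trans h2.le) h3
  have j8 := Q.jl8
  have i1 := h.i1
  have i2 := h.i2
  obtain ⟨i, a1, a2, gi⟩ := Q.Z.exs (D0 := D * (S.θ + γ + X ^ ((1 : ℝ) / 3))) h1 h2 (by positivity)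
    (fun k b1 b2 => (Q.out k (by omega) (by omega)).1) (by
      have z := (h.z_tel (show S.j0 ≤ p by omega) h1 h2).2
      have z1 := h5.trans z
      rw [div_le_iff₀ (by positivity)] at z1
      have e1 : E * (S.θ + γ + X ^ ((1 : ℝ) / 3)) ≤ 3 * (Lg * ℓ) := by
        have := le_mul_of_one_le_left l0'.le g2
        have := mul_nonneg (show 0 ≤ E by linarith) j0
        linarith [Q.H.jg, Q.H.lt.Lg3]
      have e2 : 10000 * S.C ^ 4 * D ^ 3 ≤ E := le_trans (by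
        linarith [mul_le_mul_of_nonneg_right (Q.Z.Cp (k := 4) (by norm_num)) (pow_pos D0 3).le])
        (Q.Z.DpE (i := 4) (by norm_num))
      have e3 := mul_le_mul_of_nonneg_right e2
        (show 0 ≤ S.θ + γ + X ^ ((1 : ℝ) / 3) by positivity)
      have e4 := mul_le_mul_of_nonneg_left z1 (show 0 ≤ Lg by linarith)
      refine le_of_mul_le_mul_left ?_ (show 0 < 300 * S.C ^ 4 by positivity)
      have e5 : 0 ≤ S.C ^ 4 * (Lg * S.v) := by positivity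
      have e6 : 0 ≤ S.C ^ 4 * D ^ 3 * (S.θ + γ + X ^ ((1 : ℝ) / 3)) := by positivity
      have e7 : 0 ≤ Lg * ℓ := by positivity
      linarith)
  have iJ : i < S.J := by omega
  have si := h.sm a2
  obtain ⟨-, w2, w3, w4⟩ := Q.win iJ.le (h3.trans (h.sm a1))
  have o : Okn S M m a Lg i := by
    refine ⟨?_, Or.inr ?_⟩
    · by_contra c
      have e : i + 1 = S.J := by omega
      have := (h.ss i iJ).2
      rw [e] at this
      have := mul_pos C0 v0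
      linarith
    · have e1 := Q.Z.ev_le w3 gi (Or.inl gi) le_rfl le_rfl iJ
      rw [G89.ds, sub_self, mul_zero] at e1
      have e2 : uw S Lg (M.s i) ≤ √S.θ := by
        refine le_sqrt_of_sq_le ?_
        have := Q.H.ln.th2 _ w3 w4
        rw [mf, Q.H.lt.F1, div_one] at this
        linarith [h.ms1 (M.s i), le_mul_of_one_le_left (sq_nonneg (uw S Lg (M.s i))) E1]
      have e3 := (h.s_tel iJ.le le_rfl).2
      have e4 : Ug S Lg (M.s i) + G89.evn S M m a Lg i ≤ √S.θ := by linarith [Q.Z.Ug_uw w3]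
      have e5 : 2 * log S.n * (Ug S Lg (M.s i) + G89.evn S M m a Lg i) ≤ 2 * D * √S.θ :=
        (mul_le_mul_of_nonneg_left e4 (by linarith [log_natCast_nonneg S.n])).trans
          (mul_le_mul_of_nonneg_right (by linarith [Q.Z.lg]) (sqrt_nonneg _))
      have e6 : 10000 * S.C ^ 1 * D ≤ E := le_trans (by
        linarith [mul_le_mul_of_nonneg_right (Q.Z.Cp (k := 1) (by norm_num)) D0.le])
        (Q.Z.DpE (i := 2) (by norm_num))
      have e7 := (mul_le_mul_of_nonneg_right e6 (sqrt_nonneg S.θ)).trans Q.H.lt.ℓ1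
      have e8 : 2 * D * √S.θ ≤ ((S.J : ℝ) - i) * S.v := by
        refine le_of_mul_le_mul_left ?_ C0
        have : 0 ≤ S.C * D * √S.θ := by positivity
        linarith
      have e9 : 1 ≤ Lg * cr S (M.s i) := one_le_mul_of_one_le_of_one_le g2 (Ab33.cr_one S _)
      exact e5.trans (e8.trans (le_mul_of_one_le_left (le_trans (by positivity) e8) e9))
  have go := Q.Z.go (by rw [max_eq_left Q.H.lt.l2]; exact w3) gi o
  obtain ⟨G, n1, n2, n3⟩ := Q.Z.no.ng _ _ _ go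
  obtain ⟨y1, y2, y3⟩ := Q.lev w3 w4 w2
  have e0 := Q.Z.eta_pos Q.l1 C1
  have G00 : 0 ≤ G0 := le_trans (mul_nonneg Q.Z.l0p.le (sq_nonneg _)) Q.H.ln.g0a
  refine ⟨i, G, _, a1, a2, ⟨n1, n2⟩, (Q.Z.ee_le w3 w4).trans ?_, ⟨_, by positivity, n3, ?_⟩, ?_⟩
  · linarith [mul_le_mul_of_nonneg_left y1 (pow_pos D0 8).le]
  · have k0 : 0 ≤ Lg * cr S (M.s i) * gg S (M.s i) := by
      have := Ab33.cr_one S (M.s i)
      have := h.ms_pos (h.s_nn i)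
      have := h.N0
      have := h.F1
      unfold gg; positivity
    have s2 := sq_sqrt k0
    generalize √(Lg * cr S (M.s i) * gg S (M.s i)) = s at *
    have x1 : (s + G0) ^ 2 ≤ 2 * D * (η 1 + G0 ^ 2) := by
      nlinarith [sq_nonneg (s - G0), sq_nonneg G0]
    linarith [mul_le_mul_of_nonneg_left x1 (pow_pos D0 6).le]
  · have := (Q.Z.no.nd _ _ _ go).1
    change u4 M m a i ≤ D * Ug S Lg (M.s i) at this
    linarith [mul_le_mul_of_nonneg_left y2 D0.le]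

theorem np0 : 0 ≤ Np M S Xp Vt γ u1 Lp 2 := by
  have G := Md67.lg_of Q.Z.A.cl.leg Q.Z.A.m_pos Q.Z.A.a_pos.le
    (by linarith [Q.Z.A.mem.a2, Q.Z.A.a_pos] : a ≤ 2 * S.amax)
  have := (sum_nonneg fun k _ => mul_nonneg (G.dz_nonneg k) (sq_nonneg _)).trans Q.sz
  exact nonneg_of_mul_nonneg_right this (by linarith [Q.Z.D4])

theorem sub {U : Finset ℕ} (hU : ∀ k ∈ U, S.J ≤ k ∧ k < S.Jp) :
    ∑ k ∈ U, M.dz m a k * u4 M m a k ^ 2 ≤ D * Np M S Xp Vt γ u1 Lp 2 := by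
  have G := Md67.lg_of Q.Z.A.cl.leg Q.Z.A.m_pos Q.Z.A.a_pos.le
    (by linarith [Q.Z.A.mem.a2, Q.Z.A.a_pos] : a ≤ 2 * S.amax)
  exact (sum_le_sum_of_subset_of_nonneg
    (fun k hk => mem_Ico.2 ⟨(hU k hk).1, (hU k hk).2.trans Q.Z.A.cl.i4⟩)
    fun k _ _ => mul_nonneg (G.dz_nonneg k) (sq_nonneg _)).trans Q.sz

/-- the error of a good node of the plateau -/
theorem ep_le {G Gb ev : ℝ} (h1 : ev ≤ D ^ 10 * η 1) (b1 : G ≤ Gb)
    (b2 : Gb ^ 2 ≤ 2 * D ^ 7 * (η 1 + G0 ^ 2)) {k : ℕ} (k1 : S.J ≤ k) (k2 : k < S.Jp) :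
    ep S M m a G ev (D * D ^ 3 * X2) k (D * Lp * sl M S Xp Vt γ k)
        (min (D * (Lp ^ ((2 : ℝ) / 3) * ap M S Xp Vt γ k)) 2) +
      min (D * (Lp ^ ((2 : ℝ) / 3) * ap M S Xp Vt γ k)) 2 ^ 2 * Nd33.gd S M m a (2 * S.C) k ≤
      D ^ 11 * (η 1 + G0 ^ 2 + Np M S Xp Vt γ u1 Lp 2) + D ^ 3 * (Lg ^ 2 * ap M S Xp Vt γ k) ^ 2 := by
  have h := Q.Z.A.cl
  have C1 := h.C1
  have D4 := Q.Z.D4
  have D0 : 0 < D := by linarith
  have E1 := Q.Z.E1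
  have g2 := E1.trans Q.Z.EL
  have γ0 : 0 ≤ γ := (sub_nonneg.2 (h.sm h.i3)).trans Q.H.lp.γ0
  have w0 := (Q.Z.w3p one_pos).le
  obtain ⟨a0, s0, s1⟩ := wr_le h Q.H.lp.u0 Q.H.lp.Xp0.1 Q.H.lp.Vt0 γ0 w0 k1 k2
  have P1 := Q.H.lp.Lp1.1
  have P2 := Q.H.lp.Lp2
  have P3 : Lp ^ ((2 : ℝ) / 3) ≤ Lg ^ 2 := by
    refine (rpow_le_rpow (by linarith) P2 (by norm_num)).trans_eq ?_
    rw [← rpow_natCast, ← rpow_mul (by linarith), ← rpow_natCast]; norm_num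
  obtain ⟨e1, e2, -⟩ := Q.Z.eta_b Q.l1 C1
  have e0 := Q.Z.eta_pos Q.l1 C1
  have e3 : Lp * S.w3 1 ≤ η 1 := by
    refine le_trans ?_ e2
    rw [G89.uw_cube w0]
    exact mul_le_mul_of_nonneg_right (P2.trans (pow_le_pow_left₀ (by linarith)
      ((le_self_pow₀ g2 two_ne_zero).trans
        (le_mul_of_one_le_right (by positivity) (Ab33.cr_one S 1))) 3)) w0
  have e4 : S.w3 1 ≤ η 1 := (le_mul_of_one_le_left w0 P1).trans e3
  have X0 := Q.Z.X20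
  have e5 : X2 ^ 2 ≤ η 1 := by
    have x1 : X2 ≤ 1 := by linarith [Q.H.ln.th3, Q.Z.mf_le l, le_mul_of_one_le_left X0 E1]
    have x2 : X2 ≤ √X2 := le_sqrt_of_sq_le (by nlinarith)
    have x3 := Q.H.ln.ηb 1 Q.l1 C1
    have U0 := Q.Z.uw_nn Q.l1
    have G00 : 0 ≤ G0 := le_trans (mul_nonneg Q.Z.l0p.le (sq_nonneg _)) Q.H.ln.g0a
    have x4 : X2 * X2 ≤ (√(Lg * cr S 1 * gg S 1) + G0 + X2) * (uw S Lg 1 + √X2) :=
      mul_le_mul (by linarith [sqrt_nonneg (Lg * cr S 1 * gg S 1)]) (by linarith) X0 (by positivity)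
    have x5 : 0 ≤ uw S Lg 1 ^ 2 * min (S.ms 1 / 1) 1 :=
      mul_nonneg (sq_nonneg _) (le_min (by have := h.ms_pos zero_le_one; positivity) zero_le_one)
    have x6 : 0 ≤ X3 := le_trans (mul_nonneg Q.Z.l0p.le (by positivity)) Q.H.ln.x3a
    have x7 : 0 ≤ 1 / (S.n : ℝ) := by positivity
    linarith [pow_nonneg U0 3]
  have gd : Nd33.gd S M m a (2 * S.C) k ≤ 4 * (2 * S.C) + 2 := Tq5.abs_Gd Q.Z.A k2.le
  have sm := Q.sub (U := Ico S.J k) fun y hy => ⟨(mem_Ico.1 hy).1, (mem_Ico.1 hy).2.trans k2⟩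
  have n0 := Q.np0
  have u0 : 0 ≤ min (D * (Lp ^ ((2 : ℝ) / 3) * ap M S Xp Vt γ k)) 2 :=
    le_min (by positivity) zero_le_two
  have u1' : min (D * (Lp ^ ((2 : ℝ) / 3) * ap M S Xp Vt γ k)) 2 ≤
      D * (Lg ^ 2 * ap M S Xp Vt γ k) := (min_le_left _ _).trans (by gcongr)
  have u2' := min_le_right (D * (Lp ^ ((2 : ℝ) / 3) * ap M S Xp Vt γ k)) 2
  have s2 : Lp * (S.w3 1 * (sl M S Xp Vt γ k - 1)) ≤ (Lg ^ 2 * ap M S Xp Vt γ k) ^ 2 := by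
    rw [mul_pow, ← pow_mul]
    exact mul_le_mul (P2.trans (pow_le_pow_right₀ g2 (by norm_num))) s1 (by positivity)
      (by positivity)
  unfold ep
  generalize min (D * (Lp ^ ((2 : ℝ) / 3) * ap M S Xp Vt γ k)) 2 = up at *
  generalize Lg ^ 2 * ap M S Xp Vt γ k = A at *
  have q1 : up ^ 2 ≤ D ^ 2 * A ^ 2 := by rw [← mul_pow]; exact pow_le_pow_left₀ u0 u1' 2
  have q2 : up ^ 3 ≤ 2 * up ^ 2 := by linarith [mul_le_mul_of_nonneg_left u2' (sq_nonneg up)]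
  have q3 : G * up ≤ (Gb ^ 2 + up ^ 2) / 2 := by
    linarith [mul_le_mul_of_nonneg_right b1 u0, sq_nonneg (Gb - up)]
  have q4 : D * D ^ 3 * X2 * up ≤ (D ^ 8 * η 1 + up ^ 2) / 2 := by
    linarith [mul_le_mul_of_nonneg_left e5 (pow_pos D0 8).le, sq_nonneg (D * D ^ 3 * X2 - up)]
  have q5 := mul_le_mul_of_nonneg_left gd (sq_nonneg up)
  have q6 : (8 * S.C + 5) * up ^ 2 ≤ D / 2 * (D ^ 2 * A ^ 2) :=
    mul_le_mul (by linarith [Q.Z.Cp (k := 1) (by norm_num)]) q1 (sq_nonneg _) (by linarith)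
  have q7 := mul_le_mul_of_nonneg_left s2 D0.le
  have q8 := mul_le_mul_of_nonneg_left e3 D0.le
  have q9 : D * A ^ 2 ≤ D / 2 * (D ^ 2 * A ^ 2) := by
    have : D ≤ D / 2 * D ^ 2 := by nlinarith
    linarith [mul_le_mul_of_nonneg_right this (sq_nonneg A)]
  have p : ∀ i ≤ 10, ∀ x, 0 ≤ x → 10 * (D ^ i * x) ≤ D ^ 11 * x := fun i hi x x0 => by
    have := mul_le_mul_of_nonneg_right (Q.Z.Dp hi) x0
    have := mul_le_mul_of_nonneg_right D4 (show 0 ≤ D ^ 10 * x by positivity)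
    have : 0 ≤ D ^ 10 * x := by positivity
    linarith
  have p1 := p 10 le_rfl _ e0.le
  have p2 := p 7 (by norm_num) _ e0.le
  have p3 := p 7 (by norm_num) _ (sq_nonneg G0)
  have p4 := p 8 (by norm_num) _ e0.le
  have p5 := p 1 (by norm_num) _ e0.le
  have p6 := p 0 (by norm_num) _ e0.le
  have p7 := p 1 (by norm_num) _ n0
  have z1 : 0 ≤ D ^ 11 * G0 ^ 2 := by positivity
  have z2 : 0 ≤ D ^ 11 * η 1 := by positivity
  have z3 : 0 ≤ D ^ 11 * Np M S Xp Vt γ u1 Lp 2 := by positivity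
  linarith

/-- the sloped nodes between the partner and the corner -/
theorem slp {i : ℕ} (h0 : S.jl < i) (hi : i < S.J) (h1 : M.s S.J - 100 * S.C ^ 3 * ℓ ≤ M.s i) :
    ∑ k ∈ Ioo i S.J, M.dz m a k * u4 M m a k ^ 2 ≤
      2 * D * (ℓ ^ ((1 : ℝ) / 3) * η 1 ^ ((2 : ℝ) / 3)) := by
  have h := Q.Z.A.cl
  have C0 := h.C0
  have C1 := h.C1
  have D0 : 0 < D := by linarith [Q.Z.D4]
  have G := Md67.lg_of h.leg Q.Z.A.m_pos Q.Z.A.a_pos.le
    (by linarith [Q.Z.A.mem.a2, Q.Z.A.a_pos] : a ≤ 2 * S.amax)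
  have l0' := Q.ell.1
  have e0 := Q.Z.eta_pos Q.l1 C1
  obtain ⟨w1, -⟩ := Q.win hi.le h1
  have i1 := h.i1
  have i2 := h.i2
  have i0 := h.i0
  have s3 : ∑ k ∈ Ioo i S.J, M.dz m a k * u4 M m a k ^ 3 ≤ D * η 1 := by
    refine le_trans (sum_le_sum_of_subset_of_nonneg (fun k hk => ?_)
      fun k _ _ => mul_nonneg (G.dz_nonneg k) (pow_nonneg (u4_nn k) 3)) (Q.Z.ni.t3.trans
        (Q.Z.hW.trans (mul_le_mul_of_nonneg_left (Q.H.ln.ηa C1) D0.le)))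
    obtain ⟨a1, a2⟩ := mem_Ioo.1 hk
    exact mem_filter.2 ⟨mem_range.2 (a2.trans h.J_lt), by omega⟩
  have s0 : ∑ k ∈ Ioo i S.J, M.dz m a k ≤ D * ℓ := by
    have e : Ioo i S.J = Ioc i (S.J - 1) := by ext k; simp only [mem_Ioo, mem_Ioc]; omega
    rw [e, sum_congr rfl fun k hk => Md67.dz_up h.leg (by have := (mem_Ioc.1 hk).1; omega),
      At.sum_dz M (by omega)]
    have a1 := (h.z_tel (show S.j0 ≤ i by omega) (show i ≤ S.J - 1 by omega) (by omega)).2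
    have a2 := (h.s_tel (show i ≤ S.J - 1 by omega) (by omega)).1
    have a3 := h.sm (Nat.sub_le S.J 1)
    rw [← mul_div_assoc, div_le_iff₀ C0] at a2
    have a4 : (M.s (S.J - 1) - M.s i) * S.C ≤ 100 * S.C ^ 3 * ℓ * S.C :=
      mul_le_mul_of_nonneg_right (by linarith) C0.le
    have a5 := mul_le_mul_of_nonneg_left (a2.trans a4) C0.le
    have a6 := mul_le_mul_of_nonneg_right (Q.Z.Cp (k := 5) (by norm_num)) l0'.le
    have := mul_pos (pow_pos C0 5) l0'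
    linarith
  have a3 := Nd22.cb3 l0'.le
  have b3 := Nd22.cb3 e0.le
  have a0 : 0 < ℓ ^ ((1 : ℝ) / 3) := rpow_pos_of_pos l0' _
  have b0 : 0 < η 1 ^ ((1 : ℝ) / 3) := rpow_pos_of_pos e0 _
  have b2 : η 1 ^ ((2 : ℝ) / 3) = (η 1 ^ ((1 : ℝ) / 3)) ^ 2 := by
    rw [← rpow_natCast, ← rpow_mul e0.le]; norm_num
  rw [b2]
  generalize ℓ ^ ((1 : ℝ) / 3) = x at *
  generalize η 1 ^ ((1 : ℝ) / 3) = y at *
  have s : 0 < y / x := by positivity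
  calc _ ≤ ∑ k ∈ Ioo i S.J, ((y / x) ^ 2 * M.dz m a k + M.dz m a k * u4 M m a k ^ 3 / (y / x)) :=
        sum_le_sum fun k _ => (mul_le_mul_of_nonneg_left (young54 (u4_nn k) s)
          (G.dz_nonneg k)).trans_eq (by ring)
    _ = (y / x) ^ 2 * ∑ k ∈ Ioo i S.J, M.dz m a k +
        (∑ k ∈ Ioo i S.J, M.dz m a k * u4 M m a k ^ 3) / (y / x) := by
        rw [sum_add_distrib, mul_sum, sum_div]
    _ ≤ (y / x) ^ 2 * (D * ℓ) + D * η 1 / (y / x) := by gcongr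
    _ = 2 * D * (x * y ^ 2) := by rw [← a3, ← b3]; field_simp; ring

/-- **the nodes** -/
theorem pn (hx : ∀ k, S.J ≤ k → k ≤ S.Jp → 3 * u1 ≤ du M k →
    ∃ i, k < i ∧ i + 1 < S.Jp ∧ M.z (i - 1) ≤ M.z (k - 1) + ds M S k / 8 ∧
      M.z i ≤ M.z (k - 1) + ds M S k / 4 ∧ PG S M m a i (D * Lp * sl M S Xp Vt γ i)
        (D * (Lp ^ ((2 : ℝ) / 3) * ap M S Xp Vt γ i))) {W : ℝ} (hW : D ^ 13 ≤ W) :
    ∃ Pn, PN S M m a (2 * S.C) Pn (fun k => W * (Lg ^ 2 * ap M S Xp Vt γ k) ^ 2)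
      (W * x0 S M X Xp Vt Lg Lp G0 u1 j γ ℓ η) (W * X2) (8 * u2) (ℓ / (100 * S.C ^ 3)) ℓ
      (100 * S.C ^ 3) := by
  have h := Q.Z.A.cl
  have C0 := h.C0
  have C1 := h.C1
  have D4 := Q.Z.D4
  have D0 : 0 < D := by linarith
  have W0 : 0 ≤ W := (pow_pos D0 13).le.trans hW
  obtain ⟨l0', l1', l2'⟩ := Q.ell
  obtain ⟨t0, -, -⟩ := Q.th
  have e0 := Q.Z.eta_pos Q.l1 C1
  have n0 := Q.np0
  have X0 := Q.Z.X20
  have R0 : 0 < X ^ ((1 : ℝ) / 3) := rpow_pos_of_pos Q.H.ln.X0 _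
  have γ0 : 0 ≤ γ := (sub_nonneg.2 (h.sm h.i3)).trans Q.H.lp.γ0
  have j0 : 0 ≤ j := le_trans (by positivity) Q.H.ap.j0
  have xb0 : 0 ≤ uw S Lg 1 ^ 2 * (S.θ + j + X ^ ((1 : ℝ) / 3) + ℓ) := by positivity
  have xc0 : 0 ≤ ℓ ^ ((1 : ℝ) / 3) * η 1 ^ ((2 : ℝ) / 3) := by positivity
  have pw : ∀ i ≤ 12, ∀ x, 0 ≤ x → 10 * (D ^ i * x) ≤ W * x := fun i hi x x0 => by
    have := mul_le_mul_of_nonneg_right (Q.Z.Dp hi) x0
    have := mul_le_mul_of_nonneg_right D4 (show 0 ≤ D ^ 12 * x by positivity)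
    have := mul_le_mul_of_nonneg_right hW x0
    have : 0 ≤ D ^ 12 * x := by positivity
    linarith
  have dsb : ∀ i k, i ≤ k → 0 ≤ sb M m a (k + 1) - sb M m a (i + 1) := fun i k hk =>
    sub_nonneg.2 (Q.Z.A.sb_mono (Nat.succ_le_succ hk))
  have c3 : 1 ≤ S.C ^ 3 := one_le_pow₀ C1
  have sJ : 10000 * ℓ ≤ M.s S.J := by
    simpa using (mul_le_mul_of_nonneg_right (Q.cE (k := 0) (by norm_num)) l0'.le).trans Q.H.lt.ℓ2
  obtain ⟨q, q1, q2, q3⟩ := idx54 h (x := M.s S.J - ℓ / 5) (by linarith) (by linarith)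
  obtain ⟨p, p1, p2, p3⟩ := idx54 h (x := M.s S.J - ℓ) (by linarith) (by linarith)
  have sq := (h.ss q q1).2
  have sp := (h.ss p p1).2
  have pq : p ≤ q := by
    by_contra c
    linarith [h.sm (show q + 1 ≤ p by omega)]
  have p4 : M.s S.J - 100 * S.C ^ 3 * ℓ ≤ M.s p := by
    linarith [mul_le_mul_of_nonneg_right c3 l0'.le]
  have j8 := Q.jl8
  have i1 := h.i1
  have i2 := h.i2
  obtain ⟨w1, -⟩ := Q.win p1.le p4
  obtain ⟨v, G, ev, -, v2, sv, ev1, ⟨Gb, -, b1, b2⟩, -⟩ := Q.node pq q1 p4 (by linarith) (by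
    have a1 := (h.z_tel (show S.j0 ≤ p by omega) pq q1).1
    have a2 := (h.s_tel pq q1.le).2
    rw [← mul_div_assoc, div_le_iff₀ C0] at a1
    rw [div_le_iff₀ (by positivity)]
    have a3 := mul_le_mul_of_nonneg_left a1 C0.le
    have a4 : 0 ≤ M.z q - M.z p := sub_nonneg.2 (h.leg.zm pq)
    have a5 : (M.z q - M.z p) * S.C ^ 2 ≤ (M.z q - M.z p) * S.C ^ 3 :=
      mul_le_mul_of_nonneg_left (pow_le_pow_right₀ C1 (by norm_num)) a4
    have : 0 ≤ (M.z q - M.z p) * S.C ^ 3 := by positivity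
    linarith)
  have po := Q.po j8 v G ev _ (by omega) sv Q.Z.no.n2
  have ep1 := fun k => Q.ep_le ev1 b1 b2 (k := k)
  have xa0 : 0 ≤ η 1 + G0 ^ 2 + Np M S Xp Vt γ u1 Lp 2 := by positivity
  have y1 := pw 12 le_rfl _ xa0
  have y2 := pw 2 (by norm_num) _ n0
  have y3 := pw 11 (by norm_num) _ e0.le
  have y4 := pw 8 (by norm_num) _ xb0
  have y5 := pw 2 (by norm_num) _ xc0
  have z1 := mul_nonneg W0 e0.le
  have z2 := mul_nonneg W0 (sq_nonneg G0)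
  have z3 := mul_nonneg W0 n0
  have z4 := mul_nonneg W0 xb0
  have z5 := mul_nonneg W0 xc0
  refine ⟨fun k => PG S M m a k (D * Lp * sl M S Xp Vt γ k)
    (min (D * (Lp ^ ((2 : ℝ) / 3) * ap M S Xp Vt γ k)) 2), by unfold x0; positivity,
    by positivity, fun k => by positivity, fun k g => ⟨g.lo, g.hi⟩, fun k a1 a2 a3 => ?_,
    fun i k gi gk ik => ?_, fun p q _ a2 a3 a4 a5 a6 => ?_⟩
  · have ue : 0 ≤ u1 := le_trans (by linarith [h.last, h.leg.z1 (S.Jp - 1)]) Q.H.lp.u1a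
    obtain ⟨i, b1, -, -, b4, g⟩ := hx k a1 a2 (by linarith [Q.H.lp.u1b.1])
    exact ⟨i, ⟨g.lo, g.hi, g.den, g.cone, le_min g.u ((mj_u4 Q.Z.A.m_pos).u0 i).2⟩, b1.le, b4⟩
  · have d0 := mul_nonneg X0 (dsb i k ik)
    have a1 := pw 4 (by norm_num) _ (sq_nonneg (Lg ^ 2 * ap M S Xp Vt γ i))
    have a2 := pw 4 (by norm_num) _ (sq_nonneg (Lg ^ 2 * ap M S Xp Vt γ k))
    have a3 := pw 5 (by norm_num) _ d0
    have a4 := mul_nonneg W0 (sq_nonneg (Lg ^ 2 * ap M S Xp Vt γ i))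
    have a5 := mul_nonneg W0 (sq_nonneg (Lg ^ 2 * ap M S Xp Vt γ k))
    have a6 := mul_nonneg W0 d0
    unfold x0
    rcases ik.eq_or_lt with e | e
    · subst e
      rw [sub_self, abs_zero]
      linarith
    have b := po.dp _ Q.Z.A i _ _ k _ _ gi gk e
    have c1 := mul_le_mul_of_nonneg_left (ep1 i gi.lo gi.hi) D0.le
    have c2 := mul_le_mul_of_nonneg_left (ep1 k gk.lo gk.hi) D0.le
    have c3 := mul_le_mul_of_nonneg_left (Q.sub (U := Ioo i k) fun y hy =>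
      ⟨gi.lo.trans (mem_Ioo.1 hy).1.le, (mem_Ioo.1 hy).2.trans gk.hi⟩) D0.le
    unfold Nd33.ck at b
    linarith
  · obtain ⟨i, G', ev', b1, b2, sv', e1, -, e2⟩ := Q.node a2 a3 a4 a5 a6
    refine ⟨i, b1, b2, fun k gk => ?_⟩
    have iJ : i < S.J := by omega
    have si := a4.trans (h.sm b1)
    obtain ⟨w2, -⟩ := Q.win iJ.le si
    have ik : i < k := iJ.trans_le gk.lo
    have d0 := mul_nonneg X0 (dsb i k ik.le)
    have a2 := pw 4 (by norm_num) _ (sq_nonneg (Lg ^ 2 * ap M S Xp Vt γ k))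
    have a3 := pw 5 (by norm_num) _ d0
    have a5 := mul_nonneg W0 (sq_nonneg (Lg ^ 2 * ap M S Xp Vt γ k))
    have a6 := mul_nonneg W0 d0
    have b := po.dv _ Q.Z.A i G' ev' k _ _ sv' gk ik
    have c2 := mul_le_mul_of_nonneg_left (ep1 k gk.lo gk.hi) D0.le
    have c3 := mul_le_mul_of_nonneg_left (Q.sub (U := Ico S.J k) fun y hy =>
      ⟨(mem_Ico.1 hy).1, (mem_Ico.1 hy).2.trans gk.hi⟩) D0.le
    have c4 := mul_le_mul_of_nonneg_left (Q.slp (by omega) iJ si) D0.le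
    have c5 := mul_le_mul_of_nonneg_left e1 D0.le
    have c6 : u4 M m a i ^ 2 * Nd33.gd S M m a (2 * S.C) i ≤
        D ^ 7 * (uw S Lg 1 ^ 2 * (S.θ + j + X ^ ((1 : ℝ) / 3) + ℓ)) := by
      have g1 : Nd33.gd S M m a (2 * S.C) i ≤ D * (S.θ + j + γ + X ^ ((1 : ℝ) / 3)) :=
        (Q.out i (by omega) iJ).2.2
      have U0 := Q.Z.Ug_nn Q.l1
      have U1 := Q.Z.Ug_le Q.l1
      have U2 := Q.Z.Ug_uw Q.l1
      have g2 : γ ≤ Lg * ℓ := by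
        linarith [Q.H.jg, le_mul_of_one_le_left (add_nonneg j0 γ0) Q.Z.E1]
      have g3 := pow_le_pow_left₀ U0 U2 2
      have g4 := mul_le_mul U1 U2 U0 (U0.trans U2)
      have g5 : Ug S Lg 1 ^ 2 * (S.θ + j + γ + X ^ ((1 : ℝ) / 3)) ≤
          uw S Lg 1 ^ 2 * (S.θ + j + X ^ ((1 : ℝ) / 3) + ℓ) := by
        linarith [mul_le_mul_of_nonneg_right g3 (show 0 ≤ S.θ + j + X ^ ((1 : ℝ) / 3) by positivity),
          mul_le_mul_of_nonneg_left g2 (sq_nonneg (Ug S Lg 1)), mul_le_mul_of_nonneg_right g4 l0'.le]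
      have g6 := mul_le_mul (pow_le_pow_left₀ (u4_nn i) e2 2) g1 (abs_nonneg _) (sq_nonneg _)
      linarith [mul_le_mul_of_nonneg_left g5 (pow_pos D0 7).le]
    have c7 := mul_le_mul_of_nonneg_left c6 D0.le
    have sp : ∑ y ∈ Ioo i k, M.dz m a y * u4 M m a y ^ 2 =
        ∑ y ∈ Ioo i S.J, M.dz m a y * u4 M m a y ^ 2 +
          ∑ y ∈ Ico S.J k, M.dz m a y * u4 M m a y ^ 2 := by
      have := gk.lo
      rw [← sum_union (disjoint_left.2 fun y h1 h2 => by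
        have := (mem_Ioo.1 h1).2; have := (mem_Ico.1 h2).1; omega)]
      congr 1
      ext y
      simp only [mem_union, mem_Ioo, mem_Ico]
      omega
    unfold Nd33.ck at b
    rw [sp] at b
    unfold x0
    linarith

end C54

/-- `Far` from the numbers of the bulk and of the plateau -/
theorem far54 {E : ℝ} {S : Sc} {M : Md} {l0 l V X Lg X2 X3 G0 Xp Vt Lp G1 u1 u2 j γ Lc ηc τ N : ℝ}
    {η : ℝ → ℝ} (h : Cl S M) (E1 : 1 ≤ E) (n : LN E S M l0 l V X Lg X2 X3 G0 η)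
    (p : LP E S M Xp Vt Lg Lp X2 X3 G0 G1 u1 u2 j γ Lc ηc τ η N) :
    SzT98.Far E S M Xp Vt γ u1 Lp := by
  have a : 0 ≤ l := (mul_nonneg (by linarith) (h.s_nn _)).trans (n.l0s.trans n.l0l)
  exact ⟨p.u0, n.l0s.trans (n.l0l.trans ((le_mul_of_one_le_left a E1).trans n.l1)), p.rev, p.Xp0,
    p.Vt0, p.u1a, (mul_le_mul_of_nonneg_left p.u1b.1 (by linarith)).trans p.u1b.2, p.γ0, p.γ1,
    p.Lp1, p.far⟩

open Pre29 in
/-- **(PNS)** -/
theorem pnS_of (hN : NiS54) (hP : PgS) (hS : SzT98.SzS) : PNS := by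
  unfold PNS
  refine CL.glue (((((CL.and hN hP).and hS).and Nd22.nodeS).and Nd33.ndP).and Gd65.gdT)
    fun C => ⟨3, fun A hA ε η' hε hη => ?_⟩
  refine ⟨ε, min (η' / 13) (ε / 40), 10000 * C ^ 10, hε, by positivity,
    fun S M m a R c I ⟨⟨⟨⟨⟨h1, h2⟩, h3⟩, h4⟩, h5⟩, h6⟩
      G1 u1 u2 j γ Lc ηc τ l0 l X Xp Vt Lg Lp X2 X3 X4 G0 η N g t1 ℓ En p0 H => ?_⟩
  have n1 : 1 ≤ S.n := c.n1
  have e1 : ((S.n : ℝ) ^ min (η' / 13) (ε / 40)) ^ 40 ≤ (S.n : ℝ) ^ ε := by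
    rw [rp_pow]; exact rp_le n1 (by push_cast; linarith [min_le_right (η' / 13) (ε / 40)])
  have e2 : ((S.n : ℝ) ^ min (η' / 13) (ε / 40)) ^ 13 ≤ (S.n : ℝ) ^ η' := by
    rw [rp_pow]; exact rp_le n1 (by push_cast; linarith [min_le_left (η' / 13) (ε / 40)])
  have k1 := R.K_le
  have k2 := R.log_le
  have k3 := R.num_le
  have k4 := R.C_log
  have hC := R.hC
  have hA' : 3 ≤ S.A := R.hA ▸ hA
  subst hC
  generalize (S.n : ℝ) ^ min (η' / 13) (ε / 40) = D at *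
  generalize (S.n : ℝ) ^ ε = E at *
  have C1 := c.C1
  have l1 : 1 ≤ D := by linarith
  have DE : D ≤ E := (le_self_pow₀ l1 (by norm_num)).trans e1
  have E1 : 1 ≤ E := l1.trans DE
  have N0 := c.N0
  have A' : At S M m a (2 * S.C) := ⟨c, I, by linarith [c.b1, H.ln.HJ], by linarith [c.sT]⟩
  obtain ⟨W3, ni, hW⟩ := h1 _ _ _ _ _ _ _ _ _ _ _ _ _ _ _ _ _ _ _ _ _ _ _ _ _ _ _ H
  have F := far54 c E1 H.ln H.lp
  have R0 : 0 < X ^ ((1 : ℝ) / 3) := rpow_pos_of_pos H.ln.X0 _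
  have Rl : X ^ ((1 : ℝ) / 3) ≤ l := (le_mul_of_one_le_left R0.le E1).trans H.lt.lX
  have lp := R0.trans_le Rl
  have Z : Cz D E D D S M m a (2 * S.C) G1 l0 l (X ^ ((1 : ℝ) / 3)) X Lg X2 X3 G0 W3 η := by
    refine ⟨A', H.ce, H.ln, ni, h4 G1 l0 l _ X Lg X2 X3 G0 η D W3 H.ce H.ln H.lp.rev H.ap.all
      ((pow_le_pow_right₀ l1 (by norm_num)).trans e1) ni,
      Rl.trans (le_mul_of_one_le_left lp.le (Ab33.cr_one S l)), hW, k1, l1, le_rfl, le_rfl, k2, e1,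
      ?_, I.m1, ?_⟩
    · have a1 : S.v * (S.n : ℝ) ^ 3 ≤ S.C := (mul_le_mul_of_nonneg_left
        (pow_le_pow_right₀ (by exact_mod_cast n1) hA') c.v0.le).trans c.v2
      have a2 : S.C ^ 2 ≤ S.n := by
        have b1 := (le_mul_of_one_le_right (by linarith) (one_le_pow₀ c.F1)).trans
          (H.ln.Lg0.trans H.ln.Lg1)
        linarith [pow_le_pow_right₀ C1 (by norm_num : 2 ≤ 10), sq_nonneg S.C]
      refine le_of_mul_le_mul_right ?_ N0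
      linarith [mul_le_mul_of_nonneg_left a1 c.C0.le]
    · have t0 : 0 ≤ S.θ := (c.ms_pos zero_le_one).le
      linarith [mul_le_mul_of_nonneg_left k4 t0, c.msθ]
  have l01 : l0 ≤ 1 := H.ln.l0l.trans ((le_mul_of_one_le_left lp.le E1).trans H.ln.l1)
  have Q : C54 D E S M m a G1 u1 u2 j γ Lc ηc τ l0 l X Xp Vt Lg Lp X2 X3 X4 G0 η N g t1 ℓ En p0
      W3 := ⟨Z, H, h5 H.ln.HJ (by rw [H.lt.F1]; exact_mod_cast n1),
    h3 _ _ _ _ _ _ _ _ F H.ap 2 le_rfl (by norm_num),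
    (h6 _ _ _ _ _ _ _ _ A' le_rfl H.ln.l0s l01 H.ln.X0 H.ln.X1 H.lp.γ0 H.lp.γ1 H.ap).1⟩
  exact Q.pn (h2 _ _ _ _ _ _ _ _ F H.ap).2 e2

end Crest.Agent.T156.Alt.L62

end
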