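import Crest.Agent.T156.Cvx_25
import Crest.Agent.T156.ClMid_8

/-!
Row 156, block (L) (helper62): the labels just below the corner are not early.
-/

set_option autoImplicit false

noncomputable section

namespace Crest.Agent.T156.Pr.Cv25

open MeasureTheory Set
open Crest.Agent.R164.GC Crest.Agent.R339.B Crest.Agent.R339.Var Crest.Agent.T157.Pf
open Crest.Agent.T156.Pr.Reg48

/-- rise of `M` across a concave stretch `[y, y + d)` -/
theorem rise62 {l : List (ℝ × ℝ)} {b f p y d q g A c L : ℝ} (h : Ok l) (hb : 0 < b) (f0 : 0 ≤ f)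
    (fp : f ≤ p) (py : p ≤ y) (d0 : 0 ≤ d) (hq : y + d ≤ q) (qT : q ≤ TT l) (g0 : 0 ≤ g)
    (A0 : 0 ≤ A) (hL : q - f ≤ L) (hg : b * GG l f ≤ 1 + g) (h1 : ∀ s ∈ Ico f q, Gd l s ≤ A)
    (h2 : ∀ s ∈ Ico y (y + d), Gd l s ≤ -c) :
    b * (c * d * (q - (y + d))) - (g + b * A * L) * L ≤ Rig.Mf b l q - Rig.Mf b l p := by
  have bA : 0 ≤ b * A := by positivity
  have k1 : ∀ r, f ≤ r → r ≤ q → b * GG l r ≤ 1 + g + b * A * (r - f) := fun r a1 a2 => by
    have := mul_le_mul_of_nonneg_left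
      (GG_up h f0 a1 (a2.trans qT) fun s hs => h1 s ⟨hs.1, hs.2.trans_le a2⟩) hb.le
    linarith
  have k2 := mul_le_mul_of_nonneg_left
    (GG_up h (by linarith) (by linarith : y ≤ y + d) (hq.trans qT) h2) hb.le
  have k3 : ∀ r, y + d ≤ r → r ≤ q → b * GG l r ≤ 1 + g + b * A * L - b * (c * d) :=
    fun r a1 a2 => by
      have a3 := mul_le_mul_of_nonneg_left (GG_up h (by linarith) a1 (a2.trans qT)
        fun s hs => h1 s ⟨by linarith [hs.1], hs.2.trans_le a2⟩) hb.le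
      have a4 := k1 y (by linarith) (by linarith)
      have a5 : b * A * (r - (y + d) + (y - f)) ≤ b * A * L :=
        mul_le_mul_of_nonneg_left (by linarith) bA
      linarith
  have m1 := Mh_ge h hb (f0.trans fp) (by linarith : p ≤ y + d) (hq.trans qT)
    (e := -(g + b * A * L)) fun r hr => by
      have a1 := k1 r (fp.trans hr.1) (hr.2.le.trans hq)
      have a5 : b * A * (r - f) ≤ b * A * L :=
        mul_le_mul_of_nonneg_left (by linarith [hr.2]) bA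
      linarith
  have m2 := Mh_ge h hb (by linarith) hq qT (e := -(g + b * A * L) + b * (c * d)) fun r hr => by
    linarith [k3 r hr.1 hr.2.le]
  have L0 : 0 ≤ L := by linarith
  have m3 : (g + b * A * L) * (q - p) ≤ (g + b * A * L) * L :=
    mul_le_mul_of_nonneg_left (by linarith) (by positivity)
  change _ ≤ q - b * Gam l q - (p - b * Gam l p)
  linarith

theorem num62 {P α δ b : ℝ} (P1 : 1 ≤ P) (α0 : 0 ≤ α) (hδ : 10 ^ 4 * P ^ 5 * α < δ) (b1 : 1 ≤ b)
    (bP : b ≤ P) {x : ℝ} (hx : δ / 4 ≤ x)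
    (h : b * (δ / (4 * P ^ 2) * (δ / 2) * x) - (α ^ 2 + b * (10 * P ^ 2 * α) * (4 * δ)) * (4 * δ) ≤
      (P + 2) * α ^ 3 + b * (α ^ 3 + α ^ 2 * (4 * δ))) : False := by
  have P0 : 0 < P := by linarith
  have p5 : 1 ≤ P ^ 5 := one_le_pow₀ P1
  have p3 : P ≤ P ^ 3 := le_self_pow₀ P1 (by norm_num)
  have αδ : α ≤ δ := by nlinarith
  have δ0 : 0 < δ := lt_of_le_of_lt (by positivity) hδ
  have a1 : δ ^ 3 / (32 * P ^ 2) ≤ b * (δ / (4 * P ^ 2) * (δ / 2) * x) := by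
    have e : δ ^ 3 / (32 * P ^ 2) = δ / (4 * P ^ 2) * (δ / 2) * (δ / 4) := by field_simp; ring
    rw [e]
    exact (mul_le_mul_of_nonneg_left hx (by positivity)).trans
      (le_mul_of_one_le_left (mul_nonneg (by positivity) (by linarith)) b1)
  have w0 : 0 ≤ α * δ ^ 2 := by positivity
  have a2 : α ^ 2 * δ ≤ α * δ ^ 2 := by nlinarith [mul_nonneg (mul_nonneg α0 δ0.le) (sub_nonneg.2 αδ)]
  have a3 : α ^ 3 ≤ α ^ 2 * δ := by nlinarith [mul_nonneg (sq_nonneg α) (sub_nonneg.2 αδ)]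
  have a4 : b * (P ^ 2 * (α * δ ^ 2)) ≤ P * (P ^ 2 * (α * δ ^ 2)) :=
    mul_le_mul_of_nonneg_right bP (by positivity)
  have a5 : b * (α ^ 3 + α ^ 2 * (4 * δ)) ≤ P ^ 3 * (5 * (α * δ ^ 2)) :=
    mul_le_mul (bP.trans p3) (by linarith) (by positivity) (by positivity)
  have a6 : (P + 2) * α ^ 3 ≤ 3 * P ^ 3 * (α * δ ^ 2) :=
    mul_le_mul (by linarith) (a3.trans a2) (by positivity) (by positivity)
  have a7 : α * δ ^ 2 ≤ P ^ 3 * (α * δ ^ 2) := le_mul_of_one_le_left w0 (P1.trans p3)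
  have a8 : δ ^ 3 / (32 * P ^ 2) ≤ 172 * (P ^ 3 * (α * δ ^ 2)) := by linarith
  rw [div_le_iff₀ (by positivity)] at a8
  have a9 := mul_lt_mul_of_pos_right hδ (pow_pos δ0 2)
  have a10 : 0 ≤ P ^ 5 * (α * δ ^ 2) := by positivity
  linarith

end Crest.Agent.T156.Pr.Cv25

namespace Crest.Agent.T156.Alt.Mp9.At

open Set
open Crest.Agent.R164.GC Crest.Agent.R339.B Crest.Agent.R339.Var Crest.Agent.T157.Pf
open Crest.Agent.T156.Pr.Cv25 Crest.Agent.T156.Pr.Reg48

/-- data of the early case: `f` the floor point, `V` the last located node, `i` a sloped partner of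
the good node `w` of the plateau; every error is of size `α`, `α ^ 2` or `α ^ 3` -/
structure Ea (S : Sc) (M : Md) (m : ℕ) (a T f tl α : ℝ) (V i w : ℕ) : Prop where
  tl0 : 0 < tl ∧ tl ≤ f ∧ tl ≤ M.s (S.J - 1)
  th : S.C * S.θ / tl ≤ α
  v : S.v ≤ α
  hj : ∀ t ∈ Icc 0 T, Rig.Hp (lh M T) (lb M S m a T) t ≤ α
  fl : M.b * Pr.GG (lb M S m a T) f ≤ 1 + α ^ 2
  uf : -α ≤ uu M S m a T f
  V1 : S.jl ≤ V ∧ V < S.J
  fy : sb M m a (V + 1) - 2 * α ≤ f
  zV : M.z (S.J - 1) - M.z V ≤ S.C * α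
  i1 : S.jl < i ∧ i ≤ V ∧ f ≤ sb M m a (i + 1)
  i2 : S.θ * (M.s w - M.s i) ≤ α ^ 3
  Gi : -M.G i ≤ α ^ 3
  w1 : S.J ≤ w ∧ w ≤ S.Jp
  Gw : M.G w ≤ α ^ 3
  w2 : |sb M m a (w + 1) - M.s S.J| ≤ α
  er : res M S m a T i - res M S m a T w ≤ α ^ 3 + α ^ 2 * (sb M m a (w + 1) - sb M m a (i + 1))

set_option maxHeartbeats 1600000 in
/-- **the early case** -/
theorem early62 (T0 : ℝ) : ∃ K : ℝ, 1 ≤ K ∧ ∀ {S : Sc} {M : Md} {m : ℕ} {a T f tl α : ℝ}
    {V i w : ℕ}, At S M m a T → T ≤ T0 → S.C ≤ T0 → Ea S M m a T f tl α V i w →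
    M.s S.J - sb M m a (V + 1) ≤ K * α := by
  obtain ⟨K, K1, hK⟩ := Gd_two T0
  have e0 := Real.exp_pos (4 * T0)
  obtain ⟨P, TP, KP, eP⟩ : ∃ P, T0 ≤ P ∧ K ≤ P ∧ Real.exp (4 * T0) ≤ P :=
    ⟨|T0| + K + Real.exp (4 * T0), by linarith [le_abs_self T0], by linarith [abs_nonneg T0],
      by linarith [abs_nonneg T0]⟩
  have P1 : 1 ≤ P := K1.trans KP
  refine ⟨10 ^ 4 * P ^ 5, by nlinarith [one_le_pow₀ (n := 5) P1], ?_⟩
  intro S M m a T f tl α V i w A hT hC h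
  by_contra hn
  have hδ := not_le.1 hn
  obtain ⟨⟨l0, l1, l2⟩, th, hv, hj, fl, uf, ⟨V1, V2⟩, fy, zV, ⟨i1, i2, i3⟩, i4, Gi, ⟨w1, w2⟩, Gw,
    w3, er⟩ := h
  set σ := M.s S.J with hσ
  set y := sb M m a (V + 1) with hy
  set q := sb M m a (w + 1) with hq
  set δ := σ - y with hd
  have C1 := A.cl.C1
  have c0 := A.c_pos
  have v0 := v_pos A.cl
  have CP : S.C ≤ P := hC.trans TP
  have P0 : 0 < P := by linarith
  have α0 : 0 ≤ α := by linarith
  have θ0 : 0 ≤ S.θ := (A.ms_pos le_rfl).le.trans (A.cl.ms1 0)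
  have Pα : α ≤ P * α := le_mul_of_one_le_left α0 P1
  have P2 : P * α ≤ P ^ 2 * α := mul_le_mul_of_nonneg_right (le_self_pow₀ P1 two_ne_zero) α0
  have P3 : P ^ 2 * α ≤ P ^ 3 * α :=
    mul_le_mul_of_nonneg_right (pow_le_pow_right₀ P1 (by norm_num)) α0
  have P5 : P ^ 3 * α ≤ P ^ 5 * α :=
    mul_le_mul_of_nonneg_right (pow_le_pow_right₀ P1 (by norm_num)) α0
  have Cα : S.C * α ≤ P * α := mul_le_mul_of_nonneg_right CP α0
  have Cv : S.C * S.v ≤ P * α := mul_le_mul CP hv v0.le P0.le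
  have Kα : K * α ≤ P * α := mul_le_mul_of_nonneg_right KP α0
  obtain ⟨q1, q2⟩ := abs_le.1 w3
  have i3' := A.cl.i3
  have py : sb M m a (i + 1) ≤ y := A.sb_mono (Nat.succ_le_succ i2)
  have f0 : 0 ≤ f := by linarith
  have qT : q ≤ T := (A.sb_mem w2).2
  have σT : σ ≤ T := (A.cl.sm i3').trans A.t2
  have eT : TT (lb M S m a T) = TT (lh M T) := A.okb.2.trans A.okh.2.symm
  have hT' : TT (lh M T) ≤ T0 := A.okh.2.trans_le hT
  have mem : ∀ t, 0 ≤ t → t ≤ T → t ∈ Icc 0 (TT (lh M T)) := fun t a1 a2 =>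
    ⟨a1, a2.trans_eq A.okh.2.symm⟩
  have mb := Sc48.lvr_mono A.okb.1.1
  have zy : lvr 1 (lb M S m a T) y = M.z V := A.lvb_node V1 (V2.le.trans i3')
  obtain ⟨p1, p2⟩ := A.s_pred
  have gh : ∀ r, tl ≤ r → r < σ → Pr.Reg48.Gd (lh M T) r ≤ α := fun r a1 a2 => by
    have := (le_abs_self _).trans (A.gd_h (l0.le.trans a1) a2)
    refine le_trans this (le_trans ?_ th)
    rw [mul_div_assoc]
    exact mul_le_mul_of_nonneg_left (div_le_div₀ θ0 (A.cl.ms1 r) l0 (a1.trans (le_max_left _ _)))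
      c0.le
  -- upper bound from a lower bound of the labels
  have up : ∀ t r d, 0 ≤ t → t ≤ T → tl ≤ r → r < σ → 0 ≤ d →
      -d ≤ lvr 1 (lb M S m a T) t - lvr 1 (lh M T) r →
      Pr.Reg48.Gd (lb M S m a T) t ≤ α + 2 * d + K * (α + |t - r|) := fun t r d a1 a2 a3 a4 a5 a6 => by
    have r0 := l0.le.trans a3
    have rT := mem r r0 (a4.le.trans σT)
    have k := (abs_le.1 (hK _ _ A.okb.1 A.okh.1 eT hT' t (mem t a1 a2) r rT α (hj t ⟨a1, a2⟩)).1).2
    obtain ⟨x0, x1⟩ := (ode A.okh.1).2.2.2 r rT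
    have x2 := mul_le_mul_of_nonneg_left a6 x0
    have x3 := mul_le_of_le_one_left a5 x1
    linarith [gh r a3 a4]
  have h1 : ∀ s ∈ Ico f q, Pr.Reg48.Gd (lb M S m a T) s ≤ 10 * P ^ 2 * α := fun s hs => by
    have s0 := f0.trans hs.1
    have sT := hs.2.le.trans qT
    rcases lt_or_ge s y with c | c
    · have k := ((A.sl (show s < σ by linarith)) f s f0 hs.1 le_rfl).2
      have k2 : S.C * (s - f) ≤ S.C * (2 * α) := mul_le_mul_of_nonneg_left (by linarith) c0.le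
      have := up s s (4 * (P * α)) s0 sT (l1.trans hs.1) (by linarith) (by positivity) (by
        have := mb hs.1
        unfold uu at uf
        linarith)
      rw [sub_self, abs_zero, add_zero] at this
      linarith
    · have zs := mb c
      rw [zy] at zs
      rcases lt_or_ge s σ with c' | c'
      · have := up s s (P * α) s0 sT (l1.trans hs.1) c' (by positivity) (by
          linarith [A.zh_le_8 c'])
        rw [sub_self, abs_zero, add_zero] at this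
        linarith
      · have := up s (M.s (S.J - 1)) (P * α) s0 sT l2 p1 (by positivity) (by
          rw [A.zh_pred]; linarith)
        rw [abs_of_nonneg (by linarith)] at this
        have k : K * (α + (s - M.s (S.J - 1))) ≤ P * (3 * (P * α)) :=
          mul_le_mul KP (by linarith [hs.2]) (by linarith) P0.le
        linarith only [this, k, Pα, P2, α0]
  have h2 : ∀ s ∈ Ico y (y + δ / 2), Pr.Reg48.Gd (lb M S m a T) s ≤ -(δ / (4 * P ^ 2)) := fun s hs => by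
    have s0 : 0 ≤ s := by linarith [hs.1]
    have s1 : s ≤ M.s (S.J - 1) := by linarith [hs.2]
    have sT : s ≤ T := by linarith
    have zs := mb hs.1
    rw [zy] at zs
    have k := ((A.sl p1) s _ s0 s1 le_rfl).1
    rw [A.zh_pred] at k
    have k1 : 1 / P * (δ / 2 - P * α) ≤ 1 / S.C * (M.s (S.J - 1) - s) :=
      mul_le_mul (one_div_le_one_div_of_le c0 CP) (by linarith [hs.2]) (by linarith) (by positivity)
    have k2 : 1 / P * (δ / 2 - P * α) = δ / P / 2 - α := by field_simp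
    have k3 : 10 ^ 4 * (P ^ 2 * α) ≤ δ / P := by
      rw [le_div_iff₀ P0]; linarith only [hδ, P5, α0, Pα, P2, P3]
    have k4 : δ / P / 4 ≤ lvr 1 (lb M S m a T) s - lvr 1 (lh M T) s := by linarith
    have k5 := (hK _ _ A.okb.1 A.okh.1 eT hT' s (mem s s0 sT) s (mem s s0 sT) α
      (hj s ⟨s0, sT⟩)).2 (by linarith [mul_nonneg (sq_nonneg P) α0])
    rw [sub_self, abs_zero, add_zero] at k5
    have k6 : 1 / P ≤ Real.exp (-(4 * T0)) := by
      rw [Real.exp_neg, ← one_div]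
      exact one_div_le_one_div_of_le e0 eP
    have k7 : 1 / P * (δ / P / 4) ≤
        Real.exp (-(4 * T0)) * (lvr 1 (lb M S m a T) s - lvr 1 (lh M T) s) :=
      mul_le_mul k6 k4 (by linarith [mul_nonneg (sq_nonneg P) α0]) (Real.exp_pos _).le
    have k8 : 1 / P * (δ / P / 4) = δ / (4 * P ^ 2) := by field_simp
    have k9 : 2 * (P * α) ≤ δ / (4 * P ^ 2) := by
      rw [le_div_iff₀ (by positivity)]; linarith only [hδ, P5, α0, Pα, P2, P3]
    linarith [gh s (by linarith [hs.1]) (by linarith)]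
  have r := rise62 (L := 4 * δ) A.okb.1 A.b_pos f0 i3 py (by linarith : 0 ≤ δ / 2)
    (by linarith : y + δ / 2 ≤ q) (qT.trans_eq A.okb.2.symm) (sq_nonneg α) (by positivity)
    (by linarith) fl h1 h2
  have iw : i ≤ w := by omega
  rw [hq, A.Mf_b (i1.trans_le iw) w2, A.Mf_b i1 (iw.trans w2), ← hq] at r
  have b0 := A.b_pos
  have b1 : 1 ≤ M.b := (d_mem A.cl (le_refl M.N)).1
  have rm := rb_mono (M := M) (a := a) A.m_pos iw
  have t1 : M.b * M.rb m a i / (m + 1) ≤ M.b * M.rb m a w / (m + 1) :=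
    div_le_div_of_nonneg_right (mul_le_mul_of_nonneg_left rm b0.le) (by positivity)
  have t2 : res M S m a T i - res M S m a T w ≤ α ^ 3 + α ^ 2 * (4 * δ) :=
    er.trans (add_le_add le_rfl (mul_le_mul_of_nonneg_left (by linarith) (sq_nonneg α)))
  have t3 := mul_le_mul_of_nonneg_left t2 b0.le
  have n1 := A.Mf_node i1 (iw.trans w2)
  have n2 := A.Mf_node (i1.trans_le iw) w2
  have n3 := (A.Mf_sl (s_nn A.cl i) le_rfl _ _ le_rfl (A.cl.sm iw) (A.cl.sm w2)).2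
  have n4 : S.C * S.ms (M.s S.Jp) * (M.s w - M.s i) ≤ P * α ^ 3 := by
    rw [mul_assoc]
    exact mul_le_mul CP ((mul_le_mul_of_nonneg_right (A.cl.ms1 _)
      (sub_nonneg.2 (A.cl.sm iw))).trans i4)
      (mul_nonneg (A.ms_pos (s_nn A.cl _)).le (sub_nonneg.2 (A.cl.sm iw))) P0.le
  exact num62 P1 α0 hδ b1 (A.cl.b1.trans CP) (x := q - (y + δ / 2)) (by linarith) (by linarith)

end Crest.Agent.T156.Alt.Mp9.At

end
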