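import Crest.Agent.T156.TLpS_73
import Crest.Agent.T156.TLpE_62
import Crest.Agent.T156.TLp_62

/-!
Row 156, block (L) (helper73): the core of (TLp) at the level of one member.
-/

set_option autoImplicit false

noncomputable section

namespace Crest.Agent.T156.Alt.L62

open MeasureTheory Set Real
open Crest.Agent.R164.GC Crest.Agent.R339.B Crest.Agent.R339.Var Crest.Agent.T157.Pf
open Crest.Agent.T156.Alt.L69 (dx du)
open Crest.Agent.T156.Alt.Mp9 Crest.Agent.T156.Alt.Mp9.At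

/-- the last located node `V`, the anchor time `t0` with its node `k0`, the floor point `f` -/
structure W1 (S : Sc) (M : Md) (m : ℕ) (a T ℓ D p g0 : ℝ) (V k0 : ℕ) (t0 f : ℝ) : Prop where
  V1 : S.jl < V ∧ V < S.J
  V2 : M.s V + ℓ / 4 ≤ M.s S.J
  V3 : sb M m a (V + 1) + ℓ / 4 ≤ M.s S.J
  dich : M.s S.J - ℓ / 2 ≤ sb M m a (V + 1) ∨ M.z (S.J - 1) - M.z V ≤ S.C * ℓ
  t1 : sb M m a (V + 1) - ℓ / 8 ≤ t0 ∧ t0 ≤ sb M m a (V + 1)
  low : 3 / 4 * M.s S.J ≤ t0 - ℓ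
  hu : ∀ t, M.s S.J / 2 ≤ t → t ≤ t0 → |uu M S m a T t| ≤ D
  hJ : |Sc48.Jf (lh M T) (lb M S m a T) T t0| ≤ p
  k1 : S.j0 ≤ k0 ∧ k0 < S.J
  k2 : t0 - D ≤ M.s k0 ∧ M.s k0 ≤ t0
  k3 : |sb M m a (k0 + 1) - t0| ≤ D
  f1 : t0 - ℓ ≤ f ∧ f ≤ t0
  g0 : 0 ≤ g0 ∧ M.b * Pr.GG (lb M S m a T) f ≤ 1 + g0

/-- the cut node `w` and the good nodes that serve the nodes above `kA` -/
structure Np73 (S : Sc) (M : Md) (m : ℕ) (a T u0 κ aa u la Y : ℝ) (Pn : ℕ → Prop) (er : ℕ → ℝ)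
    (w kA : ℕ) : Prop where
  pw : Pn w
  k1 : S.J ≤ kA ∧ kA ≤ w
  w1 : 1 - u0 ≤ M.z w
  κ1 : 0 < κ ∧ κ ≤ du M w ∧ κ ≤ M.z w - M.z (S.J - 1)
  a1 : aa ≤ M.z (kA - 1) - M.z (S.J - 1) ∧ M.z (kA - 1) - M.z (S.J - 1) ≤ 8 * aa
  u0 : 0 ≤ u
  er0 : ∀ k, 0 ≤ er k
  lo : ∀ k, kA ≤ k → k ≤ w → ∃ i, S.J ≤ i ∧ i ≤ k ∧ aa ≤ M.z i - M.z (S.J - 1) ∧
    M.z k - M.z (S.J - 1) ≤ 4 * (M.z i - M.z (S.J - 1)) ∧
    res M S m a T i - res M S m a T w ≤ er k + la * (sb M m a (w + 1) - sb M m a (i + 1))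
  hi : ∀ k, w < k → k ≤ S.Jp → u < du M k → ∃ j, k ≤ j ∧ j ≤ S.Jp ∧ du M k ≤ 4 * du M j ∧
    res M S m a T w - res M S m a T j ≤ er k + la * (sb M m a (j + 1) - sb M m a (w + 1))
  sum : ∑ k ∈ Finset.Icc kA S.Jp, dx M k * (er k / (M.z k - M.z (S.J - 1))) ≤ Y

/-- the numbers at the scale `α` -/
structure Nu73 (S : Sc) (M : Md) (m : ℕ) (a T ℓ D g0 x la α : ℝ) (ez : ℕ → ℝ) (w : ℕ) : Prop where
  flat : M.s S.Jp = M.s S.J
  jl : M.s S.jl < M.s S.J / 2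
  l1 : ℓ ≤ α
  D1 : D ≤ α
  th : 100 * S.C ^ 3 * S.θ ≤ α ^ 2
  v : 4 * S.C ^ 2 * S.v ≤ ℓ
  hp : ∀ t ∈ Icc 0 T, Rig.Hp (lh M T) (lb M S m a T) t ≤ α
  g1 : g0 ≤ α ^ 2
  la : la ≤ α ^ 2
  er : x + ez w ≤ α ^ 3
  Gw : M.G w ≤ α ^ 3
  Gs : ∀ k, k < S.J → M.s S.J / 2 ≤ M.s k → M.s k + ℓ / 8 ≤ M.s S.J → |M.G k| ≤ α ^ 3
  Mt : |sb M m a (w + 1) - M.s S.J| ≤ α

variable {S : Sc} {M : Md} {m : ℕ} {a T ℓ D p g0 t0 f x la α u' : ℝ} {V k0 w : ℕ} {ez : ℕ → ℝ}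
  {Pn : ℕ → Prop}

theorem z_sl73 (A : At S M m a T) {i k : ℕ} (h0 : S.j0 ≤ i) (h : i ≤ k) (h1 : k < S.J) :
    (M.s k - M.s i) / S.C - S.C * S.v ≤ M.z k - M.z i ∧
      M.z k - M.z i ≤ S.C * (M.s k - M.s i + S.v) := by
  have := A.cl.lip _ _ (s_nn A.cl i) (A.cl.sm h) ((s_lt A.cl h1).trans_le (A.cl.sm h1))
  rwa [A.cl.lv i h0 _ le_rfl (s_lt A.cl (h.trans_lt h1)),
    A.cl.lv k (h0.trans h) _ le_rfl (s_lt A.cl h1)] at this

theorem Nu73.fa (n : Nu73 S M m a T ℓ D g0 x la α ez w) (A : At S M m a T)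
    (h1 : 12 * S.C ^ 4 * α ≤ 1) : 0 < ℓ ∧ S.v ≤ α ∧ S.C * S.v ≤ ℓ / 4 ∧ S.C ^ 2 * S.v ≤ ℓ / 4 ∧
      6 * S.C ^ 2 * ℓ ≤ M.s S.J ∧ S.C * S.θ / (M.s S.J / 2) ≤ α ∧ M.s S.J / 2 ≤ M.s (S.J - 1) ∧
      0 < M.s S.J / 2 ∧ α ≤ 1 := by
  have C1 := A.cl.C1
  have v0 := v_pos A.cl
  have θ0 : 0 ≤ S.θ := (A.ms_pos le_rfl).le.trans (A.cl.ms1 0)
  have c2 : S.C ≤ S.C ^ 2 := by nlinarith
  have c4 : 1 ≤ S.C ^ 4 := one_le_pow₀ C1
  have v1 : S.v ≤ S.C * S.v := le_mul_of_one_le_left v0.le C1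
  have v2 : S.C * S.v ≤ S.C ^ 2 * S.v := by gcongr
  have hv := n.v
  have l1 := n.l1
  have l0 : 0 < ℓ := by linarith
  have α0 : 0 < α := by linarith
  have α1 : 12 * α ≤ 1 := by nlinarith
  obtain ⟨j1, j2, -⟩ := A.J_pred
  obtain ⟨p1, p2⟩ := A.s_pred
  have z1 := A.z_le_s36 j1 j2
  have z2 := A.cl.atom.1
  rw [div_le_iff₀ (by linarith)] at z2
  have z3 : 1 ≤ S.C ^ 2 * M.s S.J + 2 * (S.C ^ 2 * S.v) := by
    have := mul_le_mul_of_nonneg_right (z1.trans (mul_le_mul_of_nonneg_left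
      (show M.s (S.J - 1) + 2 * S.v ≤ M.s S.J + 2 * S.v by linarith) (by linarith))) A.c_pos.le
    linarith
  have z4 : 1 ≤ 2 * (S.C ^ 2 * M.s S.J) := by linarith
  have σ0 : 0 < M.s S.J := (s_nn A.cl _).trans_lt p1
  have z5 : 6 * S.C ^ 2 * ℓ ≤ M.s S.J := by
    refine le_of_mul_le_mul_left ?_ (show 0 < 2 * S.C ^ 2 by positivity)
    have : 12 * S.C ^ 4 * ℓ ≤ 12 * S.C ^ 4 * α := by gcongr
    linarith
  have z6 : ℓ ≤ S.C ^ 2 * ℓ := le_mul_of_one_le_left l0.le (by linarith)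
  refine ⟨l0, by linarith, by linarith, by linarith, z5, ?_, by linarith, by linarith, by linarith⟩
  rw [div_le_iff₀ (by linarith)]
  have e1 : S.C * S.θ * 1 ≤ S.C * S.θ * (2 * (S.C ^ 2 * M.s S.J)) := by gcongr
  have e2 := mul_le_mul_of_nonneg_right n.th σ0.le
  have e3 : α ^ 2 * M.s S.J ≤ α * M.s S.J := by gcongr; nlinarith
  have e4 : 0 ≤ α * M.s S.J := by positivity
  linarith

set_option maxHeartbeats 800000 in
/-- **the last located node is close to the corner** -/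
theorem wout73 (T0 : ℝ) : ∃ K : ℝ, 1 ≤ K ∧ ∀ {S : Sc} {M : Md} {m : ℕ}
    {a T ℓ D p g0 t0 f x la α u' : ℝ} {V k0 w : ℕ} {ez : ℕ → ℝ} {Pn : ℕ → Prop}, At S M m a T →
    T ≤ T0 → S.C ≤ T0 → W1 S M m a T ℓ D p g0 V k0 t0 f →
    PN S M m a T Pn ez x la u' (ℓ / (100 * S.C ^ 3)) ℓ (100 * S.C ^ 3) → Pn w →
    Nu73 S M m a T ℓ D g0 x la α ez w → 12 * S.C ^ 4 * α ≤ 1 → M.s S.J - t0 ≤ K * α := by
  obtain ⟨K, K1, hK⟩ := early62 T0
  refine ⟨K + 1 + 6 * T0 ^ 2, by linarith [sq_nonneg T0], ?_⟩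
  intro S M m a T ℓ D p g0 t0 f x la α u' V k0 w ez Pn A hT hC h P pw n h1
  obtain ⟨l0, v1, v2, v3, l2, th, s1, s0, α1⟩ := n.fa A h1
  obtain ⟨⟨V1, V2⟩, V3, V4, dich, ⟨t1, t2⟩, low, hu, -, -, -, -, ⟨f1, f2⟩, -, g2⟩ := h
  have C1 := A.cl.C1
  have c0 := A.c_pos
  have v0 := v_pos A.cl
  have θ0 : 0 ≤ S.θ := (A.ms_pos le_rfl).le.trans (A.cl.ms1 0)
  have l1 := n.l1
  have α0 : 0 < α := by linarith
  have i1 := A.cl.i1
  have q0 : 0 ≤ K * α := by positivity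
  have q1 : 0 ≤ T0 ^ 2 * α := by positivity
  have q2 : S.C ^ 2 * α ≤ T0 ^ 2 * α := by gcongr
  rcases dich with d | d
  · linarith
  obtain ⟨j1, j2, -⟩ := A.J_pred
  obtain ⟨p1, p2⟩ := A.s_pred
  obtain ⟨w1, w2⟩ := P.mem w pw
  have c2 : ℓ ≤ S.C ^ 2 * ℓ := le_mul_of_one_le_left l0.le (one_le_pow₀ C1)
  have c3 : S.C ^ 2 * ℓ ≤ S.C ^ 3 * ℓ := by gcongr; norm_num
  have e1 : M.s S.J - M.s V ≤ 2 * (S.C ^ 2 * ℓ) := by
    have := (z_sl73 A (show S.j0 ≤ V by omega) (show V ≤ S.J - 1 by omega) j2).1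
    have : (M.s (S.J - 1) - M.s V) / S.C ≤ S.C * ℓ + S.C * S.v := by linarith
    rw [div_le_iff₀ c0] at this
    linarith
  have ex : ∃ q, M.s V - ℓ ≤ M.s q := ⟨V, by linarith⟩
  have pV : Nat.find ex ≤ V := Nat.find_min' ex (by linarith)
  have pa := Nat.find_spec ex
  have pj : S.jl < Nat.find ex := lt_of_not_ge fun c => by linarith [A.cl.sm c, n.jl]
  have pb := not_le.1 (Nat.find_min ex (show Nat.find ex - 1 < Nat.find ex by omega))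
  set q := Nat.find ex with hq
  have pc := (A.cl.ss (q - 1) (by omega)).2
  rw [show q - 1 + 1 = q by omega] at pc
  obtain ⟨z1, z2⟩ := z_sl73 A (show S.j0 ≤ q by omega) pV V2
  obtain ⟨i, a1, a2, hi⟩ := P.dv q V pj pV V2 (by linarith) (by linarith) (by
    refine le_trans ?_ z1
    have y1 : ℓ / (100 * S.C ^ 3) ≤ ℓ / (2 * S.C) :=
      div_le_div_of_nonneg_left l0.le (by positivity) (by nlinarith [one_le_pow₀ (n := 2) C1])
    have y2 : ℓ / (2 * S.C) = (ℓ / 2) / S.C := by field_simp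
    have y3 : S.C * S.v = S.C ^ 2 * S.v / S.C := by field_simp
    rw [y3, ← sub_div]
    exact y1.trans (y2.trans_le (div_le_div_of_nonneg_right (by linarith) c0.le)))
  have si := A.cl.sm a1
  have si' := A.cl.sm a2
  have uf := abs_le.1 (hu f (by linarith) f2)
  have D1 := n.D1
  rcases le_or_gt f (sb M m a (i + 1)) with c | c
  · have sw : M.s w ≤ M.s S.J := n.flat ▸ A.cl.sm w2.le
    have r := hK A hT hC (f := f) (tl := M.s S.J / 2) (α := α) (V := V) (i := i) (w := w)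
      ⟨⟨s0, by linarith, s1⟩, th, v1, n.hp, by linarith [n.g1], by linarith, ⟨V1.le, V2⟩,
        by linarith, d.trans (by gcongr), ⟨by omega, a2, c⟩, by
          calc S.θ * (M.s w - M.s i) ≤ S.θ * (100 * (S.C ^ 3 * ℓ)) := by
                gcongr; linarith [mul_pos (pow_pos c0 3) l0]
            _ = 100 * S.C ^ 3 * S.θ * ℓ := by ring
            _ ≤ α ^ 2 * α := by gcongr; exact n.th
            _ = _ := by ring,
        (neg_le_abs _).trans (n.Gs i (by omega) (by linarith) (by linarith)), ⟨w1, w2.le⟩, n.Gw,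
        n.Mt, by
          have y1 := (abs_le.1 (hi w pw)).1
          have y2 := mul_le_mul_of_nonneg_right n.la
            (sub_nonneg.2 (A.sb_mono (show i + 1 ≤ w + 1 by omega)))
          linarith [n.er]⟩
    linarith
  · have y1 := Sc48.lvr_mono A.okb.1.1 c.le
    rw [A.lvb_node (by omega) (by omega)] at y1
    have y2 := A.slope36 (s := f) (by linarith) (by linarith)
    have y3 := A.cl.leg.zm a1
    have y4 : S.C * (M.s V - M.s q + S.v) ≤ S.C * (α + α) := by gcongr; linarith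
    have y5 : S.C * ℓ ≤ S.C * α := by gcongr
    have y6 : α ≤ S.C * α := le_mul_of_one_le_left α0.le C1
    have y7 : 1 / S.C * (M.s S.J - f) ≤ 6 * (S.C * α) := by
      unfold uu at uf
      linarith [uf.2]
    rw [one_div_mul_eq_div, div_le_iff₀ c0] at y7
    linarith

theorem num73 {K κ α p D R W Y Dm w : ℝ} (K1 : 100 ≤ K) (κ0 : 0 < κ) (κ1 : κ ≤ 1) (α0 : 0 < α)
    (α1 : α ≤ 1) (D0 : 0 ≤ D) (D1 : D ≤ α) (W0 : 0 ≤ W) (w0 : 0 ≤ w)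
    (w1 : w ≤ K * α) (m0 : 0 ≤ Dm) (m1 : Dm ≤ α) (hY : Y = p ^ 2 + D ^ 2 + α ^ 3 + W)
    (hR : R ^ 2 ≤ 16000 * K ^ 5 * (α ^ 3 + W))
    (h : κ * Dm ≤ 2 * (p + 2 * D + 0 + R + 9 * (K * α) * (w + 0))) :
    9 * (K * α) * (w + 0 + D + Dm) ^ 2 + 3 * (R ^ 2 + Dm ^ 2 + 0 ^ 2) ≤ K ^ 8 / κ ^ 2 * Y := by
  have K0 : 1 ≤ K := by linarith
  have a3 : 0 < α ^ 3 := by positivity
  have p2 := sq_nonneg p
  have d2 := sq_nonneg D
  have Y0 : 0 ≤ Y := by linarith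
  have k5 : 1 ≤ K ^ 5 := one_le_pow₀ K0
  have y1 : Y ≤ K ^ 5 * Y := le_mul_of_one_le_left Y0 k5
  have y2 : K ^ 5 * (α ^ 3 + W) ≤ K ^ 5 * Y := by gcongr; linarith
  have y3 : K ^ 3 * α ^ 3 ≤ K ^ 5 * Y := by gcongr <;> [norm_num; linarith]
  have y4 : K ^ 4 * α ^ 4 ≤ K ^ 5 * Y :=
    calc K ^ 4 * α ^ 4 ≤ K ^ 5 * α ^ 3 := by
          gcongr ?_ * ?_
          · gcongr; norm_num
          · exact pow_le_pow_of_le_one α0.le α1 (by norm_num)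
      _ ≤ _ := by gcongr; linarith
  have ka : α ≤ K * α := le_mul_of_one_le_left α0.le K0
  have e1 : 9 * (K * α) * (w + 0 + D + Dm) ^ 2 ≤ 9 * (K * α) * (3 * (K * α)) ^ 2 := by
    gcongr; linarith
  have e2 : 9 * (K * α) * (w + 0) ≤ 9 * (K * α) * (K * α) := by gcongr; linarith
  have e3 : (κ * Dm) ^ 2 ≤ (2 * (p + 2 * D + R + 9 * (K * α) * (K * α))) ^ 2 :=
    pow_le_pow_left₀ (by positivity) (by linarith) 2
  have e4 : (p + 2 * D + R + 9 * (K * α) * (K * α)) ^ 2 ≤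
      4 * (p ^ 2 + (2 * D) ^ 2 + R ^ 2 + (9 * (K * α) * (K * α)) ^ 2) := by
    generalize 9 * (K * α) * (K * α) = z
    linarith [sq_nonneg (p - 2 * D), sq_nonneg (p - R), sq_nonneg (p - z), sq_nonneg (2 * D - R),
      sq_nonneg (2 * D - z), sq_nonneg (R - z)]
  have e5 : κ ^ 2 * Dm ^ 2 ≤ 300000 * (K ^ 5 * Y) := by linarith
  have k2 : κ ^ 2 ≤ 1 := pow_le_one₀ κ0.le κ1
  have e6 : 9 * (K * α) * (w + 0 + D + Dm) ^ 2 + 3 * R ^ 2 ≤ 50000 * (K ^ 5 * Y) := by linarith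
  have e7 := mul_le_of_le_one_left (show 0 ≤ 50000 * (K ^ 5 * Y) by positivity) k2
  have e8 := mul_le_mul_of_nonneg_left e6 (sq_nonneg κ)
  have e9 : 100 ^ 3 * (K ^ 5 * Y) ≤ K ^ 3 * (K ^ 5 * Y) := by gcongr
  rw [div_mul_eq_mul_div, le_div_iff₀ (by positivity)]
  linarith

set_option maxHeartbeats 800000 in
/-- **the core of (TLp)** -/
theorem core73 (T0 : ℝ) : ∃ K u0 : ℝ, 1 ≤ K ∧ 0 < u0 ∧ ∀ {S : Sc} {M : Md} {m : ℕ}
    {a T ℓ D p g0 t0 f x la α u' u κ Y GP : ℝ} {V k0 w kA : ℕ} {ez er : ℕ → ℝ} {Pn : ℕ → Prop},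
    At S M m a T → T ≤ T0 → S.C ≤ T0 → W1 S M m a T ℓ D p g0 V k0 t0 f →
    PN S M m a T Pn ez x la u' (ℓ / (100 * S.C ^ 3)) ℓ (100 * S.C ^ 3) →
    Np73 S M m a T u0 κ (K * α) u la Y Pn er w kA → Nu73 S M m a T ℓ D g0 x la α ez w →
    100 * K * α ≤ κ → ∑ j ∈ Finset.Icc S.J S.Jp, (M.z j - M.z (j - 1)) * M.G j ^ 2 ≤ GP →
    M.s S.J - t0 ≤ K * α ∧
    ∑ k ∈ Finset.Ioc k0 S.Jp, dx M k * (sb M m a (k + 1) - M.s k) ^ 2 ≤
      K ^ 8 / κ ^ 2 * (p ^ 2 + D ^ 2 + α ^ 3 + (√GP / (√κ * √α) + Y + u * T ^ 2)) := by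
  obtain ⟨K1, k1, h1⟩ := wout73 T0
  obtain ⟨Ks, u0, ks, u1, h2⟩ := spread73 T0
  set P := max T0 1 with hP
  have P1 : 1 ≤ P := le_max_right _ _
  set K2 := P * (K1 + 3) with hK2
  have k2 : K1 + 3 ≤ K2 := le_mul_of_one_le_left (by linarith) P1
  have k3 : Ks ≤ Ks * P * (K2 + 3) := by
    rw [mul_assoc]; exact le_mul_of_one_le_right (by linarith) (by nlinarith)
  have k4 : 0 ≤ P ^ 4 := by positivity
  obtain ⟨K, Ka, Kb, Kc, Kd⟩ : ∃ K, 100 ≤ K ∧ P ^ 4 ≤ K ∧ Ks * P * (K2 + 3) ≤ K ∧ K2 ≤ K :=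
    ⟨100 + P ^ 4 + Ks * P * (K2 + 3) + K2, by linarith, by linarith, by linarith, by linarith⟩
  refine ⟨K, u0, by linarith, u1, ?_⟩
  intro S M m a T ℓ D p g0 t0 f x la α u' u κ Y GP V k0 w kA ez er Pn A hT hC h Pp N n hκ hG
  have C1 := A.cl.C1
  have c0 := A.c_pos
  have v0 := v_pos A.cl
  have CP : S.C ≤ P := hC.trans (le_max_left _ _)
  have z1 := A.cl.leg.z1
  have zm := A.cl.leg.zm
  obtain ⟨κ0, κ1, κ2⟩ := N.κ1
  have x0 : 0 < M.z (S.J - 1) := lt_of_lt_of_le (by positivity) A.cl.atom.1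
  have κ3 : κ ≤ 1 := by linarith [z1 w]
  have α0 : 0 < α := lt_of_lt_of_le (lt_of_lt_of_le (by positivity) n.v) n.l1
  have hc : 12 * S.C ^ 4 * α ≤ 1 := by
    have : S.C ^ 4 * α ≤ K * α := by gcongr; exact le_trans (by gcongr) Kb
    have : 0 < K * α := by positivity
    linarith
  obtain ⟨l0, v1, v2, v3, l2, th, s1, s0, α1⟩ := n.fa A hc
  have hw := h1 A hT hC h Pp N.pw n hc
  obtain ⟨⟨V1, V2⟩, V3, V4, -, ⟨t1, t2⟩, low, hu, hJ, ⟨c1, c2⟩, ⟨c3, c4⟩, c5, ⟨f1, f2⟩, g1, g2⟩ := h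
  obtain ⟨w1, w2⟩ := Pp.mem w N.pw
  obtain ⟨b1, b2⟩ := N.k1
  obtain ⟨j1, j2, -⟩ := A.J_pred
  obtain ⟨p1, p2⟩ := A.s_pred
  have l1 := n.l1
  have D1 := n.D1
  have D0 : 0 ≤ D := (abs_nonneg _).trans c5
  have q1 : (K1 + 3) * α ≤ K2 * α := by gcongr
  have q2 : K2 * α ≤ K * α := by gcongr
  have q3 : S.C * ((K1 + 2) * α) + α ≤ K2 * α := by
    have : S.C * ((K1 + 2) * α) ≤ P * ((K1 + 2) * α) := by gcongr
    have := le_mul_of_one_le_left α0.le P1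
    rw [hK2]; linarith
  have θ0 : 0 ≤ S.θ := (A.ms_pos le_rfl).le.trans (A.cl.ms1 0)
  have th' : S.θ / (M.s S.J / 2) ≤ α := le_trans (by gcongr; exact le_mul_of_one_le_left θ0 C1) th
  obtain ⟨-, -, sp⟩ := h2 A hT (f := f) (g0 := g0) (la := la) (jj := α) (δ := K2 * α)
    (tl := M.s S.J / 2) (aa := K * α) (a0 := K * α) (u := u) (GP := GP) (γ := 0) (κ := κ) (er := er)
    (w := w) (kA := kA) ⟨s0, s1, by linarith, by linarith,
      f2.trans (t2.trans (A.sb_mono (by omega))), by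
        have y1 := (abs_le.1 (hu f (by linarith) f2)).1
        unfold uu at y1
        rcases le_total f (M.s (S.J - 1)) with c | c
        · have y2 := ((A.sl p1) f _ (by linarith) c le_rfl).2
          rw [A.zh_pred] at y2
          have : S.C * (M.s (S.J - 1) - f) + S.C * S.v ≤ S.C * ((K1 + 2) * α) := by
            rw [← mul_add]; gcongr; linarith
          linarith
        · have y2 := Sc48.lvr_mono A.okh.1.1 c
          rw [A.zh_pred] at y2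
          linarith,
      g2, g1, Pp.la0, by positivity, N.u0, N.er0, by linarith [(abs_le.1 n.Mt).2], n.hp, by
        calc Ks * S.C * (S.θ / (M.s S.J / 2) + α + K2 * α + S.v) ≤ Ks * P * ((K2 + 3) * α) := by
              gcongr; linarith
          _ = Ks * P * (K2 + 3) * α := by ring
          _ ≤ _ := by gcongr,
      b1, b2, w2.le, N.w1, κ0, κ1, κ2, by positivity, N.a1.1, by rw [n.flat, sub_self], hG, N.lo,
      N.hi⟩
  have Y0 : 0 ≤ ∑ k ∈ Finset.Icc kA S.Jp, dx M k * (er k / (M.z k - M.z (S.J - 1))) :=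
    Finset.sum_nonneg fun k hk => mul_nonneg (A.dz_nn k) (div_nonneg (N.er0 k)
      (sub_nonneg.2 (zm (by have := Finset.mem_Icc.1 hk; omega))))
  have Y1 := N.sum
  have u0' : 0 ≤ u * T ^ 2 := mul_nonneg N.u0 (sq_nonneg _)
  have G0 : 0 ≤ √GP / (√κ * √α) := by positivity
  have K0 : 1 ≤ K := by linarith
  have ka : α ≤ K * α := le_mul_of_one_le_left α0.le K0
  have sp2 : ∑ k ∈ Finset.Icc kA S.Jp, dx M k * (sb M m a (k + 1) - sb M m a (w + 1)) ^ 2 ≤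
      16000 * K ^ 5 * (α ^ 3 + (√GP / (√κ * √α) + Y + u * T ^ 2)) := by
    refine sp.trans ?_
    have la0 := Pp.la0
    have e0 : α ^ 2 ≤ (K * α) ^ 2 := by gcongr
    have e1 : (g0 + 2 * (K * α) * (K2 * α) + la) ^ 2 / (K * α) ≤ 16 * (K ^ 3 * α ^ 3) := by
      rw [div_le_iff₀ (by positivity)]
      have : 2 * (K * α) * (K2 * α) ≤ 2 * (K * α) * (K * α) := by gcongr
      calc _ ≤ (4 * (K * α) ^ 2) ^ 2 := by gcongr; linarith [n.g1, n.la]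
        _ = _ := by ring
    have e2 : (S.C * S.θ * 0 + √GP) / (√κ * √(K * α)) ≤ √GP / (√κ * √α) := by
      rw [mul_zero, zero_add]; gcongr
    have k3' : 1 ≤ K ^ 3 := one_le_pow₀ K0
    have e3 := le_mul_of_one_le_left (show 0 ≤ √GP / (√κ * √α) + Y by linarith) k3'
    have e4 : u * T ^ 2 ≤ K ^ 5 * (u * T ^ 2) := le_mul_of_one_le_left u0' (one_le_pow₀ K0)
    have e5 : 0 ≤ K ^ 3 * (√GP / (√κ * √α) + Y) := by linarith
    have e6 : 0 ≤ K ^ 5 * (u * T ^ 2) := by linarith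
    calc _ ≤ 1000 * K ^ 2 * (16 * (K ^ 3 * α ^ 3) + 16 * (K ^ 3 * (√GP / (√κ * √α) + Y))) +
          u * T ^ 2 := by
          gcongr ?_ * ?_ + _
          · gcongr; linarith
          · linarith
      _ ≤ _ := by linarith
  set W := √GP / (√κ * √α) + Y + u * T ^ 2 with hW
  have W0 : 0 ≤ W := by linarith
  have hR : √(16000 * K ^ 5 * (α ^ 3 + W)) ^ 2 = 16000 * K ^ 5 * (α ^ 3 + W) :=
    sq_sqrt (by positivity)
  have ms : Ms S M m a T t0 (sb M m a (w + 1)) D 0 (√(16000 * K ^ 5 * (α ^ 3 + W))) p (9 * (K * α)) κ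
      k0 kA := ⟨c1, c2, b1, by omega, c3, c4, by linarith, c5, by rw [n.flat, sub_self],
    A.sb_mono (by omega), (A.sb_mem w2.le).2, sqrt_nonneg _, sp2.trans hR.ge, hJ, by
      have y1 := (z_sl73 A c1 (show k0 ≤ S.J - 1 by omega) j2).2
      have : S.C * (M.s (S.J - 1) - M.s k0 + S.v) ≤ S.C * ((K1 + 2) * α) := by gcongr; linarith
      linarith [N.a1.2],
    κ1.trans (sub_le_sub_left (zm (by omega)) 1), by linarith [mul_pos (by linarith : 0 < K) α0]⟩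
  refine ⟨by linarith, (A.win73 ms le_rfl).trans ?_⟩
  exact num73 Ka κ0 κ3 α0 α1 D0 D1 W0 (by linarith) (by linarith) (abs_nonneg _) n.Mt rfl hR.le
    (A.shift73 ms)

end Crest.Agent.T156.Alt.L62

end
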