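import Crest.Agent.T156.TLpN_26
import Crest.Agent.T156.TLpC_73

/-!
# Row 156, block (L), the corner: (TLp) from its two inputs (helper26)
-/

set_option autoImplicit false

noncomputable section

namespace Crest.Agent.T156.Alt.L62

open Real Finset
open Crest.Agent.T156.Alt.L69 Crest.Agent.T156.Alt.Mp9 Crest.Agent.T156.Alt.L63

variable {E L : ℝ} {S : Sc} {M : Md} {m : ℕ} {a G1 u1 u2 j γ Lc ηc τ l0 l X Xp Vt Lg Lp X2 X3 X4
  G0 : ℝ} {η : ℝ → ℝ} {N : ℝ} {g : ℝ → ℝ} {t1 ℓ En p0 α Pq t0 f K u0 ρ : ℝ} {V k0 : ℕ}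
  {Pn : ℕ → Prop}

theorem tlp_at (H : Cx E L S M m a G1 u1 u2 j γ Lc ηc τ l0 l X Xp Vt Lg Lp X2 X3 X4 G0 η N g t1
      (M.s S.J) ℓ En p0) (Q : LQ E S M X Xp Vt Lg Lp X2 G0 u1 u2 j γ η g ℓ α p0 Pq)
    (P : L63.P1 E L S M m a X X2 ℓ p0 (bs S Lg X2 (g (M.s S.J)) η (M.s S.J)) V k0 t0 f)
    (R : PN S M m a (2 * S.C) Pn (fun k => L * (Lg ^ 2 * ap M S Xp Vt γ k) ^ 2)
      (L * x0 S M X Xp Vt Lg Lp G0 u1 j γ ℓ η) (L * X2) (8 * u2) (ℓ / (100 * S.C ^ 3)) ℓ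
      (100 * S.C ^ 3))
    (K1 : 1 ≤ K) (KL : K ≤ L) (ρ0 : 0 < ρ) (ρ1 : ρ ≤ u0) (ρ2 : 2 * S.C * ρ ≤ 1) (ρ3 : 1 ≤ ρ / 2 * L)
    (core : ∀ {D p g0 x la al u' u κ Y GP : ℝ} {w kA : ℕ} {ez er : ℕ → ℝ},
      W1 S M m a (2 * S.C) ℓ D p g0 V k0 t0 f →
      PN S M m a (2 * S.C) Pn ez x la u' (ℓ / (100 * S.C ^ 3)) ℓ (100 * S.C ^ 3) →
      Np73 S M m a (2 * S.C) u0 κ (K * al) u la Y Pn er w kA →
      Nu73 S M m a (2 * S.C) ℓ D g0 x la al ez w → 100 * K * al ≤ κ →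
      ∑ j ∈ Icc S.J S.Jp, (M.z j - M.z (j - 1)) * M.G j ^ 2 ≤ GP →
      ∑ k ∈ Ioc k0 S.Jp, dx M k * (sb M m a (k + 1) - M.s k) ^ 2 ≤
        K ^ 8 / κ ^ 2 * (p ^ 2 + D ^ 2 + al ^ 3 + (√GP / (√κ * √al) + Y + u * (2 * S.C) ^ 2))) :
    ∑ k ∈ (Ioo S.jl S.J).filter fun k => 3 / 4 * M.s S.J ≤ M.s k, dx M k * M.del m a k ^ 2 +
      Pla M S m a 2 ≤ L ^ 18 * Pq := by
  have h := H.cl
  have C0 := h.C0
  have C1 := h.C1
  have L1 := H.L1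
  have L9 := H.L9
  have L0 : 0 < L := one_pos.trans_le L1
  have ℓ0 := H.ℓ0
  have μ0 := H.μ0
  have hx : 0 ≤ x0 S M X Xp Vt Lg Lp G0 u1 j γ ℓ η := nonneg_of_mul_nonneg_right R.x00 L0
  have n := n26 H Q hx P (le_refl (L ^ 2 * α))
  have α0 := n.α0
  have pq := Q.pq
  have a3 := Q.a3
  have u20 : 0 ≤ u2 := by linarith [h.last, h.leg.z1 (S.Jp - 1), H.lp.u1a, H.lp.u1b.1]
  have s1 := GP_nn h
  have s2 := GS_nn h (M.s S.J / 2) S.C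
  have s3 := sqrt_nonneg (GP M S / α)
  have s4 := sqrt_nonneg (GP M S)
  have s5 := H.lt.g0 (M.s S.J)
  have s6 : 0 < 1 / (S.n : ℝ) ^ 2 := by have := h.N0; positivity
  have p00 := P.p00
  have b0 := P.b0
  generalize bs S Lg X2 (g (M.s S.J)) η (M.s S.J) = b at P n pq b0
  generalize x0 S M X Xp Vt Lg Lp G0 u1 j γ ℓ η = x at R hx a3
  have s7 := sq_nonneg (p0 + b)
  have s8 := pow_pos α0 3
  have Pq0 : 0 ≤ Pq := by linarith
  have sm : ∀ y, y * L ≤ 1 → y ≤ ρ / 2 := fun y q => le_of_mul_le_mul_right (q.trans ρ3) L0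
  have iv : ∀ y, 0 ≤ y → 2 * y / ρ ≤ L * y := fun y q => by
    rw [div_le_iff₀ ρ0]; nlinarith [mul_le_mul_of_nonneg_left ρ3 q]
  have up : ∀ i k : ℕ, i ≤ k → ∀ y, 0 ≤ y → L ^ i * y ≤ L ^ k * y := fun i k q y r =>
    mul_le_mul_of_nonneg_right (pow_le_pow_right₀ L1 q) r
  have big : ∀ (c : ℝ) (i k : ℕ) y, k = i + 1 → c ≤ 10 ^ 9 → 0 ≤ y → c * (L ^ i * y) ≤ L ^ k * y :=
    fun c i k y e q r => by
      rw [e, pow_succ', mul_assoc]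
      exact mul_le_mul_of_nonneg_right (q.trans L9) (by positivity)
  have al0 : 0 < L ^ 2 * α := by positivity
  have aa1 := le_mul_of_one_le_left al0.le K1
  have aa2 : 100 * K * (L ^ 2 * α) ≤ ρ / 2 := sm _ (by
    have a1 : 100 * S.C ^ 0 * L ^ 4 * α ≤ 1 := H.dv (H.LL 0 (by norm_num) 4) α0.le Q.a2
    linarith [mul_le_mul_of_nonneg_right KL (show 0 ≤ 100 * (L ^ 2 * α) * L by positivity)])
  have μ2 : 1 / (S.n : ℝ) ^ 2 ≤ 1 / S.n := by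
    rw [← one_div_pow]
    exact pow_le_of_le_one μ0.le (H.μ1.trans H.l1) two_ne_zero
  have U1 : 2 * (8 * u2 + 1 / (S.n : ℝ) ^ 2) ≤ ρ / 2 := sm _ (by
    have a1 : 32 * S.C ^ 0 * L ^ 1 * u2 ≤ 1 := H.dv (H.LL 0 (by norm_num) 1) u20 H.lp.u1b.2
    have a2 : 4 * S.C ^ 0 * L ^ 1 * (1 / S.n) ≤ l := H.dv (H.LL 0 (by norm_num) 1) μ0.le H.μl'
    linarith [mul_le_mul_of_nonneg_left μ2 L0.le, H.l1])
  have ρ4 : ρ ≤ 1 := by nlinarith
  obtain ⟨w, kA, k⟩ := R.pick h (ρ := ρ) (a0 := 3 * (K * (L ^ 2 * α))) ρ2 (by linarith)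
    (by linarith) (by linarith [n.uα, n.αa]) (by linarith)
  have hZ : EZ S M Pn (fun k => L * (Lg ^ 2 * ap M S Xp Vt γ k) ^ 2) (K * (L ^ 2 * α))
      (8 * u2 + 1 / (S.n : ℝ) ^ 2) (L * α ^ 3) := fun i q1 q2 q3 => by
    have := mul_le_mul_of_nonneg_left (Q.a4 i (R.mem i q1).1 (R.mem i q1).2.le
      (by linarith [n.αa]) (by linarith)) L0.le
    linarith
  have Z0 : 0 ≤ L * α ^ 3 := by positivity
  have xZ := mul_le_mul_of_nonneg_left (show x ≤ α ^ 3 by linarith) L0.le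
  have iZ := iv _ Z0
  have wJ := (R.mem w k.pw).1
  obtain ⟨m1, m2⟩ := n.mid w (ρ / 2) wJ k.w0 ρ3 k.κ1 k.κ2
  have lg := H.lg
  have lg1 : 1 ≤ log (S.n : ℝ) := by linarith [H.Cn]
  have ℓa : ℓ ≤ L ^ 2 * α := n.ℓα.trans n.αa
  have ℓ2 := pow_le_pow_left₀ ℓ0.le ℓa 2
  have c1 := up 1 2 (by norm_num) _ s8.le
  have c2 := up 3 6 (by norm_num) _ s8.le
  have c3 := big 2 2 3 _ rfl (by norm_num) s8.le
  have c4 := up 0 6 (by norm_num) _ s8.le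
  have v0 := mul_pos (pow_pos C0 2) h.v0
  have z := core (D := L * (p0 + b)) (p := L * p0) (g0 := L * (X2 + 1 / S.n)) (al := L ^ 2 * α)
    (κ := ρ / 2) (u := 8 * u2 + 1 / (S.n : ℝ) ^ 2) (GP := GP M S) (w := w) (kA := kA)
    (Y := (L * x + 4 * (L * α ^ 3) / ρ + 4 * S.C * (L * α ^ 3)) * (3 * L))
    (er := er M (L * x) (L * α ^ 3) ρ (8 * u2 + 1 / (S.n : ℝ) ^ 2))
    ⟨⟨P.V1, P.V2⟩, P.sV, P.yV, P.dich, ⟨P.t0a, P.t0b.le⟩, P.low, fun t q r => (P.hq t q r).2, n.hJ,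
      ⟨h.i1.trans P.k1.le, P.k2.trans P.V2⟩, ⟨P.k3, P.k4⟩, P.k5, ⟨P.f1, P.f2⟩,
      by have := P.X20; positivity, P.f3⟩ R
    ⟨k.pw, ⟨k.k1.le, k.k2⟩, by linarith [k.w1], ⟨by linarith, k.κ1, k.κ2⟩,
      ⟨by linarith [k.a1], by linarith [k.a2]⟩, by linarith,
      er_nn R.x00 Z0 ρ0.le (by linarith),
      R.lo h k hZ Z0 (by linarith) (by linarith) (by linarith) (by linarith [n.uα, n.αa]) le_rfl
        (by linarith) ρ0,
      R.hi h k hZ Z0 (by linarith) (by linarith) (by linarith) (by linarith) ρ0,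
      R.sum h k Z0 (by linarith) (by linarith) (by linarith) (by linarith) ρ0
        (by have := log_le_log μ0 (show 1 / (S.n : ℝ) ≤ 3 * (K * (L ^ 2 * α)) by linarith [n.nℓ])
            rw [one_div, log_inv] at this
            linarith)
        (by have := log_le_log (half_pos s6)
              (show 1 / (S.n : ℝ) ^ 2 / 2 ≤ (8 * u2 + 1 / (S.n : ℝ) ^ 2) / 2 by linarith)
            rw [log_div s6.ne' two_ne_zero, log_div one_ne_zero (pow_pos h.N0 2).ne', log_one,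
              log_pow] at this
            push_cast at this
            linarith [log_two_lt_d9])⟩
    ⟨Q.flat, by linarith [n.jl], ℓa, by linarith [n.Dℓ, mul_nonneg L0.le (show 0 ≤ p0 + b by
        linarith)], n.θ2.trans ℓ2,
      by nlinarith [n.vℓ, mul_le_mul_of_nonneg_right C1 v0.le], n.hp, n.g0.trans ℓ2, n.la.trans ℓ2,
      by linarith [R.ezw k hZ ρ0 (by linarith) (by linarith)],
      by linarith [le_abs_self (M.G w)], fun i q1 q2 q3 => by linarith [n.Gk i q2 q3 q1], m1⟩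
    aa2 le_rfl
  have e1 : K ^ 8 / (ρ / 2) ^ 2 ≤ L ^ 10 := by
    rw [div_le_iff₀ (by positivity)]
    have a1 := pow_le_pow_left₀ (by linarith) KL 8
    have a2 := mul_le_mul_of_nonneg_left (one_le_pow₀ (n := 2) ρ3) (pow_pos L0 8).le
    linarith
  have e2 : √(GP M S) / (√(ρ / 2) * √(L ^ 2 * α)) ≤ √(GP M S / α) := by
    rw [sqrt_div s1, ← sqrt_mul (by linarith)]
    refine div_le_div_of_nonneg_left s4 (sqrt_pos.2 α0) (sqrt_le_sqrt ?_)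
    nlinarith [mul_le_mul_of_nonneg_right ρ3 (mul_pos L0 α0).le, le_mul_of_one_le_left α0.le L1]
  have e3 : (L * p0) ^ 2 ≤ (L * (p0 + b)) ^ 2 :=
    pow_le_pow_left₀ (by positivity) (mul_le_mul_of_nonneg_left (by linarith) L0.le) 2
  have e4 : (L * (p0 + b)) ^ 2 ≤ L ^ 2 * Pq := by
    rw [mul_pow]; exact mul_le_mul_of_nonneg_left (by linarith) (by positivity)
  have e5 : L ^ 6 * α ^ 3 ≤ L ^ 6 * Pq := mul_le_mul_of_nonneg_left (by linarith) (by positivity)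
  have e6 : (L * x + 4 * (L * α ^ 3) / ρ + 4 * S.C * (L * α ^ 3)) * (3 * L) ≤ L ^ 6 * α ^ 3 := by
    have a1 := mul_le_mul_of_nonneg_right (H.KL (c := 4) 1 (by norm_num)) Z0
    have a2 : 4 * (L * α ^ 3) / ρ = 2 * (2 * (L * α ^ 3) / ρ) := by ring
    have a4 := mul_le_mul_of_nonneg_right (show L * x + 4 * (L * α ^ 3) / ρ + 4 * S.C * (L * α ^ 3)
      ≤ 4 * (L ^ 2 * α ^ 3) by linarith) (show 0 ≤ 3 * L by linarith)
    linarith [big 12 3 4 _ rfl (by norm_num) s8.le, up 4 6 (by norm_num) _ s8.le]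
  have e7 : (8 * u2 + 1 / (S.n : ℝ) ^ 2) * (2 * S.C) ^ 2 ≤ L ^ 1 * Pq := by
    have a1 := mul_le_mul_of_nonneg_right (show 8 * u2 + 1 / (S.n : ℝ) ^ 2 ≤ 8 * Pq by linarith)
      (sq_nonneg (2 * S.C))
    linarith [mul_le_mul_of_nonneg_right (H.KL (c := 32) 2 (by norm_num)) Pq0]
  have e8 : (S.C / (m + 1)) ^ 2 ≤ L ^ 1 * Pq := by
    have a1 := pow_le_pow_left₀ (by positivity) H.Cm 2
    rw [mul_pow, one_div_pow] at a1
    have a2 := mul_le_mul (H.KL (c := 1) 2 (by norm_num)) (show 1 / (S.n : ℝ) ^ 2 ≤ Pq by linarith)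
      s6.le L0.le
    linarith
  have e9 := z.trans (mul_le_mul e1 (show _ ≤ L ^ 7 * Pq by
    linarith [up 2 6 (by norm_num) _ Pq0, up 1 6 (by norm_num) _ Pq0, up 0 6 (by norm_num) _ Pq0,
      big 6 6 7 _ rfl (by norm_num) Pq0]) (by have := R.x00; positivity) (by positivity))
  refine (fin26 H.A (P.k2.trans P.V2) n.k0 P.loc e9).trans ?_
  linarith [up 2 17 (by norm_num) _ Pq0, up 1 17 (by norm_num) _ Pq0, up 0 17 (by norm_num) _ Pq0,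
    big 12 17 18 _ rfl (by norm_num) Pq0]

/-- **(TLp)** -/
theorem tlp_of (h1 : P1S) (h2 : PNS) : TLp := by
  unfold TLp
  refine CL.mono (P := fun E Λ S M m a => Cl S M → _) ?_ fun _ _ _ _ _ _ _ _ h _ p => p h
  refine CL.glue' (CL.and h1 h2) (fun E Λ Λ' S M m a c1 c2 h hc G1 u1 u2 j γ Lc ηc τ l0 l X Xp Vt
      Lg Lp X2 X3 X4 G0 η N g t1 ℓ En p0 α Pq hy q => ?_) 2 le_rfl 15 18 fun C A ε η hε hη => ?_
  · have := h hc _ _ _ _ _ _ _ _ _ _ _ _ _ _ _ _ _ _ _ _ _ _ _ _ _ _ _ _ hy q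
    refine this.trans (mul_le_mul_of_nonneg_right c2 (nonneg_of_mul_nonneg_right
      (le_trans (add_nonneg ?_ ?_) this) (by linarith)))
    · exact sum_nonneg fun k _ => mul_nonneg (dx0 hc k) (sq_nonneg _)
    · exact sum_nonneg fun k _ => mul_nonneg (dx0 hc k) (by positivity)
  obtain ⟨K, u0, K1, u00, HK⟩ := core73 (2 * C)
  refine ⟨max (max K (2 / min u0 (1 / (2 * C)))) (10 ^ 9 * C ^ 13), fun S M m a G _ e1 _ h hm P _ G1
    u1 u2 j γ Lc ηc τ l0 l X Xp Vt Lg Lp X2 X3 X4 G0 η' N g t1 ℓ En p0 α Pq hy q => ?_⟩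
  rw [pow_one] at hy q
  obtain ⟨V, k0, t0, f, p⟩ := P.1 _ _ _ _ _ _ _ _ _ _ _ _ _ _ _ _ _ _ _ _ _ _ _ _ _ _ hy
  obtain ⟨Pn, r⟩ := P.2 _ _ _ _ _ _ _ _ _ _ _ _ _ _ _ _ _ _ _ _ _ _ _ _ _ _ hy
  have n0 := G.N0
  have C0 := h.C0
  have H : Cx ((S.n : ℝ) ^ ε) ((S.n : ℝ) ^ η) S M m a G1 u1 u2 j γ Lc ηc τ l0 l X Xp Vt Lg Lp X2 X3
      X4 G0 η' N g t1 (M.s S.J) ℓ En p0 := by
    refine ⟨hy, h, hm, ?_, ?_, G.log_le, ?_, ?_⟩
    · rw [G.hC]; exact (le_max_right _ _).trans G.K_le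
    · rw [← rpow_natCast, ← rpow_mul n0.le]
      exact rpow_le_rpow_of_exponent_le G.N1.le (by rw [mul_comm]; exact e1)
    · rw [G.hC]; exact G.C_log
    · have a2 : (S.n : ℝ) ^ 2 ≤ (S.n : ℝ) ^ S.A := pow_le_pow_right₀ G.N1.le (G.hA ▸ G.A2)
      rw [one_div, inv_pow, ← div_eq_mul_inv, le_div_iff₀ (pow_pos n0 2)]
      exact (mul_le_mul_of_nonneg_left a2 h.v0.le).trans h.v2
  have k := (le_max_left _ _).trans G.K_le
  rw [← G.hC] at k HK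
  have ρ0 : 0 < min u0 (1 / (2 * S.C)) := by positivity
  refine tlp_at H q p r K1 ((le_max_left _ _).trans k) ρ0 (min_le_left _ _) ?_ ?_
    fun a1 a2 a3 a4 a5 a6 => (HK H.A le_rfl (by linarith) a1 a2 a3 a4 a5 a6).2
  · have := min_le_right u0 (1 / (2 * S.C))
    rwa [le_div_iff₀ (by positivity), mul_comm] at this
  · have := (le_max_right _ _).trans k
    rw [div_le_iff₀ ρ0] at this
    linarith

end Crest.Agent.T156.Alt.L62

end
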