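import Crest.Agent.T156.SzV_32
import Crest.Agent.T156.SzW_61

/-!
# Row 156, block (L) (helper32): the sum over the last window below the corner
-/

set_option autoImplicit false

noncomputable section

namespace Crest.Agent.T156.Alt.V32

open Real Finset Filter
open Crest.Agent.T156.Alt.E61 Crest.Agent.T156.Alt.Md67 Crest.Agent.T156.Alt.C33
open Crest.Agent.T156.Alt.L69 Crest.Agent.T156.Alt.Sz9

open Classical in
/-- **the cake** above a node `x` with a one-sided cone; rise `ρ` above -/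
theorem core0 {f dz u : ℕ → ℝ} {a b x : ℕ} {v C w κ0 A ρ : ℝ}
    (C0 : 0 < C) (v0 : 0 < v) (w0 : 0 < w) (k1 : 1 ≤ κ0) (A0 : 0 ≤ A)
    (hA : w ^ 3 * κ0 ^ 2 ≤ A ^ 3) (xb : x ≤ b) (hf : Monotone f)
    (hz : ∀ k ∈ Ico x (b + 1), 0 ≤ dz k ∧ dz k ≤ C * v)
    (hc : ∀ i, a ≤ i → i ≤ x → f x - f i ≤ κ0 * (((x : ℝ) - i) * v)) (hρ : f b - f x ≤ ρ)
    (hu : ∀ k ∈ Ico x (b + 1), ∀ κ α e : ℝ, 1 ≤ κ → 0 ≤ α → w ^ 3 * κ ^ 2 ≤ α ^ 3 → 0 ≤ e →
      (∀ i, a ≤ i → i ≤ b → |f i - f k| ≤ e + κ * (|(i : ℝ) - k| * v)) → u k ≤ α + e) (p : ℕ) :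
    ∑ k ∈ Ico x (b + 1), dz k * max (u k - 2 * A) 0 ^ (p + 2) ≤
      2 ^ (p + 2) * (((b : ℝ) + 1 - x) * (C * v) * (2 * w) ^ (p + 2) +
        16 * (2 * C * ρ * (2 * w * √(2 * w) * (√ρ * ρ ^ p)))) := by
  have ρ0 : 0 ≤ ρ := (sub_nonneg.2 (hf xb)).trans hρ
  have p8 : ∀ i : ℕ, (1 : ℝ) ≤ 8 ^ i := fun i => one_le_pow₀ (by norm_num)
  have e8 : ∀ i : ℕ, ((8 : ℝ) ^ i) ^ 2 = (4 ^ i) ^ 3 := fun i => by
    rw [← pow_mul, ← pow_mul, mul_comm i, mul_comm i, pow_mul, pow_mul]; norm_num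
  have key : ∀ k ∈ Ico x (b + 1), ∀ (L β e : ℝ), 0 ≤ L → 0 ≤ β → w ^ 3 * L ^ 2 ≤ β ^ 3 → 0 ≤ e →
      (∀ j, x ≤ j → j ≤ b → |f j - f k| ≤ e + L * (|(j : ℝ) - k| * v)) →
      u k - 2 * A ≤ 2 * β + e := fun k hk L β e L0 β0 hβ e0 H => by
    have := hu k hk (κ0 + L) (2 * A + 2 * β) e (by linarith) (by positivity) (by
        have b1 := mul_nonneg (pow_pos w0 3).le (sq_nonneg (κ0 - L))
        have b2 : 0 ≤ A ^ 2 * β := by positivity
        have b3 : 0 ≤ A * β ^ 2 := by positivity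
        have b4 : 0 ≤ A ^ 3 := by positivity
        have b5 : 0 ≤ β ^ 3 := by positivity
        nlinarith) e0 fun j a1 a2 => by
      have k2 := (mem_Ico.1 hk).1
      have k3 : (x : ℝ) ≤ k := by exact_mod_cast k2
      rcases le_total x j with c | c
      · have : 0 ≤ κ0 * (|(j : ℝ) - k| * v) := by positivity
        linarith [H j c a2]
      · have c' : (j : ℝ) ≤ x := by exact_mod_cast c
        have b1 := H x le_rfl xb
        have b2 := hc j a1 c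
        rw [abs_sub_comm, abs_of_nonneg (sub_nonneg.2 (hf k2)), abs_sub_comm,
          abs_of_nonneg (sub_nonneg.2 k3)] at b1
        rw [abs_sub_comm, abs_of_nonneg (sub_nonneg.2 (hf (c.trans k2))), abs_sub_comm,
          abs_of_nonneg (sub_nonneg.2 (c'.trans k3))]
        have b3 : 0 ≤ κ0 * (((k : ℝ) - x) * v) := by have := sub_nonneg.2 k3; positivity
        have b4 : 0 ≤ L * (((x : ℝ) - j) * v) := by have := sub_nonneg.2 c'; positivity
        linarith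
    linarith
  refine Ck64.cakeR _ (good := fun j k => Sun9.Good (fun i : ℕ => (i : ℝ)) f (8 ^ j * v) x b k)
    (fun k hk => (hz k hk).1) (fun k _ => le_max_right _ _) (by positivity) ρ0 (by positivity) ?_
    (fun k hk j G => max_le ?_ (by positivity)) (fun k hk => max_le ?_ (by positivity))
    (fun j => ?_) p
  · refine (sum_le_sum fun k hk => (hz k hk).2).trans_eq ?_
    rw [sum_const, nsmul_eq_mul, Nat.card_Ico, Nat.cast_sub (by omega)]
    push_cast; ring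
  · have := key k hk (8 ^ j) (4 ^ j * w) 0 (by positivity) (by positivity)
      (by rw [e8, mul_pow, mul_comm]) le_rfl fun i a1 a2 => by
        rw [zero_add]
        rcases le_total i k with c | c
        · have c' : (i : ℝ) ≤ k := by exact_mod_cast c
          rw [abs_sub_comm, abs_of_nonneg (sub_nonneg.2 (hf c)), abs_sub_comm,
            abs_of_nonneg (sub_nonneg.2 c')]
          linarith [G.2 i a1 c]
        · have c' : (k : ℝ) ≤ i := by exact_mod_cast c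
          rw [abs_of_nonneg (sub_nonneg.2 (hf c)), abs_of_nonneg (sub_nonneg.2 c')]
          linarith [G.1 i c a2]
    linarith
  · have := key k hk 0 0 ρ le_rfl le_rfl (by simp) ρ0 fun i a1 a2 => by
      have b1 := hf a1
      have b2 := hf a2
      have b3 := hf (mem_Ico.1 hk).1
      have b4 := hf (Nat.le_of_lt_succ (mem_Ico.1 hk).2)
      rw [zero_mul, add_zero]
      exact abs_le.2 ⟨by linarith, by linarith⟩
    linarith
  · have b1 := Sun9.card_bad (x := fun i : ℕ => (i : ℝ)) (Λ := 8 ^ j * v) hf (by positivity)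
      xb (μ := 1) fun i _ _ => by push_cast; linarith
    have p := p8 j
    calc _ ≤ ∑ k ∈ (Icc x b).filter fun k =>
          ¬Sun9.Good (fun i : ℕ => (i : ℝ)) f (8 ^ j * v) x b k, C * v :=
          (sum_le_sum fun k hk => (hz k (mem_filter.1 hk).1).2).trans
            (sum_le_sum_of_subset_of_nonneg (filter_subset_filter _ fun k hk => by
              have := mem_Ico.1 hk; exact mem_Icc.2 ⟨this.1, by omega⟩) fun _ _ _ => by positivity)
      _ ≤ _ := by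
          rw [sum_const, nsmul_eq_mul, le_div_iff₀ (by positivity)]
          nlinarith [mul_le_mul_of_nonneg_left (b1.trans (mul_le_mul_of_nonneg_left hρ
            zero_le_two)) C0.le]

end Crest.Agent.T156.Alt.V32

namespace Crest.Agent.T156.Alt.SzT98

open Real Finset Filter
open Crest.Agent.T156.Alt.E61 Crest.Agent.T156.Alt.Md67 Crest.Agent.T156.Alt.C33
open Crest.Agent.T156.Alt.L69 Crest.Agent.T156.Alt.Sz9 Crest.Agent.T156.Alt.V32

/-- **the last window**: cone of slope `k0` below the node `p`, rise `ρ` above -/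
def SzL : Prop := CL fun E Λ S M m a => ∀ l0 X Xp Vt γ u1 j Lp, Far E S M Xp Vt γ u1 Lp →
  Ap S M m a l0 X Xp Vt u1 j → ∀ (p : ℕ) (k0 ρ : ℝ), p < S.J → 2 * S.J ≤ 3 * p → 1 ≤ k0 →
    (∀ i : ℕ, S.J / 2 ≤ i → i ≤ p → M.rb m a p - M.rb m a i ≤ k0 * (((p : ℝ) - i) * S.v)) →
    M.rb m a (S.J - 1) - M.rb m a p ≤ ρ →
    ∑ k ∈ Ico p S.J, M.dz m a k * E61.u4 M m a k ^ 2 ≤
      Λ * (((S.J : ℝ) - p) * S.v * (k0 ^ ((2 : ℝ) / 3) * S.w3 1 ^ ((1 : ℝ) / 3)) ^ 2 +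
        √(S.w3 1 * ρ ^ 3) + √(S.w3 1 * Xp) + Np M S Xp Vt γ u1 Lp 2)

theorem szL : SzL := by
  refine ((CL.and szW CL_fn).glue' (R := fun E Λ S M m a => Fn S M m a ∧ _) ?_ 0 le_rfl 1 5
    fun C _ ε η _ _ => ⟨10 ^ 16 * C ^ 17, fun S M m a G _ b1 _ _ _ ⟨H, F⟩ => ⟨F, ?_⟩⟩).mono
    fun _ _ _ _ _ _ _ _ _ _ h => h.2
  · rintro E Λ Λ' S M m a l1 h ⟨F, H⟩
    exact ⟨F, fun l0 X Xp Vt γ u1 j Lp a1 a2 p k0 ρ a3 a4 a5 a6 a7 => le_lam
      (sum_nonneg fun k _ => mul_nonneg (F.lg.dz_nonneg k) (sq_nonneg _)) l1 h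
      (H l0 X Xp Vt γ u1 j Lp a1 a2 p k0 ρ a3 a4 a5 a6 a7)⟩
  have b2 := G.K_le
  have b3 := Pre29.rp_le G.n1 (show _ ≤ _ by simpa using b1)
  rw [← G.hC] at b2
  rw [pow_one]
  generalize (S.n : ℝ) ^ η = lam at H b2 b3 ⊢
  generalize (S.n : ℝ) ^ ε = E at H b3 ⊢
  intro l0 X Xp Vt γ u1 j Lp fa ap p k0 ρ p1 p2 k1 hc hρ
  have h := F.toCl
  have L := F.lg
  have C0 := F.C0
  have C1 := F.C1
  have v0 := F.v0
  have c : ∀ {i j : ℕ}, i ≤ j → S.C ^ i ≤ S.C ^ j := fun e => pow_le_pow_right₀ C1 e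
  have c1 : ∀ i : ℕ, 1 ≤ S.C ^ i := fun i => one_le_pow₀ C1
  have l1 : 1 ≤ lam := by linarith [c1 17]
  have l0' : 0 < lam := by linarith
  have hE : ∀ (x : ℝ) (i : ℕ), x ≤ 10 ^ 16 → i ≤ 17 → x * S.C ^ i ≤ E := fun x i a1 a2 =>
    (mul_le_mul a1 (c a2) (by positivity) (by positivity)).trans (b2.trans b3)
  have j16 := jl16 F (hE 48 4 (by norm_num) (by norm_num)) fa.jl
  have i0 := F.i0
  have i1 := F.i1
  have w3 := F.w3_pos one_pos
  obtain ⟨w, hw⟩ : ∃ w, w = S.w3 1 ^ ((1 : ℝ) / 3) := ⟨_, rfl⟩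
  have w0 : 0 < w := by rw [hw]; positivity
  have e3 : w ^ 3 = S.w3 1 := by rw [hw, rp3 w3.le]
  have γ0 : 0 ≤ γ := (sub_nonneg.2 (F.sm F.i3)).trans fa.γ0
  have u0 := fa.u0
  have Xp0 := fa.Xp0.1
  have X0 : 0 ≤ X := le_trans (by rw [Phi, Ap63.En_eq h]; exact Ap63.Sx_nn F.leg.zm 2) ap.all
  have rm := Md67.rb_mono (M := M) (a := a) L.m0
  have ρ0 : 0 ≤ ρ := (sub_nonneg.2 (rm (by omega))).trans hρ
  have x3 := rp3 Xp0.le
  have x0 : 0 < Xp ^ ((1 : ℝ) / 3) := by positivity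
  have x1 : min X Xp ^ ((1 : ℝ) / 3) ≤ Xp ^ ((1 : ℝ) / 3) :=
    rpow_le_rpow (le_min X0 Xp0.le) (min_le_right _ _) (by norm_num)
  have x2 : 0 ≤ min X Xp ^ ((1 : ℝ) / 3) := rpow_nonneg (le_min X0 Xp0.le) _
  have np := np_ge F fa (hE 27 3 (by norm_num) (by norm_num)) ap.jn w0 e3 rfl (Nat.zero_le 2)
  have g1 := le_max_left (w ^ 3 / S.u0 ^ 2) γ
  have g2 := le_max_right (w ^ 3 / S.u0 ^ 2) γ
  generalize max (w ^ 3 / S.u0 ^ 2) γ = Z at np g1 g2
  have Z0 := γ0.trans g2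
  have H' := H l0 X Xp Vt γ u1 j Lp fa ap
  rw [← hw] at H' ⊢
  rw [← e3] at H' ⊢
  generalize Xp ^ ((1 : ℝ) / 3) = x at x3 x0 x1
  generalize min X Xp ^ ((1 : ℝ) / 3) = x' at H' x1 x2
  have T : ∀ {y : ℝ}, 0 ≤ y → √(w ^ 3 * y ^ 3) = w * √(w * y) * y := fun {y} y0 => by
    rw [show w ^ 3 * y ^ 3 = (w * y) ^ 2 * (w * y) by ring, sqrt_mul (sq_nonneg _),
      sqrt_sq (by positivity)]
    ring
  rw [T ρ0, show √(w ^ 3 * Xp) = w * √(w * x) * x by rw [← x3, T x0.le]]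
  rw [zero_add 1, pow_one, zero_add 2] at np
  have hz : ∀ k ∈ Ico p S.J, 0 ≤ M.dz m a k ∧ M.dz m a k ≤ S.C * S.v := fun k hk => by
    have := mem_Ico.1 hk
    refine ⟨L.dz_nonneg k, ?_⟩
    obtain ⟨i, rfl⟩ : ∃ r, k = r + 1 := ⟨k - 1, by omega⟩
    rw [dz_succ h.leg]
    exact (h.zs i (by omega) this.2).2
  have eJ : S.J - 1 + 1 = S.J := by omega
  have eb : ((S.J - 1 : ℕ) : ℝ) + 1 = S.J := by exact_mod_cast eJ
  have a0 : 1 ≤ k0 ^ ((2 : ℝ) / 3) := one_le_rpow k1 (by norm_num)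
  set hh : ℕ → ℝ := fun k => min (w ^ 3 / (((S.J : ℝ) - k) * S.v) ^ 2) (w ^ 3 / S.u0 ^ 2 + x' + γ)
  have r1 := core0 (f := M.rb m a) (dz := M.dz m a) (u := fun k => u4 M m a k / lam - hh k)
    (a := S.J / 2) (b := S.J - 1) (x := p) (A := k0 ^ ((2 : ℝ) / 3) * w) C0 v0 w0 k1
    (by positivity) (by rw [mul_pow, rp23 (by linarith), mul_comm]) (by omega) rm
    (by rwa [eJ]) hc hρ (fun k hk κ α e a1 a2 a3 a4 a5 => by
      have := mem_Ico.1 hk
      have b1 := H' k κ e (by omega) (by omega) a1 a4 fun i b1 b2 => a5 i b1 (by omega)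
      have b2 : κ ^ ((2 : ℝ) / 3) * w ≤ α := le_of_pow_le_pow_left₀ three_ne_zero a2 (by
        rw [mul_pow, rp23 (by linarith)]; linarith)
      rw [← div_le_iff₀' l0'] at b1
      linarith) 0
  rw [eJ, eb] at r1
  have wA : w ≤ k0 ^ ((2 : ℝ) / 3) * w := le_mul_of_one_le_left w0.le a0
  generalize k0 ^ ((2 : ℝ) / 3) * w = A at r1 wA ⊢
  have A0 := w0.trans_le wA
  have Y0 : 0 < max x Z := x0.trans_le (le_max_left _ _)
  have h0 : ∀ k, 0 ≤ hh k := fun k => le_min (by positivity) (by positivity)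
  have r2 := h_sum (Ico p S.J) (dz := M.dz m a) (h := hh) (ρ := w * √(w * max x Z) / max x Z) v0
    (by positivity) Y0.le C0.le (fun k hk => (mem_Ico.1 hk).2) hz (fun k hk => by
      rw [show max x Z * (w * √(w * max x Z) / max x Z) ^ 2 = w ^ 3 by
        rw [div_pow, mul_pow, sq_sqrt (by positivity)]; field_simp]
      exact ⟨h0 k, min_le_left _ _, (min_le_right _ _).trans
        (by linarith [le_max_left x Z, le_max_right x Z])⟩) 0
  rw [show w * √(w * max x Z) / max x Z * max x Z ^ (0 + 2) = w * √(w * max x Z) * max x Z by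
    field_simp] at r2
  have t1 : 0 ≤ w * √(w * x) * x := by positivity
  have t2 : 0 ≤ w * √(w * Z) * Z := by positivity
  have t3 : 0 ≤ w * √(w * ρ) * ρ := by positivity
  have r3 : w * √(w * max x Z) * max x Z ≤
      w * √(w * x) * x + 256 * S.C ^ 8 * Np M S Xp Vt γ u1 Lp 2 := by
    rcases max_choice x Z with e | e <;> rw [e] <;> linarith
  have N0 : 0 ≤ Np M S Xp Vt γ u1 Lp 2 := nonneg_of_mul_nonneg_right (t2.trans np) (by positivity)
  have d0 : 0 ≤ (S.J : ℝ) - p := sub_nonneg.2 (by exact_mod_cast p1.le)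
  have r4 : ∑ k ∈ Ico p S.J, M.dz m a k * (2 * A) ^ (0 + 2) ≤
      ((S.J : ℝ) - p) * (S.C * S.v) * (2 * A) ^ 2 := by
    rw [← sum_mul]
    refine mul_le_mul_of_nonneg_right ((sum_le_sum fun k hk => (hz k hk).2).trans_eq ?_)
      (by positivity)
    rw [sum_const, nsmul_eq_mul, Nat.card_Ico, Nat.cast_sub p1.le]
  have a2 : √(2 * w) * √ρ ≤ 2 * √(w * ρ) := by
    rw [← sqrt_mul (by positivity)]
    refine sqrt_le_iff.2 ⟨by positivity, ?_⟩
    rw [mul_pow, sq_sqrt (by positivity)]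
    nlinarith [show 0 ≤ w * ρ by positivity]
  have a3 := mul_le_mul_of_nonneg_left a2 (show 0 ≤ S.C * (w * ρ) by positivity)
  have a4 : ((S.J : ℝ) - p) * (S.C * S.v) * w ^ 2 ≤ ((S.J : ℝ) - p) * (S.C * S.v) * A ^ 2 := by
    gcongr
  have a5 := mul_le_mul_of_nonneg_left r3 C0.le
  have t4 : 0 ≤ ((S.J : ℝ) - p) * S.v * A ^ 2 := by positivity
  have c9 : S.C ≤ S.C ^ 9 := le_self_pow₀ C1 (by norm_num)
  have a6 := mul_le_mul_of_nonneg_right c9 t4
  have a7 := mul_le_mul_of_nonneg_right c9 t3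
  have a8 := mul_le_mul_of_nonneg_right c9 t1
  have a9 := mul_nonneg (pow_pos C0 9).le t4
  have a10 := mul_nonneg (pow_pos C0 9).le t3
  have a11 := mul_nonneg (pow_pos C0 9).le t1
  have a12 := mul_nonneg (pow_pos C0 9).le N0
  calc _ ≤ ∑ k ∈ Ico p S.J, 64 * lam ^ 4 *
        (M.dz m a k * max (u4 M m a k / lam - hh k - 2 * A) 0 ^ (0 + 2) +
          M.dz m a k * (2 * A) ^ (0 + 2) + M.dz m a k * hh k ^ (0 + 2)) :=
        sum_le_sum fun k hk => by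
          refine (mul_le_mul_of_nonneg_left (pow3 (u4_nn k) (le_max_right (u4 M m a k / lam - hh k -
            2 * A) 0) (show 0 ≤ 2 * A by positivity) (h0 k) l1 ?_ (Nat.zero_le 2))
            (hz k hk).1).trans_eq (by ring)
          rw [← div_le_iff₀' l0']
          linarith [le_max_left (u4 M m a k / lam - hh k - 2 * A) 0]
    _ ≤ 64 * lam ^ 4 * (10000 * S.C ^ 9 * (((S.J : ℝ) - p) * S.v * A ^ 2 + w * √(w * ρ) * ρ +
          w * √(w * x) * x + Np M S Xp Vt γ u1 Lp 2)) := by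
        rw [← mul_sum, sum_add_distrib, sum_add_distrib]
        refine mul_le_mul_of_nonneg_left ?_ (by positivity)
        simp only [zero_add, pow_zero, pow_one] at r1 r2 r4 ⊢
        linarith
    _ = 640000 * S.C ^ 9 * (lam ^ 4 * (((S.J : ℝ) - p) * S.v * A ^ 2 + w * √(w * ρ) * ρ +
          w * √(w * x) * x + Np M S Xp Vt γ u1 Lp 2)) := by ring
    _ ≤ lam * (lam ^ 4 * (((S.J : ℝ) - p) * S.v * A ^ 2 + w * √(w * ρ) * ρ +
          w * √(w * x) * x + Np M S Xp Vt γ u1 Lp 2)) := by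
        gcongr; linarith [c (show 9 ≤ 17 by norm_num), c1 17]
    _ = _ := by ring

end Crest.Agent.T156.Alt.SzT98

end
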