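import Crest.Agent.T156.TLqP_53
import Crest.Agent.T156.PgZ_33
import Crest.Agent.T156.NdB_89
import Crest.Agent.T156.NdS_22
import Crest.Agent.T156.GdT_65
import Crest.Agent.T156.SzL_32

/-!
# Row 156, block (L): good nodes of the plateau and their sloped partners (helper54)
-/

set_option autoImplicit false

noncomputable section

namespace Crest.Agent.T156.Alt.Q54

open Real Finset
open Crest.Agent.T156.Alt.L69 Crest.Agent.T156.Alt.Mp9 Crest.Agent.T156.Alt.L63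
open Crest.Agent.T156.Alt.L62
open Crest.Agent.T156.Alt.E61 Crest.Agent.T156.Alt.Sz9
open Crest.Agent.T156.Alt.Nd22 (NI NO Go)
open Crest.Agent.T156.Alt.Nd33 (PG SV PO ep sl PgS RH)
open Crest.Agent.T156.Alt.G89 (Cz GN Okn Ug)

/-- crude location and the top sums under the hypotheses of (TL2) -/
def NiS54 : Prop := CL fun E Λ S M m a =>
  ∀ G1 u1 u2 j γ Lc ηc τ l0 l X Xp Vt Lg Lp X2 X3 X4 G0 η N g t1 tu ℓ En p0,
  Hy E S M m a G1 u1 u2 j γ Lc ηc τ l0 l X Xp Vt Lg Lp X2 X3 X4 G0 η N g t1 tu ℓ En p0 →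
  ∃ W3, NI Λ S M m a l0 (X ^ ((1 : ℝ) / 3)) X2 G0 W3 ∧ W3 ≤ Λ * η S.C

/-- the constant error of the nodes whose partners lie at distance at most `ℓ` -/
def x1 (S : Sc) (M : Md) (X Xp Vt Lg Lp G0 u1 j γ ℓ : ℝ) (η : ℝ → ℝ) : ℝ :=
  η 1 + G0 ^ 2 + Np M S Xp Vt γ u1 Lp 2 +
    uw S Lg 1 ^ 2 * (S.θ + j + X ^ ((1 : ℝ) / 3) + ℓ) + √(S.w3 1 * (Xp + ℓ ^ 3 + γ ^ 3))

/-- the sizes between a node with a cone and the corner -/
def SzL54 : Prop := CL fun E Λ S M m a => ∀ l0 X Xp Vt γ u1 j Lp,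
  SzT98.Far E S M Xp Vt γ u1 Lp → Ap S M m a l0 X Xp Vt u1 j → ∀ (p : ℕ) (k0 ρ : ℝ), p < S.J →
  2 * S.J ≤ 3 * p → 1 ≤ k0 →
  (∀ i : ℕ, S.J / 2 ≤ i → i ≤ p → M.rb m a p - M.rb m a i ≤ k0 * (((p : ℝ) - i) * S.v)) →
  M.rb m a (S.J - 1) - M.rb m a p ≤ ρ →
  ∑ k ∈ Ico p S.J, M.dz m a k * u4 M m a k ^ 2 ≤
    Λ * (((S.J : ℝ) - p) * S.v * (k0 ^ ((2 : ℝ) / 3) * S.w3 1 ^ ((1 : ℝ) / 3)) ^ 2 +
      √(S.w3 1 * ρ ^ 3) + √(S.w3 1 * Xp) + Np M S Xp Vt γ u1 Lp 2)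

theorem sq3 {w a b c K : ℝ} (w0 : 0 ≤ w) (a0 : 0 ≤ a) (b0 : 0 ≤ b) (c0 : 0 ≤ c) (K1 : 1 ≤ K) :
    √(w * (K * (a + b + c)) ^ 3) ≤ 3 * K ^ 2 * √(w * (a ^ 3 + b ^ 3 + c ^ 3)) := by
  have s1 := sq_sqrt (show 0 ≤ w * (a ^ 3 + b ^ 3 + c ^ 3) by positivity)
  refine sqrt_le_iff.2 ⟨by positivity, ?_⟩
  have h1 : (a + b + c) ^ 3 ≤ 9 * (a ^ 3 + b ^ 3 + c ^ 3) := by
    nlinarith [mul_nonneg (add_nonneg a0 b0) (sq_nonneg (a - b)),
      mul_nonneg (add_nonneg a0 c0) (sq_nonneg (a - c)),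
      mul_nonneg (add_nonneg b0 c0) (sq_nonneg (b - c)),
      mul_nonneg a0 (sq_nonneg (b - c)), mul_nonneg b0 (sq_nonneg (a - c)),
      mul_nonneg c0 (sq_nonneg (a - b))]
  have h2 : K ^ 3 ≤ K ^ 4 := pow_le_pow_right₀ K1 (by norm_num)
  have h3 := mul_le_mul h2 (mul_le_mul_of_nonneg_left h1 w0) (by positivity) (by positivity)
  rw [mul_pow (3 * K ^ 2), s1]
  linarith

theorem _root_.Crest.Agent.T156.Alt.L62.PN.mono54 {S : Sc} {M : Md} {m : ℕ} {a T : ℝ} {Pn : ℕ → Prop} {ez ez' : ℕ → ℝ}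
    {x x' la la' u ω ℓ B : ℝ} (A : At S M m a T) (h : PN S M m a T Pn ez x la u ω ℓ B)
    (h1 : ∀ k, ez k ≤ ez' k) (h2 : x ≤ x') (h3 : la ≤ la') : PN S M m a T Pn ez' x' la' u ω ℓ B := by
  have d : ∀ i k, i ≤ k → la * (sb M m a (k + 1) - sb M m a (i + 1)) ≤
      la' * (sb M m a (k + 1) - sb M m a (i + 1)) := fun i k hk =>
    mul_le_mul_of_nonneg_right h3 (sub_nonneg.2 (A.sb_mono (Nat.succ_le_succ hk)))
  refine ⟨h.x00.trans h2, h.la0.trans h3, fun k => (h.ez0 k).trans (h1 k), h.mem, h.ex,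
    fun i k a1 a2 a3 => (h.dp i k a1 a2 a3).trans (by linarith [h1 i, h1 k, d i k a3]),
    fun p q a1 a2 a3 a4 a5 a6 => ?_⟩
  obtain ⟨i, b1, b2, b3⟩ := h.dv p q a1 a2 a3 a4 a5 a6
  refine ⟨i, b1, b2, fun k hk => (b3 k hk).trans ?_⟩
  have := (h.mem k hk).1
  linarith [h1 k, d i k (by omega)]

theorem idx54 {S : Sc} {M : Md} (h : Cl S M) {x : ℝ} (x0 : 0 ≤ x) (x1 : x < M.s S.J) :
    ∃ k, k < S.J ∧ M.s k ≤ x ∧ x < M.s (k + 1) := by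
  have jl := h.jl_lt
  have ex : ∃ k, x < M.s (k + 1) := ⟨S.J - 1, by rwa [Nat.sub_add_cancel (by omega)]⟩
  classical
  refine ⟨Nat.find ex, ?_, ?_, Nat.find_spec ex⟩
  · have := Nat.find_min' ex (m := S.J - 1) (by rwa [Nat.sub_add_cancel (by omega)])
    omega
  · rcases Nat.eq_zero_or_pos (Nat.find ex) with e | e
    · rw [e, h.s0]; exact x0
    · have := Nat.find_min ex (m := Nat.find ex - 1) (by omega)
      rw [Nat.sub_add_cancel e] at this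
      exact not_lt.1 this

/-- the slope term against the size -/
theorem wr_le {S : Sc} {M : Md} (h : Cl S M) (u0 : 0 < S.u0) {Xp Vt γ : ℝ} (X0 : 0 < Xp)
    (V0 : 0 ≤ Vt) (γ0 : 0 ≤ γ) (w0 : 0 ≤ S.w3 1) {k : ℕ} (k1 : S.J ≤ k) (k2 : k < S.Jp) :
    0 ≤ ap M S Xp Vt γ k ∧ 0 ≤ sl M S Xp Vt γ k - 1 ∧
      S.w3 1 * (sl M S Xp Vt γ k - 1) ≤ ap M S Xp Vt γ k ^ 2 := by
  have d0 := SzT98.ds_pos h u0 k1 k2
  have d1 : ds M S k ≤ 1 := (min_le_right _ _).trans (by unfold du; linarith [h.z_pos (k - 1)])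
  have n0 := h.den0 (M.z (k - 1))
  have r0 : 0 ≤ Rp M S Xp Vt γ k + Xp ^ ((1 : ℝ) / 3) := by
    have : 0 ≤ min Vt (√(Xp / du M k)) := le_min V0 (sqrt_nonneg _)
    unfold Rp; positivity
  unfold ap sl lsh
  generalize Rp M S Xp Vt γ k + Xp ^ ((1 : ℝ) / 3) = ρ at *
  generalize S.den (M.z (k - 1)) = n at *
  generalize ds M S k = d at *
  generalize S.w3 1 = w at *
  have c0 := sqrt_nonneg (w / (n * d))
  have b0 : 0 ≤ w / (n * d ^ 2) := by positivity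
  have i0 : 0 ≤ w * (n + ρ ^ 2 / (d ^ 2 * n)) := by positivity
  have a3 := Nd22.cb3 i0
  have a0 : 0 ≤ (w * (n + ρ ^ 2 / (d ^ 2 * n))) ^ ((1 : ℝ) / 3) := by positivity
  generalize (w * (n + ρ ^ 2 / (d ^ 2 * n))) ^ ((1 : ℝ) / 3) = A at *
  refine ⟨by positivity, by rw [add_sub_cancel_left]; positivity, ?_⟩
  rw [add_sub_cancel_left, show w * (ρ / (n * d)) = w / (n * d) * ρ by ring]
  have W0 : 0 ≤ w / (n * d) := by positivity
  have Wb : w / (n * d) ≤ w / (n * d ^ 2) :=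
    div_le_div_of_nonneg_left w0 (by positivity) (by nlinarith [mul_pos n0 d0])
  have WA : w / (n * d) * ρ ^ 2 ≤ A ^ 3 := by
    rw [a3]
    have := mul_le_mul_of_nonneg_right Wb (sq_nonneg ρ)
    have e : w * (n + ρ ^ 2 / (d ^ 2 * n)) = w * n + w / (n * d ^ 2) * ρ ^ 2 := by
      field_simp
    have : 0 ≤ w * n := by positivity
    linarith
  generalize w / (n * d) = W at *
  generalize w / (n * d ^ 2) = B at *
  generalize √W = c at *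
  rcases le_total ρ W with e | e
  · have x1 : W * ρ ≤ B * B := mul_le_mul Wb (e.trans Wb) r0 b0
    have x2 : B ^ 2 ≤ (A + B + c) ^ 2 := pow_le_pow_left₀ b0 (by linarith) 2
    linarith
  · have x1 : W * ρ ≤ A ^ 2 := by
      refine le_of_pow_le_pow_left₀ three_ne_zero (sq_nonneg _) ?_
      have y1 : (W * ρ ^ 2) ^ 2 ≤ (A ^ 3) ^ 2 := pow_le_pow_left₀ (by positivity) WA 2
      have y2 := mul_le_mul_of_nonneg_left e (show 0 ≤ W ^ 2 * ρ ^ 3 by positivity)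
      linarith
    have x2 : A ^ 2 ≤ (A + B + c) ^ 2 := pow_le_pow_left₀ a0 (by linarith) 2
    linarith

/-- the pointwise context -/
structure C54 (D E : ℝ) (S : Sc) (M : Md) (m : ℕ) (a G1 u1 u2 j γ Lc ηc τ l0 l X Xp Vt Lg Lp X2 X3
    X4 G0 : ℝ) (η : ℝ → ℝ) (N : ℝ) (g : ℝ → ℝ) (t1 ℓ En p0 W3 : ℝ) : Prop where
  Z : Cz D E D D S M m a (2 * S.C) G1 l0 l (X ^ ((1 : ℝ) / 3)) X Lg X2 X3 G0 W3 η
  H : Hy E S M m a G1 u1 u2 j γ Lc ηc τ l0 l X Xp Vt Lg Lp X2 X3 X4 G0 η N g t1 (M.s S.J) ℓ En p0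
  po : 8 * S.jl ≤ S.J → ∀ v G ev N2, v ≤ S.J → SV S M m a v G ev → Nu M m a (u4 M m a) 2 ≤ N2 →
    PO D S M m a G ev N2
  sz : ∑ k ∈ Ico S.J M.N, M.dz m a k * u4 M m a k ^ 2 ≤ D * Np M S Xp Vt γ u1 Lp 2
  out : ∀ k, S.J ≤ 8 * k → k < S.J → Gd65.Out D S M m a (2 * S.C) j γ (X ^ ((1 : ℝ) / 3)) k
  rh : RH S M m a Xp γ
  szl : ∀ (p : ℕ) (k0 ρ : ℝ), p < S.J → 2 * S.J ≤ 3 * p → 1 ≤ k0 →
    (∀ i : ℕ, S.J / 2 ≤ i → i ≤ p → M.rb m a p - M.rb m a i ≤ k0 * (((p : ℝ) - i) * S.v)) →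
    M.rb m a (S.J - 1) - M.rb m a p ≤ ρ →
    ∑ k ∈ Ico p S.J, M.dz m a k * u4 M m a k ^ 2 ≤
      D * (((S.J : ℝ) - p) * S.v * (k0 ^ ((2 : ℝ) / 3) * S.w3 1 ^ ((1 : ℝ) / 3)) ^ 2 +
        √(S.w3 1 * ρ ^ 3) + √(S.w3 1 * Xp) + Np M S Xp Vt γ u1 Lp 2)
  pg : ∀ k, S.J ≤ k → k ≤ S.Jp → 3 * u1 ≤ du M k →
    ∃ i, k < i ∧ i + 1 < S.Jp ∧ M.z (i - 1) ≤ M.z (k - 1) + ds M S k / 8 ∧
      M.z i ≤ M.z (k - 1) + ds M S k / 4 ∧ PG S M m a i (D * Lp * sl M S Xp Vt γ i)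
        (D * (Lp ^ ((2 : ℝ) / 3) * ap M S Xp Vt γ i))

namespace C54

variable {D E : ℝ} {S : Sc} {M : Md} {m : ℕ} {a G1 u1 u2 j γ Lc ηc τ l0 l X Xp Vt Lg Lp X2 X3 X4
  G0 : ℝ} {η : ℝ → ℝ} {N : ℝ} {g : ℝ → ℝ} {t1 ℓ En p0 W3 : ℝ}
  (Q : C54 D E S M m a G1 u1 u2 j γ Lc ηc τ l0 l X Xp Vt Lg Lp X2 X3 X4 G0 η N g t1 ℓ En p0 W3)
include Q

theorem cE {k : ℕ} (hk : k ≤ 10) : 10000 * S.C ^ k ≤ E := (Q.Z.Cp hk).trans Q.Z.D_E

theorem l1 : l ≤ 1 := by nlinarith [Q.H.ln.l1, Q.Z.E1, Q.Z.lp]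

theorem lE {k : ℕ} (hk : k ≤ 10) : 10000 * S.C ^ k * l ≤ 1 :=
  (mul_le_mul_of_nonneg_right (Q.cE hk) Q.Z.lp.le).trans Q.H.ln.l1

theorem th : 0 < S.θ ∧ S.θ ≤ √S.θ ∧ 1 / S.n ≤ S.θ := by
  have h := Q.Z.A.cl
  have t0 := h.θ0
  have t1 : S.θ ≤ 1 := by nlinarith [Q.Z.hθ, h.C1]
  refine ⟨t0, le_sqrt' t0 |>.2 (by nlinarith), ?_⟩
  have := h.ms0.trans (h.ms1 0)
  rwa [rpow_neg_one, inv_eq_one_div] at this

theorem ell : 0 < ℓ ∧ E * S.θ ≤ ℓ ∧ 10 * (S.C * S.v) ≤ ℓ := by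
  obtain ⟨t0, t1, t2⟩ := Q.th
  have h := Q.Z.A.cl
  have E1 := Q.Z.E1
  have a : E * S.θ ≤ ℓ := (mul_le_mul_of_nonneg_left t1 (by linarith)).trans Q.H.lt.ℓ1
  refine ⟨lt_of_lt_of_le (by positivity) a, a, ?_⟩
  have n0 := h.N0
  have n1 : (1 : ℝ) ≤ S.n := by exact_mod_cast h.n1
  have cv := mul_pos h.C0 h.v0
  have b : S.C * S.v ≤ 1 / S.n := by
    rw [le_div_iff₀ n0]
    nlinarith [Q.Z.hv, mul_le_mul_of_nonneg_left n1 (mul_pos cv n0).le]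
  have c : (10 : ℝ) ≤ E := by linarith [Q.Z.D4, Q.Z.D_E]
  nlinarith [mul_le_mul_of_nonneg_right c t0.le]

theorem jl8 : 8 * S.jl ≤ S.J := by
  have h := Q.Z.A.cl
  have C0 := h.C0
  have v0 := h.v0
  have a := (h.s_tel (Nat.zero_le S.jl) h.jl_lt.le).1
  have b := (h.s_tel (Nat.zero_le S.J) le_rfl).2
  have c := Ab33.sJ_ge h
  rw [h.s0] at a b
  simp only [Nat.cast_zero, sub_zero] at a b
  have d : 10000 * S.C ^ 5 * M.s S.jl ≤ 1 :=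
    (mul_le_mul_of_nonneg_right (Q.cE (by norm_num)) (h.s_nn _)).trans
      (Q.H.ln.l0s.trans (Q.H.ln.l0l.trans Q.l1))
  rw [← mul_div_assoc, div_le_iff₀ C0] at a
  have e : (8 * S.jl : ℝ) * (3 * S.C ^ 4 * S.v) ≤ S.J * (3 * S.C ^ 4 * S.v) := by
    have a' := mul_le_mul_of_nonneg_left a (show 0 ≤ 24 * S.C ^ 4 by positivity)
    have b' := mul_le_mul_of_nonneg_left b (show 0 ≤ 3 * S.C ^ 3 by positivity)
    have := mul_nonneg (show 0 ≤ S.C ^ 5 by positivity) (h.s_nn S.jl)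
    linarith
  exact_mod_cast le_of_mul_le_mul_right e (by positivity)

/-- levels of order one -/
theorem lev {t : ℝ} (h1 : l ≤ t) (h2 : t ≤ S.C) (h3 : 1 ≤ 4 * S.C ^ 4 * t) :
    η t ≤ D ^ 2 * η 1 ∧ Ug S Lg t ≤ D ^ 2 * Ug S Lg 1 ∧ Lg * cr S t * gg S t ≤ D * η 1 := by
  have h := Q.Z.A.cl
  have C0 := h.C0
  have C1 := h.C1
  have c2 : S.C ≤ S.C ^ 2 := le_self_pow₀ C1 two_ne_zero
  have D4 := Q.Z.D4
  have e0 := Q.Z.eta_pos Q.l1 C1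
  have U0 := Q.Z.Ug_nn Q.l1
  have t0 := Q.Z.lp.trans_le h1
  have DD : D ≤ D ^ 2 := le_self_pow₀ (by linarith) two_ne_zero
  have key : η t ≤ D ^ 2 * η 1 ∧ Ug S Lg t ≤ D ^ 2 * Ug S Lg 1 := by
    rcases le_total 1 (2 * S.C ^ 2 * t) with e | e
    · obtain ⟨a, -, b, -⟩ := Q.Z.cmp Q.l1 h1 C1 (by linarith) e
      exact ⟨a.trans (mul_le_mul_of_nonneg_right DD e0.le),
        b.trans (mul_le_mul_of_nonneg_right DD U0)⟩
    · have p : 0 < 2 * S.C ^ 2 := by positivity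
      have q : 2 * S.C ^ 2 * (1 / (2 * S.C ^ 2)) = 1 := by field_simp
      have r1 : 1 / (2 * S.C ^ 2) ≤ 1 := by rw [div_le_one p]; linarith
      have r2 : l ≤ 1 / (2 * S.C ^ 2) := by
        rw [le_div_iff₀ p]
        have := mul_pos (pow_pos C0 2) Q.Z.lp
        linarith [Q.lE (k := 2) (by norm_num)]
      obtain ⟨a, -, b, -⟩ := Q.Z.cmp Q.l1 r2 C1 (by linarith) q.ge
      obtain ⟨a', -, b', -⟩ := Q.Z.cmp r2 h1 (r1.trans C1) (by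
        rw [q]; nlinarith [mul_le_mul_of_nonneg_right (C1.trans c2) t0.le])
        (by rw [div_le_iff₀ p]; linarith)
      exact ⟨by linarith [mul_le_mul_of_nonneg_left a (show 0 ≤ D by linarith)],
        by linarith [mul_le_mul_of_nonneg_left b (show 0 ≤ D by linarith)]⟩
  refine ⟨key.1, key.2, ?_⟩
  have m0 := h.ms_pos t0.le
  have m1 := h.θ0
  have n0 := h.N0
  have E1 := Q.Z.E1
  have cr1 : cr S t = 1 := by
    refine max_eq_left (rpow_le_one (by rw [Q.H.lt.F1]; positivity) ?_ (by norm_num))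
    rw [Q.H.lt.F1, one_mul, div_le_one (by positivity)]
    have a := Q.H.lt.ml t h1 h2
    have b : √(S.ms t) ≤ t := (le_mul_of_one_le_left (sqrt_nonneg _) E1).trans a
    exact (sqrt_le_left t0.le).1 b
  have c4 : 1 ≤ 4 * S.C ^ 4 := by linarith [one_le_pow₀ (n := 4) C1]
  have g1 : gg S t ≤ D * S.w3 1 := by
    have a := (h.msm h3).trans (h.ms_mul t0.le c4)
    have b := Q.Z.Cp (k := 8) (by norm_num)
    unfold gg Sc.w3
    rw [Q.H.lt.F1, ← mul_div_assoc, div_le_div_iff₀ (by positivity) (by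
      have : 0 < S.ms 1 := m1
      positivity)]
    have c : 4 * (4 * S.C ^ 4) ^ 2 * S.ms t ≤ D * S.ms t :=
      mul_le_mul_of_nonneg_right (by linarith [pow_pos C0 8]) m0.le
    linarith [mul_le_mul_of_nonneg_left (a.trans c) n0.le]
  have w0 := (Q.Z.w3p one_pos).le
  have g2 := E1.trans Q.Z.EL
  have g3 : Lg * S.w3 1 ≤ η 1 := by
    refine le_trans ?_ (Q.Z.eta_b Q.l1 C1).2.1
    rw [G89.uw_cube w0]
    refine mul_le_mul_of_nonneg_right ?_ w0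
    have a : Lg ≤ Lg ^ 2 * cr S 1 := (le_self_pow₀ g2 two_ne_zero).trans
      (le_mul_of_one_le_right (by positivity) (Ab33.cr_one S 1))
    exact a.trans (le_self_pow₀ (g2.trans a) three_ne_zero)
  rw [cr1, mul_one]
  linarith [mul_le_mul_of_nonneg_left g1 (show 0 ≤ Lg by linarith),
    mul_le_mul_of_nonneg_left g3 (show 0 ≤ D by linarith)]

theorem cr1 {t : ℝ} (h1 : l ≤ t) (h2 : t ≤ S.C) : cr S t = 1 := by
  have t0 := Q.Z.lp.trans_le h1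
  have m0 := Q.Z.A.cl.ms_pos t0.le
  refine max_eq_left (rpow_le_one (by rw [Q.H.lt.F1]; positivity) ?_ (by norm_num))
  rw [Q.H.lt.F1, one_mul, div_le_one (by positivity)]
  have a := Q.H.lt.ml t h1 h2
  have b : √(S.ms t) ≤ t := (le_mul_of_one_le_left (sqrt_nonneg _) Q.Z.E1).trans a
  exact (sqrt_le_left t0.le).1 b

/-- a free window below the corner -/
theorem win' {i : ℕ} {d : ℝ} (hi : i ≤ S.J) (d0 : 0 ≤ d) (d1 : D * d ≤ 1)
    (h1 : M.s S.J - M.s i ≤ d) :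
    7 * S.J ≤ 8 * i ∧ 1 ≤ 4 * S.C ^ 4 * M.s i ∧ l ≤ M.s i ∧ M.s i ≤ S.C ∧ M.s S.J ≤ 2 * M.s i ∧
      ((S.J : ℝ) - i) * S.v ≤ S.C * d := by
  have h := Q.Z.A.cl
  have C0 := h.C0
  have C1 := h.C1
  have v0 := h.v0
  have a := (h.s_tel hi le_rfl).1
  have b := (h.s_tel (Nat.zero_le S.J) le_rfl).2
  have c := Ab33.sJ_ge h
  rw [h.s0] at b
  simp only [Nat.cast_zero, sub_zero] at b
  have e : ∀ k, k + 3 ≤ 10 → 1000 * S.C ^ k * d ≤ M.s S.J := fun k hk => by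
    have x := (mul_le_mul_of_nonneg_right (Q.Z.Cp hk) d0).trans d1
    refine le_of_mul_le_mul_left ?_ (show 0 < 3 * S.C ^ 3 by positivity)
    have : 0 ≤ S.C ^ (k + 3) * d := by positivity
    calc 3 * S.C ^ 3 * (1000 * S.C ^ k * d) = 3000 * (S.C ^ (k + 3) * d) := by ring
      _ ≤ _ := by linarith
  have d3 := e 0 (by norm_num)
  have d5 := e 2 (by norm_num)
  rw [← mul_div_assoc, div_le_iff₀ C0] at a
  have s0 := h.s_nn i
  have a1 : (M.s S.J - M.s i) * S.C ≤ d * S.C := mul_le_mul_of_nonneg_right h1 C0.le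
  have f : 1 ≤ 4 * S.C ^ 3 * M.s i := by
    nlinarith [mul_le_mul_of_nonneg_left (show 99 / 100 * M.s S.J ≤ M.s i by linarith)
      (show 0 ≤ 4 * S.C ^ 3 by positivity)]
  refine ⟨?_, f.trans (by gcongr; norm_num), ?_, h.s_le_C (hi.trans h.i3), by linarith,
    by linarith⟩
  · have e : (7 * S.J : ℝ) * (S.C * S.v) ≤ 8 * i * (S.C * S.v) := by
      have a2 := mul_le_mul_of_nonneg_left (a.trans a1) C0.le
      have := mul_nonneg (pow_pos C0 2).le d0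
      linarith
    exact_mod_cast le_of_mul_le_mul_right e (by positivity)
  · have := Q.lE (k := 3) (by norm_num)
    refine le_of_mul_le_mul_left ?_ (show 0 < 4 * S.C ^ 3 by positivity)
    have := mul_pos (pow_pos C0 3) Q.Z.lp
    linarith

theorem aa_lo {aa : ℝ} (a3 : E ^ 3 * S.w3 1 ≤ aa ^ 3) :
    0 < aa ∧ E * w1 S 1 ≤ aa ∧ 10 * (S.C * S.v) ≤ aa := by
  have h := Q.Z.A.cl
  have E1 := Q.Z.E1
  have w0 := Q.Z.w3p one_pos
  have n0 := h.N0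
  have n1 : (1 : ℝ) ≤ S.n := by exact_mod_cast h.n1
  have cv := mul_pos h.C0 h.v0
  have a0 : 0 < aa := (Odd.pow_pos_iff (by decide : Odd 3)).1 (lt_of_lt_of_le (by positivity) a3)
  refine ⟨a0, le_of_pow_le_pow_left₀ three_ne_zero a0.le ?_,
    le_of_pow_le_pow_left₀ three_ne_zero a0.le (le_trans ?_ a3)⟩
  · rw [mul_pow, w1, Nd22.cb3 w0.le]; exact a3
  · have b : S.C * S.v ≤ 1 / S.n := by
      rw [le_div_iff₀ n0]
      nlinarith [Q.Z.hv, mul_le_mul_of_nonneg_left n1 (mul_pos cv n0).le]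
    have b1 : 1 / (S.n : ℝ) ≤ 1 := (div_le_one n0).2 n1
    have c : 1 / (S.n : ℝ) ≤ S.w3 1 := by
      have t0 : 0 < S.ms 1 := h.θ0
      have t1 : S.ms 1 ≤ 1 := by
        have : S.θ ≤ 1 := by nlinarith [Q.Z.hθ, h.C1, h.θ0]
        exact this
      unfold Sc.w3
      rw [Q.H.lt.F1]
      exact div_le_div_of_nonneg_left zero_le_one (by positivity) (by nlinarith)
    have d : (S.C * S.v) ^ 3 ≤ S.w3 1 :=
      (pow_le_of_le_one cv.le (b.trans b1) three_ne_zero).trans (b.trans c)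
    rw [mul_pow]
    exact mul_le_mul (pow_le_pow_left₀ (by norm_num) (by linarith [Q.Z.D4, Q.Z.D_E]) 3) d
      (by positivity) (by positivity)

/-- the data of a sloped node with a cone -/
theorem sv_at {i : ℕ} {aa d : ℝ} (a3 : E ^ 3 * S.w3 1 ≤ aa ^ 3)
    (cn : Gd M m a (Lg * cr S (M.s i) / S.C) (i - i / 3) (min (i + i / 3) (S.J - 1)) i)
    (h1 : M.s i + aa / 5 ≤ M.s S.J) (h2 : M.s S.J - M.s i ≤ d) (d1 : D * d ≤ 1) :
    i < S.J ∧ ∃ G ev, SV S M m a i G ev ∧ ev ≤ D ^ 10 * η 1 ∧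
      (∃ Gb, G ≤ Gb ∧ Gb ^ 2 ≤ 2 * D ^ 7 * (η 1 + G0 ^ 2)) ∧ u4 M m a i ≤ D ^ 3 * Ug S Lg 1 := by
  have h := Q.Z.A.cl
  have C0 := h.C0
  have C1 := h.C1
  have v0 := h.v0
  have D4 := Q.Z.D4
  have D0 : 0 < D := by linarith
  have E1 := Q.Z.E1
  have g2 := E1.trans Q.Z.EL
  obtain ⟨a0, a1, a2⟩ := Q.aa_lo a3
  have iJ : i < S.J := by
    by_contra c
    linarith [h.sm (not_lt.1 c)]
  obtain ⟨-, w2, w3, w4, w5, -⟩ := Q.win' iJ.le (by linarith) d1 h2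
  obtain ⟨y1, y2, y3⟩ := Q.lev w3 w4 w2
  have hi : i + 1 < S.J := by
    by_contra c
    have e : i + 1 = S.J := by omega
    have := (h.ss i iJ).2
    rw [e] at this
    have := mul_pos C0 v0
    linarith
  have go : Go D S M m a l0 l (X ^ ((1 : ℝ) / 3)) Lg η i (Lg * cr S (M.s i)) (η (M.s i)) := by
    refine ⟨w3, Q.H.lt.l2.trans w3, hi, Q.Z.k1 w3,
      le_mul_of_one_le_right (by linarith) (Ab33.cr_one S _), Q.Z.kap_le w3 w4, Or.inr ?_, cn,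
      (Q.Z.eta_pos w3 w4).le, fun _ => le_rfl⟩
    change 2 * log S.n * Ug S Lg (M.s i) ≤ _
    have w0 : 0 ≤ w1 S 1 := rpow_nonneg (Q.Z.w3p one_pos).le _
    have e1 : Ug S Lg 1 ≤ Lg * w1 S 1 := by
      unfold Ug Nd22.U
      rw [Q.cr1 Q.l1 C1, mul_one]
      exact mul_le_mul_of_nonneg_right (rpow_le_self_of_one_le g2 (by norm_num)) w0
    have e2 : 2 * log S.n * Ug S Lg (M.s i) ≤ 2 * D * (D ^ 2 * (Lg * w1 S 1)) :=
      mul_le_mul (by linarith [Q.Z.lg]) (y2.trans (mul_le_mul_of_nonneg_left e1 (by positivity)))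
        (Q.Z.Ug_nn w3) (by positivity)
    have e3 := (h.s_tel iJ.le le_rfl).2
    have e6 : 10000 * S.C ^ 1 * D ^ 3 ≤ E := le_trans (by
      linarith [mul_le_mul_of_nonneg_right (Q.Z.Cp (k := 1) (by norm_num)) (pow_pos D0 3).le])
      (Q.Z.DpE (i := 4) (by norm_num))
    have e7 := (mul_le_mul_of_nonneg_right e6 w0).trans a1
    have e8 : 2 * D ^ 3 * w1 S 1 ≤ ((S.J : ℝ) - i) * S.v := by
      refine le_of_mul_le_mul_left ?_ C0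
      have : 0 ≤ S.C * D ^ 3 * w1 S 1 := by positivity
      linarith
    rw [Q.cr1 w3 w4, mul_one]
    linarith [mul_le_mul_of_nonneg_left e8 (show 0 ≤ Lg by linarith)]
  obtain ⟨G, n1, n2, n3⟩ := Q.Z.no.ng _ _ _ go
  have e0 := Q.Z.eta_pos Q.l1 C1
  refine ⟨iJ, G, _, ⟨n1, n2⟩, (Q.Z.ee_le w3 w4).trans ?_, ⟨_, n3, ?_⟩, ?_⟩
  · linarith [mul_le_mul_of_nonneg_left y1 (pow_pos D0 8).le]
  · have k0 : 0 ≤ Lg * cr S (M.s i) * gg S (M.s i) := by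
      have := Ab33.cr_one S (M.s i)
      have := h.ms_pos (h.s_nn i)
      have := h.N0
      have := h.F1
      unfold gg; positivity
    have s2 := sq_sqrt k0
    generalize √(Lg * cr S (M.s i) * gg S (M.s i)) = s at *
    have x1 : (s + G0) ^ 2 ≤ 2 * D * (η 1 + G0 ^ 2) := by
      nlinarith [sq_nonneg (s - G0), sq_nonneg G0]
    linarith [mul_le_mul_of_nonneg_left x1 (pow_pos D0 6).le]
  · have := (Q.Z.no.nd _ _ _ go).1
    change u4 M m a i ≤ D * Ug S Lg (M.s i) at this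
    linarith [mul_le_mul_of_nonneg_left y2 D0.le]

/-- the cone on the whole lower half of the top window, and the rise up to the corner -/
theorem cone_lo {i : ℕ} {d : ℝ}
    (cn : Gd M m a (Lg * cr S (M.s i) / S.C) (i - i / 3) (min (i + i / 3) (S.J - 1)) i)
    (iJ : i < S.J) (h2 : M.s S.J - M.s i ≤ d) (d1 : D * d ≤ 1) :
    (∀ y : ℕ, y < S.J → |M.rb m a y - M.rb m a i| ≤ Lg * (|(y : ℝ) - i| * S.v)) ∧
      M.rb m a (S.J - 1) - M.rb m a i ≤ 14 * S.C ^ 5 * (Xp ^ ((1 : ℝ) / 3) + d + γ) := by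
  have h := Q.Z.A.cl
  have C0 := h.C0
  have C1 := h.C1
  have v0 := h.v0
  have E1 := Q.Z.E1
  have g2 := E1.trans Q.Z.EL
  have d0 : 0 ≤ d := (sub_nonneg.2 (h.sm iJ.le)).trans h2
  obtain ⟨w1', w2, w3, w4, -, w6⟩ := Q.win' iJ.le d0 d1 h2
  have j8 := Q.jl8
  have i1 := h.i1
  have i2 := h.i2
  have mo := rb_mono (M := M) (a := a) Q.Z.A.m_pos
  rw [Q.cr1 w3 w4, mul_one] at cn
  have k0 : 0 ≤ Lg / S.C := by positivity
  have e : ∀ x : ℝ, Lg / S.C * (x * (S.C * S.v)) = Lg * (x * S.v) := fun x => by field_simp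
  have R := Q.rh
  refine ⟨fun y hy => ?_, ?_⟩
  · rcases le_total i y with c | c
    · have c' : (0 : ℝ) ≤ y - i := sub_nonneg.2 (by exact_mod_cast c)
      rw [abs_of_nonneg (sub_nonneg.2 (mo c)), abs_of_nonneg c', ← e]
      exact (cn.1 y c (by omega)).trans
        (mul_le_mul_of_nonneg_left (h.z_tel (by omega) c hy).2 k0)
    · have c' : (0 : ℝ) ≤ i - y := sub_nonneg.2 (by exact_mod_cast c)
      rw [abs_sub_comm, abs_of_nonneg (sub_nonneg.2 (mo c)), abs_sub_comm, abs_of_nonneg c']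
      rcases le_or_gt (i - i / 3) y with f | f
      · rw [← e]
        exact (cn.2 y f c).trans (mul_le_mul_of_nonneg_left (h.z_tel (by omega) c iJ).2 k0)
      · have r1 := (rb_mem (M := M) (a := a) Q.Z.A.m_pos i).2
        have r2 := (rb_mem (M := M) (a := a) Q.Z.A.m_pos y).1
        have f1 : (i : ℝ) ≤ 3 * (i - y) := by
          have : 3 * y ≤ 2 * i := by omega
          have : (3 * y : ℝ) ≤ 2 * i := by exact_mod_cast this
          linarith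
        have f2 := (h.s_tel (Nat.zero_le i) iJ.le).2
        rw [h.s0] at f2
        simp only [Nat.cast_zero, sub_zero] at f2
        have f3 := mul_le_mul_of_nonneg_right f1 (mul_pos C0 v0).le
        have f4 := mul_le_mul_of_nonneg_left (f2.trans f3) (show 0 ≤ 4 * S.C ^ 4 by positivity)
        have f5 := mul_le_mul_of_nonneg_right ((Q.cE (k := 5) (by norm_num)).trans Q.Z.EL)
          (mul_nonneg c' v0.le)
        have : 0 ≤ S.C ^ 5 * (((i : ℝ) - y) * S.v) := by positivity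
        linarith
  · have γ0 := R.γ_nn
    have x0 : 0 < Xp ^ ((1 : ℝ) / 3) := rpow_pos_of_pos R.X0 _
    have r := R.rise le_rfl h.i3 i
    have u := R.up le_rfl h.i3 (W := 1 / S.C) (by positivity) (by
      have := h.atom.2
      have : 0 < 1 / S.C := by positivity
      unfold du; linarith)
    have c4 : 1 ≤ S.C ^ 4 := one_le_pow₀ C1
    have x1 : Xp ^ ((1 : ℝ) / 3) ≤ 1 := by nlinarith [R.X1]
    have s : √(Xp / (1 / S.C)) ≤ S.C * Xp ^ ((1 : ℝ) / 3) := by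
      refine sqrt_le_iff.2 ⟨by positivity, ?_⟩
      have x3 := Nd22.cb3 R.X0.le
      rw [div_div_eq_mul_div, div_one]
      generalize Xp ^ ((1 : ℝ) / 3) = x at *
      have y1 : x ^ 3 ≤ x ^ 2 := pow_le_pow_of_le_one x0.le x1 (by norm_num)
      have y2 : S.C ≤ S.C ^ 2 := le_self_pow₀ C1 two_ne_zero
      rw [← x3, mul_pow, mul_comm]
      exact mul_le_mul y2 y1 (by positivity) (by positivity)
    have mx : max (M.del m a S.J) 0 ≤ γ + 2 * (S.C * Xp ^ ((1 : ℝ) / 3)) :=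
      max_le (by linarith) (by positivity)
    rw [Nat.cast_sub iJ.le] at r
    have one : (1 : ℝ) ≤ S.J - i := by
      have : ((i + 1 : ℕ) : ℝ) ≤ S.J := by exact_mod_cast iJ
      push_cast at this; linarith
    have v1 : S.v ≤ S.C * d := (le_mul_of_one_le_left v0.le one).trans w6
    have c5 : S.C ≤ S.C ^ 5 := le_self_pow₀ C1 (by norm_num)
    have c6 : S.C ^ 2 ≤ S.C ^ 5 := pow_le_pow_right₀ C1 (by norm_num)
    have q1 := mul_le_mul_of_nonneg_left w6 (show 0 ≤ 12 * S.C ^ 4 by positivity)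
    have q2 := mul_le_mul_of_nonneg_left v1 C0.le
    have q3 := mul_le_mul_of_nonneg_right c5 x0.le
    have q4 := mul_le_mul_of_nonneg_right c6 d0
    have q5 := mul_le_mul_of_nonneg_right (C1.trans c5) γ0
    have q6 := mo (Nat.sub_le S.J 1)
    have : 0 ≤ S.C ^ 5 * Xp ^ ((1 : ℝ) / 3) := by positivity
    have : 0 ≤ S.C ^ 5 * γ := by positivity
    linarith

/-- crude location without the mass -/
theorem loc {k : ℕ} (h1 : S.J ≤ 8 * k) (h2 : k < S.J) :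
    |M.del m a k| ≤ 2 * (S.C ^ 2 * X ^ ((1 : ℝ) / 3) + 3 * S.C ^ 3 * S.v + γ) := by
  have h := Q.Z.A.cl
  have C0 := h.C0
  have C1 := h.C1
  have v0 := h.v0
  have E1 := Q.Z.E1
  have E0 : 0 < E := by linarith
  have R0 : 0 < X ^ ((1 : ℝ) / 3) := rpow_pos_of_pos Q.H.ln.X0 _
  have R1 : E * X ^ ((1 : ℝ) / 3) ≤ 1 := Q.H.lt.lX.trans Q.l1
  have γ0 := Q.rh.γ_nn
  have j8 := Q.jl8
  have i2 := h.i2
  have n0 := h.N0
  have n1 : (1 : ℝ) ≤ S.n := by exact_mod_cast h.n1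
  have cv := mul_pos C0 v0
  have v1 : E * (S.C * S.v) ≤ 1 := by
    nlinarith [Q.Z.hv, mul_le_mul_of_nonneg_left n1 (mul_pos cv n0).le,
      mul_le_mul_of_nonneg_right Q.Z.En cv.le]
  have s1 : E * M.s S.jl ≤ 1 := Q.H.ln.l0s.trans (Q.H.ln.l0l.trans Q.l1)
  have s2 := (h.ss S.jl h.jl_lt).2
  have s3 := Gd65.s_top h h1 h2.le
  have c3 : S.C ≤ S.C ^ 3 := le_self_pow₀ C1 (by norm_num)
  have c3' := mul_le_mul_of_nonneg_right c3 v0.le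
  have hs : 2 * S.C * (S.C ^ 2 * X ^ ((1 : ℝ) / 3) + 3 * S.C ^ 3 * S.v + γ) <
      M.s k - M.s (S.jl + 1) := by
    refine lt_of_mul_lt_mul_left ?_ E0.le
    have a1 := mul_le_mul_of_nonneg_left R1 (pow_pos C0 3).le
    have a2 := mul_le_mul_of_nonneg_left v1 (pow_pos C0 3).le
    have a3 := mul_le_mul_of_nonneg_left Q.H.lp.γ1 C0.le
    have a4 := mul_le_mul_of_nonneg_left s2 E0.le
    have a5 := mul_le_mul_of_nonneg_right (Q.cE (k := 8) (by norm_num)) (h.s_nn k)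
    have a6 := mul_le_mul_of_nonneg_left s3 (pow_pos C0 3).le
    linarith
  refine Gd65.del_win Q.Z.A Q.Z.hθ h.i1 (lo := S.jl) ?_ h2.le Q.H.lp.γ0 R0.le
    ((le_mul_of_one_le_left R0.le E1).trans R1) ?_
    (by linarith [mul_pos (pow_pos C0 3) v0]) hs
  · by_contra c
    have : 0 ≤ 2 * S.C * (S.C ^ 2 * X ^ ((1 : ℝ) / 3) + 3 * S.C ^ 3 * S.v + γ) := by positivity
    linarith [h.sm (show k ≤ S.jl + 1 by omega)]
  · rw [Nd22.cb3 Q.H.ln.X0.le]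
    refine le_trans ?_ Q.H.ap.all
    rw [Phi, Ap63.En_eq h]
    exact sum_le_sum_of_subset_of_nonneg (Ioc_subset_Ioc_left h.i1) fun k _ _ =>
      mul_nonneg (Ap63.w_nn h.leg.zm k) (by positivity)

/-- a sloped node with a cone in every window -/
theorem node {p q : ℕ} {aa d : ℝ} (a3 : E ^ 3 * S.w3 1 ≤ aa ^ 3)
    (a1 : E * X ^ ((1 : ℝ) / 3) ≤ Lg * aa) (ag : E * γ ≤ Lg * aa) (d1 : D * d ≤ 1) (h1 : p ≤ q)
    (h2 : q < S.J) (h3 : M.s S.J - M.s p ≤ d) (h5 : aa / (100 * S.C ^ 3) ≤ M.z q - M.z p) :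
    ∃ i, p ≤ i ∧ i ≤ q ∧
      Gd M m a (Lg * cr S (M.s i) / S.C) (i - i / 3) (min (i + i / 3) (S.J - 1)) i := by
  have h := Q.Z.A.cl
  have C0 := h.C0
  have C1 := h.C1
  have v0 := h.v0
  have D4 := Q.Z.D4
  have D0 : 0 < D := by linarith
  have E1 := Q.Z.E1
  have g2 := E1.trans Q.Z.EL
  obtain ⟨b0, -, b2⟩ := Q.aa_lo a3
  have R0 : 0 < X ^ ((1 : ℝ) / 3) := rpow_pos_of_pos Q.H.ln.X0 _
  have γ0 := Q.rh.γ_nn
  have d0 : 0 ≤ d := (sub_nonneg.2 (h.sm (h1.trans h2.le))).trans h3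
  obtain ⟨w1', -, w3, -⟩ := Q.win' (h1.trans h2.le) d0 d1 h3
  have j8 := Q.jl8
  have i1 := h.i1
  have i2 := h.i2
  obtain ⟨i, c1, c2, gi⟩ := Q.Z.exs
    (D0 := 2 * (S.C ^ 2 * X ^ ((1 : ℝ) / 3) + 3 * S.C ^ 3 * S.v + γ)) h1 h2 (by positivity)
    (fun k b1 b2 => Q.loc (by omega) (by omega)) (by
      have z := (h.z_tel (show S.j0 ≤ p by omega) h1 h2).2
      have z1 := h5.trans z
      rw [div_le_iff₀ (by positivity)] at z1
      have e0 : E * S.v ≤ Lg * aa := mul_le_mul Q.Z.EL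
        (by nlinarith [mul_le_mul_of_nonneg_right C1 v0.le]) v0.le (by linarith)
      have e2 : 10000 * S.C ^ 7 * D ^ 2 ≤ E := le_trans (by
        linarith [mul_le_mul_of_nonneg_right (Q.Z.Cp (k := 7) (by norm_num)) (pow_pos D0 2).le])
        (Q.Z.DpE (i := 3) (by norm_num))
      have e3 := mul_le_mul_of_nonneg_right e2
        (show 0 ≤ X ^ ((1 : ℝ) / 3) + S.v + γ by positivity)
      have e4 := mul_le_mul_of_nonneg_left z1 (show 0 ≤ Lg by linarith)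
      have e8 : S.C ^ 2 * X ^ ((1 : ℝ) / 3) + 3 * S.C ^ 3 * S.v + γ ≤
          3 * S.C ^ 3 * (X ^ ((1 : ℝ) / 3) + S.v + γ) := by
        have := mul_le_mul_of_nonneg_right (pow_le_pow_right₀ C1 (by norm_num : 2 ≤ 3)) R0.le
        have := mul_le_mul_of_nonneg_right (one_le_pow₀ (n := 3) C1) γ0
        have := mul_pos (pow_pos C0 3) R0
        have := mul_nonneg (pow_pos C0 3).le γ0
        linarith
      have e9 := mul_le_mul_of_nonneg_left e8 (show 0 ≤ S.C ^ 4 * D ^ 2 by positivity)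
      refine le_of_mul_le_mul_left ?_ (show 0 < 300 * S.C ^ 4 by positivity)
      have e5 : 0 ≤ S.C ^ 4 * (Lg * S.v) := by positivity
      have e6 : 0 ≤ S.C ^ 7 * D ^ 2 * (X ^ ((1 : ℝ) / 3) + S.v + γ) := by positivity
      linarith)
  exact ⟨i, c1, c2, Q.Z.cx.gd gi Q.Z.Lq_pos.le (by omega) (by omega) (by omega)
    (Q.Z.kap (w3.trans (h.sm c1)))⟩

theorem np0 : 0 ≤ Np M S Xp Vt γ u1 Lp 2 := by
  have G := Md67.lg_of Q.Z.A.cl.leg Q.Z.A.m_pos Q.Z.A.a_pos.le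
    (by linarith [Q.Z.A.mem.a2, Q.Z.A.a_pos] : a ≤ 2 * S.amax)
  have := (sum_nonneg fun k _ => mul_nonneg (G.dz_nonneg k) (sq_nonneg _)).trans Q.sz
  exact nonneg_of_mul_nonneg_right this (by linarith [Q.Z.D4])

theorem sub {U : Finset ℕ} (hU : ∀ k ∈ U, S.J ≤ k ∧ k < S.Jp) :
    ∑ k ∈ U, M.dz m a k * u4 M m a k ^ 2 ≤ D * Np M S Xp Vt γ u1 Lp 2 := by
  have G := Md67.lg_of Q.Z.A.cl.leg Q.Z.A.m_pos Q.Z.A.a_pos.le
    (by linarith [Q.Z.A.mem.a2, Q.Z.A.a_pos] : a ≤ 2 * S.amax)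
  exact (sum_le_sum_of_subset_of_nonneg
    (fun k hk => mem_Ico.2 ⟨(hU k hk).1, (hU k hk).2.trans Q.Z.A.cl.i4⟩)
    fun k _ _ => mul_nonneg (G.dz_nonneg k) (sq_nonneg _)).trans Q.sz

/-- the error of a good node of the plateau -/
theorem ep_le {G Gb ev : ℝ} (h1 : ev ≤ D ^ 10 * η 1) (b1 : G ≤ Gb)
    (b2 : Gb ^ 2 ≤ 2 * D ^ 7 * (η 1 + G0 ^ 2)) {k : ℕ} (k1 : S.J ≤ k) (k2 : k < S.Jp) :
    ep S M m a G ev (D * D ^ 3 * X2) k (D * Lp * sl M S Xp Vt γ k)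
        (min (D * (Lp ^ ((2 : ℝ) / 3) * ap M S Xp Vt γ k)) 2) +
      min (D * (Lp ^ ((2 : ℝ) / 3) * ap M S Xp Vt γ k)) 2 ^ 2 * Nd33.gd S M m a (2 * S.C) k ≤
      D ^ 11 * (η 1 + G0 ^ 2 + Np M S Xp Vt γ u1 Lp 2) + D ^ 3 * (Lg ^ 2 * ap M S Xp Vt γ k) ^ 2 := by
  have h := Q.Z.A.cl
  have C1 := h.C1
  have D4 := Q.Z.D4
  have D0 : 0 < D := by linarith
  have E1 := Q.Z.E1
  have g2 := E1.trans Q.Z.EL
  have γ0 : 0 ≤ γ := (sub_nonneg.2 (h.sm h.i3)).trans Q.H.lp.γ0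
  have w0 := (Q.Z.w3p one_pos).le
  obtain ⟨a0, s0, s1⟩ := wr_le h Q.H.lp.u0 Q.H.lp.Xp0.1 Q.H.lp.Vt0 γ0 w0 k1 k2
  have P1 := Q.H.lp.Lp1.1
  have P2 := Q.H.lp.Lp2
  have P3 : Lp ^ ((2 : ℝ) / 3) ≤ Lg ^ 2 := by
    refine (rpow_le_rpow (by linarith) P2 (by norm_num)).trans_eq ?_
    rw [← rpow_natCast, ← rpow_mul (by linarith), ← rpow_natCast]; norm_num
  obtain ⟨e1, e2, -⟩ := Q.Z.eta_b Q.l1 C1
  have e0 := Q.Z.eta_pos Q.l1 C1
  have e3 : Lp * S.w3 1 ≤ η 1 := by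
    refine le_trans ?_ e2
    rw [G89.uw_cube w0]
    exact mul_le_mul_of_nonneg_right (P2.trans (pow_le_pow_left₀ (by linarith)
      ((le_self_pow₀ g2 two_ne_zero).trans
        (le_mul_of_one_le_right (by positivity) (Ab33.cr_one S 1))) 3)) w0
  have e4 : S.w3 1 ≤ η 1 := (le_mul_of_one_le_left w0 P1).trans e3
  have X0 := Q.Z.X20
  have e5 : X2 ^ 2 ≤ η 1 := by
    have x1 : X2 ≤ 1 := by linarith [Q.H.ln.th3, Q.Z.mf_le l, le_mul_of_one_le_left X0 E1]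
    have x2 : X2 ≤ √X2 := le_sqrt_of_sq_le (by nlinarith)
    have x3 := Q.H.ln.ηb 1 Q.l1 C1
    have U0 := Q.Z.uw_nn Q.l1
    have G00 : 0 ≤ G0 := le_trans (mul_nonneg Q.Z.l0p.le (sq_nonneg _)) Q.H.ln.g0a
    have x4 : X2 * X2 ≤ (√(Lg * cr S 1 * gg S 1) + G0 + X2) * (uw S Lg 1 + √X2) :=
      mul_le_mul (by linarith [sqrt_nonneg (Lg * cr S 1 * gg S 1)]) (by linarith) X0 (by positivity)
    have x5 : 0 ≤ uw S Lg 1 ^ 2 * min (S.ms 1 / 1) 1 :=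
      mul_nonneg (sq_nonneg _) (le_min (by have := h.ms_pos zero_le_one; positivity) zero_le_one)
    have x6 : 0 ≤ X3 := le_trans (mul_nonneg Q.Z.l0p.le (by positivity)) Q.H.ln.x3a
    have x7 : 0 ≤ 1 / (S.n : ℝ) := by positivity
    linarith [pow_nonneg U0 3]
  have gd : Nd33.gd S M m a (2 * S.C) k ≤ 4 * (2 * S.C) + 2 := Tq5.abs_Gd Q.Z.A k2.le
  have sm := Q.sub (U := Ico S.J k) fun y hy => ⟨(mem_Ico.1 hy).1, (mem_Ico.1 hy).2.trans k2⟩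
  have n0 := Q.np0
  have u0 : 0 ≤ min (D * (Lp ^ ((2 : ℝ) / 3) * ap M S Xp Vt γ k)) 2 :=
    le_min (by positivity) zero_le_two
  have u1' : min (D * (Lp ^ ((2 : ℝ) / 3) * ap M S Xp Vt γ k)) 2 ≤
      D * (Lg ^ 2 * ap M S Xp Vt γ k) := (min_le_left _ _).trans (by gcongr)
  have u2' := min_le_right (D * (Lp ^ ((2 : ℝ) / 3) * ap M S Xp Vt γ k)) 2
  have s2 : Lp * (S.w3 1 * (sl M S Xp Vt γ k - 1)) ≤ (Lg ^ 2 * ap M S Xp Vt γ k) ^ 2 := by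
    rw [mul_pow, ← pow_mul]
    exact mul_le_mul (P2.trans (pow_le_pow_right₀ g2 (by norm_num))) s1 (by positivity)
      (by positivity)
  unfold ep
  generalize min (D * (Lp ^ ((2 : ℝ) / 3) * ap M S Xp Vt γ k)) 2 = up at *
  generalize Lg ^ 2 * ap M S Xp Vt γ k = A at *
  have q1 : up ^ 2 ≤ D ^ 2 * A ^ 2 := by rw [← mul_pow]; exact pow_le_pow_left₀ u0 u1' 2
  have q2 : up ^ 3 ≤ 2 * up ^ 2 := by linarith [mul_le_mul_of_nonneg_left u2' (sq_nonneg up)]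
  have q3 : G * up ≤ (Gb ^ 2 + up ^ 2) / 2 := by
    linarith [mul_le_mul_of_nonneg_right b1 u0, sq_nonneg (Gb - up)]
  have q4 : D * D ^ 3 * X2 * up ≤ (D ^ 8 * η 1 + up ^ 2) / 2 := by
    linarith [mul_le_mul_of_nonneg_left e5 (pow_pos D0 8).le, sq_nonneg (D * D ^ 3 * X2 - up)]
  have q5 := mul_le_mul_of_nonneg_left gd (sq_nonneg up)
  have q6 : (8 * S.C + 5) * up ^ 2 ≤ D / 2 * (D ^ 2 * A ^ 2) :=
    mul_le_mul (by linarith [Q.Z.Cp (k := 1) (by norm_num)]) q1 (sq_nonneg _) (by linarith)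
  have q7 := mul_le_mul_of_nonneg_left s2 D0.le
  have q8 := mul_le_mul_of_nonneg_left e3 D0.le
  have q9 : D * A ^ 2 ≤ D / 2 * (D ^ 2 * A ^ 2) := by
    have : D ≤ D / 2 * D ^ 2 := by nlinarith
    linarith [mul_le_mul_of_nonneg_right this (sq_nonneg A)]
  have p : ∀ i ≤ 10, ∀ x, 0 ≤ x → 10 * (D ^ i * x) ≤ D ^ 11 * x := fun i hi x x0 => by
    have := mul_le_mul_of_nonneg_right (Q.Z.Dp hi) x0
    have := mul_le_mul_of_nonneg_right D4 (show 0 ≤ D ^ 10 * x by positivity)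
    have : 0 ≤ D ^ 10 * x := by positivity
    linarith
  have p1 := p 10 le_rfl _ e0.le
  have p2 := p 7 (by norm_num) _ e0.le
  have p3 := p 7 (by norm_num) _ (sq_nonneg G0)
  have p4 := p 8 (by norm_num) _ e0.le
  have p5 := p 1 (by norm_num) _ e0.le
  have p6 := p 0 (by norm_num) _ e0.le
  have p7 := p 1 (by norm_num) _ n0
  have z1 : 0 ≤ D ^ 11 * G0 ^ 2 := by positivity
  have z2 : 0 ≤ D ^ 11 * η 1 := by positivity
  have z3 : 0 ≤ D ^ 11 * Np M S Xp Vt γ u1 Lp 2 := by positivity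
  linarith

/-- the sloped nodes between the partner and the corner -/
theorem slp {i : ℕ} {d : ℝ}
    (cn : Gd M m a (Lg * cr S (M.s i) / S.C) (i - i / 3) (min (i + i / 3) (S.J - 1)) i)
    (iJ : i < S.J) (h2 : M.s S.J - M.s i ≤ d) (d1 : D * d ≤ 1) :
    ∑ k ∈ Ioo i S.J, M.dz m a k * u4 M m a k ^ 2 ≤ D ^ 2 * (uw S Lg 1 ^ 2 * d +
      √(S.w3 1 * (Xp + d ^ 3 + γ ^ 3)) + Np M S Xp Vt γ u1 Lp 2) := by
  have h := Q.Z.A.cl
  have C0 := h.C0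
  have C1 := h.C1
  have D4 := Q.Z.D4
  have D0 : 0 < D := by linarith
  have G := Md67.lg_of h.leg Q.Z.A.m_pos Q.Z.A.a_pos.le
    (by linarith [Q.Z.A.mem.a2, Q.Z.A.a_pos] : a ≤ 2 * S.amax)
  have d0 : 0 ≤ d := (sub_nonneg.2 (h.sm iJ.le)).trans h2
  obtain ⟨w1', -, -, -, -, w6⟩ := Q.win' iJ.le d0 d1 h2
  obtain ⟨c1, c2⟩ := Q.cone_lo cn iJ h2 d1
  have b := Q.szl i Lg _ iJ (by omega) (Q.Z.E1.trans Q.Z.EL) (fun y _ hy => by
    have := c1 y (hy.trans_lt iJ)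
    rw [abs_sub_comm, abs_sub_comm (y : ℝ), abs_of_nonneg (a := (i : ℝ) - y)
      (sub_nonneg.2 (by exact_mod_cast hy))] at this
    exact (le_abs_self _).trans this) c2
  refine (sum_le_sum_of_subset_of_nonneg Ioo_subset_Ico_self
    fun k _ _ => mul_nonneg (G.dz_nonneg k) (sq_nonneg _)).trans (b.trans ?_)
  have w0 := (Q.Z.w3p one_pos).le
  have X0 := Q.rh.X0
  have γ0 := Q.rh.γ_nn
  have e1 : Lg ^ ((2 : ℝ) / 3) * S.w3 1 ^ ((1 : ℝ) / 3) = Ug S Lg 1 := by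
    unfold Ug Nd22.U w1
    rw [Q.cr1 Q.l1 C1, mul_one]
  have e2 := sq3 w0 (rpow_pos_of_pos X0 ((1 : ℝ) / 3)).le d0 γ0
    (show 1 ≤ 14 * S.C ^ 5 by linarith [one_le_pow₀ (n := 5) C1])
  rw [Nd22.cb3 X0.le] at e2
  have e3 : √(S.w3 1 * Xp) ≤ √(S.w3 1 * (Xp + d ^ 3 + γ ^ 3)) :=
    sqrt_le_sqrt (mul_le_mul_of_nonneg_left (by linarith [pow_nonneg d0 3, pow_nonneg γ0 3]) w0)
  have e4 : ((S.J : ℝ) - i) * S.v * Ug S Lg 1 ^ 2 ≤ D * d * uw S Lg 1 ^ 2 :=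
    mul_le_mul (w6.trans (mul_le_mul_of_nonneg_right
      (by linarith [Q.Z.Cp (k := 1) (by norm_num)]) d0))
      (pow_le_pow_left₀ (Q.Z.Ug_nn Q.l1) (Q.Z.Ug_uw Q.l1) 2) (sq_nonneg _) (by positivity)
  have y0 := sqrt_nonneg (S.w3 1 * (Xp + d ^ 3 + γ ^ 3))
  have e5 := mul_le_mul_of_nonneg_right Q.Z.CD y0
  have e6 := mul_le_mul_of_nonneg_right (one_le_pow₀ (n := 10) C1) y0
  have e7 := le_mul_of_one_le_left Q.np0 (show 1 ≤ D by linarith)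
  rw [e1, sq D, mul_assoc D D]
  refine mul_le_mul_of_nonneg_left ?_ D0.le
  nlinarith [e2, e3, e4, e5, e6, e7]

/-- **the nodes**, free distances `aa ≤ d` -/
theorem pn {aa d B : ℝ} (A3 : E ^ 3 * S.w3 1 ≤ aa ^ 3) (A1 : E * X ^ ((1 : ℝ) / 3) ≤ Lg * aa)
    (ag : E * γ ≤ Lg * aa) (ad : aa ≤ d) (d1 : D * d ≤ 1) (hB : B * aa ≤ d) {W : ℝ}
    (hW : D ^ 13 ≤ W) :
    ∃ Pn, PN S M m a (2 * S.C) Pn (fun k => W * (Lg ^ 2 * ap M S Xp Vt γ k) ^ 2)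
      (W * x1 S M X Xp Vt Lg Lp G0 u1 j γ d η) (W * X2) (8 * u2) (aa / (100 * S.C ^ 3)) aa B := by
  have hx := Q.pg
  have h := Q.Z.A.cl
  have C0 := h.C0
  have C1 := h.C1
  have D4 := Q.Z.D4
  have D0 : 0 < D := by linarith
  have W0 : 0 ≤ W := (pow_pos D0 13).le.trans hW
  obtain ⟨l0', -, l2'⟩ := Q.aa_lo A3
  have d0' : 0 < d := l0'.trans_le ad
  obtain ⟨t0, -, -⟩ := Q.th
  have e0 := Q.Z.eta_pos Q.l1 C1
  have n0 := Q.np0
  have X0 := Q.Z.X20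
  have R0 : 0 < X ^ ((1 : ℝ) / 3) := rpow_pos_of_pos Q.H.ln.X0 _
  have γ0 : 0 ≤ γ := (sub_nonneg.2 (h.sm h.i3)).trans Q.H.lp.γ0
  have j0 : 0 ≤ j := le_trans (by positivity) Q.H.ap.j0
  have xb0 : 0 ≤ uw S Lg 1 ^ 2 * (S.θ + j + X ^ ((1 : ℝ) / 3) + d) := by positivity
  have xc0 := sqrt_nonneg (S.w3 1 * (Xp + d ^ 3 + γ ^ 3))
  have pw : ∀ i ≤ 12, ∀ x, 0 ≤ x → 10 * (D ^ i * x) ≤ W * x := fun i hi x x0 => by
    have := mul_le_mul_of_nonneg_right (Q.Z.Dp hi) x0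
    have := mul_le_mul_of_nonneg_right D4 (show 0 ≤ D ^ 12 * x by positivity)
    have := mul_le_mul_of_nonneg_right hW x0
    have : 0 ≤ D ^ 12 * x := by positivity
    linarith
  have dsb : ∀ i k, i ≤ k → 0 ≤ sb M m a (k + 1) - sb M m a (i + 1) := fun i k hk =>
    sub_nonneg.2 (Q.Z.A.sb_mono (Nat.succ_le_succ hk))
  have c3 : 1 ≤ S.C ^ 3 := one_le_pow₀ C1
  have sJ : aa ≤ M.s S.J := by
    have x := (mul_le_mul_of_nonneg_right (Q.Z.Cp (k := 3) (by norm_num)) d0'.le).trans d1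
    refine ad.trans (le_of_mul_le_mul_left ?_ (show 0 < 3 * S.C ^ 3 by positivity))
    have := mul_pos (pow_pos C0 3) d0'
    linarith [Ab33.sJ_ge h]
  obtain ⟨q, q1, q2, q3⟩ := idx54 h (x := M.s S.J - aa / 5) (by linarith) (by linarith)
  obtain ⟨p, p1, p2, p3⟩ := idx54 h (x := M.s S.J - aa / 2) (by linarith) (by linarith)
  have sq := (h.ss q q1).2
  have sp := (h.ss p p1).2
  have pq : p ≤ q := by
    by_contra c
    linarith [h.sm (show q + 1 ≤ p by omega)]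
  have p4 : M.s S.J - M.s p ≤ d := by linarith
  have j8 := Q.jl8
  have i1 := h.i1
  have i2 := h.i2
  obtain ⟨w1, -⟩ := Q.win' p1.le d0'.le d1 p4
  obtain ⟨v, v1, v2, cv⟩ := Q.node A3 A1 ag d1 pq q1 p4 (by
    have a1 := (h.z_tel (show S.j0 ≤ p by omega) pq q1).1
    have a2 := (h.s_tel pq q1.le).2
    rw [← mul_div_assoc, div_le_iff₀ C0] at a1
    rw [div_le_iff₀ (by positivity)]
    have a3 := mul_le_mul_of_nonneg_left a1 C0.le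
    have a4 : 0 ≤ M.z q - M.z p := sub_nonneg.2 (h.leg.zm pq)
    have a5 : (M.z q - M.z p) * S.C ^ 2 ≤ (M.z q - M.z p) * S.C ^ 3 :=
      mul_le_mul_of_nonneg_left (pow_le_pow_right₀ C1 (by norm_num)) a4
    have : 0 ≤ (M.z q - M.z p) * S.C ^ 3 := by positivity
    linarith)
  obtain ⟨-, G, ev, sv, ev1, ⟨Gb, b1, b2⟩, -⟩ := Q.sv_at A3 cv (by linarith [h.sm v2])
    (show M.s S.J - M.s v ≤ d by linarith [h.sm v1]) d1
  have po := Q.po j8 v G ev _ (by omega) sv Q.Z.no.n2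
  have ep1 := fun k => Q.ep_le ev1 b1 b2 (k := k)
  have xa0 : 0 ≤ η 1 + G0 ^ 2 + Np M S Xp Vt γ u1 Lp 2 := by positivity
  have y1 := pw 12 le_rfl _ xa0
  have y2 := pw 2 (by norm_num) _ n0
  have y3 := pw 11 (by norm_num) _ e0.le
  have y4 := pw 8 (by norm_num) _ xb0
  have y5 := pw 3 (by norm_num) _ xc0
  have y6 := pw 3 (by norm_num) _ n0
  have y7 := pw 3 (by norm_num) _ xb0
  have z1 := mul_nonneg W0 e0.le
  have z2 := mul_nonneg W0 (sq_nonneg G0)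
  have z3 := mul_nonneg W0 n0
  have z4 := mul_nonneg W0 xb0
  have z5 := mul_nonneg W0 xc0
  refine ⟨fun k => PG S M m a k (D * Lp * sl M S Xp Vt γ k)
    (min (D * (Lp ^ ((2 : ℝ) / 3) * ap M S Xp Vt γ k)) 2), by unfold x1; positivity,
    by positivity, fun k => by positivity, fun k g => ⟨g.lo, g.hi⟩, fun k a1 a2 a3 => ?_,
    fun i k gi gk ik => ?_, fun p q _ f2 f3 f4 f5 f6 => ?_⟩
  · have ue : 0 ≤ u1 := le_trans (by linarith [h.last, h.leg.z1 (S.Jp - 1)]) Q.H.lp.u1a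
    obtain ⟨i, b1, -, -, b4, g⟩ := hx k a1 a2 (by linarith [Q.H.lp.u1b.1])
    exact ⟨i, ⟨g.lo, g.hi, g.den, g.cone, le_min g.u ((mj_u4 Q.Z.A.m_pos).u0 i).2⟩, b1.le, b4⟩
  · have d0 := mul_nonneg X0 (dsb i k ik)
    have a1 := pw 4 (by norm_num) _ (sq_nonneg (Lg ^ 2 * ap M S Xp Vt γ i))
    have a2 := pw 4 (by norm_num) _ (sq_nonneg (Lg ^ 2 * ap M S Xp Vt γ k))
    have a3 := pw 5 (by norm_num) _ d0
    have a4 := mul_nonneg W0 (sq_nonneg (Lg ^ 2 * ap M S Xp Vt γ i))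
    have a5 := mul_nonneg W0 (sq_nonneg (Lg ^ 2 * ap M S Xp Vt γ k))
    have a6 := mul_nonneg W0 d0
    unfold x1
    rcases ik.eq_or_lt with e | e
    · subst e
      rw [sub_self, abs_zero]
      linarith
    have b := po.dp _ Q.Z.A i _ _ k _ _ gi gk e
    have c1 := mul_le_mul_of_nonneg_left (ep1 i gi.lo gi.hi) D0.le
    have c2 := mul_le_mul_of_nonneg_left (ep1 k gk.lo gk.hi) D0.le
    have c3 := mul_le_mul_of_nonneg_left (Q.sub (U := Ioo i k) fun y hy =>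
      ⟨gi.lo.trans (mem_Ioo.1 hy).1.le, (mem_Ioo.1 hy).2.trans gk.hi⟩) D0.le
    unfold Nd33.ck at b
    linarith
  · obtain ⟨i, b1, b2, ci⟩ := Q.node A3 A1 ag d1 f2 f3 (by linarith) f6
    have si : M.s S.J - M.s i ≤ d := by linarith [h.sm b1]
    obtain ⟨iJ, G', ev', sv', e1, -, e2⟩ := Q.sv_at A3 ci (by linarith [h.sm b2]) si d1
    refine ⟨i, b1, b2, fun k gk => ?_⟩
    obtain ⟨w2, -⟩ := Q.win' iJ.le d0'.le d1 si
    have ik : i < k := iJ.trans_le gk.lo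
    have d0 := mul_nonneg X0 (dsb i k ik.le)
    have a2 := pw 4 (by norm_num) _ (sq_nonneg (Lg ^ 2 * ap M S Xp Vt γ k))
    have a3 := pw 5 (by norm_num) _ d0
    have a5 := mul_nonneg W0 (sq_nonneg (Lg ^ 2 * ap M S Xp Vt γ k))
    have a6 := mul_nonneg W0 d0
    have b := po.dv _ Q.Z.A i G' ev' k _ _ sv' gk ik
    have c2 := mul_le_mul_of_nonneg_left (ep1 k gk.lo gk.hi) D0.le
    have c3 := mul_le_mul_of_nonneg_left (Q.sub (U := Ico S.J k) fun y hy =>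
      ⟨(mem_Ico.1 hy).1, (mem_Ico.1 hy).2.trans gk.hi⟩) D0.le
    have c4 := mul_le_mul_of_nonneg_left (Q.slp ci iJ si d1) D0.le
    have c8 : D ^ 3 * (uw S Lg 1 ^ 2 * d) ≤
        D ^ 3 * (uw S Lg 1 ^ 2 * (S.θ + j + X ^ ((1 : ℝ) / 3) + d)) := by gcongr; linarith
    have c5 := mul_le_mul_of_nonneg_left e1 D0.le
    have c6 : u4 M m a i ^ 2 * Nd33.gd S M m a (2 * S.C) i ≤
        D ^ 7 * (uw S Lg 1 ^ 2 * (S.θ + j + X ^ ((1 : ℝ) / 3) + d)) := by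
      have g1 : Nd33.gd S M m a (2 * S.C) i ≤ D * (S.θ + j + γ + X ^ ((1 : ℝ) / 3)) :=
        (Q.out i (by omega) iJ).2.2
      have U0 := Q.Z.Ug_nn Q.l1
      have U1 := Q.Z.Ug_le Q.l1
      have U2 := Q.Z.Ug_uw Q.l1
      have g2 : γ ≤ Lg * d := by
        linarith [le_mul_of_one_le_left γ0 Q.Z.E1,
          mul_le_mul_of_nonneg_left ad (show 0 ≤ Lg by linarith [Q.Z.E1, Q.Z.EL])]
      have g3 := pow_le_pow_left₀ U0 U2 2
      have g4 := mul_le_mul U1 U2 U0 (U0.trans U2)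
      have g5 : Ug S Lg 1 ^ 2 * (S.θ + j + γ + X ^ ((1 : ℝ) / 3)) ≤
          uw S Lg 1 ^ 2 * (S.θ + j + X ^ ((1 : ℝ) / 3) + d) := by
        linarith [mul_le_mul_of_nonneg_right g3 (show 0 ≤ S.θ + j + X ^ ((1 : ℝ) / 3) by positivity),
          mul_le_mul_of_nonneg_left g2 (sq_nonneg (Ug S Lg 1)), mul_le_mul_of_nonneg_right g4 d0'.le]
      have g6 := mul_le_mul (pow_le_pow_left₀ (u4_nn i) e2 2) g1 (abs_nonneg _) (sq_nonneg _)
      linarith [mul_le_mul_of_nonneg_left g5 (pow_pos D0 7).le]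
    have c7 := mul_le_mul_of_nonneg_left c6 D0.le
    have sp : ∑ y ∈ Ioo i k, M.dz m a y * u4 M m a y ^ 2 =
        ∑ y ∈ Ioo i S.J, M.dz m a y * u4 M m a y ^ 2 +
          ∑ y ∈ Ico S.J k, M.dz m a y * u4 M m a y ^ 2 := by
      have := gk.lo
      rw [← sum_union (disjoint_left.2 fun y h1 h2 => by
        have := (mem_Ioo.1 h1).2; have := (mem_Ico.1 h2).1; omega)]
      congr 1
      ext y
      simp only [mem_union, mem_Ioo, mem_Ico]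
      omega
    unfold Nd33.ck at b
    rw [sp] at b
    unfold x1
    linarith

end C54

/-- `Far` from the numbers of the bulk and of the plateau -/
theorem far54 {E : ℝ} {S : Sc} {M : Md} {l0 l V X Lg X2 X3 G0 Xp Vt Lp G1 u1 u2 j γ Lc ηc τ N : ℝ}
    {η : ℝ → ℝ} (h : Cl S M) (E1 : 1 ≤ E) (n : LN E S M l0 l V X Lg X2 X3 G0 η)
    (p : LP E S M Xp Vt Lg Lp X2 X3 G0 G1 u1 u2 j γ Lc ηc τ η N) :
    SzT98.Far E S M Xp Vt γ u1 Lp := by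
  have a : 0 ≤ l := (mul_nonneg (by linarith) (h.s_nn _)).trans (n.l0s.trans n.l0l)
  exact ⟨p.u0, n.l0s.trans (n.l0l.trans ((le_mul_of_one_le_left a E1).trans n.l1)), p.rev, p.Xp0,
    p.Vt0, p.u1a, (mul_le_mul_of_nonneg_left p.u1b.1 (by linarith)).trans p.u1b.2, p.γ0, p.γ1,
    p.Lp1, p.far⟩

open Pre29 in
/-- the context on the class -/
theorem c54_of (hN : NiS54) (hP : PgS) (hS : SzT98.SzS) (hL : SzL54) : CL fun E Λ S M m a =>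
    ∀ G1 u1 u2 j γ Lc ηc τ l0 l X Xp Vt Lg Lp X2 X3 X4 G0 η N g t1 ℓ En p0,
    Hy E S M m a G1 u1 u2 j γ Lc ηc τ l0 l X Xp Vt Lg Lp X2 X3 X4 G0 η N g t1 (M.s S.J) ℓ En p0 →
    ∃ D W3, D ^ 14 ≤ Λ ∧
      C54 D E S M m a G1 u1 u2 j γ Lc ηc τ l0 l X Xp Vt Lg Lp X2 X3 X4 G0 η N g t1 ℓ En p0 W3 := by
  refine CL.glue ((((((CL.and hN hP).and hS).and Nd22.nodeS).and Nd33.ndP).and Gd65.gdT).and hL)
    fun C => ⟨3, fun A hA ε η' hε hη => ?_⟩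
  refine ⟨ε, min (η' / 14) (ε / 40), 10000 * C ^ 10, hε, by positivity,
    fun S M m a R c I ⟨⟨⟨⟨⟨⟨h1, h2⟩, h3⟩, h4⟩, h5⟩, h6⟩, h7⟩
      G1 u1 u2 j γ Lc ηc τ l0 l X Xp Vt Lg Lp X2 X3 X4 G0 η N g t1 ℓ En p0 H => ?_⟩
  have n1 : 1 ≤ S.n := c.n1
  have e1 : ((S.n : ℝ) ^ min (η' / 14) (ε / 40)) ^ 40 ≤ (S.n : ℝ) ^ ε := by
    rw [rp_pow]; exact rp_le n1 (by push_cast; linarith [min_le_right (η' / 14) (ε / 40)])
  have e2 : ((S.n : ℝ) ^ min (η' / 14) (ε / 40)) ^ 14 ≤ (S.n : ℝ) ^ η' := by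
    rw [rp_pow]; exact rp_le n1 (by push_cast; linarith [min_le_left (η' / 14) (ε / 40)])
  have k1 := R.K_le
  have k2 := R.log_le
  have k3 := R.num_le
  have k4 := R.C_log
  have hC := R.hC
  have hA' : 3 ≤ S.A := R.hA ▸ hA
  subst hC
  generalize (S.n : ℝ) ^ min (η' / 14) (ε / 40) = D at *
  generalize (S.n : ℝ) ^ ε = E at *
  have C1 := c.C1
  have l1 : 1 ≤ D := by linarith
  have DE : D ≤ E := (le_self_pow₀ l1 (by norm_num)).trans e1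
  have E1 : 1 ≤ E := l1.trans DE
  have N0 := c.N0
  have A' : At S M m a (2 * S.C) := ⟨c, I, by linarith [c.b1, H.ln.HJ], by linarith [c.sT]⟩
  obtain ⟨W3, ni, hW⟩ := h1 _ _ _ _ _ _ _ _ _ _ _ _ _ _ _ _ _ _ _ _ _ _ _ _ _ _ _ H
  have F := far54 c E1 H.ln H.lp
  have R0 : 0 < X ^ ((1 : ℝ) / 3) := rpow_pos_of_pos H.ln.X0 _
  have Rl : X ^ ((1 : ℝ) / 3) ≤ l := (le_mul_of_one_le_left R0.le E1).trans H.lt.lX
  have lp := R0.trans_le Rl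
  have Z : Cz D E D D S M m a (2 * S.C) G1 l0 l (X ^ ((1 : ℝ) / 3)) X Lg X2 X3 G0 W3 η := by
    refine ⟨A', H.ce, H.ln, ni, h4 G1 l0 l _ X Lg X2 X3 G0 η D W3 H.ce H.ln H.lp.rev H.ap.all
      ((pow_le_pow_right₀ l1 (by norm_num)).trans e1) ni,
      Rl.trans (le_mul_of_one_le_left lp.le (Ab33.cr_one S l)), hW, k1, l1, le_rfl, le_rfl, k2, e1,
      ?_, I.m1, ?_⟩
    · have a1 : S.v * (S.n : ℝ) ^ 3 ≤ S.C := (mul_le_mul_of_nonneg_left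
        (pow_le_pow_right₀ (by exact_mod_cast n1) hA') c.v0.le).trans c.v2
      have a2 : S.C ^ 2 ≤ S.n := by
        have b1 := (le_mul_of_one_le_right (by linarith) (one_le_pow₀ c.F1)).trans
          (H.ln.Lg0.trans H.ln.Lg1)
        linarith [pow_le_pow_right₀ C1 (by norm_num : 2 ≤ 10), sq_nonneg S.C]
      refine le_of_mul_le_mul_right ?_ N0
      linarith [mul_le_mul_of_nonneg_left a1 c.C0.le]
    · have t0 : 0 ≤ S.θ := (c.ms_pos zero_le_one).le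
      linarith [mul_le_mul_of_nonneg_left k4 t0, c.msθ]
  have l01 : l0 ≤ 1 := H.ln.l0l.trans ((le_mul_of_one_le_left lp.le E1).trans H.ln.l1)
  have Q : C54 D E S M m a G1 u1 u2 j γ Lc ηc τ l0 l X Xp Vt Lg Lp X2 X3 X4 G0 η N g t1 ℓ En p0
      W3 := ⟨Z, H, h5 H.ln.HJ (by rw [H.lt.F1]; exact_mod_cast n1),
    h3 _ _ _ _ _ _ _ _ F H.ap 2 le_rfl (by norm_num),
    (h6 _ _ _ _ _ _ _ _ A' le_rfl H.ln.l0s l01 H.ln.X0 H.ln.X1 H.lp.γ0 H.lp.γ1 H.ap).1,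
    (h2 _ _ _ _ _ _ _ _ F H.ap).1, h7 _ _ _ _ _ _ _ _ F H.ap, (h2 _ _ _ _ _ _ _ _ F H.ap).2⟩
  exact ⟨D, W3, e2, Q⟩

/-- **(PNq)** -/
theorem pnq_of (hN : NiS54) (hP : PgS) (hS : SzT98.SzS) : PNq := by
  refine (c54_of hN hP hS SzT98.szL).mono fun E Λ S M m a E1 Λ1 c I h
    G1 u1 u2 j γ Lc ηc τ l0 l X Xp Vt Lg Lp X2 X3 X4 G0 η N g t1 ℓ En p0 H aa g' R2 L d ad d1 => ?_
  obtain ⟨D, W3, e, Q⟩ := h _ _ _ _ _ _ _ _ _ _ _ _ _ _ _ _ _ _ _ _ _ _ _ _ _ _ H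
  have a0 := (Q.aa_lo L.a3).1
  obtain ⟨Pn, P⟩ := Q.pn (B := d / aa) L.a3 L.a1
    ((mul_le_mul_of_nonneg_left L.a6 (by linarith)).trans L.a1) ad
    ((mul_le_mul_of_nonneg_right Q.Z.D_E (a0.le.trans ad)).trans d1) (div_mul_cancel₀ d a0.ne').le
    ((Q.Z.Dp (by norm_num : 13 ≤ 14)).trans e)
  refine ⟨Pn, P.mono54 Q.Z.A (fun _ => le_rfl) (mul_le_mul_of_nonneg_left ?_ (by linarith)) le_rfl⟩
  have := mul_nonneg Q.Z.X20 (rpow_pos_of_pos Q.rh.X0 ((1 : ℝ) / 3)).le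
  unfold x1 eQ
  linarith

end Crest.Agent.T156.Alt.Q54
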