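import Crest.Agent.T156.LDef_69

/-!
# Row 156, block (L): the statement of the upper cut with doubling and top clause (helper93)
-/

set_option autoImplicit false

noncomputable section

namespace Crest.Agent.T156.Alt.L69

open MeasureTheory Real Finset Filter

/-- **(TL1c')** the energy below an upper cut at the level `t` -/
def TL1c' : Prop := CL fun E Λ S M m a =>
  ∀ G1 u1 u2 j γ Lc ηc τ l X Xp Vt Lg Lp X2 X3 X4 G0 η N t (g En : ℝ → ℝ),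
  CeiG S M G1 → LN E S M l l (cr S l * l) X Lg X2 X3 G0 η → L4 S (cr S l * l) X l S.C X4 →
  LP E S M Xp Vt Lg Lp X2 X3 G0 G1 u1 u2 j γ Lc ηc τ η N → S.F ^ 40 ≤ E →
  Ap S M m a l X Xp Vt u1 j → E * (cr S l * l) ≤ t → E * t ≤ 1 →
  (∀ t', t ≤ t' → E * t' ≤ 1 → (∀ k, t' ≤ M.s k → M.s k ≤ 4 * t' → |M.G k| ≤ g t') ∧
    E * √(S.ms (4 * t')) ≤ t' ∧ E * En t' ≤ t' ^ 5 ∧
    L4 S (cr S l * l) X l (4 * t') (En t') ∧
    l ^ 5 + S.ms l * l ^ 3 + cB M S η l (4 * t') + (η t' + g t') ^ 2 / t' +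
      t' * (l ^ 5 + S.ms l * l ^ 3 + cB M S η l S.C + X2 ^ 2 + X4 + N) ≤ En t' ∧
    (E * (2 * t') ≤ 1 → En (2 * t') ≤ 16 * En t') ∧
    (1 < E * (2 * t') → l ^ 5 + S.ms l * l ^ 3 + cB M S η l S.C + X2 ^ 2 + X4 + N ≤ En t')) →
  ∀ t0 t', l ≤ t0 → t0 ≤ t' → t' ≤ t → ∑ k ∈ M.blk S t0 t', dx M k * M.del m a k ^ 2 ≤
    Λ * S.F ^ 12 * (min (√(t' * En t)) (En t / mf S t0) + GS M S t0 t' + 1 / (S.n : ℝ) ^ 2)

end Crest.Agent.T156.Alt.L69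

end
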