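import Crest.Agent.T156.LOb_25
import Crest.Agent.T156.LDefC_93
import Crest.Agent.T156.ClReg_29

/-!
Row 156, block (L) (helper74): location on blocks below the level `t` from the energy on `[0, 2 t]`.
-/

set_option autoImplicit false

noncomputable section

namespace Crest.Agent.T156.Alt.Mp9

open MeasureTheory Set Real
open Crest.Agent.R164.GC Crest.Agent.R339.B Crest.Agent.R339.Var Crest.Agent.T157.Pf
open Crest.Agent.T156.Pp.Area50 Crest.Agent.T156.Spl27 Crest.Agent.T156.Zb9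
open Crest.Agent.T156.Lo25 Crest.Agent.T156.Cut8

namespace At
variable {S : Sc} {M : Md} {m : ℕ} {a T : ℝ}

/-- node sums on a window that contains the times of the nodes from above -/
theorem win_in_74 (A : At S M m a T) {k0 : ℕ} {a' : ℝ} (h0 : S.j0 ≤ k0) (h1 : k0 < S.J)
    (ha : M.s S.j0 ≤ a') (hb : a' ≤ M.s k0) {U : Finset ℕ}
    (hU : ∀ k ∈ U, S.j0 < k ∧ k ≤ k0 ∧ 2 * a' ≤ M.s k ∧ sb M m a (k + 1) ≤ M.s k0) (p : ℕ) :
    ∑ k ∈ U, (M.z k - M.z (k - 1)) * |sb M m a (k + 1) - M.s k| ^ (p + 1) ≤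
      2 ^ (p + 1) * ((p + 1) * (2 * S.C) ^ p *
        ((∫ t in a'..M.s k0, |ut M S m a T k0 t| ^ (p + 1)) +
          (S.C * S.v) ^ (p + 1) * (M.s k0 - a'))) := by
  have a0 : 0 ≤ a' := (s_nn A.cl _).trans ha
  have q1 := A.cl_pow h0 h1 ha hb
    (fun k hk => ⟨(hU k hk).1, (hU k hk).2.1, by linarith [(hU k hk).2.2.1]⟩) p
  refine le_trans ?_ (mul_le_mul_of_nonneg_left q1 (show (0 : ℝ) ≤ 2 ^ (p + 1) by positivity))
  rw [Finset.mul_sum]
  refine Finset.sum_le_sum fun k hk => ?_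
  obtain ⟨k1, k2, k3, k4⟩ := hU k hk
  have w0 := A.dz_nn k
  have kp : k ≤ S.Jp := by have := A.cl.i3; omega
  have key : |sb M m a (k + 1) - M.s k| ≤
      2 * |Pp.Area50.cl a' (M.s k0) (sb M m a (k + 1)) - M.s k| := by
    rcases abs_le_cl (y := 0) (ℓ := -1) ⟨by linarith, A.cl.sm k2⟩ (A.sb_mem kp).1
      (by linarith) (Or.inr (Or.inl k3)) with z | ⟨-, z⟩ | ⟨z, -⟩
    · exact z
    · exact z.trans (by rw [mul_zero]; positivity)
    · linarith [s_nn A.cl k]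
  have := mul_le_mul_of_nonneg_left (pow_le_pow_left₀ (abs_nonneg _) key (p + 1)) w0
  rw [mul_pow, mul_left_comm] at this
  exact this

/-- crude location from a small quartic integral -/
theorem up_loc_74 (A : At S M m a T) {k0 k : ℕ} {t Q : ℝ} (h1 : k0 < S.J) (t0 : 0 < t)
    (hk0 : 7 * t / 4 ≤ M.s k0) (me : 8 * S.C * (S.C * S.v) ≤ t)
    (hQ : ∫ r in t..M.s k0, |ut M S m a T k0 r| ^ 4 ≤ Q) (sm : 8192 * S.C ^ 4 * Q < t ^ 5)
    (hk : S.jl ≤ k) (hs : M.s k ≤ t) : sb M m a (k + 1) ≤ M.s k0 := by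
  by_contra h
  rw [not_le] at h
  have C0 := A.c_pos
  have sJ : M.s k0 < M.s S.J := A.cl.s_lt h1 h1
  have kJ : k < S.J := lt_of_not_ge fun c => by linarith [A.cl.sm c]
  have kp : k ≤ S.Jp := kJ.le.trans A.cl.i3
  have kT : M.s k0 ≤ T := sJ.le.trans A.sJ_T
  have l4 : LB T fun r => |ut M S m a T k0 r| ^ 4 := by
    simpa only [← pow_mul] using (A.LB_ut k0).abs.sq.sq
  have s1 := int_sub_le l4 t0.le (a' := 5 * t / 4) (b' := 7 * t / 4) (by linarith) (by linarith)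
    hk0 kT fun _ _ _ => by positivity
  have s2 := int_mono (LB.const ((t / (8 * S.C)) ^ 4)) l4 (a := 5 * t / 4) (b := 7 * t / 4)
    (by linarith) (by linarith) (hk0.trans kT) fun r r1 r2 => by
      refine pow_le_pow_left₀ (by positivity) ?_ 4
      have b1 : lvr 1 (lb M S m a T) r ≤ M.z k := by
        rw [← A.lvb_node hk kp]; exact Sc48.lvr_mono A.okb.1.1 (by linarith)
      have b2 := (A.sl (b' := r) (by linarith) (M.s k) r (s_nn A.cl k) (by linarith) le_rfl).1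
      rw [A.lvh_node (A.cl.i1.trans hk) kJ] at b2
      have b3 : t / (8 * S.C) ≤ 1 / S.C * (r - M.s k) - S.C * S.v := by
        rw [div_le_iff₀ (by positivity), sub_mul]
        have : 1 / S.C * (r - M.s k) * (8 * S.C) = 8 * (r - M.s k) := by field_simp
        nlinarith
      refine le_trans ?_ (neg_le_abs _)
      unfold ut
      linarith [min_le_left (lvr 1 (lb M S m a T) r) (M.z k0)]
  rw [intervalIntegral.integral_const, smul_eq_mul] at s2
  have e : (7 * t / 4 - 5 * t / 4) * (t / (8 * S.C)) ^ 4 = t ^ 5 / (8192 * S.C ^ 4) := by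
    field_simp; ring
  rw [e, div_le_iff₀ (by positivity)] at s2
  nlinarith [mul_le_mul_of_nonneg_left (s1.trans hQ) (show 0 ≤ 8192 * S.C ^ 4 by positivity)]

set_option maxHeartbeats 800000 in
/-- **location on the blocks below `t` from the energy on `[0, 2 t]`** -/
theorem loc_two_74 (A : At S M m a T) {t t0 t' En Em : ℝ} (ht : 2 * t ≤ M.s S.J)
    (E : ∫ r in (0 : ℝ)..2 * t, Jf T (lvr 1 (lh M T)) (lvr 1 (lb M S m a T)) r ^ 2 ≤ En)
    (ms : ∀ x, 0 ≤ x → x ≤ 2 * t → S.ms x * ∫ r in x..2 * t, uu M S m a T r ^ 2 ≤ Em)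
    (sm : 2 ^ 25 * S.C ^ 8 * (En + (S.C * S.v) ^ 2 * T ^ 3 + (S.C * S.v) ^ 4 * T) < t ^ 5)
    (me : 8 * S.C * (S.C * S.v) ≤ t0) (jl : 2 * M.s S.jl ≤ t0) (h1 : t0 ≤ t') (h2 : t' ≤ t) :
    ∑ k ∈ M.blk S t0 t', L69.dx M k * M.del m a k ^ 2 ≤
      min (4096 * S.C ^ 5 * √(t' * (En + (S.C * S.v) ^ 2 * T ^ 3 + (S.C * S.v) ^ 4 * T)))
        (128 * S.C * (Em / S.ms t0) + 32 * S.C * ((S.C * S.v) ^ 2 * T)) +
      4 * L69.GS M S t0 t' + 4 * (S.C / (m + 1)) ^ 2 := by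
  have C0 := A.c_pos
  have C1 := A.cl.C1
  have v0 := v_pos A.cl
  have T0 := A.T_nn
  set δ := S.C * S.v with hδ
  have δ0 : 0 < δ := by positivity
  have d1 : 8 * δ ≤ t0 := by nlinarith
  have p0 : 0 < t0 := by linarith
  have vd : S.v ≤ δ := by nlinarith
  obtain ⟨k0, k1, k2, k3, k4⟩ := A.cl.exists_node (t := 2 * t - δ) (by linarith) (by linarith)
  have k5 : M.s (k0 + 1) ≤ 2 * t := by linarith [(A.cl.ss k0 k1).2]
  have sJ : M.s k0 < M.s S.J := A.cl.s_lt k1 k1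
  have tT : 2 * t ≤ T := ht.trans A.sJ_T
  have j0l : M.s S.j0 ≤ M.s S.jl := A.cl.sm A.cl.i1
  have k6 : S.j0 ≤ k0 := le_of_not_gt fun c => by linarith [A.cl.sm c.le]
  have En0 : 0 ≤ En := (intervalIntegral.integral_nonneg (by linarith) fun _ _ => sq_nonneg _).trans E
  set W := En + δ ^ 2 * T ^ 3 + δ ^ 4 * T with hW
  have W0 : 0 ≤ W := by positivity
  have four : ∀ x, t0 / 2 ≤ x → x ≤ M.s k0 → ∫ r in x..M.s k0, |ut M S m a T k0 r| ^ 4 ≤
      4096 * S.C ^ 4 * (En + δ ^ 2 * T ^ 3) + 8 * δ ^ 4 * T := fun x x1 x2 => by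
    refine (A.ut_four k6 k1 le_rfl (by linarith) x2 k5 tT fun r hr =>
      A.room_zero (by linarith [hr.1]) (hr.2.trans_lt sJ)).trans ?_
    gcongr
  have c4 : 1 ≤ S.C ^ 4 := one_le_pow₀ C1
  have dT : 0 ≤ δ ^ 4 * T := by positivity
  have f2 : 4096 * S.C ^ 4 * (En + δ ^ 2 * T ^ 3) + 9 * δ ^ 4 * T ≤ 4096 * S.C ^ 4 * W := by
    rw [hW]; nlinarith
  have hU : ∀ k ∈ M.blk S t0 t', S.jl < k ∧ k < S.J ∧ t0 ≤ M.s k ∧ M.s k ≤ t' := fun k hk => by
    obtain ⟨-, q1, q2⟩ := Finset.mem_filter.1 hk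
    exact ⟨lt_of_not_ge fun c => by linarith [A.cl.sm c, s_nn A.cl S.jl],
      lt_of_not_ge fun c => by linarith [A.cl.sm c], q1, q2⟩
  have hU' : ∀ k ∈ M.blk S t0 t', S.j0 < k ∧ k ≤ k0 ∧ 2 * (t0 / 2) ≤ M.s k ∧
      sb M m a (k + 1) ≤ M.s k0 := fun k hk => by
    obtain ⟨q1, q2, q3, q4⟩ := hU k hk
    refine ⟨A.cl.i1.trans_lt q1, le_of_not_gt fun c => by linarith [A.cl.sm c.le], by linarith,
      A.up_loc_74 k1 (by linarith) (by linarith) (by linarith) (four t (by linarith) (by linarith))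
        ?_ q1.le (q4.trans h2)⟩
    refine lt_of_le_of_lt ?_ sm
    have := mul_le_mul_of_nonneg_left (show 4096 * S.C ^ 4 * (En + δ ^ 2 * T ^ 3) + 8 * δ ^ 4 * T ≤
      4096 * S.C ^ 4 * W by linarith) (show 0 ≤ 8192 * S.C ^ 4 by positivity)
    refine this.trans_eq ?_
    ring
  have a1 : M.s S.j0 ≤ t0 / 2 := by linarith
  have a2 : t0 / 2 ≤ M.s k0 := by linarith
  have len : M.s k0 - t0 / 2 ≤ T := by linarith
  have w4 := A.win_in_74 k6 k1 a1 a2 hU' 3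
  have w2 := A.win_in_74 k6 k1 a1 a2 hU' 1
  have wt := A.wt_le_25 (U := M.blk S t0 t') (p := 0) (q := t') (by linarith) fun k hk =>
    ⟨A.cl.i1.trans_lt (hU k hk).1, (hU k hk).2.1, s_nn A.cl k, (hU k hk).2.2.2⟩
  set D2 := ∑ k ∈ M.blk S t0 t', (M.z k - M.z (k - 1)) * |sb M m a (k + 1) - M.s k| ^ (1 + 1)
    with hD2
  have D0 : 0 ≤ D2 := Finset.sum_nonneg fun k _ => mul_nonneg (A.dz_nn k) (by positivity)
  have cs : D2 ^ 2 ≤ (∑ k ∈ M.blk S t0 t', (M.z k - M.z (k - 1))) *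
      ∑ k ∈ M.blk S t0 t', (M.z k - M.z (k - 1)) * |sb M m a (k + 1) - M.s k| ^ (3 + 1) :=
    Finset.sum_sq_le_sum_mul_sum_of_sq_le_mul _ (fun k _ => A.dz_nn k)
      (fun k _ => mul_nonneg (A.dz_nn k) (by positivity)) fun k _ => le_of_eq (by ring)
  have b4 : D2 ≤ 2048 * S.C ^ 5 * √(t' * W) := by
    have tW : 0 ≤ t' * W := mul_nonneg (by linarith) W0
    refine abs_le_of_sq_le_sq' ?_ (by positivity) |>.2
    rw [mul_pow, sq_sqrt tW]
    have x1 : ∑ k ∈ M.blk S t0 t', (M.z k - M.z (k - 1)) ≤ 2 * S.C ^ 2 * t' := by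
      have c2 : 1 ≤ S.C ^ 2 := one_le_pow₀ C1
      have := mul_le_mul_of_nonneg_right c2 (show 0 ≤ t' by linarith)
      rw [sub_zero] at wt
      linarith
    have x2 : (∫ r in t0 / 2..M.s k0, |ut M S m a T k0 r| ^ (3 + 1)) +
        δ ^ (3 + 1) * (M.s k0 - t0 / 2) ≤ 4096 * S.C ^ 4 * W := by
      have := mul_le_mul_of_nonneg_left len (show 0 ≤ δ ^ 4 by positivity)
      linarith [four (t0 / 2) le_rfl a2]
    have x3 := w4.trans (mul_le_mul_of_nonneg_left (mul_le_mul_of_nonneg_left x2 (by positivity))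
      (by positivity))
    refine cs.trans ((mul_le_mul x1 x3 (Finset.sum_nonneg fun k _ =>
      mul_nonneg (A.dz_nn k) (by positivity))
        (mul_nonneg (by positivity) (by linarith))).trans ?_)
    have x4 : S.C ^ 9 * (t' * W) ≤ S.C ^ 10 * (t' * W) :=
      mul_le_mul_of_nonneg_right (pow_le_pow_right₀ C1 (by norm_num)) tW
    push_cast
    have x5 : 0 ≤ S.C ^ 10 * (t' * W) := by positivity
    calc _ = 2 ^ 22 * (S.C ^ 9 * (t' * W)) := by ring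
      _ ≤ 2 ^ 22 * (S.C ^ 10 * (t' * W)) := by linarith
      _ = _ := by ring
  have b2 : D2 ≤ 64 * S.C * (Em / S.ms t0) + 16 * S.C * (δ ^ 2 * T) := by
    have m0 := A.ms_pos p0.le
    have m1 := A.ms_pos (show 0 ≤ t0 / 2 by linarith)
    have m2 := A.cl.ms2 (t0 / 2) (by linarith)
    rw [show 2 * (t0 / 2) = t0 by ring] at m2
    have lu : LB T fun r => uu M S m a T r ^ 2 := A.LB_u.sq
    have y1 : ∫ r in t0 / 2..M.s k0, |ut M S m a T k0 r| ^ (1 + 1) ≤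
        ∫ r in t0 / 2..2 * t, uu M S m a T r ^ 2 := by
      refine (int_mono (A.LB_ut k0).abs.sq lu (by linarith) a2 (by linarith) fun r _ r2 => ?_).trans
        (int_sub_le lu (by linarith) le_rfl a2 (by linarith) tT fun _ _ _ => sq_nonneg _)
      rw [sq_abs]
      exact (A.ut_sign (A.zh_node_25 k6 k1 r2.le)).2.2.2.1
    have y0 : 0 ≤ ∫ r in t0 / 2..2 * t, uu M S m a T r ^ 2 :=
      intervalIntegral.integral_nonneg (by linarith) fun _ _ => sq_nonneg _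
    have y2 : ∫ r in t0 / 2..2 * t, uu M S m a T r ^ 2 ≤ 4 * (Em / S.ms t0) := by
      rw [← mul_div_assoc, le_div_iff₀ m0]
      nlinarith [ms (t0 / 2) (by linarith) (by linarith)]
    have y3 := mul_le_mul_of_nonneg_left len (show 0 ≤ δ ^ 2 by positivity)
    have y4 : (∫ r in t0 / 2..M.s k0, |ut M S m a T k0 r| ^ (1 + 1)) +
        δ ^ (1 + 1) * (M.s k0 - t0 / 2) ≤ 4 * (Em / S.ms t0) + δ ^ 2 * T := by linarith
    refine (w2.trans (mul_le_mul_of_nonneg_left (mul_le_mul_of_nonneg_left y4 (by positivity))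
      (by positivity))).trans_eq ?_
    push_cast
    ring
  have sd := A.sum_del (U := M.blk S t0 t') (fun k hk => (hU k hk).2.1.le.trans A.cl.i3) 1
  have g1 : ∑ k ∈ M.blk S t0 t', (M.z k - M.z (k - 1)) * (|M.G k| + S.C / (m + 1)) ^ (1 + 1) ≤
      2 * L69.GS M S t0 t' + 2 * (S.C / (m + 1)) ^ 2 := by
    have e1 : ∑ k ∈ M.blk S t0 t', (M.z k - M.z (k - 1)) * M.G k ^ 2 ≤ L69.GS M S t0 t' :=
      Finset.sum_le_sum_of_subset_of_nonneg (fun k hk => Finset.mem_filter.2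
        ⟨Finset.mem_Ioo.2 ⟨(hU k hk).1, (hU k hk).2.1⟩, (hU k hk).2.2⟩)
        fun k _ _ => mul_nonneg (A.dz_nn k) (sq_nonneg _)
    have e2 := A.wt_one_25 (U := M.blk S t0 t') fun k hk =>
      ⟨by have := (hU k hk).1; omega, (hU k hk).2.1.le.trans A.cl.i3⟩
    have e3 : ∑ k ∈ M.blk S t0 t', (M.z k - M.z (k - 1)) * (|M.G k| + S.C / (m + 1)) ^ (1 + 1) ≤
        ∑ k ∈ M.blk S t0 t', (2 * ((M.z k - M.z (k - 1)) * M.G k ^ 2) +
          2 * (S.C / (m + 1)) ^ 2 * (M.z k - M.z (k - 1))) := Finset.sum_le_sum fun k _ => by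
      have := A.dz_nn k
      rw [← sq_abs (M.G k)]
      nlinarith [mul_nonneg this (sq_nonneg (|M.G k| - S.C / (m + 1)))]
    rw [Finset.sum_add_distrib, ← Finset.mul_sum, ← Finset.mul_sum] at e3
    nlinarith [sq_nonneg (S.C / (m + 1))]
  have e : ∑ k ∈ M.blk S t0 t', L69.dx M k * M.del m a k ^ 2 =
      ∑ k ∈ M.blk S t0 t', (M.z k - M.z (k - 1)) * |M.rb m a k - M.q k| ^ (1 + 1) :=
    Finset.sum_congr rfl fun k _ => by rw [show 1 + 1 = 2 from rfl, sq_abs]; rfl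
  rw [e]
  have : 2 * D2 ≤ min (4096 * S.C ^ 5 * √(t' * W))
      (128 * S.C * (Em / S.ms t0) + 32 * S.C * (δ ^ 2 * T)) := le_min (by linarith) (by linarith)
  linarith

end At

end Crest.Agent.T156.Alt.Mp9

end
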