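import Crest.Agent.T156.TL1cD_74
import Crest.Agent.T156.LocO_74
import Crest.Agent.T156.Abel_33

/-!
# Row 156, block (L): root lemmas for the upper cuts (helper74)
-/

set_option autoImplicit false

noncomputable section

namespace Crest.Agent.T156.Alt.C74

open MeasureTheory Set Real
open Crest.Agent.R164.GC Crest.Agent.R339.B Crest.Agent.R339.Var Crest.Agent.T157.Pf
open Crest.Agent.T156.Zb9
open Crest.Agent.T156.Cut8 (LB Res Jf int_split int_mono int_le_const int_sub_le)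
open Crest.Agent.T156.Gap27 (HN NumM xi)
open Crest.Agent.T156.Alt.Mp9 Crest.Agent.T156.Alt.L69

theorem num_root {θ B C ρ A A' τ : ℝ} (θ0 : 0 < θ) (θ1 : θ ≤ 1) (B1 : 1 ≤ B) (C1 : 1 ≤ C)
    (ρ0 : 0 ≤ ρ) (A0 : 0 ≤ A) (hA : A ≤ A') (τ0 : 0 < τ) : ∃ f0, 0 ≤ f0 ∧
    Gap27.Num θ 0 f0 (ρ + B * A ^ 2 * (3 * C * A')) 0 (B * A) ∧
    A * f0 ≤ 1296 * (B * C / θ) ^ 4 * (ρ ^ 2 / τ + A' ^ 3 * (A' ^ 2 + τ ^ 2)) := by
  obtain ⟨x, x0, hx⟩ : ∃ x : ℝ, 0 ≤ x ∧ x ^ 3 = ρ / θ :=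
    ⟨(ρ / θ) ^ ((3 : ℕ)⁻¹ : ℝ), by positivity, rpow_inv_natCast_pow (by positivity) (by norm_num)⟩
  have A1 : 0 ≤ A' := A0.trans hA
  have BC : 1 ≤ B * C := one_le_mul_of_one_le_of_one_le B1 C1
  set k := B * C / θ with hk
  have k1 : B * C ≤ k := by rw [hk, le_div_iff₀ θ0]; nlinarith
  have kθ : k * θ = B * C := by rw [hk]; field_simp
  have k0 : 1 ≤ k := BC.trans k1
  have hρ : ρ = θ * x ^ 3 := by rw [hx]; field_simp
  set y := 3 * k * A' with hy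
  have y0 : 0 ≤ y := by positivity
  refine ⟨2 * (x + y) ^ 4, by positivity, Or.inl ⟨x + y, by positivity, ?_, ?_, le_rfl⟩, ?_⟩
  · have e1 : x ^ 3 + y ^ 3 ≤ (x + y) ^ 3 := by nlinarith [mul_nonneg x0 y0]
    have e2 : B * A ^ 2 * (3 * C * A') ≤ θ * y ^ 3 := by
      have a1 : A ^ 2 * A' ≤ A' ^ 3 := by nlinarith [pow_le_pow_left₀ A0 hA 2]
      have a2 : 1 ≤ k ^ 2 := one_le_pow₀ k0
      have a3 : 0 ≤ B * C * A' ^ 3 := by positivity
      calc B * A ^ 2 * (3 * C * A') = 3 * (B * C) * (A ^ 2 * A') := by ring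
        _ ≤ 3 * (B * C) * A' ^ 3 := by gcongr
        _ ≤ 27 * k ^ 2 * (B * C * A' ^ 3) := by nlinarith
        _ = θ * y ^ 3 := by rw [hy, ← kθ]; ring
    nlinarith [mul_le_mul_of_nonneg_left e1 θ0.le]
  · rw [zero_add, div_le_iff₀ θ0]
    have e1 : B * A ≤ (x + y) * θ := by
      have : y * θ = 3 * (B * C) * A' := by rw [hy, ← kθ]; ring
      nlinarith [mul_nonneg x0 θ0.le, mul_le_mul_of_nonneg_left hA (show 0 ≤ B by linarith),
        mul_le_mul_of_nonneg_left C1 (show 0 ≤ B * A' by positivity),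
        show 0 ≤ B * C * A' by positivity]
    nlinarith [pow_le_pow_left₀ (by positivity) e1 2]
  · have e1 : (x + y) ^ 4 ≤ 8 * (x ^ 4 + y ^ 4) := by
      have := add_pow_le x0 y0 4
      norm_num at this
      linarith
    have e2 : A' * x ^ 4 ≤ x ^ 6 / τ + A' ^ 3 * τ ^ 2 := by
      rw [div_add' _ _ _ τ0.ne', le_div_iff₀ τ0]
      have p := mul_nonneg A1 τ0.le
      have q : 0 ≤ x ^ 2 := sq_nonneg x
      rcases le_total (A' * τ) (x ^ 2) with h | h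
      · nlinarith [mul_le_mul_of_nonneg_right h (show 0 ≤ x ^ 4 by positivity), pow_nonneg p 3]
      · nlinarith [mul_le_mul_of_nonneg_left (pow_le_pow_left₀ q h 2) p, pow_nonneg x0 6]
    have e3 : x ^ 6 ≤ k ^ 4 * ρ ^ 2 := by
      have a1 : 1 ≤ k ^ 4 * θ ^ 2 := by
        have : k ^ 4 * θ ^ 2 = k ^ 2 * (B * C) ^ 2 := by rw [← kθ]; ring
        rw [this]
        exact one_le_mul_of_one_le_of_one_le (one_le_pow₀ k0) (one_le_pow₀ BC)
      rw [hρ]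
      nlinarith [pow_nonneg x0 6]
    have e4 : x ^ 6 / τ ≤ k ^ 4 * (ρ ^ 2 / τ) := by
      rw [← mul_div_assoc]; gcongr
    have k4 : 1 ≤ k ^ 4 := one_le_pow₀ k0
    have p1 : 0 ≤ A' ^ 3 * τ ^ 2 := by positivity
    have p2 : 0 ≤ k ^ 4 * (ρ ^ 2 / τ) := by positivity
    have p3 : A' * y ^ 4 = 81 * (k ^ 4 * A' ^ 5) := by rw [hy]; ring
    have p4 := mul_le_mul hA e1 (by positivity) A1
    nlinarith [mul_le_mul_of_nonneg_right k4 p1]

variable {S : Sc} {M : Md} {m : ℕ} {a T : ℝ}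

theorem l_le_ts (S : Sc) (l : ℝ) : l ≤ ts S l := le_max_left _ _

theorem ts_sq (h : Cl S M) {l : ℝ} (l0 : 0 < l) :
    S.F * S.ms l ≤ ts S l ^ 2 ∧ ts S l ^ 2 ≤ l ^ 2 + S.F * S.ms l := by
  have p : 0 ≤ S.F * S.ms l := mul_nonneg (by linarith [h.F1]) (h.ms_pos l0.le).le
  refine ⟨(sq_sqrt p).symm.trans_le (pow_le_pow_left₀ (sqrt_nonneg _) (le_max_right _ _) 2), ?_⟩
  unfold ts
  rcases le_total l (√(S.F * S.ms l)) with c | c
  · rw [max_eq_right c, sq_sqrt p]; nlinarith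
  · rw [max_eq_left c]; linarith

theorem cc_le_ts (h : Cl S M) {l : ℝ} (l0 : 0 < l) : cr S l * l ≤ ts S l := by
  have t1 := l_le_ts S l
  refine le_of_pow_le_pow_left₀ three_ne_zero (by linarith) ?_
  rw [Ab33.cc_cube h l0]
  exact max_le (pow_le_pow_left₀ l0.le t1 3)
    (by nlinarith [mul_le_mul (ts_sq h l0).1 t1 l0.le (sq_nonneg _)])

theorem W0_nn (h : Cl S M) {l : ℝ} (l0 : 0 < l) : 0 ≤ W0 S l := by
  have := h.ms_pos l0.le
  unfold W0; positivity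

theorem rho_le (h : Cl S M) {l L A ρ X2 t : ℝ} (l0 : 0 < l) (L1 : 1 ≤ L) (ρ0 : 0 ≤ ρ) (A0 : 0 ≤ A)
    (hA : A ≤ L * (cr S l * l)) (hρ : ρ ≤ L * ((A + l) * X2 + l * (cr S l * l) ^ 2))
    (ht : ts S l ≤ t) : ρ ^ 2 / ts S l ≤ 8 * L ^ 4 * (t * X2 ^ 2 + S.F * W0 S l) := by
  have c1 := cc_le_ts h l0
  have c2 : l ≤ cr S l * l := by nlinarith [Ab33.cr_one S l]
  have c3 := Ab33.cc_cube h l0
  have F1 := h.F1
  have m0 := h.ms_pos l0.le
  generalize cr S l * l = c at *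
  have c0 : 0 < c := by linarith
  have τ0 : 0 < ts S l := by linarith
  generalize ts S l = τ at *
  have c4 : l ^ 2 * c ^ 3 ≤ S.F * W0 S l := by
    have : c ^ 3 ≤ S.F * l ^ 3 + S.F * S.ms l * l := c3 ▸ max_le
      (by nlinarith [pow_pos l0 3, show 0 ≤ S.F * S.ms l * l by positivity])
      (by nlinarith [show 0 ≤ S.F * l ^ 3 by positivity])
    unfold W0
    nlinarith [mul_le_mul_of_nonneg_left this (sq_nonneg l)]
  have a1 : (A + l) ^ 2 ≤ 4 * L ^ 2 * (t * τ) := by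
    have b1 : A + l ≤ 2 * L * c := by nlinarith
    have b2 : c ^ 2 ≤ t * τ := by nlinarith
    nlinarith [pow_le_pow_left₀ (by linarith) b1 2, mul_le_mul_of_nonneg_left b2 (sq_nonneg L)]
  have a2 : (l * c ^ 2) ^ 2 ≤ L ^ 2 * (S.F * W0 S l * τ) := by
    have b1 : l ^ 2 * c ^ 3 * c ≤ S.F * W0 S l * τ := mul_le_mul c4 c1 c0.le
      ((by positivity : 0 ≤ l ^ 2 * c ^ 3).trans c4)
    have b2 : 1 ≤ L ^ 2 := one_le_pow₀ L1
    have b3 : 0 ≤ S.F * W0 S l * τ := (by positivity : 0 ≤ l ^ 2 * c ^ 3 * c).trans b1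
    nlinarith
  rw [div_le_iff₀ τ0]
  have a3 := pow_le_pow_left₀ ρ0 hρ 2
  have a4 : ((A + l) * X2 + l * c ^ 2) ^ 2 ≤ 2 * ((A + l) ^ 2 * X2 ^ 2) + 2 * (l * c ^ 2) ^ 2 := by
    nlinarith [sq_nonneg ((A + l) * X2 - l * c ^ 2)]
  have a5 := mul_le_mul_of_nonneg_right a1 (sq_nonneg X2)
  have a6 : ((A + l) * X2 + l * c ^ 2) ^ 2 ≤ 8 * L ^ 2 * (t * X2 ^ 2 + S.F * W0 S l) * τ := by
    have : 0 ≤ L ^ 2 * (S.F * W0 S l * τ) := (sq_nonneg _).trans a2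
    nlinarith
  rw [mul_pow] at a3
  nlinarith [mul_le_mul_of_nonneg_left a6 (sq_nonneg L)]

theorem rho_le2 (h : Cl S M) {l L A ρ X2 t Y : ℝ} (l0 : 0 < l) (L1 : 1 ≤ L) (ρ0 : 0 ≤ ρ)
    (A0 : 0 ≤ A) (Y0 : 0 ≤ Y) (hA : A ≤ L * (cr S l * l))
    (hρ : ρ ≤ L * ((A + l) * X2 + l * (cr S l * l) ^ 2 + √(A * Y))) (ht : ts S l ≤ t) :
    ρ ^ 2 / ts S l ≤ 16 * L ^ 4 * (t * X2 ^ 2 + S.F * W0 S l) + 2 * L ^ 3 * Y := by
  have τ0 : 0 < ts S l := l0.trans_le (l_le_ts S l)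
  have q0 : 0 ≤ L * √(A * Y) := by positivity
  have q1 := rho_le h l0 L1 (le_max_right (ρ - L * √(A * Y)) 0) A0 hA (X2 := |X2|) (max_le
    (by nlinarith [mul_le_mul_of_nonneg_left (mul_le_mul_of_nonneg_left (le_abs_self X2)
      (show 0 ≤ A + l by linarith)) (show 0 ≤ L by linarith)]) (by positivity)) ht
  rw [sq_abs, div_le_iff₀ τ0] at q1
  have q2 : ρ ≤ max (ρ - L * √(A * Y)) 0 + L * √(A * Y) := by
    linarith [le_max_left (ρ - L * √(A * Y)) 0]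
  have q3 : (L * √(A * Y)) ^ 2 ≤ L ^ 3 * Y * ts S l := by
    rw [mul_pow, sq_sqrt (by positivity)]
    have := mul_le_mul_of_nonneg_left (hA.trans (mul_le_mul_of_nonneg_left (cc_le_ts h l0)
      (by linarith))) (show 0 ≤ L ^ 2 * Y by positivity)
    linarith
  rw [div_le_iff₀ τ0]
  nlinarith [pow_le_pow_left₀ ρ0 q2 2, sq_nonneg (max (ρ - L * √(A * Y)) 0 - L * √(A * Y))]

theorem mm_le_Mx (A : At S M m a T) {r : ℝ} (r0 : 0 ≤ r) : mm M S m a r ≤ Mx M S m a r := by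
  have C1 := A.cl.C1
  have F1 := A.cl.F1
  have p := A.ms_pos (r0.trans (At.le_lev (M := M) (S := S) (m := m) (a := a) r))
  have c5 : 1 ≤ S.C ^ 5 * S.F := one_le_mul_of_one_le_of_one_le (one_le_pow₀ C1) F1
  have c2 : 1 ≤ S.C ^ 2 * S.F := one_le_mul_of_one_le_of_one_le (one_le_pow₀ C1) F1
  unfold mm Mx
  exact (div_le_self p.le (by linarith)).trans (by nlinarith)

theorem mass (A : At S M m a T) {r : ℝ} (r0 : 0 ≤ r) :
    mm M S m a r * uu M S m a T r ^ 2 ≤ HH M S m a T r * uu M S m a T r :=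
  two_floor (mm_le_Mx A r0) _ _

theorem H_sq (A : At S M m a T) {r : ℝ} (r0 : 0 ≤ r) :
    HH M S m a T r ^ 2 ≤ Mx M S m a r * (HH M S m a T r * uu M S m a T r) :=
  two_sq (A.mm_pos r0).le (mm_le_Mx A r0) _ _

theorem Hu_nn (A : At S M m a T) {r : ℝ} (r0 : 0 ≤ r) : 0 ≤ HH M S m a T r * uu M S m a T r :=
  (mul_nonneg (A.mm_pos r0).le (sq_nonneg _)).trans (mass A r0)

theorem lev_le (A : At S M m a T) {u : ℕ} {r w : ℝ} (ju : S.jl < u) (uJ : u < S.J)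
    (h1 : sb M m a (u + 1) ≤ r) (h2 : r < M.s S.J) (hw : |uu M S m a T r| ≤ w)
    (sm : S.C * (S.C * r + 2 * (S.C * S.v) + w) < 1) :
    lev M S m a r ≤ r + S.C * (w + S.C * S.v) := by
  have C0 := A.c_pos
  have v0 := v_pos A.cl
  have r0 : 0 ≤ r := (A.sb_mem (uJ.le.trans A.cl.i3)).1.trans h1
  obtain ⟨k, c⟩ := exists_Cell A.ub r
  have k1 : u + 1 ≤ k := le_of_not_gt fun h => by
    have := c.2.2 (by have := A.cl.i3; omega)
    linarith [A.sb_mono (show k + 1 ≤ u + 1 by omega)]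
  obtain ⟨y, rfl⟩ : ∃ y, k = y + 1 := ⟨k - 1, by omega⟩
  have yJ : y < S.J := lt_of_not_ge fun h => by
    have e := A.lvb_cell c
    have z1 := A.cl.leg.zm (show S.J - 1 ≤ y by omega)
    have z2 := A.cl.atom.1
    have z3 := A.zh_le' r0 h2
    have z4 := (le_abs_self _).trans hw
    unfold uu at z4
    rw [div_le_iff₀ C0] at z2
    nlinarith
  have d := A.dist_le c (by have := A.cl.i1; omega) yJ r0 h2
  have w0 := (abs_nonneg _).trans hw
  rw [A.lev_cell c]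
  refine max_le (by nlinarith [mul_pos C0 v0]) ?_
  nlinarith [neg_abs_le (r - M.s y)]

theorem mm_root (A : At S M m a T) {u : ℕ} {r l : ℝ} (ju : S.jl < u) (uJ : u < S.J)
    (hl : l ≤ M.s u) (h1 : sb M m a (u + 1) ≤ r) :
    S.ms l ≤ 384 * S.C ^ 5 * S.F * mm M S m a r := by
  have e := A.lev_cell (A.cell ju.le (uJ.le.trans A.cl.i3))
  have := A.cl.msm ((hl.trans (le_max_right _ _)).trans (e ▸ A.lev_mono h1))
  unfold mm
  rwa [mul_div_cancel₀ _ A.K_pos.ne']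

/-- labels below the first good node -/
theorem root_D (A : At S M m a T) {u : ℕ} {x : ℝ} (ju : S.jl < u) (uJ : u < S.J)
    (h1 : sb M m a (u + 1) < M.s S.J) (h2 : sb M m a (u + 1) ≤ x) (h3 : M.s u ≤ x)
    (h4 : S.C * S.v ≤ x) : lvr 1 (lb M S m a T) (sb M m a (u + 1)) ≤ 3 * S.C * x ∧
      lvr 1 (lh M T) (sb M m a (u + 1)) ≤ 3 * S.C * x ∧
      ∀ r, 0 ≤ r → r ≤ sb M m a (u + 1) → |uu M S m a T r| ≤ 3 * S.C * x := by
  have C0 := A.c_pos
  have C1 := A.cl.C1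
  have v0 := v_pos A.cl
  have up := uJ.le.trans A.cl.i3
  have x0 : S.C * S.v ≤ S.C * x := by nlinarith [mul_pos C0 v0]
  have a1 : lvr 1 (lb M S m a T) (sb M m a (u + 1)) ≤ 3 * S.C * x := by
    rw [A.lvb_node ju.le up]
    nlinarith [(A.cl.z_s (A.cl.i1.trans ju.le) uJ).2]
  have a2 : lvr 1 (lh M T) (sb M m a (u + 1)) ≤ 3 * S.C * x := by
    nlinarith [A.zh_le' (A.sb_mem up).1 h1]
  refine ⟨a1, a2, fun r _ r1 => abs_le.2 ⟨?_, ?_⟩⟩
  · unfold uu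
    linarith [Sc48.lvr_mono A.okh.1.1 r1, Sc48.lvr_pos A.okb.1.1 r]
  · unfold uu
    linarith [Sc48.lvr_mono A.okb.1.1 r1, Sc48.lvr_pos A.okh.1.1 r]

/-- the area near the root -/
theorem ar_le (A : At S M m a T) {u : ℕ} {l ρ ε D t b : ℝ} (ju : S.jl < u) (uJ : u < S.J)
    (lH : LB T (HH M S m a T)) (l0 : 0 < l) (hl : l ≤ M.s u) (ρ0 : 0 ≤ ρ) (ε0 : 0 < ε)
    (ε1 : ε * (384 * S.C ^ 5 * S.F ^ 2) ≤ 1 / 8) (h1 : sb M m a (u + 1) ≤ t) (h2 : ts S l ≤ t)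
    (h3 : t ≤ b) (h4 : b ≤ T)
    (hD : ∀ r, 0 ≤ r → r ≤ sb M m a (u + 1) → |uu M S m a T r| ≤ D) :
    ρ * ∫ r in (0 : ℝ)..ts S l, |uu M S m a T r| ≤ (ρ * (sb M m a (u + 1) * D) +
      ρ ^ 2 / ts S l / ε + ε * (l ^ 4 * ts S l + ∫ r in (0 : ℝ)..b, uu M S m a T r ^ 4)) +
      (∫ r in sb M m a (u + 1)..t, HH M S m a T r * uu M S m a T r) / 16 := by
  have x0 := (A.sb_mem (uJ.le.trans A.cl.i3)).1
  have τ0 : 0 < ts S l := l0.trans_le (l_le_ts S l)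
  have τ2 := (ts_sq A.cl l0).2
  have hm := fun r => mm_root A ju uJ hl (r := r)
  have F0 : 0 ≤ S.F := by linarith [A.cl.F1]
  generalize sb M m a (u + 1) = x at *
  generalize ts S l = τ at *
  have lu : LB T (uu M S m a T) := A.LB_u
  have l4 : LB T fun r => uu M S m a T r ^ 4 := by simpa only [← pow_mul] using lu.sq.sq
  have tT : t ≤ T := h3.trans h4
  have m1 : max τ x ≤ t := max_le h2 h1
  have m2 : x ≤ max τ x := le_max_right _ _
  have m3 : max τ x - x ≤ τ := by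
    rcases le_total τ x with c | c
    · rw [max_eq_right c]; linarith
    · rw [max_eq_left c]; linarith
  have s1 := int_sub_le lu.abs le_rfl le_rfl τ0.le (le_max_left τ x) (m1.trans tT)
    fun _ _ _ => abs_nonneg _
  rw [int_split lu.abs (b := x) (c := max τ x) ⟨le_rfl, x0.trans (h1.trans tT)⟩ ⟨x0, h1.trans tT⟩
    ⟨x0.trans m2, m1.trans tT⟩] at s1
  have s2 := int_le_const lu.abs le_rfl x0 (h1.trans tT) fun r r0 r1 => hD r r0.le r1.le
  have i : ∀ {g : ℝ → ℝ}, LB T g → IntervalIntegrable g volume x (max τ x) := fun hg =>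
    hg.ii ⟨x0, h1.trans tT⟩ ⟨x0.trans m2, m1.trans tT⟩
  have s3 := int_mono ((LB.const ρ).mul lu.abs)
    (((LB.const (ρ ^ 2 / τ ^ 2 / ε + ε * l ^ 4)).add ((LB.const ε).mul l4)).add
      ((LB.const (1 / 16)).mul (lH.mul lu))) x0 m2 (m1.trans tT) fun r r1 _ => by
      have q0 := mass A (x0.trans r1.le)
      have q1 := Hu_nn A (x0.trans r1.le)
      have q2 := hm r r1.le
      generalize HH M S m a T r * uu M S m a T r = h at *
      rw [← sq_abs (uu M S m a T r)] at q0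
      rw [show uu M S m a T r ^ 4 = |uu M S m a T r| ^ 4 by
        rw [← abs_pow, abs_of_nonneg (by positivity)]]
      generalize |uu M S m a T r| = w at *
      have e1 : ρ * w ≤ ρ ^ 2 / τ ^ 2 / ε + ε * (τ ^ 2 * w ^ 2) / 4 := by
        have : ρ ^ 2 / τ ^ 2 / ε + ε * (τ ^ 2 * w ^ 2) / 4 - ρ * w =
            (ρ / τ - ε * τ * w / 2) ^ 2 / ε := by field_simp; ring
        linarith [show 0 ≤ (ρ / τ - ε * τ * w / 2) ^ 2 / ε by positivity]
      have e2 : S.F * S.ms l * w ^ 2 ≤ 384 * S.C ^ 5 * S.F ^ 2 * h := by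
        have := mul_le_mul_of_nonneg_left q0 (mul_nonneg F0 A.K_pos.le)
        nlinarith [mul_le_mul_of_nonneg_left q2 (mul_nonneg F0 (sq_nonneg w))]
      have e3 : τ ^ 2 * w ^ 2 ≤ l ^ 4 + w ^ 4 + 384 * S.C ^ 5 * S.F ^ 2 * h := by
        nlinarith [mul_le_mul_of_nonneg_right τ2 (sq_nonneg w), sq_nonneg (l ^ 2 - w ^ 2),
          pow_nonneg l0.le 4, sq_nonneg (w ^ 2)]
      nlinarith [mul_le_mul_of_nonneg_left e3 ε0.le, mul_le_mul_of_nonneg_right ε1 q1,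
        mul_nonneg ε0.le (pow_nonneg l0.le 4), mul_nonneg ε0.le (sq_nonneg (w ^ 2))]
  rw [intervalIntegral.integral_const_mul, intervalIntegral.integral_add
    (i ((LB.const _).add ((LB.const ε).mul l4))) (i ((LB.const _).mul (lH.mul lu))),
    intervalIntegral.integral_add (i (LB.const _)) (i ((LB.const ε).mul l4)),
    intervalIntegral.integral_const_mul, intervalIntegral.integral_const_mul,
    intervalIntegral.integral_const, smul_eq_mul] at s3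
  have s4 := int_sub_le l4 le_rfl x0 m2 (m1.trans h3) h4 fun _ _ _ => by positivity
  have s5 := int_sub_le (lH.mul lu) x0 le_rfl m2 m1 tT fun r r1 _ => Hu_nn A (x0.trans r1.le)
  have s6 := mul_le_mul_of_nonneg_right m3 (show 0 ≤ ρ ^ 2 / τ ^ 2 / ε + ε * l ^ 4 by positivity)
  have e : τ * (ρ ^ 2 / τ ^ 2 / ε + ε * l ^ 4) = ρ ^ 2 / τ / ε + ε * (l ^ 4 * τ) := by
    field_simp
  rw [sub_zero] at s2
  nlinarith [mul_le_mul_of_nonneg_left s1 ρ0, mul_le_mul_of_nonneg_left s2 ρ0,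
    mul_le_mul_of_nonneg_left s4 ε0.le]

/-- the mass integral down to the root -/
theorem mass_loc (A : At S M m a T) {u : ℕ} {D b : ℝ} (uJ : u < S.J)
    (lH : LB T (HH M S m a T)) (h1 : sb M m a (u + 1) ≤ b) (h4 : b ≤ T)
    (hD : ∀ r, 0 ≤ r → r ≤ sb M m a (u + 1) → |uu M S m a T r| ≤ D) {x : ℝ} (x0 : 0 ≤ x)
    (xb : x ≤ b) : S.ms x * ∫ r in x..b, uu M S m a T r ^ 2 ≤
      S.ms (sb M m a (u + 1)) * (sb M m a (u + 1) * D ^ 2) +
      384 * S.C ^ 5 * S.F * ∫ r in sb M m a (u + 1)..b, HH M S m a T r * uu M S m a T r := by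
  have y0 := (A.sb_mem (uJ.le.trans A.cl.i3)).1
  generalize sb M m a (u + 1) = y at *
  have lu : LB T (uu M S m a T) := A.LB_u
  have K0 := A.K_pos
  have key : ∀ p, x ≤ p → y ≤ p → p ≤ b → S.ms x * ∫ r in p..b, uu M S m a T r ^ 2 ≤
      384 * S.C ^ 5 * S.F * ∫ r in y..b, HH M S m a T r * uu M S m a T r := fun p p1 p2 p3 => by
    refine le_trans ?_ (mul_le_mul_of_nonneg_left (int_sub_le (lH.mul lu) y0 p2 p3 le_rfl h4
      fun r r1 _ => Hu_nn A (y0.trans r1.le)) K0.le)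
    rw [← intervalIntegral.integral_const_mul, ← intervalIntegral.integral_const_mul]
    refine int_mono ((LB.const _).mul lu.sq) ((LB.const _).mul (lH.mul lu)) (x0.trans p1) p3 h4
      fun r r1 _ => ?_
    have q := A.mm_ge r
    rw [div_le_iff₀ K0] at q
    nlinarith [mul_le_mul_of_nonneg_left (mass A (x0.trans (p1.trans r1.le))) K0.le,
      mul_le_mul_of_nonneg_right ((A.cl.msm (p1.trans r1.le)).trans q) (sq_nonneg (uu M S m a T r))]
  have m0 := A.ms_pos y0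
  rcases le_total y x with c | c
  · linarith [key x le_rfl c xb, show 0 ≤ S.ms y * (y * D ^ 2) by positivity]
  · rw [int_split lu.sq (b := y) ⟨x0, xb.trans h4⟩ ⟨y0, h1.trans h4⟩ ⟨x0.trans xb, h4⟩, mul_add]
    refine add_le_add (mul_le_mul (A.cl.msm c) ((int_le_const lu.sq x0 c (h1.trans h4)
      (K := D ^ 2) fun r r0 r1 => ?_).trans (by nlinarith [sq_nonneg D]))
      (intervalIntegral.integral_nonneg c fun _ _ => sq_nonneg _) m0.le) (key y c le_rfl h1)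
    rw [← sq_abs]
    exact pow_le_pow_left₀ (abs_nonneg _) (hD r (x0.trans r0.le) r1.le) 2

end Crest.Agent.T156.Alt.C74

end
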