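import Crest.Agent.T156.TkED_94
import Crest.Agent.T156.TL1cA_74
import Crest.Agent.T156.GapB_27
import Crest.Agent.T156.ClReg_29

/-!
# Row 156, block (L): the energy above a lower cut (TkE) from the bulk (helper94)
-/

set_option autoImplicit false

noncomputable section

namespace Crest.Agent.T156.Alt.L63

open MeasureTheory Set Real
open Crest.Agent.R164.GC Crest.Agent.R339.B Crest.Agent.R339.Var Crest.Agent.T157.Pf
open Crest.Agent.T156.Cut8
open Crest.Agent.T156.Alt.Mp9 Crest.Agent.T156.Alt.L69 Crest.Agent.T156.Alt.C74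

theorem ex_steps {n L : ℝ} (n0 : 1 ≤ n) (h : log n ≤ L) (L2 : 2 ≤ L) :
    ∃ k : ℕ, n ^ 2 ≤ 2 ^ k ∧ (k : ℝ) + 1 ≤ 5 * L := by
  have l0 := log_nonneg n0
  refine ⟨⌈4 * log n⌉₊, ?_, by linarith [Nat.ceil_lt_add_one (show 0 ≤ 4 * log n by linarith)]⟩
  have e : exp (1 / 2) ≤ 2 := by
    refine le_of_sq_le_sq (h := ?_) (by norm_num)
    rw [← exp_nat_mul]
    norm_num
    linarith [exp_one_lt_d9]
  calc n ^ 2 = exp (2 * log n) := by
        rw [show 2 * log n = (2 : ℕ) * log n by norm_num, exp_nat_mul, exp_log (by linarith)]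
    _ ≤ exp (⌈4 * log n⌉₊ * (1 / 2)) := exp_le_exp.2 (by linarith [Nat.le_ceil (4 * log n)])
    _ ≤ _ := by rw [exp_nat_mul]; exact pow_le_pow_left₀ (exp_pos _).le e _

variable {E L : ℝ} {S : Sc} {M : Md} {m : ℕ} {a G1 u1 u2 j γ Lc ηc τ l0 l X Xp Vt Lg Lp X2 X3 X4
  G0 : ℝ} {η : ℝ → ℝ} {N : ℝ} {g : ℝ → ℝ} {t1 tu ℓ En p0 : ℝ}

namespace Cx

variable (H : Cx E L S M m a G1 u1 u2 j γ Lc ηc τ l0 l X Xp Vt Lg Lp X2 X3 X4 G0 η N g t1 tu ℓ
  En p0)
include H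

theorem u20 : 0 ≤ u2 := by
  linarith [H.lp.u1a, H.lp.u1b.1, H.cl.last, H.cl.leg.z1 (S.Jp - 1)]

theorem N_le : N ≤ En := by
  have t0 := H.t10
  have c0 : 0 ≤ cB M S η (t1 / 2) S.C := Finset.sum_nonneg fun k _ => by
    have := mf_pos H.cl (H.cl.s_nn k)
    have := cr1 S (M.s k)
    have : 0 ≤ min (|M.G k| ^ ((4 : ℝ) / 3)) (M.G k ^ 2 / mf S (M.s k)) :=
      le_min (by positivity) (by positivity)
    exact mul_nonneg (dx_nn H.cl k) (by positivity)
  have x0 : 0 ≤ X4 := by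
    have := H.w30 t0
    have c := t0.trans_le (H.cl_ge t0.le)
    have : 0 ≤ ws S (X ^ ((1 : ℝ) / 3)) t1 := by unfold ws; positivity
    have : 0 ≤ min X (L69.cl S (X ^ ((1 : ℝ) / 3)) t1 ^ 3) := le_min H.ln.X0.le (by positivity)
    exact le_trans (by positivity) (H.lt.x4 t1 (by linarith) (H.t11.trans H.cl.C1))
  have a2 : 0 ≤ l ^ 3 * X := (mul_pos (pow_pos H.l0' 3) H.ln.X0).le
  have a3 : 0 ≤ (S.ms t1 * bs S Lg X2 (g t1) η t1) ^ 2 / t1 := by positivity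
  linarith [H.lt.en, sq_nonneg X2]

theorem γ3 : (M.s S.Jp - M.s S.J) ^ 3 ≤ En := by
  have s0 := sub_nonneg.2 (H.cl.sm H.cl.i3)
  have g0 := s0.trans H.lp.γ0
  have g1 : γ ≤ 1 := by simpa using H.dv H.E1 g0 H.lp.γ1
  have e0 : 0 ≤ η 1 := H.μ0.le.trans (H.μη H.l1 H.cl.C1)
  have := H.X20
  have := H.u20
  have := H.cl.θ0
  have p : γ ^ 3 ≤ γ ^ ((15 : ℝ) / 7) := by
    rw [← rpow_natCast]
    exact rpow_le_rpow_of_exponent_ge' g0 g1 (by norm_num) (by norm_num)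
  refine (pow_le_pow_left₀ s0 H.lp.γ0 3).trans (p.trans (le_trans ?_ (H.lp.c4.trans H.N_le)))
  exact le_add_of_nonneg_left (by positivity)

theorem lev_le {t : ℝ} (ht : t ≤ 3 / 2 * t1) : lev M S m a t ≤ 2 * t1 := by
  have t0 := H.t10
  have tu := H.t1u
  have l2 := H.lt.t1a
  have cv : 1000 * (S.C * S.v) ≤ t1 := by linarith [H.Cv, H.μ1, H.l0']
  obtain ⟨k, -, k2, k3, k4⟩ := H.A.exists_ref (i := 0) (j := S.J) (t := 7 / 4 * t1)
    (by rw [H.cl.s0]; linarith) (by linarith [H.lt.tu1])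
  have q := (H.cl.ss k k2).2
  have c4 : 8 * S.C ^ 3 * t1 ≤ S.C :=
    H.dv (H.KE 3 (by norm_num)) t0.le (H.lt.t1b.trans H.tuC)
  have C0 := H.cl.C0
  obtain ⟨p1, p2⟩ := H.dsb_cr (k := k) (by linarith) (by linarith [H.ℓu])
  have p3 := p2 (by
    rw [le_div_iff₀ (by positivity)]
    refine le_of_mul_le_mul_left ?_ C0
    nlinarith [mul_le_mul_of_nonneg_left k3 (show 0 ≤ S.C ^ 3 by positivity)])
  have jk := (H.idx (k := k) (by linarith) (by linarith)).1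
  refine (H.A.lev_mono (show t ≤ sb M m a (k + 1) by linarith)).trans ?_
  rw [H.A.lev_cell (H.A.cell jk.le (k2.le.trans H.cl.i3))]
  exact max_le (by linarith) (by linarith)

set_option maxHeartbeats 1600000 in
/-- the data of the nest -/
theorem lw {θ κ K s ε W : ℝ} (κ1 : κ ≤ 1) (hκ : 1 ≤ κ * L) (K0 : 0 ≤ K) (hK : K ≤ L)
    (v4 : S.v ≤ 1 / (S.n : ℝ) ^ 4) (B : Bw E L θ S M m a t1 u2 En s) (hW : En ≤ W) (εW : ε ^ 2 ≤ W)
    (hε : ∫ t in (0 : ℝ)..2 * t1, |Jq S M m a t| ≤ ε)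
    (c1 : ∀ t, t1 ≤ t → t ≤ 2 * t1 → L ^ 13 * |uq S M m a t| ≤ t1)
    (c2 : ∀ t, t1 ≤ t → t ≤ 2 * S.C → |Jq S M m a t| ≤ 10 * S.C * √X) :
    ∃ b γ' g' Gm M' j0 δ μ n, Lw (2 * S.C) θ κ K (1536 * S.C ^ 7) (1 / S.C) S.C
      (lvr 1 (lh M (2 * S.C))) (lvr 1 (lb M S m a (2 * S.C)))
      (fun t => Pr.Gam (lb M S m a (2 * S.C)) t - Pr.Gam (lh M (2 * S.C)) t)
      (HH M S m a (2 * S.C)) (mm M S m a) (5 / 4 * t1) (3 / 2 * t1) s b γ' g' Gm M' j0 δ μ (L * W) ε n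
      (fun E' Y => L25.QT S M m a (2 * S.C) s (L * u2) L E' (E' + En) Y) := by
  obtain ⟨s1, s2, zs, bk⟩ := B
  have A := H.A
  have t0 := H.t10
  have t11 := H.t11
  have L9 := H.L9
  have L1 := H.L1
  have L0 : 0 < L := by linarith
  have E0 : 0 < E := by linarith [H.E1]
  have C1 := H.cl.C1
  have C0 := H.cl.C0
  have v0 := H.cl.v0
  have i2 := H.cl.i2
  have i1 := H.cl.i1
  have l2 := H.lt.t1a
  have ll := H.l0'
  have μ0 := H.μ0
  have κ0 : 0 < κ := by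
    by_contra q
    linarith [mul_nonpos_of_nonpos_of_nonneg (not_lt.1 q) L0.le]
  have W0 : 0 ≤ W := (sq_nonneg _).trans εW
  have WL : W ≤ L * W := le_mul_of_one_le_left W0 L1
  have sC : M.s S.J ≤ S.C := H.cl.s_le_C H.cl.i3
  have tC : 2 * t1 ≤ S.C := by linarith
  have n0 := H.cl.N0
  have n1 : (1 : ℝ) ≤ S.n := by
    have := H.μ1.trans H.l1
    rwa [div_le_one n0] at this
  obtain ⟨n, hn, hn'⟩ := ex_steps n1 H.lg (by linarith)
  obtain ⟨g', hg⟩ : ∃ g', g' = t1 / (100 * L) := ⟨_, rfl⟩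
  have g0 : 0 < g' := by rw [hg]; positivity
  have eg : t1 = 100 * L * g' := by rw [hg]; field_simp
  have kg : g' ≤ L * (κ * g') := by nlinarith
  have b1 : max s (M.s (S.J - 1)) < M.s S.J := max_lt s2 (by
    have := s_lt H.cl (k := S.J - 1) (by omega)
    rwa [show S.J - 1 + 1 = S.J by omega] at this)
  have cv1 : S.C * S.v ≤ 1 := by linarith [H.Cv, H.μ1, H.l1]
  have μv : (S.C * S.v) ^ 2 * (2 * S.C) ^ 3 + (S.C * S.v) ^ 4 * (2 * S.C) + S.C * S.v / S.C ≤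
      L * (1 / S.n) ^ 4 := by
    have cv0 : 0 ≤ S.C * S.v := by positivity
    have a1 := mul_le_mul_of_nonneg_right (pow_le_of_le_one cv0 cv1 two_ne_zero)
      (show 0 ≤ (2 * S.C) ^ 3 by positivity)
    have a2 := mul_le_mul_of_nonneg_right (pow_le_of_le_one cv0 cv1 four_ne_zero)
      (show 0 ≤ 2 * S.C by positivity)
    have a3 := mul_le_mul_of_nonneg_right (H.KL (c := 24) 4 (by norm_num)) v0.le
    have a4 := mul_le_mul_of_nonneg_right (H.KL (c := 6) 2 (by norm_num)) v0.le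
    have a5 := mul_le_mul_of_nonneg_right (show 3 ≤ L by linarith) v0.le
    have a6 := mul_le_mul_of_nonneg_left v4 L0.le
    rw [mul_div_cancel_left₀ _ C0.ne', one_div_pow]
    linarith
  have μ1 : 1 / (S.n : ℝ) ≤ 1 := H.μ1.trans H.l1
  have nE : E ^ 2 * (1 / S.n) ≤ t1 ^ 2 := H.μl.trans (pow_le_pow_left₀ ll.le (by linarith) 2)
  have lH : LB (2 * S.C) (HH M S m a (2 * S.C)) := by
    obtain ⟨_, _, _, _, _, _, -, -, q⟩ := bk _ le_rfl (by linarith)
    exact q.R.lH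
  have hM : ∀ t, t ≤ 3 / 2 * t1 → Mx M S m a t ≤ S.C ^ 2 * S.ms (2 * t1) := fun t ht => by
    rw [Mx, H.lt.F1, mul_one]
    exact mul_le_mul_of_nonneg_left (H.cl.msm (H.lev_le ht)) (by positivity)
  have m2 := H.cl.ms_pos (show 0 ≤ 2 * t1 by linarith)
  refine ⟨max s (M.s (S.J - 1)), κ * g', g', 2 * t1 / E, S.C ^ 2 * S.ms (2 * t1), 10 * S.C * √X,
    S.C * S.v, _, n, by linarith, by linarith, le_max_left _ _, by linarith, A.LB_mm, lH,
    fun t u _ => Hu_nn A (by linarith), fun t u _ => mass A (by linarith), fun x u v => ?_,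
    fun t u v => ⟨(mm_le_Mx A (by linarith)).trans (hM t v.le), ?_, (H_sq A (by linarith)).trans
      (mul_le_mul_of_nonneg_right (hM t v.le) (Hu_nn A (by linarith))),
      c2 t (by linarith) (by linarith)⟩,
    fun p q u v w => A.sl b1 p q (by linarith) v w, fun t u => ?_, fun t u v => ?_, by positivity,
    le_rfl, g0, ?_, by positivity, ?_, by positivity, le_rfl, ?_, ?_, ?_, ?_, ?_, ?_,
    εW.trans WL⟩
  · obtain ⟨A', r1, r2, ω, β, f, q1, q2, q3⟩ := bk x u v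
    refine ⟨A', r1, r2, ω, β, f, q1, ?_, q3.mono (mul_le_mul_of_nonneg_left hW L0.le)⟩
    rw [← sub_le_iff_le_add', le_div_iff₀ E0]; linarith
  · have a1 := A.mm_ge t
    rw [H.lt.F1, mul_one, div_le_iff₀ (by positivity)] at a1
    have a2 := (H.cl.ms2 t1 t0.le).trans (mul_le_mul_of_nonneg_left
      ((H.cl.msm (show t1 ≤ t by linarith)).trans a1) (by norm_num))
    linarith [mul_le_mul_of_nonneg_left a2 (sq_nonneg S.C)]
  · have a1 := Sc48.lvr_mono A.okh.1.1 (le_max_right s (M.s (S.J - 1)))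
    rw [A.lvh_node (by omega) (by omega)] at a1
    linarith [zs t u, mul_pos C0 v0]
  · have a1 := c1 t (by linarith) (by linarith)
    have a2 : L ^ 3 * |uq S M m a t| ≤ t1 := le_trans (mul_le_mul_of_nonneg_right
      (pow_le_pow_right₀ L1 (by norm_num)) (abs_nonneg _)) a1
    have a3 : L ^ 3 * (S.C * S.v) ≤ t1 := by
      have := H.dv (H.LE 4) v0.le H.vμ
      have := mul_le_mul_of_nonneg_right (H.KL (c := 1) 1 (by norm_num))
        (show 0 ≤ L ^ 3 * S.v by positivity)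
      linarith [H.μ1]
    have a4 : t1 ≤ L ^ 3 * (κ * g') := by
      have := mul_le_mul_of_nonneg_left kg (show 0 ≤ 100 * L by positivity)
      have := mul_le_mul_of_nonneg_right (show 100 ≤ L by linarith)
        (show 0 ≤ L ^ 2 * (κ * g') by positivity)
      linarith
    have a5 := mul_le_mul_of_nonneg_right C1 (show 0 ≤ L ^ 3 * (κ * g') by positivity)
    refine le_of_mul_le_mul_left ?_ (pow_pos L0 3)
    change L ^ 3 * (|uq S M m a t| + _) ≤ _
    linarith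
  · rw [div_le_iff₀ E0]
    have := mul_le_mul_of_nonneg_left (H.LE 2) g0.le
    have := mul_le_mul_of_nonneg_right (show 200 ≤ L by linarith) (mul_pos L0 g0).le
    linarith
  · have a1 := H.msE (t := 2 * t1) (by linarith) tC
    have a2 : 2 * S.C * t1 ≤ E * (κ * g') := by
      have p1 := mul_le_mul_of_nonneg_left kg (show 0 ≤ 200 * S.C * L by positivity)
      have p2 := mul_le_mul_of_nonneg_right (H.KL (c := 200) 1 (by norm_num))
        (show 0 ≤ L ^ 2 * (κ * g') by positivity)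
      have p3 := mul_le_mul_of_nonneg_right (H.LE 3) (show 0 ≤ κ * g' by positivity)
      rw [eg]
      linarith
    have a3 := pow_le_pow_left₀ (by positivity) a2 2
    refine le_of_mul_le_mul_left ?_ (pow_pos E0 2)
    linarith [mul_le_mul_of_nonneg_left a1 (sq_nonneg S.C)]
  · refine μv.trans (mul_le_mul_of_nonneg_left ?_ L0.le)
    exact (pow_le_pow_of_le_one μ0.le μ1 (by norm_num)).trans (H.μEn.trans hW)
  · have X0 := H.ln.X0
    have a1 := H.lt.t1c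
    rw [eg] at a1
    rw [mul_pow, sq_sqrt X0.le]
    have a2 := mul_le_mul hK (mul_le_mul_of_nonneg_right (H.KL (c := 100) 2 (by norm_num)) X0.le)
      (by positivity) L0.le
    have a3 := mul_le_mul_of_nonneg_right (H.LE 7) X0.le
    have a4 := mul_le_mul_of_nonneg_right (show 10 ^ 8 ≤ L by linarith)
      (show 0 ≤ L ^ 6 * X by positivity)
    refine le_of_mul_le_mul_left ?_ (show 0 < 10 ^ 8 * L ^ 4 by positivity)
    linarith [mul_le_mul_of_nonneg_left a2 (show 0 ≤ 10 ^ 8 * L ^ 4 by positivity)]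
  · have a1 := mul_le_mul hK μv (by positivity) L0.le
    have a2 := pow_le_pow_left₀ (by positivity) nE 4
    have a3 : (t1 ^ 2) ^ 4 ≤ t1 ^ 5 := by
      rw [← pow_mul]; exact pow_le_pow_of_le_one t0.le t11 (by norm_num)
    have a4 : L ^ 9 ≤ (E ^ 2) ^ 4 := by
      rw [← pow_mul]; exact (H.LE 9).trans (le_self_pow₀ H.E1 (by norm_num))
    have a5 := mul_le_mul_of_nonneg_right a4 (show 0 ≤ (1 / (S.n : ℝ)) ^ 4 by positivity)
    have a6 : 10 ^ 10 ≤ L ^ 2 := by nlinarith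
    have a7 := mul_le_mul_of_nonneg_right a6 (show 0 ≤ L ^ 7 * (1 / (S.n : ℝ)) ^ 4 by positivity)
    rw [mul_pow] at a2
    have a8 : t1 ^ 5 = 10 ^ 10 * L ^ 5 * g' ^ 5 := by rw [eg]; ring
    refine a1.trans (le_of_mul_le_mul_left ?_ (show 0 < 10 ^ 10 * L ^ 5 by positivity))
    linarith
  · linarith [mul_le_mul_of_nonneg_right hn' (show 0 ≤ 5 * g' by positivity)]
  · have a1 := A.J_sq (j := 2 * S.C) (by
      simpa using int_le_const A.LB_uu.abs (K := 1) le_rfl A.T0 le_rfl fun t _ _ => by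
        have p1 := Pp.Ode3.lvr_pos A.okb.1.1 t
        have p2 := Pp.Ode3.lvr_pos A.okh.1.1 t
        have p3 := Pp.Ode3.lvr_le_one A.okb.1.1 t
        have p4 := Pp.Ode3.lvr_le_one A.okh.1.1 t
        unfold uu
        exact abs_le.2 ⟨by linarith, by linarith⟩) (x := 5 / 4 * t1) (y := 2 * S.C) (by linarith)
      (by linarith) le_rfl
    have a2 := int_le_const (lH.mul A.LB_uu) (K := S.C ^ 2) (a := 5 / 4 * t1) (b := s) (by linarith)
      (by linarith) (by linarith) fun t u _ => by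
        have p1 := Pp.Ode3.lvr_pos A.okb.1.1 t
        have p2 := Pp.Ode3.lvr_pos A.okh.1.1 t
        have p3 := Pp.Ode3.lvr_le_one A.okb.1.1 t
        have p4 := Pp.Ode3.lvr_le_one A.okh.1.1 t
        have p5 : uu M S m a (2 * S.C) t ^ 2 ≤ 1 := by
          unfold uu
          exact (sq_le_one_iff_abs_le_one _).2 (abs_le.2 ⟨by linarith, by linarith⟩)
        have p6 : Mx M S m a t ≤ S.C ^ 2 := by
          rw [Mx, H.lt.F1, mul_one]
          exact mul_le_of_le_one_right (sq_nonneg _) ((H.cl.ms1 _).trans H.θ1)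
        refine le_trans ?_ ((mul_le_mul p6 p5 (sq_nonneg _) (sq_nonneg _)).trans_eq (mul_one _))
        unfold HH Gap27.HN Zb9.two uu
        rw [Zb9.up_mul]
        exact min_le_left _ _
    have a3 := mul_le_mul_of_nonneg_right (show s - 5 / 4 * t1 ≤ S.C by linarith) (sq_nonneg S.C)
    have a4 := mul_le_mul_of_nonneg_right (show 2 * S.C - 5 / 4 * t1 ≤ 2 * S.C by linarith)
      (sq_nonneg (2 * S.C))
    have a5 : 1 ≤ 2 ^ n * W := by
      have := mul_le_mul hn (H.μEn.trans hW) (by positivity) (by positivity)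
      rwa [← mul_pow, mul_one_div_cancel n0.ne', one_pow] at this
    have a6 := mul_le_mul_of_nonneg_left a5 L0.le
    unfold uu at a2
    linarith [H.KL (c := 9) 3 (by norm_num)]
  · exact (int_sub_le A.LB_J.abs le_rfl le_rfl (by linarith) (by linarith) (by linarith)
      fun _ _ _ => abs_nonneg _).trans hε

end Cx

set_option maxHeartbeats 1600000 in
/-- the cut at the level of the model -/
theorem tkE_at (C : ℝ) : ∃ θ K : ℝ, (0 < θ ∧ θ ≤ 1) ∧ ∀ {E L : ℝ} {S : Sc} {M : Md} {m : ℕ}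
    {a G1 u1 u2 j γ Lc ηc τ l0 l X Xp Vt Lg Lp X2 X3 X4 G0 : ℝ} {η : ℝ → ℝ} {N : ℝ} {g : ℝ → ℝ}
    {t1 tu ℓ En p0 s : ℝ}, S.C = C → K ≤ L → CrJ →
    Cx E L S M m a G1 u1 u2 j γ Lc ηc τ l0 l X Xp Vt Lg Lp X2 X3 X4 G0 η N g t1 tu ℓ En p0 →
    S.v ≤ 1 / (S.n : ℝ) ^ 4 → Bw E L θ S M m a t1 u2 En s → ∀ Λ W ε, L ^ 8 ≤ Λ → En ≤ W →
    ε ^ 2 ≤ W → ∫ t in (0 : ℝ)..2 * t1, |Jq S M m a t| ≤ ε →
    ∫ t in 2 * t1..2 * S.C, Jq S M m a t ^ 2 ≤ Λ * W ∧ LO Λ S M m a (2 * t1) u2 W := by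
  rcases le_or_gt C 0 with c | C0
  · exact ⟨1, 1, ⟨one_pos, le_rfl⟩, fun e _ _ H => absurd H.cl.C0 (by rw [e]; exact not_lt.2 c)⟩
  obtain ⟨Cf, -, hF⟩ := Gap27.hlip (2 * C)
  obtain ⟨θ, κ, K, θ0, θ1, κ0, κ1, K1, hN⟩ := nestV (2 * C) (exp (-14 * (2 * C)) / 4) Cf
    (1536 * C ^ 7) (1 / C) C (by positivity) (by positivity) (by positivity) (by positivity) C0
  refine ⟨θ, max K (1 / κ), ⟨θ0, θ1⟩, ?_⟩
  intro E L S M m a G1 u1 u2 j γ Lc ηc τ l0 l X Xp Vt Lg Lp X2 X3 X4 G0 η N g t1 tu ℓ En p0 s e hL cr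
    H v4 B Λ W ε hΛ hW εW hε
  subst e
  obtain ⟨c1, c2, c3⟩ := cr _ _ _ _ _ _ _ _ _ _ _ _ _ _ _ _ _ _ _ _ _ _ _ _ _ _ _ _ _ _ _ _ _ H
  have A := H.A
  have t0 := H.t10
  have L1 := H.L1
  have L0 : 0 < L := by linarith
  have u0 := H.u20
  have W0 : 0 < W := (pow_pos H.μ0 2).trans_le (H.μEn.trans hW)
  have tC : 2 * t1 ≤ S.C := by linarith [H.t1u, H.tuC]
  have pw : ∀ i, i ≤ 8 → L ^ i ≤ Λ := fun i hi => (pow_le_pow_right₀ L1 hi).trans hΛ
  have lJ := A.LB_J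
  rcases le_total X W with x | x
  · refine ⟨?_, L25.lo_scale H.cl (c3 W x) (K := 1) (by linarith) zero_le_one le_rfl
      (by simpa using pw 0 (by norm_num)) W0.le (by linarith) W0.le (by linarith) u0⟩
    have a1 := int_le_const lJ.sq (K := (10 * S.C * √W) ^ 2) (a := 2 * t1) (b := 2 * S.C)
      (by linarith) (by linarith) le_rfl fun t u v => by
        have := abs_le.1 (c2 W t x hW (by linarith) v.le)
        exact sq_le_sq' this.1 this.2
    rw [mul_pow, sq_sqrt W0.le] at a1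
    have a2 := mul_le_mul_of_nonneg_right (show 2 * S.C - 2 * t1 ≤ 2 * S.C by linarith)
      (show 0 ≤ (10 * S.C) ^ 2 * W by positivity)
    have a3 := mul_le_mul_of_nonneg_right ((H.KL (c := 200) 3 (by norm_num)).trans
      (by simpa using pw 1 (by norm_num))) W0.le
    exact a1.trans (by linarith)
  have KL : K ≤ L := (le_max_left _ _).trans hL
  obtain ⟨b, γ', g', Gm, M', j0, δ, μ, n, D⟩ := H.lw κ1 (by
    have := (le_max_right _ _).trans hL
    rwa [div_le_iff₀' κ0] at this) (by linarith) KL v4 B hW εW hε c1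
    fun t u v => c2 X t le_rfl (hW.trans x) u v
  obtain ⟨Y, E', Y0, q, e1, e2, e3, e4⟩ := hN _ _ _ _ _ _ _ _ _ _ _ _ _ _ _ _ _ _ _ _ _ _ _ _
    (hF _ le_rfl).2.2.2.2.2 A.okb A.okh D
  obtain ⟨s1, s2, zs, -⟩ := B
  have k2 : K * (L * W) ≤ L ^ 2 * W := by
    linarith [mul_le_mul_of_nonneg_right KL (mul_pos L0 W0).le]
  have k3 : 2 * (L ^ 2 * W) ≤ L ^ 3 * W := by
    linarith [mul_le_mul_of_nonneg_right (show 2 ≤ L by linarith [H.L9])
      (show 0 ≤ L ^ 2 * W by positivity)]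
  have k1 : W ≤ L ^ 2 * W := le_mul_of_one_le_left W0.le (one_le_pow₀ L1)
  have sT : s ≤ 2 * S.C := D.sb.trans D.bT
  have cv : 1000 * S.C * (S.C * S.v) ≤ t1 := by
    have := H.dv (H.KE (c := 1000) 2 (by norm_num)) H.cl.v0.le H.vμ
    linarith [H.μ1, H.lt.t1a, H.l0']
  have cu : ∀ t, t1 ≤ t → t ≤ 2 * t1 → 1000 * S.C * |uu M S m a (2 * S.C) t| ≤ t1 := fun t u v =>
    le_trans (mul_le_mul_of_nonneg_right ((by simpa using H.KL (c := 1000) 1 (by norm_num) :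
      1000 * S.C ≤ L).trans (le_self_pow₀ L1 (by norm_num))) (abs_nonneg _)) (c1 t u v)
  have C1 := H.cl.C1
  have jl : M.s S.jl ≤ t1 := by linarith [H.jl_l0, H.ln.l0l, H.lt.t1a, H.l0']
  have cv0 := mul_pos C0 H.cl.v0
  obtain ⟨Q, q1, q2, q3, q4, q5, q6⟩ := q
  have θ0' := H.cl.θ0
  have z1 := fun t => Pp.Ode3.lvr_le_one A.okb.1.1 (l := lb M S m a (2 * S.C)) t
  have up : ∀ x y : ℝ, 0 ≤ x → x ≤ L * y → x ≤ L ^ 3 * y := fun x y p r =>
    r.trans (mul_le_mul_of_nonneg_right (le_self_pow₀ L1 (by norm_num))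
      (nonneg_of_mul_nonneg_right (p.trans r) L0))
  refine ⟨?_, L25.lo_scale H.cl (K := 1) (L25.lo_T A (B := 2 * S.C) (K := L ^ 3) (ℓ := 0)
    (a0 := 3 / 2 * t1) (a1 := 7 / 4 * t1) (s := s) (u := L * u2) (E := E') (N := E' + En) (Z := Y)
    (by linarith) le_rfl H.θ1 (one_le_pow₀ L1) (by linarith) (by linarith) (by linarith)
    (by linarith [H.cl.sm H.cl.i1]) (by linarith) (by linarith) s2.le zs
    ⟨Q, q1, q2, q3, up _ _ (mul_nonneg θ0'.le (intervalIntegral.integral_nonneg s2.le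
        fun _ _ => sq_nonneg _)) q4,
      up _ _ (mul_nonneg θ0'.le (intervalIntegral.integral_nonneg
        (s2.le.trans ((H.cl.sm H.cl.i3).trans q1)) fun t _ =>
          mul_nonneg (abs_nonneg _) (L25.ff_nn _ _ _ t))) q5,
      up _ _ (intervalIntegral.integral_nonneg q1 fun t _ =>
        mul_nonneg (sq_nonneg _) (sub_nonneg.2 (z1 t))) q6⟩
    (mul_le_mul_of_nonneg_right (le_self_pow₀ L1 (by norm_num)) u0) (by positivity) u0
    (by linarith) ?_ (by linarith) (by linarith) (by linarith) le_rfl (by norm_num; positivity)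
    (by norm_num; positivity) (by linarith [H.γ3]) W0 v4 fun _ => ⟨fun t u v => ?_, fun k u v => ?_⟩)
    (by linarith) (by positivity) le_rfl ?_ W0.le (by linarith) W0.le (by linarith) u0⟩
  · refine (int_sub_le lJ.sq (show 0 ≤ 3 / 2 * t1 by linarith) (by linarith) (by linarith) le_rfl
      le_rfl fun _ _ _ => sq_nonneg _).trans (e3.trans (k2.trans ?_))
    exact mul_le_mul_of_nonneg_right (pw 2 (by norm_num)) W0.le
  · have a1 := int_mono (A.LB_mm.mul A.LB_uu.sq) (D.lH.mul A.LB_uu) (a := 7 / 4 * t1) (b := s)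
      (by linarith) (by linarith) sT fun t u _ => mass A (by linarith)
    have a2 := int_sub_le (D.lH.mul A.LB_uu) (show 0 ≤ 3 / 2 * t1 by linarith)
      (show 3 / 2 * t1 ≤ 7 / 4 * t1 by linarith) (show 7 / 4 * t1 ≤ s by linarith) le_rfl sT
      fun t u _ => Hu_nn A (by linarith)
    refine (L25.mass_mm A (by linarith) (by linarith) sT (a1.trans (a2.trans (e4.trans k2)))).trans ?_
    linarith [mul_le_mul_of_nonneg_right (H.KL (c := 384) 5 (by norm_num))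
      (show 0 ≤ L ^ 2 * W by positivity)]
  · refine L25.room_of A (by linarith) (by linarith) ?_ u v
    have a1 := cu (3 / 2 * t1) (by linarith) (by linarith)
    have a2 := mul_le_mul_of_nonneg_right C1 (abs_nonneg (uu M S m a (2 * S.C) (3 / 2 * t1)))
    have a3 := mul_le_mul_of_nonneg_right C1 cv0.le
    have a4 := mul_le_mul_of_nonneg_right (one_le_pow₀ C1 (n := 2)) t0.le
    linarith [neg_abs_le (uu M S m a (2 * S.C) (3 / 2 * t1))]
  · refine .inl (L25.low_of A (y := 7 / 4 * t1) (t0 := 2 * t1) (by linarith) (by linarith) le_rfl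
      (by linarith) ?_ u v)
    have a1 := cu (7 / 4 * t1) (by linarith) (by linarith)
    rw [lt_div_iff₀ C0]
    linarith [mul_le_mul_of_nonneg_left (le_abs_self (uu M S m a (2 * S.C) (7 / 4 * t1))) C0.le]
  · have a1 := mul_le_mul (H.KL (c := 10 ^ 9) 12 le_rfl) (show 4096 ≤ L by linarith [H.L9])
      (by norm_num) L0.le
    linarith [mul_le_mul_of_nonneg_right a1 (show 0 ≤ L ^ 6 by positivity),
      show 0 ≤ S.C ^ 12 * L ^ 6 by positivity]

/-- **(TkE)** from the crude facts and the bulk -/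
theorem tkE_of (c : CrJ) (b : BwS) : TkE := by
  choose θ K hθ HK using tkE_at
  refine CL.mono (CL.glue' (R := fun E Λ S M m a => ∀ Λ', Λ ≤ Λ' →
      ∀ G1 u1 u2 j γ Lc ηc τ l0 l X Xp Vt Lg Lp X2 X3 X4 G0 η N g t1 tu ℓ En p0,
      Hy E S M m a G1 u1 u2 j γ Lc ηc τ l0 l X Xp Vt Lg Lp X2 X3 X4 G0 η N g t1 tu ℓ En p0 →
      0 < t1 ∧ ∀ W ε, En ≤ W → ε ^ 2 ≤ W → ∫ t in (0 : ℝ)..2 * t1, |Jq S M m a t| ≤ ε →
      ∫ t in 2 * t1..2 * S.C, Jq S M m a t ^ 2 ≤ Λ' * W ∧ LO Λ' S M m a (2 * t1) u2 W ∧ 0 ≤ En)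
    (b θ hθ) (fun _ _ _ _ _ _ _ _ h2 h Λ' q => h Λ' (h2.trans q)) 5 le_rfl 15 8
    fun C A ε η hε hη => ⟨max (K C) (10 ^ 9 * C ^ 13), ?_⟩) ?_
  · intro S M m a G hA e1 _ h hm P Λ' hΛ G1 u1 u2 j γ Lc ηc τ l0 l X Xp Vt Lg Lp X2 X3 X4 G0 η' N g t1
      tu ℓ En p0 hy
    rw [pow_one] at hy
    obtain ⟨s, B⟩ := P _ _ _ _ _ _ _ _ _ _ _ _ _ _ _ _ _ _ _ _ _ _ _ _ _ _ _ hy
    have n0 := G.N0
    have v4 := L25.v4_of G h hA
    have H : Cx _ ((S.n : ℝ) ^ η) S M m a G1 u1 u2 j γ Lc ηc τ l0 l X Xp Vt Lg Lp X2 X3 X4 G0 η' N g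
        t1 tu ℓ En p0 := ⟨hy, h, hm, by rw [G.hC]; exact (le_max_right _ _).trans G.K_le, by
        rw [← rpow_natCast, ← rpow_mul n0.le]
        exact rpow_le_rpow_of_exponent_le G.N1.le (by rw [mul_comm]; exact e1), G.log_le,
      by rw [G.hC]; exact G.C_log, by
        refine v4.trans (le_trans ?_ (le_mul_of_one_le_left (by positivity) h.C1))
        rw [one_div_pow]
        exact one_div_le_one_div_of_le (by positivity) (pow_le_pow_right₀ G.N1.le (by norm_num))⟩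
    refine ⟨H.t10, fun W ε' p q r => ?_⟩
    have := HK C G.hC ((le_max_left _ _).trans G.K_le) c H v4 (G.hC ▸ B) Λ' W ε' hΛ p q r
    exact ⟨this.1, this.2, H.En0⟩
  · intro E Λ S M m a _ _ _ _ h G1 u1 u2 j γ Lc ηc τ l0 l X Xp Vt Lg Lp X2 X3 X4 G0 η N g t1 tu ℓ En p0
      hy D ε _ hε
    obtain ⟨t0, h⟩ := h Λ le_rfl _ _ _ _ _ _ _ _ _ _ _ _ _ _ _ _ _ _ _ _ _ _ _ _ _ _ _ hy
    have d0 : 0 ≤ (S.ms t1 * D) ^ 2 / t1 := by positivity
    have e0 := (h (En + ε ^ 2 + |En|) ε (by linarith [sq_nonneg ε, abs_nonneg En])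
      (by linarith [neg_abs_le En]) hε).2.2
    have := h (En + (S.ms t1 * D) ^ 2 / t1 + ε ^ 2) ε (by linarith [sq_nonneg ε]) (by linarith) hε
    exact ⟨this.1, this.2.1⟩

end Crest.Agent.T156.Alt.L63

end
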