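import Crest.Agent.T156.TkED_94

/-!
# Row 156, block (L): the crude facts read by (TkE) (helper60)
-/

set_option autoImplicit false

noncomputable section

namespace Crest.Agent.T156.Alt.L63

open MeasureTheory Set Real
open Crest.Agent.T156.Alt.Mp9 Crest.Agent.T156.Alt.L69 Crest.Agent.T156.Zb9
open Crest.Agent.T156.Pp.Area50

namespace J60

theorem abs_le_sq {x r : ℝ} (r0 : 0 < r) : |x| ≤ r + x ^ 2 / r := by
  rw [add_div' _ _ _ r0.ne', le_div_iff₀ r0, ← sq_abs x]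
  nlinarith [sq_nonneg (|x| - r), mul_nonneg (abs_nonneg x) r0.le]

theorem abs_le_min {x r μ : ℝ} (r0 : 0 < r) (r1 : r ≤ 1) (μ0 : 0 < μ) (μ1 : μ ≤ 1) :
    |x| ≤ r + min (|x| ^ ((4 : ℝ) / 3)) (x ^ 2 / μ) / r := by
  rcases min_choice (|x| ^ ((4 : ℝ) / 3)) (x ^ 2 / μ) with e | e <;> rw [e]
  · rcases le_total |x| r with c | c
    · exact c.trans (le_add_of_nonneg_right (by positivity))
    have x0 : 0 < |x| := r0.trans_le c
    have a : r ≤ |x| ^ ((1 : ℝ) / 3) :=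
      ((rpow_one r).symm.le.trans (rpow_le_rpow_of_exponent_ge r0 r1 (by norm_num))).trans
        (rpow_le_rpow r0.le c (by norm_num))
    have b : |x| ^ ((4 : ℝ) / 3) = |x| * |x| ^ ((1 : ℝ) / 3) := by
      rw [← rpow_one_add' x0.le (by norm_num)]; norm_num
    have d : |x| ≤ |x| ^ ((4 : ℝ) / 3) / r := by
      rw [le_div_iff₀ r0, b]; exact mul_le_mul_of_nonneg_left a x0.le
    linarith
  · exact (abs_le_sq r0).trans (add_le_add le_rfl
      (div_le_div_of_nonneg_right (le_div_self (sq_nonneg _) μ0 μ1) r0.le))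

theorem cl_lip (t T x y : ℝ) : |Pp.Area50.cl t T x - Pp.Area50.cl t T y| ≤ |x - y| :=
  (abs_max_sub_max_le_max _ _ _ _).trans (max_le (by simp)
    ((abs_min_sub_min_le_max _ _ _ _).trans (max_le le_rfl (by simp))))

variable {S : Sc} {M : Md} {m : ℕ} {a T : ℝ}

/-- the first node above a time -/
theorem node (A : At S M m a T) {x : ℝ} (h0 : 0 ≤ x) (h1 : x < M.s S.J) :
    ∃ k, k ≤ S.J ∧ x < M.s k ∧ M.s k ≤ x + S.C * S.v := by
  obtain ⟨k, -, p, q, r⟩ := A.exists_ref (i := 0) (j := S.J) (A.cl.s0.trans_le h0) h1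
  exact ⟨k + 1, p, r, by linarith [(A.cl.ss k p).2]⟩

theorem J_eq (A : At S M m a T) {t : ℝ} (h0 : M.s S.j0 ≤ t) (h1 : t ≤ T) :
    Sc48.Jf (lh M T) (lb M S m a T) T t = ∑ j ∈ Finset.range (S.Jp + 1),
      (xb M a (j + 1) - xb M a j) *
        (Pp.Area50.cl t T (sh M S (j + 1)) - Pp.Area50.cl t T (sb M m a (j + 1))) := by
  rw [← Jf_eq _ _ _ _ h1]
  exact Jf_congr h1 (fun _ hs => A.lvh (h0.trans hs.1))
    fun _ hs => A.lvb ((s_nn A.cl _).trans (h0.trans hs.1))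

theorem J_T (A : At S M m a T) {t : ℝ} (h0 : M.s S.j0 ≤ t) (h1 : t ≤ T) :
    |Sc48.Jf (lh M T) (lb M S m a T) T t| ≤ T := by
  have t0 := (s_nn A.cl _).trans h0
  have c : ∀ x, t ≤ Pp.Area50.cl t T x ∧ Pp.Area50.cl t T x ≤ T := fun x =>
    ⟨le_max_left _ _, max_le h1 (min_le_right _ _)⟩
  rw [J_eq A h0 h1]
  refine (Finset.abs_sum_le_sum_abs _ _).trans ((Finset.sum_le_sum
    (g := fun j => (xb M a (j + 1) - xb M a j) * T) fun j _ => ?_).trans ?_)
  · have x0 := sub_nonneg.2 (A.xb_mono (Nat.le_succ j))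
    rw [abs_mul, abs_of_nonneg x0]
    exact mul_le_mul_of_nonneg_left (abs_le.2
      ⟨by linarith [(c (sh M S (j + 1))).1, (c (sb M m a (j + 1))).2],
        by linarith [(c (sh M S (j + 1))).2, (c (sb M m a (j + 1))).1]⟩) x0
  · rw [← Finset.sum_mul, Finset.sum_range_sub (xb M a)]
    simp only [xb]
    exact mul_le_of_le_one_left (t0.trans h1) (by linarith [A.cl.leg.z1 S.Jp, A.a_pos])

/-- the nodes below the time `t` cancel -/
theorem J_cut (A : At S M m a T) {t : ℝ} {k : ℕ} (k0 : S.j0 ≤ k) (k1 : k ≤ S.Jp) (h0 : M.s k ≤ t)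
    (h0' : sb M m a (k + 1) ≤ t) (h1 : t ≤ T) :
    |Sc48.Jf (lh M T) (lb M S m a T) T t| ≤ Ap63.Sx M.z (dsb M m a) k S.Jp 1 := by
  rw [J_eq A ((A.cl.sm k0).trans h0) h1, Finset.range_eq_Ico,
    ← Finset.sum_Ico_consecutive _ (Nat.zero_le (k + 1)) (Nat.succ_le_succ k1),
    Finset.sum_eq_zero (s := Finset.Ico 0 (k + 1)) fun j hj => ?_, zero_add, Nat.succ_eq_add_one,
    Finset.Ico_add_one_add_one_eq_Ioc]
  · refine (Finset.abs_sum_le_sum_abs _ _).trans (Finset.sum_le_sum fun j hj => ?_)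
    have j0 := (Finset.mem_Ioc.1 hj).1
    have x0 := sub_nonneg.2 (A.xb_mono (Nat.le_succ j))
    rw [abs_mul, abs_of_nonneg x0, A.sh_succ (by omega), pow_one, dsb, abs_sub_comm (sb M m a _)]
    obtain ⟨j, rfl⟩ : ∃ i, j = i + 1 := ⟨j - 1, by omega⟩
    exact mul_le_mul_of_nonneg_left (cl_lip _ _ _ _) x0
  · have j0 := Nat.le_of_lt_succ (Finset.mem_Ico.1 hj).2
    rw [cl_of_le ((A.sb_mono (Nat.succ_le_succ j0)).trans h0'),
      cl_of_le (u := sh M S (j + 1)) ((A.cl.sm (max_le j0 k0)).trans h0), sub_self, mul_zero]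

end J60

open J60

variable {E L : ℝ} {S : Sc} {M : Md} {m : ℕ} {a G1 u1 u2 j γ Lc ηc τ l0 l X Xp Vt Lg Lp X2 X3 X4
  G0 : ℝ} {η : ℝ → ℝ} {N : ℝ} {g : ℝ → ℝ} {t1 tu ℓ En p0 : ℝ}

namespace Cx

variable (H : Cx E L S M m a G1 u1 u2 j γ Lc ηc τ l0 l X Xp Vt Lg Lp X2 X3 X4 G0 η N g t1 tu ℓ
  En p0)
include H

theorem Cv60 : 1000 * (S.C * S.v) ≤ t1 := by linarith [H.Cv, H.μ1, H.lt.t1a, H.l0']

theorem t160 : 4 * t1 ≤ 1 / (4 * S.C ^ 2) := by
  have C0 := H.cl.C0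
  have p := H.dv (H.KE (c := 16) 3 (by norm_num)) H.t10.le (H.lt.t1b.trans H.tuC)
  rw [le_div_iff₀ (by positivity)]
  exact le_of_mul_le_mul_left (a := S.C) (by linarith) C0

/-- the sup bound on the window of the cut -/
theorem u60 {t : ℝ} (h1 : t1 ≤ t) (h2 : t ≤ 2 * t1) : L ^ 13 * |uq S M m a t| ≤ t1 := by
  obtain ⟨σ, a1, a2, a3, a4, -⟩ := H.exσ
  have C0 := H.cl.C0
  have C1 := H.cl.C1
  have t0 := H.t10
  have l0 := H.l0'
  have v0 := H.cl.v0
  have μ0 := H.μ0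
  have lt := H.lt.t1a
  have tu := H.t1u
  have ℓu := H.ℓu
  have tJ := H.lt.tu1
  have Cv := H.Cv60
  have σ0 : 0 ≤ σ := v0.le.trans a2
  have g0 := H.lt.g0 t1
  have g1 := (H.g_le (t := t1) (by linarith) (by linarith)).1
  have E0 : 0 ≤ E := by linarith [H.E1]
  set V := 10 * S.C ^ 4 * σ + g t1 + S.C * (1 / S.n) with hV
  have V0 : 0 ≤ V := by positivity
  have c1 : (1 : ℝ) ≤ S.C ^ 4 := one_le_pow₀ C1
  have c2 : S.C ≤ S.C ^ 4 := le_self_pow₀ C1 (by norm_num)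
  have e1 : E * V ≤ 7 * S.C ^ 4 * t1 := by
    have b1 := mul_le_mul_of_nonneg_left (a4.trans (by linarith : l ≤ t1 / 2))
      (by positivity : 0 ≤ 10 * S.C ^ 4)
    have b2 := mul_le_mul_of_nonneg_left (H.μl'.trans (by linarith : l ≤ t1)) C0.le
    have b3 := mul_le_mul_of_nonneg_right c1 t0.le
    have b4 := mul_le_mul_of_nonneg_right c2 t0.le
    rw [hV]
    linarith
  have e2 : 4 * V ≤ t1 := by
    have := H.dv (H.KE (c := 28) 4 (by norm_num)) V0 e1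
    exact le_of_mul_le_mul_left (a := 7 * S.C ^ 4) (by linarith) (by positivity)
  obtain ⟨i, -, i1, i2⟩ := node H.A (x := l) l0.le (by linarith)
  obtain ⟨k, k0, k1, k2⟩ := node H.A (x := 3 * t1) (by linarith) (by linarith)
  have ik : i ≤ k := le_of_not_gt fun c => by linarith [H.cl.sm c.le]
  have p := H.A.u_of_del (i := i) (i' := k) (V := V) (t := t)
    (H.cl.i1.trans (H.idx i1.le (by linarith)).1.le) ik k0 (fun y y1 y2 => by
      have s1 := H.cl.sm y1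
      have s2 := H.cl.sm y2
      obtain ⟨q1, q2⟩ := H.idx (k := y) (by linarith) (by linarith)
      have j0 := H.cl.i1.trans_lt q1
      obtain ⟨d1, d2⟩ := H.del_cr a1 a2 a3 j0 q2
      have d3 := mul_le_mul_of_nonneg_left
        (abs_le.2 ⟨d1, d2 (H.z_half j0.le q2 (by linarith [H.t160]))⟩) C0.le
      have d4 := H.lt.g1 t1 y q1 q2 (by linarith) (by linarith) (by linarith)
      rw [hV]
      linarith [H.Cm]) (by linarith) (by linarith)
  have L1 := H.L1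
  have e3 : E * (S.C * V + S.C * S.v) ≤ L * t1 := by
    have b1 := mul_le_mul_of_nonneg_left e1 C0.le
    have b2 := mul_le_mul_of_nonneg_left (H.vμ.trans (H.μ1.trans (by linarith : l ≤ t1))) C0.le
    have b3 := mul_le_mul_of_nonneg_right (H.KL (c := 8) 5 (by norm_num)) t0.le
    have b4 := mul_le_mul_of_nonneg_right (le_self_pow₀ C1 (show 5 ≠ 0 by norm_num)) t0.le
    linarith
  have e4 := H.dv (H.LE 14) (by positivity) e3
  refine (mul_le_mul_of_nonneg_left p (by positivity)).trans ?_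
  exact le_of_mul_le_mul_left (a := L) (by linarith) (by linarith)

theorem cost60 : cB M S η (t1 / 2) S.C + GP M S ≤ En := by
  have t0 := H.t10
  have x0 : 0 ≤ X4 := by
    have := H.w30 t0
    have c := t0.trans_le (H.cl_ge t0.le)
    have : 0 ≤ ws S (X ^ ((1 : ℝ) / 3)) t1 := by unfold ws; positivity
    have : 0 ≤ min X (L69.cl S (X ^ ((1 : ℝ) / 3)) t1 ^ 3) := le_min H.ln.X0.le (by positivity)
    exact le_trans (by positivity) (H.lt.x4 t1 (by linarith) (H.t11.trans H.cl.C1))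
  have n0 : GP M S ≤ N := by
    have a := GP_nn H.cl
    have b := GS_nn H.cl (1 / (8 * S.C ^ 2)) S.C
    refine (le_div_self a H.cl.θ0 H.θ1).trans (le_trans ?_ H.lp.c2)
    exact div_le_div_of_nonneg_right (by nlinarith [sq_nonneg G1, sq_nonneg (S.θ * γ)]) H.cl.θ0.le
  have a1 := sq_nonneg X2
  have a2 : 0 ≤ l ^ 3 * X := (mul_pos (pow_pos H.l0' 3) H.ln.X0).le
  have a3 : 0 ≤ (S.ms t1 * bs S Lg X2 (g t1) η t1) ^ 2 / t1 := by positivity
  linarith [H.lt.en]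

theorem mf60 {t : ℝ} : mf S t ≤ 1 := (H.mf_eq t).trans_le ((H.cl.ms1 t).trans H.θ1)

/-- the residual in `L¹` above the level `t1 / 2` -/
theorem G60 {k : ℕ} {r : ℝ} (k0 : S.jl ≤ k) (k1 : k < S.J) (h : t1 / 2 ≤ M.s k) (r0 : 0 < r)
    (r1 : r ≤ 1) : Ap63.Sx M.z M.G k S.Jp 1 ≤ r + En / r := by
  have i3 := H.cl.i3
  have dn := dx_nn H.cl
  have w := Ap63.wt_le H.cl k
  rw [← Ap63.tel M.z (k1.le.trans i3),
    ← Finset.sum_Ioc_consecutive _ (show k ≤ S.J - 1 by omega) (show S.J - 1 ≤ S.Jp by omega)] at w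
  have p1 : ∑ y ∈ Finset.Ioc k (S.J - 1), dx M y * |M.G y| ^ 1 ≤
      r * ∑ y ∈ Finset.Ioc k (S.J - 1), dx M y + cB M S η (t1 / 2) S.C / r := by
    refine le_trans (Finset.sum_le_sum (g := fun y => r * dx M y + dx M y *
      (cr S (M.s y) * (η (M.s y) ^ 2 / mf S (M.s y)) +
        min (|M.G y| ^ ((4 : ℝ) / 3)) (M.G y ^ 2 / mf S (M.s y))) / r) fun y _ => ?_) ?_
    · have m0 := mf_pos H.cl (H.cl.s_nn y)
      have c := cr1 S (M.s y)
      have b := abs_le_min (x := M.G y) r0 r1 m0 H.mf60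
      have d : 0 ≤ cr S (M.s y) * (η (M.s y) ^ 2 / mf S (M.s y)) / r := by positivity
      rw [pow_one, mul_div_assoc, add_div, mul_comm r, ← mul_add]
      exact mul_le_mul_of_nonneg_left (by linarith) (dn y)
    rw [Finset.sum_add_distrib, ← Finset.mul_sum, ← Finset.sum_div]
    refine add_le_add le_rfl (div_le_div_of_nonneg_right
      (Finset.sum_le_sum_of_subset_of_nonneg (fun y hy => ?_) fun y _ _ => ?_) r0.le)
    · obtain ⟨y1, y2⟩ := Finset.mem_Ioc.1 hy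
      exact Finset.mem_filter.2 ⟨Finset.mem_Ioo.2 ⟨by omega, by omega⟩,
        h.trans (H.cl.sm y1.le), H.cl.s_le_C (by omega)⟩
    · have m0 := mf_pos H.cl (H.cl.s_nn y)
      have c := cr1 S (M.s y)
      have : 0 ≤ min (|M.G y| ^ ((4 : ℝ) / 3)) (M.G y ^ 2 / mf S (M.s y)) :=
        le_min (by positivity) (by positivity)
      exact mul_nonneg (dn y) (by positivity)
  have p2 : ∑ y ∈ Finset.Ioc (S.J - 1) S.Jp, dx M y * |M.G y| ^ 1 ≤
      r * ∑ y ∈ Finset.Ioc (S.J - 1) S.Jp, dx M y + GP M S / r := by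
    rw [GP, show Finset.Icc S.J S.Jp = Finset.Ioc (S.J - 1) S.Jp by ext; simp; omega,
      Finset.mul_sum, Finset.sum_div, ← Finset.sum_add_distrib]
    refine Finset.sum_le_sum fun y _ => ?_
    rw [pow_one, mul_div_assoc, mul_comm r, ← mul_add]
    exact mul_le_mul_of_nonneg_left (abs_le_sq r0) (dn y)
  have p3 := div_le_div_of_nonneg_right H.cost60 r0.le
  have p4 := mul_le_of_le_one_right r0.le w
  rw [Ap63.Sx,
    ← Finset.sum_Ioc_consecutive _ (show k ≤ S.J - 1 by omega) (show S.J - 1 ≤ S.Jp by omega)]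
  rw [add_div] at p3
  simp only [dx] at p1 p2
  linarith

/-- the tail integral above `t1` -/
theorem Jt60 {Y t : ℝ} (hX : X ≤ Y) (hE : En ≤ Y) (h1 : t1 ≤ t) (h2 : t ≤ 2 * S.C) :
    |Jq S M m a t| ≤ 10 * S.C * √Y := by
  have C0 := H.cl.C0
  have C1 := H.cl.C1
  have t0 := H.t10
  have lt := H.lt.t1a
  have tu := H.t1u
  have ℓu := H.ℓu
  have tJ := H.lt.tu1
  have Cv := H.Cv60
  have Y0 := H.ln.X0.trans_le hX
  have r0 := sqrt_pos.2 Y0
  obtain ⟨k, -, k1, k2⟩ := node H.A (x := t1 / 2) (by linarith) (by linarith)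
  obtain ⟨q1, q2⟩ := H.idx (k := k) (by linarith) (by linarith)
  have j0 := H.cl.i1.trans q1.le
  have kp := q2.le.trans H.cl.i3
  rcases le_total 1 √Y with c | c
  · refine (J_T H.A ((H.cl.sm j0).trans (by linarith)) h2).trans ?_
    nlinarith
  have p := J_cut H.A j0 kp (t := t) (by linarith) (by
    linarith [(H.dsb_cr (k := k) (by linarith) (by linarith)).2 (by linarith [H.t160])]) h2
  have p1 := (Ap63.Sx_one H.cl.leg.zm kp (Ap63.wt_le H.cl k)).trans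
    (sqrt_le_sqrt ((H.Sdel j0 le_rfl).trans hX))
  have p2 := H.G60 q1.le q2 k1.le r0 c
  have p3 : En / √Y ≤ √Y := by rw [div_le_iff₀ r0, mul_self_sqrt Y0.le]; exact hE
  have p4 := mul_le_mul_of_nonneg_left (H.μe.trans (sqrt_le_sqrt hE)) C0.le
  have p5 := mul_le_mul_of_nonneg_left p1 C0.le
  have p6 := mul_le_mul_of_nonneg_right C1 r0.le
  linarith [(H.A.dsb_sum kp).1, H.Cm]

theorem sub60 {U : Finset ℕ} (hU : U ⊆ Finset.Ioc S.j0 S.Jp) :
    ∑ k ∈ U, dx M k * M.del m a k ^ 2 ≤ X := by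
  refine le_trans ?_ (H.Sdel le_rfl le_rfl)
  rw [Ap63.Sx_two]
  exact Finset.sum_le_sum_of_subset_of_nonneg hU fun k _ _ =>
    mul_nonneg (dx_nn H.cl k) (sq_nonneg _)

/-- the trivial location -/
theorem lo60 {Y : ℝ} (hX : X ≤ Y) : LO 1 S M m a (2 * t1) u2 Y := by
  have X0 := H.ln.X0
  have Y0 := X0.trans_le hX
  have t0 := H.t10
  have X1 : X ≤ 1 := by simpa using H.dv H.E1 X0.le H.ln.X1
  have hb : ∀ t t', (M.blk S t t').filter (· < S.J) ⊆ Finset.Ioc S.j0 S.Jp := fun t t' =>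
    (Finset.filter_subset _ _).trans (Finset.filter_subset _ _)
  refine ⟨fun t t' a1 a2 => (H.sub60 (hb t t')).trans ?_, ?_, ?_⟩
  · have b1 : X ≤ t1 := le_trans (by simpa using H.dv H.E1 X0.le H.lt.t1c)
      (pow_le_of_le_one t0.le H.t11 (by norm_num))
    have b2 : X ≤ √(t' * Y) := le_sqrt_of_sq_le (by
      rw [sq]; exact mul_le_mul (by linarith) hX X0.le (by linarith))
    have b3 := hX.trans (le_div_self Y0.le (mf_pos H.cl (t := t) (by linarith)) H.mf60)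
    have b4 : 0 ≤ 1 / (S.n : ℝ) ^ 2 := by positivity
    linarith [le_min b2 b3, GS_nn H.cl t t']
  · have b1 : ∑ k ∈ (M.blk S (2 * t1) S.C).filter (· < S.J), dx M k * M.del m a k ^ 4 ≤
        ∑ k ∈ (M.blk S (2 * t1) S.C).filter (· < S.J), dx M k * M.del m a k ^ 2 :=
      Finset.sum_le_sum fun k hk => mul_le_mul_of_nonneg_left (by
        have d := (sq_le_one_iff_abs_le_one _).2 (L25.del_one H.A (Finset.mem_Ioc.1 (hb _ _ hk)).2)
        nlinarith [sq_nonneg (M.del m a k)]) (dx_nn H.cl k)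
    have b2 : 0 ≤ ∑ k ∈ (M.blk S (2 * t1) S.C).filter (· < S.J), dx M k * M.G k ^ 4 :=
      Finset.sum_nonneg fun k _ => mul_nonneg (dx_nn H.cl k) (by positivity)
    have b4 : 0 ≤ 1 / (S.n : ℝ) ^ 4 := by positivity
    linarith [H.sub60 (hb (2 * t1) S.C)]
  · have b1 : Pla M S m a 2 ≤ X := by
      simp only [Pla, sq_abs]
      exact H.sub60 fun k hk => Finset.mem_Ioc.2
        ⟨H.cl.j0_lt.trans_le (Finset.mem_Icc.1 hk).1, (Finset.mem_Icc.1 hk).2⟩
    have b2 : X ≤ Y ^ ((3 : ℝ) / 5) :=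
      ((rpow_one X).symm.le.trans (rpow_le_rpow_of_exponent_ge X0 X1 (by norm_num))).trans
        (rpow_le_rpow X0.le hX (by norm_num))
    have b3 := hX.trans (le_div_self Y0.le H.cl.θ0 H.θ1)
    have b4 : 0 ≤ 1 / (S.n : ℝ) ^ 2 := by positivity
    linarith [le_min b2 b3, GP_nn H.cl, sq_nonneg (M.s S.Jp - M.s S.J), H.lp.u1b.1, H.lp.u1a,
      H.cl.last, H.cl.leg.z1 (S.Jp - 1)]

end Cx

/-- **(CrJ)** -/
theorem crJ : CrJ := fun _ _ _ _ _ _ _ _ _ _ _ _ _ _ _ _ _ _ _ _ _ _ _ _ _ _ _ _ _ _ _ _ _ H =>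
  ⟨fun _ => H.u60, fun _ _ => H.Jt60, fun _ => H.lo60⟩

end Crest.Agent.T156.Alt.L63

end
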