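import Crest.Agent.T156.LZD_94
import Crest.Agent.T156.SzTG_64
import Crest.Agent.T156.SzVU_32
import Crest.Agent.T156.SzG_5
import Crest.Agent.T156.SzP_98
import Crest.Agent.T156.SzS_50
import Crest.Agent.T156.NdZ_89
import Crest.Agent.T156.NdU_51
import Crest.Agent.T156.NgX_9
import Crest.Agent.T156.PgZ_33
import Crest.Agent.T156.BoK_93
import Crest.Agent.T156.RtK_25
import Crest.Agent.T156.LGl_63
import Crest.Agent.T156.BuG_75
import Crest.Agent.T156.TLqG_54
import Crest.Agent.T156.TkF_20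
import Crest.Agent.T156.TkE_94
import Crest.Agent.T156.TkJ_60
import Crest.Agent.T156.TL2R_63
import Crest.Agent.T156.TL1c_74
import Crest.Agent.T156.TLp1_26
import Crest.Agent.T156.TLpG_54
import Crest.Agent.T156.TLpZ_26
import Crest.Agent.T156.BwS_14

/-!
# Row 156, block (L): assembly (helper94)
-/

set_option autoImplicit false

namespace Crest.Agent.T156.Alt.LZ

theorem szS : SzT98.SzS := S50.szS_of SzT98.szQ
theorem szTG : Tg64.SzTG := Tg64.szTG_of szS SzT98.szV
theorem szTG' : L63.SzTG := szTG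
theorem tl0 : L69.TL0 := Tg64.tl0 szS SzT98.szV
theorem tlt : L69.TLt := L69.tlt_q (Tg64.szN2 szS SzT98.szV) SzT98.szQ5
theorem pgS : Nd33.PgS := Nd33.pgS_of (Nd33.szQ0_of SzT98.szQ)
theorem niS : L63.NiS := L63.niS_of szTG'
theorem pnS : L62.PNS := L62.pnS_of niS pgS szS
theorem ngX : L31.NgX := Sz9.ngX_of szTG G89.ndS
theorem ndT : L63.NdT := L63.ndT_of szTG' G89.ndS
theorem ndTq : L63.NdTq := L63.ndTq_of szTG' G89.ndS
theorem tkA : L63.TkA := L63.tkA_of ndT
theorem pnq : L63.PNq := Q54.pnq_of niS pgS szS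
theorem buS : L31.BuS := L31.buS75

section Tx

variable (t : L31.TxS)
include t

theorem tl1x_t : L69.TL1x := L31.tl1x63 tl0 ngX buS t L31.boK L31.rtK
theorem tl1cx_t : L69.TL1cx := C74.tl1cx_of (L31.boS63 tl0 ngX buS t L31.boK L31.rtK)
theorem tkE_t : L63.TkE := L63.tkE_of L63.crJ (L63.bwS_of ngX buS t)
theorem tl2x_t : L63.TL2x := L63.tl2x_of tkA (tkE_t t)
theorem tl2y_t : L63.TL2y := L63.tl2y_of tkA (tkE_t t)
theorem p1S_t : L63.P1S := L63.p1_of (tl2y_t t) ndT
theorem tlp_t : L62.TLp := L62.tlp_of (p1S_t t) pnS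

end Tx

/-- the leaves that are still open -/
structure Open : Prop where
  txS : L31.TxS
  tlq : L63.P1S → L63.NdTq → L63.PNq → L63.TLq

/-- **the block (L)** from the open leaves -/
theorem Open.out (h : Open) : Out :=
  ⟨tl0, tlt, tl1x_t h.txS, tl1cx_t h.txS, tl2x_t h.txS, tl2y_t h.txS, tlp_t h.txS,
    h.tlq (p1S_t h.txS) ndTq pnq⟩

end Crest.Agent.T156.Alt.LZ
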