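import Crest.Agent.T156.TLp1_26

/-!
# Row 156, block (L): the tail integral at the bottom of the last window (helper20)
-/

set_option autoImplicit false

noncomputable section

namespace Crest.Agent.T156.Alt.L63

open MeasureTheory Real Set
open Crest.Agent.T156.Alt.L69 Crest.Agent.T156.Alt.Mp9
open Crest.Agent.R164.GC Crest.Agent.R339.B Crest.Agent.R339.Var Crest.Agent.T157.Pf

variable {S : Sc} {M : Md} {m : ℕ} {a E Λ X X2 ℓ p0 b t0 f t2 U : ℝ} {V k0 : ℕ}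

theorem jq_hq (A : At S M m a (2 * S.C)) (t : ℝ) : |Jq S M m a t| ≤ Hq S M m a t := by
  have e := A.okh.2
  unfold Hq Rig.Hp
  rw [e]
  exact le_add_of_nonneg_right (intervalIntegral.integral_nonneg (by linarith [A.c_pos])
    fun _ _ => abs_nonneg _)

theorem jq_lip (A : At S M m a (2 * S.C)) {s t : ℝ} (h : s ≤ t)
    (hU : ∀ r, s ≤ r → r ≤ t → |uq S M m a r| ≤ U) :
    |Jq S M m a t| ≤ |Jq S M m a s| + U * (t - s) := by
  have i : ∀ p q, IntervalIntegrable (fun r => lvr 1 (lb M S m a (2 * S.C)) r -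
      lvr 1 (lh M (2 * S.C)) r) volume p q := fun p q =>
    Sc48.ii_of_bdd ((Sc48.lvr_meas _).sub (Sc48.lvr_meas _)) (Sc48.lvr_sub_le A.okh.1.1 A.okb.1.1) p q
  have e := intervalIntegral.integral_add_adjacent_intervals (i s t) (i t (2 * S.C))
  have q := intervalIntegral.norm_integral_le_of_norm_le_const (a := s) (b := t) (C := U)
    (f := fun r => lvr 1 (lb M S m a (2 * S.C)) r - lvr 1 (lh M (2 * S.C)) r) fun r hr => by
      rw [uIoc_of_le h] at hr
      exact hU r hr.1.le hr.2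
  rw [abs_of_nonneg (sub_nonneg.2 h), norm_eq_abs] at q
  unfold Jq Sc48.Jf
  rw [← e]
  have q1 := abs_le.1 q
  generalize ∫ r in s..t, (lvr 1 (lb M S m a (2 * S.C)) r - lvr 1 (lh M (2 * S.C)) r) = x at *
  generalize ∫ r in t..2 * S.C, (lvr 1 (lb M S m a (2 * S.C)) r - lvr 1 (lh M (2 * S.C)) r) = y
  exact abs_le.2 ⟨by linarith [neg_abs_le (x + y)], by linarith [le_abs_self (x + y)]⟩

/-- **the fine tail integral at the bottom of the last window** -/
theorem jf20 (A : At S M m a (2 * S.C)) (P : P1 E Λ S M m a X X2 ℓ p0 b V k0 t0 f)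
    (h1 : 3 / 4 * M.s S.J ≤ t2) (h2 : t2 ≤ M.s S.J) (U0 : 0 ≤ U)
    (hU : ∀ t, 3 / 4 * M.s S.J ≤ t → t ≤ t2 → |uq S M m a t| ≤ U) (ℓ0 : 0 ≤ ℓ) :
    |Jq S M m a t2| ≤ Λ * p0 + (2 * ℓ + Λ * (X ^ ((1 : ℝ) / 3) + M.s S.jl)) * U := by
  have s0 := A.cl.s_nn S.J
  have w := P.w
  have low := P.low
  have w0 : 0 ≤ 2 * ℓ + Λ * (X ^ ((1 : ℝ) / 3) + M.s S.jl) := by linarith [P.t0b, P.yV]
  rcases le_total t2 t0 with c | c
  · linarith [jq_hq A t2, (P.hq t2 (by linarith) c).1, mul_nonneg w0 U0]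
  · have q := jq_lip A c fun r p q => hU r (by linarith) q
    linarith [jq_hq A t0, (P.hq t0 (by linarith) le_rfl).1, mul_le_mul_of_nonneg_left
      (show t2 - t0 ≤ 2 * ℓ + Λ * (X ^ ((1 : ℝ) / 3) + M.s S.jl) by linarith) U0]

end Crest.Agent.T156.Alt.L63

end
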