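import Crest.Agent.T156.TLqI_53

/-!
# Row 156, block (L): the last window, short gaps, length of the corner, anchor (helper53)
-/

set_option autoImplicit false

noncomputable section

namespace Crest.Agent.T156.Alt.Mp9

open MeasureTheory Set Real
open Crest.Agent.R164.GC Crest.Agent.R339.B Crest.Agent.R339.Var Crest.Agent.T157.Pf
open Crest.Agent.T156.Pr.Cv25 Crest.Agent.T156.Pr.Reg48
open Crest.Agent.T156.Pp.Area50 Crest.Agent.T156.Spl27 Crest.Agent.T156.Zb9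

theorem Nk.three {K T0 : ℝ} {S : Sc} {m : ℕ} {a' b' δ θ e o lam g P r N Γ j F Γ' : ℝ}
    (h : Nk K T0 S m a' b' δ θ e o lam g P r N Γ j F) (l0 : 0 ≤ lam) (F0 : 0 ≤ F) (h0 : 0 ≤ Γ')
    (h1 : 3 * Γ' ≤ Γ) : Nk K T0 S m a' b' δ θ e o lam g P r (3 * N) Γ' j (3 * F) :=
  have P0 : 0 < P := by linarith [h.P1]
  have N0 : 0 < N := by linarith [h.N1]
  have Fr : 0 ≤ F * r ^ 2 := by positivity
  { h with
    N1 := by linarith [h.N1]
    Γ0 := h0
    Γr := (mul_le_mul_of_nonneg_left (by linarith) (by positivity)).trans h.Γr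
    l1 := le_trans (by
      have := mul_le_mul_of_nonneg_left h1 (by positivity : 0 ≤ P ^ 3 * (N * lam))
      linarith) h.l1
    jF := by linarith [h.jF]
    δF := by linarith [h.δF]
    vF := by linarith [h.vF]
    eF := by linarith [h.eF]
    gF := by linarith [h.gF]
    mF := by linarith [h.mF]
    oF := by linarith [h.oF]
    NF := (exp_le_exp.2 (by linarith)).trans (h.NF.trans (by linarith)) }

namespace At

variable {S : Sc} {M : Md} {m : ℕ} {a T : ℝ}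

/-- **short gaps** above the linear floor -/
theorem short53 (A : At S M m a T) {i k : ℕ} {P r F δ θ e la cm g : ℝ} (h1 : S.jl < i) (h : i ≤ k)
    (h2 : k < S.J) (PC : 32 * S.C ^ 3 ≤ P) (r0 : 0 < r) (θr : S.ms (M.s S.J) ≤ 16 * r ^ 2)
    (hμ : ∀ t ∈ Ico (sb M m a (i + 1)) (sb M m a (k + 1)),
      M.b * Pr.GG (lb M S m a T) t ≤ 1 - r ^ 2 / (2 * S.C))
    (hz : M.z k ≤ M.z i + (δ + θ * (sb M m a (k + 1) - sb M m a (i + 1))))
    (hE : res M S m a T i - res M S m a T k ≤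
      e + la * (sb M m a (k + 1) - sb M m a (i + 1)) + cm * (M.z k - M.z i))
    (gi : |M.G i| ≤ g) (gk : |M.G k| ≤ g) (θ0 : 0 ≤ θ) (θ1 : P ^ 3 * θ ≤ 1) (e0 : 0 ≤ e)
    (eF : e ≤ F * r ^ 2) (la0 : 0 ≤ la) (lar : P ^ 2 * la ≤ r ^ 2) (cm0 : 0 ≤ cm) (cmr : cm ≤ r ^ 2)
    (gF : g ≤ F * r ^ 2) (δF : δ ≤ F) : sb M m a (k + 1) - sb M m a (i + 1) ≤ P ^ 2 * F := by
  have kp := h2.le.trans A.cl.i3
  have b0 := A.b_pos
  have C0 := A.c_pos
  have C1 := A.cl.C1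
  have r2 : 0 < r ^ 2 := by positivity
  have mo := A.sb_mono (Nat.succ_le_succ h)
  have d0 := sub_nonneg.2 mo
  have z0 : 0 ≤ M.z k - M.z i := sub_nonneg.2 (A.cl.leg.zm h)
  have q := Mh_ge A.okb.1 b0 (A.sb_mem (h.trans kp)).1 mo (by rw [A.okb.2]; exact (A.sb_mem kp).2)
    (e := r ^ 2 / (2 * S.C)) fun t ht => by linarith [hμ t ht]
  have e1 := A.Mf_b (h1.trans_le h) kp
  have e2 := A.Mf_b h1 (h.trans kp)
  change sb M m a (k + 1) - M.b * Pr.Gam _ _ = _ at e1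
  change sb M m a (i + 1) - M.b * Pr.Gam _ _ = _ at e2
  have t1 : M.b * M.rb m a i / (m + 1) ≤ M.b * M.rb m a k / (m + 1) :=
    div_le_div_of_nonneg_right (mul_le_mul_of_nonneg_left (rb_mono A.m_pos h) b0.le) (by positivity)
  have r3 := (mul_le_mul_of_nonneg_left hE b0.le).trans
    (mul_le_mul_of_nonneg_right A.cl.b1 (by positivity))
  have p := (A.Mf_sl (s_nn A.cl i) (A.cl.sm kp) _ _ le_rfl (A.cl.sm h) le_rfl).2
  rw [A.Mf_node (h1.trans_le h) kp, A.Mf_node h1 (h.trans kp)] at p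
  have p2 : S.C * S.ms (M.s k) * (M.s k - M.s i) ≤ S.C * (16 * r ^ 2) * (S.C ^ 2 * (M.z k - M.z i)) :=
    mul_le_mul (mul_le_mul_of_nonneg_left ((A.cl.msm (A.cl.sm h2.le)).trans θr) C0.le)
      (A.s_z (A.cl.i1.trans h1.le) h h2).2 (sub_nonneg.2 (A.cl.sm h)) (by positivity)
  generalize sb M m a (k + 1) - sb M m a (i + 1) = D at *
  have F0 : 0 ≤ F := nonneg_of_mul_nonneg_left (e0.trans eF) r2
  have C3 : S.C ≤ S.C ^ 3 := le_self_pow₀ C1 (by norm_num)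
  have a1 : S.C * (cm * (M.z k - M.z i)) ≤ S.C ^ 3 * (r ^ 2 * (M.z k - M.z i)) :=
    mul_le_mul C3 (mul_le_mul_of_nonneg_right cmr z0) (by positivity) (by positivity)
  have a2 : S.C ^ 3 * r ^ 2 * (M.z k - M.z i) ≤ S.C ^ 3 * r ^ 2 * (F + θ * D) :=
    mul_le_mul_of_nonneg_left (by linarith) (by positivity)
  have a3 : S.C * e ≤ S.C ^ 3 * (F * r ^ 2) := mul_le_mul C3 eF e0 (by positivity)
  have a4 : g ≤ S.C ^ 3 * (F * r ^ 2) :=
    gF.trans (le_mul_of_one_le_left (by positivity) (C1.trans C3))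
  have a5 : r ^ 2 / (2 * S.C) * D ≤ 20 * (S.C ^ 3 * (F * r ^ 2)) + 17 * (S.C ^ 3 * r ^ 2 * (θ * D)) +
      S.C * (la * D) := by
    linarith [(abs_le.1 gi).1, (abs_le.1 gk).2]
  have C6 : 1024 * S.C ^ 6 ≤ P ^ 2 := by
    have := pow_le_pow_left₀ (by positivity) PC 2
    linarith
  have C4 : S.C ^ 4 ≤ S.C ^ 6 := pow_le_pow_right₀ C1 (by norm_num)
  have C2 : S.C ^ 2 ≤ S.C ^ 6 := pow_le_pow_right₀ C1 (by norm_num)
  have P3 : P ^ 2 ≤ P ^ 3 := pow_le_pow_right₀ (by linarith) (by norm_num)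
  have c40 : 0 < S.C ^ 4 := by positivity
  have c20 : 0 < S.C ^ 2 := by positivity
  have b1 : 136 * S.C ^ 4 * θ ≤ 1 :=
    (mul_le_mul_of_nonneg_right (by linarith) θ0).trans θ1
  have b2 : 8 * S.C ^ 2 * la ≤ r ^ 2 := (mul_le_mul_of_nonneg_right (by linarith) la0).trans lar
  have b3 := mul_le_mul_of_nonneg_left a5 (by positivity : 0 ≤ 4 * S.C)
  have b4 : 4 * S.C * (r ^ 2 / (2 * S.C) * D) = 2 * (r ^ 2 * D) := by field_simp; ring
  have b5 := mul_le_mul_of_nonneg_right b1 (by positivity : 0 ≤ r ^ 2 * D)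
  have b6 := mul_le_mul_of_nonneg_right b2 d0
  have b7 : 80 * S.C ^ 4 * (F * r ^ 2) ≤ P ^ 2 * (F * r ^ 2) :=
    mul_le_mul_of_nonneg_right (by linarith) (by positivity)
  refine le_of_mul_le_mul_left ?_ r2
  linarith

/-- location and residual of any sloped node from `u` and `W` at its time -/
theorem link53 (A : At S M m a T) {i : ℕ} {U Wb c : ℝ} (h1 : S.jl < i) (h2 : i < S.J)
    (h3 : sb M m a (i + 1) < M.s S.J) (hU : |uu M S m a T (sb M m a (i + 1))| ≤ U)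
    (hW : |WW M S m a T c (sb M m a (i + 1))| ≤ Wb) :
    |sb M m a (i + 1) - M.s i| ≤ S.C * (U + S.C * S.v) ∧
      |res M S m a T i - c| ≤
        Wb + |M.G i| + S.C / (m + 1) + S.C * S.θ * (S.C * (U + S.C * S.v)) := by
  have ip := h2.le.trans A.cl.i3
  have C0 := A.c_pos
  have si : M.s i < M.s S.J := (s_lt A.cl h2).trans_le (A.cl.sm h2)
  have y0 := (A.sb_mem ip).1
  have s0 := s_nn A.cl i
  have zi := A.lvh_node (A.cl.i1.trans h1.le) h2
  unfold uu at hU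
  rw [A.lvb_node h1.le ip] at hU
  have hU' := abs_le.1 hU
  have U0 : 0 ≤ U := (abs_nonneg _).trans hU
  have cv : 0 < S.C * S.v := mul_pos C0 (v_pos A.cl)
  have θ0 : 0 ≤ S.θ := (A.ms_pos le_rfl).le.trans (A.cl.ms1 0)
  have x0 : 0 ≤ S.C * (U + S.C * S.v) := by positivity
  have σp := A.cl.sm A.cl.i3
  have key : |sb M m a (i + 1) - M.s i| ≤ S.C * (U + S.C * S.v) ∧
      |Rig.Mf M.b (lh M T) (sb M m a (i + 1)) - Rig.Mf M.b (lh M T) (M.s i)| ≤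
        S.C * S.θ * (S.C * (U + S.C * S.v)) := by
    have g : ∀ s t, 0 ≤ s → s ≤ t → t < M.s S.J →
        lvr 1 (lh M T) t - lvr 1 (lh M T) s ≤ U → t - s ≤ S.C * (U + S.C * S.v) ∧
        0 ≤ Rig.Mf M.b (lh M T) t - Rig.Mf M.b (lh M T) s ∧
        Rig.Mf M.b (lh M T) t - Rig.Mf M.b (lh M T) s ≤ S.C * S.θ * (S.C * (U + S.C * S.v)) := by
      intro s t p q w z
      have a1 := (A.sl w s t p q le_rfl).1
      rw [one_div_mul_eq_div] at a1
      have a2 : t - s ≤ S.C * (U + S.C * S.v) := by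
        rw [← div_le_iff₀' C0]; linarith
      obtain ⟨b1, b2⟩ := A.Mf_sl p (w.le.trans σp) s t le_rfl q le_rfl
      exact ⟨a2, le_trans (mul_nonneg (div_nonneg (A.ms_pos p).le C0.le) (sub_nonneg.2 q)) b1,
        b2.trans (mul_le_mul (mul_le_mul_of_nonneg_left (A.cl.ms1 t) C0.le) a2 (sub_nonneg.2 q)
          (by positivity))⟩
    have y1 : 0 ≤ S.C * S.θ * (S.C * (U + S.C * S.v)) := by positivity
    rcases le_total (sb M m a (i + 1)) (M.s i) with q | q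
    · obtain ⟨a1, a2, a3⟩ := g _ _ y0 q si (by rw [zi]; linarith)
      exact ⟨abs_le.2 ⟨by linarith, by linarith⟩, abs_le.2 ⟨by linarith, by linarith⟩⟩
    · obtain ⟨a1, a2, a3⟩ := g _ _ s0 q h3 (by rw [zi]; linarith)
      exact ⟨abs_le.2 ⟨by linarith, by linarith⟩, abs_le.2 ⟨by linarith, by linarith⟩⟩
  refine ⟨key.1, ?_⟩
  have k2 := abs_le.1 key.2
  unfold WW at hW
  rw [A.Mf_node h1 ip] at k2
  rw [A.Mf_b h1 ip] at hW
  obtain ⟨t1, t2⟩ := A.tail_mem (A.jp_le ip)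
  rw [d_top A.cl h1 (A.jp_le ip)] at t1 t2
  have b1 : 1 ≤ M.b := (d_mem A.cl (le_refl M.N)).1
  refine (le_mul_of_one_le_left (abs_nonneg _) b1).trans ?_
  rw [← abs_of_pos A.b_pos, ← abs_mul]
  have := abs_le.1 hW
  exact abs_le.2 ⟨by linarith [neg_abs_le (M.G i)], by linarith [le_abs_self (M.G i)]⟩

/-- **the length of the corner** from a partner `i` with a label near `x*` -/
theorem gm53 (A : At S M m a T) {i w : ℕ} {x U ρ μ er la γ : ℝ} (h1 : S.jl < i) (h2 : i < S.J)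
    (h3 : S.J ≤ w) (h4 : w ≤ S.Jp) (x0 : 0 ≤ x) (hU : uu M S m a T x ≤ U)
    (hρ : M.z (S.J - 1) - M.z i ≤ ρ) (hx : x + S.C * (ρ + U + 2 * (S.C * S.v)) < M.s S.J)
    (xσ : x < M.s S.J) (μ0 : 0 < μ) (hμ : ∀ t ∈ Icc x T, M.b * Pr.GG (lb M S m a T) t ≤ 1 - μ)
    (hl : S.C * la ≤ μ / 2) (la0 : 0 ≤ la) (er0 : 0 ≤ er) (hγ : M.s w - M.s S.J ≤ γ)
    (hE : res M S m a T i - res M S m a T w ≤ er + la * (sb M m a (w + 1) - sb M m a (i + 1))) :
    x ≤ sb M m a (i + 1) ∧ sb M m a (w + 1) - sb M m a (i + 1) ≤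
      2 * (|M.G w| + |M.G i| + S.C * S.θ * (γ + S.C ^ 2 * ρ + S.C * S.v) + S.C * er) / μ := by
  have C0 := A.c_pos
  have ip := h2.le.trans A.cl.i3
  have iw := h2.le.trans h3
  have a1 : x ≤ sb M m a (i + 1) := by
    by_contra hn
    have b1 := Sc48.lvr_mono A.okb.1.1 (not_le.1 hn).le
    rw [A.lvb_node h1.le ip] at b1
    have b2 := (A.zh53 x0 xσ).1
    unfold uu at hU
    have b3 : (M.s S.J - x) / S.C ≤ ρ + U + 2 * (S.C * S.v) := by linarith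
    rw [div_le_iff₀' C0] at b3
    linarith
  refine ⟨a1, ?_⟩
  have θ0 : 0 ≤ S.θ := (A.ms_pos le_rfl).le.trans (A.cl.ms1 0)
  have d := A.dH54 h1 le_rfl iw le_rfl h4 (θ := S.C * S.θ) fun t p q =>
    (A.cl.crit t ⟨(s_nn A.cl i).trans p, q.trans (A.cl.sm h4)⟩).2.trans
      (mul_le_mul_of_nonneg_left (A.cl.ms1 t) C0.le)
  have s1 := (A.s_z (A.cl.i1.trans h1.le) (show i ≤ S.J - 1 by omega) A.J_pred.2.1).2
  have s2 := mul_le_mul_of_nonneg_left hρ (sq_nonneg S.C)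
  have s3 : S.C * S.θ * (M.s w - M.s i) ≤ S.C * S.θ * (γ + S.C ^ 2 * ρ + S.C * S.v) :=
    mul_le_mul_of_nonneg_left (by linarith [A.s_pred.2]) (by positivity)
  refine (A.lin54 h1 iw h4 μ0 ((mul_le_mul_of_nonneg_right A.cl.b1 la0).trans hl)
    (fun t p q => hμ t ⟨a1.trans p, q.trans (A.sb_mem h4).2⟩) hE d).trans ?_
  have := mul_le_mul_of_nonneg_right A.cl.b1 er0
  exact div_le_div_of_nonneg_right (by linarith) μ0.le

end At

/-- **the window with its anchor** -/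
theorem Nw.tk53 (T0 : ℝ) : ∃ K : ℝ, 1 ≤ K ∧ ∀ {S : Sc} {M : Md} {m : ℕ} {a T : ℝ}
    {Gn : ℕ → Prop} {u v : ℕ} {a' b' δ θ e o lam g : ℝ} {c : ℕ → ℝ},
    Nw S M m a T Gn u v a' b' δ θ e o lam g c →
    T ≤ T0 → ∀ {P r N Γ j F : ℝ}, Nk K T0 S m a' b' δ θ e o lam g P r N Γ j F →
    (∀ i k, Nx Gn u v i k → sb M m a (k + 1) - sb M m a (i + 1) ≤ Γ) →
    (∀ t ∈ Icc (sb M m a (u + 1)) (sb M m a (v + 1)), Rig.Hp (lh M T) (lb M S m a T) t ≤ j) →
    sb M m a (v + 1) - sb M m a (u + 1) ≤ 14 * N * P * r → ∃ c0 p0 er,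
    Rig.Tk (Rig.brk (lb M S m a T) ∪ Rig.brk (lh M T)) (sb M m a (u + 1)) (sb M m a (v + 1))
      (WW M S m a T c0) (fun t => Rig.muf M.b (lb M S m a T) t - Rig.muf M.b (lh M T) t)
      (fun t => Rig.nuf M.b (lb M S m a T) t - Rig.nuf M.b (lh M T) t) (uu M S m a T)
      (gp (fun k => sb M m a (k + 1)) Gn u v) (exp (-(4 * T0))) S.C p0
      (S.ms a' / (2 * S.C ^ 2)) (2 * (S.C ^ 2 * S.ms b')) er (θ + S.C) (δ + S.C * S.v) ∧
    p0 ≤ P * F ∧ 0 ≤ er ∧ er ≤ P ^ 4 * (F + Γ) * r ^ 2 ∧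
    r ^ 2 ≤ P * (S.ms a' / (2 * S.C ^ 2)) ∧ 2 * (S.C ^ 2 * S.ms b') ≤ P * r ^ 2 ∧
    (∀ t ∈ Icc (sb M m a (u + 1) + N * P * r) (sb M m a (v + 1) - N * P * r),
      |WW M S m a T c0 t| ≤ 5 * P ^ 6 * (F + Γ) * r ^ 2) ∧
    ∀ t ∈ Icc (sb M m a (u + 1) + N * P * r + Γ) (sb M m a (v + 1) - N * P * r),
      |uu M S m a T t| ≤ 7 * P ^ 7 * (F + Γ) := by
  obtain ⟨K0, K01, H0⟩ := Nw.tk T0
  obtain ⟨K1, K11, H1⟩ := gd_le T0
  refine ⟨K0 * K1, one_le_mul_of_one_le_of_one_le K01 K11,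
    fun {S M m a T Gn u v a' b' δ θ e o lam g c} W hT {P r N Γ j F} h hΓ hp hW => ?_⟩
  have A := W.at'
  have C1 := A.cl.C1
  have C0 := A.c_pos
  have v0 := v_pos A.cl
  have P1 := h.P1
  have P0 : 0 < P := by linarith
  have P1' : 1 ≤ P := by linarith
  have r0 := h.r0
  have r2 : 0 < r ^ 2 := by positivity
  have uv := A.sb_mono (Nat.succ_le_succ W.uv)
  have j0 : 0 ≤ j := (Hp_nn A _).trans (hp _ ⟨le_rfl, uv⟩)
  have C3 : S.C ≤ S.C ^ 3 := le_self_pow₀ C1 (by norm_num)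
  have C2 : S.C ^ 2 ≤ S.C ^ 3 := pow_le_pow_right₀ C1 (by norm_num)
  have PC := h.PC
  have P3 : P ≤ P ^ 3 := le_self_pow₀ P1' (by norm_num)
  have k0 : K0 * S.C ≤ P := le_trans (by gcongr; exact le_mul_of_one_le_right (by linarith) K11) h.PK
  have k1 : K1 ≤ P := ((le_mul_of_one_le_left (by linarith) K01).trans
    (le_mul_of_one_le_right (by positivity) C1)).trans h.PK
  have o0 := W.o0
  have l0 := W.lam0
  have Γ0 := h.Γ0
  have N1 := h.N1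
  have hQ : ∀ k, u ≤ k → k ≤ v → |L0.Gd (lb M S m a T) (sb M m a (k + 1))| ≤
      P * r + P * j + 2 * |uu M S m a T (sb M m a (k + 1))| := fun k p q => by
    have a1 := H1 A hT W.a0 W.b1 (W.mb p q)
    have a2 : S.ms b' / a' ≤ 16 * r := by
      rw [div_le_iff₀ W.a0]
      linarith [h.rb, mul_le_mul_of_nonneg_left h.ra r0.le]
    have a3 := mul_le_mul_of_nonneg_left a2 C0.le
    have a4 := mul_le_mul_of_nonneg_right (show 16 * S.C ≤ P by linarith) r0.le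
    have a5 := mul_le_mul k1 (hp _ ⟨A.sb_mono (Nat.succ_le_succ p), A.sb_mono (Nat.succ_le_succ q)⟩)
      (Hp_nn A _) P0.le
    linarith
  obtain ⟨c0, hc⟩ := W.anchor hΓ hQ hW
  have Γr : P * Γ ≤ r :=
    (mul_le_mul_of_nonneg_right (le_self_pow₀ P1' (by norm_num)) Γ0).trans h.Γr
  have Γr' : Γ ≤ r := (le_mul_of_one_le_left Γ0 P1').trans Γr
  have l1 : N * (lam * Γ) ≤ r := (le_mul_of_one_le_left (by positivity) (P1'.trans P3)).trans h.l1
  have l2 : P ^ 3 * (lam * Γ ^ 2) ≤ r ^ 2 := by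
    have : P ^ 3 * (lam * Γ) ≤ r :=
      (mul_le_mul_of_nonneg_left (le_mul_of_one_le_left (by positivity) N1) (by positivity)).trans h.l1
    have := mul_le_mul this Γr' Γ0 r0.le
    linarith
  have om : S.C * (6 * o + 2 * (lam * Γ ^ 2)) ≤ S.ms a' / (2 * S.C ^ 2) := by
    rw [← h.r2, le_div_iff₀ (by positivity)]
    have a1 := mul_le_mul_of_nonneg_right (PC.trans P3) o0
    have a2 := mul_le_mul_of_nonneg_right (PC.trans P3) (by positivity : 0 ≤ lam * Γ ^ 2)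
    linarith [h.o1]
  have tk := H0 W hT (by have := W.e0; positivity) (by positivity) om hc hp
  have θ1 : θ ≤ 1 := (le_mul_of_one_le_left W.θ0 (P1'.trans P3)).trans h.θ1
  have bb := A.ms_pos (W.a0.le.trans ((W.mb le_rfl W.uv).1.trans (W.mb le_rfl W.uv).2))
  have g0 : 0 ≤ g := (abs_nonneg _).trans (W.hg u le_rfl W.uv W.gu)
  have hd : r ^ 2 ≤ P * (S.ms a' / (2 * S.C ^ 2)) := by
    rw [← h.r2, ← mul_div_assoc, le_div_iff₀ (by positivity)]
    linarith [mul_le_mul_of_nonneg_right (show 2 * S.C ^ 2 ≤ P by linarith) r2.le]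
  have hD : 2 * (S.C ^ 2 * S.ms b') ≤ P * r ^ 2 := by
    linarith [mul_le_mul_of_nonneg_left h.rb (sq_nonneg S.C),
      mul_le_mul_of_nonneg_right (show 32 * S.C ^ 2 ≤ P by linarith) r2.le]
  have hZ := Z_le (w := 1 / ((m : ℝ) + 1)) C1 P1 PC k0 r0 h.rb N1 Γ0 o0
    ((le_mul_of_one_le_left o0 (P1'.trans P3)).trans h.o1) l0 l1 v0.le h.vr j0 h.jF h.δF h.vF
    h.eF h.gF (by positivity) h.mF h.oF h.NF rfl
  rw [mul_one_div] at hZ
  generalize hE : errW S m b' (e + 2 * o * (P * r + P * j) + o * (14 * N * P * r) +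
    (o + lam * Γ ^ 2) * (S.C * (14 * N * P * r) + S.C * S.v)) g = er at tk
  have er0 : 0 ≤ er := by rw [← hE]; have := W.e0; unfold errW; positivity
  have hZ' : P * Γ + (δ + S.C * S.v) + K0 * S.C * j + 1 * exp (-N) + er / r ^ 2 ≤
      P ^ 4 * (F + Γ) := by rw [← hE]; unfold errW; exact hZ
  have F0 : 0 ≤ F := j0.trans h.jF
  have e1 : er ≤ P ^ 4 * (F + Γ) * r ^ 2 := by
    have := W.δ0
    have x : er / r ^ 2 ≤ P ^ 4 * (F + Γ) := by
      have : 0 ≤ P * Γ + (δ + S.C * S.v) + K0 * S.C * j + 1 * exp (-N) := by positivity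
      linarith
    rwa [div_le_iff₀ r2] at x
  obtain ⟨x1, x2, -⟩ := tk.one_20 P1' r0 hd hD (by linarith) (by linarith) h.PT Γ0 Γr (Wd.sh hΓ)
    (by linarith) (fun t _ => A.abs_uu_one t) er0 uv hZ'
  exact ⟨c0, _, er, tk, mul_le_mul k0 h.jF j0 P0.le, er0, e1, hd, hD,
    fun t ht => (x1 t ht).trans_eq (by ring), fun t ht => (x2 t ht).trans_eq (by ring)⟩

end Crest.Agent.T156.Alt.Mp9

end
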