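import Crest.Agent.T156.TLqS_20
import Crest.Agent.T156.TLqK_53

/-!
# Row 156, block (L): the last window, floor, lag, short gaps and the final window (helper36)
-/

set_option autoImplicit false

noncomputable section

namespace Crest.Agent.T156.Alt.Mp9

open Real

/-- change of the free numbers of a window -/
theorem Nk.resc {K T0 : ℝ} {S : Sc} {m : ℕ} {a' b' δ θ e o lam g P r N Γ j F N' Γ' F' : ℝ}
    (h : Nk K T0 S m a' b' δ θ e o lam g P r N Γ j F) (l0 : 0 ≤ lam) (N1 : 1 ≤ N') (h0 : 0 ≤ Γ')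
    (h1 : Γ' ≤ Γ) (h2 : N' * Γ' ≤ N * Γ) (hF : F ≤ F') (h3 : N' * o ≤ F' * r)
    (h4 : exp (-N') ≤ F') : Nk K T0 S m a' b' δ θ e o lam g P r N' Γ' j F' :=
  have P0 : 0 < P := by linarith [h.P1]
  have q := mul_le_mul_of_nonneg_right hF (sq_nonneg r)
  { h with
    N1 := N1
    Γ0 := h0
    Γr := (mul_le_mul_of_nonneg_left h1 (by positivity)).trans h.Γr
    l1 := le_trans (by
      have := mul_le_mul_of_nonneg_left h2 (by positivity : 0 ≤ P ^ 3 * lam)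
      linarith) h.l1
    jF := h.jF.trans hF
    δF := h.δF.trans hF
    vF := h.vF.trans hF
    eF := h.eF.trans q
    gF := h.gF.trans q
    mF := h.mF.trans q
    oF := h3
    NF := h4 }

end Crest.Agent.T156.Alt.Mp9

namespace Crest.Agent.T156.Alt.L63

open MeasureTheory Real Set
open Crest.Agent.T156.Alt.L69 Crest.Agent.T156.Alt.Mp9 Crest.Agent.T156.Alt.Ap63
open Crest.Agent.R164.GC Crest.Agent.R339.B Crest.Agent.R339.Var Crest.Agent.T157.Pf
open T20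

variable {S : Sc} {M : Md} {m : ℕ} {a : ℝ}
  {K E L G1 u1 u2 j γ Lc ηc τ l0 l X Xp Vt Lg Lp X2 X3 X4 G0 N t1 ℓ En p0 aa g' R2 y r : ℝ}
  {η g : ℝ → ℝ} {Gn : ℕ → Prop} {u V V2 : ℕ}

theorem pw36 (L1 : 1000 ≤ L) {i k : ℕ} (hik : i < k) {x : ℝ} (hx : 0 ≤ x) :
    1000 * (L ^ i * x) ≤ L ^ k * x := by
  have a : L ^ (i + 1) ≤ L ^ k := pow_le_pow_right₀ (by linarith) hik
  have b : 1000 * L ^ i ≤ L ^ (i + 1) := by
    rw [pow_succ, mul_comm]; exact mul_le_mul_of_nonneg_left L1 (by positivity)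
  rw [← mul_assoc]; exact mul_le_mul_of_nonneg_right (b.trans a) hx

/-- the numbers of the window; `Γ0` bounds the gaps -/
structure Sk (L : ℝ) (S : Sc) (M : Md) (m : ℕ) (a F o aa : ℝ) (Gn : ℕ → Prop) (u V2 : ℕ)
    (y r Γ0 : ℝ) : Prop where
  L1 : 1000 ≤ L
  LC : 32 * S.C ^ 3 ≤ L
  lg : log S.n ≤ L
  lg1 : 14 ≤ log (S.n : ℝ)
  r0 : 0 < r
  r1 : L ^ 66 * r ≤ 1
  F0 : 0 ≤ F
  Fr : L ^ 50 * F ≤ r
  ar : L ^ 50 * aa ≤ r
  o0 : 0 ≤ o
  oF : o ≤ F * r
  or : L ^ 50 * o ≤ r ^ 2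
  va : S.v ≤ aa
  θr : S.ms (M.s S.J) ≤ 16 * r ^ 2
  Pa : 1 ≤ L * (y / 2)
  Γ0' : 0 ≤ Γ0
  Γr : L ^ 33 * Γ0 = 4 * r
  ΓΓ : 4 * r / L ^ 11 = L ^ 22 * Γ0
  gap : ∀ i k, Nx Gn u V2 i k → sb M m a (k + 1) - sb M m a (i + 1) ≤ Γ0
  nF : exp (-(log S.n - 1)) ≤ F

theorem Sq.kit (W : Sq K L S M m a Lg X2 j γ η aa g' Gn u V V2 y r) (G : Rg K E L S)
    (LE : L ^ 200 ≤ E) (lg : 14 ≤ log (S.n : ℝ)) (Q : Qn L S M m a l X Lg X2 j γ η aa g')
    (Nd : Nt E L S M m a Lg X X2 η Gn u V2) :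
    Sk L S M m a (qF L S M Lg X2 j γ η g') (qO L S M Lg X2) aa Gn u V2 y r (4 * r / L ^ 33) := by
  have A := W.nw.at'
  have h := A.cl
  have C1 := h.C1
  have C0 := h.C0
  have L1 := G.L1
  have L0 : 0 < L := by linarith
  have L1' : 1 ≤ L := by linarith
  have r0 := W.nk.r0
  have r2 := W.nk.r2
  have a0 := W.a0
  have n0 := h.N0
  have F0 : 0 ≤ qF L S M Lg X2 j γ η g' := h.v0.le.trans W.nk.vF
  have sJ : M.s S.J ≤ S.C := h.s_le_C h.i3
  have l0 := Q.F.l0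
  have lJ := Q.lJ
  have y1 := W.y1
  have y2 := W.y2
  have C3 : S.C ≤ S.C ^ 3 := le_self_pow₀ C1 (by norm_num)
  have C2 : S.C ^ 2 ≤ S.C ^ 3 := pow_le_pow_right₀ C1 (by norm_num)
  have LC := G.LC
  have sm := W.sm
  have x1 : 0 ≤ L ^ 50 * qF L S M Lg X2 j γ η g' := by positivity
  have x2 : 0 ≤ L ^ 50 * aa := by positivity
  have o0 : 0 ≤ qO L S M Lg X2 := W.nw.o0
  have oF : qO L S M Lg X2 ≤ qF L S M Lg X2 j γ η g' * r :=
    (le_mul_of_one_le_left o0 W.nk.N1).trans W.nk.oF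
  have va : S.v ≤ aa := (le_mul_of_one_le_left h.v0.le (one_le_pow₀ L1')).trans Q.va
  have mq : ∀ s, s ≤ 2 * y → S.ms s ≤ 16 * r ^ 2 := fun s hs => by
    have := h.ms_pow (t := y / 2) (by linarith) 2
    norm_num at this
    rw [r2]
    exact (h.msm (by linarith)).trans this
  refine ⟨L1, LC, G.lg, lg, r0, ?_, F0, by linarith, by linarith, o0, oF, ?_, va,
    mq _ (by linarith), ?_, by positivity, by field_simp, by field_simp, fun i k n => ?_, ?_⟩
  · have := Q.F.ml (y / 2) (by linarith) (by linarith)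
    rw [← W.er] at this
    exact le_of_mul_le_mul_left (by linarith) L0
  · have e1 := mul_le_mul_of_nonneg_left oF (pow_pos L0 50).le
    have e2 := mul_le_mul_of_nonneg_right (show L ^ 50 * qF L S M Lg X2 j γ η g' ≤ r by linarith)
      r0.le
    linarith
  · have e2 := h.atom.1
    have i2 := h.i2
    have i1 := h.i1
    have e3 := (h.z_s (k := S.J - 1) (by omega) (by omega)).2
    have e4 := h.sm (Nat.sub_le S.J 1)
    have e5 := Q.th
    have e6 : aa ≤ √S.θ := le_trans (by linarith [Q.j0, Q.γ0, Q.g0, Q.gb])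
      ((le_mul_of_one_le_left (by linarith [Q.j0, Q.γ0, Q.g0, Q.gb]) (one_le_pow₀ L1')).trans Q.sm)
    have e7 := mul_le_mul_of_nonneg_left
      (show M.s (S.J - 1) + 2 * S.v ≤ 3 * y by linarith [sqrt_nonneg S.θ]) C0.le
    rw [div_le_iff₀ C0] at e2
    have e8 := mul_le_mul_of_nonneg_right (e3.trans e7) C0.le
    have e9 := mul_le_mul_of_nonneg_right (show 6 * S.C ^ 2 ≤ L by linarith [pow_pos C0 2])
      (show 0 ≤ y / 2 by linarith)
    linarith
  · have d0 := sub_nonneg.2 (A.sb_mono (Nat.succ_le_succ n.2.1))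
    have d1 := Nd.sh i k n
    have d2 := mq (M.s i) (by linarith [h.sm ((n.2.1.trans n.2.2.1).trans W.VJ.le)])
    have d3 := pow_le_pow_left₀ (h.ms_pos (h.s_nn i)).le d2 3
    refine le_of_pow_le_pow_left₀ (n := 6) (by norm_num) (by positivity) ?_
    rw [div_pow, le_div_iff₀ (by positivity)]
    refine le_of_mul_le_mul_left ?_ L0
    have d4 := mul_le_mul_of_nonneg_right
      ((pow_le_pow_right₀ L1' (show 199 ≤ 200 by norm_num)).trans LE) (pow_nonneg d0 6)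
    have d5 := mul_le_mul_of_nonneg_left d3 L0.le
    simp only [Nat.succ_eq_add_one] at d4
    linarith only [d1, d4, d5]
  · rw [neg_sub, exp_sub, exp_log n0, div_eq_mul_one_div]
    have e1 : exp 1 ≤ 3 := by linarith [Real.exp_one_lt_d9]
    have n1 : 0 < 1 / (S.n : ℝ) := by positivity
    have e2 := mul_le_mul_of_nonneg_right e1 n1.le
    have e3 := pw36 L1 (show 0 < 5 by norm_num) n1.le
    have e4 := mul_le_mul_of_nonneg_left Q.nb (pow_pos L0 5).le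
    have e5 : 0 ≤ L ^ 5 * qJ L S j γ := by
      have := Q.j0; have := Q.γ0; unfold qJ; positivity
    unfold qF
    linarith

/-- floor, lag and location -/
structure Fl (L : ℝ) (S : Sc) (M : Md) (m : ℕ) (a F aa : ℝ) (V : ℕ) (y r : ℝ) : Prop where
  fl : ∀ t ∈ Icc (y - 13 * (log S.n * L * r)) (2 * S.C),
    M.b * Pr.GG (lb M S m a (2 * S.C)) t ≤ 1 - r ^ 2 / (2 * S.C)
  top : M.z (S.J - 1) - M.z V ≤ L ^ 6 * (aa + F)
  uq : ∀ t, 3 / 4 * M.s S.J ≤ t → t + 12 * (log S.n * L * r) ≤ y → |uq S M m a t| ≤ L ^ 12 * F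
  lo : -(L ^ 6 * (aa + F)) ≤ L63.uq S M m a y

/-- the window with a longer scale -/
theorem Sq.nk1 (W : Sq K L S M m a Lg X2 j γ η aa g' Gn u V V2 y r) {Γ0 : ℝ}
    (k : Sk L S M m a (qF L S M Lg X2 j γ η g') (qO L S M Lg X2) aa Gn u V2 y r Γ0) :
    Nk K (2 * S.C) S m (y / 2) (max (M.s V) y) (S.C * S.v) (L / Lg) (256 * L * η (M.s S.J))
      (qO L S M Lg X2) (2 * L ^ 3) g' L r (13 / 2 * log S.n) Γ0 (qJ L S j γ)
      (4 * L ^ 2 * qF L S M Lg X2 j γ η g') := by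
  have L1 := k.L1
  have L0 : 0 < L := by linarith
  have lg := k.lg1
  have e1 := pw36 L1 (show 0 < 22 by norm_num) k.Γ0'
  have e2 := pw36 L1 (show 0 < 2 by norm_num) k.F0
  have F0 := k.F0
  have Γ0' := k.Γ0'
  have e3 := mul_le_mul_of_nonneg_left (show 4 * Γ0 ≤ L ^ 22 * Γ0 by linarith)
    (show 0 ≤ log (S.n : ℝ) by linarith)
  have e4 := mul_le_mul_of_nonneg_right (show qF L S M Lg X2 j γ η g' ≤
    L ^ 2 * qF L S M Lg X2 j γ η g' by linarith) k.r0.le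
  have e5 := W.nk.oF
  have e6 : 0 ≤ log (S.n : ℝ) * qO L S M Lg X2 := mul_nonneg (by linarith) k.o0
  have e7 : 0 ≤ log (S.n : ℝ) * Γ0 := mul_nonneg (by linarith) Γ0'
  refine W.nk.resc (by positivity) (by linarith) Γ0' (by rw [k.ΓΓ]; linarith)
    (by rw [k.ΓΓ]; linarith) (by linarith) (by linarith)
    ((exp_le_exp.2 (by linarith)).trans (W.nk.NF.trans (by linarith)))

set_option maxHeartbeats 800000 in
/-- one call of `mu53` -/
theorem call36 (T0 : ℝ) : ∃ K0 : ℝ, ∀ {S : Sc} {M : Md} {m : ℕ} {a K L Lg X2 j γ aa g' y r Γ0 : ℝ}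
    {η : ℝ → ℝ} {Gn : ℕ → Prop} {u V V2 : ℕ}, 2 * S.C = T0 → K0 ≤ K →
    Sq K L S M m a Lg X2 j γ η aa g' Gn u V V2 y r →
    Sk L S M m a (qF L S M Lg X2 j γ η g') (qO L S M Lg X2) aa Gn u V2 y r Γ0 →
    ∀ w, S.J ≤ w → w ≤ S.Jp → |sb M m a (w + 1) - M.s S.J| ≤ qF L S M Lg X2 j γ η g' →
    (∀ t ∈ Ico (sb M m a (w + 1)) (2 * S.C), Pr.Reg48.Gd (lb M S m a (2 * S.C)) t ≤ 0) →
    ∀ d, 0 ≤ d → L ^ 22 * d ≤ r → (V = V2 ∨ M.s S.J - y ≤ aa / 4 + d) →
    M.z (S.J - 1) - M.z V ≤ L ^ 4 * (aa + L * qF L S M Lg X2 j γ η g') + L ^ 3 * d ∧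
    ∀ t ∈ Icc (y - 13 * (log S.n * L * r)) (2 * S.C),
      M.b * Pr.GG (lb M S m a (2 * S.C)) t ≤ 1 - r ^ 2 / (2 * S.C) := by
  obtain ⟨K1, -, H1⟩ := Nw.mu53 T0
  refine ⟨K1, fun {S M m a K L Lg X2 j γ aa g' y r Γ0 η Gn u V V2} hT hK W k w w1 w2 w3 w4 d d0 dr
    di => ?_⟩
  subst hT
  have A := W.nw.at'
  have h := A.cl
  have C1 := h.C1
  have C0 := h.C0
  have L1 := k.L1
  have L0 : 0 < L := by linarith
  have lg := k.lg1
  have r0 := k.r0
  have F0 := k.F0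
  have a0 := W.a0
  have o0 := k.o0
  have Γ0' := k.Γ0'
  have ey := W.ey
  have C3 : S.C ≤ S.C ^ 3 := le_self_pow₀ C1 (by norm_num)
  have C2 : S.C ^ 2 ≤ S.C ^ 3 := pow_le_pow_right₀ C1 (by norm_num)
  have LC := k.LC
  have nk := (W.nk1 k).anti53 C0.le hK
  have jF := W.nk.jF
  have ρ0 : 0 ≤ log (S.n : ℝ) * L * r := by positivity
  have y0 : 0 ≤ y := by linarith [W.nw.a0]
  have yJ : y < M.s S.J := by linarith [W.y1]
  have VJ := W.VJ
  have top : M.z (S.J - 1) - M.z V2 ≤ L * aa := by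
    have e1 := (A.s_z (i := V2) (k := S.J - 1) (h.i1.trans (W.nw.ju.le.trans (W.nw.uv.trans W.VV)))
      (by omega) A.J_pred.2.1).1
    rw [one_div_mul_eq_div, div_le_iff₀' (by positivity)] at e1
    have e2 := mul_le_mul_of_nonneg_left (show M.s (S.J - 1) - M.s V2 ≤ aa by
      linarith [A.s_pred.1, W.s1]) (sq_nonneg S.C)
    have e3 := mul_le_mul_of_nonneg_right (show S.C ^ 2 ≤ L by linarith [pow_pos C0 3]) a0.le
    linarith
  have Γ2 : L ^ 22 * (4 * r / L ^ 11) ^ 2 = 16 * r ^ 2 := by field_simp; norm_num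
  have We2 := W.e2
  generalize qF L S M Lg X2 j γ η g' = F at *
  generalize 4 * r / L ^ 11 = Γ at *
  have p := fun i k (h : i < k) (x : ℝ) (hx : 0 ≤ x) => pw36 L1 h hx
  have x1 : 0 ≤ L ^ 2 * F := by positivity
  have x2 : 0 ≤ L * aa := by positivity
  have x3 : 0 ≤ L * d := by positivity
  have x4 : 0 ≤ L ^ 2 * r ^ 2 := by positivity
  have Lw' : Lw S M m a (2 * S.C) u V V2 w (y / 2) g' L r (13 / 2 * log S.n) Γ0 (4 * L ^ 2 * F)
      (L * aa) (L * (aa + d)) F (L ^ 2 * F * r ^ 2) (L * qO L S M Lg X2)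
      (3 * qO L S M Lg X2 + 2 * L ^ 3 * Γ ^ 2) (qJ L S j γ)
      (4 * L ^ 2 * F + Γ0 + L * (aa + d) + L ^ 2 * r ^ 2) := by
    refine ⟨by linarith [W.w2], by linarith [W.w1], k.θr, k.Pa, W.VV, VJ, w1, w2, w3, w4,
      fun t ht => W.hp t ⟨by linarith [ht.1], ht.2⟩, top, ?_, W.hg V2 (W.nw.uv.trans W.VV) le_rfl,
      by positivity, by linarith [mul_nonneg x1 (sq_nonneg r)], by positivity,
      by linarith [p 1 50 (by norm_num) _ o0, k.or, mul_nonneg L0.le o0], by positivity, ?_,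
      di.imp id fun c => ?_, by positivity, by linarith, by linarith, by linarith, by linarith,
      by linarith [p 0 2 (by norm_num) _ F0], by linarith [p 0 2 (by norm_num) _ F0], ?_, ?_⟩
    · rw [← ey]; exact (le_abs_self _).trans We2
    · linarith [p 3 50 (by norm_num) _ o0, k.or, p 6 22 (by norm_num) _ (sq_nonneg Γ),
        sq_nonneg r]
    · rw [← ey]
      have e1 := (A.zh53 y0 yJ).2
      have e2 := h.leg.zm (show V ≤ S.J - 1 by have := W.VV; omega)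
      have e3 := mul_le_mul_of_nonneg_left (show M.s S.J - y + S.v ≤ 2 * (aa + d) by
        linarith [k.va]) C0.le
      have e4 := mul_le_mul_of_nonneg_right (show 2 * S.C ≤ L by linarith)
        (show 0 ≤ aa + d by linarith)
      have e5 := A.lvb_node (W.nw.ju.le.trans W.nw.uv) (W.nw.vJ.le.trans h.i3)
      rw [← ey] at e5
      refine ⟨by linarith [p 0 1 (by norm_num) _ (show 0 ≤ aa + d by linarith)], ?_⟩
      unfold uu
      linarith
    · have e1 := pow_le_pow_left₀ (sqrt_nonneg _) W.th 2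
      rw [sq_sqrt h.θ0.le] at e1
      linarith
    · have e1 := mul_le_mul_of_nonneg_right k.lg
        (show 0 ≤ L ^ 14 * (4 * L ^ 2 * F + Γ0 + L * (aa + d) + L ^ 2 * r ^ 2) by positivity)
      have e2 := mul_le_mul_of_nonneg_right k.r1 r0.le
      linarith [p 17 50 (by norm_num) _ F0, k.Fr, p 15 33 (by norm_num) _ Γ0', k.Γr,
        p 16 50 (by norm_num) _ a0.le, k.ar, p 16 22 (by norm_num) _ d0,
        p 17 66 (by norm_num) _ (sq_nonneg r)]
  obtain ⟨q1, q2⟩ := H1 W.nw le_rfl nk (fun i k' n => k.gap i k' (n.up le_rfl W.VV))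
    (fun t ht => W.hp t ⟨by linarith [ht.1, W.nw.bu], by
      linarith [ht.2, h.s_le_C h.i3]⟩) Lw'
  refine ⟨?_, fun t ht => q2 t ⟨by linarith [ht.1], ht.2⟩⟩
  linarith [p 1 4 (by norm_num) _ a0.le, p 3 4 (by norm_num) _ a0.le, p 2 5 (by norm_num) _ F0,
    p 4 5 (by norm_num) _ F0, mul_nonneg (pow_pos L0 4).le a0.le, mul_nonneg (pow_pos L0 5).le F0]

set_option maxHeartbeats 1600000 in
/-- **floor, lag and location** -/
theorem fl36 (T0 : ℝ) : ∃ K0 : ℝ, ∀ {S : Sc} {M : Md} {m : ℕ} {a : ℝ}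
    {K E L j γ l0 l V0 X Lg X2 X3 G0 aa g' y r : ℝ} {η : ℝ → ℝ} {Gn : ℕ → Prop} {u V V2 : ℕ},
    2 * S.C = T0 → K0 ≤ K → Rg K E L S → L ^ 200 ≤ E → 14 ≤ log (S.n : ℝ) →
    LN E S M l0 l V0 X Lg X2 X3 G0 η → Qn L S M m a l X Lg X2 j γ η aa g' →
    (∀ U V, 5 / 4 * l ≤ M.s U → M.s V + aa / 5 ≤ M.s S.J → Nt E L S M m a Lg X X2 η Gn U V) →
    Sq K L S M m a Lg X2 j γ η aa g' Gn u V V2 y r →
    ∀ w, S.J ≤ w → w ≤ S.Jp → |sb M m a (w + 1) - M.s S.J| ≤ qF L S M Lg X2 j γ η g' →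
    (∀ t ∈ Ico (sb M m a (w + 1)) (2 * S.C), Pr.Reg48.Gd (lb M S m a (2 * S.C)) t ≤ 0) →
    Fl L S M m a (qF L S M Lg X2 j γ η g') aa V y r := by
  obtain ⟨K1, H1⟩ := call36 T0
  obtain ⟨K2, K21, HG⟩ := gd_nd T0
  obtain ⟨K3, -, H3⟩ := Nw.main T0
  refine ⟨max K1 (max K2 K3), fun {S M m a K E L j γ l0 l V0 X Lg X2 X3 G0 aa g' y r η Gn u V V2} hT
    hK G LE lg H Q hN W w w1 w2 w3 w4 => ?_⟩
  have A := W.nw.at'
  have h := A.cl
  have C1 := h.C1
  have C0 := h.C0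
  have a0 := W.a0
  have l0' := Q.F.l0
  have lJ := Q.lJ
  have su := W.su
  have lu : 5 / 4 * l ≤ M.s u := by linarith
  have Nd := hN u V2 lu (by linarith [W.s2])
  obtain ⟨Γ0, k⟩ : ∃ Γ0, Sk L S M m a (qF L S M Lg X2 j γ η g') (qO L S M Lg X2) aa Gn u V2 y r Γ0 :=
    ⟨_, W.kit G LE lg Q Nd⟩
  have call := H1 hT ((le_max_left _ _).trans hK) W k w w1 w2 w3 w4
  have KL : K2 ≤ L := (le_mul_of_one_le_right (by linarith) C1).trans
    ((mul_le_mul_of_nonneg_right (((le_max_left _ _).trans (le_max_right _ _)).trans hK)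
      C0.le).trans G.LK)
  have nk3 := W.nk.anti53 C0.le (((le_max_right _ _).trans (le_max_right _ _)).trans hK)
  subst hT
  have L1 := k.L1
  have L0 : 0 < L := by linarith
  have r0 := k.r0
  have F0 := k.F0
  have o0 := k.o0
  have Γ0' := k.Γ0'
  have ey := W.ey
  have uV := W.nw.uv
  have VJ := W.VJ
  have VV := W.VV
  have i3 := h.i3
  have C3 : S.C ≤ S.C ^ 3 := le_self_pow₀ C1 (by norm_num)
  have C2 : S.C ^ 2 ≤ S.C ^ 3 := pow_le_pow_right₀ C1 (by norm_num)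
  have LC := k.LC
  have ρ0 : 0 ≤ log (S.n : ℝ) * L * r := by have := k.lg1; positivity
  have y0 : 0 ≤ y := by linarith [W.nw.a0]
  have y1 := W.y1
  have yJ : y < M.s S.J := by linarith
  have sJ : M.s S.J ≤ S.C := h.s_le_C i3
  have zy := A.lvb_node (W.nw.ju.le.trans uV) (W.nw.vJ.le.trans i3)
  have p := fun i k (h : i < k) (x : ℝ) (hx : 0 ≤ x) => pw36 L1 h hx
  have main : M.z (S.J - 1) - M.z V ≤ L ^ 6 * (aa + qF L S M Lg X2 j γ η g') ∧
      ∀ t ∈ Icc (y - 13 * (log S.n * L * r)) (2 * S.C),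
        M.b * Pr.GG (lb M S m a (2 * S.C)) t ≤ 1 - r ^ 2 / (2 * S.C) := by
    have x1 := mul_nonneg (pow_pos L0 6).le a0.le
    have x2 := mul_nonneg (pow_pos L0 6).le F0
    rcases W.di2 with e | ⟨q, n, c⟩
    · obtain ⟨q1, q2⟩ := call 0 le_rfl (by simpa using r0.le) (.inl e)
      exact ⟨by linarith [p 4 6 (by norm_num) _ a0.le, p 5 6 (by norm_num) _ F0], q2⟩
    have d1 := k.gap V q n
    rw [← ey] at d1
    obtain ⟨q1, q2⟩ := call Γ0 Γ0' (by linarith [p 22 33 (by norm_num) _ Γ0', k.Γr])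
      (.inr (by linarith))
    obtain ⟨-, Vq, qV, gV, gq, -⟩ := id n
    have qJ' : q < S.J := qV.trans_lt VJ
    have jV := W.nw.ju.trans_le uV
    have z0 : 0 ≤ M.z q - M.z V := sub_nonneg.2 (h.leg.zm Vq)
    have z1 : M.z q ≤ M.z (S.J - 1) := h.leg.zm (by omega)
    have K0 : 10 * (L ^ 1 * (M.z (S.J - 1) - M.z V)) ≤ r := by
      have := mul_le_mul_of_nonneg_left q1 L0.le
      linarith [p 5 50 (by norm_num) _ a0.le, k.ar, p 6 50 (by norm_num) _ F0, k.Fr,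
        p 4 33 (by norm_num) _ Γ0', k.Γr]
    have zz : 0 ≤ M.z (S.J - 1) - M.z V := by linarith
    have K1' := p 0 1 (by norm_num) _ zz
    have a1 := p 1 50 (by norm_num) _ a0.le
    have a2 := p 0 1 (by norm_num) _ a0.le
    have a3 := p 0 33 (by norm_num) _ Γ0'
    have a4 := k.ar
    have a5 := k.Γr
    have s1 : M.s S.J - M.s q ≤ r / 2 := by
      have e1 := (A.s_z (i := q) (k := S.J - 1) (h.i1.trans (jV.le.trans Vq)) (by omega)
        A.J_pred.2.1).2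
      have e2 := mul_le_mul (show S.C ^ 2 ≤ L by linarith [pow_pos C0 3])
        (show M.z (S.J - 1) - M.z q ≤ M.z (S.J - 1) - M.z V by linarith) (by linarith) L0.le
      have e3 := mul_le_mul (show S.C ≤ L by linarith) k.va h.v0.le L0.le
      linarith [A.s_pred.2]
    have s2 : M.s q ≤ M.s S.J := h.sm qJ'.le
    have mo := A.sb_mono (Nat.succ_le_succ Vq)
    simp only [Nat.succ_eq_add_one] at mo
    rw [← ey] at mo
    have m1 := A.sb_mem (W.nw.vJ.le.trans i3)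
    have m2 := A.sb_mem (qJ'.le.trans i3)
    have p1 := HG A le_rfl (h.i1.trans (jV.le.trans Vq)) qJ' m1 (W.hp _ m1)
    have p2 := HG A le_rfl (h.i1.trans (jV.le.trans Vq)) qJ' m2 (W.hp _ m2)
    rw [zy, abs_sub_comm (M.z V), abs_of_nonneg z0] at p1
    rw [A.lvb_node (jV.le.trans Vq) (qJ'.le.trans i3), sub_self, abs_zero] at p2
    have e1 : |sb M m a (V + 1) - M.s q| ≤ r := by
      rw [← ey]; exact abs_le.2 ⟨by linarith, by linarith⟩
    have e2 : |sb M m a (q + 1) - M.s q| ≤ r := abs_le.2 ⟨by linarith, by linarith⟩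
    have rq : r ≤ M.s q := W.nk.ra.trans (W.nw.su.trans (h.sm (uV.trans Vq)))
    have e3 : S.ms (M.s q) / M.s q ≤ 16 * r := by
      rw [div_le_iff₀ (by linarith)]
      linarith [mul_le_mul_of_nonneg_left rq r0.le, h.msm s2, k.θr]
    have e4 := mul_le_mul_of_nonneg_right (show 32 * S.C ≤ L by linarith) r0.le
    have e5 := mul_le_mul_of_nonneg_left e3 C0.le
    have J0 : 0 ≤ qJ L S j γ := (Hp_nn A _).trans (W.hp _ m1)
    have jr : qJ L S j γ ≤ r := by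
      linarith [W.nk.jF, p 0 50 (by norm_num) _ F0, k.Fr]
    have e6 := mul_le_mul KL (add_le_add jr e1) (by positivity) L0.le
    have e7 := mul_le_mul KL (add_le_add jr e2) (by positivity) L0.le
    have e8 := mul_le_mul_of_nonneg_right L1 r0.le
    have Nq := hN u q lu (by linarith [W.s2, h.sm qV])
    have fin := e_two G Q.F H Nq (by linarith) su le_rfl uV Vq qJ' W.nw.gu gV gq
      (fun i k' n' => k.gap i k' (n'.up le_rfl qV)) (Q := 6 * r) (by linarith)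
    have g2 : L ^ 66 * Γ0 ^ 2 = 16 * r ^ 2 := by
      have : (L ^ 33 * Γ0) ^ 2 = (4 * r) ^ 2 := by rw [k.Γr]
      linarith
    have f1 := W.nk.eF
    have f8 := W.nw.e0
    have f4 := mul_le_mul_of_nonneg_right k.oF r0.le
    have sh := A.short53 (F := 7 * qF L S M Lg X2 j γ η g') jV Vq qJ' LC r0 k.θr
      (fun t ht => q2 t ⟨by linarith [ht.1], ht.2.le.trans m2.2⟩) (Nd.gap V q n)
      (e := 16 * L * η (M.s S.J) + qO L S M Lg X2 * (6 * r))
      (cm := qO L S M Lg X2 + 2 * L ^ 3 * Γ0 ^ 2)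
      (by linarith [(abs_le.1 fin).1]) (W.hg V uV VV) (W.hg q (uV.trans Vq) qV) W.nw.θ0 W.nk.θ1
      (by linarith [mul_nonneg o0 r0.le]) (by linarith) o0
      (by linarith [p 2 50 (by norm_num) _ o0, k.or, mul_nonneg (pow_pos L0 2).le o0])
      (by positivity)
      (by linarith [p 0 50 (by norm_num) _ o0, k.or, p 3 66 (by norm_num) _ (sq_nonneg Γ0),
        sq_nonneg r])
      (by linarith [W.nk.gF, mul_nonneg F0 (sq_nonneg r)]) (by linarith [W.nk.δF])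
    rw [← ey] at sh
    obtain ⟨q3, -⟩ := call (L ^ 2 * (7 * qF L S M Lg X2 j γ η g')) (by positivity)
      (by linarith [p 24 50 (by norm_num) _ F0, k.Fr, mul_nonneg (pow_pos L0 24).le F0])
      (.inr (by linarith))
    exact ⟨by linarith [p 4 6 (by norm_num) _ a0.le, p 5 6 (by norm_num) _ F0], q2⟩
  refine ⟨main.2, main.1, fun t c1 c2 => ?_, ?_⟩
  · rcases le_total (t + 7 * (2 * log S.n * L * r)) y with c | c
    · exact W.uq t c1 c
    exact H3 W.nw le_rfl nk3 (fun i k' n => W.gap i k' (n.up le_rfl VV))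
      (fun s hs => W.hp s ⟨by linarith [hs.1, W.nw.bu], by linarith [hs.2]⟩)
      (by linarith [W.w2]) t ⟨by linarith [W.w1], by linarith⟩
  · rw [← ey] at zy
    unfold L63.uq uu
    linarith [A.zh_le_8 yJ, main.1]

end Crest.Agent.T156.Alt.L63

end
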