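import Crest.Agent.T156.CutC_8
import Crest.Agent.T156.ClAq_63

/-!
# Row 156, block (L), (TL2): the elementary part of the closing argument (helper63)
-/

set_option autoImplicit false

noncomputable section

namespace Crest.Agent.T156.Alt.L63

open MeasureTheory Real Set intervalIntegral
open Crest.Agent.T156.Cut8

section pure

variable {T : ℝ} {u β J : ℝ → ℝ}

/-- `J` is the tail integral of `u` -/
structure Tl (T : ℝ) (u J : ℝ → ℝ) : Prop where
  lu : LB T u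
  eq : ∀ t, J t = ∫ s in t..T, u s

namespace Tl

theorem cont (h : Tl T u J) (T0 : 0 ≤ T) : ContinuousOn J (Icc 0 T) := by
  rw [show J = fun t => ∫ s in t..T, u s from funext h.eq]
  exact h.lu.tail ⟨T0, le_rfl⟩

theorem lJ (h : Tl T u J) (T0 : 0 ≤ T) : LB T J := .of_cont (h.cont T0)

theorem sub (h : Tl T u J) {p q : ℝ} (h0 : 0 ≤ p) (h1 : p ≤ q) (h2 : q ≤ T) :
    |J p - J q| ≤ ∫ s in p..q, |u s| := by
  rw [h.eq, h.eq, int_split h.lu (a := p) (b := q) (c := T) ⟨h0, by linarith⟩ ⟨by linarith, h2⟩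
    ⟨by linarith, le_rfl⟩, add_sub_cancel_right]
  exact abs_integral_le_integral_abs h1

/-- a time with small `J` in every window -/
theorem mean (h : Tl T u J) {c x δ A : ℝ} (c0 : 0 ≤ c) (hx : c ≤ x) (δ0 : 0 < δ) (hT : x + δ ≤ T)
    (A0 : 0 ≤ A) (hE : ∫ s in c..T, J s ^ 2 ≤ δ * A ^ 2) : ∃ t ∈ Icc x (x + δ), |J t| ≤ A := by
  have T0 : 0 ≤ T := by linarith
  obtain ⟨t, ht, hm⟩ := isCompact_Icc.exists_isMinOn (s := Icc x (x + δ))
    (nonempty_Icc.2 (by linarith)) (f := fun s => J s ^ 2)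
    (((h.cont T0).mono (Icc_subset_Icc (by linarith) hT)).pow 2)
  refine ⟨t, ht, abs_le_of_sq_le_sq ?_ A0⟩
  have p := int_mono (LB.const (J t ^ 2)) (h.lJ T0).sq (a := x) (b := x + δ) (by linarith)
    (by linarith) hT fun s a b => hm ⟨a.le, b.le⟩
  have q := int_sub_le (h.lJ T0).sq c0 hx (by linarith : x ≤ x + δ) hT le_rfl
    fun _ _ _ => sq_nonneg _
  rw [intervalIntegral.integral_const, smul_eq_mul, add_sub_cancel_left] at p
  exact le_of_mul_le_mul_left (p.trans (q.trans hE)) δ0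

/-- one step: `J` from the sup of `u` -/
theorem step (h : Tl T u J) (lβ : LB T β) (β0 : ∀ t, 0 ≤ β t) {c δ A x y x0 y0 P I : ℝ}
    (a0 : 0 ≤ x0) (a1 : x0 ≤ x) (a2 : x ≤ c) (δ0 : 0 < δ) (a3 : c + δ ≤ y) (a4 : y ≤ y0)
    (a5 : y0 ≤ T) (A0 : 0 ≤ A) (P0 : 0 ≤ P) (hE : ∫ s in c..T, J s ^ 2 ≤ δ * A ^ 2)
    (hu : ∀ t, x ≤ t → t ≤ y → |u t| ≤ P + β t) (hI : ∫ s in x0..y0, β s ≤ I) {t : ℝ}
    (h1 : x ≤ t) (h2 : t ≤ y) : |J t| ≤ A + (c + δ) * P + I := by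
  have key : ∀ p q, x ≤ p → p ≤ q → q ≤ y → q - p ≤ c + δ → |J p - J q| ≤ (c + δ) * P + I := by
    intro p q b1 b2 b3 b4
    have e1 := h.sub (p := p) (by linarith) b2 (by linarith)
    have e2 := int_mono h.lu.abs ((LB.const P).add lβ) (a := p) (by linarith) b2 (by linarith)
      fun s s1 s2 => hu s (by linarith) (by linarith)
    have mp : p ∈ Icc 0 T := ⟨by linarith, by linarith⟩
    have mq : q ∈ Icc 0 T := ⟨by linarith, by linarith⟩
    rw [integral_add ((LB.const P).ii mp mq) (lβ.ii mp mq), intervalIntegral.integral_const,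
      smul_eq_mul] at e2
    have e3 := int_sub_le lβ a0 (a1.trans b1) b2 (b3.trans a4) a5 fun s _ _ => β0 s
    linarith [mul_le_mul_of_nonneg_right b4 P0]
  have c0 : 0 ≤ c := by linarith
  rcases le_total t (c + δ) with e | e
  · obtain ⟨s, hs, e1⟩ := h.mean c0 le_rfl δ0 (by linarith) A0 hE
    rcases le_total t s with f | f
    · linarith [abs_sub_abs_le_abs_sub (J t) (J s), key t s h1 f (by linarith [hs.2])
        (by linarith [hs.2])]
    · linarith [abs_sub_abs_le_abs_sub (J t) (J s), abs_sub_comm (J t) (J s),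
        key s t (by linarith [hs.1]) f h2 (by linarith [hs.1])]
  · obtain ⟨s, hs, e1⟩ := h.mean (x := t - δ) c0 (by linarith) δ0 (by linarith) A0 hE
    linarith [abs_sub_abs_le_abs_sub (J t) (J s), abs_sub_comm (J t) (J s),
      key s t (by linarith [hs.1]) (by linarith [hs.2]) h2 (by linarith [hs.1])]

/-- **the boundary layers are removed** by `K` steps -/
theorem iter (h : Tl T u J) (lβ : LB T β) (β0 : ∀ t, 0 ≤ β t) {c δ A x0 y0 w w' L ι I j0 : ℝ}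
    {K : ℕ} (a0 : 0 ≤ x0) (w0 : 0 ≤ w) (w0' : 0 ≤ w') (a2 : x0 + K * w ≤ c) (δ0 : 0 < δ)
    (a3 : c + δ ≤ y0 - K * w') (a5 : y0 ≤ T) (A0 : 0 ≤ A) (L0 : 0 ≤ L) (ι0 : 0 ≤ ι)
    (hL : (c + δ) * L ≤ 1 / 2) (hE : ∫ s in c..T, J s ^ 2 ≤ δ * A ^ 2)
    (hI : ∫ s in x0..y0, β s ≤ I) (hj : ∀ t, x0 ≤ t → t ≤ y0 → |J t| ≤ j0)
    (hA : ∀ j x y, x0 ≤ x → x ≤ x0 + K * w → y ≤ y0 → (∀ t, x ≤ t → t ≤ y → |J t| ≤ j) →
      ∀ t, x + w ≤ t → t + w' ≤ y → |u t| ≤ L * (j + ι) + β t) :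
    ∀ k ≤ K, ∀ t, x0 + k * w ≤ t → t ≤ y0 - k * w' → |J t| ≤ 2 * (A + I) + ι + j0 / 2 ^ k := by
  have K0 : (0 : ℝ) ≤ K := Nat.cast_nonneg _
  have xy : x0 ≤ y0 := by nlinarith [mul_nonneg K0 w0, mul_nonneg K0 w0']
  have I0 : 0 ≤ I := (integral_nonneg xy fun s _ => β0 s).trans hI
  have j00 : 0 ≤ j0 := (abs_nonneg _).trans (hj x0 le_rfl xy)
  intro k
  induction k with
  | zero => intro _ t h1 h2; simp at h1 h2 ⊢; linarith [hj t h1 h2]
  | succ k ih =>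
    intro hk t h1 h2
    have k1 : (k : ℝ) + 1 ≤ K := by exact_mod_cast hk
    have k0 : (0 : ℝ) ≤ k := Nat.cast_nonneg _
    have b1 := mul_le_mul_of_nonneg_right k1 w0
    have b2 := mul_le_mul_of_nonneg_right k1 w0'
    have b3 := mul_nonneg k0 w0
    have b4 := mul_nonneg k0 w0'
    push_cast at h1 h2
    have p0 : 0 ≤ 2 * (A + I) + ι + j0 / 2 ^ k + ι := by positivity
    have := h.step lβ β0 (x := x0 + (k + 1) * w) (y := y0 - (k + 1) * w') a0 (by linarith)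
      (by linarith) δ0 (by linarith) (by linarith) a5 A0 (mul_nonneg L0 p0) hE
      (fun s s1 s2 => hA _ (x0 + k * w) (y0 - k * w') (by linarith) (by linarith) (by linarith)
        (ih (by omega)) s (by linarith) (by linarith)) hI h1 h2
    have q := mul_le_mul_of_nonneg_right hL p0
    have e : j0 / 2 ^ (k + 1) = j0 / 2 ^ k / 2 := by rw [pow_succ, div_div]
    rw [e]
    linarith

/-- `∫ |J|` below the level `c` -/
theorem low (h : Tl T u J) {b x c j a0 a1 : ℝ} (b0 : 0 ≤ b) (bx : b ≤ x) (xc : x ≤ c) (cT : c ≤ T)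
    (hj : ∀ t, x ≤ t → t ≤ c → |J t| ≤ j) (h0 : ∫ s in (0 : ℝ)..b, |u s| ≤ a0)
    (h1 : ∫ s in b..x, |u s| ≤ a1) : ∫ s in (0 : ℝ)..c, |J s| ≤ c * j + x * a1 + b * a0 := by
  have T0 : 0 ≤ T := by linarith
  have lJ := (h.lJ T0).abs
  have jx := hj x le_rfl xc
  have p : ∀ t, b ≤ t → t ≤ x → |J t| ≤ j + a1 := fun t t1 t2 => by
    linarith [abs_sub_abs_le_abs_sub (J t) (J x), h.sub (b0.trans t1) t2 (by linarith),
      int_sub_le h.lu.abs b0 t1 t2 le_rfl (by linarith) fun _ _ _ => abs_nonneg _]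
  have q : ∀ t, 0 ≤ t → t ≤ b → |J t| ≤ j + a1 + a0 := fun t t1 t2 => by
    linarith [abs_sub_abs_le_abs_sub (J t) (J b), h.sub t1 t2 (by linarith), p b le_rfl bx,
      int_sub_le h.lu.abs le_rfl t1 t2 le_rfl (by linarith) fun _ _ _ => abs_nonneg _]
  rw [int_split lJ (b := b) ⟨le_rfl, T0⟩ ⟨b0, by linarith⟩ ⟨by linarith, cT⟩,
    int_split lJ (a := b) (b := x) ⟨b0, by linarith⟩ ⟨by linarith, by linarith⟩ ⟨by linarith, cT⟩]
  linarith [int_le_const lJ le_rfl b0 (by linarith) fun t a b => q t a.le b.le,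
    int_le_const lJ b0 bx (by linarith) fun t a b => p t a.le b.le,
    int_le_const lJ (b0.trans bx) xc cT fun t a b => hj t a.le b.le]

/-- `∫ |J|` from the two parts -/
theorem iota (h : Tl T u J) {c ε e : ℝ} (c0 : 0 ≤ c) (cT : c ≤ T) (e0 : 0 ≤ e)
    (h1 : ∫ s in (0 : ℝ)..c, |J s| ≤ ε) (h2 : ∫ s in c..T, J s ^ 2 ≤ e ^ 2) :
    ∫ s in (0 : ℝ)..T, |J s| ≤ ε + (1 + T) * e := by
  have T0 : 0 ≤ T := c0.trans cT
  rw [int_split (h.lJ T0).abs (b := c) ⟨le_rfl, T0⟩ ⟨c0, cT⟩ ⟨T0, le_rfl⟩]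
  have p := int_abs_le (h.lJ T0) c0 cT le_rfl h2
  have q : √((T - c) * e ^ 2) ≤ (1 + T) * e := sqrt_le_iff.2 ⟨by positivity, by
    rw [mul_pow]
    exact mul_le_mul_of_nonneg_right (by nlinarith) (sq_nonneg _)⟩
  linarith

end Tl

/-- the area of the root zone from the one of the next window -/
theorem root_area {zb zh : ℝ → ℝ} (mb : Monotone zb) (mh : Monotone zh) (p0 : ∀ t, 0 ≤ zb t)
    (q0 : ∀ t, 0 ≤ zh t) {b H a1 : ℝ} (b0 : 0 ≤ b) (bT : 2 * b ≤ T) (hH : zh (2 * b) ≤ H)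
    (h1 : ∫ s in b..2 * b, |zb s - zh s| ≤ a1) :
    ∫ s in (0 : ℝ)..b, |zb s - zh s| ≤ a1 + b * H := by
  have lu : LB T fun s => |zb s - zh s| := ((LB.of_mono mb).sub (LB.of_mono mh)).abs
  have e1 := int_mono (LB.const (zb b - H)) lu b0 (by linarith : b ≤ 2 * b) bT fun s s1 s2 => by
    linarith [mb s1.le, mh s2.le, le_abs_self (zb s - zh s)]
  rw [intervalIntegral.integral_const, smul_eq_mul] at e1
  have a0 : 0 ≤ a1 := (integral_nonneg (by linarith) fun _ _ => abs_nonneg _).trans h1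
  have e2 := int_le_const lu le_rfl b0 (by linarith) (K := max (zb b) H) fun s _ s2 =>
    abs_le.2 ⟨by linarith [p0 s, mh (show s ≤ 2 * b by linarith), le_max_right (zb b) H],
      by linarith [q0 s, mb s2.le, le_max_left (zb b) H]⟩
  rcases max_choice (zb b) H with e | e <;> rw [e] at e2 <;> linarith

end pure

/-- **crude location** of a monotone sequence from the quadratic sum -/
theorem crude {z f g : ℕ → ℝ} {lo hi k : ℕ} (hz : Monotone z) (hf : Monotone f) {L e R ρ : ℝ}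
    (L1 : 1 ≤ L) (e0 : 0 ≤ e) (R0 : 0 < R) (hρ : 2 * L * R + e ≤ ρ)
    (gm : ∀ i k, i ≤ k → k ≤ hi → g i ≤ g k)
    (lip : ∀ i k, lo ≤ i → i ≤ k → k < hi → g (k + 1) - g i ≤ L * (z k - z i) + e)
    (hS : Ap63.Sx z (fun j => f j - g j) lo hi 2 ≤ R ^ 3) (h1 : lo < k) (h2 : k ≤ hi) :
    (R ≤ z hi - z (k - 1) → f k - g k ≤ 2 * ρ) ∧
      (g k - f k ≤ 2 * ρ ∨ g k ≤ g (lo + 1) + ρ) := by
  have LR : R ≤ L * R := le_mul_of_one_le_left R0.le L1
  have ρ0 : 0 ≤ ρ := by linarith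
  have r2 : (2 * R) ^ 2 ≤ ρ ^ 2 := pow_le_pow_left₀ (by linarith) (by linarith) 2
  have R3 := pow_pos R0 3
  have no : ¬ ρ ^ 2 * (ρ - e) ≤ L * Ap63.Sx z (fun j => f j - g j) lo hi 2 := fun h => by
    have a1 := mul_le_mul r2 (show 2 * L * R ≤ ρ - e by linarith) (by positivity) (sq_nonneg _)
    have a2 := mul_le_mul_of_nonneg_left hS (by linarith : 0 ≤ L)
    have a3 := mul_pos (by linarith : 0 < L) R3
    nlinarith
  refine ⟨fun hw => le_of_not_gt fun hc => ?_, or_iff_not_imp_left.2 fun hc => ?_⟩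
  · rcases Ap63.up hz hf (by linarith) gm lip h1 h2 ρ0 hc.le 2 with p | p
    · have a1 := mul_le_mul r2 hw R0.le (sq_nonneg _)
      nlinarith
    · exact no p
  · exact (Ap63.dn hz hf (by linarith) gm lip h1 h2 ρ0 (not_le.1 hc).le 2).resolve_right no

end Crest.Agent.T156.Alt.L63

end
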