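import Crest.Agent.T156.TLqD_53
import Crest.Agent.T156.TLp_62

/-!
# Row 156, block (L): plateau nodes for the linear regime, statement (helper53)
-/

set_option autoImplicit false

noncomputable section

namespace Crest.Agent.T156.Alt.L63

open Crest.Agent.T156.Alt.L69

/-- **plateau nodes with sloped partners at every distance in `[aa / 5, D]` of the corner** -/
def PNq : Prop := CL fun E Λ S M m a =>
  ∀ G1 u1 u2 j γ Lc ηc τ l0 l X Xp Vt Lg Lp X2 X3 X4 G0 η N g t1 ℓ En p0,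
  Hy E S M m a G1 u1 u2 j γ Lc ηc τ l0 l X Xp Vt Lg Lp X2 X3 X4 G0 η N g t1 (M.s S.J) ℓ En p0 →
  ∀ aa g' R2, LQ E S M X Xp Vt Lg Lp X2 G0 u1 u2 j γ η aa g' R2 →
  ∀ D, aa ≤ D → E * D ≤ 1 →
  ∃ Pn, L62.PN S M m a (2 * S.C) Pn (fun k => Λ * (Lg ^ 2 * ap M S Xp Vt γ k) ^ 2)
    (Λ * eQ S M X Xp Vt Lg Lp X2 G0 u1 j γ D η) (Λ * X2) (8 * u2) (aa / (100 * S.C ^ 3)) aa (D / aa)

end Crest.Agent.T156.Alt.L63

end
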