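import Crest.Agent.T156.TLqR_45
import Crest.Agent.T156.TLqP_53
import Crest.Agent.T156.TL2Q_63

/-!
Row 156, block (L) (helper45): the spread of the plateau in the linear regime, on the numbers `LQ`.
-/

set_option autoImplicit false

noncomputable section

namespace Crest.Agent.T156.Alt.L63

open Set Real
open Crest.Agent.T156.Alt.L69 Crest.Agent.T156.Alt.Mp9 Crest.Agent.T156.Alt.Mp9.At

/-- **the cut node `w`, the first controlled node `kA`, the spread** -/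
structure Sw (L : ℝ) (S : Sc) (M : Md) (m : ℕ) (a X2 aa R2 x : ℝ) (Pn : ℕ → Prop) (w kA : ℕ) :
    Prop where
  pw : Pn w
  k1 : S.J < kA
  k2 : kA ≤ w
  k3 : w < S.Jp
  w1 : 1 ≤ L * (1 - M.z w)
  w2 : 1 ≤ L * (M.z (w - 1) - M.z (S.J - 1))
  cz : ∃ c0, 2 ≤ c0 * L ∧ 2 * S.C * c0 ≤ 1 ∧ 1 - c0 ≤ M.z (w - 1) ∧ c0 / 2 ≤ 1 - M.z w
  a1 : M.z (kA - 1) - M.z (S.J - 1) ≤ 4 * aa
  conc : ∀ t ∈ Ico (sb M m a (w + 1)) (2 * S.C), Pr.Reg48.Gd (lb M S m a (2 * S.C)) t ≤ 0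
  er : x ≤ L ^ 7 * (S.θ * √R2)
  Gw : |M.G w| ≤ L ^ 2 * (S.θ * √R2)
  γR : M.s S.Jp - M.s S.J ≤ √R2
  XR : X2 ≤ √R2
  nR : 1 / (S.n : ℝ) ≤ S.θ * √R2
  sum : ∀ μ f, S.θ ≤ L ^ 3 * μ → S.C * (L * X2) ≤ μ / 2 → f ≤ sb M m a (S.J + 1) →
    (∀ t, f ≤ t → t ≤ sb M m a (w + 1) → M.b * Pr.GG (lb M S m a (2 * S.C)) t ≤ 1 - μ) →
    ∑ k ∈ Finset.Icc kA S.Jp, dx M k * (sb M m a (k + 1) - sb M m a (w + 1)) ^ 2 ≤
      (L ^ 10 * √R2) ^ 2

set_option maxHeartbeats 1600000 in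
/-- **the linear spread** -/
theorem spq45 (T0 : ℝ) : ∃ K : ℝ, ∀ {S : Sc} {M : Md} {m : ℕ} {a E L G1 u1 u2 j γ Lc ηc τ l0 l X Xp
    Vt Lg Lp X2 X3 X4 G0 N t1 tu ℓ En p0 aa g' R2 D ω B : ℝ} {η g : ℝ → ℝ} {Pn : ℕ → Prop},
    Cx E L S M m a G1 u1 u2 j γ Lc ηc τ l0 l X Xp Vt Lg Lp X2 X3 X4 G0 η N g t1 tu ℓ En p0 →
    2 * S.C ≤ T0 → K ≤ L → LQ E S M X Xp Vt Lg Lp X2 G0 u1 u2 j γ η aa g' R2 → aa ≤ D →
    D ≤ L ^ 3 * √S.θ →
    L62.PN S M m a (2 * S.C) Pn (fun k => L * (Lg ^ 2 * ap M S Xp Vt γ k) ^ 2)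
      (L * eQ S M X Xp Vt Lg Lp X2 G0 u1 j γ D η) (L * X2) (8 * u2) ω aa B →
    ∃ w kA, Sw L S M m a X2 aa R2
      (L * eQ S M X Xp Vt Lg Lp X2 G0 u1 j γ D η + L * (Lg ^ 2 * ap M S Xp Vt γ w) ^ 2) Pn w kA := by
  obtain ⟨uc, c, uc0, cp, hu⟩ := Pr.Reg48.Gd_neg T0
  obtain ⟨c0, c00, c01, c02⟩ : ∃ c0, 0 < c0 ∧ c0 ≤ uc ∧ c0 * (|T0| + 1) ≤ 1 :=
    ⟨min uc (1 / (|T0| + 1)), by positivity, min_le_left _ _,
      (le_div_iff₀ (by positivity)).1 (min_le_right _ _)⟩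
  refine ⟨32 / c0 + 1 / c, fun {S M m a E L G1 u1 u2 j γ Lc ηc τ l0 l X Xp Vt Lg Lp X2 X3 X4 G0 N t1
    tu ℓ En p0 aa g' R2 D ω B η g Pn} H hT hK Q aD Dθ P => ?_⟩
  have h := H.cl
  have A := H.A
  have C1 := h.C1
  have C0 := h.C0
  have L9 := H.L9
  have L1 := H.L1
  have L0 : 0 < L := by linarith
  have LE := H.LE1
  have θ0 := h.θ0
  have θ1 := H.θ1
  have n0 := h.N0
  have μ0 := H.μ0
  have i1 : 0 < 32 / c0 := by positivity
  have i2 : 0 < 1 / c := by positivity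
  have Lc0 : 32 ≤ L * c0 := (div_le_iff₀ c00).1 (by linarith)
  have Ec0 : 32 ≤ E * c0 := Lc0.trans (mul_le_mul_of_nonneg_right LE c00.le)
  have cC : 2 * S.C * c0 ≤ 1 := by
    linarith only [c02, c00, mul_le_mul_of_nonneg_right (hT.trans (le_abs_self T0)) c00.le]
  have s0 := H.lp.u0
  have a0 : 0 < aa := s0.trans_le Q.a5
  have dn : ∀ k, 0 ≤ dx M k := A.dz_nn
  have u10 : 0 ≤ u1 := by linarith [H.lp.u1a, h.last, h.leg.z1 (S.Jp - 1)]
  have u20 : 0 ≤ u2 := u10.trans H.lp.u1b.1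
  have γ0 : 0 ≤ γ := le_trans (sub_nonneg.2 (h.sm h.i3)) H.lp.γ0
  have X20 := H.X20
  have Xp0 := H.lp.Xp0.1
  have V0 := H.lp.Vt0
  have w0 := H.w30 one_pos
  have R0 : 0 ≤ R2 := le_trans (by positivity) Q.q4
  obtain ⟨s, s1, s2⟩ : ∃ s, s = √R2 ∧ s ^ 2 = R2 := ⟨_, rfl, sq_sqrt R0⟩
  have s3 : 0 ≤ s := s1 ▸ sqrt_nonneg _
  have sq : ∀ {y z : ℝ}, 0 ≤ z → y ^ 2 ≤ z ^ 2 → y ≤ z := fun z0 e => (abs_le_of_sq_le_sq' e z0).2
  have γs : γ ≤ s := sq s3 (by linarith [Q.q4, sq_nonneg X2])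
  have Xs : X2 ≤ s := sq s3 (by linarith [Q.q4, sq_nonneg γ])
  have GP0 : 0 ≤ GP M S := Finset.sum_nonneg fun k _ => mul_nonneg (dn k) (sq_nonneg _)
  have q1 := Q.q1
  have ρ0 : 0 ≤ S.θ * s := by positivity
  have ρ2 : (S.θ * s) ^ 2 = S.θ ^ 2 * R2 := by rw [mul_pow, s2]
  have e1 : eQ S M X Xp Vt Lg Lp X2 G0 u1 j γ (√S.θ) η ≤ S.θ * s := sq ρ0 (by linarith)
  have j0 : 0 ≤ j := le_trans (by positivity) H.ap.j0
  have Np0 : 0 ≤ Np M S Xp Vt γ u1 Lp 2 := add_nonneg u10 (Finset.sum_nonneg fun k _ => by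
    have r : 0 ≤ Rp M S Xp Vt γ k := by unfold Rp; positivity
    have := dn k
    have : 0 ≤ Lp := by linarith [H.lp.Lp1.1]
    positivity)
  have XR := H.R0
  have e2 : eQ S M X Xp Vt Lg Lp X2 G0 u1 j γ D η ≤ L ^ 5 * (S.θ * s) := by
    refine le_trans ?_ (mul_le_mul_of_nonneg_left e1 (by positivity))
    have D0 : 0 ≤ D := a0.le.trans aD
    have η0 : 0 ≤ η 1 := μ0.le.trans (H.μη H.l1 C1)
    have one : ∀ {y : ℝ} (k : ℕ), 0 ≤ y → y ≤ L ^ k * y := fun k y0 =>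
      le_mul_of_one_le_left y0 (one_le_pow₀ L1)
    have b1 : D ≤ L ^ 5 * √S.θ := Dθ.trans (mul_le_mul_of_nonneg_right
      (pow_le_pow_right₀ L1 (by norm_num)) (sqrt_nonneg _))
    have b2 : S.θ + j + X ^ ((1 : ℝ) / 3) + D ≤ L ^ 5 * (S.θ + j + X ^ ((1 : ℝ) / 3) + √S.θ) := by
      linarith only [b1, one (y := S.θ + j + X ^ ((1 : ℝ) / 3)) 5 (by positivity)]
    have b3 : D ^ 3 ≤ L ^ 10 * √S.θ ^ 3 := (pow_le_pow_left₀ D0 Dθ 3).trans (by
      rw [mul_pow, ← pow_mul]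
      exact mul_le_mul_of_nonneg_right (pow_le_pow_right₀ L1 (by norm_num)) (by positivity))
    have b4 : √(S.w3 1 * (Xp + D ^ 3 + γ ^ 3)) ≤ L ^ 5 * √(S.w3 1 * (Xp + √S.θ ^ 3 + γ ^ 3)) := by
      refine sqrt_le_iff.2 ⟨by positivity, ?_⟩
      rw [mul_pow, sq_sqrt (by positivity), ← pow_mul, mul_left_comm, show 5 * 2 = 10 from rfl]
      exact mul_le_mul_of_nonneg_left
        (by linarith only [b3, one (y := Xp + γ ^ 3) 10 (by positivity)]) w0.le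
    unfold eQ
    linarith only [b4, mul_le_mul_of_nonneg_left b2 (sq_nonneg (uw S Lg 1)),
      one (y := η 1 + G0 ^ 2 + Np M S Xp Vt γ u1 Lp 2 + X2 * Xp ^ ((1 : ℝ) / 3)) 5 (by positivity)]
  have e3 : 1 / (S.n : ℝ) ≤ S.θ * s := by
    refine ((H.μη H.l1 C1).trans ?_).trans e1
    unfold eQ
    rw [add_assoc, add_assoc, add_assoc, add_assoc]
    exact le_add_of_nonneg_right (by positivity)
  have g1 : √(GP M S) ≤ S.θ * s := sq ρ0 (by
    rw [sq_sqrt GP0]; linarith [sq_nonneg (eQ S M X Xp Vt Lg Lp X2 G0 u1 j γ (√S.θ) η)])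
  have g2 : S.C * S.θ * γ ≤ S.C * (S.θ * s) := by rw [mul_assoc]; gcongr
  have g3 : S.C * S.θ * γ + √(GP M S) ≤ 2 * S.C * (S.θ * s) := by
    linarith [le_mul_of_one_le_left ρ0 C1]
  have m1 : E * (1 / S.n) ≤ 1 := H.μl'.trans H.l1
  have m2 : 1 / (S.n : ℝ) ≤ 1 := (le_mul_of_one_le_left μ0.le H.E1).trans m1
  have m3 : (1 / (S.n : ℝ)) ^ 2 ≤ 1 / S.n := pow_le_of_le_one μ0.le m2 two_ne_zero
  have dv : ∀ {y : ℝ}, 0 ≤ y → E * y ≤ 1 → 32 * y ≤ c0 := fun y0 e => by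
    linarith only [mul_le_mul_of_nonneg_right Ec0 y0, mul_le_mul_of_nonneg_left e c00.le]
  obtain ⟨u, uu, un, u0, uc4, uR⟩ : ∃ u, 8 * u2 ≤ u ∧ (1 / (S.n : ℝ)) ^ 2 ≤ u ∧ 0 < u ∧
      4 * u ≤ c0 ∧ u ≤ 8 * R2 := by
    have b1 := dv u20 H.lp.u1b.2
    have b2 := dv μ0.le m1
    have b3 : (1 / (S.n : ℝ)) ^ 2 ≤ R2 := by
      rw [← s2]; exact pow_le_pow_left₀ μ0.le (e3.trans (mul_le_of_le_one_left s3 θ1)) 2
    have b4 : u2 ≤ R2 := by linarith [Q.q4, sq_nonneg X2, sq_nonneg γ]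
    rcases le_total (8 * u2) ((1 / (S.n : ℝ)) ^ 2) with e | e
    · exact ⟨_, e, le_rfl, by positivity, by linarith, by linarith⟩
    · exact ⟨_, le_rfl, e, lt_of_lt_of_le (by positivity) e, by linarith, by linarith⟩
  have u1u : u1 ≤ u := by linarith [H.lp.u1b.1]
  have aE : E * aa ≤ 1 := by
    have sJ : 0 < M.s S.J := h.s_pos (by have := h.i2; omega)
    have b0 : 0 ≤ bs S Lg X2 g' η (M.s S.J) := by
      have := (H.μη (t := S.C) (H.l1.trans C1) le_rfl).trans (H.ln.ηa (h.s_le_C h.i3))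
      have : 0 ≤ η (M.s S.J) := by linarith
      have := h.ms_pos sJ.le
      have := Q.g0
      rw [bs, H.mf_eq]; positivity
    exact (mul_le_mul_of_nonneg_left (by linarith) (by linarith)).trans
      (Q.sm.trans (sqrt_le_one.2 θ1))
  have an : 1 / (S.n : ℝ) ≤ aa := by
    have b1 : 1 / (S.n : ℝ) ≤ S.w3 1 := by
      unfold Sc.w3
      rw [H.lt.F1, mul_one]
      exact one_div_le_one_div_of_le (mul_pos n0 θ0) (mul_le_of_le_one_right n0.le θ1)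
    have b2 := (le_mul_of_one_le_left w0.le (one_le_pow₀ (n := 3) H.E1)).trans Q.a3
    refine le_of_pow_le_pow_left₀ three_ne_zero a0.le (le_trans ?_ (b1.trans b2))
    exact pow_le_of_le_one μ0.le m2 three_ne_zero
  have K1 : (16 * S.C) ^ 2 ≤ L := by linarith only [H.KL (c := 256) 2 (by norm_num)]
  obtain ⟨w, kA, pw, Z, av⟩ := sup45 (c0 := c0) (a0 := 2 * aa) (u := u) (K1 := L) h P uu u0 uc4
    (H.lp.u1a.trans u1u) cC s0 (by linarith only [Q.a5])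
    (by linarith only [H.dv (c := 4 * S.C) (by linarith only [H.CE, C0]) a0.le aE]) L0.le
    (fun k p q r => mesh45 h p q (by
      have := (div_le_iff₀' n0).2 (H.ap.jn.fine k p q.le (u1u.trans r))
      linarith only [this, H.Cv, mul_pos C0 h.v0]))
    fun i k p q r d => by
      have b1 := ap45 h Xp0 V0 γ0 w0.le s0 p q (u0.trans_le r) d
      have b0 : 0 ≤ ap M S Xp Vt γ i := by
        have := h.den0 (M.z (i - 1))
        unfold ap; positivity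
      calc L * (Lg ^ 2 * ap M S Xp Vt γ i) ^ 2
          ≤ L * (Lg ^ 2 * (16 * S.C * ap M S Xp Vt γ k)) ^ 2 := by gcongr
        _ = (16 * S.C) ^ 2 * (L * (Lg ^ 2 * ap M S Xp Vt γ k) ^ 2) := by ring
        _ ≤ _ := by gcongr
  have Y4 : ∑ k ∈ (Finset.Icc S.J S.Jp).filter fun k => c0 / 4 ≤ du M k,
      dx M k * (L * (Lg ^ 2 * ap M S Xp Vt γ k) ^ 2) ^ 2 ≤ L ^ 2 * (S.θ * s) ^ 2 := by
    rw [ρ2]
    refine le_trans ?_ (mul_le_mul_of_nonneg_left Q.q2 (sq_nonneg L))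
    rw [Finset.mul_sum]
    refine (Finset.sum_le_sum_of_subset_of_nonneg (fun k hk => ?_)
      fun k _ _ => mul_nonneg (dn k) (sq_nonneg _)).trans
      (le_of_eq (Finset.sum_congr rfl fun k _ => by ring))
    obtain ⟨k1, k2⟩ := Finset.mem_filter.1 hk
    exact Finset.mem_filter.2 ⟨k1, by
      linarith only [Ec0, mul_le_mul_of_nonneg_left k2 (L0.le.trans LE)]⟩
  have x0 := Z.x0
  have ew := P.ez0 w
  set ez := L * (Lg ^ 2 * ap M S Xp Vt γ w) ^ 2 with hez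
  have e4 : 4 * ez ^ 2 ≤ L ^ 5 * (S.θ * s) ^ 2 := by
    have b1 := mul_le_mul_of_nonneg_left (av.trans (mul_le_mul_of_nonneg_left Y4 (sq_nonneg L))) L0.le
    have b2 := mul_le_mul_of_nonneg_right Lc0 (sq_nonneg ez)
    linarith only [b1, b2]
  have e5 := mul_le_mul_of_nonneg_left e2 L0.le
  have e6 := P.x00
  set x := L * eQ S M X Xp Vt Lg Lp X2 G0 u1 j γ D η with hx
  have pw' : ∀ {i k : ℕ} {y : ℝ}, 0 ≤ y → i < k → 1000 * (L ^ i * y) ≤ L ^ k * y := fun {i k y} y0 e => by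
    rw [← mul_assoc]
    refine mul_le_mul_of_nonneg_right (le_trans ?_ (pow_le_pow_right₀ L1 (Nat.succ_le_of_lt e))) y0
    rw [pow_succ']
    exact mul_le_mul_of_nonneg_right (by linarith only [L9]) (by positivity)
  have ρ3 := sq_nonneg (S.θ * s)
  have e7 : (x + ez) ^ 2 ≤ L ^ 13 * (S.θ * s) ^ 2 := by
    have b1 : x ^ 2 ≤ L ^ 12 * (S.θ * s) ^ 2 := (pow_le_pow_left₀ e6 e5 2).trans (le_of_eq (by ring))
    have b2 := pw' (i := 12) (k := 13) ρ3 (by norm_num)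
    have b3 := pw' (i := 5) (k := 13) ρ3 (by norm_num)
    linarith only [sq_nonneg (x - ez), b1, b2, b3, e4, mul_nonneg (pow_pos L0 13).le ρ3]
  have cc : 2 * c0 ≤ 1 / S.C := by rw [le_div_iff₀ C0]; linarith only [cC]
  have hu' : ∀ t, 0 ≤ t → t < 2 * S.C → 1 - c0 ≤ T157.Pf.lvr 1 (lb M S m a (2 * S.C)) t →
      Pr.Reg48.Gd (lb M S m a (2 * S.C)) t ≤ -c := fun t t0 t1 z =>
    hu _ A.okb.1 (A.okb.2.trans_le hT) t t0 (by rwa [A.okb.2]) (by linarith only [z, c01])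
  refine ⟨w, kA, pw, Z.k1, Z.k2, Z.k3, ?_, ?_,
    ⟨c0, by linarith only [Lc0], cC, Z.w1, Z.w2⟩, by linarith only [Z.a02], fun t ht => ?_, ?_, ?_,
    s1 ▸ H.lp.γ0.trans γs, s1 ▸ Xs, s1 ▸ e3, fun μ f hμ hl f2 fl => ?_⟩
  · linarith only [mul_le_mul_of_nonneg_left Z.w2 L0.le, Lc0]
  · linarith only [mul_le_mul_of_nonneg_left (show c0 ≤ M.z (w - 1) - M.z (S.J - 1) by
      linarith only [Z.w1, h.atom.2, cc]) L0.le, Lc0]
  · have k3 := Z.k3.le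
    have := Sc48.lvr_mono A.okb.1.1 ht.1
    rw [A.lvb_node (by have := Z.k1; have := Z.k2; have := h.i2; omega) k3] at this
    linarith only [cp, hu' t ((A.sb_mem k3).1.trans ht.1) ht.2
      (by linarith only [Z.w1, A.dz_nn w, this])]
  · rw [← s1]
    refine sq (by positivity) (e7.trans ?_)
    rw [mul_pow (L ^ 7), ← pow_mul]
    exact mul_le_mul_of_nonneg_right (pow_le_pow_right₀ L1 (by norm_num)) ρ3
  · rw [← s1]
    have b1 : 1 ≤ L * √(c0 / 2) := by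
      rw [← sqrt_sq L0.le, ← sqrt_mul (sq_nonneg _)]
      exact one_le_sqrt.2 (by linarith only [mul_le_mul_of_nonneg_left Lc0 L0.le, L1])
    have b2 : (S.C * S.θ * γ + √(GP M S)) / √(c0 / 2) ≤ L * (2 * S.C * (S.θ * s)) := by
      rw [div_le_iff₀ (by positivity)]
      linarith only [g3, mul_le_mul_of_nonneg_right b1 (show 0 ≤ 2 * S.C * (S.θ * s) by positivity)]
    have b3 := mul_le_mul_of_nonneg_right (show 3 * S.C ≤ L by
      linarith only [H.KL (c := 3) 1 (by norm_num)]) (mul_nonneg L0.le ρ0)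
    have b4 := le_mul_of_one_le_left (mul_nonneg C0.le ρ0) L1
    linarith only [Z.Gw A H.lp.γ0, b2, b3, b4, g2]
  · have μp : 0 < μ := pos_of_mul_pos_left (b := L ^ 3) (by linarith only [hμ, θ0])
      (by positivity)
    have r := Z.sum A (Lq := 3 * L) H.lp.γ0 μp cp
      ((mul_le_mul_of_nonneg_right h.b1 (by positivity)).trans hl) f2 fl hu'
      (le_trans (log_le_log (by positivity) (show 1 / (2 * aa) ≤ S.n by
        rw [div_le_iff₀ (by positivity)]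
        rw [div_le_iff₀ n0] at an
        linarith only [an, mul_pos a0 n0])) (by linarith only [H.lg, L0]))
      (le_trans (log_le_log (by positivity) (show 2 / u ≤ 2 * (S.n : ℝ) ^ 2 by
        rw [div_le_iff₀ u0]
        rw [div_pow, one_pow, div_le_iff₀ (by positivity)] at un
        linarith only [un])) (by
        rw [log_mul two_ne_zero (by positivity), log_pow]
        push_cast
        linarith only [H.lg, log_two_lt_d9, L1]))
      (by rw [div_le_iff₀ c00]; linarith only [Lc0])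
    refine r.trans ?_
    have y4 : ∑ k ∈ (Finset.Icc S.J S.Jp).filter fun k => c0 / 4 ≤ du M k,
        dx M k * (L * (L * (Lg ^ 2 * ap M S Xp Vt γ k) ^ 2)) ^ 2 ≤ L ^ 4 * (S.θ * s) ^ 2 := by
      have := mul_le_mul_of_nonneg_left Y4 (sq_nonneg L)
      rw [Finset.mul_sum] at this
      exact (le_of_eq (Finset.sum_congr rfl fun k _ => by ring)).trans (this.trans (le_of_eq (by ring)))
    have y2 : ∑ k ∈ (Finset.Icc S.J S.Jp).filter fun k => u ≤ du M k,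
        dx M k * (L * (L * (Lg ^ 2 * ap M S Xp Vt γ k) ^ 2)) ≤ L ^ 2 * R2 := by
      refine le_trans ?_ (mul_le_mul_of_nonneg_left Q.q3 (sq_nonneg L))
      rw [Finset.mul_sum]
      refine (Finset.sum_le_sum_of_subset_of_nonneg (fun k hk => ?_)
        fun k _ _ => mul_nonneg (dn k) (by positivity)).trans
        (le_of_eq (Finset.sum_congr rfl fun k _ => by ring))
      obtain ⟨k1, k2⟩ := Finset.mem_filter.1 hk
      exact Finset.mem_filter.2 ⟨k1, by linarith only [k2, uu, u20]⟩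
    have z1 : 16 / μ ^ 2 * (S.θ * s) ^ 2 ≤ 16 * (L ^ 6 * R2) := by
      rw [div_mul_eq_mul_div, div_le_iff₀ (by positivity), ρ2]
      have := mul_le_mul_of_nonneg_right (pow_le_pow_left₀ θ0.le hμ 2) R0
      linarith only [this]
    have z2 : 2 / c ≤ 2 * L := by rw [div_eq_mul_one_div]; linarith only [hK, i1]
    have z3 : 100 * S.C ^ 2 ≤ L := H.KL 2 (by norm_num)
    have z4 := pw' (i := 1) (k := 13) ρ3 (by norm_num)
    have z5 := pw' (i := 4) (k := 13) ρ3 (by norm_num)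
    have z7 := pw' (i := 3) (k := 20) R0 (by norm_num)
    have z8 := pw' (i := 1) (k := 20) R0 (by norm_num)
    have z9 : 0 ≤ L ^ 20 * R2 := by positivity
    calc _ ≤ 16 / μ ^ 2 * (10 * (3 * L) * (2 * S.C * (S.θ * s)) ^ 2 +
          S.C ^ 2 * (L ^ 13 * (S.θ * s) ^ 2) + S.C ^ 2 * (L ^ 4 * (S.θ * s) ^ 2)) +
          2 * L * (L ^ 2 * R2) + 8 * R2 * (2 * S.C) ^ 2 := by
          gcongr
          exact Finset.sum_nonneg fun k _ => mul_nonneg (dn k) (by positivity)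
      _ = 16 / μ ^ 2 * (S.C ^ 2 * (120 * (L ^ 1 * (S.θ * s) ^ 2) + L ^ 13 * (S.θ * s) ^ 2 +
          L ^ 4 * (S.θ * s) ^ 2)) + 2 * (L ^ 3 * R2) + 32 * S.C ^ 2 * R2 := by ring
      _ ≤ 16 / μ ^ 2 * (L / 100 * (2 * (L ^ 13 * (S.θ * s) ^ 2))) + 2 * (L ^ 3 * R2) + L * R2 := by
          have w1 : S.C ^ 2 ≤ L / 100 := by linarith only [z3]
          have w2 : 32 * S.C ^ 2 ≤ L := by linarith only [z3, L0]
          have w3 : 120 * (L ^ 1 * (S.θ * s) ^ 2) + L ^ 13 * (S.θ * s) ^ 2 + L ^ 4 * (S.θ * s) ^ 2 ≤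
              2 * (L ^ 13 * (S.θ * s) ^ 2) := by
            linarith only [z4, z5, mul_nonneg (pow_pos L0 13).le ρ3]
          gcongr
      _ = L ^ 14 / 50 * (16 / μ ^ 2 * (S.θ * s) ^ 2) + 2 * (L ^ 3 * R2) + L ^ 1 * R2 := by ring
      _ ≤ L ^ 14 / 50 * (16 * (L ^ 6 * R2)) + 2 * (L ^ 3 * R2) + L ^ 1 * R2 := by gcongr
      _ ≤ L ^ 20 * R2 := by linarith only [z7, z8, z9]
      _ = _ := by rw [mul_pow, sq_sqrt R0]; ring

end Crest.Agent.T156.Alt.L63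

end
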