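import Crest.Agent.T156.ClTh_9
import Crest.Agent.T156.LDef_69

/-!
Row 156, block (L) (helper73): the position of the plateau from the first moment `J t0` and the
spread of the plateau; the last window by monotonicity.
-/

set_option autoImplicit false

noncomputable section

namespace Crest.Agent.T156.Alt.Mp9.At

open MeasureTheory Set Real
open Crest.Agent.R164.GC Crest.Agent.R339.B Crest.Agent.R339.Var Crest.Agent.T157.Pf
open Crest.Agent.T156.Pp.Area50 Crest.Agent.T156.Spl27 Crest.Agent.T156.Zb9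
open Crest.Agent.T156.Alt.L69 (dx)

variable {S : Sc} {M : Md} {m : ℕ} {a T : ℝ}

/-- the tail integral as a node sum -/
theorem J_eq73 (A : At S M m a T) {t : ℝ} (h0 : M.s S.j0 ≤ t) (hT : t ≤ T) :
    Sc48.Jf (lh M T) (lb M S m a T) T t = ∑ j ∈ Finset.range (S.Jp + 1),
      (xb M a (j + 1) - xb M a j) * (Pp.Area50.cl t T (sh M S (j + 1)) - Pp.Area50.cl t T (sb M m a (j + 1))) := by
  have h := area (xb M a) (sh M S) (sb M m a) (S.Jp + 1) hT (g := fun _ => 1)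
    intervalIntegrable_const
  simp only [mul_one, intervalIntegral.integral_const, smul_eq_mul] at h
  rw [← h]
  refine intervalIntegral.integral_congr fun r hr => ?_
  rw [uIcc_of_le hT] at hr
  exact A.uu_eq (h0.trans hr.1)

theorem dx_sum73 (M : Md) {i k : ℕ} (h : i ≤ k) :
    ∑ j ∈ Finset.Ioc i k, dx M j = M.z k - M.z i := sum_dz M h

theorem wsum73 {U : Finset ℕ} {w f : ℕ → ℝ} {B : ℝ} (hw : ∀ k ∈ U, 0 ≤ w k)
    (hf : ∀ k ∈ U, |f k| ≤ B) : |∑ k ∈ U, w k * f k| ≤ (∑ k ∈ U, w k) * B := by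
  rw [Finset.sum_mul]
  refine (Finset.abs_sum_le_sum_abs _ _).trans (Finset.sum_le_sum fun k hk => ?_)
  rw [abs_mul, abs_of_nonneg (hw k hk)]
  exact mul_le_mul_of_nonneg_left (hf k hk) (hw k hk)

theorem cs73 {U : Finset ℕ} {w f : ℕ → ℝ} {R : ℝ} (hw : ∀ k, 0 ≤ w k) (h1 : ∑ k ∈ U, w k ≤ 1)
    (R0 : 0 ≤ R) (h : ∑ k ∈ U, w k * f k ^ 2 ≤ R ^ 2) : ∑ k ∈ U, w k * |f k| ≤ R := by
  have c := Finset.sum_mul_sq_le_sq_mul_sq U (fun k => √(w k)) fun k => √(w k) * |f k|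
  simp only [mul_pow, ← mul_assoc, Real.mul_self_sqrt (hw _), Real.sq_sqrt (hw _), sq_abs] at c
  have p : 0 ≤ ∑ k ∈ U, w k * f k ^ 2 :=
    Finset.sum_nonneg fun k _ => mul_nonneg (hw k) (sq_nonneg _)
  exact (abs_le_of_sq_le_sq' (c.trans ((mul_le_of_le_one_left p h1).trans h)) R0).2

/-- **data of the corner**: `k0` a located sloped node at the time `t0`, `kA` the first plateau node
with a controlled spread around `Mt` -/
structure Ms (S : Sc) (M : Md) (m : ℕ) (a T t0 Mt D γ R p a' κ : ℝ) (k0 kA : ℕ) : Prop where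
  k1 : S.j0 ≤ k0
  k2 : k0 < S.J
  k3 : S.J ≤ kA
  k4 : kA ≤ S.Jp
  s1 : t0 - D ≤ M.s k0
  s2 : M.s k0 ≤ t0
  s3 : t0 ≤ M.s S.J
  b1 : |sb M m a (k0 + 1) - t0| ≤ D
  γ1 : M.s S.Jp - M.s S.J ≤ γ
  M1 : sb M m a kA ≤ Mt
  M2 : Mt ≤ T
  R0 : 0 ≤ R
  sp : ∑ k ∈ Finset.Icc kA S.Jp, dx M k * (sb M m a (k + 1) - Mt) ^ 2 ≤ R ^ 2
  hJ : |Sc48.Jf (lh M T) (lb M S m a T) T t0| ≤ p
  a1 : M.z (kA - 1) - M.z k0 ≤ a'
  κ1 : κ ≤ 1 - M.z (kA - 1)
  a2 : 2 * a' ≤ κ

variable {t0 Mt D γ R p a' κ : ℝ} {k0 kA : ℕ}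

/-- **the shift of the plateau** -/
theorem shift73 (A : At S M m a T) (h : Ms S M m a T t0 Mt D γ R p a' κ k0 kA) :
    κ * |Mt - M.s S.J| ≤ 2 * (p + 2 * D + γ + R + a' * (M.s S.J - t0 + γ)) := by
  obtain ⟨k1, k2, k3, k4, s1, s2, s3, b1, γ1, M1, M2, R0, sp, hJ, a1, κ1, a2⟩ := h
  have i0 := A.cl.i0
  have sJ : M.s S.J ≤ M.s S.Jp := A.cl.sm A.cl.i3
  have tT : t0 ≤ T := by linarith [A.t2]
  have D0 : 0 ≤ D := (abs_nonneg _).trans b1
  have γ0 : 0 ≤ γ := by linarith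
  obtain ⟨b2, b3⟩ := abs_le.1 b1
  have dn : ∀ k, 0 ≤ dx M k := A.dz_nn
  have e := A.J_eq73 ((A.cl.sm k1).trans s2) tT
  set σ := M.s S.J with hσ
  set f : ℕ → ℝ := fun j => Pp.Area50.cl t0 T (sh M S (j + 1)) - Pp.Area50.cl t0 T (sb M m a (j + 1)) with hf
  have w : ∀ j, 0 < j → xb M a (j + 1) - xb M a j = dx M j := fun j hj => by
    obtain ⟨j, rfl⟩ : ∃ i, j = i + 1 := ⟨j - 1, by omega⟩
    simp only [xb, dx, Nat.add_sub_cancel]
  have spl : ∑ j ∈ Finset.range (S.Jp + 1), (xb M a (j + 1) - xb M a j) * f j =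
      ∑ j ∈ Finset.range (k0 + 1), (xb M a (j + 1) - xb M a j) * f j +
      ∑ j ∈ Finset.Ioc k0 (kA - 1), dx M j * f j + ∑ j ∈ Finset.Icc kA S.Jp, dx M j * f j := by
    rw [Finset.range_eq_Ico, ← Finset.sum_Ico_consecutive _ (Nat.zero_le (k0 + 1))
      (show k0 + 1 ≤ S.Jp + 1 by omega), ← Finset.sum_Ico_consecutive _ (show k0 + 1 ≤ kA by omega)
      (show kA ≤ S.Jp + 1 by omega), ← Finset.range_eq_Ico, add_assoc,
      Finset.Ico_add_one_right_eq_Icc]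
    congr 2
    · have : Finset.Ico (k0 + 1) kA = Finset.Ioc k0 (kA - 1) := by
        ext j; simp only [Finset.mem_Ico, Finset.mem_Ioc]; omega
      rw [this]
      exact Finset.sum_congr rfl fun j hj => by rw [w j (by have := Finset.mem_Ioc.1 hj; omega)]
    · exact Finset.sum_congr rfl fun j hj => by rw [w j (by have := Finset.mem_Icc.1 hj; omega)]
  have z1 : ∀ k, M.z k ≤ 1 := fun k =>
    (A.cl.leg.zm (le_max_left k S.Jp)).trans_eq (A.cl.top _ (le_max_right _ _))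
  have p1 : |∑ j ∈ Finset.range (k0 + 1), (xb M a (j + 1) - xb M a j) * f j| ≤ D := by
    refine (wsum73 (B := D) (fun j _ => sub_nonneg.2 (A.xb_mono (Nat.le_succ j))) fun j hj => ?_).trans ?_
    · have hj := Finset.mem_range.1 hj
      have c1 : Pp.Area50.cl t0 T (sh M S (j + 1)) = t0 :=
        cl_of_le ((A.cl.sm (show max j S.j0 ≤ k0 by omega)).trans s2)
      have c2 := cl_mono t0 T ((A.sb_mono (show j + 1 ≤ k0 + 1 by omega)).trans
        (show sb M m a (k0 + 1) ≤ t0 + D by linarith))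
      have c3 : Pp.Area50.cl t0 T (t0 + D) ≤ t0 + D := max_le (by linarith) (min_le_left _ _)
      have c4 := (cl_mem tT (sb M m a (j + 1))).1
      simp only [hf, c1]
      exact abs_le.2 ⟨by linarith, by linarith⟩
    · rw [Finset.sum_range_sub (xb M a)]
      refine mul_le_of_le_one_left D0 ?_
      have := z1 k0
      have := A.a_pos
      simp only [xb]; linarith
  have Ml : t0 - D ≤ Mt := by linarith [A.sb_mono (show k0 + 1 ≤ kA by omega)]
  have p2 : |∑ j ∈ Finset.Ioc k0 (kA - 1), dx M j * f j| ≤ a' * (σ - t0 + γ + |Mt - σ|) := by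
    refine (wsum73 (B := σ - t0 + γ + |Mt - σ|) (fun j _ => dn j) fun j hj => ?_).trans ?_
    · obtain ⟨j1, j2⟩ := Finset.mem_Ioc.1 hj
      have c1 := (cl_mem tT (sh M S (j + 1))).1
      have c2 := (cl_mem tT (sb M m a (j + 1))).1
      have c3 : Pp.Area50.cl t0 T (sh M S (j + 1)) ≤ σ + γ := by
        refine max_le (by linarith) ((min_le_left _ _).trans ?_)
        rw [A.sh_succ (by omega)]
        linarith [A.cl.sm (show j ≤ S.Jp by omega)]
      have c4 : Pp.Area50.cl t0 T (sb M m a (j + 1)) ≤ σ + |Mt - σ| :=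
        max_le (by linarith [abs_nonneg (Mt - σ)]) ((min_le_left _ _).trans (by
          linarith [A.sb_mono (show j + 1 ≤ kA by omega), le_abs_self (Mt - σ)]))
      simp only [hf]
      exact abs_le.2 ⟨by linarith, by linarith [abs_nonneg (Mt - σ)]⟩
    · rw [dx_sum73 M (by omega)]
      exact mul_le_mul_of_nonneg_right a1 (by linarith [abs_nonneg (Mt - σ)])
  have W : ∑ j ∈ Finset.Icc kA S.Jp, dx M j = 1 - M.z (kA - 1) := by
    have : Finset.Icc kA S.Jp = Finset.Ioc (kA - 1) S.Jp := by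
      ext j; simp only [Finset.mem_Icc, Finset.mem_Ioc]; omega
    rw [this, dx_sum73 M (by omega), A.cl.top _ le_rfl]
  have W1 : 1 - M.z (kA - 1) ≤ 1 := by
    have := A.cl.leg.zm (show S.J - 1 ≤ kA - 1 by omega)
    have := A.cl.atom.1
    have : 0 < 1 / S.C := by have := A.c_pos; positivity
    linarith
  have q1 := cs73 dn (W.trans_le W1) R0 sp
  have p3 : |∑ j ∈ Finset.Icc kA S.Jp, dx M j * f j + (1 - M.z (kA - 1)) * (Mt - σ)| ≤ γ + D + R := by
    rw [← W, Finset.sum_mul, ← Finset.sum_add_distrib]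
    refine (Finset.abs_sum_le_sum_abs _ _).trans ((Finset.sum_le_sum (g := fun j =>
      dx M j * (γ + D) + dx M j * |sb M m a (j + 1) - Mt|) fun j hj => ?_).trans ?_)
    · obtain ⟨j1, j2⟩ := Finset.mem_Icc.1 hj
      rw [← mul_add, ← mul_add, abs_mul, abs_of_nonneg (dn j)]
      refine mul_le_mul_of_nonneg_left ?_ (dn j)
      have c0 := A.cl.sm (show S.J ≤ j by omega)
      have c0' := A.cl.sm j2
      have c1 : Pp.Area50.cl t0 T (sh M S (j + 1)) = M.s j := by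
        rw [A.sh_succ (by omega)]
        exact cl_of_mem (by linarith) (by linarith [A.t2])
      have c2 := abs_le.1 (cl_lip t0 T (sb M m a (j + 1)) Mt)
      have c3 : Mt ≤ Pp.Area50.cl t0 T Mt := le_max_of_le_right (le_min le_rfl M2)
      have c4 : Pp.Area50.cl t0 T Mt ≤ Mt + D := max_le (by linarith) ((min_le_left _ _).trans (by linarith))
      simp only [hf, c1]
      exact abs_le.2 ⟨by linarith [c2.2], by linarith [c2.1]⟩
    · rw [Finset.sum_add_distrib, ← Finset.sum_mul, W]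
      linarith [mul_le_of_le_one_left (show 0 ≤ γ + D by linarith) W1]
  rw [e, spl] at hJ
  have q2 : |(1 - M.z (kA - 1)) * (Mt - σ)| ≤ p + 2 * D + γ + R + a' * (σ - t0 + γ + |Mt - σ|) := by
    obtain ⟨x1, x2⟩ := abs_le.1 hJ
    obtain ⟨x3, x4⟩ := abs_le.1 p1
    obtain ⟨x5, x6⟩ := abs_le.1 p2
    obtain ⟨x7, x8⟩ := abs_le.1 p3
    exact abs_le.2 ⟨by linarith, by linarith⟩
  have q3 : κ * |Mt - σ| ≤ |(1 - M.z (kA - 1)) * (Mt - σ)| := by
    rw [abs_mul]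
    exact mul_le_mul_of_nonneg_right (κ1.trans (le_abs_self _)) (abs_nonneg _)
  have q4 := mul_le_mul_of_nonneg_right a2 (abs_nonneg (Mt - σ))
  linarith

/-- **window and plateau** in node times -/
theorem win73 (A : At S M m a T) (h : Ms S M m a T t0 Mt D γ R p a' κ k0 kA) {Dm : ℝ}
    (hD : |Mt - M.s S.J| ≤ Dm) :
    ∑ k ∈ Finset.Ioc k0 S.Jp, dx M k * (sb M m a (k + 1) - M.s k) ^ 2 ≤
      a' * (M.s S.J - t0 + γ + D + Dm) ^ 2 + 3 * (R ^ 2 + Dm ^ 2 + γ ^ 2) := by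
  obtain ⟨k1, k2, k3, k4, s1, s2, s3, b1, γ1, M1, M2, R0, sp, hJ, a1, κ1, a2⟩ := h
  have sJ : M.s S.J ≤ M.s S.Jp := A.cl.sm A.cl.i3
  have D0 : 0 ≤ D := (abs_nonneg _).trans b1
  have m0 : 0 ≤ Dm := (abs_nonneg _).trans hD
  have γ0 : 0 ≤ γ := by linarith
  obtain ⟨b2, b3⟩ := abs_le.1 b1
  obtain ⟨d2, d3⟩ := abs_le.1 hD
  have dn : ∀ k, 0 ≤ dx M k := A.dz_nn
  have eI : Finset.Ioc (kA - 1) S.Jp = Finset.Icc kA S.Jp := by
    ext j; simp only [Finset.mem_Icc, Finset.mem_Ioc]; omega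
  rw [← Finset.sum_Ioc_consecutive _ (show k0 ≤ kA - 1 by omega) (show kA - 1 ≤ S.Jp by omega), eI]
  refine add_le_add ?_ ?_
  · refine (Finset.sum_le_sum (g := fun k => dx M k * (M.s S.J - t0 + γ + D + Dm) ^ 2)
      fun k hk => ?_).trans ?_
    · obtain ⟨j1, j2⟩ := Finset.mem_Ioc.1 hk
      have c1 := A.sb_mono (show k0 + 1 ≤ k + 1 by omega)
      have c2 := A.sb_mono (show k + 1 ≤ kA by omega)
      have c3 := A.cl.sm j1.le
      have c4 := A.cl.sm (show k ≤ S.Jp by omega)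
      exact mul_le_mul_of_nonneg_left (sq_le_sq' (by linarith) (by linarith)) (dn k)
    · rw [← Finset.sum_mul, dx_sum73 M (by omega)]
      exact mul_le_mul_of_nonneg_right a1 (sq_nonneg _)
  · have W := A.cl.leg.zm (show S.J - 1 ≤ kA - 1 by omega)
    have W1 : ∑ j ∈ Finset.Icc kA S.Jp, dx M j ≤ 1 := by
      rw [← eI, dx_sum73 M (by omega), A.cl.top _ le_rfl]
      have := A.cl.atom.1
      have : 0 < 1 / S.C := by have := A.c_pos; positivity
      linarith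
    refine (Finset.sum_le_sum (g := fun k => 3 * (dx M k * (sb M m a (k + 1) - Mt) ^ 2) +
      dx M k * (3 * (Dm ^ 2 + γ ^ 2))) fun k hk => ?_).trans ?_
    · obtain ⟨j1, j2⟩ := Finset.mem_Icc.1 hk
      have c3 := A.cl.sm (show S.J ≤ k by omega)
      have c4 := A.cl.sm j2
      have e1 : (Mt - M.s S.J) ^ 2 ≤ Dm ^ 2 := sq_le_sq' d2 d3
      have e2 : (M.s S.J - M.s k) ^ 2 ≤ γ ^ 2 := sq_le_sq' (by linarith) (by linarith)
      have e3 : (sb M m a (k + 1) - M.s k) ^ 2 ≤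
          3 * (sb M m a (k + 1) - Mt) ^ 2 + 3 * (Dm ^ 2 + γ ^ 2) := by
        nlinarith [sq_nonneg (sb M m a (k + 1) - Mt - (Mt - M.s S.J)),
          sq_nonneg (sb M m a (k + 1) - Mt - (M.s S.J - M.s k)),
          sq_nonneg (Mt - M.s S.J - (M.s S.J - M.s k))]
      linarith [mul_le_mul_of_nonneg_left e3 (dn k)]
    · rw [Finset.sum_add_distrib, ← Finset.mul_sum, ← Finset.sum_mul]
      linarith [mul_le_of_le_one_left (show 0 ≤ 3 * (Dm ^ 2 + γ ^ 2) by positivity) W1]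

/-- from node times to the location -/
theorem del_sq73 (A : At S M m a T) {U : Finset ℕ} {i : ℕ} (hi : i ≤ S.Jp)
    (hU : U ⊆ Finset.Ioc i S.Jp) :
    ∑ k ∈ U, dx M k * M.del m a k ^ 2 ≤
      3 * (∑ k ∈ Finset.Ioc i S.Jp, dx M k * (sb M m a (k + 1) - M.s k) ^ 2 +
        ∑ k ∈ U, dx M k * M.G k ^ 2 + (S.C / (m + 1)) ^ 2) := by
  have dn : ∀ k, 0 ≤ dx M k := A.dz_nn
  have W : ∑ k ∈ U, dx M k ≤ 1 := by
    refine (Finset.sum_le_sum_of_subset_of_nonneg hU fun k _ _ => dn k).trans ?_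
    rw [dx_sum73 M hi, A.cl.top _ le_rfl]
    have := A.xb_mono (show 0 ≤ i + 1 by omega)
    have := A.a_pos
    simp only [xb] at *
    linarith
  have q : ∑ k ∈ U, dx M k * (sb M m a (k + 1) - M.s k) ^ 2 ≤
      ∑ k ∈ Finset.Ioc i S.Jp, dx M k * (sb M m a (k + 1) - M.s k) ^ 2 :=
    Finset.sum_le_sum_of_subset_of_nonneg hU fun k _ _ => mul_nonneg (dn k) (sq_nonneg _)
  refine (Finset.sum_le_sum (g := fun k => 3 * (dx M k * (sb M m a (k + 1) - M.s k) ^ 2) +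
    3 * (dx M k * M.G k ^ 2) + dx M k * (3 * (S.C / (m + 1)) ^ 2)) fun k hk => ?_).trans ?_
  · have d := A.del_le (A.jp_le (Finset.mem_Ioc.1 (hU hk)).2)
    have e : M.del m a k ^ 2 ≤ 3 * (sb M m a (k + 1) - M.s k) ^ 2 + 3 * M.G k ^ 2 +
        3 * (S.C / (m + 1)) ^ 2 := by
      have := pow_le_pow_left₀ (abs_nonneg _) d 2
      rw [sq_abs] at this
      rw [← sq_abs (sb M m a (k + 1) - M.s k), ← sq_abs (M.G k)]
      nlinarith [sq_nonneg (|sb M m a (k + 1) - M.s k| - |M.G k|),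
        sq_nonneg (|sb M m a (k + 1) - M.s k| - S.C / (m + 1)), sq_nonneg (|M.G k| - S.C / (m + 1))]
    linarith [mul_le_mul_of_nonneg_left e (dn k)]
  · rw [Finset.sum_add_distrib, Finset.sum_add_distrib, ← Finset.mul_sum, ← Finset.mul_sum,
      ← Finset.sum_mul]
    linarith [mul_le_of_le_one_left (show 0 ≤ 3 * (S.C / (m + 1)) ^ 2 by positivity) W]

end Crest.Agent.T156.Alt.Mp9.At

end
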