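import Crest.Agent.T156.TkD_20

/-!
# Row 156, block (L): node data `Nw`, `Nk` from `Nt`, free window (helper20)
-/

set_option autoImplicit false

noncomputable section

namespace Crest.Agent.T156.Alt.L63.T20

open MeasureTheory Real Finset
open Crest.Agent.T156.Alt.L69 Crest.Agent.T156.Alt.Mp9 Crest.Agent.T156.Alt.Ap63

variable {S : Sc} {M : Md} {m : ℕ} {a : ℝ} {K E L l0 l V X Lg X2 X3 G0 : ℝ} {η : ℝ → ℝ}

/-- elementary facts, without the top window -/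
structure Fb (L : ℝ) (S : Sc) (M : Md) (m : ℕ) (a l X Lg X2 : ℝ) (η : ℝ → ℝ) : Prop where
  at' : At S M m a (2 * S.C)
  F1 : S.F = 1
  l0 : 0 < l
  jl : L * M.s S.jl ≤ l
  X2 : 0 ≤ X2
  θ1 : S.θ ≤ 1
  ml : ∀ t, l ≤ t → t ≤ S.C → L ^ 67 * √(S.ms t) ≤ t
  nl : 1 / (S.n : ℝ) ≤ √(S.ms l)
  ηn : ∀ t, l ≤ t → t ≤ S.C → 1 / (S.n : ℝ) ≤ η t
  R1 : L ^ 67 * X ^ ((1 : ℝ) / 3) ≤ l
  Lg1 : L ^ 67 ≤ Lg
  /-- a priori location of the sloped nodes above `l` with `|G k| ≤ s k / 32` -/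
  loc : ∀ k, k < S.J → l ≤ M.s k → |M.G k| ≤ M.s k / 32 → 15 / 16 * M.s k ≤ sb M m a (k + 1) ∧
    (M.s k + l / 8 ≤ M.s S.J → sb M m a (k + 1) ≤ 17 / 16 * M.s k)

theorem fb (h : Cl S M) (hm : S.In m a) (G : Rg K E L S) (H : LN E S M l0 l V X Lg X2 X3 G0 η)
    (F1 : S.F = 1) (hml : ∀ t, l ≤ t → t ≤ S.C → E * √(S.ms t) ≤ t)
    (lX : E * X ^ ((1 : ℝ) / 3) ≤ l) (hX : Phi M S m a ≤ X) : Fb L S M m a l X Lg X2 η := by
  have A : At S M m a (2 * S.C) := ⟨h, hm, by linarith [h.b1, H.HJ], by linarith [h.sT, h.C0]⟩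
  have L1 := G.L1
  have L1' : 1 ≤ L := by linarith
  have LE := G.LE
  have LL : L ≤ L ^ 67 := le_self_pow₀ L1' (by norm_num)
  have E0 : 0 < E := by linarith
  have C0 := h.C0
  have C1 := h.C1
  have n0 := h.N0
  have v0 := h.v0
  have sj := h.s_pos (h.i0.trans h.i1)
  have l00 : 0 < l0 := (mul_pos E0 sj).trans_le H.l0s
  have ll := H.l0l
  have l0' : 0 < l := l00.trans_le ll
  have θ1 : S.θ ≤ 1 := by nlinarith [h.msθ, G.lg1, h.θ0]
  have lC : l ≤ S.C := by nlinarith [H.l1]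
  have ml : ∀ t, l ≤ t → t ≤ S.C → L ^ 67 * √(S.ms t) ≤ t := fun t p q =>
    (mul_le_mul_of_nonneg_right LE (sqrt_nonneg _)).trans (hml t p q)
  have sq1 : ∀ t, 0 ≤ t → S.ms t ≤ √(S.ms t) := fun t ht =>
    Real.le_sqrt_of_sq_le (by nlinarith [h.ms_pos ht, (h.ms1 t).trans θ1])
  have nl : 1 / (S.n : ℝ) ≤ √(S.ms l) := by
    have := h.ms_ge l0'.le
    rw [rpow_neg_one, ← one_div] at this
    exact this.trans (sq1 l l0'.le)
  have R0 : 0 < X ^ ((1 : ℝ) / 3) := rpow_pos_of_pos H.X0 _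
  have R1 : L ^ 67 * X ^ ((1 : ℝ) / 3) ≤ l := (mul_le_mul_of_nonneg_right LE R0.le).trans lX
  have Lg1 : L ^ 67 ≤ Lg := by have := H.Lg0; rw [F1] at this; linarith
  have X20 : 0 ≤ X2 := le_trans (by positivity) H.x2a
  have cl0 : ∀ t, 0 < t → 0 ≤ cr S t := fun t _ => zero_le_one.trans (le_max_left _ _)
  have r0 : 0 < √(S.ms l) := sqrt_pos.2 (h.ms_pos l0'.le)
  have jl : L * M.s S.jl ≤ l :=
    ((mul_le_mul_of_nonneg_right (LL.trans LE) sj.le).trans H.l0s).trans ll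
  refine ⟨A, F1, l0', jl, X20, θ1, ml, nl, fun t p q => ?_, R1, Lg1, fun k k1 k2 g4 => ?_⟩
  · refine le_trans ?_ (H.ηb t p q)
    have t0 := l0'.trans_le p
    have u0 : 0 ≤ uw S Lg t := by
      have := cl0 t t0
      have : 0 ≤ S.w3 t := by have := h.ms_pos t0.le; have := h.F1; unfold Sc.w3; positivity
      unfold uw; positivity
    have X30 : 0 ≤ X3 := le_trans (by positivity) H.x3a
    have G00 : 0 ≤ G0 := le_trans (by positivity) H.g0a
    have : 0 ≤ min (S.ms t / t) t := le_min (div_pos (h.ms_pos t0.le) t0).le t0.le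
    exact le_add_of_nonneg_left (by positivity)
  · have kj : S.jl < k := lt_of_not_ge fun c => by nlinarith [h.sm c]
    set x := l / L ^ 2 with hx
    have L2 : L ^ 2 ≤ L ^ 67 := pow_le_pow_right₀ L1' (by norm_num)
    have x0 : 0 < x := by positivity
    have sm : ∀ y, 0 ≤ y → L ^ 67 * y ≤ l → y ≤ x := fun y p q => by
      rw [hx, le_div_iff₀' (by positivity)]; exact (mul_le_mul_of_nonneg_right L2 p).trans q
    have y1 := sm _ R0.le R1
    have y2 := nl.trans (sm _ r0.le (ml l le_rfl lC))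
    have y3 := G.vn.trans y2
    have y4 := sm _ sj.le (((mul_le_mul_of_nonneg_right LE sj.le).trans H.l0s).trans ll)
    have y5 : 1 / ((m : ℝ) + 1) ≤ x := (one_div_le_one_div_of_le n0
      (by have : (S.n : ℝ) ≤ m := by exact_mod_cast hm.m1
          linarith)).trans y2
    have c2 : S.C ≤ S.C ^ 2 := le_self_pow₀ C1 two_ne_zero
    have z1 : S.C ^ 2 * X ^ ((1 : ℝ) / 3) ≤ S.C ^ 2 * x := by gcongr
    have z2 : S.C * S.v ≤ S.C ^ 2 * x := mul_le_mul c2 y3 v0.le (by positivity)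
    have z3 : x ≤ S.C ^ 2 * x := le_mul_of_one_le_left x0.le (C1.trans c2)
    have z4 := (h.ss S.j0 h.j0_lt).2
    have z5 := h.sm h.i1
    obtain ⟨p1, p2⟩ := loc0 A (ρ := 4 * (S.C ^ 2 * x)) R0 (hX.trans_eq (by
      rw [← rpow_natCast, ← rpow_mul H.X0.le]; norm_num)) (by linarith) (h.i1.trans_lt kj) k1
    obtain ⟨q1, q2⟩ := loc1 A k1 (ρ := 2 * (4 * (S.C ^ 2 * x))) (by positivity)
    have z6 : S.C / (m + 1) ≤ S.C * (S.C ^ 2 * x) := by
      rw [← mul_one_div]; exact mul_le_mul_of_nonneg_left (y5.trans z3) C0.le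
    have z7 : L * (L * x) = l := by rw [hx]; field_simp
    have z8 := mul_le_mul_of_nonneg_right G.LC x0.le
    have z9 := mul_le_mul_of_nonneg_right L1 (by positivity : 0 ≤ L * x)
    have z0 : S.C ^ 2 * x ≤ S.C * (S.C ^ 2 * x) := le_mul_of_one_le_left (by positivity) C1
    exact ⟨by linarith [q1 p1], fun c => by linarith [q2 (p2 (by linarith))]⟩

/-- the numbers of the window around `t` -/
theorem nk' (G : Rg K E L S) (F : Fb L S M m a l X Lg X2 η)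
    (H : LN E S M l0 l V X Lg X2 X3 G0 η) {g : ℝ} (g0 : 0 ≤ g) {t t' b' p : ℝ} (t1' : l ≤ t) (tC : t ≤ S.C) (hb : b' ≤ 2 * t) (p0' : 0 ≤ p) (a1 : l ≤ t')
    (a2 : t' ≤ S.C) (a3 : t' ≤ 2 * t) :
    Nk K (2 * S.C) S m (t / 2) b' (S.C * S.v) (L / Lg) (256 * L * η t')
      (32 * L ^ 3 * (X2 + uw S Lg t' ^ 2)) (2 * L ^ 3) g L (√(S.ms (t / 2))) (2 * log S.n)
      (4 * √(S.ms (t / 2)) / L ^ 11) p (L ^ 5 * (p + bs S Lg X2 g η t')) := by
  have h := F.at'.cl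
  have C1 := h.C1
  have v0 := h.v0
  have n0 := h.N0
  have L1 := G.L1
  have L0 : 0 < L := by linarith
  have L1' : 1 ≤ L := by linarith
  have l0 := F.l0
  have t0 : 0 < t := by linarith
  have t0' : 0 < t' := by linarith
  have m0 := h.ms_pos (half_pos t0).le
  have m1 := h.ms_pos t0'.le
  have mq : ∀ s, s ≤ 2 * t → S.ms s ≤ 16 * S.ms (t / 2) := fun s hs => by
    have := h.ms_pow (half_pos t0).le 2
    norm_num at this
    exact (h.msm (by linarith)).trans this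
  set r := √(S.ms (t / 2)) with hr
  have r0 : 0 < r := sqrt_pos.2 m0
  have r2 : r ^ 2 = S.ms (t / 2) := sq_sqrt m0.le
  have pw : ∀ i k : ℕ, i ≤ k → L ^ i ≤ L ^ k := fun i k => pow_le_pow_right₀ L1'
  have pk : ∀ i k : ℕ, i + 1 = k → 1000 * L ^ i ≤ L ^ k := by
    rintro i _ rfl
    rw [pow_succ']; exact mul_le_mul_of_nonneg_right L1 (by positivity)
  have mf1 : mf S t' = S.ms t' := by rw [mf, F.F1, div_one]
  have ηn := F.ηn t' a1 a2
  have n1 : 0 < 1 / (S.n : ℝ) := by positivity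
  have X0 := F.X2
  set Y := X2 + uw S Lg t' ^ 2 with hY
  have Y0 : 0 ≤ Y := by positivity
  have q0 : 0 < √(S.ms t') := sqrt_pos.2 m1
  have q1 : √(S.ms t') ≤ 4 * r := by
    rw [sqrt_le_left (by positivity), mul_pow, r2]; linarith [mq t' a3]
  set B := bs S Lg X2 g η t' with hB
  have e0 : B = (η t' + g) / S.ms t' + Y / √(S.ms t') := by rw [hB, bs, mf1]
  have x0 : 0 ≤ (η t' + g) / S.ms t' := div_nonneg (by linarith) m1.le
  have x1 : 0 ≤ Y / √(S.ms t') := by positivity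
  have B0 : 0 ≤ B := by linarith
  have e1 : η t' + g ≤ 16 * (B * r ^ 2) := by
    have : (η t' + g) / S.ms t' ≤ B := by linarith
    rw [div_le_iff₀ m1] at this
    linarith [mul_le_mul_of_nonneg_left (r2 ▸ mq t' a3) B0]
  have e2 : Y ≤ 4 * (B * r) := by
    have : Y / √(S.ms t') ≤ B := by linarith
    rw [div_le_iff₀ q0] at this
    linarith [mul_le_mul_of_nonneg_left q1 B0]
  have e3 : 1 / (S.n : ℝ) ≤ B := by
    have : η t' + g ≤ (η t' + g) / S.ms t' :=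
      le_div_self (by linarith) m1 ((h.ms1 _).trans F.θ1)
    linarith
  have f1 : ∀ y, 0 ≤ y → L ^ 5 * (B * y) ≤ L ^ 5 * (p + B) * y := fun y hy => by
    have : 0 ≤ L ^ 5 * (p * y) := by positivity
    linarith
  have f2 : ∀ c y, 0 ≤ y → c ≤ L ^ 5 → c * (B * y) ≤ L ^ 5 * (p + B) * y := fun c y hy hc =>
    (mul_le_mul_of_nonneg_right hc (by positivity)).trans (f1 y hy)
  have L5 : 1 ≤ L ^ 5 := one_le_pow₀ L1'
  have f3 : B ≤ L ^ 5 * (p + B) := by simpa using f2 1 1 zero_le_one L5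
  have vn := G.vn
  have lg := G.lg
  have lg1 := G.lg1
  have C3 : S.C ≤ S.C ^ 3 := le_self_pow₀ C1 (by norm_num)
  have LC := G.LC
  have rt : r ≤ √(S.ms t) := sqrt_le_sqrt (h.msm (by linarith))
  have p1 := pk 1 2 rfl
  have p2 := pk 2 3 rfl
  have p4 := pk 4 5 rfl
  have p25 := pw 3 5 (by norm_num)
  rw [pow_one] at p1
  refine ⟨by linarith, LC, G.LK, G.LT, r0, r2, r2 ▸ mq b' hb, ?_, by linarith, by positivity, ?_, ?_,
    ?_, ?_, ?_, ?_, ?_, by linarith, ?_, ?_, ?_, ?_, ?_⟩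
  · have := mul_le_mul_of_nonneg_right (show 2 ≤ L ^ 67 by linarith [pw 1 67 (by norm_num)])
      (sqrt_nonneg (S.ms t))
    linarith [F.ml t t1' tC]
  · rw [← mul_div_assoc, div_le_iff₀ (by positivity)]
    have := mul_le_mul_of_nonneg_left (pk 10 11 rfl) r0.le
    have : 0 ≤ r * L ^ 10 := by positivity
    linarith
  · rw [← mul_div_assoc, div_le_one (lt_of_lt_of_le (by positivity) F.Lg1)]
    linarith [pw 4 67 (by norm_num), F.Lg1]
  · have a4 := H.th2 t' a1 a2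
    have a5 := H.th3
    rw [mf, F.F1, div_one] at a4 a5
    have a6 := mul_le_mul_of_nonneg_right G.LE Y0
    have a7 : E * Y ≤ 32 * r ^ 2 := by rw [r2, hY]; linarith [mq t' a3, h.msm a1]
    have a8 := mul_le_mul_of_nonneg_right (((mul_le_mul_of_nonneg_left (pk 6 7 rfl)
      (by norm_num : (0 : ℝ) ≤ 1000)).trans (pk 7 8 rfl)).trans (pw 8 67 (by norm_num))) Y0
    have : 0 ≤ L ^ 6 * Y := by positivity
    linarith
  · have a4 : L ^ 3 * (2 * log S.n * (2 * L ^ 3 * (4 * r / L ^ 11))) = 16 * log S.n * r / L ^ 5 := by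
      field_simp; ring
    rw [a4, div_le_iff₀ (by positivity)]
    linarith [mul_le_mul_of_nonneg_left (show 16 * log S.n ≤ L ^ 5 by linarith) r0.le]
  · have a4 := h.ms_ge (half_pos t0).le
    rw [rpow_neg_one, ← one_div] at a4
    have : S.ms (t / 2) ≤ r :=
      Real.le_sqrt_of_sq_le (by nlinarith [(h.ms1 (t / 2)).trans F.θ1])
    linarith
  · exact (le_add_of_nonneg_right B0).trans (le_mul_of_one_le_left (by positivity) L5)
  · have := f2 S.C 1 zero_le_one (by linarith)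
    linarith [mul_le_mul_of_nonneg_left (vn.trans e3) h.C0.le]
  · have := f2 (4096 * L) _ (sq_nonneg r) (by linarith)
    linarith [mul_le_mul_of_nonneg_left (show η t' ≤ 16 * (B * r ^ 2) by linarith) L0.le]
  · linarith [f2 16 _ (sq_nonneg r) (by linarith)]
  · have a4 : 1 / ((m : ℝ) + 1) ≤ 1 / S.n := one_div_le_one_div_of_le n0
      (by have : (S.n : ℝ) ≤ m := by exact_mod_cast F.at'.mem.m1
          linarith)
    linarith [f2 16 _ (sq_nonneg r) (by linarith)]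
  · have a4 := f2 (256 * L ^ 4) _ r0.le (by linarith [pow_pos L0 4])
    have a5 := mul_le_mul_of_nonneg_right lg (by positivity : 0 ≤ L ^ 3 * Y)
    linarith [mul_le_mul_of_nonneg_left e2 (pow_pos L0 4).le]
  · have : exp (-(2 * log S.n)) ≤ 1 / S.n := by
      rw [one_div, ← exp_log (inv_pos.2 n0), log_inv]
      exact exp_le_exp.2 (by linarith)
    linarith

/-- short gaps below `5 t / 4` -/
theorem sh' (G : Rg K E L S) (h : Cl S M) (A : At S M m a (2 * S.C)) {Gn : ℕ → Prop} {i0 i1 : ℕ}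
    (Nd : Nt E L S M m a Lg X X2 η Gn i0 i1) {t : ℝ} (t0 : 0 < t) {i k : ℕ} (n : Nx Gn i0 i1 i k)
    (c : M.s i ≤ 2 * t) :
    sb M m a (k + 1) - sb M m a (i + 1) ≤ 4 * √(S.ms (t / 2)) / L ^ 11 := by
  have L0 : 0 < L := by linarith [G.L1]
  have m0 := h.ms_pos (half_pos t0).le
  have d2 : S.ms (M.s i) ≤ 16 * S.ms (t / 2) := by
    have := h.ms_pow (half_pos t0).le 2
    norm_num at this
    exact (h.msm (by linarith)).trans this
  have r2 : √(S.ms (t / 2)) ^ 2 = S.ms (t / 2) := sq_sqrt m0.le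
  set r := √(S.ms (t / 2)) with hr
  have r0 : 0 < r := sqrt_pos.2 m0
  have d0 := sub_nonneg.2 (A.sb_mono (Nat.succ_le_succ n.2.1))
  have d1 := Nd.sh i k n
  have d3 := pow_le_pow_left₀ (h.ms_pos (h.s_nn i)).le d2 3
  refine le_of_pow_le_pow_left₀ (n := 6) (by norm_num) (by positivity) ?_
  rw [div_pow, le_div_iff₀ (by positivity)]
  refine le_of_mul_le_mul_left ?_ L0
  have d4 := mul_le_mul_of_nonneg_right G.LE (pow_nonneg d0 6)
  have d5 := mul_le_mul_of_nonneg_left d3 L0.le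
  rw [← r2] at d5
  linarith only [d1, d4, d5]

set_option maxHeartbeats 800000 in
/-- **the node data on any window `[u, v]` of good nodes of the level `t`** -/
theorem nw' (G : Rg K E L S) (F : Fb L S M m a l X Lg X2 η) (H : LN E S M l0 l V X Lg X2 X3 G0 η)
    {Gn : ℕ → Prop} {i0 i1 u v : ℕ} (Nd : Nt E L S M m a Lg X X2 η Gn i0 i1) (s0 : l ≤ M.s i0)
    (hu : i0 ≤ u) (uv : u ≤ v) (hv : v ≤ i1) (gu : Gn u) (gv : Gn v) (vJ : v < S.J)
    (bJ : sb M m a (v + 1) < M.s S.J) {t t' g : ℝ} (t0 : 0 < t) (su : t / 2 ≤ M.s u)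
    (bu : t / 2 ≤ sb M m a (u + 1)) (a1 : l ≤ t') (a2 : t' ≤ S.C) (a3 : t' ≤ 2 * t)
    (hg : ∀ k, u ≤ k → k ≤ v → Gn k → |M.G k| ≤ g) :
    Nw S M m a (2 * S.C) Gn u v (t / 2) (max (M.s v) (sb M m a (v + 1))) (S.C * S.v) (L / Lg)
      (256 * L * η t') (32 * L ^ 3 * (X2 + uw S Lg t' ^ 2)) (2 * L ^ 3) g
      fun y => L * E61.u4 M m a y ^ 2 := by
  have A := F.at'
  have h := A.cl
  have L1 := G.L1
  have L0 : 0 < L := by linarith
  have L1' : 1 ≤ L := by linarith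
  have l0' := F.l0
  have X0 := F.X2
  have mlq : ∀ s, l ≤ s → s ≤ S.C → √(S.ms s) ≤ s := fun s p q =>
    (le_mul_of_one_le_left (sqrt_nonneg _) (one_le_pow₀ L1')).trans (F.ml s p q)
  have nd : ∀ i, u ≤ i → i ≤ v → η (M.s i) ≤ 256 * η t' ∧ 0 ≤ uw S Lg (M.s i) ∧
      uw S Lg (M.s i) ^ 2 ≤ 16 * uw S Lg t' ^ 2 := fun i p q => by
    have d1 := h.sm p
    have d2 := h.sm (hu.trans p)
    obtain ⟨d3, d4⟩ := uw_le h F.F1 Lg (s := M.s i) (t := t') (by linarith)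
      (mlq _ a1 a2) (mlq _ (by linarith) (h.s_le_C ((q.trans_lt vJ).le.trans h.i3))) (by linarith)
    have d5 := H.ηa (show t' / 4 ≤ M.s i by linarith)
    have d6 := H.η2 (t' / 4) (by linarith)
    have d7 := H.η2 (2 * (t' / 4)) (by linarith)
    rw [show 2 * (2 * (t' / 4)) = t' by ring] at d7
    exact ⟨by linarith, d3, by linarith [pow_le_pow_left₀ d3 d4 2]⟩
  have Lg0 : 0 < Lg := lt_of_lt_of_le (by positivity) F.Lg1
  have η0 : 0 ≤ η t' := le_trans (by have := h.N0; positivity) (F.ηn t' a1 a2)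
  have L3 : L ≤ L ^ 3 := le_self_pow₀ L1' (by norm_num)
  refine ⟨A, lt_of_not_ge fun c => ?_, uv, gu, gv, half_pos t0,
    max_lt (h.s_lt vJ vJ) bJ, su, le_max_left _ _, bu,
    le_max_right _ _, (mul_pos h.C0 h.v0).le, by positivity, by positivity, by positivity,
    by positivity, fun i k n => Nd.gap i k (n.up hu hv), fun i k y n p q => ?_,
    fun i k p q s gi gk => ?_, hg⟩
  · nlinarith [h.sm c, h.sm hu, F.jl, h.s_nn S.jl]
  · obtain ⟨-, d1, d2⟩ := nd i n.1 (n.2.1.trans n.2.2.1)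
    have d3 := pow_le_pow_left₀ (sqrt_nonneg _) (Nd.u4 i k y (n.up hu hv) p q) 2
    have d4 : (uw S Lg (M.s i) + (sb M m a (k + 1) - sb M m a (i + 1))) ^ 2 ≤
        32 * uw S Lg t' ^ 2 + 2 * (sb M m a (k + 1) - sb M m a (i + 1)) ^ 2 := by
      linarith [sq_nonneg (uw S Lg (M.s i) - (sb M m a (k + 1) - sb M m a (i + 1)))]
    have d5 := mul_le_mul_of_nonneg_left d4 (pow_pos L0 3).le
    have d6 := mul_le_mul_of_nonneg_left d3 L0.le
    have d7 : 0 ≤ L ^ 3 * X2 := by positivity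
    change L * E61.u4 M m a y ^ 2 ≤ _ at d6
    linarith only [d5, d6, d7]
  · obtain ⟨d1, -, d2⟩ := nd i p (q.trans s)
    refine (Nd.e1 i k (hu.trans p) q (s.trans hv) gi gk).trans ?_
    have d3 : L * ∑ y ∈ Ioo i k, M.dz m a y * E61.u4 M m a y ^ 2 =
        ∑ y ∈ Ioo i k, (M.z y - M.z (y - 1)) * (L * E61.u4 M m a y ^ 2) := by
      rw [mul_sum]
      refine sum_congr rfl fun y hy => ?_
      rw [Md67.dz_up h.leg (Nat.zero_lt_of_lt (mem_Ioo.1 hy).1)]; ring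
    have d0 := sub_nonneg.2 (A.sb_mono (Nat.succ_le_succ q))
    have d4 : L * uw S Lg (M.s i) ^ 2 ≤ 32 * L ^ 3 * (X2 + uw S Lg t' ^ 2) := by
      have e1 := mul_le_mul L3 d2 (sq_nonneg _) (pow_pos L0 3).le
      have e2 : 0 ≤ L ^ 3 * X2 := by positivity
      have e3 : 0 ≤ L ^ 3 * uw S Lg t' ^ 2 := by positivity
      linarith
    have d5 : L * X2 ≤ 32 * L ^ 3 * (X2 + uw S Lg t' ^ 2) := by
      have e1 := mul_le_mul_of_nonneg_right L3 X0
      have e2 : 0 ≤ L ^ 3 * X2 := by positivity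
      have e3 : 0 ≤ L ^ 3 * uw S Lg t' ^ 2 := by positivity
      linarith
    have d6 := mul_le_mul_of_nonneg_right d4 (add_nonneg
      (abs_nonneg (T156.L0.Gd (lb M S m a (2 * S.C)) (sb M m a (i + 1))))
      (abs_nonneg (T156.L0.Gd (lb M S m a (2 * S.C)) (sb M m a (k + 1)))))
    have d7 := mul_le_mul_of_nonneg_right d5 d0
    have d8 := mul_le_mul_of_nonneg_left d1 L0.le
    simp only [Nat.succ_eq_add_one] at d7
    linarith only [d3, d6, d7, d8]

/-- **the window ending at a good node `W`** -/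
theorem nw_at (G : Rg K E L S) (F : Fb L S M m a l X Lg X2 η) (H : LN E S M l0 l V X Lg X2 X3 G0 η)
    {Gn : ℕ → Prop} {i0 i1 W : ℕ} (Nd : Nt E L S M m a Lg X X2 η Gn i0 i1) (s0 : l ≤ M.s i0)
    (g0 : Gn i0) (gW : Gn W) (h0 : i0 ≤ W) (h1 : W ≤ i1) (WJ : W < S.J) {y t' g p : ℝ}
    (hy : y = sb M m a (W + 1)) (bJ : y < M.s S.J) (ly : l ≤ y) (b0 : sb M m a (i0 + 1) ≤ 3 / 4 * y)
    (sW : M.s W ≤ 2 * y) (lo : ∀ k, i0 ≤ k → k ≤ W → M.s k ≤ y / 2 → sb M m a (k + 1) < 3 / 4 * y)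
    (a1 : l ≤ t') (a2 : t' ≤ S.C) (a3 : t' ≤ 2 * y) (g0' : 0 ≤ g) (p0 : 0 ≤ p)
    (hg : ∀ k, i0 ≤ k → k ≤ W → y / 2 ≤ M.s k → Gn k → |M.G k| ≤ g) :
    ∃ u, i0 ≤ u ∧ u ≤ W ∧
      Nw S M m a (2 * S.C) Gn u W (y / 2) (max (M.s W) y) (S.C * S.v) (L / Lg)
        (256 * L * η t') (32 * L ^ 3 * (X2 + uw S Lg t' ^ 2)) (2 * L ^ 3) g
        (fun y => L * E61.u4 M m a y ^ 2) ∧
      Nk K (2 * S.C) S m (y / 2) (max (M.s W) y) (S.C * S.v) (L / Lg) (256 * L * η t')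
        (32 * L ^ 3 * (X2 + uw S Lg t' ^ 2)) (2 * L ^ 3) g L (√(S.ms (y / 2))) (2 * log S.n)
        (4 * √(S.ms (y / 2)) / L ^ 11) p (L ^ 5 * (p + bs S Lg X2 g η t')) ∧
      (∀ i k, Nx Gn u W i k →
        sb M m a (k + 1) - sb M m a (i + 1) ≤ 4 * √(S.ms (y / 2)) / L ^ 11) ∧
      13 * (2 * log S.n * L * √(S.ms (y / 2))) ≤ y - sb M m a (u + 1) ∧
      y - sb M m a (u + 1) ≤ 14 * (2 * log S.n * L * √(S.ms (y / 2))) := by
  have A := F.at'
  have h := A.cl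
  have L1 := G.L1
  have L0 : 0 < L := by linarith
  have L1' : 1 ≤ L := by linarith
  have t0 : 0 < y := F.l0.trans_le ly
  have yC : y ≤ S.C := bJ.le.trans (h.s_le_C h.i3)
  have sh := fun i k (n : Nx Gn i0 W i k) =>
    sh' G h A Nd t0 (n.up le_rfl h1) ((h.sm (n.2.1.trans n.2.2.1)).trans sW)
  have nk := nk' G F H g0' ly yC (max_le sW (by linarith) : max (M.s W) y ≤ 2 * y) p0 a1 a2 a3
  have r0 := nk.r0
  set r := √(S.ms (y / 2)) with hr
  have rt : r ≤ √(S.ms y) := sqrt_le_sqrt (h.msm (by linarith))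
  set w := 2 * log S.n * L * r with hw
  have lg := G.lg
  have lg1 := G.lg1
  have pw : ∀ i k : ℕ, i ≤ k → L ^ i ≤ L ^ k := fun i k => pow_le_pow_right₀ L1'
  have w1 : r ≤ w := le_mul_of_one_le_left r0.le (one_le_mul_of_one_le_of_one_le (by linarith) L1')
  have w2 : 56 * w ≤ y := by
    have b2 : 112 * log S.n * L ≤ L ^ 67 := by
      have := mul_le_mul (show 112 ≤ L by linarith) (mul_le_mul_of_nonneg_right lg L0.le)
        (by positivity) L0.le
      linarith [pw 3 67 (by norm_num)]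
    linarith [mul_le_mul b2 rt r0.le (by positivity), F.ml y ly yC]
  have Γr : 4 * r / L ^ 11 ≤ r := by
    rw [div_le_iff₀ (by positivity)]
    linarith [mul_le_mul_of_nonneg_left (show 4 ≤ L ^ 11 by linarith [pw 1 11 (by norm_num)]) r0.le]
  obtain ⟨i', u, n1, c1, c2⟩ := exists_nx (σ := fun k => sb M m a (k + 1)) (t := y - 14 * w) h0 g0 gW
    (by linarith) (by linarith)
  have c5 := (sh _ _ n1).trans Γr
  have hu : i0 ≤ u := n1.1.trans n1.2.1
  have su : y / 2 ≤ M.s u := le_of_not_gt fun c => by linarith [lo u hu n1.2.2.1 c.le]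
  have W' := nw' G F H Nd s0 hu n1.2.2.1 h1 n1.2.2.2.2.1 gW WJ (hy ▸ bJ) t0 su (by linarith) a1 a2 a3
    fun k p q => hg k (hu.trans p) q (su.trans (h.sm p))
  rw [← hy] at W'
  exact ⟨u, hu, n1.2.2.1, W', nk, fun i k n => sh i k (n.up hu le_rfl), by linarith, by linarith⟩

end Crest.Agent.T156.Alt.L63.T20

end
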