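import Crest.Agent.T156.TLqD_53
import Crest.Agent.T156.TkG_20

/-!
# Row 156, block (L): the set-up of the last window, statement (helper20)

`y = sb (V + 1)`, `r = √ms (y / 2)`, `N = 2 log n`, `P = L`.
-/

set_option autoImplicit false

noncomputable section

namespace Crest.Agent.T156.Alt.L63

open Real
open Crest.Agent.T156.Alt.L69 Crest.Agent.T156.Alt.Mp9

/-- the `H⁻¹` size -/
def qJ (L : ℝ) (S : Sc) (j γ : ℝ) : ℝ := L ^ 2 * (j + γ + 1 / S.n)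
/-- the weight of `Γ''`, of the time and of the label clock -/
def qO (L : ℝ) (S : Sc) (M : Md) (Lg X2 : ℝ) : ℝ := 32 * L ^ 3 * (X2 + uw S Lg (M.s S.J) ^ 2)
/-- the location -/
def qF (L : ℝ) (S : Sc) (M : Md) (Lg X2 j γ : ℝ) (η : ℝ → ℝ) (g' : ℝ) : ℝ :=
  L ^ 5 * (qJ L S j γ + bs S Lg X2 g' η (M.s S.J))

/-- **the set-up of the last window** -/
structure Sq (K L : ℝ) (S : Sc) (M : Md) (m : ℕ) (a Lg X2 j γ : ℝ) (η : ℝ → ℝ) (aa g' : ℝ)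
    (Gn : ℕ → Prop) (u V V2 : ℕ) (y r : ℝ) : Prop where
  ey : y = sb M m a (V + 1)
  er : r = √(S.ms (y / 2))
  nw : Nw S M m a (2 * S.C) Gn u V (y / 2) (max (M.s V) y) (S.C * S.v) (L / Lg)
    (256 * L * η (M.s S.J)) (qO L S M Lg X2) (2 * L ^ 3) g' fun k => L * E61.u4 M m a k ^ 2
  nk : Nk K (2 * S.C) S m (y / 2) (max (M.s V) y) (S.C * S.v) (L / Lg) (256 * L * η (M.s S.J))
    (qO L S M Lg X2) (2 * L ^ 3) g' L r (2 * log S.n) (4 * r / L ^ 11) (qJ L S j γ)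
    (qF L S M Lg X2 j γ η g')
  gap : ∀ i k, Nx Gn u V2 i k → sb M m a (k + 1) - sb M m a (i + 1) ≤ 4 * r / L ^ 11
  w1 : 13 * (2 * log S.n * L * r) ≤ y - sb M m a (u + 1)
  w2 : y - sb M m a (u + 1) ≤ 14 * (2 * log S.n * L * r)
  hp : ∀ t ∈ Set.Icc 0 (2 * S.C), Hq S M m a t ≤ qJ L S j γ
  VV : V ≤ V2
  VJ : V2 < S.J
  g2 : Gn V2
  s1 : M.s S.J - aa / 2 ≤ M.s V2
  s2 : M.s V2 ≤ M.s S.J - aa / 4
  y1 : y + aa / 4 ≤ M.s S.J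
  y2 : 9 / 10 * M.s S.J ≤ y
  su : M.s S.J / 2 ≤ M.s u
  dich : V = V2 ∨ M.s S.J ≤ y + aa / 4 + 4 * r / L ^ 11
  di2 : V = V2 ∨ ∃ k, Nx Gn u V2 V k ∧ M.s S.J ≤ sb M m a (k + 1) + aa / 4
  e2 : |res M S m a (2 * S.C) V2 - res M S m a (2 * S.C) V| ≤
    L ^ 2 * qF L S M Lg X2 j γ η g' * r ^ 2 + L * qO L S M Lg X2 * (sb M m a (V2 + 1) - y) +
      (3 * qO L S M Lg X2 + 2 * L ^ 3 * (4 * r / L ^ 11) ^ 2) * (M.z V2 - M.z V)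
  hg : ∀ k, u ≤ k → k ≤ V2 → |M.G k| ≤ g'
  uq : ∀ t, 3 / 4 * M.s S.J ≤ t → t + 7 * (2 * log S.n * L * r) ≤ y →
    |uq S M m a t| ≤ L ^ 12 * qF L S M Lg X2 j γ η g'
  a0 : 0 < aa
  sm : L ^ 50 * (qF L S M Lg X2 j γ η g' + aa) ≤ r
  th : √S.θ ≤ L * r
  Fb : qF L S M Lg X2 j γ η g' ≤ L ^ 8 * (j + γ + bs S Lg X2 g' η (M.s S.J))

/-- the statement proved in `TLqS_20` -/
def SqAt : Prop := ∀ T0 : ℝ, ∃ K0 : ℝ, ∀ {S : Sc} {M : Md} {m : ℕ} {a : ℝ}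
  {K E L G1 u1 u2 j γ Lc ηc τ l0 l X Xp Vt Lg Lp X2 X3 X4 G0 N t1 ℓ En p0 aa g' R2 : ℝ}
  {η g : ℝ → ℝ}, 2 * S.C = T0 → Cl S M → S.In m a → K0 ≤ K → T20.Rg K E L S →
  Hy E S M m a G1 u1 u2 j γ Lc ηc τ l0 l X Xp Vt Lg Lp X2 X3 X4 G0 η N g t1 (M.s S.J) ℓ En p0 →
  LQ E S M X Xp Vt Lg Lp X2 G0 u1 u2 j γ η aa g' R2 → ∀ Gn : ℕ → Prop,
  (∀ U V, 5 / 4 * l ≤ M.s U → M.s V + aa / 5 ≤ M.s S.J → Nt E L S M m a Lg X X2 η Gn U V) →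
  ∃ u V V2 y r, Sq K L S M m a Lg X2 j γ η aa g' Gn u V V2 y r

end Crest.Agent.T156.Alt.L63

end
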