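import Crest.Agent.T156.TLqM_73
import Crest.Agent.T156.TLqR_20
import Crest.Agent.T156.TLpM_73

/-!
# Row 156, block (L): the last window, the part below the closing and the final energy (helper73)
-/

set_option autoImplicit false

noncomputable section

namespace Crest.Agent.T156.Alt.Mp9

open MeasureTheory Set Real
open Crest.Agent.T156.Pp.Area50 Crest.Agent.T156.Spl27 Crest.Agent.T156.Zb9
open Crest.Agent.T156.Alt.L69 Crest.Agent.T157.Pf

/-- **the thick pass** with the narrower margin (the proof of `Nw.main`) -/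
theorem Nw.main73 (T0 : ℝ) : ∃ K : ℝ, 1 ≤ K ∧ ∀ {S : Sc} {M : Md} {m : ℕ} {a T : ℝ} {Gn : ℕ → Prop}
    {u v : ℕ} {a' b' δ θ e o lam g : ℝ} {c : ℕ → ℝ}, Nw S M m a T Gn u v a' b' δ θ e o lam g c →
    T ≤ T0 → ∀ {P r N Γ j F : ℝ}, Nk K T0 S m a' b' δ θ e o lam g P r N Γ j F →
    (∀ i k, Nx Gn u v i k → sb M m a (k + 1) - sb M m a (i + 1) ≤ Γ) →
    (∀ t ∈ Icc (sb M m a (u + 1)) (sb M m a (v + 1)), Rig.Hp (lh M T) (lb M S m a T) t ≤ j) →
    sb M m a (v + 1) - sb M m a (u + 1) ≤ 14 * N * P * r →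
    ∀ t ∈ Icc (sb M m a (u + 1) + 3 * (N * P * r)) (sb M m a (v + 1) - 3 * (N * P * r)),
      |uu M S m a T t| ≤ P ^ 12 * F := by
  obtain ⟨K, K1, H⟩ := Nw.stage T0
  refine ⟨K, K1, fun {S M m a T Gn u v a' b' δ θ e o lam g c} W hT {P r N Γ j F} h hΓ hp hW t ht => ?_⟩
  have A := W.at'
  have C1 := A.cl.C1
  have C0 := A.c_pos
  have v0 := v_pos A.cl
  have P1 := h.P1
  have P0 : 0 < P := by linarith
  have P1' : 1 ≤ P := by linarith
  have r0 := h.r0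
  have r2 : 0 < r ^ 2 := by positivity
  have Γ0 := h.Γ0
  have N1 := h.N1
  have o0 := W.o0
  have l0 := W.lam0
  have F0 : 0 ≤ F := v0.le.trans h.vF
  have uv := A.sb_mono (Nat.succ_le_succ W.uv)
  have j0 : 0 ≤ j := (Hp_nn A _).trans (hp _ ⟨le_rfl, uv⟩)
  have Γr : Γ ≤ r := (le_mul_of_one_le_left Γ0 (one_le_pow₀ P1')).trans h.Γr
  have nr : 100 * r ≤ N * P * r :=
    mul_le_mul_of_nonneg_right (P1.trans (le_mul_of_one_le_left P0.le N1)) r0.le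
  have pw : ∀ i k : ℕ, i ≤ k → ∀ x : ℝ, 0 ≤ x → P ^ i * x ≤ P ^ k * x := fun i k hk x hx =>
    mul_le_mul_of_nonneg_right (pow_le_pow_right₀ P1' hk) hx
  have pk : ∀ i k : ℕ, i + 1 = k → ∀ x : ℝ, 0 ≤ x → 100 * (P ^ i * x) ≤ P ^ k * x := by
    rintro i _ rfl x hx
    rw [pow_succ', mul_assoc]; exact mul_le_mul_of_nonneg_right P1 (by positivity)
  obtain ⟨x1, x2, c0, x3⟩ := H W hT h hΓ hp hW
  rcases le_total r (P ^ 10 * F) with hc | hc
  · have ΓF : Γ ≤ F := le_of_mul_le_mul_left (h.Γr.trans hc) (by positivity)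
    refine (x1 t ⟨by linarith [ht.1], by linarith [ht.2]⟩).trans ?_
    have a1 := mul_le_mul_of_nonneg_left ΓF (by positivity : 0 ≤ P ^ 7)
    have a2 := pk 7 8 rfl F F0
    have a3 := pw 8 12 (by norm_num) F F0
    have a4 : 0 ≤ P ^ 7 * F := by positivity
    linarith only [a1, a2, a3, a4]
  -- the gaps of the inner window are short
  have z1 : P ^ 10 * (F + Γ) ≤ 2 * r := by linarith [h.Γr]
  have FΓ : 0 ≤ F + Γ := by positivity
  have u1 : 7 * P ^ 3 * (P ^ 4 * (F + Γ)) ≤ r := by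
    linarith only [z1, pk 7 8 rfl _ FΓ, pw 8 10 (by norm_num) _ FΓ, r0]
  have C3 : S.C ≤ S.C ^ 3 := le_self_pow₀ C1 (by norm_num)
  have C2 : S.C ^ 2 ≤ S.C ^ 3 := pow_le_pow_right₀ C1 (by norm_num)
  have PC := h.PC
  have bb := A.ms_pos (W.a0.le.trans ((W.mb le_rfl W.uv).1.trans (W.mb le_rfl W.uv).2))
  have D1 : S.C ^ 2 * S.ms b' ≤ P * r ^ 2 := by
    linarith [mul_le_mul_of_nonneg_left h.rb (sq_nonneg S.C),
      mul_le_mul_of_nonneg_right (show 16 * S.C ^ 2 ≤ P by linarith) r2.le]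
  have l2 : P ^ 3 * (lam * Γ ^ 2) ≤ r ^ 2 := by
    have : P ^ 3 * (lam * Γ) ≤ r :=
      (mul_le_mul_of_nonneg_left (le_mul_of_one_le_left (by positivity) N1) (by positivity)).trans h.l1
    have := mul_le_mul this Γr Γ0 r0.le
    linarith
  have lg : 0 ≤ lam * Γ ^ 2 := by positivity
  have θ0 := W.θ0
  have θ1 : θ ≤ 1 := (le_mul_of_one_le_left θ0 (one_le_pow₀ P1')).trans h.θ1
  have CP : S.C ≤ P := by linarith
  have mu : r ^ 2 / P ≤
      S.ms a' / S.C - S.C ^ 2 * S.ms b' * θ - S.C * (o + (o + lam * Γ ^ 2) * θ) := by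
    have a1 : 2 * (r ^ 2 / P) ≤ S.ms a' / S.C := by
      rw [← h.r2, ← mul_div_assoc, div_le_div_iff₀ P0 C0]
      linarith [mul_le_mul_of_nonneg_left (show 2 * S.C ≤ P by linarith) r2.le]
    have a2 : S.C ^ 2 * S.ms b' * θ + S.C * (o + (o + lam * Γ ^ 2) * θ) ≤ r ^ 2 / P := by
      rw [le_div_iff₀ P0]
      refine le_of_mul_le_mul_left ?_ P0
      have b1 := mul_le_mul_of_nonneg_right D1 (by positivity : 0 ≤ θ * P ^ 2)
      have b2 := mul_le_mul_of_nonneg_left h.θ1 r2.le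
      have b3 : S.C * (o + (o + lam * Γ ^ 2) * θ) ≤ P * (o + (o + lam * Γ ^ 2) * 1) := by gcongr
      have b4 := mul_le_mul_of_nonneg_left b3 (by positivity : 0 ≤ P ^ 2)
      have b5 := mul_le_mul_of_nonneg_right P1 r2.le
      linarith only [b1, b2, b4, b5, l2, h.o1, r2]
    linarith
  have sl : 2 * (18 * P ^ 4 * r * (P ^ 4 * (F + Γ))) ≤ r ^ 2 / P := by
    rw [le_div_iff₀ P0]
    have a1 := mul_le_mul_of_nonneg_left (show 100 * (P ^ 9 * (F + Γ)) ≤ 2 * r from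
      (pk 9 10 rfl _ FΓ).trans z1) r0.le
    linarith only [a1, r2]
  have sh : ∀ i k, Nx Gn u v i k → sb M m a (u + 1) + N * P * r + Γ ≤ sb M m a (i + 1) →
      sb M m a (k + 1) ≤ sb M m a (v + 1) - N * P * r - r →
      sb M m a (k + 1) - sb M m a (i + 1) ≤ P ^ 4 * F := fun i k n p q => by
    have ik := A.sb_mono (Nat.succ_le_succ n.2.1)
    have g1 := x2 i n.1 (n.2.1.trans n.2.2.1)
    have g2 := x2 k (n.1.trans n.2.1) n.2.2.1
    have g3 := (x1 _ ⟨p, by linarith⟩).trans u1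
    have g4 := (x1 (sb M m a (k + 1)) ⟨by linarith, by linarith⟩).trans u1
    have a1 := W.len hp n (Q := P * r + P * j + 2 * r) c0 (hΓ i k n) (by linarith) (by linarith)
    have a2 := x3 _ _ _ _ p ik q sl
      (a1.trans (sub_le_sub_left (mul_le_mul_of_nonneg_right mu (sub_nonneg.2 ik)) _))
    set X := F * r ^ 2 with hX
    have X0 : 0 ≤ X := by positivity
    have o1 : o ≤ r ^ 2 := (le_mul_of_one_le_left o0 (one_le_pow₀ P1')).trans h.o1
    have l3 : lam * Γ ^ 2 ≤ r ^ 2 := (le_mul_of_one_le_left lg (one_le_pow₀ P1')).trans l2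
    have b1 : o * r ≤ X := by
      rw [hX, sq, ← mul_assoc]
      exact mul_le_mul_of_nonneg_right ((le_mul_of_one_le_left o0 N1).trans h.oF) r0.le
    have b2 : o * j ≤ X := by rw [hX, mul_comm F]; exact mul_le_mul o1 h.jF j0 r2.le
    have b3 : (o + lam * Γ ^ 2) * δ ≤ 2 * r ^ 2 * F :=
      mul_le_mul (by linarith) h.δF W.δ0 (by positivity)
    have b4 : S.C ^ 2 * S.ms b' * (δ + S.C * S.v) ≤ P * r ^ 2 * (F + P * F) :=
      mul_le_mul D1 (add_le_add h.δF (mul_le_mul CP h.vF v0.le P0.le))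
        (by have := W.δ0; positivity) (by positivity)
    have b5 : e + 2 * o * (P * r + P * j + 2 * r) + (o + lam * Γ ^ 2) * δ ≤ 11 * (P * X) := by
      have := le_mul_of_one_le_left X0 P1'
      linarith [mul_le_mul_of_nonneg_left b1 P0.le, mul_le_mul_of_nonneg_left b2 P0.le, h.eF]
    have b6 := (mul_le_mul_of_nonneg_left b5 C0.le).trans
      (mul_le_mul_of_nonneg_right CP (by positivity))
    have b7 := pw 1 2 (by norm_num) X X0
    have b8 := pw 0 2 (by norm_num) X X0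
    have b9 : r ^ 2 / P * (sb M m a (k + 1) - sb M m a (i + 1)) ≤ 30 * (P ^ 2 * X) := by
      have : P * r ^ 2 * (F + P * F) = P ^ 1 * X + P ^ 2 * X := by rw [hX]; ring
      linarith only [a2, b4, b6, b7, b8, h.gF, this]
    rw [div_mul_eq_mul_div, div_le_iff₀ P0] at b9
    refine le_of_mul_le_mul_left ?_ r2
    have c1 := mul_le_mul_of_nonneg_left (pk 3 4 rfl F F0) r2.le
    have c2 : 0 ≤ r ^ 2 * (P ^ 3 * F) := by positivity
    rw [hX] at b9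
    linarith only [b9, c1, c2]
  -- the inner window
  obtain ⟨i1, u', n1, p1, p2⟩ := exists_nx (σ := fun k => sb M m a (k + 1))
    (t := sb M m a (u + 1) + N * P * r + Γ) W.uv W.gu W.gv (by linarith) (by linarith [ht.1, ht.2])
  obtain ⟨v', k1, n2, q1, q2⟩ := exists_nx (σ := fun k => sb M m a (k + 1))
    (t := sb M m a (v + 1) - N * P * r - r) W.uv W.gu W.gv (by linarith [ht.1, ht.2]) (by linarith)
  have s1 := hΓ _ _ n1
  have s2 := hΓ _ _ n2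
  have uv' : u' ≤ v' := le_of_not_gt fun hlt => by
    linarith [A.sb_mono (Nat.succ_le_succ hlt.le), ht.1, ht.2]
  have hu : u ≤ u' := n1.1.trans n1.2.1
  have hv : v' ≤ v := n2.2.1.trans n2.2.2.1
  have G0 : 0 ≤ min Γ (P ^ 4 * F) := le_min Γ0 (by positivity)
  obtain ⟨y1, -⟩ := H (W.sub hu uv' hv n1.2.2.2.2.1 n2.2.2.2.1) hT (h.mono l0 G0 (min_le_left _ _))
    (fun i k n => le_min (hΓ i k (n.up hu hv)) (sh i k (n.up hu hv)
      (p2.trans (A.sb_mono (Nat.succ_le_succ n.1)))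
      ((A.sb_mono (Nat.succ_le_succ n.2.2.1)).trans q1)))
    (fun t ht => hp t ⟨(A.sb_mono (Nat.succ_le_succ hu)).trans ht.1,
      ht.2.trans (A.sb_mono (Nat.succ_le_succ hv))⟩) (by linarith)
  refine (y1 t ⟨by linarith [ht.1, min_le_left Γ (P ^ 4 * F)], by linarith [ht.2]⟩).trans ?_
  have a1 := mul_le_mul_of_nonneg_left (min_le_right Γ (P ^ 4 * F)) (by positivity : 0 ≤ P ^ 7)
  have a2 := pw 7 11 (by norm_num) F F0
  have a3 := pk 11 12 rfl F F0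
  have a4 : 0 ≤ P ^ 11 * F := by positivity
  linarith only [a1, a2, a3, a4]

namespace At

variable {S : Sc} {M : Md} {m : ℕ} {a T : ℝ}

/-- location of a sloped node from `u` at two times -/
theorem loc73 (A : At S M m a T) {k : ℕ} {U δ : ℝ} (h1 : S.jl ≤ k) (h2 : k < S.J) (U0 : 0 ≤ U)
    (hδ : S.C * (U + 2 * (S.C * S.v)) ≤ δ) (t0 : 0 ≤ M.s k - δ) (t1 : M.s k + δ < M.s S.J)
    (u1 : uu M S m a T (M.s k - δ) ≤ U) (u2 : -U ≤ uu M S m a T (M.s k + δ)) :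
    |sb M m a (k + 1) - M.s k| ≤ δ := by
  have C0 := A.c_pos
  have cv : 0 < S.C * S.v := mul_pos C0 (v_pos A.cl)
  have d0 : 0 < δ := lt_of_lt_of_le (by positivity) hδ
  have zm := Sc48.lvr_mono A.okb.1.1
  have zk := A.lvb_node h1 (h2.le.trans A.cl.i3)
  have zh := A.lvh_node (A.cl.i1.trans h1) h2
  have a1 := A.ts73 t0 (by linarith : M.s k - δ ≤ M.s k) (by linarith)
  have a2 := A.ts73 (s_nn A.cl k) (by linarith : M.s k ≤ M.s k + δ) t1
  have b1 : U + 2 * (S.C * S.v) ≤ lvr 1 (lh M T) (M.s k) - lvr 1 (lh M T) (M.s k - δ) + S.C * S.v :=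
    le_of_mul_le_mul_left (by linarith) C0
  have b2 : U + 2 * (S.C * S.v) ≤ lvr 1 (lh M T) (M.s k + δ) - lvr 1 (lh M T) (M.s k) + S.C * S.v :=
    le_of_mul_le_mul_left (by linarith) C0
  unfold uu at u1 u2
  refine abs_le.2 ⟨le_of_not_gt fun h => ?_, le_of_not_gt fun h => ?_⟩
  · have := zm (show sb M m a (k + 1) ≤ M.s k - δ by linarith)
    linarith
  · have := zm (show M.s k + δ ≤ sb M m a (k + 1) by linarith)
    linarith

/-- the weight of the sloped nodes above the time `t0` -/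
theorem mass73 (A : At S M m a T) {U : Finset ℕ} {t0 ℓ : ℝ} (l0 : 0 ≤ ℓ) (hl : M.s S.J - t0 ≤ ℓ)
    (hU : ∀ k ∈ U, S.jl < k ∧ k < S.J ∧ t0 ≤ M.s k) :
    ∑ k ∈ U, dx M k ≤ S.C * (ℓ + 2 * S.v) := by
  have C0 := A.c_pos
  have v0 := v_pos A.cl
  rcases U.eq_empty_or_nonempty with rfl | ne
  · rw [Finset.sum_empty]; positivity
  obtain ⟨p1, p2, p3⟩ := hU _ (U.min'_mem ne)
  have mi : ∀ k ∈ U, U.min' ne ≤ k := fun k hk => U.min'_le k hk
  obtain ⟨i, hi⟩ : ∃ i, U.min' ne = i + 1 := ⟨U.min' ne - 1, by omega⟩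
  rw [hi] at p1 p2 p3 mi
  have j0 := A.cl.i1
  refine (Finset.sum_le_sum_of_subset_of_nonneg (t := Finset.Ioc i (S.J - 1)) (fun k hk => ?_)
    fun k _ _ => (A.dz_nn k : 0 ≤ dx M k)).trans ?_
  · have := mi k hk
    have := (hU k hk).2.1
    exact Finset.mem_Ioc.2 ⟨by omega, by omega⟩
  rw [sum_dz M (by omega)]
  obtain ⟨q1, -⟩ := A.s_pred
  have a1 := (A.sl q1 _ _ (s_nn A.cl (i + 1)) (A.cl.sm (show i + 1 ≤ S.J - 1 by omega)) le_rfl).2
  rw [A.zh_pred, A.lvh_node (by omega) p2] at a1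
  have a2 := (A.cl.zs i (by omega) p2).2
  have a3 : S.C * (M.s (S.J - 1) - M.s (i + 1)) ≤ S.C * ℓ :=
    mul_le_mul_of_nonneg_left (by linarith) C0.le
  linarith

/-- **the final energy**: pointwise below `t2`, the closing sum above -/
theorem en73 (A : At S M m a T) {tA tB t0 t2 U δ Y ℓ : ℝ} (hj : M.s S.jl < t0) (U0 : 0 ≤ U)
    (hδ : S.C * (U + 2 * (S.C * S.v)) ≤ δ) (hu : ∀ t, tA ≤ t → t ≤ tB → |uu M S m a T t| ≤ U)
    (a0 : 0 ≤ tA) (a1 : tA + δ ≤ t0) (a4 : tA ≤ t2) (a2 : t2 + 2 * δ ≤ tB) (a3 : tB < M.s S.J)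
    (l0 : 0 ≤ ℓ) (hl : M.s S.J - t0 ≤ ℓ)
    (hY : ∀ W : Finset ℕ, (∀ k ∈ W, S.jl < k ∧ k ≤ S.Jp ∧ t2 ≤ M.s k ∧ t2 ≤ sb M m a (k + 1)) →
      ∑ k ∈ W, (M.z k - M.z (k - 1)) * (sb M m a (k + 1) - M.s k) ^ 2 ≤ Y) :
    M.En S m a M.q 2 t0 S.C ≤ 3 * (S.C * (ℓ + 2 * S.v) * δ ^ 2 + Y + GS M S t0 S.C + GP M S +
      (S.C / (m + 1)) ^ 2) := by
  classical
  have C0 := A.c_pos
  have cv : 0 < S.C * S.v := mul_pos C0 (v_pos A.cl)
  have d0 : 0 < δ := lt_of_lt_of_le (by positivity) hδ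
  have dn : ∀ k, 0 ≤ dx M k := A.dz_nn
  have mem : ∀ k ∈ M.blk S t0 S.C, S.jl < k ∧ k ≤ S.Jp ∧ t0 ≤ M.s k ∧ M.s k ≤ S.C := fun k hk => by
    obtain ⟨p, q⟩ := Finset.mem_filter.1 hk
    exact ⟨lt_of_not_ge fun h => by linarith [A.cl.sm h, q.1], (Finset.mem_Ioc.1 p).2, q.1, q.2⟩
  have W : ∑ k ∈ M.blk S t0 S.C, dx M k ≤ 1 := by
    refine (Finset.sum_le_sum_of_subset_of_nonneg (Finset.filter_subset _ _)
      fun k _ _ => dn k).trans ?_
    rw [dx_sum73 M A.j0_le, A.cl.top _ le_rfl]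
    have := A.xb_mono (show 0 ≤ S.j0 + 1 by omega)
    have := A.a_pos
    simp only [xb] at *
    linarith
  have s1 : ∑ k ∈ M.blk S t0 S.C, dx M k * (sb M m a (k + 1) - M.s k) ^ 2 ≤
      S.C * (ℓ + 2 * S.v) * δ ^ 2 + Y := by
    rw [← Finset.sum_filter_add_sum_filter_not _ (fun k => M.s k < t2 + δ)]
    refine add_le_add ?_ (hY _ fun k hk => ?_)
    · have lo : ∀ k ∈ (M.blk S t0 S.C).filter (fun k => M.s k < t2 + δ),
          S.jl < k ∧ k < S.J ∧ t0 ≤ M.s k := fun k hk => by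
        obtain ⟨p, q⟩ := Finset.mem_filter.1 hk
        obtain ⟨p1, -, p3, -⟩ := mem k p
        exact ⟨p1, lt_of_not_ge fun h => by linarith [A.cl.sm h], p3⟩
      refine (Finset.sum_le_sum (g := fun k => dx M k * δ ^ 2) fun k hk => ?_).trans ?_
      · obtain ⟨p1, p2, p3⟩ := lo k hk
        have q := (Finset.mem_filter.1 hk).2
        have := A.loc73 p1.le p2 U0 hδ (by linarith) (by linarith)
          (abs_le.1 (hu _ (by linarith) (by linarith))).2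
          (abs_le.1 (hu _ (by linarith) (by linarith))).1
        refine mul_le_mul_of_nonneg_left ?_ (dn k)
        rw [← sq_abs]
        exact pow_le_pow_left₀ (abs_nonneg _) this 2
      · rw [← Finset.sum_mul]
        exact mul_le_mul_of_nonneg_right (A.mass73 l0 hl lo) (sq_nonneg _)
    · obtain ⟨p, q⟩ := Finset.mem_filter.1 hk
      obtain ⟨p1, p2, -, -⟩ := mem k p
      have q' := not_lt.1 q
      refine ⟨p1, p2, by linarith, le_of_not_gt fun h => ?_⟩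
      have b1 := Sc48.lvr_mono A.okb.1.1 h.le
      rw [A.lvb_node p1.le p2] at b1
      have b2 := (abs_le.1 (hu t2 a4 (by linarith))).2
      have b3 := A.ts73 (a0.trans a4) (by linarith : t2 ≤ t2 + δ) (by linarith)
      have b4 : U + 2 * (S.C * S.v) ≤ lvr 1 (lh M T) (t2 + δ) - lvr 1 (lh M T) t2 + S.C * S.v :=
        le_of_mul_le_mul_left (by linarith) C0
      have b5 : lvr 1 (lh M T) (t2 + δ) ≤ M.z k := by
        rcases lt_or_ge k S.J with c | c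
        · rw [← A.lvh_node (A.cl.i1.trans p1.le) c]
          exact Sc48.lvr_mono A.okh.1.1 q'
        · exact (A.zh_le_8 (by linarith)).trans (A.cl.leg.zm (by omega))
      unfold uu at b2
      linarith
  have s2 : ∑ k ∈ M.blk S t0 S.C, dx M k * M.G k ^ 2 ≤ GS M S t0 S.C + GP M S := by
    rw [← Finset.sum_filter_add_sum_filter_not _ (fun k => k < S.J)]
    refine add_le_add (Finset.sum_le_sum_of_subset_of_nonneg (fun k hk => ?_)
      fun k _ _ => mul_nonneg (dn k) (sq_nonneg _))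
      (Finset.sum_le_sum_of_subset_of_nonneg (fun k hk => ?_)
      fun k _ _ => mul_nonneg (dn k) (sq_nonneg _))
    · obtain ⟨p, q⟩ := Finset.mem_filter.1 hk
      obtain ⟨p1, -, p3, p4⟩ := mem k p
      exact Finset.mem_filter.2 ⟨Finset.mem_Ioo.2 ⟨p1, q⟩, p3, p4⟩
    · obtain ⟨p, q⟩ := Finset.mem_filter.1 hk
      exact Finset.mem_Icc.2 ⟨not_lt.1 q, (mem k p).2.1⟩
  unfold Md.En
  refine (Finset.sum_le_sum (g := fun k => 3 * (dx M k * (sb M m a (k + 1) - M.s k) ^ 2) +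
    3 * (dx M k * M.G k ^ 2) + dx M k * (3 * (S.C / (m + 1)) ^ 2)) fun k hk => ?_).trans ?_
  · have d := A.del_le (A.jp_le (mem k hk).2.1)
    have e : |M.del m a k| ^ 2 ≤ 3 * (sb M m a (k + 1) - M.s k) ^ 2 + 3 * M.G k ^ 2 +
        3 * (S.C / (m + 1)) ^ 2 := by
      have := pow_le_pow_left₀ (abs_nonneg _) d 2
      rw [← sq_abs (sb M m a (k + 1) - M.s k), ← sq_abs (M.G k)]
      nlinarith [sq_nonneg (|sb M m a (k + 1) - M.s k| - |M.G k|),
        sq_nonneg (|sb M m a (k + 1) - M.s k| - S.C / (m + 1)), sq_nonneg (|M.G k| - S.C / (m + 1))]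
    have := mul_le_mul_of_nonneg_left e (dn k)
    change dx M k * |M.del m a k| ^ 2 ≤ _
    linarith
  · rw [Finset.sum_add_distrib, Finset.sum_add_distrib, ← Finset.mul_sum, ← Finset.mul_sum,
      ← Finset.sum_mul]
    linarith [mul_le_of_le_one_left (show 0 ≤ 3 * (S.C / (m + 1)) ^ 2 by positivity) W]

end At

end Crest.Agent.T156.Alt.Mp9

namespace Crest.Agent.T156.Alt.L63

open Real
open Crest.Agent.T156.Alt.L69 Crest.Agent.T156.Alt.Mp9

/-- the fine bound of `u` up to `y - 3 N L r` -/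
theorem Sq.uq73 (T0 : ℝ) : ∃ K0 : ℝ, ∀ {K L : ℝ} {S : Sc} {M : Md} {m : ℕ} {a Lg X2 j γ : ℝ}
    {η : ℝ → ℝ} {aa g' : ℝ} {Gn : ℕ → Prop} {u V V2 : ℕ} {y r : ℝ}, 2 * S.C = T0 → K0 ≤ K →
    Sq K L S M m a Lg X2 j γ η aa g' Gn u V V2 y r →
    ∀ t, 3 / 4 * M.s S.J ≤ t → t + 3 * (2 * log S.n * L * r) ≤ y →
      |L63.uq S M m a t| ≤ L ^ 12 * qF L S M Lg X2 j γ η g' := by
  obtain ⟨K0, -, H⟩ := Nw.main73 T0
  refine ⟨K0, fun {K L S M m a Lg X2 j γ η aa g' Gn u V V2 y r} hT hK Q t p q => ?_⟩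
  rcases le_total (t + 7 * (2 * log S.n * L * r)) y with c | c
  · exact Q.uq t p c
  have A := Q.nw.at'
  have w1 := Q.w1
  have w2 := Q.w2
  have n0 : 0 ≤ 2 * log S.n * L * r := by
    have := Q.nk.N1
    have := Q.nk.P1
    have := Q.nk.r0
    positivity
  have ey := Q.ey
  subst hT
  refine H Q.nw le_rfl (Q.nk.anti53 A.c_pos.le hK) (fun i k n => Q.gap i k (n.up le_rfl Q.VV))
    (fun s hs => Q.hp s ⟨(A.sb_mem ((Q.nw.uv.trans Q.nw.vJ.le).trans A.cl.i3)).1.trans hs.1,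
      hs.2.trans (A.sb_mem (Q.nw.vJ.le.trans A.cl.i3)).2⟩) (by linarith) t
    ⟨by linarith, by linarith⟩

/-- **the final energy of (TLq)** from the closing sum `Y` above `t2` -/
theorem Sq.en73 (T0 : ℝ) : ∃ K0 : ℝ, ∀ {S : Sc} {M : Md} {m : ℕ} {a : ℝ}
    {K E L G1 u1 u2 j γ Lc ηc τ l0 l X Xp Vt Lg Lp X2 X3 X4 G0 N t1 ℓ En p0 aa g' R2 : ℝ}
    {η g : ℝ → ℝ} {Gn : ℕ → Prop} {u V V2 : ℕ} {y r t2 Y : ℝ}, 2 * S.C = T0 → S.In m a → K0 ≤ K →
    T20.Rg K E L S →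
    Hy E S M m a G1 u1 u2 j γ Lc ηc τ l0 l X Xp Vt Lg Lp X2 X3 X4 G0 η N g t1 (M.s S.J) ℓ En p0 →
    LQ E S M X Xp Vt Lg Lp X2 G0 u1 u2 j γ η aa g' R2 →
    Sq K L S M m a Lg X2 j γ η aa g' Gn u V V2 y r → sb M m a (u + 1) ≤ t2 →
    t2 + r ≤ y - 3 * (2 * log S.n * L * r) →
    (∀ W : Finset ℕ, (∀ k ∈ W, S.jl < k ∧ k ≤ S.Jp ∧ t2 ≤ M.s k ∧ t2 ≤ sb M m a (k + 1)) →
      ∑ k ∈ W, (M.z k - M.z (k - 1)) * (sb M m a (k + 1) - M.s k) ^ 2 ≤ Y) →
    M.En S m a M.q 2 (M.s S.J - ℓ) S.C ≤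
      L ^ 46 * (ℓ * (j + bs S Lg X2 g' η (M.s S.J)) ^ 2 + R2) + 3 * Y +
        3 * (GS M S (M.s S.J - ℓ) S.C + GP M S) + L * (1 / (S.n : ℝ) ^ 2) := by
  obtain ⟨K0, H⟩ := Sq.uq73 T0
  refine ⟨K0, fun {S M m a K E L G1 u1 u2 j γ Lc ηc τ l0 l X Xp Vt Lg Lp X2 X3 X4 G0 N t1 ℓ En p0 aa
    g' R2 η g Gn u V V2 y r t2 Y} hT hm hK G hy lq Q hs ht hY => ?_⟩
  have A := Q.nw.at'
  have F := T20.fc A.cl hm G hy
  have C1 := A.cl.C1
  have C0 := A.c_pos
  have v0 := v_pos A.cl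
  have L1 := G.L1
  have L0 : 0 < L := by linarith
  have L1' : 1 ≤ L := by linarith
  have r0 := Q.nk.r0
  have a0 := Q.a0
  have C3 : S.C ≤ S.C ^ 3 := le_self_pow₀ C1 (by norm_num)
  have C2 : S.C ^ 2 ≤ S.C ^ 3 := pow_le_pow_right₀ C1 (by norm_num)
  have LC := G.LC
  have vF := Q.nk.vF
  have Fb := Q.Fb
  have sm := Q.sm
  have hu := H hT hK Q
  set F' := qF L S M Lg X2 j γ η g' with hF
  set b := bs S Lg X2 g' η (M.s S.J) with hb
  have F0 : 0 < F' := v0.trans_le vF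
  have E1 : 1000 ≤ E := L1.trans ((le_self_pow₀ L1' (by norm_num)).trans G.LE)
  have n0 : 0 ≤ 2 * log S.n * L * r := by have := G.lg1; positivity
  have pw : ∀ i k : ℕ, i ≤ k → ∀ x : ℝ, 0 ≤ x → L ^ i * x ≤ L ^ k * x := fun i k hk x hx =>
    mul_le_mul_of_nonneg_right (pow_le_pow_right₀ L1' hk) hx
  have pk : ∀ i k : ℕ, i + 1 = k → ∀ x : ℝ, 0 ≤ x → 1000 * (L ^ i * x) ≤ L ^ k * x := by
    rintro i _ rfl x hx
    rw [pow_succ', mul_assoc]; exact mul_le_mul_of_nonneg_right L1 (by positivity)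
  have hδ : S.C * (L ^ 12 * F' + 2 * (S.C * S.v)) ≤ L ^ 13 * F' := by
    have a1 : S.C ^ 2 * S.v ≤ S.C ^ 3 * (L ^ 12 * F') :=
      mul_le_mul C2 (vF.trans (le_mul_of_one_le_left F0.le (one_le_pow₀ L1'))) v0.le (by positivity)
    have a2 : S.C * (L ^ 12 * F') ≤ S.C ^ 3 * (L ^ 12 * F') :=
      mul_le_mul_of_nonneg_right C3 (by positivity)
    have a3 := mul_le_mul_of_nonneg_right LC (show 0 ≤ L ^ 12 * F' by positivity)
    have a4 : 0 ≤ S.C ^ 3 * (L ^ 12 * F') := by positivity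
    linarith
  have dr : 1000 * (L ^ 13 * F') ≤ r := by
    have : 0 ≤ L ^ 50 * aa := by positivity
    linarith [pk 13 14 rfl F' F0.le, pw 14 50 (by norm_num) F' F0.le]
  have ra := Q.nk.ra
  have y1 := Q.y1
  have lp : 0 < √(S.ms l) := sqrt_pos.2 (A.ms_pos F.l0.le)
  have l1 : √(S.ms l) ≤ ℓ := (le_mul_of_one_le_left lp.le (one_le_pow₀ L1')).trans F.ℓ1
  have l0' : 0 < ℓ := lp.trans_le l1
  have l2 : 1000 * ℓ ≤ M.s S.J := (mul_le_mul_of_nonneg_right E1 l0'.le).trans hy.lt.ℓ2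
  have vl : S.v ≤ ℓ := G.vn.trans (F.nl.trans l1)
  have jl : M.s S.jl ≤ l := (le_mul_of_one_le_left (s_nn A.cl _) L1').trans F.jl
  have t1' : 1000 * t1 ≤ M.s S.J :=
    (mul_le_mul_of_nonneg_right E1 (by linarith [hy.lt.t1a, F.l0])).trans hy.lt.t1b
  have yC : y ≤ S.C := by linarith [(A.cl.sm A.cl.i3).trans A.cl.sT]
  have wr : 14 * (2 * log S.n * L * r) ≤ y / 10 := by
    have a1 := F.ml (y / 2) (by linarith [hy.lt.t1a, Q.y2]) (by linarith)
    rw [← Q.er] at a1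
    have a2 : log S.n * (L * r) ≤ L * (L * r) := mul_le_mul_of_nonneg_right G.lg (by positivity)
    linarith [pk 2 3 rfl r r0.le, pw 3 67 (by norm_num) r r0.le]
  have w2 := Q.w2
  have y2 := Q.y2
  have e := A.en73 (tA := 3 / 4 * M.s S.J) (tB := y - 3 * (2 * log S.n * L * r))
    (t0 := M.s S.J - ℓ) (t2 := t2) (ℓ := ℓ) (by linarith [hy.lt.t1a, F.l0]) (by positivity) hδ
    (fun t p q => hu t p (by linarith)) (by linarith) (by linarith) (by linarith) (by linarith)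
    (by linarith) l0'.le (by linarith) hY
  have sC : M.s S.J ≤ S.C := (A.cl.sm A.cl.i3).trans A.cl.sT
  have b1 : S.C * (ℓ + 2 * S.v) ≤ 3 * (S.C * ℓ) := by
    linarith [mul_le_mul_of_nonneg_left vl C0.le]
  have b2 : (L ^ 13 * F') ^ 2 ≤ L ^ 42 * (2 * ((j + b) ^ 2 + γ ^ 2)) := by
    have a1 : L ^ 13 * F' ≤ L ^ 21 * (j + γ + b) := by
      have := mul_le_mul_of_nonneg_left Fb (show 0 ≤ L ^ 13 by positivity)
      linarith
    have a2 := pow_le_pow_left₀ (by positivity) a1 2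
    have a3 : (j + γ + b) ^ 2 ≤ 2 * ((j + b) ^ 2 + γ ^ 2) := by nlinarith [sq_nonneg (j + b - γ)]
    have a4 := mul_le_mul_of_nonneg_left a3 (show 0 ≤ L ^ 42 by positivity)
    linarith
  have b3 := mul_le_mul b1 b2 (by positivity) (by positivity)
  have u20 : 0 ≤ u2 := by
    have := A.cl.last
    have := hy.lp.u1a
    have := hy.lp.u1b.1
    have := A.cl.leg.zm (Nat.sub_le S.Jp 1)
    rw [A.cl.top _ le_rfl] at this
    linarith
  have γR : γ ^ 2 ≤ R2 := by linarith [lq.q4, sq_nonneg X2]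
  have R0 : 0 ≤ R2 := (sq_nonneg _).trans γR
  have b4 : ℓ * γ ^ 2 ≤ L * R2 := mul_le_mul (by linarith) γR (sq_nonneg _) L0.le
  have x0 : 0 ≤ ℓ * (j + b) ^ 2 := by positivity
  have b5 : 18 * S.C * (L ^ 42 * (ℓ * (j + b) ^ 2 + L * R2)) ≤
      L * (L ^ 42 * (ℓ * (j + b) ^ 2 + L * R2)) :=
    mul_le_mul_of_nonneg_right (by linarith) (by positivity)
  have b6 := mul_le_mul_of_nonneg_left b4 (show 0 ≤ 18 * S.C * L ^ 42 by positivity)
  have b7 : 3 * (S.C / (m + 1)) ^ 2 ≤ L * (1 / (S.n : ℝ) ^ 2) := by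
    have n1 : (0 : ℝ) < S.n := by exact_mod_cast n_pos A.cl
    have m1 : (S.n : ℝ) ≤ m + 1 := by
      have : (S.n : ℝ) ≤ m := by exact_mod_cast hm.m1
      linarith
    have a1 : S.C / (m + 1) ≤ S.C / S.n := div_le_div_of_nonneg_left C0.le n1 m1
    have a2 := pow_le_pow_left₀ (by positivity) a1 2
    have a3 : (S.C / S.n) ^ 2 = S.C ^ 2 * (1 / (S.n : ℝ) ^ 2) := by rw [div_pow]; ring
    have a4 : 3 * S.C ^ 2 * (1 / (S.n : ℝ) ^ 2) ≤ L * (1 / (S.n : ℝ) ^ 2) :=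
      mul_le_mul_of_nonneg_right (by linarith) (by positivity)
    linarith
  linarith [pw 43 46 (by norm_num) _ x0, pw 44 46 (by norm_num) _ R0]

end Crest.Agent.T156.Alt.L63

end
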