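import Crest.Agent.T156.TLqI_53
import Crest.Agent.T156.TLp_62

/-!
# Row 156, block (L): the last window, links to the plateau through a sloped partner (helper73)
-/

set_option autoImplicit false

noncomputable section

namespace Crest.Agent.T156.Alt.Mp9

open MeasureTheory Set Real
open Crest.Agent.R164.GC Crest.Agent.R339.B Crest.Agent.R339.Var Crest.Agent.T157.Pf
open Crest.Agent.T156.Pp.Area50 Crest.Agent.T156.Spl27 Crest.Agent.T156.Zb9

namespace At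

variable {S : Sc} {M : Md} {m : ℕ} {a T : ℝ}

/-- time against label on the reference -/
theorem ts73 (A : At S M m a T) {s t : ℝ} (h0 : 0 ≤ s) (h : s ≤ t) (h1 : t < M.s S.J) :
    t - s ≤ S.C * (lvr 1 (lh M T) t - lvr 1 (lh M T) s + S.C * S.v) := by
  have q := (A.sl h1 s t h0 h le_rfl).1
  rw [one_div_mul_eq_div] at q
  rw [← div_le_iff₀' A.c_pos]
  linarith

/-- the residual of ANY node of a window against the anchor -/
theorem rc73 (A : At S M m a T) {a' b' : ℝ} (ha : 0 ≤ a') (hb : b' < M.s S.J) {k : ℕ}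
    (h1 : S.jl < k) (hk : M.s k ∈ Icc a' b') (ht : sb M m a (k + 1) ∈ Icc a' b') (c0 : ℝ) :
    |res M S m a T k - c0| ≤ |WW M S m a T c0 (sb M m a (k + 1))| +
      S.C ^ 2 * S.ms b' * |uu M S m a T (sb M m a (k + 1))| + |M.G k| + S.C / (m + 1) +
      S.C ^ 3 * S.ms b' * S.v := by
  obtain ⟨μ, m1, m2⟩ := A.W_rep ha hb h1 hk ht
  have μ0 : 0 ≤ μ := (div_nonneg (A.ms_pos ha).le (sq_nonneg _)).trans m1.1
  have a1 : |μ * uu M S m a T (sb M m a (k + 1))| ≤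
      S.C ^ 2 * S.ms b' * |uu M S m a T (sb M m a (k + 1))| := by
    rw [abs_mul, abs_of_nonneg μ0]
    exact mul_le_mul_of_nonneg_right m1.2 (abs_nonneg _)
  have a2 : |res M S m a T k - c0| ≤ |M.b * res M S m a T k - M.b * c0| := by
    rw [← mul_sub, abs_mul, abs_of_pos A.b_pos]
    exact le_mul_of_one_le_left (abs_nonneg _) A.b_mem.1
  refine a2.trans ?_
  have a3 := le_abs_self (WW M S m a T c0 (sb M m a (k + 1)))
  have a4 := neg_abs_le (WW M S m a T c0 (sb M m a (k + 1)))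
  have e : WW M S m a T c0 (sb M m a (k + 1)) = Rig.Mf M.b (lb M S m a T) (sb M m a (k + 1)) -
    Rig.Mf M.b (lh M T) (sb M m a (k + 1)) + M.b * c0 := by unfold WW; ring
  refine abs_le.2 ⟨?_, ?_⟩ <;>
    linarith [(abs_le.1 m2).1, (abs_le.1 m2).2, (abs_le.1 a1).1, (abs_le.1 a1).2]

/-- a partner whose mean time lies in a given window `[t1, t2]` -/
theorem part73 (A : At S M m a T) {Pn : ℕ → Prop} {ez : ℕ → ℝ} {x la uc ω ℓ B : ℝ}
    (P : L62.PN S M m a T Pn ez x la uc ω ℓ B) {u V : ℕ} {t1 t2 U : ℝ} (ju : S.jl < u)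
    (VJ : V < S.J) (yJ : sb M m a (V + 1) < M.s S.J) (sV : M.s V + ℓ / 5 ≤ M.s S.J)
    (h1 : sb M m a (u + 1) ≤ t1) (h2 : t2 ≤ sb M m a (V + 1)) (ω0 : 0 ≤ ω)
    (u1 : |uu M S m a T t1| ≤ U) (u2 : -U ≤ uu M S m a T t2)
    (hl : S.C * (ω + 2 * U + 3 * (S.C * S.v)) ≤ t2 - t1)
    (hD : M.s S.J - t1 + S.C * (U + S.C * S.v) ≤ B * ℓ) :
    ∃ i, u ≤ i ∧ i ≤ V ∧ sb M m a (i + 1) ∈ Icc t1 t2 ∧ ∀ k, Pn k →
      |res M S m a T k - res M S m a T i| ≤
        x + ez k + la * (sb M m a (k + 1) - sb M m a (i + 1)) := by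
  have C0 := A.c_pos
  have cv : 0 < S.C * S.v := mul_pos C0 (v_pos A.cl)
  have U0 : 0 ≤ U := (abs_nonneg _).trans u1
  have tt : t1 ≤ t2 := by
    have : 0 ≤ S.C * (ω + 2 * U + 3 * (S.C * S.v)) := by positivity
    linarith
  have Vp := VJ.le.trans A.cl.i3
  have uV : u ≤ V := le_of_not_gt fun h =>
    absurd ((A.sb_mono (Nat.succ_le_succ h.le)).trans (h1.trans tt)) (by
      have : 0 < S.C * (ω + 2 * U + 3 * (S.C * S.v)) := by positivity
      have := A.sb_mono (Nat.succ_le_succ h.le)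
      intro _; linarith)
  have t0 : 0 ≤ t1 := (A.sb_mem (uV.trans Vp)).1.trans h1
  obtain ⟨p, cp⟩ := exists_Cell A.ub t1
  obtain ⟨q, cq⟩ := exists_Cell A.ub t2
  have p1 : u + 1 ≤ p := cp.ge A.ub (by omega) h1
  have q1 : u + 1 ≤ q := cq.ge A.ub (by omega) (h1.trans tt)
  have q2 : q < V + 2 := cq.lt A.ub (by omega)
    (h2.trans_lt (lt_of_lt_of_le (A.sb_lt (ju.le.trans uV) (by have := A.cl.i3; omega)) le_rfl))
  obtain ⟨p, rfl⟩ : ∃ y, p = y + 1 := ⟨p - 1, by omega⟩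
  obtain ⟨q, rfl⟩ : ∃ y, q = y + 1 := ⟨q - 1, by omega⟩
  have zp := A.lvb_cell cp
  have zq := A.lvb_cell cq
  have s1 := A.ts73 t0 tt (h2.trans_lt yJ)
  have s2 : ω + 2 * U + 3 * (S.C * S.v) ≤ lvr 1 (lh M T) t2 - lvr 1 (lh M T) t1 + S.C * S.v :=
    le_of_mul_le_mul_left (hl.trans s1) C0
  obtain ⟨u3, u4⟩ := abs_le.1 u1
  unfold uu at u2 u3 u4
  rw [zp] at u3 u4
  rw [zq] at u2
  have pq : p + 1 ≤ q := by
    by_contra hc
    linarith [A.cl.leg.zm (show q ≤ p by omega)]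
  have j0 := A.cl.i1
  have zs := (A.cl.zs p (by omega) (by omega)).2
  have zs' := A.cl.leg.zm (Nat.le_succ p)
  have sp : M.s S.J - B * ℓ ≤ M.s (p + 1) := by
    rcases le_total t1 (M.s (p + 1)) with c | c
    · have : 0 ≤ S.C * (U + S.C * S.v) := by positivity
      linarith
    · have s3 := A.ts73 (s_nn A.cl _) c (tt.trans_lt (h2.trans_lt yJ))
      rw [A.lvh_node (by omega) (by omega)] at s3
      have s4 : S.C * (lvr 1 (lh M T) t1 - M.z (p + 1) + S.C * S.v) ≤ S.C * (U + S.C * S.v) :=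
        mul_le_mul_of_nonneg_left (by simp only [Nat.succ_eq_add_one] at zs'; linarith) C0.le
      linarith
  obtain ⟨i, i1, i2, hi⟩ := P.dv (p + 1) q (by omega) pq (by omega) sp
    (by linarith [A.cl.sm (show q ≤ V by omega)]) (by linarith)
  refine ⟨i, by omega, by omega, ⟨?_, ?_⟩, hi⟩
  · exact (cp.2.2 (by omega)).le.trans (A.sb_mono (by omega))
  · exact (A.sb_mono (by omega)).trans (cq.2.1 (by omega))

/-- **the link of the plateau to the anchor of the window** -/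
theorem link73 (A : At S M m a T) {Pn : ℕ → Prop} {ez : ℕ → ℝ} {x la uc ω ℓ B : ℝ}
    (P : L62.PN S M m a T Pn ez x la uc ω ℓ B) {u V : ℕ} {a' b' t1 t2 U X g c0 : ℝ} (ju : S.jl < u)
    (a0 : 0 ≤ a') (hb : b' < M.s S.J) (su : a' ≤ M.s u) (sv : M.s V ≤ b')
    (bu : a' ≤ sb M m a (u + 1)) (bv : sb M m a (V + 1) ≤ b') (sV : M.s V + ℓ / 5 ≤ M.s S.J)
    (h1 : sb M m a (u + 1) ≤ t1) (h2 : t2 ≤ sb M m a (V + 1)) (ω0 : 0 ≤ ω)
    (hu : ∀ t ∈ Icc t1 t2, |uu M S m a T t| ≤ U) (hW : ∀ t ∈ Icc t1 t2, |WW M S m a T c0 t| ≤ X)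
    (U0 : 0 ≤ U) (hl : S.C * (ω + 2 * U + 3 * (S.C * S.v)) ≤ t2 - t1)
    (hD : M.s S.J - t1 + S.C * (U + S.C * S.v) ≤ B * ℓ)
    (hg : ∀ k, u ≤ k → k ≤ V → |M.G k| ≤ g) {w : ℕ} (hw : Pn w) :
    |res M S m a T w - c0| ≤ x + ez w + la * (sb M m a (w + 1) - t1) + X +
      S.C ^ 2 * S.ms b' * U + g + S.C / (m + 1) + S.C ^ 3 * S.ms b' * S.v := by
  have C0 := A.c_pos
  have cv : 0 < S.C * S.v := mul_pos C0 (v_pos A.cl)
  have tt : t1 ≤ t2 := by
    have : 0 ≤ S.C * (ω + 2 * U + 3 * (S.C * S.v)) := by positivity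
    linarith
  have VJ : V < S.J := lt_of_not_ge fun h => absurd (A.cl.sm h) (not_le.2 (sv.trans_lt hb))
  obtain ⟨i, i1, i2, i3, hi⟩ := A.part73 P ju VJ (bv.trans_lt hb) sV h1 h2 ω0
    (hu t1 ⟨le_rfl, tt⟩) (abs_le.1 (hu t2 ⟨tt, le_rfl⟩)).1 hl hD
  have ms : M.s i ∈ Icc a' b' := ⟨su.trans (A.cl.sm i1), (A.cl.sm i2).trans sv⟩
  have r := A.rc73 a0 hb (ju.trans_le i1) ms
    ⟨bu.trans (A.sb_mono (Nat.succ_le_succ i1)), (A.sb_mono (Nat.succ_le_succ i2)).trans bv⟩ c0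
  have b0 : 0 ≤ S.C ^ 2 * S.ms b' :=
    mul_nonneg (sq_nonneg _) (A.ms_pos (a0.trans (ms.1.trans ms.2))).le
  have a1 := mul_le_mul_of_nonneg_left (hu _ i3) b0
  have a2 : la * (sb M m a (w + 1) - sb M m a (i + 1)) ≤ la * (sb M m a (w + 1) - t1) :=
    mul_le_mul_of_nonneg_left (by linarith [i3.1]) P.la0
  have a3 := abs_sub_le (res M S m a T w) (res M S m a T i) c0
  linarith [hi w hw, hW _ i3, hg i i1 i2]

/-- **the mean time of a plateau node from the floor**: `y = sb (V + 1)`; `U` may be crude -/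
theorem gm73 (A : At S M m a T) {Pn : ℕ → Prop} {ez : ℕ → ℝ} {x la uc ω ℓ B : ℝ}
    (P : L62.PN S M m a T Pn ez x la uc ω ℓ B) {u V : ℕ} {ρ μ a' U g γ : ℝ} (ju : S.jl < u)
    (VJ : V < S.J) (yJ : sb M m a (V + 1) < M.s S.J) (sV : M.s V + ℓ / 5 ≤ M.s S.J)
    (h1 : sb M m a (u + 1) ≤ sb M m a (V + 1) - ρ) (ω0 : 0 ≤ ω) (U0 : 0 ≤ U) (μ0 : 0 < μ)
    (hμ : ∀ t ∈ Icc (sb M m a (V + 1) - ρ) T, M.b * Pr.GG (lb M S m a T) t ≤ 1 - μ)
    (hla : S.C * la ≤ μ / 2) (top : M.z (S.J - 1) - M.z V ≤ a')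
    (u1 : uu M S m a T (sb M m a (V + 1) - ρ) ≤ U) (u2 : -U ≤ uu M S m a T (sb M m a (V + 1)))
    (hl : S.C * (ω + 2 * U + 3 * (S.C * S.v)) ≤ ρ)
    (hD : S.C * (a' + ω + 3 * (S.C * S.v)) ≤ B * ℓ)
    (hg : ∀ k, u ≤ k → k ≤ V → |M.G k| ≤ g) (hγ : M.s S.Jp - M.s S.J ≤ γ) {w : ℕ} (hw : Pn w) :
    sb M m a (w + 1) - sb M m a (V + 1) ≤ 2 * (|M.G w| + g +
      S.C * S.ms (M.s S.Jp) * (γ + S.C * (a' + ω + 3 * (S.C * S.v))) + S.C * (x + ez w)) / μ := by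
  classical
  have C0 := A.c_pos
  have C1 := A.cl.C1
  have cv : 0 < S.C * S.v := mul_pos C0 (v_pos A.cl)
  have ρ0 : 0 < ρ := lt_of_lt_of_le (by positivity) hl
  have Vp := VJ.le.trans A.cl.i3
  have uV : u ≤ V := le_of_not_gt fun h => by linarith [A.sb_mono (Nat.succ_le_succ h.le)]
  have j0 := A.cl.i1
  have t0 : 0 ≤ sb M m a (V + 1) - ρ := (A.sb_mem (uV.trans Vp)).1.trans h1
  have zm := Sc48.lvr_mono A.okb.1.1
  have s1 := A.ts73 t0 (by linarith : _ ≤ sb M m a (V + 1)) yJ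
  have s2 : ω + 2 * U + 3 * (S.C * S.v) ≤ lvr 1 (lh M T) (sb M m a (V + 1)) -
      lvr 1 (lh M T) (sb M m a (V + 1) - ρ) + S.C * S.v :=
    le_of_mul_le_mul_left (by linarith) C0
  unfold uu at u1 u2
  rw [A.lvb_node (ju.le.trans uV) Vp] at u2
  have s3 : lvr 1 (lb M S m a T) (sb M m a (V + 1) - ρ) + ω + 2 * (S.C * S.v) ≤ M.z V := by linarith
  have zu := zm h1
  rw [A.lvb_node ju.le (uV.trans Vp)] at zu
  have pu : u ≤ Nat.findGreatest (fun k => M.z k + ω ≤ M.z V) V :=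
    Nat.le_findGreatest uV (by linarith)
  have pV := Nat.findGreatest_le (P := fun k => M.z k + ω ≤ M.z V) V
  have ps := Nat.findGreatest_spec (P := fun k => M.z k + ω ≤ M.z V) uV (by linarith)
  have pg := fun k => Nat.findGreatest_is_greatest (P := fun k => M.z k + ω ≤ M.z V) (k := k) (n := V)
  set p := Nat.findGreatest (fun k => M.z k + ω ≤ M.z V) V
  have zp : M.z V - M.z p ≤ ω + S.C * S.v := by
    rcases pV.eq_or_lt with e | e
    · rw [e, sub_self]; positivity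
    · have := not_le.1 (pg (p + 1) (Nat.lt_succ_self p) e)
      linarith [(A.cl.zs p (by omega) (by omega)).2]
  obtain ⟨p1, p2⟩ := A.s_pred
  have sp : M.s S.J - M.s p ≤ S.C * (a' + ω + 3 * (S.C * S.v)) := by
    have a1 := A.ts73 (s_nn A.cl p) (A.cl.sm (show p ≤ S.J - 1 by omega)) p1
    rw [A.zh_pred, A.lvh_node (by omega) (by omega)] at a1
    have a2 : S.C * (M.z (S.J - 1) - M.z p + S.C * S.v) ≤ S.C * (a' + ω + 2 * (S.C * S.v)) :=
      mul_le_mul_of_nonneg_left (by linarith) C0.le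
    have a3 : S.C * S.v ≤ S.C * (S.C * S.v) := le_mul_of_one_le_left cv.le C1
    linarith
  obtain ⟨i, i1, i2, hi⟩ := P.dv p V (by omega) pV VJ (by linarith) sV (by linarith)
  obtain ⟨w1, w2⟩ := P.mem w hw
  have bi : sb M m a (V + 1) - ρ ≤ sb M m a (i + 1) := le_of_not_gt fun h => by
    have a1 := zm h.le
    rw [A.lvb_node (by omega) (by omega)] at a1
    linarith [A.cl.leg.zm i1]
  have m0 : 0 ≤ S.C * S.ms (M.s S.Jp) := mul_nonneg C0.le (A.ms_pos (s_nn A.cl _)).le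
  have dH := A.dH54 (i' := i) (i := i) (k := w) (k' := w) (θ := S.C * S.ms (M.s S.Jp)) (by omega)
    le_rfl (by omega) le_rfl w2.le fun t q1 q2 => by
      have q3 := q2.trans (A.cl.sm w2.le)
      exact (A.cl.crit t ⟨(s_nn A.cl _).trans q1, q3⟩).2.trans
        (mul_le_mul_of_nonneg_left (A.cl.msm q3) C0.le)
  have e0 : 0 ≤ x + ez w := add_nonneg P.x00 (P.ez0 w)
  have l := A.lin54 (i := i) (k := w) (er := x + ez w) (by omega) (by omega) w2.le μ0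
    ((mul_le_mul_of_nonneg_right A.cl.b1 P.la0).trans hla)
    (fun t q1 q2 => hμ t ⟨bi.trans q1, q2.trans (A.sb_mem w2.le).2⟩)
    (by linarith [(abs_le.1 (hi w hw)).1]) dH
  have a1 : S.C * S.ms (M.s S.Jp) * (M.s w - M.s i) ≤
      S.C * S.ms (M.s S.Jp) * (γ + S.C * (a' + ω + 3 * (S.C * S.v))) :=
    mul_le_mul_of_nonneg_left (by linarith [A.cl.sm w2.le, A.cl.sm i1]) m0
  have a2 := mul_le_mul_of_nonneg_right A.cl.b1 e0
  refine le_trans (by linarith [A.sb_mono (Nat.succ_le_succ i2)]) (l.trans ?_)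
  exact div_le_div_of_nonneg_right (by linarith [hg i (pu.trans i1) i2]) μ0.le

end At

end Crest.Agent.T156.Alt.Mp9

end
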