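import Crest.Agent.T156.TLqW_34
import Crest.Agent.T156.TLqM_73

/-!
# Row 156, block (L): the last window, the data of the closing argument (helper53)
-/

set_option autoImplicit false

noncomputable section

namespace Crest.Agent.T156.Alt.Mp9

open MeasureTheory Set Real
open Crest.Agent.R164.GC Crest.Agent.R339.B Crest.Agent.R339.Var Crest.Agent.T157.Pf
open Crest.Agent.T156.Pp.Area50 Crest.Agent.T156.Spl27 Crest.Agent.T156.Zb9

/-- the final window below `y = sb (V + 1)` -/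
def Wk (S : Sc) (M : Md) (m : ℕ) (a T : ℝ) (V : ℕ) (a1 t1 t2 L r F Γ : ℝ) : Prop :=
  ∃ (Sb : Finset ℝ) (gp : ℝ → ℝ → Prop) (c0 a0 b0 b1 p0 d D err C1 δ : ℝ),
    Rig.Tk Sb a0 (sb M m a (V + 1)) (WW M S m a T c0)
      (fun t => Rig.muf M.b (lb M S m a T) t - Rig.muf M.b (lh M T) t)
      (fun t => Rig.nuf M.b (lb M S m a T) t - Rig.nuf M.b (lh M T) t) (uu M S m a T) gp
      b0 b1 p0 d D err C1 δ ∧ a0 ≤ a1 ∧ Rig.Sh a0 (sb M m a (V + 1)) gp a1 (sb M m a (V + 1)) Γ ∧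
    1 ≤ b0 * L ∧ b1 ≤ L ∧ C1 ≤ L ∧ r ^ 2 ≤ L * d ∧ D ≤ L * r ^ 2 ∧ δ ≤ F ∧ p0 ≤ F ∧ 0 ≤ err ∧
    err ≤ F * r ^ 2 ∧ |WW M S m a T c0 a1| ≤ F * r ^ 2 ∧
    ∀ t ∈ Icc t1 t2, |WW M S m a T c0 t| ≤ F * r ^ 2 ∧ |uu M S m a T t| ≤ F

/-- everything that is known at the corner -/
structure Iq (S : Sc) (M : Md) (m : ℕ) (a T : ℝ) (u V kA w : ℕ) (Pn : ℕ → Prop) (ez : ℕ → ℝ)
    (x la uc ω aa B a' b' y a1 ρ L r F A1 H R p g γ : ℝ) : Prop where
  at' : At S M m a T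
  ey : y = sb M m a (V + 1)
  ju : S.jl < u
  aj : M.s S.j0 ≤ a'
  hb : b' < M.s S.J
  su : a' ≤ M.s u
  sv : M.s V ≤ b'
  bu : a' ≤ sb M m a (u + 1)
  bv : y ≤ b'
  sV : M.s V + aa / 5 ≤ M.s S.J
  L1 : 1000 ≤ L
  LC : 32 * S.C ^ 3 ≤ L
  r0 : 0 < r
  r1 : L ^ 11 * r ≤ 1
  ρ1 : L * r ≤ ρ
  ρ2 : ρ ≤ L ^ 2 * r
  w1 : sb M m a (u + 1) ≤ y - 13 * ρ
  a11 : y - 13 * ρ ≤ a1
  a12 : a1 ≤ y - ρ
  fl : ∀ t ∈ Icc (y - 13 * ρ) T, M.b * Pr.GG (lb M S m a T) t ≤ 1 - r ^ 2 / (2 * S.C)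
  top : M.z (S.J - 1) - M.z V ≤ A1
  u1 : uu M S m a T (y - 13 * ρ) ≤ L ^ 12 * F
  u2 : -A1 ≤ uu M S m a T y
  pn : L62.PN S M m a T Pn ez x la uc ω aa B
  pw : Pn w
  ω0 : 0 ≤ ω
  ωa : ω ≤ aa
  Ba : 14 * ρ ≤ B * aa
  hg : ∀ k, u ≤ k → k ≤ V → |M.G k| ≤ g
  gF : g ≤ F * r ^ 2
  hH : x + ez w + |M.G w| ≤ H * r ^ 2
  laF : L ^ 2 * la ≤ F * r
  hθ : S.θ ≤ L ^ 2 * r ^ 2
  rb : S.ms b' ≤ 16 * r ^ 2
  Mt : |sb M m a (w + 1) - M.s S.J| ≤ F
  hγ : M.s S.Jp - M.s S.J ≤ γ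
  γF : γ ≤ F
  k3 : S.J ≤ kA
  kw : kA ≤ w
  kz : M.z (kA - 1) - M.z (S.J - 1) ≤ 4 * aa
  hκ : 1 ≤ L * (1 - M.z (kA - 1))
  R0 : 0 ≤ R
  sp : ∑ k ∈ Finset.Icc kA S.Jp,
    (M.z k - M.z (k - 1)) * (sb M m a (k + 1) - sb M m a (w + 1)) ^ 2 ≤ R ^ 2
  hJ : |Sc48.Jf (lh M T) (lb M S m a T) T (a1 + r)| ≤ p
  hP : ∀ t ∈ Icc y T, Rig.Hp (lh M T) (lb M S m a T) t ≤ F
  vF : S.v ≤ F
  mF : 1 / ((m : ℝ) + 1) ≤ F * r ^ 2
  sm : L ^ 40 * (H + F + A1 + aa) ≤ r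
  win : ∀ B', M.s S.J - y ≤ B' → L ^ 30 * B' ≤ r →
    Wk S M m a T V a1 (y - 11 * ρ) (y - 2 * ρ) L r (L ^ 12 * F) (L ^ 4 * F)

set_option maxHeartbeats 1600000 in
/-- **the data of the closing argument** -/
theorem Iq.cq53 {S : Sc} {M : Md} {m : ℕ} {a T : ℝ} {u V kA w : ℕ} {Pn : ℕ → Prop} {ez : ℕ → ℝ}
    {x la uc ω aa B a' b' y a1 ρ L r F A1 H R p g γ : ℝ}
    (h : Iq S M m a T u V kA w Pn ez x la uc ω aa B a' b' y a1 ρ L r F A1 H R p g γ) :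
    ∃ Sb gp c0 a0 b0 b1 p0 d D err C1 δ, Q34.Cq S M m a T Sb gp c0 V kA w a0 a1 b0 b1 p0 d D err
      C1 δ L r (L ^ 12 * F) (L ^ 4 * F) (L ^ 4 * (H + F + A1 + aa)) (A1 + 4 * aa) R p (H * r ^ 2)
      ((H + L ^ 13 * F) * r ^ 2) γ F := by
  obtain ⟨A, rfl, ju, aj, hb, su, sv, bu, bv, sV, L1, LC, r0, r1, ρ1, ρ2, w1, a11, a12, fl, top, u1,
    u2, pn, pw', ω0, ωa, Ba, hg, gF, hH, laF, hθ, rb, Mt, hγ, γF, k3, kw, kz, hκ, R0, sp, hJ, hP, vF,
    mF, sm, win⟩ := h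
  have C1 := A.cl.C1
  have C0 := A.c_pos
  have v0 := v_pos A.cl
  have L0 : 0 < L := by linarith
  have L1' : 1 ≤ L := by linarith
  have L2 : 100 ≤ L := by linarith
  have r2 : 0 < r ^ 2 := by positivity
  have F0 : 0 ≤ F := v0.le.trans vF
  have C3 : S.C ≤ S.C ^ 3 := le_self_pow₀ C1 (by norm_num)
  have C2 : S.C ^ 2 ≤ S.C ^ 3 := pow_le_pow_right₀ C1 (by norm_num)
  have PC : 32 * S.C ≤ L := by linarith
  have PC2 : 32 * S.C ^ 2 ≤ L := by linarith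
  have yσ := bv.trans_lt hb
  have VJ : V < S.J := lt_of_not_ge fun c => absurd (A.cl.sm c) (not_le.2 (sv.trans_lt hb))
  obtain ⟨Jw, wJ⟩ := pn.mem _ pw'
  have x0 := pn.x00
  have la0 := pn.la0
  have ez0 := pn.ez0 w
  have a0 : 0 ≤ aa := ω0.trans ωa
  have γ0 : 0 ≤ γ := le_trans (sub_nonneg.2 (A.cl.sm A.cl.i3)) hγ
  have A0 : 0 ≤ A1 := le_trans (sub_nonneg.2 (A.cl.leg.zm (show V ≤ S.J - 1 by omega))) top
  have H0 : 0 ≤ H := nonneg_of_mul_nonneg_left (le_trans (by positivity) hH) r2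
  have ρ0 : 1000 * r ≤ ρ := (mul_le_mul_of_nonneg_right L1 r0.le).trans ρ1
  have uV : u ≤ V := le_of_not_gt fun c => by linarith [A.sb_mono (Nat.succ_le_succ c.le)]
  have Mt' := abs_le.1 Mt
  obtain ⟨s, hs⟩ : ∃ s, s = H + F + A1 + aa := ⟨_, rfl⟩
  rw [← hs] at sm ⊢
  have s0 : 0 ≤ s := by rw [hs]; positivity
  have pw := fun i j hij => Q34.pw L2 (i := i) (j := j) hij s0
  have n0 : ∀ i : ℕ, 0 ≤ L ^ i * s := fun i => by positivity
  have Fs : ∀ i : ℕ, L ^ i * F ≤ L ^ i * s := fun i =>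
    mul_le_mul_of_nonneg_left (by linarith) (by positivity)
  have vw : S.C * S.v ≤ L ^ 1 * s := mul_le_mul (by linarith) (by linarith) v0.le (by positivity)
  have cs : ∀ z, z ≤ 40 * (L ^ 12 * s) → S.C * z ≤ r := fun z hz => by
    have b1 := mul_le_mul_of_nonneg_left hz C0.le
    have b2 := mul_le_mul_of_nonneg_right PC (n0 12)
    linarith [pw 13 40 (by norm_num), n0 13]
  have e0 := pw 0 1 (by norm_num)
  have e1 := pw 1 12 (by norm_num)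
  have e12 := Fs 12
  have lr : L * la ≤ r ^ 2 := by
    have b1 := mul_le_mul_of_nonneg_right (le_self_pow₀ L1' two_ne_zero) la0
    have b2 : F ≤ r := by linarith [pw 1 40 (by norm_num), n0 1]
    linarith [mul_le_mul_of_nonneg_right b2 r0.le]
  have g1 := A.gm73 pn (ρ := 13 * ρ) (μ := r ^ 2 / (2 * S.C)) (U := L ^ 12 * F + A1) ju VJ yσ sV w1
    ω0 (by positivity) (by positivity) fl (by
      rw [le_div_iff₀ two_pos, le_div_iff₀ (by positivity)]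
      linarith [mul_le_mul_of_nonneg_right PC2 la0, mul_nonneg (sq_nonneg S.C) la0])
    top (by linarith) (by linarith [mul_nonneg (pow_nonneg L0.le 12) F0])
    (by linarith [cs (ω + 2 * (L ^ 12 * F + A1) + 3 * (S.C * S.v)) (by linarith [n0 12])])
    (by linarith [cs (A1 + ω + 3 * (S.C * S.v)) (by linarith [n0 12])]) hg hγ pw'
  have G1 : sb M m a (w + 1) - sb M m a (V + 1) ≤ L ^ 4 * s := by
    refine g1.trans ?_
    rw [div_le_iff₀ (by positivity), mul_div_assoc', le_div_iff₀ (by positivity)]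
    have b1 : |M.G w| + S.C * (x + ez w) ≤ S.C * (s * r ^ 2) := by
      have := mul_le_mul_of_nonneg_left (hH.trans
        (mul_le_mul_of_nonneg_right (show H ≤ s by linarith) r2.le)) C0.le
      linarith [le_mul_of_one_le_left (abs_nonneg (M.G w)) C1]
    have b2 : g ≤ S.C * (s * r ^ 2) := (gF.trans
      (mul_le_mul_of_nonneg_right (show F ≤ s by linarith) r2.le)).trans
      (le_mul_of_one_le_left (by positivity) C1)
    have b3 : γ + S.C * (A1 + ω + 3 * (S.C * S.v)) ≤ 5 * S.C ^ 2 * s := by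
      have c0 : S.C ≤ S.C ^ 2 := le_self_pow₀ C1 two_ne_zero
      have c1 := mul_le_mul c0 (show A1 + ω ≤ s by linarith) (by positivity) (sq_nonneg S.C)
      have c2 := mul_le_mul_of_nonneg_left (show S.v ≤ s by linarith) (sq_nonneg S.C)
      have c4 := le_mul_of_one_le_left s0 (C1.trans c0)
      linarith
    have b4 : S.C * S.ms (M.s S.Jp) * (γ + S.C * (A1 + ω + 3 * (S.C * S.v))) ≤
        S.C * (L ^ 2 * r ^ 2) * (5 * S.C ^ 2 * s) :=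
      mul_le_mul (mul_le_mul_of_nonneg_left ((A.cl.ms1 _).trans hθ) C0.le) b3 (by positivity)
        (by positivity)
    have b5 := mul_le_mul_of_nonneg_left (add_le_add (add_le_add b1 b2) b4)
      (by positivity : 0 ≤ 4 * S.C)
    have b6 : 1024 * S.C ^ 4 ≤ L ^ 2 := by
      have := mul_le_mul PC2 PC2 (by positivity) L0.le
      linarith
    have b7 := mul_le_mul_of_nonneg_right b6 (by positivity : 0 ≤ L ^ 2 * r ^ 2 * s)
    have b8 := mul_le_mul_of_nonneg_right PC2 (by positivity : 0 ≤ s * r ^ 2)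
    have b9 := Q34.pw L2 (show 1 < 4 by norm_num) (by positivity : 0 ≤ s * r ^ 2)
    have c1 : 0 ≤ L ^ 4 * (s * r ^ 2) := by positivity
    linarith
  have e4 := pw 0 4 (by norm_num)
  have G2 : L ^ 4 * s ≤ r / 100 := by linarith [pw 4 40 (by norm_num)]
  obtain ⟨Sb, gp, c0, a0', b0, b1, p0, d, D, err, C1', δ, tk, q1, q2, q3, q4, q5, q6, q7, q8, q9, q10,
    q11, q12, q13⟩ := win (2 * (L ^ 4 * s)) (by linarith) (by linarith [pw 34 40 (by norm_num), n0 34])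
  have lk := A.link73 pn (t1 := sb M m a (V + 1) - 11 * ρ) (t2 := sb M m a (V + 1) - 2 * ρ) ju
    ((s_nn A.cl _).trans aj) hb su sv bu bv sV (by linarith) (by linarith) ω0
    (fun t ht => (q13 t ht).2) (fun t ht => (q13 t ht).1) (by positivity)
    (by linarith [cs (ω + 2 * (L ^ 12 * F) + 3 * (S.C * S.v)) (by linarith [n0 12])])
    (by linarith [cs (L ^ 12 * F + S.C * S.v) (by linarith [n0 12])]) hg pw'
  have Gn := abs_nonneg (M.G w)
  refine ⟨Sb, gp, c0, a0', b0, b1, p0, d, D, err, C1', δ, A, tk, ju.trans_le uV, VJ, k3, kw, wJ.le, yσ,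
    by linarith, q1, by linarith, q2, L2, r0, q3, q4, q5, by linarith, q6, q7, hθ, by positivity,
    mul_le_mul_of_nonneg_right (pow_le_pow_right₀ L1' (by norm_num)) F0, q8, q9,
    vF.trans (le_mul_of_one_le_left F0 (one_le_pow₀ L1')), q10, q11, q12, hJ, G1, lk.trans ?_,
    by linarith, hγ, by linarith, R0, sp, hκ, ?_, ?_,
    fun t ht => hP t ⟨ht.1, ht.2.trans (A.sb_mem wJ.le).2⟩⟩
  · have y0 : 0 ≤ F * r ^ 2 := by positivity
    have d3 : la * (sb M m a (w + 1) - (sb M m a (V + 1) - 11 * ρ)) ≤ la * (12 * (L ^ 2 * r)) :=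
      mul_le_mul_of_nonneg_left (by linarith) la0
    have d4 := mul_le_mul_of_nonneg_right laF r0.le
    have d6 : S.C / (m + 1) ≤ L * (F * r ^ 2) := by
      rw [div_eq_mul_one_div]; exact mul_le_mul (by linarith) mF (by positivity) L0.le
    have d7 : S.C ^ 2 * S.ms b' * (L ^ 12 * F) ≤ S.C ^ 2 * (16 * r ^ 2) * (L ^ 12 * F) :=
      mul_le_mul_of_nonneg_right (mul_le_mul_of_nonneg_left rb (sq_nonneg _)) (by positivity)
    have d8 := mul_le_mul_of_nonneg_right PC2 (by positivity : 0 ≤ L ^ 12 * (F * r ^ 2))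
    have d9 : S.C ^ 3 * S.ms b' * S.v ≤ S.C ^ 3 * (16 * r ^ 2) * F :=
      mul_le_mul (mul_le_mul_of_nonneg_left rb (by positivity)) vF v0.le (by positivity)
    have d10 := mul_le_mul_of_nonneg_right LC y0
    have f1 := Q34.pw L2 (show 12 < 13 by norm_num) y0
    have f2 := Q34.pw L2 (show 1 < 12 by norm_num) y0
    have f3 := Q34.pw L2 (show 0 < 1 by norm_num) y0
    have f4 : 0 ≤ L ^ 13 * (F * r ^ 2) := by positivity
    linarith
  · have := mul_le_mul_of_nonneg_left (show L ^ 4 * s + |sb M m a (w + 1) - M.s S.J| + L ^ 4 * F ≤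
      3 * (L ^ 4 * s) by linarith [Fs 4, n0 4]) (by positivity : 0 ≤ L ^ 10)
    linarith [pw 14 40 (by norm_num), n0 14]
  · have b1 : r + L ^ 12 * F + (A1 + 4 * aa) ≤ 2 * r := by
      linarith [pw 12 40 (by norm_num), n0 12]
    have := mul_le_mul_of_nonneg_left b1 (by positivity : 0 ≤ L ^ 10)
    linarith [Q34.pw L2 (show 10 < 11 by norm_num) r0.le, mul_nonneg (pow_nonneg L0.le 10) r0.le]

end Crest.Agent.T156.Alt.Mp9

end
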