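import Crest.Agent.T156.TLqL_36
import Crest.Agent.T156.TLqC_53

/-!
# Row 156, block (L): the final window below the last good node (helper54)
-/

set_option autoImplicit false

noncomputable section

namespace Crest.Agent.T156.Alt.L63

open MeasureTheory Real Set
open Crest.Agent.T156.Alt.L69 Crest.Agent.T156.Alt.Mp9 Crest.Agent.T156.Alt.Ap63
open Crest.Agent.R164.GC Crest.Agent.R339.B Crest.Agent.R339.Var Crest.Agent.T157.Pf
open T20

set_option maxHeartbeats 800000 in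
/-- **the final window** -/
theorem win36 (T0 : ℝ) : ∃ K0 : ℝ, ∀ {S : Sc} {M : Md} {m : ℕ}
    {a K L Lg X2 j γ aa g' y r Γ0 B : ℝ} {η : ℝ → ℝ} {Gn : ℕ → Prop} {u V V2 : ℕ},
    2 * S.C = T0 → K0 ≤ K → Sq K L S M m a Lg X2 j γ η aa g' Gn u V V2 y r →
    Sk L S M m a (qF L S M Lg X2 j γ η g') (qO L S M Lg X2) aa Gn u V2 y r Γ0 →
    Fl L S M m a (qF L S M Lg X2 j γ η g') aa V y r → M.s S.J - y ≤ B → L ^ 30 * B ≤ r →
    Wk S M m a (2 * S.C) V (y - 12 * (log S.n * L * r) - L * r / 2) (y - 11 * (log S.n * L * r))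
      (y - 2 * (log S.n * L * r)) L r (L ^ 12 * qF L S M Lg X2 j γ η g')
      (L ^ 4 * qF L S M Lg X2 j γ η g') := by
  obtain ⟨K1, -, H1⟩ := Nw.side53 T0
  obtain ⟨K2, -, H2⟩ := Nw.stage T0
  obtain ⟨K3, -, H3⟩ := Nw.tk53 T0
  refine ⟨max K1 (max K2 K3), fun {S M m a K L Lg X2 j γ aa g' y r Γ0 B η Gn u V V2} hT hK W k f
    hB Br => ?_⟩
  subst hT
  have A := W.nw.at'
  have h := A.cl
  have C1 := h.C1
  have C0 := h.C0
  have L1 := k.L1
  have Lp0 : 0 < L := by linarith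
  have lg := k.lg1
  have r0 := k.r0
  have F0 := k.F0
  have a0 := W.a0
  have o0 := k.o0
  have Γ0' := k.Γ0'
  have ey := W.ey
  have C3 : S.C ≤ S.C ^ 3 := le_self_pow₀ C1 (by norm_num)
  have LC := k.LC
  have nk1 := (W.nk1 k).anti53 C0.le ((le_max_left _ _).trans hK)
  have nk2 := W.nk.anti53 C0.le ((le_max_left _ _).trans ((le_max_right _ _).trans hK))
  have nk3 := W.nk.anti53 C0.le ((le_max_right _ _).trans ((le_max_right _ _).trans hK))
  have Lr : 0 < L * r := by positivity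
  have ρ1 : 14 * (L * r) ≤ log (S.n : ℝ) * L * r := by
    rw [mul_assoc]; exact mul_le_mul_of_nonneg_right lg Lr.le
  have rL : 1000 * r ≤ L * r := mul_le_mul_of_nonneg_right L1 r0.le
  have y0 : 0 ≤ y := by linarith [W.nw.a0]
  have yJ : y < M.s S.J := by linarith [W.y1]
  have B0 : 0 ≤ B := by linarith
  have VJ := W.nw.vJ
  have hp : ∀ {i : ℕ}, u ≤ i → ∀ t ∈ Icc (sb M m a (i + 1)) (sb M m a (V + 1)),
      Rig.Hp (lh M (2 * S.C)) (lb M S m a (2 * S.C)) t ≤ qJ L S j γ := fun {i} hi t ht =>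
    W.hp t ⟨by linarith [ht.1, W.nw.bu, W.nw.a0, A.sb_mono (Nat.succ_le_succ hi)], by
      linarith [ht.2, h.s_le_C h.i3]⟩
  have w1 := W.w1
  have w2 := W.w2
  have jF := W.nk.jF
  have oF := k.oF
  have gap0 : ∀ i k', Nx Gn u V i k' → sb M m a (k' + 1) - sb M m a (i + 1) ≤ Γ0 :=
    fun i k' n => k.gap i k' (n.up le_rfl W.VV)
  have s2 := (H2 W.nw le_rfl nk2 (fun i k' n => W.gap i k' (n.up le_rfl W.VV)) (hp le_rfl)
    (by linarith)).2.1
  have N := W.nw
  have nF := k.nF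
  have oN := W.nk.oF
  have eF := W.nk.eF
  have gF := W.nk.gF
  have δF := W.nk.δF
  have θ1 := W.nk.θ1
  have PT := W.nk.PT
  have Fr := k.Fr
  have ar := k.ar
  have or' := k.or
  have Γr := k.Γr
  have ΓΓ := k.ΓΓ
  have lo := f.lo
  have fl := f.fl
  generalize qF L S M Lg X2 j γ η g' = F at *
  generalize qO L S M Lg X2 = o at *
  generalize qJ L S j γ = jj at *
  have p := fun i k (h : i < k) (x : ℝ) (hx : 0 ≤ x) => pw36 L1 h hx
  have aF : 0 ≤ aa + F := by linarith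
  have x1 : 0 ≤ L ^ 6 * (aa + F) := by positivity
  have x2 : 0 ≤ L * B := by positivity
  have up : uu M S m a (2 * S.C) (sb M m a (V + 1)) ≤ L * B + 2 * (L ^ 6 * (aa + F)) := by
    have e1 := (A.zh53 y0 yJ).2
    have e2 := h.leg.zm (show V ≤ S.J - 1 by omega)
    have e3 := mul_le_mul hB (show S.C ≤ L by linarith) C0.le B0
    have e4 := mul_le_mul k.va (show S.C ≤ L by linarith) C0.le a0.le
    have e5 := A.lvb_node (N.ju.le.trans N.uv) (VJ.le.trans h.i3)
    rw [← ey] at e5 ⊢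
    unfold uu
    linarith [p 1 6 (by norm_num) _ aF, mul_nonneg Lp0.le F0]
  have s1 : ∀ t ∈ Icc (y - 13 * (log S.n * L * r)) y, |uu M S m a (2 * S.C) t| ≤ r := fun t ht => by
    obtain ⟨q1, q2⟩ := H1 N le_rfl nk1 gap0 (hp le_rfl) (by linarith) (by linarith)
      (L * B + 2 * (L ^ 6 * (aa + F))) (by linarith) t ⟨by linarith [ht.1], ey ▸ ht.2⟩
    have q3 := (q1 up).1
    have q4 := (q2 (by rw [← ey]; unfold L63.uq at lo; linarith)).1
    have : 8 * L ^ 7 * (4 * L ^ 2 * F + Γ0 + (L * B + 2 * (L ^ 6 * (aa + F)))) ≤ r := by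
      linarith [p 9 50 (by norm_num) _ F0, p 7 33 (by norm_num) _ Γ0', p 8 30 (by norm_num) _ B0,
        p 13 50 (by norm_num) _ a0.le, p 13 50 (by norm_num) _ F0]
    exact abs_le.2 ⟨by linarith, by linarith⟩
  obtain ⟨i0, u', n0, t1, t2⟩ := exists_nx (σ := fun k => sb M m a (k + 1)) N.uv N.gu N.gv
    (t := y - 13 * (log S.n * L * r)) (by linarith) (by linarith)
  have t3 := gap0 _ _ n0
  have uu' : u ≤ u' := n0.1.trans n0.2.1
  have u'V : u' ≤ V := n0.2.2.1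
  have N' := N.sub uu' u'V le_rfl n0.2.2.2.2.1 N.gv
  have Γ1 : 1000 * Γ0 ≤ 4 * r := by linarith [p 0 33 (by norm_num) _ Γ0']
  have F1 : 1000 * F ≤ r := by linarith [p 0 50 (by norm_num) _ F0]
  have gd : ∀ i, u' ≤ i → i ≤ V → |L0.Gd (lb M S m a (2 * S.C)) (sb M m a (i + 1))| ≤ 3 * (L * r) :=
    fun i a1 a2 => by
      have e1 := s2 i (uu'.trans a1) a2
      have e2 := s1 (sb M m a (i + 1)) ⟨t2.trans (A.sb_mono (Nat.succ_le_succ a1)),
        ey ▸ A.sb_mono (Nat.succ_le_succ a2)⟩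
      have e3 := mul_le_mul_of_nonneg_left (show jj ≤ r by linarith) Lp0.le
      linarith
  have LF : F ≤ 7 * (L * F) := by linarith [p 0 1 (by norm_num) _ F0]
  have LF2 := mul_le_mul_of_nonneg_right LF (sq_nonneg r)
  have gap1 : ∀ i k', Nx Gn u' V i k' → sb M m a (k' + 1) - sb M m a (i + 1) ≤ L ^ 4 * F :=
    fun i k' n => by
      have nu := n.up uu' le_rfl
      obtain ⟨a1, a2, a3, g1, g2, -⟩ := id n
      have d0 := sub_nonneg.2 (A.sb_mono (Nat.succ_le_succ a2))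
      have cm0 : 0 ≤ o + 2 * L ^ 3 * Γ0 ^ 2 := by positivity
      have e1 := N.e1 i k' (uu'.trans a1) a2 a3 g1 g2
      have e2 := N.clk cm0 a2 fun z b1 b2 => N.c_le gap0 (uu'.trans (a1.trans b1)) (b2.trans a3)
      have e3 := mul_le_mul_of_nonneg_left (add_le_add (gd i a1 (a2.trans a3)) (gd k' (a1.trans a2) a3))
        o0
      have e4 := mul_le_mul_of_nonneg_right oF Lr.le
      have e5 : L ^ 66 * Γ0 ^ 2 = 16 * r ^ 2 := by
        have : L ^ 66 * Γ0 ^ 2 = (L ^ 33 * Γ0) ^ 2 := by ring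
        rw [this, Γr]; ring
      have e6 := A.short53 (i := i) (k := k') (P := L) (r := r) (F := 7 * (L * F))
        (e := 256 * L * η (M.s S.J) + 6 * (L * r) * o) (la := o) (cm := o + 2 * L ^ 3 * Γ0 ^ 2)
        (N.ju.trans_le (uu'.trans a1)) a2 (a3.trans_lt VJ) LC r0 k.θr
        (fun t ht => fl t ⟨t2.trans ((A.sb_mono (Nat.succ_le_succ a1)).trans ht.1), by
          linarith [ht.2, A.sb_mono (Nat.succ_le_succ a3), h.s_le_C h.i3]⟩)
        (N.gap i k' nu) (by linarith [neg_abs_le (res M S m a (2 * S.C) k' - res M S m a (2 * S.C) i)])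
        (N.hg i (uu'.trans a1) (a2.trans a3) g1) (N.hg k' (uu'.trans (a1.trans a2)) a3 g2) N.θ0 θ1
        (by have := N.e0; positivity)
        (by
          linarith [mul_le_mul_of_nonneg_right (p 0 1 (by norm_num) _ F0) (sq_nonneg r),
            mul_nonneg F0 (sq_nonneg r)])
        o0 (by linarith [p 2 50 (by norm_num) _ o0, mul_nonneg (sq_nonneg L) o0]) cm0
        (by linarith [p 0 50 (by norm_num) _ o0, p 3 66 (by norm_num) _ (sq_nonneg Γ0), sq_nonneg r])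
        (by linarith) (by linarith)
      linarith [p 3 4 (by norm_num) _ F0, mul_nonneg (pow_pos Lp0 3).le F0]
  have Γ4 : L ^ 4 * F ≤ L ^ 22 * Γ0 := le_of_mul_le_mul_left (by
    linarith [p 15 50 (by norm_num) _ F0, mul_nonneg (pow_pos Lp0 15).le F0]) (pow_pos Lp0 11)
  have x4 : 0 ≤ L ^ 4 * F := by positivity
  have nk4 := nk3.resc (N' := log S.n - 1) (Γ' := L ^ 4 * F) (F' := F) (by positivity) (by linarith)
    x4 (by rw [ΓΓ]; exact Γ4)
    (by rw [ΓΓ]; exact mul_le_mul (by linarith) Γ4 x4 (by linarith)) le_rfl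
    (by linarith [mul_nonneg (show 0 ≤ log (S.n : ℝ) by linarith) o0]) nF
  obtain ⟨c0, p0, er, tk, b1, b2, b3, b4, b5, b6, b7⟩ := H3 N' le_rfl nk4 gap1 (hp uu') (by linarith)
  rw [← ey] at b6 b7
  have F4 : 1000 * (L ^ 4 * F) ≤ r := by linarith [p 4 50 (by norm_num) _ F0]
  have c1 : 5 * L ^ 6 * (F + L ^ 4 * F) * r ^ 2 ≤ L ^ 12 * F * r ^ 2 :=
    mul_le_mul_of_nonneg_right (by
      linarith [p 6 12 (by norm_num) _ F0, p 10 12 (by norm_num) _ F0,
        mul_nonneg (pow_pos Lp0 12).le F0]) (sq_nonneg r)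
  have θ2 : L / Lg ≤ 1 := (le_mul_of_one_le_left N.θ0 (one_le_pow₀ (by linarith))).trans θ1
  refine ⟨_, _, c0, _, _, _, _, _, _, _, _, _, tk, by linarith, Wd.sh gap1, PT, by linarith,
    by linarith, b4, b5, by linarith [p 0 12 (by norm_num) _ F0],
    by linarith [p 1 12 (by norm_num) _ F0, mul_nonneg Lp0.le F0], b2, b3.trans ?_,
    (b6 _ ⟨by linarith, by linarith⟩).trans c1, fun t ht =>
    ⟨(b6 t ⟨by linarith [ht.1], by linarith [ht.2]⟩).trans c1,
      (b7 t ⟨by linarith [ht.1], by linarith [ht.2]⟩).trans ?_⟩⟩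
  · refine mul_le_mul_of_nonneg_right ?_ (sq_nonneg r)
    linarith [p 4 12 (by norm_num) _ F0, p 8 12 (by norm_num) _ F0,
      mul_nonneg (pow_pos Lp0 12).le F0]
  · linarith [p 7 12 (by norm_num) _ F0, p 11 12 (by norm_num) _ F0,
      mul_nonneg (pow_pos Lp0 12).le F0]

end Crest.Agent.T156.Alt.L63

end
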