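import Crest.Agent.T156.TkC_20
import Crest.Agent.T156.TL2D_63
import Crest.Agent.T156.ClAq_63

/-!
# Row 156, block (L): `TkA` from `NdT`, preliminaries (helper20)
-/

set_option autoImplicit false

noncomputable section

namespace Crest.Agent.T156.Alt.L63.T20

open MeasureTheory Real Finset
open Crest.Agent.T156.Alt.L69 Crest.Agent.T156.Alt.Mp9 Crest.Agent.T156.Alt.Ap63

variable {S : Sc} {M : Md} {m : ℕ} {a T : ℝ}

/-- **a priori location on the sloped part**, free of the spread of the plateau -/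
theorem loc0 (A : At S M m a T) {R ρ : ℝ} (R0 : 0 < R) (hX : Phi M S m a ≤ R ^ 3)
    (hρ : S.C ^ 2 * R + S.C * S.v + M.s (S.j0 + 1) ≤ ρ) {k : ℕ} (h1 : S.j0 < k) (h2 : k < S.J) :
    -M.del m a k ≤ 2 * ρ ∧ (M.s k + S.C * S.v + R ≤ M.s S.J → M.del m a k ≤ 2 * ρ) := by
  have h := A.cl
  have C1 := h.C1
  have C0 := h.C0
  have v0 := h.v0
  have i3 := h.i3
  have i4 := h.i4
  have s0 := h.s_pos (k := S.j0 + 1) (by omega)
  have C2 : 1 ≤ S.C ^ 2 := one_le_pow₀ C1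
  have CR : R ≤ S.C ^ 2 * R := le_mul_of_one_le_left R0.le C2
  have Cv : 0 < S.C * S.v := by positivity
  have ρ0 : 0 ≤ ρ := by linarith
  have hS : Sx M.z (fun j => M.rb m a j - M.q j) S.j0 (S.J - 1) 2 ≤ R ^ 3 :=
    (A.Sx_sub _ le_rfl (by omega) 2).trans ((En_eq h m a M.q 2).symm.trans_le hX)
  have gm : ∀ i k, i ≤ k → k ≤ S.J - 1 → M.q i ≤ M.q k := fun i k p q => h.q_mono p (by omega)
  have lip : ∀ i k, S.j0 ≤ i → i ≤ k → k < S.J - 1 →
      M.q (k + 1) - M.q i ≤ S.C ^ 2 * (M.z k - M.z i) + S.C * S.v := fun i k p q r => by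
    linarith [q_slow h (show i ≤ k + 1 by omega) (by omega), s_z h p q (by omega),
      (h.ss k (by omega)).2]
  have no : ¬ρ ^ 2 * (ρ - S.C * S.v) ≤
      S.C ^ 2 * Sx M.z (fun j => M.rb m a j - M.q j) S.j0 (S.J - 1) 2 := fun c => by
    have a1 := mul_le_mul_of_nonneg_left hS (sq_nonneg S.C)
    have a2 : R ^ 2 * (S.C ^ 2 * R + M.s (S.j0 + 1)) ≤ ρ ^ 2 * (ρ - S.C * S.v) :=
      mul_le_mul (pow_le_pow_left₀ R0.le (by linarith) 2) (by linarith) (by positivity) (sq_nonneg _)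
    have a3 : 0 < R ^ 2 * M.s (S.j0 + 1) := by positivity
    linarith
  refine ⟨not_lt.1 fun c => ?_, fun hk => not_lt.1 fun c => ?_⟩
  · unfold Md.del at c
    rcases dn h.leg.zm (rb_mono A.m_pos) (sq_nonneg S.C) gm lip h1 (by omega) ρ0 (by linarith) 2
      with b | b
    · linarith [(rb_mem (M := M) (a := a) A.m_pos k).1, h.q_le_s (k := S.j0 + 1) (by omega)]
    · exact no b
  · unfold Md.del at c
    rcases up h.leg.zm (rb_mono A.m_pos) (sq_nonneg S.C) gm lip h1 (by omega) ρ0 c.le 2 with b | b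
    · have a1 := s_z h (i := k - 1) (k := S.J - 1) (by omega) (by omega) (by omega)
      have a2 := (h.ss (S.J - 1) (by omega)).2
      rw [show S.J - 1 + 1 = S.J by omega] at a2
      have a3 := h.s_lt (i := k - 1) (j := k) (by omega) (by omega)
      have a4 : R < S.C ^ 2 * (M.z (S.J - 1) - M.z (k - 1)) := by linarith
      have a5 := mul_le_mul_of_nonneg_left (b.trans hS) (sq_nonneg S.C)
      have a6 : (S.C ^ 2 * R) ^ 2 ≤ ρ ^ 2 := pow_le_pow_left₀ (by positivity) (by linarith) 2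
      have a7 := mul_lt_mul_of_pos_left a4 (by positivity : 0 < (S.C ^ 2 * R) ^ 2)
      have a8 := mul_le_mul_of_nonneg_right a6 (R0.le.trans a4.le)
      have a9 : S.C ^ 2 * R ^ 3 ≤ S.C ^ 2 * (S.C ^ 2 * R ^ 3) :=
        mul_le_mul_of_nonneg_left (le_mul_of_one_le_left (by positivity) C2) (by positivity)
      linarith
    · exact no b

/-- the times of the mean profile against the reference times -/
theorem loc1 (A : At S M m a T) {k : ℕ} (hk : k < S.J) {ρ : ℝ} (ρ0 : 0 ≤ ρ) :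
    (-M.del m a k ≤ ρ → M.s k - sb M m a (k + 1) ≤ S.C * ρ + |M.G k| + S.C / (m + 1)) ∧
    (M.del m a k ≤ ρ → sb M m a (k + 1) - M.s k ≤ S.C * ρ + |M.G k| + S.C / (m + 1)) := by
  have kN := A.jp_le (hk.le.trans A.cl.i3)
  obtain ⟨p, q⟩ := d_mem A.cl kN
  obtain ⟨r, s⟩ := A.tail_mem kN
  have e := At.sb_sub M m a k
  have b := mul_le_mul_of_nonneg_right (q.trans A.cl.b1) ρ0
  have c0 : 0 ≤ S.C / (m + 1) := by have := A.c_pos; positivity
  exact ⟨fun h => by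
      linarith [mul_le_mul_of_nonneg_left h (by linarith : 0 ≤ M.d k), neg_abs_le (M.G k)],
    fun h => by linarith [mul_le_mul_of_nonneg_left h (by linarith : 0 ≤ M.d k), le_abs_self (M.G k)]⟩

/-- the regime: `L` is a large loss, small against the margin `E` -/
structure Rg (K E L : ℝ) (S : Sc) : Prop where
  L1 : 1000 ≤ L
  LC : 32 * S.C ^ 3 ≤ L
  LK : K * S.C ≤ L
  LT : 1 ≤ exp (-(4 * (2 * S.C))) * L
  lg : log S.n ≤ L
  lg1 : 1 ≤ log (S.n : ℝ)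
  LE : L ^ 67 ≤ E
  vn : S.v ≤ 1 / S.n

theorem cr_one (h : Cl S M) (F1 : S.F = 1) {t : ℝ} (t0 : 0 < t) (ht : √(S.ms t) ≤ t) : cr S t = 1 := by
  have m0 := h.ms_pos t0.le
  refine max_eq_left (rpow_le_one (by rw [F1]; positivity) ?_ (by norm_num))
  rw [F1, one_mul, div_le_one (by positivity)]
  exact (Real.sqrt_le_left t0.le).1 ht

theorem uw_le (h : Cl S M) (F1 : S.F = 1) (Lg : ℝ) {s t : ℝ} (t0 : 0 < t) (ht : √(S.ms t) ≤ t)
    (hs : √(S.ms s) ≤ s) (h4 : t ≤ 4 * s) : 0 ≤ uw S Lg s ∧ uw S Lg s ≤ 4 * uw S Lg t := by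
  have s0 : 0 < s := by linarith
  have m0 := h.ms_pos t0.le
  have m1 := h.ms_pos s0.le
  have n0 := h.N0
  have m2 : S.ms t ≤ 16 * S.ms s := by
    have := h.ms_pow s0.le 2
    norm_num at this
    exact (h.msm h4).trans this
  have w0 : 0 ≤ S.w3 s := by unfold Sc.w3; rw [F1]; positivity
  have w1 : 0 ≤ S.w3 t := by unfold Sc.w3; rw [F1]; positivity
  have w2 : S.w3 s ≤ 4 ^ 3 * S.w3 t := by
    unfold Sc.w3
    rw [F1, ← mul_div_assoc, div_le_div_iff₀ (by positivity) (by positivity)]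
    have := mul_le_mul_of_nonneg_left (mul_le_mul h4 m2 m0.le (by positivity)) n0.le
    linarith
  have w3 : S.w3 s ^ ((1 : ℝ) / 3) ≤ 4 * S.w3 t ^ ((1 : ℝ) / 3) := by
    refine (rpow_le_rpow w0 w2 (by norm_num)).trans_eq ?_
    rw [mul_rpow (by positivity) w1, one_div, show (3 : ℝ) = ((3 : ℕ) : ℝ) by norm_num,
      pow_rpow_inv_natCast (by norm_num) (by norm_num)]
  unfold uw
  rw [cr_one h F1 t0 ht, cr_one h F1 s0 hs]
  exact ⟨by positivity, by linarith [mul_le_mul_of_nonneg_left w3 (sq_nonneg Lg)]⟩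

variable {K E L G1 u1 u2 j γ Lc ηc τ l0 l X Xp Vt Lg Lp X2 X3 X4 G0 N t1 tu ℓ En p0 : ℝ}
  {η g : ℝ → ℝ}

/-- elementary facts -/
structure Fc (E L : ℝ) (S : Sc) (M : Md) (m : ℕ) (a l X Lg X2 tu ℓ : ℝ) (η g : ℝ → ℝ) : Prop where
  at' : At S M m a (2 * S.C)
  l0 : 0 < l
  jl : L * M.s S.jl ≤ l
  X2 : 0 ≤ X2
  θ1 : S.θ ≤ 1
  ml : ∀ t, l ≤ t → t ≤ S.C → L ^ 67 * √(S.ms t) ≤ t
  nl : 1 / (S.n : ℝ) ≤ √(S.ms l)
  ηn : ∀ t, l ≤ t → t ≤ S.C → 1 / (S.n : ℝ) ≤ η t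
  ℓ1 : L ^ 67 * √(S.ms l) ≤ ℓ
  R1 : L ^ 67 * X ^ ((1 : ℝ) / 3) ≤ l
  R2 : L ^ 67 * (X ^ ((1 : ℝ) / 3) / Lg) ≤ ℓ
  Lg1 : L ^ 67 ≤ Lg
  loc : ∀ k, k < S.J → l ≤ M.s k → M.s k + ℓ / 8 ≤ tu → 15 / 16 * M.s k ≤ sb M m a (k + 1) ∧
    (M.s k + l / 8 ≤ M.s S.J → sb M m a (k + 1) ≤ 17 / 16 * M.s k)

theorem fc (h : Cl S M) (hm : S.In m a) (G : Rg K E L S)
    (H : Hy E S M m a G1 u1 u2 j γ Lc ηc τ l0 l X Xp Vt Lg Lp X2 X3 X4 G0 η N g t1 tu ℓ En p0) :
    Fc E L S M m a l X Lg X2 tu ℓ η g := by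
  have A : At S M m a (2 * S.C) := ⟨h, hm, by linarith [h.b1, H.ln.HJ], by linarith [h.sT, h.C0]⟩
  have L1 := G.L1
  have L1' : 1 ≤ L := by linarith
  have LE := G.LE
  have LL : L ≤ L ^ 67 := le_self_pow₀ L1' (by norm_num)
  have E0 : 0 < E := by linarith
  have C0 := h.C0
  have C1 := h.C1
  have n0 := h.N0
  have v0 := h.v0
  have sj := h.s_pos (h.i0.trans h.i1)
  have l00 : 0 < l0 := (mul_pos E0 sj).trans_le H.ln.l0s
  have ll := H.ln.l0l
  have l0' : 0 < l := l00.trans_le ll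
  have θ1 : S.θ ≤ 1 := by nlinarith [h.msθ, G.lg1, h.θ0]
  have lC : l ≤ S.C := by nlinarith [H.ln.l1]
  have ml : ∀ t, l ≤ t → t ≤ S.C → L ^ 67 * √(S.ms t) ≤ t := fun t p q =>
    (mul_le_mul_of_nonneg_right LE (sqrt_nonneg _)).trans (H.lt.ml t p q)
  have sq1 : ∀ t, 0 ≤ t → S.ms t ≤ √(S.ms t) := fun t ht =>
    Real.le_sqrt_of_sq_le (by nlinarith [h.ms_pos ht, (h.ms1 t).trans θ1])
  have nl : 1 / (S.n : ℝ) ≤ √(S.ms l) := by
    have := h.ms_ge l0'.le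
    rw [rpow_neg_one, ← one_div] at this
    exact this.trans (sq1 l l0'.le)
  have R0 : 0 < X ^ ((1 : ℝ) / 3) := rpow_pos_of_pos H.ln.X0 _
  have R1 : L ^ 67 * X ^ ((1 : ℝ) / 3) ≤ l := (mul_le_mul_of_nonneg_right LE R0.le).trans H.lt.lX
  have Lg1 : L ^ 67 ≤ Lg := by have := H.ln.Lg0; rw [H.lt.F1] at this; linarith
  have X20 : 0 ≤ X2 := le_trans (by positivity) H.ln.x2a
  have cl0 : ∀ t, 0 < t → 0 ≤ cr S t := fun t _ => zero_le_one.trans (le_max_left _ _)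
  have ℓ1 : L ^ 67 * √(S.ms l) ≤ ℓ :=
    (mul_le_mul LE (sqrt_le_sqrt (h.ms1 l)) (sqrt_nonneg _) E0.le).trans H.lt.ℓ1
  have r0 : 0 < √(S.ms l) := sqrt_pos.2 (h.ms_pos l0'.le)
  have ℓ0 : 0 < ℓ := lt_of_lt_of_le (by positivity) ℓ1
  have jl : L * M.s S.jl ≤ l :=
    ((mul_le_mul_of_nonneg_right (LL.trans LE) sj.le).trans H.ln.l0s).trans ll
  refine ⟨A, l0', jl, X20, θ1, ml, nl, fun t p q => ?_, ℓ1, R1, ?_, Lg1, fun k k1 k2 k3 => ?_⟩
  · refine le_trans ?_ (H.ln.ηb t p q)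
    have t0 := l0'.trans_le p
    have u0 : 0 ≤ uw S Lg t := by
      have := cl0 t t0
      have : 0 ≤ S.w3 t := by have := h.ms_pos t0.le; have := h.F1; unfold Sc.w3; positivity
      unfold uw; positivity
    have X30 : 0 ≤ X3 := le_trans (by positivity) H.ln.x3a
    have G00 : 0 ≤ G0 := le_trans (by positivity) H.ln.g0a
    have : 0 ≤ min (S.ms t / t) t := le_min (div_pos (h.ms_pos t0.le) t0).le t0.le
    exact le_add_of_nonneg_left (by positivity)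
  · rw [← mul_div_assoc, div_le_iff₀' (by linarith)]
    exact (mul_le_mul_of_nonneg_right LE R0.le).trans H.lt.Lg3
  · have kj : S.jl < k := lt_of_not_ge fun c => by nlinarith [h.sm c]
    have sC : M.s k ≤ S.C := h.s_le_C (k1.le.trans h.i3)
    have s0 := l0'.trans_le k2
    have g1 := H.lt.g1 (M.s k) k kj k1 k2 (by linarith) k3
    have g2 := H.lt.g2 (M.s k) k2 (by linarith)
    have m0 := h.ms_pos s0.le
    have g3 : S.ms (M.s k) ^ ((3 : ℝ) / 2) ≤ √(S.ms (M.s k)) := by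
      rw [sqrt_eq_rpow]
      exact rpow_le_rpow_of_exponent_ge m0 ((h.ms1 _).trans θ1) (by norm_num)
    have g4 : |M.G k| ≤ M.s k / 32 := by
      have a1 := mul_le_mul_of_nonneg_right (show 32 ≤ E by linarith) (H.lt.g0 (M.s k))
      have a2 := le_mul_of_one_le_left (sqrt_nonneg (S.ms (M.s k))) (L1'.trans LL)
      linarith [ml _ k2 sC]
    set x := l / L ^ 2 with hx
    have L2 : L ^ 2 ≤ L ^ 67 := pow_le_pow_right₀ L1' (by norm_num)
    have x0 : 0 < x := by positivity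
    have sm : ∀ y, 0 ≤ y → L ^ 67 * y ≤ l → y ≤ x := fun y p q => by
      rw [hx, le_div_iff₀' (by positivity)]; exact (mul_le_mul_of_nonneg_right L2 p).trans q
    have y1 := sm _ R0.le R1
    have y2 := nl.trans (sm _ r0.le (ml l le_rfl lC))
    have y3 := G.vn.trans y2
    have y4 := sm _ sj.le (((mul_le_mul_of_nonneg_right LE sj.le).trans H.ln.l0s).trans ll)
    have y5 : 1 / ((m : ℝ) + 1) ≤ x := (one_div_le_one_div_of_le n0
      (by have : (S.n : ℝ) ≤ m := by exact_mod_cast hm.m1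
          linarith)).trans y2
    have c2 : S.C ≤ S.C ^ 2 := le_self_pow₀ C1 two_ne_zero
    have z1 : S.C ^ 2 * X ^ ((1 : ℝ) / 3) ≤ S.C ^ 2 * x := by gcongr
    have z2 : S.C * S.v ≤ S.C ^ 2 * x := mul_le_mul c2 y3 v0.le (by positivity)
    have z3 : x ≤ S.C ^ 2 * x := le_mul_of_one_le_left x0.le (C1.trans c2)
    have z4 := (h.ss S.j0 h.j0_lt).2
    have z5 := h.sm h.i1
    obtain ⟨p1, p2⟩ := loc0 A (ρ := 4 * (S.C ^ 2 * x)) R0 (H.ap.all.trans_eq (by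
      rw [← rpow_natCast, ← rpow_mul H.ln.X0.le]; norm_num)) (by linarith) (h.i1.trans_lt kj) k1
    obtain ⟨q1, q2⟩ := loc1 A k1 (ρ := 2 * (4 * (S.C ^ 2 * x))) (by positivity)
    have z6 : S.C / (m + 1) ≤ S.C * (S.C ^ 2 * x) := by
      rw [← mul_one_div]; exact mul_le_mul_of_nonneg_left (y5.trans z3) C0.le
    have z7 : L * (L * x) = l := by rw [hx]; field_simp
    have z8 := mul_le_mul_of_nonneg_right G.LC x0.le
    have z9 := mul_le_mul_of_nonneg_right L1 (by positivity : 0 ≤ L * x)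
    have z0 : S.C ^ 2 * x ≤ S.C * (S.C ^ 2 * x) := le_mul_of_one_le_left (by positivity) C1
    exact ⟨by linarith [q1 p1], fun c => by linarith [q2 (p2 (by linarith))]⟩

end Crest.Agent.T156.Alt.L63.T20

end
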