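import Crest.Agent.T156.TLp1_26
import Crest.Agent.T156.TLqP_53
import Crest.Agent.T156.TLqN_20
import Crest.Agent.T156.TkD_20

/-!
# Row 156, block (L): `TLq` from its body at a fixed size (helper20)
-/

set_option autoImplicit false

noncomputable section

namespace Crest.Agent.T156.Alt.L63

open Real
open Crest.Agent.T156.Alt.L69 Crest.Agent.T156.Alt.Mp9

/-- the body of `TLq` at a fixed size, loss `L ^ k` -/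
def TlqAt (k : ℕ) : Prop := ∀ T0 : ℝ, ∃ K0 : ℝ, ∀ {S : Sc} {M : Md} {m : ℕ} {a : ℝ}
  {K E L G1 u1 u2 j γ Lc ηc τ l0 l X Xp Vt Lg Lp X2 X3 X4 G0 N t1 ℓ En p0 aa g' R2 t0 f : ℝ}
  {η g : ℝ → ℝ} {V k0 : ℕ}, 2 * S.C = T0 → K0 ≤ K → K0 ≤ L → T20.Rg K E L S → L ^ 400 ≤ E →
  14 ≤ log (S.n : ℝ) →
  Cx E L S M m a G1 u1 u2 j γ Lc ηc τ l0 l X Xp Vt Lg Lp X2 X3 X4 G0 η N g t1 (M.s S.J) ℓ En p0 →
  LQ E S M X Xp Vt Lg Lp X2 G0 u1 u2 j γ η aa g' R2 →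
  P1 E L S M m a X X2 ℓ p0 (bs S Lg X2 (g (M.s S.J)) η (M.s S.J)) V k0 t0 f → ∀ Gn : ℕ → Prop,
  (∀ U V, 5 / 4 * l ≤ M.s U → M.s V + aa / 5 ≤ M.s S.J → Nt E L S M m a Lg X X2 η Gn U V) →
  (∀ D, aa ≤ D → E * D ≤ 1 →
    ∃ Pn, L62.PN S M m a (2 * S.C) Pn (fun k => L * (Lg ^ 2 * ap M S Xp Vt γ k) ^ 2)
      (L * eQ S M X Xp Vt Lg Lp X2 G0 u1 j γ D η) (L * X2) (8 * u2) (aa / (100 * S.C ^ 3)) aa
      (D / aa)) →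
  M.En S m a M.q 2 (M.s S.J - ℓ) S.C ≤ L ^ k * (p0 ^ 2 +
    (ℓ + X ^ ((1 : ℝ) / 3) + M.s S.jl) * (j + bs S Lg X2 g' η (M.s S.J)) ^ 2 + aa ^ 3 + R2 +
    GS M S (M.s S.J - ℓ) S.C + GP M S + 1 / (S.n : ℝ) ^ 2)

/-- **`TLq`** -/
theorem tlq_of (k : ℕ) (H : TlqAt k) (h1 : P1S) (h2 : NdTq) (h3 : PNq) : TLq := by
  unfold TLq
  refine CL.mono (P := fun E Λ S M m a => ∀ Λ', Λ ≤ Λ' →
    ∀ G1 u1 u2 j γ Lc ηc τ l0 l X Xp Vt Lg Lp X2 X3 X4 G0 η N g t1 ℓ En p0,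
    Hy E S M m a G1 u1 u2 j γ Lc ηc τ l0 l X Xp Vt Lg Lp X2 X3 X4 G0 η N g t1 (M.s S.J) ℓ En p0 →
    ∀ aa g' R2, LQ E S M X Xp Vt Lg Lp X2 G0 u1 u2 j γ η aa g' R2 →
      M.En S m a M.q 2 (M.s S.J - ℓ) S.C ≤ Λ' * (p0 ^ 2 +
        (ℓ + X ^ ((1 : ℝ) / 3) + M.s S.jl) * (j + bs S Lg X2 g' η (M.s S.J)) ^ 2 + aa ^ 3 + R2 +
        GS M S (M.s S.J - ℓ) S.C + GP M S + 1 / (S.n : ℝ) ^ 2)) ?_
    fun _ _ _ _ _ _ _ _ _ _ H => H _ le_rfl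
  refine ((h1.and h2).and h3).glue' (fun _ _ _ _ _ _ _ _ h2 H Λ' h3 => H Λ' (h2.trans h3)) 2
    (i := 1) le_rfl 400 k fun C A ε η hε hη => ?_
  obtain ⟨K0, HK⟩ := H (2 * C)
  refine ⟨max (max (max (10 ^ 9 * C ^ 13) (32 * C ^ 3)) (max (K0 * C) (exp (4 * (2 * C)))))
    (max K0 14), fun S M m a R hA e1 _ c I ⟨⟨q1, q2⟩, q3⟩ Λ hΛ G1 u1 u2 j γ Lc ηc τ l0 l X Xp Vt Lg Lp
      X2 X3 X4 G0 η' N g t1 ℓ En p0 Y aa g' R2 Q => ?_⟩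
  obtain rfl := R.hC
  rw [pow_one] at Y Q
  have n1 : 1 ≤ S.n := c.n1
  have n0 := c.N0
  have LE : ((S.n : ℝ) ^ η) ^ 400 ≤ (S.n : ℝ) ^ ε := by
    rw [Pre29.rp_pow]; exact Pre29.rp_le n1 (by push_cast at e1 ⊢; linarith)
  have k1 := (le_max_left _ _).trans R.K_le
  have k2 := (le_max_left _ _).trans k1
  have k3 := (le_max_right _ _).trans k1
  have vn : S.v ≤ S.C * (1 / S.n) ^ 2 := by
    have b1 : S.v * (S.n : ℝ) ^ 2 ≤ S.C := le_trans (mul_le_mul_of_nonneg_left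
      (pow_le_pow_right₀ (by exact_mod_cast n1) (R.hA ▸ R.A2)) c.v0.le) c.v2
    rwa [one_div_pow, mul_one_div, le_div_iff₀ (by positivity)]
  have G : T20.Rg K0 ((S.n : ℝ) ^ ε) ((S.n : ℝ) ^ η) S := by
    refine ⟨R.num_le, (le_max_right _ _).trans k2, (le_max_left _ _).trans k3, ?_, R.log_le, R.log1,
      (pow_le_pow_right₀ R.Λ1 (by norm_num)).trans LE, vn.trans ?_⟩
    · rw [exp_neg, ← div_eq_inv_mul, one_le_div (exp_pos _)]; exact (le_max_right _ _).trans k3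
    · have a1 : S.C ≤ S.n := by linarith [R.C_log, log_le_sub_one_of_pos n0, c.C0]
      rw [sq, ← mul_assoc]
      exact mul_le_of_le_one_left (by positivity) (by rwa [mul_one_div, div_le_one n0])
  obtain ⟨V, k0, t0, f, P⟩ := q1 _ _ _ _ _ _ _ _ _ _ _ _ _ _ _ _ _ _ _ _ _ _ _ _ _ _ Y
  obtain ⟨Gn, hN⟩ := q2 _ _ _ _ _ _ _ _ _ _ _ _ _ _ _ _ _ _ _ _ _ _ _ _ _ _ Y _ _ _ Q
  have fin := HK rfl le_rfl (((le_max_left _ _).trans (le_max_right _ _)).trans R.K_le) G LE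
    (((le_max_right _ _).trans (le_max_right _ _)).trans R.K_log)
    ⟨Y, c, I, (le_max_left _ _).trans k2, (pow_le_pow_right₀ R.Λ1 (by norm_num)).trans LE, R.log_le,
      R.C_log, vn⟩ Q P Gn hN (q3 _ _ _ _ _ _ _ _ _ _ _ _ _ _ _ _ _ _ _ _ _ _ _ _ _ _ Y _ _ _ Q)
  refine fin.trans (mul_le_mul_of_nonneg_right hΛ (nonneg_of_mul_nonneg_right (le_trans ?_ fin)
    (pow_pos (R.rp0 η) k)))
  exact Finset.sum_nonneg fun i _ => mul_nonneg (Ap63.w_nn c.leg.zm i) (by positivity)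

end Crest.Agent.T156.Alt.L63

end
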