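import Crest.Agent.T156.TLqX_34

/-!
# Row 156, block (L), TLq (helper34): the closing in the letters of the statement
-/

set_option autoImplicit false

noncomputable section

namespace Crest.Agent.T156.Alt.Mp9.Q34

open MeasureTheory Set Real

/-- **closing of TLq in the letters of the statement** -/
theorem finQ (T0 : ℝ) : ∃ K : ℝ, 1 ≤ K ∧ ∀ {S : Sc} {M : Md} {m : ℕ} {a T : ℝ} {Sb : Finset ℝ}
    {gp : ℝ → ℝ → Prop} {c0 : ℝ} {V kA w : ℕ}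
    {a0 a1 b0 b1 p0 d D err C1 δ L r F Γ Gm a' R p g er γ P : ℝ},
    Cq S M m a T Sb gp c0 V kA w a0 a1 b0 b1 p0 d D err C1 δ L r F Γ Gm a' R p g er γ P →
    T ≤ T0 → K ≤ L → ∀ Q aa φ ρ R2 n2 ℓ : ℝ, 1 ≤ Q → 0 ≤ aa → 0 ≤ φ → 0 ≤ ρ → 0 ≤ n2 → ρ ^ 2 ≤ R2 →
    a' ≤ Q * (aa + φ + ρ) → Gm ≤ Q * (aa + φ + ρ) → γ ≤ Q * (aa + φ + ρ) → P ≤ Q * (aa + φ + ρ) →
    F ≤ Q * (φ + ρ) → g + er + 1 / ((m : ℝ) + 1) ≤ Q * r ^ 2 * (φ + ρ) → R ^ 2 ≤ Q * (R2 + n2) →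
    γ ^ 2 ≤ R2 → sb M m a (V + 1) - (a1 + r) ≤ ℓ → 5 * Q * (aa + φ + ρ) ≤ r →
    Q * (R2 + n2) ≤ r ^ 3 →
    ∀ U : Finset ℕ, (∀ k ∈ U, S.jl < k ∧ k ≤ S.Jp ∧ a1 + r ≤ M.s k ∧ a1 + r ≤ sb M m a (k + 1)) →
      ∑ k ∈ U, (M.z k - M.z (k - 1)) * (sb M m a (k + 1) - M.s k) ^ 2 ≤
        L ^ 53 * Q ^ 3 * (p ^ 2 + ℓ * φ ^ 2 + aa ^ 3 + R2 + n2) := by
  obtain ⟨K, K1, HK⟩ := fin T0
  refine ⟨K, K1, fun {S M m a T Sb gp c0 V kA w a0 a1 b0 b1 p0 d D err C1 δ L r F Γ Gm a' R p g er γ P}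
    h hT hK Q aa φ ρ R2 n2 ℓ Q1 a0' φ0 ρ0 n0 hρ h1 h2 h3 h4 h5 h6 h7 h8 h9 s1 s2 U hU => ?_⟩
  obtain ⟨F0, G0, γ0, a0'', P0, -⟩ := h.nn
  have A := h.at'
  have L1 := h.L1
  have r0 := h.r0
  have L0 : 0 ≤ L := by linarith
  have Q0 : 0 ≤ Q := by linarith
  have R0 : 0 ≤ R2 := (sq_nonneg ρ).trans hρ
  have r1 : r ≤ 1 := by
    have := pw L1 (show 0 < 10 by norm_num) (show 0 ≤ r + F + a' by positivity)
    linarith [h.s2]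
  have rl : r ≤ sb M m a (V + 1) - (a1 + r) := by linarith [h.len]
  have lL : sb M m a (V + 1) - (a1 + r) ≤ L := by
    linarith [h.yJ, A.cl.sm A.cl.i3, A.cl.sT, h.hC, h.aj, s_nn A.cl S.j0]
  have ℓ0 : 0 ≤ ℓ := by linarith
  have Qa := mul_nonneg Q0 a0'
  have Qs : aa + φ + ρ ≤ Q * (aa + φ + ρ) := le_mul_of_one_le_left (by positivity) Q1
  have φr : φ ≤ ℓ := by linarith
  have ρr : ρ ≤ 1 := by linarith
  have RR : R2 + n2 ≤ Q * (R2 + n2) := le_mul_of_one_le_left (by positivity) Q1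
  obtain ⟨B, hB⟩ : ∃ B, B = p ^ 2 + ℓ * φ ^ 2 + aa ^ 3 + R2 + n2 := ⟨_, rfl⟩
  have m1 : 0 ≤ ℓ * φ ^ 2 := by positivity
  have m2 : 0 ≤ aa ^ 3 := by positivity
  have m3 := sq_nonneg p
  have B0 : 0 ≤ B := by linarith
  have Q2 : Q ^ 2 ≤ Q ^ 3 := pow_le_pow_right₀ Q1 (by norm_num)
  have Q3 : Q ≤ Q ^ 3 := le_self_pow₀ Q1 (by norm_num)
  have Q4 : 1 ≤ Q ^ 3 := Q1.trans Q3
  have c0' : B ≤ Q ^ 3 * B := le_mul_of_one_le_left B0 Q4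
  have n1 : 0 ≤ Q ^ 3 * B := by positivity
  have c1 := pw L1 (show 0 < 1 by norm_num) n1
  have c2 := pw L1 (show 1 < 2 by norm_num) n1
  have c3 := pw L1 (show 2 < 3 by norm_num) n1
  have sq2 : (φ + ρ) ^ 2 ≤ 2 * φ ^ 2 + 2 * R2 := by linarith [sq_nonneg (φ - ρ)]
  have key : ∀ x, 0 ≤ x → x ≤ ℓ → x ≤ L → x * (Q * (φ + ρ)) ^ 2 ≤ L ^ 3 * (Q ^ 3 * B) :=
    fun x x0 x1 x2 => by
      have e1 : x * (φ + ρ) ^ 2 ≤ 4 * (L * B) := by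
        linarith [mul_le_mul_of_nonneg_left sq2 x0, mul_le_mul_of_nonneg_right x1 (sq_nonneg φ),
          mul_le_mul x2 (show R2 ≤ B by linarith) R0 L0,
          mul_le_mul_of_nonneg_right (show 1 ≤ L by linarith) B0]
      have e2 := mul_le_mul Q2 e1 (by positivity) (by positivity)
      linarith
  rw [← hB, show L ^ 53 * Q ^ 3 * B = L ^ 50 * (L ^ 3 * (Q ^ 3 * B)) by ring]
  refine (HK h hT hK (Q * (φ + ρ)) (5 * Q * (aa + φ + ρ)) _ (by linarith) (by linarith) (by linarith) s1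
    (h7.trans s2) (by linarith) (by linarith) ((mul_le_mul_of_nonneg_left
      (pow_le_pow_left₀ F0 h5 2) (by linarith)).trans (key _ (by linarith) h9 lL)) ?_ (by linarith)
    (key r r0.le (by linarith) (by linarith)) ?_).2 U hU
  · linarith [mul_le_mul Q3 (show R2 + n2 ≤ B by linarith) (by positivity) (by positivity)]
  · have q : ∀ u v : ℝ, 0 ≤ u → 0 ≤ v → 0 ≤ (u + v) * (u - v) ^ 2 := fun u v a b => by positivity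
    have e1 : (aa + φ + ρ) ^ 3 ≤ 9 * (aa ^ 3 + φ ^ 3 + ρ ^ 3) := by
      nlinarith only [q aa φ a0' φ0, q aa ρ a0' ρ0, q φ ρ φ0 ρ0, mul_nonneg a0' (sq_nonneg (φ - ρ)),
        mul_nonneg φ0 (sq_nonneg (aa - ρ)), mul_nonneg ρ0 (sq_nonneg (aa - φ))]
    have e2 : (aa + φ + ρ) ^ 3 ≤ 9 * B := by
      linarith [mul_le_mul_of_nonneg_right φr (sq_nonneg φ),
        mul_le_mul_of_nonneg_right ρr (sq_nonneg ρ)]
    linarith [mul_le_mul_of_nonneg_left e2 (show 0 ≤ Q ^ 3 by positivity)]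

end Crest.Agent.T156.Alt.Mp9.Q34
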