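import Crest.Agent.T156.TLqH_53
import Crest.Agent.T156.TLqL_36
import Crest.Agent.T156.TLqZ_34
import Crest.Agent.T156.TLqU_73
import Crest.Agent.T156.TLqJ_20
import Crest.Agent.T156.TLqW_54
import Crest.Agent.T156.TLqU_45
import Crest.Agent.T156.TLqZ_20

/-!
# Row 156, block (L): the last window and the plateau, assembly (helper53)
-/

set_option autoImplicit false

noncomputable section

namespace Crest.Agent.T156.Alt.L63

open Real
open Crest.Agent.T157.Pf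
open Crest.Agent.T156.Alt.L69 Crest.Agent.T156.Alt.Mp9

/-- the budget -/
theorem bud53 {L ℓ D F p p0 b γ aa R2 n2 Z G Y En : ℝ} (L1 : 1000 ≤ L) (ℓ0 : 0 ≤ ℓ) (ℓD : ℓ ≤ D)
    (D1 : D ≤ 1) (F0 : 0 ≤ F) (hF : F ≤ L ^ 8 * (b + γ)) (hγ : γ ^ 2 ≤ R2) (a0 : 0 ≤ aa)
    (n0 : 0 ≤ n2) (G0 : 0 ≤ G) (p0' : 0 ≤ p) (hp : p ≤ L * p0 + L * D * (L ^ 12 * F))
    (hZ : Z = p0 ^ 2 + D * b ^ 2 + aa ^ 3 + R2 + G + n2)
    (hY : Y = L ^ 53 * (L ^ 20) ^ 3 * (p ^ 2 + ℓ * F ^ 2 + aa ^ 3 + R2 + 0))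
    (h : En ≤ L ^ 46 * (ℓ * b ^ 2 + R2) + 3 * Y + 3 * G + L * n2) : En ≤ L ^ 160 * Z := by
  have L0 : 0 < L := by linarith
  have D0 : 0 ≤ D := ℓ0.trans ℓD
  have R0 : 0 ≤ R2 := (sq_nonneg _).trans hγ
  have x1 : 0 ≤ D * b ^ 2 := by positivity
  have x2 : 0 ≤ aa ^ 3 := by positivity
  have x3 := sq_nonneg p0
  have Z0 : 0 ≤ Z := by rw [hZ]; positivity
  have pw := fun i j hij => pw36 L1 (i := i) (k := j) hij Z0
  have nz : ∀ i : ℕ, 0 ≤ L ^ i * Z := fun i => by positivity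
  have f1 : D * F ^ 2 ≤ 2 * (L ^ 16 * Z) := by
    have a1 : F ^ 2 ≤ L ^ 16 * (2 * b ^ 2 + 2 * R2) := by
      have := pow_le_pow_left₀ F0 hF 2
      have := mul_le_mul_of_nonneg_left (show (b + γ) ^ 2 ≤ 2 * b ^ 2 + 2 * R2 by
        linarith [sq_nonneg (b - γ)]) (by positivity : 0 ≤ L ^ 16)
      linarith
    have a2 := mul_le_mul_of_nonneg_left a1 D0
    have a3 := mul_le_mul_of_nonneg_right D1 (by positivity : 0 ≤ L ^ 16 * R2)
    have a4 := mul_le_mul_of_nonneg_left (show D * b ^ 2 + R2 ≤ Z by linarith)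
      (by positivity : 0 ≤ L ^ 16)
    linarith
  have f2 : p ^ 2 ≤ 5 * (L ^ 42 * Z) := by
    have a1 := pow_le_pow_left₀ p0' hp 2
    have a2 : D * (D * F ^ 2) ≤ 1 * (2 * (L ^ 16 * Z)) := mul_le_mul D1 f1 (by positivity) zero_le_one
    have a3 := mul_le_mul_of_nonneg_left a2 (by positivity : 0 ≤ L ^ 26)
    have a4 := mul_le_mul_of_nonneg_left (show p0 ^ 2 ≤ Z by linarith) (by positivity : 0 ≤ L ^ 2)
    linarith [sq_nonneg (L * p0 - L * D * (L ^ 12 * F)), pw 2 42 (by norm_num), nz 2]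
  have f3 : p ^ 2 + ℓ * F ^ 2 + aa ^ 3 + R2 + 0 ≤ 6 * (L ^ 42 * Z) := by
    linarith [mul_le_mul_of_nonneg_right ℓD (sq_nonneg F), pw 16 42 (by norm_num),
      pw 0 16 (by norm_num), nz 16]
  have f4 := mul_le_mul_of_nonneg_left f3 (by positivity : 0 ≤ L ^ 53 * (L ^ 20) ^ 3)
  have f5 := mul_le_mul_of_nonneg_left (show ℓ * b ^ 2 + R2 ≤ Z by
    linarith [mul_le_mul_of_nonneg_right ℓD (sq_nonneg b)]) (by positivity : 0 ≤ L ^ 46)
  have f6 := mul_le_mul_of_nonneg_left (show n2 ≤ Z by linarith) L0.le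
  linarith [pw 155 160 (by norm_num), pw 46 155 (by norm_num), pw 1 46 (by norm_num),
    pw 0 1 (by norm_num), nz 155, nz 46, nz 1]

set_option maxHeartbeats 1600000 in
/-- **the body of (TLq)** from the window, the plateau nodes and the spread -/
theorem core53 (T0 : ℝ) : ∃ K0 : ℝ, ∀ {S : Sc} {M : Md} {m : ℕ} {a K E L G1 u1 u2 j γ Lc ηc τ l0 l X Xp
    Vt Lg Lp X2 X3 X4 G0 N t1 ℓ En p0 aa g' R2 : ℝ} {η g : ℝ → ℝ}, 2 * S.C = T0 → K0 ≤ K → K0 ≤ L →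
    T20.Rg K E L S → L ^ 400 ≤ E → 14 ≤ log (S.n : ℝ) →
    Cx E L S M m a G1 u1 u2 j γ Lc ηc τ l0 l X Xp Vt Lg Lp X2 X3 X4 G0 η N g t1 (M.s S.J) ℓ En p0 →
    LQ E S M X Xp Vt Lg Lp X2 G0 u1 u2 j γ η aa g' R2 → ∀ {b t0 f : ℝ} {V0 k0 : ℕ},
    P1 E L S M m a X X2 ℓ p0 b V0 k0 t0 f → ∀ {Gn : ℕ → Prop},
    (∀ U V, 5 / 4 * l ≤ M.s U → M.s V + aa / 5 ≤ M.s S.J → Nt E L S M m a Lg X X2 η Gn U V) →
    ∀ {u V V2 : ℕ} {y r : ℝ}, Sq K L S M m a Lg X2 j γ η aa g' Gn u V V2 y r →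
    ∀ {Pn : ℕ → Prop} {ez : ℕ → ℝ} {x uc c0 : ℝ} {w kA : ℕ},
    L62.PN S M m a (2 * S.C) Pn ez x (L * X2) uc (aa / (100 * S.C ^ 3)) aa (L ^ 3 * r / aa) →
    Pn w → S.J ≤ kA → kA ≤ w → 2 ≤ c0 * L → 2 * S.C * c0 ≤ 1 → 1 - c0 ≤ M.z (w - 1) →
    c0 / 2 ≤ 1 - M.z w → M.z (kA - 1) - M.z (S.J - 1) ≤ 4 * aa →
    (∀ t ∈ Set.Ico (sb M m a (w + 1)) (2 * S.C), Pr.Reg48.Gd (lb M S m a (2 * S.C)) t ≤ 0) →
    x + ez w ≤ L ^ 7 * (S.θ * √R2) → |M.G w| ≤ L ^ 2 * (S.θ * √R2) →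
    (∀ μ f, S.θ ≤ L ^ 3 * μ → S.C * (L * X2) ≤ μ / 2 → f ≤ sb M m a (S.J + 1) →
      (∀ t, f ≤ t → t ≤ sb M m a (w + 1) → M.b * Pr.GG (lb M S m a (2 * S.C)) t ≤ 1 - μ) →
      ∑ k ∈ Finset.Icc kA S.Jp, dx M k * (sb M m a (k + 1) - sb M m a (w + 1)) ^ 2 ≤
        (L ^ 10 * √R2) ^ 2) →
    (Sk L S M m a (qF L S M Lg X2 j γ η g') (qO L S M Lg X2) aa Gn u V2 y r (4 * r / L ^ 33) →
      Fl L S M m a (qF L S M Lg X2 j γ η g') aa V y r → ∀ B, M.s S.J - y ≤ B → L ^ 30 * B ≤ r →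
      Wk S M m a (2 * S.C) V (y - 12 * (log S.n * L * r) - L * r / 2) (y - 11 * (log S.n * L * r))
        (y - 2 * (log S.n * L * r)) L r (L ^ 12 * qF L S M Lg X2 j γ η g')
        (L ^ 4 * qF L S M Lg X2 j γ η g')) →
    M.En S m a M.q 2 (M.s S.J - ℓ) S.C ≤ L ^ 160 * (p0 ^ 2 +
      (ℓ + X ^ ((1 : ℝ) / 3) + M.s S.jl) * (j + bs S Lg X2 g' η (M.s S.J)) ^ 2 + aa ^ 3 + R2 +
      GS M S (M.s S.J - ℓ) S.C + GP M S + 1 / (S.n : ℝ) ^ 2) := by
  obtain ⟨K1, H1⟩ := fl36 T0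
  obtain ⟨K2, -, H2⟩ := Q34.finQ T0
  obtain ⟨K3, H3⟩ := Sq.en73 T0
  refine ⟨max K1 (max K2 K3), fun {S M m a K E L G1 u1 u2 j γ Lc ηc τ l0 l X Xp Vt Lg Lp X2 X3 X4 G0 N
    t1 ℓ En p0 aa g' R2 η g} hT hK hL G LE lg H Q {b t0 f V0 k0} P {Gn} hN {u V V2 y r} W
    {Pn ez x uc c0 w kA} pn pw k3 kw c1 c2 z1 z2 kz conc he hG hs win => ?_⟩
  have q := T20.qn H.cl H.mem G H.toHy Q
  have h := H.cl
  have A := H.A
  have C0 := h.C0
  have C1 := h.C1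
  have L1 := G.L1
  have L0 : 0 < L := by linarith
  have L1' : 1 ≤ L := by linarith
  have L2 : L ^ 200 ≤ E := (pow_le_pow_right₀ L1' (by norm_num)).trans LE
  have E0 : 0 < E := by linarith [H.E9]
  have wJ := (pn.mem _ pw).2
  have l0' := q.F.l0
  have k := W.kit G L2 lg q (hN u V2 (by linarith [W.su, q.lJ]) (by linarith [W.s2, W.a0]))
  have F := H1 hT ((le_max_left _ _).trans hK) G L2 lg H.ln q hN W w (k3.trans kw) wJ.le
    ((mid53 H (k3.trans kw) wJ.le c1 c2 z1 z2).trans W.nk.jF) conc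
  have r0 := k.r0
  have r2 : 0 < r ^ 2 := by positivity
  have F0 := k.F0
  have a0 := W.a0
  have Fr := k.Fr
  have ar := k.ar
  have r1 := k.r1
  have Fb := W.Fb
  have jF := W.nk.jF
  have mF := W.nk.mF
  have oF := W.nk.oF
  have θ0 := h.θ0
  have s0 := sqrt_nonneg R2
  have X20 := q.F.X2
  have u20 : 0 ≤ u2 := by linarith [H.lp.u1a, H.lp.u1b.1, h.last, h.leg.z1 (S.Jp - 1)]
  have R0 : 0 ≤ R2 := by linarith [Q.q4, sq_nonneg X2, sq_nonneg γ, u20]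
  have sq : √R2 ^ 2 = R2 := sq_sqrt R0
  have th : S.θ ≤ L ^ 2 * r ^ 2 := by
    have := pow_le_pow_left₀ (sqrt_nonneg _) W.th 2
    rwa [sq_sqrt θ0.le, mul_pow] at this
  have rθ : r ≤ √S.θ := by rw [W.er]; exact sqrt_le_sqrt (h.ms1 _)
  have p := fun i k (h : i < k) (x : ℝ) (hx : 0 ≤ x) => pw36 L1 h hx
  have R3 : L ^ 197 * R2 ≤ r ^ 3 := by
    refine le_of_sq_le_sq (le_of_mul_le_mul_left ?_ (by positivity : 0 < L ^ 6)) (by positivity)
    have a1 := pow_le_pow_left₀ θ0.le th 3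
    have a2 := mul_le_mul_of_nonneg_right LE (sq_nonneg R2)
    have a3 := Q.q5
    linarith
  have rr : r ≤ 1 := le_trans (le_mul_of_one_le_left r0.le (one_le_pow₀ L1')) r1
  have R4 : L ^ 98 * √R2 ≤ r := by
    refine le_of_sq_le_sq ?_ r0.le
    rw [mul_pow, sq]
    have := mul_le_mul_of_nonneg_left rr r2.le
    linarith [p 196 197 (by norm_num) _ R0, mul_nonneg (pow_pos L0 196).le R0]
  have ρ1 : L * r ≤ log S.n * L * r := by
    rw [mul_assoc]; exact le_mul_of_one_le_left (by positivity) G.lg1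
  have ρ2 : log S.n * L * r ≤ L ^ 2 * r := by
    rw [pow_two]; gcongr; exact G.lg
  have Lr : 1000 * r ≤ L * r := mul_le_mul_of_nonneg_right L1 r0.le
  have y1 := W.y1
  have y2 := W.y2
  have yL : 1000 * (L ^ 2 * r) ≤ y := by
    have a1 := mul_le_mul_of_nonneg_right k.Pa (by positivity : 0 ≤ L ^ 2 * r)
    refine le_of_mul_le_mul_left ?_ L0
    linarith [p 3 66 (by norm_num) _ r0.le, k.Pa]
  have ℓr : L ^ 3 * r ≤ ℓ := le_trans (mul_le_mul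
    ((pow_le_pow_right₀ L1' (by norm_num)).trans LE) rθ r0.le E0.le) H.lt.ℓ1
  have ℓ0 : 0 ≤ ℓ := le_trans (by positivity) ℓr
  have hJ := jf20 A P (t2 := y - 12 * (log S.n * L * r) - L * r / 2 + r) (by linarith) (by linarith)
    (by positivity) (fun t a1 a2 => F.uq t a1 (by linarith)) ℓ0
  have ym : y ≤ sb M m a (S.J + 1) := by
    rw [W.ey]; exact A.sb_mono (Nat.succ_le_succ (W.VV.trans W.VJ.le))
  have sp := hs (r ^ 2 / (2 * S.C)) y (by
      rw [← mul_div_assoc, le_div_iff₀ (by positivity)]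
      have a1 := mul_le_mul th (show 2 * S.C ≤ L by
        linarith [G.LC, le_self_pow₀ C1 (show 3 ≠ 0 by norm_num)]) (by positivity) (by positivity)
      linarith) (by
      rw [le_div_iff₀ two_pos, le_div_iff₀ (by positivity)]
      have a1 : L ^ 3 * X2 ≤ qO L S M Lg X2 := by
        unfold qO
        have : 0 ≤ L ^ 3 * X2 := by positivity
        have : 0 ≤ L ^ 3 * uw S Lg (M.s S.J) ^ 2 := by positivity
        linarith
      have a2 := mul_le_mul_of_nonneg_right (show 4 * S.C ^ 2 ≤ L by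
        linarith [G.LC, pow_le_pow_right₀ C1 (show 2 ≤ 3 by norm_num), pow_pos C0 3])
        (by positivity : 0 ≤ L * X2)
      linarith [k.or, p 0 50 (by norm_num) _ k.o0, k.o0, p 2 3 (by norm_num) _ X20,
        mul_nonneg (pow_pos L0 2).le X20])
    ym fun t a1 a2 => F.fl t ⟨by linarith, a2.trans (A.sb_mem wJ.le).2⟩
  have I := iq53 H G Q W pn (Hh := L ^ 10 * √R2) (R := L ^ 10 * √R2) rfl pw k3 kw c1 c2 z1 z2 kz (by
      have a1 := mul_le_mul_of_nonneg_right th s0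
      have a2 := mul_le_mul_of_nonneg_left a1 (pow_pos L0 7).le
      have x0 : 0 ≤ S.θ * √R2 := by positivity
      linarith [p 2 7 (by norm_num) _ x0, p 9 10 (by norm_num) _ (mul_nonneg s0 r2.le),
        mul_nonneg (pow_pos L0 2).le x0, mul_nonneg (pow_pos L0 9).le (mul_nonneg s0 r2.le)])
    (by positivity) sp le_rfl (by linarith) (by linarith) F.fl F.top
    ((le_abs_self _).trans (F.uq _ (by linarith) (by linarith))) F.lo hJ (by
      linarith [p 50 98 (by norm_num) _ s0, p 40 46 (by norm_num) _ F0, p 40 46 (by norm_num) _ a0.le,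
        p 46 50 (by norm_num) _ F0, p 46 50 (by norm_num) _ a0.le, mul_nonneg (pow_pos L0 46).le F0,
        mul_nonneg (pow_pos L0 46).le a0.le])
    (win k F)
  obtain ⟨Sb, gp, c0', a0', b0, b1, p0', d, D, err, C1', δ, cq⟩ := I.cq53
  have γF := I.γF
  have X0 : 0 ≤ X ^ ((1 : ℝ) / 3) := by
    have Lg0 : 0 < Lg := (pow_pos L0 67).trans_le q.F.Lg1
    have := mul_nonneg q.X0 Lg0.le
    rwa [div_mul_cancel₀ _ Lg0.ne'] at this
  generalize qF L S M Lg X2 j γ η g' = Fq at *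
  have n20 : ∀ z, 0 ≤ z → 0 ≤ L ^ 20 * z := fun z hz => by positivity
  have fin := H2 cq hT.le (((le_max_left _ _).trans (le_max_right _ _)).trans hL) (L ^ 20) aa Fq (√R2)
    R2 0 ℓ (one_le_pow₀ L1') a0.le F0 s0 le_rfl sq.le
    (by linarith [p 6 20 (by norm_num) _ F0, p 6 20 (by norm_num) _ a0.le,
          p 0 6 (by norm_num) _ a0.le, n20 _ s0, n20 _ F0, n20 _ a0.le])
    (by linarith [p 14 20 (by norm_num) _ s0, p 10 20 (by norm_num) _ F0,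
          p 10 20 (by norm_num) _ a0.le, p 4 10 (by norm_num) _ F0, p 4 10 (by norm_num) _ a0.le,
          n20 _ s0, n20 _ F0, n20 _ a0.le])
    (by linarith [p 0 20 (by norm_num) _ F0, n20 _ s0, n20 _ a0.le])
    (by linarith [p 0 20 (by norm_num) _ F0, n20 _ s0, n20 _ a0.le])
    (by linarith [p 12 20 (by norm_num) _ F0, n20 _ s0, n20 _ F0])
    (by linarith [p 10 20 (by norm_num) _ (mul_nonneg s0 r2.le),
          p 13 20 (by norm_num) _ (mul_nonneg F0 r2.le), p 0 13 (by norm_num) _ (mul_nonneg F0 r2.le),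
          n20 _ (mul_nonneg s0 r2.le), n20 _ (mul_nonneg F0 r2.le)])
    (by rw [mul_pow, sq]; linarith) (by linarith [Q.q4, sq_nonneg X2, u20])
    (by rw [← W.ey]; linarith [p 2 3 (by norm_num) _ r0.le, mul_pos (pow_pos L0 2) r0])
    (by linarith [p 20 50 (by norm_num) _ F0, p 20 50 (by norm_num) _ a0.le,
          p 20 98 (by norm_num) _ s0])
    (by linarith [p 20 197 (by norm_num) _ R0, n20 _ R0])
  have en := H3 hT H.mem (((le_max_right _ _).trans (le_max_right _ _)).trans hK) G H.toHy Q W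
    (t2 := y - 12 * (log S.n * L * r) - L * r / 2 + r) (by linarith [W.w1]) (by linarith) fin
  have j0 := P.jl0
  have lC : 1000 * l ≤ S.C := q.lJ.trans (h.s_le_C h.i3)
  have CL : 32 * S.C ≤ L := by linarith [G.LC, le_self_pow₀ C1 (show 3 ≠ 0 by norm_num)]
  have D1 : ℓ + X ^ ((1 : ℝ) / 3) + M.s S.jl ≤ 1 := by
    have a1 := mul_le_mul_of_nonneg_right H.LE1 ℓ0
    have a2 := mul_le_mul_of_nonneg_right (le_self_pow₀ L1' (show 67 ≠ 0 by norm_num)) X0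
    refine le_of_mul_le_mul_left ?_ L0
    linarith [H.lt.ℓ2, h.s_le_C h.i3, q.F.R1, q.F.jl]
  refine (bud53 (G := GS M S (M.s S.J - ℓ) S.C + GP M S) (γ := γ) (p0 := p0) L1 ℓ0 (by linarith) D1 F0
    (by linarith) (by linarith [Q.q4, sq_nonneg X2, u20]) a0.le (by positivity)
    (add_nonneg (GS_nn h _ _) (GP_nn h)) ((abs_nonneg _).trans hJ) ?_ rfl rfl en).trans_eq (by ring)
  have a1 := mul_le_mul_of_nonneg_right (show 2 ≤ L by linarith) ℓ0
  have := mul_le_mul_of_nonneg_right (show 2 * ℓ + L * (X ^ ((1 : ℝ) / 3) + M.s S.jl) ≤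
    L * (ℓ + X ^ ((1 : ℝ) / 3) + M.s S.jl) by linarith) (by positivity : 0 ≤ L ^ 12 * Fq)
  linarith

theorem tlqAt : TlqAt 160 := fun T0 => by
  obtain ⟨K1, H1⟩ := core53 T0
  obtain ⟨K2, H2⟩ := sqAt T0
  obtain ⟨K3, H3⟩ := spq45 T0
  obtain ⟨K4, H4⟩ := win36 T0
  refine ⟨max (max K1 K2) (max K3 K4), fun {S M m a K E L G1 u1 u2 j γ Lc ηc τ l0 l X Xp Vt Lg Lp X2 X3
    X4 G0 N t1 ℓ En p0 aa g' R2 t0 f η g V0 k0} hT hK hL G LE lg H Q P Gn hN hP => ?_⟩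
  obtain ⟨u, V, V2, y, r, W⟩ := H2 hT H.cl H.mem (((le_max_right _ _).trans (le_max_left _ _)).trans hK)
    G H.toHy Q Gn hN
  have h := H.cl
  have L1 := G.L1
  have L0 : 0 < L := by linarith
  have L1' : 1 ≤ L := by linarith
  have E0 : 0 < E := by linarith [H.E9]
  have r0 := W.nk.r0
  have rθ : r ≤ √S.θ := by rw [W.er]; exact sqrt_le_sqrt (h.ms1 _)
  have a1 : aa ≤ L ^ 3 * r := by
    have F0 : 0 ≤ qF L S M Lg X2 j γ η g' := h.v0.le.trans W.nk.vF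
    have := le_mul_of_one_le_left (add_nonneg F0 W.a0.le) (one_le_pow₀ (n := 50) L1')
    linarith [W.sm, le_mul_of_one_le_left r0.le (one_le_pow₀ (n := 3) L1')]
  obtain ⟨Pn, pn⟩ := hP (L ^ 3 * r) a1 (by
    have a2 := mul_le_mul_of_nonneg_left
      ((mul_le_mul_of_nonneg_left rθ E0.le).trans H.lt.ℓ1) E0.le
    have a4 : E * (E * r) ≤ L := by
      linarith [H.lt.ℓ2, h.s_le_C h.i3, G.LC, le_self_pow₀ h.C1 (show 3 ≠ 0 by norm_num), h.C0]
    have a5 := mul_le_mul_of_nonneg_right (H.LE 4) (by positivity : 0 ≤ E * r)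
    exact le_of_mul_le_mul_left (by linarith) L0)
  obtain ⟨w, kA, s⟩ := H3 H hT.le (((le_max_left _ _).trans (le_max_right _ _)).trans hL) Q a1
    (mul_le_mul_of_nonneg_left rθ (by positivity)) pn
  obtain ⟨c0, c1, c2, z1, z2⟩ := s.cz
  exact H1 hT (((le_max_left _ _).trans (le_max_left _ _)).trans hK)
    (((le_max_left _ _).trans (le_max_left _ _)).trans hL) G LE lg H Q P hN W pn s.pw s.k1.le s.k2 c1
    c2 z1 z2 s.a1 s.conc s.er s.Gw s.sum fun k F B p q =>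
      H4 hT (((le_max_right _ _).trans (le_max_right _ _)).trans hK) W k F p q

/-- **(TLq)** -/
theorem tlq53 (h1 : P1S) (h2 : NdTq) (h3 : PNq) : TLq := tlq_of 160 tlqAt h1 h2 h3

end Crest.Agent.T156.Alt.L63

end
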