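import Crest.Agent.T156.TxE_87
import Crest.Agent.T156.TxG_61
import Crest.Agent.T156.PgX_33
import Crest.Agent.T156.ClAp_63

/-!
# Row 156, block (L): the net of good nodes below the corner (helper61)
-/

set_option autoImplicit false

noncomputable section

namespace Crest.Agent.T156.Alt.Tx61

open Real Finset
open Crest.Agent.T156.Alt.Mp9 Crest.Agent.T156.Alt.G89 Crest.Agent.T156.Alt.L69
open Crest.Agent.T156.Alt.Sz9

/-- the context: corner data, numbers of the plateau, energy of the top window, label scale `t` -/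
structure Ck (D E Λ L ψ : ℝ) (S : Sc) (M : Md) (m : ℕ) (a T G1 l0 l V X Lg X2 X3 G0 W3 : ℝ)
    (η : ℝ → ℝ) (Xp Vt Lp u1 u2 j γ Lc ηc τ N t : ℝ) : Prop where
  H : Cc D E Λ L ψ S M m a T G1 l0 l V X Lg X2 X3 G0 W3 η Lc ηc j γ (Xp ^ ((1 : ℝ) / 3))
  lp : LP E S M Xp Vt Lg Lp X2 X3 G0 G1 u1 u2 j γ Lc ηc τ η N
  top : M.En S m a M.q 2 (M.s S.J / 2) S.C ≤ Xp
  t0 : τ + γ ≤ t
  t1 : E * t ≤ 3

namespace Ck

variable {D E Λ L ψ : ℝ} {S : Sc} {M : Md} {m : ℕ} {a T G1 l0 l V X Lg X2 X3 G0 W3 : ℝ}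
  {η : ℝ → ℝ} {Xp Vt Lp u1 u2 j γ Lc ηc τ N t : ℝ}
  (K : Ck D E Λ L ψ S M m a T G1 l0 l V X Lg X2 X3 G0 W3 η Xp Vt Lp u1 u2 j γ Lc ηc τ N t)
include K

theorem R0 : 0 < Xp ^ ((1 : ℝ) / 3) := rpow_pos_of_pos K.lp.Xp0.1 _

theorem mf0 : 0 < mf S 1 :=
  div_pos (K.H.Z.A.cl.ms_pos zero_le_one) (by linarith [K.H.Z.A.cl.F1])

theorem Rτ : Xp ^ ((1 : ℝ) / 3) ≤ Lc * τ ∧ ηc ≤ τ * mf S 1 ∧ 0 < τ := by
  have L1 := K.H.L1
  have a1 := div_nonneg K.H.parts.2.2 K.mf0.le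
  have a2 : 0 < Xp ^ ((1 : ℝ) / 3) / Lc := div_pos K.R0 (by linarith)
  have a3 := K.lp.τ0
  exact ⟨by rw [← div_le_iff₀' (by linarith)]; linarith,
    by rw [← div_le_iff₀ K.mf0]; linarith, by linarith⟩

theorem DR : D ^ 13 * Xp ^ ((1 : ℝ) / 3) ≤ 1 := by
  have D4 := K.H.Z.D4
  refine le_of_pow_le_pow_left₀ three_ne_zero zero_le_one ?_
  rw [mul_pow, rp3 K.lp.Xp0.1.le, one_pow, ← pow_mul]
  exact (mul_le_mul_of_nonneg_right (K.H.Z.DpE (by norm_num)) K.lp.Xp0.1.le).trans K.lp.Xp0.2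

theorem Dv : D ^ 40 * S.v ≤ 1 := by
  have h := K.H.Z.A.cl
  have n1 : (1 : ℝ) ≤ S.n := by exact_mod_cast h.n1
  have v0 := h.v0
  calc _ ≤ (S.n : ℝ) ^ 2 * (S.C * S.v) := mul_le_mul ((K.H.Z.DE.trans K.H.Z.En).trans
        (le_self_pow₀ n1 two_ne_zero)) (le_mul_of_one_le_left v0.le h.C1) v0.le (by positivity)
    _ ≤ 1 := by linarith [K.H.Z.hv]

theorem wτ : w1 S 1 ≤ τ := le_of_pow_le_pow_left₀ three_ne_zero K.Rτ.2.2.le (by
  rw [w1_cube (K.H.Z.w3p one_pos).le]; exact K.lp.tw)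

theorem vτ : S.v ≤ τ := by
  have h := K.H.Z.A.cl
  have n1 : (1 : ℝ) ≤ S.n := by exact_mod_cast h.n1
  have v0 := h.v0
  have m0 := h.ms_pos zero_le_one
  have a1 : S.v * S.n ≤ 1 := le_trans (mul_le_mul (le_mul_of_one_le_left v0.le h.C1)
    (le_self_pow₀ n1 two_ne_zero) (by positivity) (by have := h.C0; positivity)) K.H.Z.hv
  have a2 : S.ms 1 ≤ 1 := by
    nlinarith [h.ms1 1, K.H.Z.hθ, mul_le_mul_of_nonneg_right h.C1 h.θ0.le]
  have a3 : S.v ≤ S.w3 1 := by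
    rw [Sc.w3, le_div_iff₀ (by positivity)]
    nlinarith [h.F1, mul_le_mul_of_nonneg_left a2 (show 0 ≤ S.v * S.n by positivity)]
  have a4 : S.v ≤ 1 := (le_mul_of_one_le_right v0.le n1).trans a1
  exact le_of_pow_le_pow_left₀ three_ne_zero K.Rτ.2.2.le
    (((pow_le_of_le_one v0.le a4 three_ne_zero).trans a3).trans K.lp.tw)

theorem sJ : 1 ≤ 2 * S.C ^ 2 * M.s S.J :=
  K.H.lev ⟨by omega, by linarith [K.H.Z.A.cl.s_nn S.J]⟩

theorem rh : Nd33.RH S M m a Xp γ := by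
  have h := K.H.Z.A.cl
  have D4 := K.H.Z.D4
  have c4 := K.H.Z.Cp (k := 4) (by norm_num)
  have c2 := K.H.Z.Cp (k := 2) (by norm_num)
  have C0 := h.C0
  have p4 : 0 < S.C ^ 4 := by positivity
  have p2 : 0 < S.C ^ 2 := by positivity
  have d : ∀ {i : ℕ}, i ≠ 0 → D ≤ D ^ i := fun e => le_self_pow₀ (by linarith) e
  refine ⟨h, K.H.Z.A.m_pos, K.lp.u0, K.lp.Xp0.1, le_trans (mul_le_mul_of_nonneg_right
    (by linarith [d (show 13 ≠ 0 by norm_num)]) K.R0.le) K.DR, le_trans (mul_le_mul_of_nonneg_right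
    (by linarith [d (show 40 ≠ 0 by norm_num)]) h.v0.le) K.Dv, ?_, K.top, K.lp.γ0⟩
  have a1 : E * M.s S.jl ≤ 1 := (K.H.Z.ln.l0s.trans K.H.Z.ln.l0l).trans
    ((le_mul_of_one_le_left K.H.Z.lp.le K.H.Z.E1).trans K.H.Z.ln.l1)
  have a2 := mul_le_mul_of_nonneg_right (c2.trans K.H.Z.D_E) (h.s_nn S.jl)
  refine lt_of_mul_lt_mul_left ?_ p2.le
  linarith [K.sJ]

/-- **location near the corner** -/
theorem del {k : ℕ} (h0 : S.j0 ≤ k) (hk : k < S.J) (hz : D * (M.z (S.J - 1) - M.z k) ≤ 3) :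
    3 / 4 * M.s S.J ≤ M.s k ∧ |M.del m a k| ≤ 6 * S.C ^ 3 * (Xp ^ ((1 : ℝ) / 3) + γ + S.v) := by
  have h := K.H.Z.A.cl
  have C0 := h.C0
  have C1 := h.C1
  have v0 := h.v0
  have D4 := K.H.Z.D4
  have R := K.rh
  have R0 := K.R0
  have γ0 := K.H.γ0
  have i1 := h.i1
  have i3 := h.i3
  have c : ∀ {i j : ℕ}, i ≤ j → S.C ^ i ≤ S.C ^ j := fun e => pow_le_pow_right₀ C1 e
  have s0 : 0 < M.s S.J := h.s_pos (by omega)
  have hs : 3 / 4 * M.s S.J ≤ M.s k := by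
    have a1 := Ap63.s_z h h0 (show k ≤ S.J - 1 by omega) (by omega)
    have a2 := (h.ss (S.J - 1) (by omega)).2
    rw [show S.J - 1 + 1 = S.J by omega] at a2
    have a3 := mul_le_mul_of_nonneg_right (K.H.Z.Cp (k := 4) (by norm_num))
      (sub_nonneg.2 (h.leg.zm (show k ≤ S.J - 1 by omega)))
    have a4 := mul_le_mul_of_nonneg_right (c (show 3 ≤ 4 by norm_num)) v0.le
    refine le_of_mul_le_mul_left ?_ (pow_pos C0 2)
    have a5 := mul_le_mul_of_nonneg_left (add_le_add a1 a2) (pow_pos C0 2).le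
    linarith [K.sJ, R.v1]
  have b1 := mul_le_mul_of_nonneg_right (c (show 1 ≤ 3 by norm_num)) R0.le
  have b2 := mul_le_mul_of_nonneg_right (c (show 2 ≤ 3 by norm_num)) R0.le
  have b3 := mul_le_mul_of_nonneg_right (c (show 1 ≤ 3 by norm_num)) v0.le
  have b4 := mul_le_mul_of_nonneg_right (c (show 0 ≤ 3 by norm_num)) γ0
  have p1 : 0 < S.C ^ 3 * Xp ^ ((1 : ℝ) / 3) := by positivity
  have p2 : 0 < S.C ^ 3 * S.v := by positivity
  have p3 : 0 < S.C * S.v := by positivity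
  have p4 : 0 < S.C ^ 2 * Xp ^ ((1 : ℝ) / 3) := by positivity
  refine ⟨hs, abs_le.2 ⟨by linarith [R.lo hk hs], not_lt.1 fun e => ?_⟩⟩
  have sw := Ap63.sw_q h ((Ap63.q_slow h i3 le_rfl).trans K.lp.γ0)
  obtain ⟨lo, l1, l2, l3, l4⟩ := h.exists_node (t := M.s S.J / 2) (by linarith) (by linarith)
  have l0 : S.jl ≤ lo := Nat.lt_succ_iff.1 (h.sm.reflect_lt (by linarith [R.jl]))
  have lk : lo < k := h.sm.reflect_lt (by linarith)
  have e1 : Ap63.Sx M.z (fun y => M.rb m a y - M.q y) lo S.Jp 2 ≤ (Xp ^ ((1 : ℝ) / 3)) ^ 3 := by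
    rw [rp3 K.lp.Xp0.1.le]
    refine le_trans (sum_le_sum_of_subset_of_nonneg (fun y hy => ?_) fun y _ _ =>
      mul_nonneg (Ap63.w_nn h.leg.zm y) (by positivity)) K.top
    rw [mem_Ioc] at hy
    exact R.mem (by omega) hy.2 (l3.le.trans (h.sm (by omega)))
  have R1 : Xp ^ ((1 : ℝ) / 3) ≤ 1 :=
    (le_mul_of_one_le_left R0.le (one_le_pow₀ (by linarith))).trans K.DR
  unfold Md.del at e
  generalize Xp ^ ((1 : ℝ) / 3) = r at *
  obtain ⟨ρ, hρ⟩ : ∃ ρ, ρ = S.C ^ 2 * r + (S.C ^ 3 * S.v + S.C * S.v + γ) + S.C * S.v := ⟨_, rfl⟩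
  have a3 : (S.C ^ 2 * r) ^ 2 < ρ ^ 2 := pow_lt_pow_left₀ (by linarith) p4.le two_ne_zero
  rcases Ap63.up (ρ := ρ) h.leg.zm (rb_mono R.m0) (sq_nonneg S.C) sw.mono
    (fun i k e => sw.lip h i k (by omega)) lk (by omega) (by linarith) (by linarith) 2 with b | b
  · rw [h.top _ le_rfl] at b
    have a1 : 1 / S.C ≤ 1 - M.z (k - 1) := by
      linarith [h.atom.2, h.leg.zm (show k - 1 ≤ S.J - 1 by omega)]
    have a2 := (mul_le_mul_of_nonneg_left a1 (sq_nonneg ρ)).trans (b.trans e1)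
    rw [mul_one_div, div_le_iff₀ C0] at a2
    have a4 : r * S.C ≤ S.C ^ 4 :=
      (mul_le_of_le_one_left C0.le R1).trans (le_self_pow₀ C1 (by norm_num))
    linarith [mul_le_mul_of_nonneg_left a4 (sq_nonneg r)]
  · have a1 := b.trans (mul_le_mul_of_nonneg_left e1 (sq_nonneg _))
    have a2 := mul_le_mul_of_nonneg_left (show S.C ^ 2 * r ≤
      ρ - (S.C ^ 3 * S.v + S.C * S.v + γ) by linarith) (sq_nonneg ρ)
    have a4 := mul_lt_mul_of_pos_right a3 p4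
    have a5 := mul_le_mul_of_nonneg_right (c (show 2 ≤ 6 by norm_num)) (pow_pos R0 3).le
    linarith

/-- the rise near the corner -/
theorem rise {i k : ℕ} (h0 : S.j0 ≤ i) (h1 : i ≤ k) (hk : k < S.J)
    (hz : D * (M.z (S.J - 1) - M.z i) ≤ 3) : M.rb m a k - M.rb m a i ≤
      12 * S.C ^ 3 * (Xp ^ ((1 : ℝ) / 3) + γ + S.v) + ((k : ℝ) - i) * (S.C * S.v) := by
  have h := K.H.Z.A.cl
  have a1 := abs_le.1 (K.del h0 (by omega) hz).2
  have a2 := abs_le.1 (K.del (k := k) (by omega) hk (le_trans (mul_le_mul_of_nonneg_left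
    (by linarith [h.leg.zm h1]) (by linarith [K.H.Z.D4])) hz)).2
  have a3 := (Ap63.q_slow h h1 (hk.le.trans h.i3)).trans (h.s_tel h1 hk.le).2
  unfold Md.del at a1 a2
  linarith [a1.1, a2.2]

theorem Rt : Xp ^ ((1 : ℝ) / 3) + γ + S.v ≤ 2 * (Lc * t) ∧ τ ≤ t ∧ D ^ 40 * t ≤ 3 := by
  obtain ⟨a1, -, a2⟩ := K.Rτ
  have a3 := mul_le_mul_of_nonneg_left K.t0 (show 0 ≤ Lc by linarith [K.H.L1])
  have a4 := le_mul_of_one_le_left K.H.γ0 K.H.L1
  have a5 := le_mul_of_one_le_left a2.le K.H.L1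
  have γ0 := K.H.γ0
  have t0 := K.t0
  exact ⟨by linarith [K.vτ], by linarith,
    (mul_le_mul_of_nonneg_right K.H.Z.DE (by linarith)).trans K.t1⟩

/-- **label length of a gap** -/
theorem gap {p q : ℕ} (h0 : S.j0 ≤ p) (pq : p < q) (hq : q < S.J) (gp : Gc S M m a l0 V L Lc p)
    (gq : Gc S M m a l0 V L Lc q ∨ q = S.J - 1)
    (hb : ∀ y, p < y → y < q → ¬ Gc S M m a l0 V L Lc y)
    (hz : D * (M.z (S.J - 1) - M.z p) ≤ 3) : M.z q ≤ M.z p + D * t := by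
  have h := K.H.Z.A.cl
  have C0 := h.C0
  have C1 := h.C1
  have v0 := h.v0
  have L1 := K.H.L1
  obtain ⟨r1, r2, -⟩ := K.Rt
  have t0 : 0 < t := K.Rτ.2.2.trans_le r2
  have vt := K.vτ.trans r2
  have a1 := K.H.Z.cx.gap_card gp gq (by linarith) pq hb
  have a2 := K.rise h0 pq.le hq hz
  have a3 := (h.z_tel h0 pq.le hq).2
  have n0 : (0 : ℝ) ≤ (q : ℝ) - p - 1 := by
    have : ((p + 1 : ℕ) : ℝ) ≤ q := by exact_mod_cast pq
    push_cast at this; linarith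
  have c1 := K.H.Z.Cp (k := 1) (by norm_num)
  have a4 := mul_le_mul_of_nonneg_right (show 4 * S.C ≤ Lc by
    linarith [K.H.Z.D_E, K.H.EL]) (mul_nonneg v0.le n0)
  have a5 := mul_le_mul_of_nonneg_left r1 (show 0 ≤ S.C ^ 3 by positivity)
  have a6 : S.C * S.v ≤ S.C ^ 3 * (Lc * t) := mul_le_mul (le_self_pow₀ C1 three_ne_zero)
    (vt.trans (le_mul_of_one_le_left t0.le L1)) v0.le (by positivity)
  have a7 : S.v * ((q : ℝ) - p - 1) ≤ 100 * S.C ^ 3 * t :=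
    le_of_mul_le_mul_left (by linarith) (show 0 < Lc by linarith)
  have a8 := mul_le_mul_of_nonneg_left a7 C0.le
  have a9 : S.C * S.v ≤ S.C ^ 4 * t :=
    mul_le_mul (le_self_pow₀ C1 four_ne_zero) vt v0.le (by positivity)
  have b := mul_le_mul_of_nonneg_right (K.H.Z.Cp (k := 4) (by norm_num)) t0.le
  have : 0 < S.C ^ 4 * t := by positivity
  linarith

/-- a good node at the label distance about `2 / D` below the corner -/
theorem anchor : ∃ u, S.j0 ≤ u ∧ u < S.J ∧ Gc S M m a l0 V L Lc u ∧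
    2 ≤ D * (M.z (S.J - 1) - M.z u) ∧ D * (M.z (S.J - 1) - M.z u) ≤ 3 := by
  have h := K.H.Z.A.cl
  have C0 := h.C0
  have C1 := h.C1
  have v0 := h.v0
  have D4 := K.H.Z.D4
  have D0 : 0 < D := by linarith
  have jJ := h.j0_lt
  have L1 := K.H.L1
  have c1 := K.H.Z.Cp (k := 1) (by norm_num)
  have dv : D ^ 2 * S.v ≤ 1 / 10000 := by
    have := mul_le_mul_of_nonneg_right (D4.trans (le_self_pow₀ (by linarith)
      (show 38 ≠ 0 by norm_num))) (show 0 ≤ D ^ 2 * S.v by positivity)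
    linarith [K.Dv]
  have cv : D * (S.C * S.v) ≤ 1 / 10000 := le_trans (by rw [sq, mul_assoc]; gcongr; linarith) dv
  have ex : ∀ y : ℝ, 0 < y → y ≤ 3 → ∃ p, S.j0 ≤ p ∧ p < S.J ∧
      D * (M.z (S.J - 1) - M.z p) ≤ y ∧ y ≤ D * (M.z (S.J - 1) - M.z p) + 1 / 10000 := by
    intro y y0 y3
    classical
    have e : ∃ p, S.j0 ≤ p ∧ D * (M.z (S.J - 1) - M.z p) ≤ y := ⟨S.J - 1, by omega, by simp [y0.le]⟩
    obtain ⟨a1, a2⟩ := Nat.find_spec e
    have a3 : Nat.find e ≤ S.J - 1 := Nat.find_min' e ⟨by omega, by simp [y0.le]⟩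
    have a4 := K.H.Z.jl4 (y := Nat.find e) (K.H.Z.ln.l0l.trans (by
      have b1 := (K.del a1 (by omega) (a2.trans y3)).1
      have b2 : 2 * l ≤ M.s (Nat.find e) := by
        have d1 := mul_le_mul_of_nonneg_right ((K.H.Z.Cp (k := 2) (by norm_num)).trans K.H.Z.D_E)
          K.H.Z.lp.le
        refine le_of_mul_le_mul_left ?_ (pow_pos C0 2)
        linarith [K.sJ, K.H.Z.ln.l1, mul_le_mul_of_nonneg_left b1 (pow_pos C0 2).le]
      linarith [K.H.Z.lp])) (by omega)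
    have i0 := h.i0
    have i1 := h.i1
    have a5 := Nat.find_min e (show Nat.find e - 1 < Nat.find e by omega)
    have a6 := (h.zs (Nat.find e - 1) (by omega) (by omega)).2
    rw [show Nat.find e - 1 + 1 = Nat.find e by omega] at a6
    refine ⟨_, a1, by omega, a2, ?_⟩
    have a7 := not_le.1 fun c => a5 ⟨by omega, c⟩
    linarith [mul_le_mul_of_nonneg_left a6 D0.le]
  obtain ⟨p, p1, p2, p3, p4⟩ := ex 3 (by norm_num) le_rfl
  obtain ⟨q, q1, q2, q3, q4⟩ := ex (5 / 2) (by norm_num) (by norm_num)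
  have pq : p < q := h.leg.zm.reflect_lt (lt_of_mul_lt_mul_left (by linarith) D0.le)
  obtain ⟨z1, z2⟩ := h.z_tel p1 pq.le q2
  have sp := (K.del p1 p2 p3).1
  have s1 := (h.s_bds p2.le).2
  have n0 : (0 : ℝ) < (q : ℝ) - p := sub_pos.2 (by exact_mod_cast pq)
  have h23 : 2 * q ≤ 3 * p := by
    have b1 : D * (((q : ℝ) - p) * (S.v / S.C)) ≤ 1 :=
      (mul_le_mul_of_nonneg_left z1 D0.le).trans (by linarith)
    have b2 := mul_le_mul_of_nonneg_right (K.H.Z.Cp (k := 4) (by norm_num))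
      (show 0 ≤ ((q : ℝ) - p) * (S.v / S.C) by positivity)
    have b3 : S.C ^ 4 * (((q : ℝ) - p) * (S.v / S.C)) = S.C ^ 3 * S.v * ((q : ℝ) - p) := by
      field_simp
    have b4 := mul_le_mul_of_nonneg_left (sp.trans s1) (pow_pos C0 2).le
    have b5 : S.C ^ 3 * S.v * (2 * q) ≤ S.C ^ 3 * S.v * (3 * p) := by linarith [K.sJ]
    exact_mod_cast le_of_mul_le_mul_left b5 (by positivity)
  obtain ⟨u, u1, u2, gu⟩ := K.H.Z.cx.exists_cru (L := Lc) (V := S.J - 1) (by linarith) p1 pq.le h23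
    (by omega) (by omega) (by
      have b1 : tl M l0 p ≤ S.C := max_le (h.s_le_C (p2.le.trans h.i3))
        (K.H.Z.ln.l0l.trans K.H.Z.lC)
      have b2 : 1 / 4 ≤ D * (((q : ℝ) - p) * (S.C * S.v)) :=
        le_trans (by linarith) (mul_le_mul_of_nonneg_left z2 D0.le)
      have b3 : D ^ 2 ≤ Lc := (K.H.Z.DpE (by norm_num)).trans K.H.EL
      have b4 := mul_le_mul_of_nonneg_right b3 (show 0 ≤ S.C * (S.v * ((q : ℝ) - p)) by positivity)
      have b5 := mul_le_mul_of_nonneg_left b2 D0.le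
      have b6 := K.H.Z.Cp (k := 9) (by norm_num)
      have b7 := mul_le_mul_of_nonneg_left b1 (show 0 ≤ S.C ^ 8 by positivity)
      have b8 : 0 < S.C * (Lc * S.v) := by positivity
      have b9 : 0 < S.C ^ 9 := by positivity
      refine lt_of_mul_lt_mul_left ?_ C0.le
      linarith)
  have m1 := mul_le_mul_of_nonneg_left (h.leg.zm u1) D0.le
  have m2 := mul_le_mul_of_nonneg_left (h.leg.zm u2) D0.le
  exact ⟨u, by omega, by omega, gu, by linarith, by linarith⟩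

theorem mg {q : ℕ} (h0 : S.j0 ≤ q) (hq : q < S.J) (hz : M.z q + D * t ≤ M.z (S.J - 1)) :
    Mg S Lc q := by
  have h := K.H.Z.A.cl
  have C0 := h.C0
  have v0 := h.v0
  have r2 := K.Rt.2.1
  have t0 : 0 < t := K.Rτ.2.2.trans_le r2
  have c1 := mul_le_mul_of_nonneg_right (K.H.Z.Cp (k := 1) (by norm_num)) t0.le
  have p : 0 < S.C * t := by positivity
  have a1 : q < S.J - 1 := h.leg.zm.reflect_lt (by linarith)
  have a2 := (h.z_tel h0 a1.le (by omega)).2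
  rw [Nat.cast_sub (by omega), Nat.cast_one] at a2
  have a3 : t ≤ ((S.J : ℝ) - q) * S.v :=
    le_of_mul_le_mul_left (by linarith [mul_pos C0 v0]) C0
  exact ⟨by omega, ((K.wτ.trans r2).trans a3).trans (le_mul_of_one_le_left (t0.le.trans a3)
    (one_le_rpow K.H.L1 (by norm_num)))⟩

/-- **good nodes in every label window** of length `D t` near the corner -/
theorem win {x : ℝ} (h1 : D * (M.z (S.J - 1) - x) ≤ 2) (h2 : x + 2 * (D * t) ≤ M.z (S.J - 1)) :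
    ∃ q, S.j0 ≤ q ∧ q < S.J ∧ Gc S M m a l0 V L Lc q ∧ Mg S Lc q ∧ x < M.z q ∧
      M.z q ≤ x + D * t := by
  classical
  have h := K.H.Z.A.cl
  have D0 : 0 < D := by linarith [K.H.Z.D4]
  have p0 : 0 < D * t := mul_pos D0 (K.Rτ.2.2.trans_le K.Rt.2.1)
  obtain ⟨u, u1, u2, gu, u3, u4⟩ := K.anchor
  have ux : M.z u ≤ x := le_of_mul_le_mul_left (by linarith) D0
  have i1 : u ≤ Nat.findGreatest (fun y => Gc S M m a l0 V L Lc y ∧ M.z y ≤ x) (S.J - 1) :=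
    Nat.le_findGreatest (by omega) ⟨gu, ux⟩
  have i2 := Nat.findGreatest_le (P := fun y => Gc S M m a l0 V L Lc y ∧ M.z y ≤ x) (S.J - 1)
  obtain ⟨i3, i4⟩ := Nat.findGreatest_spec (P := fun y => Gc S M m a l0 V L Lc y ∧ M.z y ≤ x)
    (show u ≤ S.J - 1 by omega) ⟨gu, ux⟩
  have i5 := fun y b c => Nat.findGreatest_is_greatest
    (P := fun y => Gc S M m a l0 V L Lc y ∧ M.z y ≤ x) (n := S.J - 1) (k := y) b c
  generalize Nat.findGreatest (fun y => Gc S M m a l0 V L Lc y ∧ M.z y ≤ x) (S.J - 1) = p at *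
  have pJ : p < S.J - 1 := h.leg.zm.reflect_lt (by linarith)
  have e : ∃ q, p < q ∧ (Gc S M m a l0 V L Lc q ∨ q = S.J - 1) := ⟨_, pJ, .inr rfl⟩
  obtain ⟨a1, a2⟩ := Nat.find_spec e
  have a3 : Nat.find e ≤ S.J - 1 := Nat.find_min' e ⟨pJ, .inr rfl⟩
  have a4 := K.gap (by omega) a1 (by omega) i3 a2 (fun y b1 b2 g => Nat.find_min e b2 ⟨b1, .inl g⟩)
    (le_trans (mul_le_mul_of_nonneg_left (by linarith [h.leg.zm i1]) D0.le) u4)
  have g : Gc S M m a l0 V L Lc (Nat.find e) := a2.resolve_right fun c => by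
    rw [c] at a4; linarith
  exact ⟨_, by omega, by omega, g, K.mg (by omega) (by omega) (by linarith),
    not_le.1 fun c => i5 _ a1 a3 ⟨g, c⟩, by linarith⟩

/-- the net between two good nodes -/
theorem ne {U U' : ℕ} {ρ : ℝ} (h0 : S.j0 ≤ U) (hz : D * (M.z (S.J - 1) - M.z U) ≤ 1)
    (gU : Gc S M m a l0 V L Lc U) (gV : Gc S M m a l0 V L Lc U') (o : Mg S Lc U') (hU : U ≤ U')
    (hρ : M.rb m a U' - M.rb m a U ≤ ρ) : Lo S M U ∧ Ne S M m a T (Gc S M m a l0 V L Lc) U U'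
      (D ^ 29 * ψ ^ 6 * (ηc + η 1 + Nd22.U S Lc 1 ^ 2 * γ)) (D ^ 4 * (X2 + √(ρ * S.w3 1)))
      (D ^ 16 * ψ ^ 4 * Nd22.U S Lc 1 ^ 2) (4 * S.C / Lc) := by
  have h := K.H.Z.A.cl
  have oJ := o.1
  have lo := K.H.lo_of h0 (by omega) hz
  have L1 := K.H.L1
  have D4 := K.H.Z.D4
  have C0 := h.C0
  have ψ1 := K.H.ψ1
  have e0 := K.H.η0
  have p0 := K.H.parts.2.2
  have γ0 := K.H.γ0
  have X0 := K.H.Z.X20
  have j4 := K.H.Z.jl4 (K.H.Z.ln.l0l.trans (by linarith [K.H.ls lo, K.H.Z.lp]))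
    (show U ≤ S.J by omega)
  have i0 := h.i0
  have i1 := h.i1
  have rm := rb_mono (M := M) (a := a) K.H.Z.A.m_pos
  refine ⟨lo, K.H.Z.A, by omega, by omega, gU, gV, ⟨by positivity, by positivity, by positivity,
    by positivity⟩, fun i k a1 a2 a3 gi gk => K.H.nce' (lo.mono h a1) a2 gi gk
      (o.anti h (by linarith) a3) (by linarith [rm a1, rm a3]), fun i k n c => ?_⟩
  obtain ⟨n1, -, n3, n4, n5, n6⟩ := n
  exact (K.H.Z.cx.gap_lab K.H.Z.A n4 (.inl n5) (by linarith) (by omega) c (by omega) n6).1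

end Ck

/-- **(ShS)** the gaps of the corner net are short -/
def ShS : Prop := CL fun E Λ' S M m a => ∀ (D Λ L ψ T G1 l0 l V X Lg X2 X3 G0 W3 : ℝ) (η : ℝ → ℝ)
  (Xp Vt Lp u1 u2 j γ Lc ηc τ N t Q : ℝ),
  Ck D E Λ L ψ S M m a T G1 l0 l V X Lg X2 X3 G0 W3 η Xp Vt Lp u1 u2 j γ Lc ηc τ N t →
  η 1 / mf S 1 ≤ t → T ≤ 2 * S.C → ψ ^ 6 ≤ S.F → S.F ^ 40 ≤ E → D ^ 300 ≤ E → Λ' ^ 10 ≤ E →
  1 ≤ Q → Q ^ 10 ≤ E → ∀ U U' i k, Nx (Gc S M m a l0 V L Lc) U U' i k → S.j0 ≤ i → k < S.J →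
    2 * D * (M.z (S.J - 1) - M.z i) ≤ 1 → M.z k + 4 * (Λ' * D ^ 29 * S.F * t) ≤ M.z (S.J - 1) →
    G89.ds M m a i k ^ 2 ≤ mf S 1 / Q + (Λ' * D ^ 29 * Q * S.F * t) ^ 2

set_option maxHeartbeats 800000 in
theorem shS : ShS := by
  refine CL.mono ncG fun E Λ' S M m a E1 Λ1 h _ G D Λ L ψ T G1 l0 l V X Lg X2 X3 G0 W3 η Xp Vt Lp
    u1 u2 j γ Lc ηc τ N t Q K hη hT hψ F40 DE ΛE Q1 QE U U' i k n h0 hk hz up => ?_
  obtain ⟨-, n2, -, gi, gk, nb⟩ := n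
  have D4 := K.H.Z.D4
  have D1 : 1 ≤ D := by linarith
  have C0 := h.C0
  have F1 := h.F1
  have L1 := K.H.L1
  have EL := K.H.EL
  have μ0 := K.mf0
  have ψ1 := K.H.ψ1
  obtain ⟨r1, r2, -⟩ := K.Rt
  obtain ⟨-, s2, s3⟩ := K.Rτ
  have t0 : 0 < t := s3.trans_le r2
  obtain ⟨g, g0, rfl⟩ : ∃ g : ℝ, 0 ≤ g ∧ E = g ^ 10 :=
    ⟨E ^ (((10 : ℕ) : ℝ)⁻¹), by positivity, (rpow_inv_natCast_pow (by linarith) (by norm_num)).symm⟩
  have rt : ∀ {x : ℝ}, x ^ 10 ≤ g ^ 10 → x ≤ g := fun e => le_of_pow_le_pow_left₀ (by norm_num) g0 e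
  have Dg : D ^ 30 ≤ g := rt (by rwa [← pow_mul])
  have Fg : S.F ≤ g := rt ((pow_le_pow_right₀ F1 (by norm_num)).trans F40)
  have d30 : D ≤ D ^ 30 := le_self_pow₀ D1 (by norm_num)
  have g1 : 1 ≤ g := by linarith
  obtain ⟨y, hy⟩ : ∃ y, y = Λ' * D ^ 29 * S.F * t := ⟨_, rfl⟩
  have y1 : 2 * (D * t) ≤ y :=
    calc _ = 1 * (2 * D) * 1 * t := by ring
      _ ≤ _ := by
        rw [hy]; gcongr
        calc 2 * D ≤ D * D := by gcongr; linarith
          _ = D ^ 2 := by ring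
          _ ≤ _ := K.H.Z.Dp (by norm_num)
  have y2 : D * y ≤ g ^ 3 * t :=
    calc _ = Λ' * D ^ 30 * S.F * t := by rw [hy]; ring
      _ ≤ g * g * g * t := by gcongr; exact rt ΛE
      _ = _ := by ring
  have y3 : g ^ 3 * t ≤ 1 / 1000 := by
    have b : 10000 ≤ g ^ 7 := by linarith [le_self_pow₀ g1 (show 7 ≠ 0 by norm_num)]
    linarith [mul_le_mul_of_nonneg_right b (show 0 ≤ g ^ 3 * t by positivity), K.t1]
  have Dt : 0 < D * t := by positivity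
  have DDt := mul_le_mul_of_nonneg_left y1 (show 0 ≤ D by linarith)
  have zik := h.leg.zm n2
  have zz : 0 ≤ D * (M.z k - M.z i) := mul_nonneg (by linarith) (by linarith)
  have mg : Λ' * D ^ 29 * S.F * (t + η 1 / mf S 1) ≤ 2 * y :=
    (mul_le_mul_of_nonneg_left (show t + η 1 / mf S 1 ≤ 2 * t by linarith)
      (by positivity)).trans_eq (by rw [hy]; ring)
  rw [← hy] at up
  obtain ⟨p, p1, p2, p3, -, p5, p6⟩ := K.win (x := M.z i - 2 * y - D * t) (by linarith)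
    (by linarith)
  obtain ⟨q, q1, q2, q3, q4, q5, q6⟩ := K.win (x := M.z k + 2 * y)
    (by linarith [mul_pos (show 0 < D by linarith) Dt]) (by linarith)
  have pi : p < i := h.leg.zm.reflect_lt (by linarith)
  have kq : k < q := h.leg.zm.reflect_lt (by linarith)
  have zp : D * (M.z (S.J - 1) - M.z p) ≤ 1 := by
    linarith [mul_le_mul_of_nonneg_left p5.le (show 0 ≤ D by linarith)]
  have gp : M.z k ≤ M.z i + D * t := by
    rcases n2.eq_or_lt with rfl | c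
    · linarith
    · exact K.gap h0 c hk gi (.inl gk) nb (by linarith)
  obtain ⟨lo, Z⟩ := K.ne (ρ := Lc ^ 2 * t) p1 zp p3 q3 q4 (by omega) (by
    have b1 := K.rise p1 (show p ≤ q by omega) q2 (by linarith)
    have b2 := mul_le_mul_of_nonneg_left (h.z_tel p1 (show p ≤ q by omega) q2).1 (sq_nonneg S.C)
    rw [show S.C ^ 2 * (((q : ℝ) - p) * (S.v / S.C)) = ((q : ℝ) - p) * (S.C * S.v) by
      field_simp] at b2
    have b3 := mul_le_mul_of_nonneg_left (show M.z q - M.z p ≤ 6 * y by linarith) (sq_nonneg S.C)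
    have b4 := mul_le_mul_of_nonneg_right (K.H.Z.Cp (k := 2) (by norm_num))
      (show 0 ≤ y by linarith)
    have b5 : g ^ 3 * t ≤ Lc * t :=
      mul_le_mul_of_nonneg_right ((pow_le_pow_right₀ g1 (by norm_num)).trans EL) t0.le
    have b6 := mul_le_mul_of_nonneg_left r1 (show 0 ≤ S.C ^ 3 by positivity)
    have b7 := mul_le_mul_of_nonneg_right (((K.H.Z.Cp (k := 3) (by norm_num)).trans
      K.H.Z.D_E).trans EL) (show 0 ≤ Lc * t by positivity)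
    have b8 := mul_le_mul_of_nonneg_right ((D4.trans K.H.Z.D_E).trans EL)
      (show 0 ≤ Lc * t by positivity)
    have b9 : 0 ≤ S.C ^ 2 * y := mul_nonneg (sq_nonneg _) (by linarith)
    have b0 : 0 ≤ Lc * t := by positivity
    linarith)
  have u0 := K.H.u0
  have e0 := K.H.η0
  have X0 := K.H.Z.X20
  have dp : ∀ {i : ℕ}, i ≤ 29 → D ^ i ≤ D ^ 29 := fun e => K.H.Z.Dp e
  refine (G G1 l0 l V X Lg X2 X3 G0 η Xp Vt Lp u1 u2 j γ Lc ηc τ N T (D ^ 29) Q _ _ _ _ t _ _ p q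
    K.H.Z.ce K.H.Z.ln K.lp K.H.j0 F40 hT (one_le_pow₀ D1)
    (by rw [← pow_mul]; exact (K.H.Z.Dp (by norm_num)).trans DE) Q1 QE Z
    (by linarith [lo.2, h.s_nn p]) r2 le_rfl ?_ ?_ ?_ ?_ i k ⟨pi.le, n2, kq.le, gi, gk, nb⟩
    (by linarith) (by linarith)).1
  · have b1 : Nd22.U S Lc 1 ^ 2 ≤ mf S 1 :=
      (le_mul_of_one_le_left (sq_nonneg _) E1).trans K.H.thk
    have b2 := mul_le_mul_of_nonneg_right b1 K.H.γ0
    have b3 := mul_le_mul_of_nonneg_right K.t0 μ0.le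
    have b4 := mul_nonneg (sq_nonneg (Nd22.U S Lc 1)) K.H.γ0
    exact mul_le_mul (by gcongr) (by linarith) (by linarith [K.H.parts.2.2]) (by positivity)
  · exact mul_le_mul_of_nonneg_right ((dp (by norm_num)).trans
      (le_mul_of_one_le_right (by positivity) F1)) (by positivity)
  · exact mul_le_mul_of_nonneg_right (mul_le_mul (dp (by norm_num))
      ((pow_le_pow_right₀ ψ1 (by norm_num)).trans hψ) (by positivity) (by positivity)) (sq_nonneg _)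
  · exact div_le_div₀ (by positivity) (by
      linarith [K.H.Z.Cp (k := 1) (by norm_num), dp (show 1 ≤ 29 by norm_num)])
      (by linarith [K.H.Z.EL]) K.H.Lc1

end Crest.Agent.T156.Alt.Tx61

end
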