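import Crest.Agent.T156.TnMs_33
import Crest.Agent.T156.SzN_49

/-!
# Row 156, block (L): the errors of (E1) at good nodes of the plateau (helper33)
-/

set_option autoImplicit false
set_option linter.unusedSectionVars false

noncomputable section

namespace Crest.Agent.T156.Alt.Nd33

open Real Finset Filter
open Crest.Agent.T156.Alt.E61 Crest.Agent.T156.Alt.Mp9 Crest.Agent.T156.Alt.Md67
open Crest.Agent.T156.Alt.E49 Crest.Agent.T156.Alt.C33 Crest.Agent.T156.Alt.Ms33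

/-- a good node of the plateau: cone of slope `κ`, centred overlap `≤ up` -/
structure PG (S : Sc) (M : Md) (m : ℕ) (a : ℝ) (j : ℕ) (κ up : ℝ) : Prop where
  lo : S.J ≤ j
  hi : j < S.Jp
  den : 1 ≤ S.n * S.den (M.z (j - 1))
  cone : ∀ i : ℕ, S.J - S.J / 4 ≤ i → i ≤ j + 1 →
    |M.rb m a i - M.rb m a j| ≤ κ * |(i : ℝ) - j| * S.v
  u : u4 M m a j ≤ up

/-- a test node for the mesh `C v` (output of `NO.nd`), weak input `G`, node error `ev` -/
structure SV (S : Sc) (M : Md) (m : ℕ) (a : ℝ) (v : ℕ) (G ev : ℝ) : Prop where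
  tn : Tn S M m a (u4 M m a) (S.C * S.v) v G
  en : en M m a (u4 M m a) (S.C * S.v) (n3 true M m a (u4 M m a) (S.C * S.v) v) G v ≤ ev

/-- the error of a good node of the plateau -/
def ep (S : Sc) (M : Md) (m : ℕ) (a G ev N2 : ℝ) (j : ℕ) (κ up : ℝ) : ℝ :=
  ev + (G + N2) * up + up ^ 3 + (1 + κ) * S.w3 1 +
    ∑ k ∈ Ico S.J j, M.dz m a k * u4 M m a k ^ 2 + 1 / S.n

/-- `|Γ''|` at the node -/
abbrev gd (S : Sc) (M : Md) (m : ℕ) (a T : ℝ) (k : ℕ) : ℝ :=
  |L0.Gd (lb M S m a T) (sb M m a (k + 1))|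

/-- the clock between two nodes -/
def ck (M : Md) (m : ℕ) (a N2 : ℝ) (i j : ℕ) : ℝ :=
  N2 * (sb M m a (j + 1) - sb M m a (i + 1)) + ∑ k ∈ Ioo i j, M.dz m a k * u4 M m a k ^ 2

/-- **output** -/
structure PO (Λ : ℝ) (S : Sc) (M : Md) (m : ℕ) (a G ev N2 : ℝ) : Prop where
  nd : ∀ j κ up, PG S M m a j κ up →
    Tn S M m a (u4 M m a) (S.n * (S.C * S.v)) j (5200 * G) ∧
    en M m a (u4 M m a) (S.n * (S.C * S.v)) (n3 true M m a (u4 M m a) (S.n * (S.C * S.v)) j)
      (5200 * G) j ≤ Λ * ep S M m a G ev N2 j κ up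
  dv : ∀ T, At S M m a T → ∀ i G' ev' j κ up, SV S M m a i G' ev' → PG S M m a j κ up → i < j →
    |res M S m a T j - res M S m a T i| ≤ Λ * (ev' + u4 M m a i ^ 2 * gd S M m a T i +
      (ep S M m a G ev N2 j κ up + up ^ 2 * gd S M m a T j) + ck M m a N2 i j)
  dp : ∀ T, At S M m a T → ∀ i κ' up' j κ up, PG S M m a i κ' up' → PG S M m a j κ up → i < j →
    |res M S m a T j - res M S m a T i| ≤ Λ * (ep S M m a G ev N2 i κ' up' +
      up' ^ 2 * gd S M m a T i + (ep S M m a G ev N2 j κ up + up ^ 2 * gd S M m a T j) +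
      ck M m a N2 i j)

/-- **(NdP)** -/
def NdP : Prop := CL fun _ Λ S M m a => M.H S.Jp ≤ S.C → S.F ≤ S.n → 8 * S.jl ≤ S.J →
  ∀ v G ev N2, v ≤ S.J → SV S M m a v G ev → Nu M m a (u4 M m a) 2 ≤ N2 → PO Λ S M m a G ev N2

variable {S : Sc} {M : Md} {m : ℕ} {a : ℝ} {K j : ℕ} {κ up : ℝ}

theorem SV.nn {v : ℕ} {G ev : ℝ} (V : SV S M m a v G ev) (L : Lg M m a) (h0 : 0 < S.C * S.v) :
    0 ≤ ev := by
  have hu := mj_u4 (M := M) (a := a) L.m0
  refine le_trans ?_ V.en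
  have := r2_nn (M := M) (m := m) (a := a) v
  have := pb_nn L h0 v
  have := Vn_nn (M := M) (m := m) (a := a) v
  have := E61.VVn_nn L v
  have := n3_nn L hu h0 v
  have := (hu.u0 v).1
  have := Nu_nn L hu 1
  have := Nu_nn L hu 2
  have := Nu_nn L hu 4
  have := V.tn.gm.1
  unfold E61.en
  positivity

/-- the constant of the node variances -/
def DW (C : ℝ) : ℝ := 2 ^ 40 * C ^ 24

section big
variable (B : Big S M m a K) (kb : Kb S M K) (hJ : 8 * S.jl ≤ S.J) (P : PG S M m a j κ up)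
include B kb hJ P

theorem κ0 : 0 ≤ κ := by
  have := (abs_nonneg _).trans (P.cone (j + 1) (by have := P.lo; omega) le_rfl)
  rw [show ((j + 1 : ℕ) : ℝ) - j = 1 by push_cast; ring, abs_one, mul_one] at this
  exact nonneg_of_mul_nonneg_left this B.v0

theorem vn_le : Vn M m a j ≤ DW S.C * (K + 2) ^ 2 * ((1 + κ) * S.w3 1) := by
  have F := B.toFn
  have G := F.lg
  have C1 := F.C1; have C0 := F.C0; have v0 := F.v0
  have i0 := F.i0; have i1 := F.i1; have i2 := F.i2; have lo := P.lo; have hi := P.hi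
  have k0 := κ0 B kb hJ P
  have K0 : (0 : ℝ) ≤ K := Nat.cast_nonneg K
  have vn := Vn_down F kb (U := S.J - S.J / 4) (k := j) (d := j - (S.J - S.J / 4)) (top := 1)
    (g := κ * S.v) (by omega) (by omega) hi.le (by omega) (rb_le_one G.m0 j) (fun t t1 t2 => by
      have := (abs_le.1 (P.cone (j - t) (by omega) (by omega))).1
      rw [Nat.cast_sub (by omega), sub_sub_cancel_left, abs_neg, abs_of_nonneg (Nat.cast_nonneg t)]
        at this
      linarith) hi (by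
      have := (abs_le.1 (P.cone (j + 1) (by omega) le_rfl)).2
      rwa [show ((j + 1 : ℕ) : ℝ) - j = 1 by push_cast; ring, abs_one, mul_one] at this)
  have hr := rate_top F (i := S.J - S.J / 4) (by omega) (by omega) (by omega)
  have z1 := (z_top F (i := S.J - S.J / 4) (by omega) (by omega) (by omega)).1.trans
    (mul_le_mul_of_nonneg_left (G.zm (show S.J - S.J / 4 ≤ j by omega)) (by positivity))
  have vw := (le_mul_of_one_le_left v0.le C1).trans (B.v_gg zero_le_one)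
  rw [Sz9.N49.w3_eq F one_pos, one_mul] at hr vw
  have w0 := F.w3_pos one_pos
  have σ0 := mul_pos (m0 F) (sg_pos F (S.J - S.J / 4))
  have z0 := F.z_pos j
  set σ := m * sg S M (S.J - S.J / 4) with hσ
  set r := S.v / σ with hr'
  set w := S.w3 1
  set d := j - (S.J - S.J / 4) with hd
  have d0 : (0 : ℝ) < d := Nat.cast_pos.2 (by omega)
  have dv : 1 ≤ 18 * S.C ^ 3 * (d * S.v) := by
    have a1 : (S.J : ℝ) ≤ 6 * d := by exact_mod_cast (by omega : S.J ≤ 6 * d)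
    have a2 := mul_le_mul_of_nonneg_left (mul_le_mul_of_nonneg_right a1 v0.le)
      (show 0 ≤ 3 * S.C ^ 3 by positivity)
    linarith [F.J_lo]
  have c : ∀ i ≤ 24, S.C ^ i ≤ S.C ^ 24 := fun i h => pow_le_pow_right₀ C1 h
  have zi : 1 / M.z j ≤ 48 * S.C ^ 5 := by rw [div_le_iff₀ z0]; exact z1
  have c14 : 1 ≤ S.C ^ 14 := one_le_pow₀ C1
  have c17 : S.C ^ 14 ≤ S.C ^ 17 := pow_le_pow_right₀ C1 (by norm_num)
  have ag : aG σ K d 1 (κ * S.v) ≤ (K + 2) ^ 2 * (2 ^ 23 * S.C ^ 17 * ((1 + κ) * w)) := by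
    have a1 : 4 * 1 / (σ * d) ≤ 72 * S.C ^ 3 * r := by
      rw [div_le_iff₀ (by positivity), hr', show 72 * S.C ^ 3 * (S.v / σ) * (σ * d) =
        4 * (18 * S.C ^ 3 * (d * S.v)) by field_simp; ring]
      linarith
    have a2 : 3 * K * (κ * S.v) / σ = 3 * K * κ * r := by rw [hr']; ring
    have a3 := mul_le_mul_of_nonneg_left hr (by positivity : 0 ≤ 72 * S.C ^ 3)
    have a4 := mul_le_mul_of_nonneg_left hr (by positivity : 0 ≤ 3 * K * κ)
    have a5 := mul_le_mul_of_nonneg_left vw k0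
    have a6 := mul_le_mul_of_nonneg_right c17 (by positivity : 0 ≤ K * (κ * w))
    have a7 := mul_le_mul_of_nonneg_right (c14.trans c17) (by positivity : 0 ≤ κ * w)
    rw [aG, a2, sq, mul_assoc ((K : ℝ) + 2)]
    refine mul_le_mul_of_nonneg_left ?_ (by positivity)
    have p1 : 0 ≤ S.C ^ 17 * w := by positivity
    have p2 : 0 ≤ S.C ^ 17 * (κ * w) := by positivity
    linarith only [a1, a3, a4, a5, a6, a7, p1, p2, mul_nonneg K0 p1, mul_nonneg K0 p2]
  have k2 : (1 : ℝ) ≤ (K + 2) ^ 2 := one_le_pow₀ (by linarith)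
  refine vn.trans ?_
  rw [show (2 / (σ * M.z j) + 2 / M.z j ^ 2) * (κ * S.v) + 2 * (aG σ K d 1 (κ * S.v) / M.z j) =
    1 / M.z j * (2 * κ * r + 2 * (1 / M.z j) * (κ * S.v) + 2 * aG σ K d 1 (κ * S.v)) by
      rw [hr']; field_simp]
  have b1 := mul_le_mul_of_nonneg_left hr (by positivity : 0 ≤ 2 * κ)
  have b2 := mul_le_mul zi (mul_le_mul_of_nonneg_left vw k0) (by positivity) (by positivity)
  have b3 := mul_le_mul_of_nonneg_right c17 (by positivity : 0 ≤ κ * w)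
  have b4 := mul_le_mul_of_nonneg_right (pow_le_pow_right₀ C1 (show 5 ≤ 17 by norm_num))
    (by positivity : 0 ≤ κ * w)
  have b5 := le_mul_of_one_le_left (by positivity : 0 ≤ S.C ^ 17 * ((1 + κ) * w)) k2
  have p1 : 0 ≤ S.C ^ 17 * w := by positivity
  have b6 : 2 * κ * r + 2 * (1 / M.z j) * (κ * S.v) + 2 * aG σ K d 1 (κ * S.v) ≤
      (K + 2) ^ 2 * (2 ^ 25 * S.C ^ 17 * ((1 + κ) * w)) := by
    linarith only [ag, b1, b2, b3, b4, b5, p1, (by positivity : 0 ≤ S.C ^ 17 * (κ * w))]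
  have a0 : 0 ≤ aG σ K d 1 (κ * S.v) := by unfold aG; positivity
  refine (mul_le_mul zi b6 (by positivity) (by positivity)).trans ?_
  have := mul_le_mul_of_nonneg_right (c 22 (by norm_num))
    (by positivity : 0 ≤ (K + 2) ^ 2 * ((1 + κ) * w))
  have p3 : 0 ≤ S.C ^ 24 * ((K + 2) ^ 2 * ((1 + κ) * w)) := by positivity
  unfold DW
  linarith only [this, p3]

theorem vvn_le : VVn M m a j ≤ DW S.C * (K + 2) ^ 2 * S.w3 1 +
    DW S.C * ∑ k ∈ Ico S.J j, M.dz m a k * u4 M m a k ^ 2 := by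
  have F := B.toFn
  have G := F.lg
  have C1 := F.C1; have C0 := F.C0; have v0 := F.v0
  have i0 := F.i0; have i1 := F.i1; have i4 := F.i4; have lo := P.lo; have hi := P.hi
  have hu := mj_u4 (M := M) (a := a) G.m0
  have U : ∀ k ∈ Ico S.J j, U2 M m a k ≤ u4 M m a k ^ 2 := fun k hk =>
    U2_le hu (by have := (mem_Ico.1 hk).2; omega)
  set Y := ∑ k ∈ Ico S.J j, M.dz m a k * u4 M m a k ^ 2
  have Y0 : 0 ≤ Y := sum_nonneg fun k _ => mul_nonneg (G.dz_nonneg k) (sq_nonneg _)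
  have h := VVn_core F kb (j := j) (j' := S.J) (by omega) le_rfl lo hi.le (TP := Y) (AP := Y)
    (sum_le_sum fun k hk => mul_le_mul_of_nonneg_left (by
      linarith [U k hk, Vn_le (M := M) (a := a) G.m0 k, Vn_eq (M := M) (m := m) (a := a) k,
        vM_nn (M := M) (m := m) (a := a) k]) (G.dz_nonneg k))
    (sum_le_sum fun k hk => mul_le_mul_of_nonneg_left (by
      linarith [U k hk, aM_le_U2 G k, Cost41.aM_nonneg G k]) (G.dz_nonneg k))
  have z1 := (z_top F (i := S.J / 4) (by omega) (by omega) (by omega)).1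
  have z0 := F.z_pos (S.J / 4)
  have g1 := gg_top F (i := S.J / 4) (by omega) (by omega) (by omega)
  have g0 := gg_pos F (F.s_nonneg (S.J / 4))
  have vw := (le_mul_of_one_le_left v0.le C1).trans (B.v_gg zero_le_one)
  rw [Sz9.N49.w3_eq F one_pos, one_mul] at g1 vw
  have w0 := F.w3_pos one_pos
  have c8 : 1 ≤ S.C ^ 8 := one_le_pow₀ C1
  have a1 : (gg S (M.s (S.J / 4)) * M.rb m a j + S.v) / M.z (S.J / 4) ^ 2 ≤
      2304 * S.C ^ 10 * (2305 * S.C ^ 8 * S.w3 1) := by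
    have := mul_le_of_le_one_right g0.le (rb_le_one (M := M) (a := a) G.m0 j)
    have z2 := pow_le_pow_left₀ zero_le_one z1 2
    rw [div_le_iff₀ (by positivity)]
    have := mul_le_mul_of_nonneg_left z2 (by positivity : 0 ≤ 2305 * S.C ^ 8 * S.w3 1)
    have := mul_le_mul_of_nonneg_right c8 w0.le
    linarith
  have a2 : Y / M.z (S.J / 4) ≤ 48 * S.C ^ 5 * Y := by
    rw [div_le_iff₀ z0]
    linarith [mul_le_mul_of_nonneg_left z1 Y0]
  have c : ∀ i ≤ 24, S.C ^ i ≤ S.C ^ 24 := fun i h => pow_le_pow_right₀ C1 h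
  have a3 := mul_le_mul_of_nonneg_left a1 (by positivity : 0 ≤ 5 * S.C ^ 5 * ((K : ℝ) + 2) ^ 2)
  have a4 := mul_le_mul_of_nonneg_right (c 23 (by norm_num))
    (by positivity : 0 ≤ ((K : ℝ) + 2) ^ 2 * S.w3 1)
  have a5 := mul_le_mul_of_nonneg_right (c 3 (by norm_num)) Y0
  have a6 := mul_le_mul_of_nonneg_right (c 5 (by norm_num)) Y0
  have p1 : 0 ≤ S.C ^ 24 * (((K : ℝ) + 2) ^ 2 * S.w3 1) := by positivity
  have p2 : 0 ≤ S.C ^ 24 * Y := by positivity
  unfold DW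
  linarith only [h, a2, a3, a4, a5, a6, p1, p2]

omit kb hJ P in
theorem mesh (hn : 2600 * S.C ^ 2 ≤ S.n) : S.C * S.v ≤ S.n * (S.C * S.v) ∧
    2600 * (S.n * (S.C * S.v)) ≤ M.z 0 ∧ S.n * (S.C * S.v) ≤ 1 / S.n := by
  have n1 := B.n1
  have C0 := B.C0
  have v0 := B.v0
  have a1 := (mul_le_mul_of_nonneg_left (pow_le_pow_right₀ n1 B.A3) v0.le).trans B.v2
  have a2 : 2600 * (S.n * (S.C * S.v)) ≤ 1 / S.n := by
    rw [le_div_iff₀ (by positivity)]
    refine le_of_mul_le_mul_right ?_ (show (0 : ℝ) < S.n by positivity)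
    linarith [mul_le_mul_of_nonneg_left a1 (show 0 ≤ 2600 * S.C by positivity)]
  refine ⟨le_mul_of_one_le_left (by positivity) n1, a2.trans ?_, le_trans ?_ a2⟩
  · rw [div_le_iff₀' (by positivity)]; exact B.z0'
  · exact le_mul_of_one_le_left (by positivity) (by norm_num)

theorem nd_le (hn : 2600 * S.C ^ 2 ≤ S.n) {v : ℕ} {G ev N2 : ℝ} (hv : v ≤ S.J)
    (V : SV S M m a v G ev) (hN : Nu M m a (u4 M m a) 2 ≤ N2) :
    Tn S M m a (u4 M m a) (S.n * (S.C * S.v)) j (5200 * G) ∧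
    en M m a (u4 M m a) (S.n * (S.C * S.v)) (n3 true M m a (u4 M m a) (S.n * (S.C * S.v)) j)
      (5200 * G) j ≤ 4 * DW S.C * (K + 2) ^ 2 * ep S M m a G ev N2 j κ up := by
  have F := B.toFn
  have L := F.lg
  have C1 := F.C1; have C0 := F.C0; have v0 := F.v0; have n1 := F.n1
  have i0 := F.i0; have i1 := F.i1; have i2 := F.i2; have i4 := F.i4
  have lo := P.lo; have hi := P.hi
  obtain ⟨m1, m2, m3⟩ := mesh B hn
  have h0 : 0 < S.C * S.v := by positivity
  have hu := mj_u4 (M := M) (a := a) L.m0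
  refine ⟨⟨by omega, hi.le, ?_, gm_ms L h0 (h0.trans_le m1) m2 (hv.trans lo) (by omega) V.tn.gm⟩, ?_⟩
  · have := (F.plat j lo hi).2
    rw [← dz_up (m := m) (a := a) F.leg (by omega)] at this
    have a1 := mul_le_mul_of_nonneg_left P.den (L.dz_nonneg j)
    linarith [mul_le_mul_of_nonneg_left this (zero_le_one.trans n1)]
  have G0 := V.tn.gm.1
  have u0 := hu.u0 j
  have uv := (hu.u0 v).1
  have up0 := u0.1.trans P.u
  have k0 := κ0 B kb hJ P
  have w0 := F.w3_pos one_pos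
  have r4 : r2 M m a j ≤ 4 := (r2_le_u L.m0 hu (by omega)).trans (by nlinarith)
  have a1 := mul_le_mul_of_nonneg_left r4 (show 0 ≤ 15360 * (S.n * (S.C * S.v)) by positivity)
  have a2 := (mul_le_mul_of_nonneg_right (pb_le (ms := S.n * (S.C * S.v)) L j)
    (Vn_nn (M := M) (m := m) (a := a) j)).trans
      (mul_le_mul_of_nonneg_left (vn_le B kb hJ P) (by norm_num))
  have a3 := n3_ms L hu h0 m2 (hv.trans lo)
  have a4 := vvn_le B kb hJ P
  have a5 := pow_le_pow_left₀ u0.1 P.u 3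
  have a6 := mul_le_mul_of_nonneg_left P.u G0
  have N1 := Nu_nn L hu 1
  have N2' := Nu_nn L hu 2
  have a7 : u4 M m a j * (Nu M m a (u4 M m a) 2 + Nu M m a (u4 M m a) 1 ^ 2) ≤ up * (2 * N2) :=
    mul_le_mul P.u (by linarith [Nu_one_sq (u := u4 M m a) L]) (by positivity) up0
  have e := V.en
  have p1 : 0 ≤ S.C * S.v * r2 M m a v := mul_nonneg h0.le (r2_nn v)
  have p2 := mul_nonneg (pb_nn L h0 v) (Vn_nn (M := M) (m := m) (a := a) v)
  have p3 := E61.VVn_nn L v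
  have p4 := pow_nonneg uv 3
  have p5 := n3_nn L hu h0 v
  have p6 := mul_nonneg uv (add_nonneg N2' (sq_nonneg (Nu M m a (u4 M m a) 1)))
  have p7 := Nu_nn L hu 4
  have p8 := mul_nonneg G0 uv
  have p9 := mul_nonneg G0 N1
  have p10 := mul_nonneg N1 (add_nonneg N2' (sq_nonneg (Nu M m a (u4 M m a) 1)))
  unfold en at e ⊢
  set Y := ∑ k ∈ Ico S.J j, M.dz m a k * u4 M m a k ^ 2 with hY
  have Y0 : 0 ≤ Y := sum_nonneg fun k _ => mul_nonneg (L.dz_nonneg k) (sq_nonneg _)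
  have D1 : 2 ^ 40 ≤ DW S.C := le_mul_of_one_le_right (by norm_num) (one_le_pow₀ C1)
  have k2 : (1 : ℝ) ≤ (K + 2) ^ 2 := one_le_pow₀ (by linarith [Nat.cast_nonneg (α := ℝ) K])
  have D2 : DW S.C ≤ DW S.C * (K + 2) ^ 2 := le_mul_of_one_le_right (by linarith) k2
  set D := DW S.C * (K + 2) ^ 2
  have ev0 : 0 ≤ ev := by linarith
  have q0 : 0 ≤ ev + (G + N2) * up + up ^ 3 + 1 / S.n := by
    have := N2'.trans hN
    positivity
  have q1 := mul_le_mul_of_nonneg_right (D1.trans D2) q0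
  have q2 := mul_le_mul_of_nonneg_right D2 Y0
  have q3 : 0 ≤ D * (κ * S.w3 1) := mul_nonneg (by linarith) (by positivity)
  have q4 : 0 ≤ D * Y := mul_nonneg (by linarith) Y0
  have q5 := mul_nonneg G0 up0
  have q6 := mul_nonneg (N2'.trans hN) up0
  have q7 := pow_nonneg up0 3
  have q8 : (0 : ℝ) ≤ 1 / S.n := by positivity
  rw [ep, ← hY, mul_assoc 4]
  linarith

end big

theorem ndP : NdP := by
  intro C
  obtain ⟨C', C0', h⟩ := e1C2 true C
  filter_upwards [eventually_ge_atTop 3] with A hA ε _ η hη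
  filter_upwards [ev_big C ((1 + C') * (2 ^ 20 * DW C + (1 + 2 * C))) hA hη,
    tendsto_natCast_atTop_atTop.eventually_ge_atTop (2600 * C ^ 2)]
    with n hK hn S M b1 b2 b3 hc m a I hH hF hJ v G ev N2 hv V hN
  obtain ⟨K, hK, B⟩ := hK
  replace B := B S M b1 b2 b3 hc m a I
  subst b1 b3
  have kb := B.kb hF hH
  have L := B.toFn.lg
  have C1 := B.C1
  have i4 := B.i4
  have n1 := B.n1
  obtain ⟨m1, m2, m3⟩ := mesh B hn
  have h0 : 0 < S.C * S.v := mul_pos B.C0 B.v0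
  have hu := mj_u4 (M := M) (a := a) L.m0
  have K0 : (0 : ℝ) ≤ K := Nat.cast_nonneg K
  have D1 : 2 ^ 40 ≤ DW S.C := le_mul_of_one_le_right (by norm_num) (one_le_pow₀ C1)
  have k2 : (1 : ℝ) ≤ (K + 2) ^ 2 := one_le_pow₀ (by linarith)
  have k4 : ((K : ℝ) + 2) ^ 2 ≤ (K + 2) ^ 4 := pow_le_pow_right₀ (by linarith) (by norm_num)
  set D := (2 ^ 20 * DW S.C + (1 + 2 * S.C)) * ((K : ℝ) + 2) ^ 4 with hD
  have d1 : 2 ^ 20 * (DW S.C * (K + 2) ^ 2) + (1 + 2 * S.C) ≤ D := by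
    have := mul_le_mul_of_nonneg_left k4 (show 0 ≤ DW S.C by linarith)
    have := le_mul_of_one_le_right (show 0 ≤ 1 + 2 * S.C by linarith) (k2.trans k4)
    linarith
  have d0 : 1 ≤ DW S.C * (K + 2) ^ 2 := one_le_mul_of_one_le_of_one_le (by linarith) k2
  rw [mul_assoc, ← hD] at hK
  have Λ1 : D ≤ (S.n : ℝ) ^ η := le_trans (le_mul_of_one_le_left (by linarith) (by linarith)) hK
  have Λ2 : C' * D ≤ (S.n : ℝ) ^ η :=
    le_trans (mul_le_mul_of_nonneg_right (by linarith) (by linarith)) hK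
  have N0 := (Nu_nn L hu 2).trans hN
  have e0 : ∀ {j κ up}, PG S M m a j κ up → 1 / S.n ≤ ep S M m a G ev N2 j κ up := by
    intro j κ up P
    have := κ0 B kb hJ P
    have := (hu.u0 j).1.trans P.u
    have := V.tn.gm.1
    have := B.w3_pos one_pos
    have : 0 ≤ ∑ k ∈ Ico S.J j, M.dz m a k * u4 M m a k ^ 2 :=
      sum_nonneg fun k _ => mul_nonneg (L.dz_nonneg k) (sq_nonneg _)
    have := V.nn L h0
    exact le_add_of_nonneg_left (by positivity)
  have n0 : (0 : ℝ) < 1 / S.n := by positivity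
  have rg : ∀ {T k x}, k ≤ S.Jp → u4 M m a k ≤ x →
      4 * r2 M m a k * gd S M m a T k ≤ D * (x ^ 2 * gd S M m a T k) := by
    intro T k x hk hx
    have a1 := (r2_le_u L.m0 hu (hk.trans_lt i4)).trans (pow_le_pow_left₀ (hu.u0 k).1 hx 2)
    rw [← mul_assoc]
    exact mul_le_mul_of_nonneg_right (mul_le_mul (by linarith) a1 (r2_nn k) (by linarith))
      (abs_nonneg _)
  have cl : ∀ {T i j}, At S M m a T → i < j →
      (1 + 2 * S.C) * Nu M m a (u4 M m a) 2 * (sb M m a (j + 1) - sb M m a (i + 1)) +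
        ∑ k ∈ Ioo i j, M.dz m a k * u4 M m a k ^ 2 ≤ D * ck M m a N2 i j := by
    intro T i j A hij
    have a1 := sub_nonneg.2 (A.sb_mono (Nat.succ_le_succ hij.le))
    have a2 : 0 ≤ ∑ k ∈ Ioo i j, M.dz m a k * u4 M m a k ^ 2 :=
      sum_nonneg fun k _ => mul_nonneg (L.dz_nonneg k) (sq_nonneg _)
    rw [ck, mul_add, ← mul_assoc]
    exact add_le_add (mul_le_mul_of_nonneg_right (mul_le_mul (by linarith) hN (Nu_nn L hu 2)
      (by linarith)) a1) (le_mul_of_one_le_left a2 (by linarith))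
  have nd : ∀ {j κ up} (P : PG S M m a j κ up) {x : ℝ}, 4 * (DW S.C * (K + 2) ^ 2) ≤ x →
      en M m a (u4 M m a) (S.n * (S.C * S.v)) (n3 true M m a (u4 M m a) (S.n * (S.C * S.v)) j)
        (5200 * G) j ≤ x * ep S M m a G ev N2 j κ up := fun P x hx =>
    (nd_le B kb hJ P hn hv V hN).2.trans
      (mul_le_mul_of_nonneg_right (by linarith) (n0.le.trans (e0 P)))
  have fin : ∀ {x y : ℝ}, 0 ≤ y → x ≤ D * y → C' * x ≤ (S.n : ℝ) ^ η * y := fun y0 h =>
    (mul_le_mul_of_nonneg_left h C0').trans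
      (by rw [← mul_assoc]; exact mul_le_mul_of_nonneg_right Λ2 y0)
  have ck0 : ∀ {T i j}, At S M m a T → i < j → 0 ≤ ck M m a N2 i j := fun A hij =>
    add_nonneg (mul_nonneg N0 (sub_nonneg.2 (A.sb_mono (Nat.succ_le_succ hij.le))))
      (sum_nonneg fun k _ => mul_nonneg (L.dz_nonneg k) (sq_nonneg _))
  refine ⟨fun j κ up P => ⟨(nd_le B kb hJ P hn hv V hN).1, nd P (by linarith)⟩,
    fun T A i G' ev' j κ up V' P hij => ?_, fun T A i κ' up' j κ up P' P hij => ?_⟩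
  · have a1 := (h S M m a T _ _ A B.b1 hu (h0.trans_le m1) i _
      (tn_ms L h0 m1 m2 i4.le V'.tn)).2 j _ (nd_le B kb hJ P hn hv V hN).1 hij
    have a2 := en_ms L hu h0 (h0.le.trans m1) m2 (V'.tn.hi.trans_lt i4) G' V'.tn.gm.1
    have a3 := V'.en
    have a4 := nd P (x := D - 61441) (by linarith)
    have a5 := e0 P
    have a6 := rg (T := T) V'.tn.hi le_rfl
    have a7 := rg (T := T) P.hi.le P.u
    have a8 := cl A hij
    have ev0 := V'.nn L h0
    have a9 := mul_le_mul_of_nonneg_right (show 5200 ≤ D by linarith) ev0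
    have := ck0 A hij
    refine a1.trans (fin (by have := n0.le.trans a5; positivity) ?_)
    linarith
  · have a1 := (h S M m a T _ _ A B.b1 hu (h0.trans_le m1) i _
      (nd_le B kb hJ P' hn hv V hN).1).2 j _ (nd_le B kb hJ P hn hv V hN).1 hij
    have a4 := nd P (x := D) (by linarith)
    have a4' := nd P' (x := D) (by linarith)
    have a6 := rg (T := T) P'.hi.le P'.u
    have a7 := rg (T := T) P.hi.le P.u
    have a8 := cl A hij
    have := ck0 A hij
    have := n0.le.trans (e0 P)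
    have := n0.le.trans (e0 P')
    refine a1.trans (fin (by positivity) ?_)
    linarith

end Crest.Agent.T156.Alt.Nd33

end
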