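import Crest.Agent.T156.TxX_84
import Crest.Agent.T156.TxV3_83
import Crest.Agent.T156.TopN_61

/-!
# Row 156, block (L): the nodes below the corner (helper83)
-/

set_option autoImplicit false

noncomputable section

namespace Crest.Agent.T156.Alt.X84

open Real
open Crest.Agent.T156.Alt.Mp9 Crest.Agent.T156.Alt.L69 Crest.Agent.T156.Alt.L31
open Crest.Agent.T156.Alt.Ve83

variable {E : ℝ} {S : Sc} {M : Md} {m : ℕ} {a : ℝ} {c : Dt}

namespace Cy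

variable (Y : Cy E S M m a c)
include Y

/-- the context of the corner nodes at `t = τ + γ` -/
theorem ck83 : Tx61.Ck c.D E c.Λ0 c.L (psi S) S M m a (2 * S.C) c.p.G1 c.p.l0 c.p.l c.p.V c.p.X
    c.p.Lg c.p.X2 c.p.X3 c.p.G0 c.W3 c.p.η c.p.Xp c.p.Vt c.p.Lp c.p.u1 c.p.u2 c.p.j c.p.γ c.p.Lc
    c.p.ηc c.p.τ c.p.N' (c.p.τ + c.p.γ) :=
  ⟨Y.cw.cc Y.hx, Y.hx.lp, Y.hx.ap.top, le_rfl, by
    linarith [Y.hx.lp.j1, Y.hx.lp.γ1, mul_nonneg (zero_le_one.trans Y.cw.Z.E1) Y.cw.j0]⟩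

theorem K83 : 1 ≤ c.K ∧ c.K ^ 3 ≤ E ∧ S.F ^ 3 ≤ E :=
  have k := Y.hx.l1.trans Y.lK
  ⟨k, (pow_le_pow_right₀ k (by norm_num)).trans Y.KE,
    (pow_le_pow_right₀ Y.tw.at'.cl.F1 (by norm_num)).trans Y.hx.F40⟩

theorem DF83 : c.D ^ 250 * S.F ^ 20 ≤ E := by
  refine le_of_pow_le_pow_left₀ (n := 2) (by norm_num) (zero_le_one.trans Y.cw.Z.E1) ?_
  rw [mul_pow, ← pow_mul, ← pow_mul, sq]
  have := Y.tw.at'.cl.F1
  exact mul_le_mul Y.cw.DE Y.hx.F40 (by positivity) (zero_le_one.trans Y.cw.Z.E1)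

/-- the unit of the margins -/
theorem tc83 : 0 < tc S c ∧ c.p.τ + c.p.γ ≤ tc S c ∧ S.v ≤ tc S c ∧
    c.D ^ 250 * S.F ^ 19 * tc S c ≤ 2 := by
  have F1 := Y.tw.at'.cl.F1
  have t0 : 0 < c.p.τ + c.p.γ := by linarith [Y.tw.τ0, Y.tw.γ0]
  have a1 : c.p.τ + c.p.γ ≤ tc S c := le_mul_of_one_le_left t0.le F1
  refine ⟨t0.trans_le a1, a1, by linarith [Y.ck83.vτ, Y.tw.γ0], ?_⟩
  have a2 := mul_le_mul_of_nonneg_right Y.DF83 t0.le
  unfold tc
  linarith [Y.hx.lp.j1, Y.hx.lp.γ1, mul_nonneg (zero_le_one.trans Y.cw.Z.E1) Y.cw.j0]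

theorem tc50 : c.D ^ 250 * tc S c ≤ 2 := by
  obtain ⟨u0, -, -, u3⟩ := Y.tc83
  have D4 := Y.cw.Z.D4
  refine le_trans ?_ u3
  gcongr
  exact le_mul_of_one_le_right (by positivity) (one_le_pow₀ Y.tw.at'.cl.F1)

theorem nodes83 : ∃ v v1 v2, Nd S M m a c v v1 v2 := by
  have K := Y.ck83
  have H := K.H
  have W := Y.tw
  have h := W.at'.cl
  have C0 := h.C0
  have F1 := h.F1
  have v0 := h.v0
  have E1 := H.Z.E1
  have D4 := H.Z.D4
  have t0 := W.t0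
  obtain ⟨K1, KE, FE⟩ := Y.K83
  obtain ⟨u0, u1, u2, -⟩ := Y.tc83
  have u3 := Y.tc50
  have pw : ∀ i : ℕ, 10000 * (c.D ^ i * tc S c) ≤ c.D ^ (i + 1) * tc S c := fun i => by
    linarith [mul_le_mul_of_nonneg_right D4 (show 0 ≤ c.D ^ i * tc S c by positivity), pow_succ c.D i,
      show c.D ^ (i + 1) * tc S c = c.D * (c.D ^ i * tc S c) by ring]
  have up : ∀ {i k : ℕ}, i ≤ k → c.D ^ i * tc S c ≤ c.D ^ k * tc S c := fun e =>
    mul_le_mul_of_nonneg_right (H.Z.Dp e) u0.le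
  have p41 : 10000 * (c.D ^ 41 * tc S c) ≤ c.D ^ 42 * tc S c := pw 41
  have p42 : 10000 * (c.D ^ 42 * tc S c) ≤ c.D ^ 43 * tc S c := pw 42
  have p43 : 10000 * (c.D ^ 43 * tc S c) ≤ c.D ^ 44 * tc S c := pw 43
  have p44 : 10000 * (c.D ^ 44 * tc S c) ≤ c.D ^ 45 * tc S c := pw 44
  have p45 : 10000 * (c.D ^ 45 * tc S c) ≤ c.D ^ 46 * tc S c := pw 45
  have p46 : 10000 * (c.D ^ 46 * tc S c) ≤ c.D ^ 47 * tc S c := pw 46
  have p47 : 10000 * (c.D ^ 47 * tc S c) ≤ c.D ^ 48 * tc S c := pw 47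
  have p48 : c.D ^ 48 * tc S c ≤ 2 := (up (by norm_num)).trans u3
  have p1 : c.D * (c.p.τ + c.p.γ) ≤ c.D ^ 41 * tc S c :=
    (mul_le_mul_of_nonneg_left u1 (by linarith)).trans (by simpa using up (show 1 ≤ 41 by norm_num))
  have p0 : 0 < c.D ^ 41 * tc S c := by positivity
  have μ0 : 0 ≤ c.D ^ 45 * tc S c := by positivity
  obtain ⟨v, V, ve⟩ := ve3_of W H K1 KE FE Y.ng μ0 (by
    have := mul_le_mul_of_nonneg_right (H.Z.Cp (k := 5) (by norm_num)) μ0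
    linarith [show 0 ≤ S.C ^ 5 * (c.D ^ 45 * tc S c) by positivity])
  obtain ⟨vJ, -, jv, -, nr, -⟩ := near3 W H K1 KE Y.ng V
  obtain ⟨v1, -, -, g1, -, a1, a2⟩ := K.win (x := M.z (S.J - 1) - c.D ^ 44 * tc S c)
    (by linarith) (by linarith)
  obtain ⟨v2, -, -, g2, mg, b1, b2⟩ := K.win (x := M.z (S.J - 1) - c.D ^ 42 * tc S c)
    (by linarith) (by linarith)
  obtain ⟨d0, d1⟩ := DD_le (Q := c.D ^ 3) h (one_le_pow₀ (by linarith))
    (by rw [← pow_mul]; exact H.Z.DpE (by norm_num)) Y.hx.lp Y.hx.ap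
  have k1 := mul_le_mul_of_nonneg_right Y.KD t0
  refine ⟨v, v1, v2, ve, V, ?_, ?_, jv, (h.leg.zm.reflect_lt (by linarith [V.mu])).le,
    h.leg.zm.reflect_lt (by linarith), g1, g2, mg, a1.le, by linarith, by linarith⟩
  · have b2 : 8 * (c.D ^ 3 * t1 S c.p) ≤ 1 := by
      refine le_of_mul_le_mul_left ?_ (show 0 < E by linarith)
      have c1 := mul_le_mul_of_nonneg_left W.t1 (show 0 ≤ c.D ^ 3 by positivity)
      have c2 := mul_le_mul_of_nonneg_right D4 (show 0 ≤ c.D ^ 3 * S.F by positivity)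
      have c3 : c.D ^ 4 * S.F ≤ c.D ^ 250 * S.F ^ 20 :=
        mul_le_mul (H.Z.Dp (by norm_num)) (le_self_pow₀ F1 (by norm_num)) (by linarith)
          (by positivity)
      linarith [Y.DF83, show 0 ≤ c.D ^ 3 * S.F by positivity]
    have b3 : 8 * (c.D ^ 2 * (S.C * S.v)) ≤ 1 := by
      have c1 : (S.n : ℝ) ≤ (S.n : ℝ) ^ 2 := le_self_pow₀ (by exact_mod_cast h.n1) two_ne_zero
      have c2 : 8 * c.D ^ 2 ≤ (S.n : ℝ) ^ 2 := by
        linarith [H.Z.DpE (i := 3) (by norm_num), H.Z.En, sq_nonneg c.D,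
          mul_le_mul_of_nonneg_right D4 (sq_nonneg c.D)]
      linarith [mul_le_mul_of_nonneg_left c2 (mul_pos C0 v0).le, H.Z.hv]
    have b4 : 16 * (c.D ^ 2 * (S.C ^ 2 * DD S M c.p.Xp c.p.γ)) ≤ 1 := by
      refine le_of_mul_le_mul_left ?_ (show 0 < c.D by linarith)
      linarith [mul_le_mul_of_nonneg_left d1 (show 0 ≤ 16 * S.C ^ 2 by positivity),
        H.Z.Cp (k := 5) (by norm_num), pow_pos C0 5]
    linarith [mul_le_mul_of_nonneg_left nr (sq_nonneg c.D),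
      mul_le_mul_of_nonneg_left k1 (sq_nonneg c.D)]
  · have c1 : 2 * c.D ≤ c.D ^ 46 := by nlinarith [H.Z.Dp (show 2 ≤ 46 by norm_num)]
    have c2 := mul_le_mul_of_nonneg_right c1 t0
    have c3 := mul_le_mul_of_nonneg_right c1 d0
    have c4 := mul_le_mul_of_nonneg_right (H.Z.Cp (k := 2) (by norm_num)) d0
    have c5 := mul_le_mul (H.Z.Cp (k := 1) (by norm_num)) u2 v0.le (by linarith)
    have c6 : c.D ^ 1 * tc S c ≤ c.D ^ 41 * tc S c := up (by norm_num)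
    linarith [show 0 ≤ S.C ^ 2 * DD S M c.p.Xp c.p.γ by positivity, mul_pos C0 v0,
      show 0 ≤ c.D * DD S M c.p.Xp c.p.γ by positivity]

end Cy

/-- a leaf that holds pointwise -/
theorem LF.of83 {P : ℝ → Sc → Md → ℕ → ℝ → Dt → Prop}
    (h : ∀ E S M m a c, Cy E S M m a c → P E S M m a c) : LF P := by
  unfold LF
  exact CL.triv.mono fun _ _ _ _ _ _ _ _ _ _ _ _ Y _ => h _ _ _ _ _ _ Y

theorem txA : TxA := LF.of83 fun _ _ _ _ _ _ Y => Y.nodes83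

end Crest.Agent.T156.Alt.X84

end
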