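import Crest.Agent.T156.TxCx_5

/-!
# Row 156, block (L) (helper5): the leaf `TxC`
-/

set_option autoImplicit false
set_option maxRecDepth 8000

noncomputable section

namespace Crest.Agent.T156.Alt.X84

open Real Finset
open Crest.Agent.T156.Alt.Mp9 Crest.Agent.T156.Alt.L69 Crest.Agent.T156.Alt.L31
open Crest.Agent.T156.Alt.Nd33 Crest.Agent.T156.Alt.E61 Crest.Agent.T156.Alt.Md67

variable {E W W' : ℝ} {S : Sc} {M : Md} {m : ℕ} {a T : ℝ}

theorem pv_up5 {Xp γ V Lp Lg G ev N2 g x u : ℝ} {vc v0 : ℕ}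
    (P : PV W S M m a T Xp γ V Lp Lg G ev N2 g x u vc v0) (e : W ≤ W') :
    PV W' S M m a T Xp γ V Lp Lg G ev N2 g x u vc v0 := by
  have R := P.rn
  have h := R.A.cl
  have L := lg R.A
  have W0 : 0 < W := by linarith [R.W1]
  have L0 : 0 < Lp := by linarith [R.Lp.1]
  have C0 := h.C0
  have v0 := h.v0
  have n0 := h.N0
  refine ⟨⟨R.A, R.W1.trans e, R.θ1, R.u0, R.γ0, R.V0, R.Lp, R.Lg1, ⟨fun j κ up b => ?_,
    fun T A i G' ev' j κ up b1 b2 b3 => up65 W0 e (abs_nonneg _) (R.po.dv T A i G' ev' j κ up b1 b2 b3),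
    fun T A i κ' up' j κ up b1 b2 b3 =>
      up65 W0 e (abs_nonneg _) (R.po.dp T A i κ' up' j κ up b1 b2 b3)⟩, R.G0, R.vJ, R.sv⟩,
    fun k b1 b2 b3 => ?_, P.vt, P.r0, P.g2⟩
  · refine ⟨(R.po.nd j κ up b).1, up65 W0 e ?_ (R.po.nd j κ up b).2⟩
    have hu := mj_u4 (M := M) (a := a) L.m0
    have h0 : 0 < S.n * (S.C * S.v) := by positivity
    have := r2_nn (M := M) (m := m) (a := a) j
    have := pb_nn L h0 j
    have := Vn_nn (M := M) (m := m) (a := a) j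
    have := E61.VVn_nn L j
    have := E61.n3_nn true L hu h0 j
    have := (hu.u0 j).1
    have := Nu_nn L hu 1
    have := Nu_nn L hu 2
    have := Nu_nn L hu 4
    have := R.G0.1
    unfold E61.en
    positivity
  · obtain ⟨i, c1, c2, c3, c4, c5⟩ := P.ex k b1 b2 b3
    refine ⟨i, c1, c2, c3, c4, PG.mono c5 v0.le ?_ (mul_le_mul_of_nonneg_right e
      (mul_nonneg (by positivity) (ap_nn h i)))⟩
    have a1 := (abs_nonneg _).trans (c5.cone (i + 1) (by have := c5.lo; omega) le_rfl)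
    rw [show ((i + 1 : ℕ) : ℝ) - i = 1 by push_cast; ring, abs_one, mul_one] at a1
    have a2 := nonneg_of_mul_nonneg_right (nonneg_of_mul_nonneg_left a1 v0) (mul_pos W0 L0)
    exact mul_le_mul_of_nonneg_right (mul_le_mul_of_nonneg_right e L0.le) a2

/-- **(TxC)** -/
theorem txC5 : TxC := by
  unfold TxC LF
  refine pwS.mono fun E Λ S M m a _ _ h _ P c Y hΛ v v1 v2 N => ?_
  obtain ⟨l0, -, -⟩ := N.ell5 Y
  have D4 := Y.cw.Z.D4
  have v0 := h.v0
  have vv : v ≤ v2 := N.o1.trans N.o2.le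
  have m1 := N.mg.1
  have L1 := (Y.cw.cc Y.hx).L1
  have z0 : 0 ≤ M.z (S.J - 1) - M.z v := sub_nonneg.2 (h.leg.zm (by omega))
  have lo : G89.Lo S M v := (Y.cw.cc Y.hx).lo_of (h.i1.trans N.jv.le) (by omega)
    ((mul_le_mul_of_nonneg_right (le_self_pow₀ (by linarith) two_ne_zero) z0).trans N.near)
  have mg : G89.Mg S c.p.Lc v := ⟨by omega, N.mg.2.trans (by
    have : (v : ℝ) ≤ v2 := by exact_mod_cast vv
    gcongr)⟩
  have s := N.xa5 Y
  have d0 : 0 ≤ M.s S.J - sb M m a (v + 1) := sub_nonneg.2 N.v2e.t2.le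
  have B := Y.at5
  have x0 : 0 ≤ xa S M c.p (((S.J : ℝ) - v) * S.v) (M.s S.J - sb M m a (v + 1)) := by
    have : 0 ≤ c.p.ηc := le_trans (by positivity) B.a7.2
    have := B.η0
    have := B.γ0.1
    have := B.X0.1
    have := Y.hx.lc.v2.1
    have : 0 ≤ Np M S c.p.Xp c.p.Vt c.p.γ c.p.u1 c.p.Lp 2 := by
      have p := P c.p c.lam Y.hx
      exact (mul_nonneg_iff_of_pos_left (by linarith [p.Λ1])).1 (le_trans (sum_nonneg fun k _ =>
        mul_nonneg ((lg Y.cw.Z.A).dz_nonneg k) (sq_nonneg _)) p.ss)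
    unfold xa
    positivity
  obtain ⟨G, ev, g, -, b2, b3⟩ := pv_of (v0 := v) Y.cw Y.hx (P c.p c.lam Y.hx) hΛ lo N.v2e.g2 mg
    le_rfl d0 le_rfl (by
      rw [sub_self, abs_zero]
      have := h.F1
      positivity) le_rfl
  exact ⟨G, ev, _, g, _, v, b2, s, pv_up5 b3 hΛ⟩

end Crest.Agent.T156.Alt.X84

end
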