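import Crest.Agent.T156.PlatY_48
import Crest.Agent.T156.LDefX_64
import Crest.Agent.T156.Lag_8

/-!
Row 156, text (L) (helper48): the numbers of the top part of the plateau from `LP`.
-/

set_option autoImplicit false

noncomputable section

namespace Crest.Agent.T156.Pr.Reg48

theorem Sm.conv {θ e c N ρ K a : ℝ} (h : Sm θ 1 N ρ K) (N0 : 0 ≤ N) (h1 : θ ≤ a * e)
    (h2 : 1 ≤ c * a ^ 2) : Sm e c (a * N) ρ K :=
  h.imp_right fun h => h.imp (fun h => by nlinarith [mul_le_mul_of_nonneg_right h1 N0])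
    fun h => by nlinarith [mul_le_mul_of_nonneg_right h2 (sq_nonneg N)]

theorem Sm.wt {e c N ρ ρ' K a : ℝ} (h : Sm e c N ρ K) (a0 : 0 ≤ a) (ρ0 : 0 ≤ ρ')
    (h1 : ρ' ≤ a * ρ) : Sm e c (a * N) ρ' K := by
  rcases le_or_gt K 0 with x | x
  · exact .inl x
  rcases h with h | h | h
  · exact .inl h
  · refine .inr (.inl ?_)
    nlinarith [mul_le_mul_of_nonneg_left h a0, mul_le_mul_of_nonneg_right h1 (sq_nonneg K)]
  · refine .inr (.inr ?_)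
    have := mul_le_mul_of_nonneg_right (pow_le_pow_left₀ ρ0 h1 2) (pow_pos x 3).le
    nlinarith [mul_le_mul_of_nonneg_left h (sq_nonneg a)]

theorem Sm.max {e c N ρ K K' : ℝ} (h : Sm e c N ρ K) (h' : Sm e c N ρ K') :
    Sm e c N ρ (max K K') := by
  rcases max_choice K K' with x | x <;> rwa [x]

theorem Sm.mul_le {θ N x y : ℝ} (h : Sm θ 1 N 1 x) (N0 : 0 ≤ N) (y0 : 0 ≤ y)
    (h1 : θ * y ^ 2 ≤ N) (h2 : y ^ 3 ≤ N) : x * y ≤ N := by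
  rcases h with h | h | h
  · exact (mul_nonpos_of_nonpos_of_nonneg h y0).trans N0
  · refine le_of_pow_le_pow_left₀ (n := 2) (by norm_num) N0 ?_
    nlinarith [mul_le_mul_of_nonneg_right h (sq_nonneg y), mul_le_mul_of_nonneg_right h1 N0]
  · refine le_of_pow_le_pow_left₀ (n := 3) (by norm_num) N0 ?_
    nlinarith [mul_le_mul_of_nonneg_right h (pow_nonneg y0 3),
      mul_le_mul_of_nonneg_right h2 (sq_nonneg N)]

theorem sm_of_min {θ N x : ℝ} (θ0 : 0 < θ)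
    (h : min (x ^ ((3 : ℝ) / 2)) (x ^ 2 / θ) ≤ N) : Sm θ 1 N 1 x := by
  rcases le_total x 0 with x0 | x0
  · exact .inl x0
  rcases min_le_iff.1 h with h | h
  · refine .inr (.inr ?_)
    have := pow_le_pow_left₀ (Real.rpow_nonneg x0 _) h 2
    rw [← Real.rpow_natCast, ← Real.rpow_mul x0, show (3 : ℝ) / 2 * (2 : ℕ) = (3 : ℕ) by norm_num,
      Real.rpow_natCast] at this
    linarith
  · rw [div_le_iff₀ θ0] at h
    exact .inr (.inl (by linarith))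

theorem sm_of_min' {θ N ρ x : ℝ} (θ0 : 0 < θ) (ρ0 : 0 ≤ ρ) (x0 : 0 ≤ x)
    (h : ρ * min (x ^ 3) (x ^ 4 / θ) ≤ N) : Sm θ 1 N ρ (x ^ 2) := by
  rcases min_choice (x ^ 3) (x ^ 4 / θ) with y | y <;> rw [y] at h
  · refine .inr (.inr ?_)
    have := pow_le_pow_left₀ (by positivity) h 2
    linarith
  · rw [← mul_div_assoc, div_le_iff₀ θ0] at h
    exact .inr (.inl (by linarith))

set_option maxHeartbeats 800000 in
/-- the numbers `PNY` from normalised bounds -/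
theorem pny_of {L E T C b c θ θ' η' g g0 e κ γ u τ0 N : ℝ} (hL : 64 ≤ L) (hE : L ^ 4 ≤ E)
    (N0 : 0 ≤ N) (θ0 : 0 < θ) (θ1 : θ ≤ 1) (b1 : 1 ≤ b) (b2 : b ≤ L) (c0 : 0 < c) (c2 : c ≤ L)
    (κ1 : 1 ≤ L * κ) (θ2 : 1 ≤ L * θ') (T0 : 0 ≤ T) (T1 : T ≤ L) (C0 : 0 ≤ C)
    (C1 : C ≤ L) (e1 : θ ≤ L * e) (e2 : e ≤ 1) (η0 : 0 ≤ η') (hη : Sm θ 1 (L ^ 12 * N) 1 η')
    (g1 : 0 ≤ g) (g2 : g ≤ L * g0) (g3 : g0 ^ 3 ≤ N ∨ E * g0 ≤ θ) (γ0 : 0 ≤ γ) (γ1 : γ ≤ 1)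
    (γ2 : γ ^ 3 ≤ N) (γ3 : θ * γ ^ 2 ≤ N) (u0 : 0 ≤ u) (u1 : u ≤ 1) (u2 : u ^ 2 ≤ N)
    (τp : 0 < τ0) (τ1 : τ0 ≤ 1) (τ2 : τ0 ^ 2 ≤ N) (τ3 : Real.log (1 + T / τ0) ≤ L) :
    PNY T C b c θ' η' g e κ γ (8 * u * T) (16 * (L ^ 14 * N)) τ0 (L ^ 23 * N) := by
  have L0 : 0 < L := by linarith
  have L1 : 1 ≤ L := by linarith
  have b0 : 0 < b := by linarith
  have κ0 : 0 < κ := by by_contra x; nlinarith
  have θp : 0 < θ' := by by_contra x; nlinarith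
  have e0 : 0 < e := by by_contra x; nlinarith
  have pw : ∀ i j : ℕ, i ≤ j → L ^ i * N ≤ L ^ j * N := fun i j h =>
    mul_le_mul_of_nonneg_right (pow_le_pow_right₀ L1 h) N0
  have p0 : ∀ j : ℕ, N ≤ L ^ j * N := fun j => by simpa using pw 0 j (Nat.zero_le _)
  set ε := θ' * κ ^ 2 / 64 with hε
  have ε0 : 0 < ε := by positivity
  have ε1 : 1 ≤ L ^ 4 * ε := by
    calc (1:ℝ) = 1 * (1 * 1 ^ 2) := by norm_num
      _ ≤ L / 64 * (L * θ' * (L * κ) ^ 2) := by gcongr; linarith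
      _ = _ := by rw [hε]; ring
  have ε2 : ∀ j : ℕ, j ≤ 15 → L ^ j * N ≤ ε ^ 2 * (L ^ 23 * N) := fun j hj =>
    calc L ^ j * N ≤ 1 ^ 2 * (L ^ 15 * N) := by simpa using pw j 15 hj
      _ ≤ (L ^ 4 * ε) ^ 2 * (L ^ 15 * N) := by gcongr
      _ = _ := by ring
  have q1 : (T + 1) / θ' ≤ L ^ 3 := by
    rw [div_le_iff₀ θp]
    calc T + 1 ≤ L ^ 2 * 1 := by nlinarith
      _ ≤ L ^ 2 * (L * θ') := by gcongr
      _ = _ := by ring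
  have w1 : 8 * u * T ≤ L ^ 2 * u := by
    calc 8 * u * T ≤ L * u * L := by gcongr; linarith
      _ = _ := by ring
  have γ6 : γ ^ 6 ≤ γ ^ 3 := pow_le_pow_of_le_one γ0 γ1 (by norm_num)
  refine ⟨θp, by positivity, by positivity, τp, ?_, ?_, ?_, ?_, ?_, ?_, ?_, ?_, ?_, ?_⟩
  · have : e / 4 * τ0 ^ 2 ≤ 1 * N := by gcongr; linarith
    linarith [p0 14]
  · have : b * c / 4 * τ0 ^ 3 ≤ L * L / 4 * N := by
      gcongr; exact (pow_le_pow_of_le_one τp.le τ1 (by norm_num)).trans τ2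
    have h2 := pw 2 14 (by norm_num)
    nlinarith [p0 14]
  · have x := hη.conv (e := e * κ / (64 * b)) (c := ε) (a := L ^ 4) (by positivity) (by
      rw [mul_div_assoc', le_div_iff₀ (by positivity)]
      calc θ * (64 * b) = θ * 64 * b * 1 := by ring
        _ ≤ L * e * L * L * (L * κ) := by gcongr
        _ = _ := by ring) (by nlinarith [one_le_pow₀ (n := 4) L1])
    have y : L ^ 4 * (L ^ 12 * N) ≤ L ^ 23 * N := by
      rw [← mul_assoc, ← pow_add]; exact pw _ _ (by norm_num)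
    rcases x.mono (by positivity) ε0.le (by positivity) zero_le_one le_rfl le_rfl y le_rfl le_rfl
      with x | x | x
    · exact .inr (by rw [le_antisymm x η0]; simpa using by positivity)
    · exact .inr (by linarith)
    · exact .inl (by rw [← hε]; linarith)
  · have g00 : 0 ≤ g0 := by by_contra x; nlinarith
    rcases g3 with x | x
    · refine .inl (le_trans ?_ (ε2 3 (by norm_num)))
      calc (g / b) ^ 3 ≤ (L * g0) ^ 3 := by gcongr; exact (div_le_self g1 b1).trans g2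
        _ = L ^ 3 * g0 ^ 3 := by ring
        _ ≤ _ := by gcongr
    · refine .inr (le_of_mul_le_mul_left ?_ (pow_pos L0 3))
      calc L ^ 3 * g ≤ L ^ 3 * (L * g0) := by gcongr
        _ = L ^ 4 * g0 := by ring
        _ ≤ E * g0 := by gcongr
        _ ≤ L * e * 1 * 1 := by linarith
        _ ≤ L * e * (L * κ) * (L / 16) := by gcongr; linarith
        _ = _ := by ring
  · have x1 := hη.mul_le (by positivity) γ0 (γ3.trans (p0 12)) (γ2.trans (p0 12))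
    have x2 := hη.mul_le (by positivity) u0 (le_trans (by nlinarith [sq_nonneg u]) (u2.trans (p0 12)))
      ((pow_le_pow_of_le_one u0 u1 (by norm_num)).trans (u2.trans (p0 12)))
    have x3 : η' * (8 * u * T) ≤ L ^ 14 * N :=
      calc η' * (8 * u * T) ≤ η' * (L ^ 2 * u) := by gcongr
        _ = L ^ 2 * (η' * u) := by ring
        _ ≤ L ^ 2 * (L ^ 12 * N) := by gcongr
        _ = _ := by ring
    have x4 := pw 12 14 (by norm_num)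
    have x5 : 2 * (L ^ 14 * N) ≤ L ^ 15 * N := by
      calc 2 * (L ^ 14 * N) ≤ L * (L ^ 14 * N) := by gcongr; linarith
        _ = _ := by ring
    linarith [pw 15 23 (by norm_num)]
  · rw [div_mul_eq_mul_div, le_div_iff₀ (by positivity)]
    have x1 : C * (1 + T) * (8 * u * T) ≤ L * (L * L) * (L ^ 2 * u) := by gcongr; nlinarith
    have x2 : C * γ ^ 2 ≤ L * γ ^ 2 := by gcongr
    have x3 : (C * γ ^ 2 + C * (1 + T) * (8 * u * T)) ^ 2 ≤ 2 * (L ^ 2 * γ ^ 4) + 2 * (L ^ 10 * u ^ 2) := by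
      have := pow_le_pow_left₀ (by positivity) (add_le_add x2 x1) 2
      nlinarith [sq_nonneg (L * γ ^ 2 - L * (L * L) * (L ^ 2 * u))]
    have x4 : L ^ 2 * γ ^ 4 ≤ L ^ 10 * N := le_trans (by
      gcongr; exact (pow_le_pow_of_le_one γ0 γ1 (by norm_num)).trans γ2) (pw 2 10 (by norm_num))
    have x5 : L ^ 10 * u ^ 2 ≤ L ^ 10 * N := by gcongr
    calc _ ≤ 4 * (L ^ 10 * N) * (L ^ 3 * θ') := by
          refine mul_le_mul (by linarith) ((div_le_iff₀ θp).1 q1) (by positivity) (by positivity)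
      _ ≤ L * (L ^ 10 * N) * (L ^ 3 * θ') := by gcongr; linarith
      _ = θ' * (L ^ 14 * N) := by ring
      _ ≤ _ := by gcongr; norm_num
  · calc 2 * (16 * (L ^ 14 * N)) * Real.log (1 + T / τ0) / b
        ≤ 2 * (16 * (L ^ 14 * N)) * L / 1 := by gcongr
      _ = 32 * (L ^ 15 * N) := by ring
      _ ≤ L * (L ^ 15 * N) := by gcongr; linarith
      _ = L ^ 16 * N := by ring
      _ ≤ _ := pw _ _ (by norm_num)
  · refine le_trans ?_ (ε2 3 (by norm_num))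
    calc (C * γ) ^ 3 ≤ (L * γ) ^ 3 := by gcongr
      _ = L ^ 3 * γ ^ 3 := by ring
      _ ≤ _ := by gcongr
  · refine le_trans ?_ (ε2 15 (by norm_num))
    calc ((C * γ) ^ 2 * (T + 1) / θ') ^ 3 = ((C * γ) ^ 2 * ((T + 1) / θ')) ^ 3 := by ring
      _ ≤ ((L * γ) ^ 2 * L ^ 3) ^ 3 := by gcongr
      _ = L ^ 15 * γ ^ 6 := by ring
      _ ≤ _ := by gcongr; exact γ6.trans γ2
  · calc (C * γ ^ 2) ^ 3 ≤ (L * γ ^ 2) ^ 3 := by gcongr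
      _ = L ^ 3 * (γ ^ 3) ^ 2 * 1 := by ring
      _ ≤ L ^ 3 * N ^ 2 * (L ^ 4 * ε) := by gcongr
      _ = ε * (L ^ 7 * N ^ 2) := by ring
      _ ≤ ε * (L ^ 46 * N ^ 2) := by gcongr; norm_num
      _ = _ := by ring

end Crest.Agent.T156.Pr.Reg48

namespace Crest.Agent.T156.Alt.Mp9.At

open MeasureTheory Set Real
open Crest.Agent.R164.GC Crest.Agent.R339.B Crest.Agent.R339.Var Crest.Agent.T157.Pf
open Crest.Agent.T156.Pr.Reg48 (PlZ PNY QZ)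
open Crest.Agent.T156.Gap27 (resN)
open Crest.Agent.T156.Alt.L69
open Crest.Agent.T156.Cut8 (Res)

variable {S : Sc} {M : Md} {m : ℕ} {a T : ℝ}

theorem w3_nn (A : At S M m a T) : 0 ≤ S.w3 1 := by
  have := A.cl.F1
  have := (A.ms_pos zero_le_one).le
  unfold Sc.w3
  positivity

theorem ap_nn (A : At S M m a T) (Xp Vt γ : ℝ) (k : ℕ) : 0 ≤ ap M S Xp Vt γ k := by
  have := A.w3_nn
  have := A.cl.den0 (M.z (k - 1))
  unfold ap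
  positivity

/-- `ap` is slowly varying on an upper shell -/
theorem ap_le (A : At S M m a T) {Xp Vt γ : ℝ} (X0 : 0 < Xp) (V0 : 0 ≤ Vt) (γ0 : 0 ≤ γ)
    (u0 : 0 < S.u0) {i k : ℕ} (hi : S.J ≤ i) (hik : i ≤ k) (ρ0 : 0 < du M i)
    (h1 : du M i ≤ M.z (i - 1) - M.z (S.J - 1)) (h2 : du M i / 2 ≤ du M k) :
    ap M S Xp Vt γ i ≤ 4 * S.C * ap M S Xp Vt γ k := by
  have C1 := A.cl.C1
  have w0 := A.w3_nn
  have zz := A.cl.leg.zm (Nat.sub_le_sub_right hik 1)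
  have di := A.cl.den0 (M.z (i - 1))
  have dk := A.cl.den0 (M.z (k - 1))
  unfold du at ρ0 h1 h2
  obtain ⟨d1, d2⟩ := A.cl.dens (M.z (i - 1)) (M.z (k - 1)) (by linarith) zz (by linarith)
    (le_min (by linarith) (by linarith))
  have si : ds M S i = 1 - M.z (i - 1) := min_eq_right (by unfold L69.dl du; linarith)
  have sk : ds M S k ≤ ds M S i := by
    rw [si]; exact (min_le_right _ _).trans (by unfold du; linarith)
  have sk0 : 0 < ds M S k := lt_min (by unfold L69.dl; linarith) (by unfold du; linarith)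
  have X3 : 0 < Xp ^ ((1 : ℝ) / 3) := by positivity
  have r0 : 0 ≤ Rp M S Xp Vt γ i := by
    unfold Rp; have := le_min V0 (sqrt_nonneg (Xp / du M i)); positivity
  have r1 : Rp M S Xp Vt γ i ≤ 2 * Rp M S Xp Vt γ k := by
    have m0 : 0 < max (dl M S i - S.u0) (Xp ^ ((1 : ℝ) / 3)) := X3.trans_le (le_max_right _ _)
    have m1 : 0 < max (dl M S k - S.u0) (Xp ^ ((1 : ℝ) / 3)) := X3.trans_le (le_max_right _ _)
    have m2 : max (dl M S k - S.u0) (Xp ^ ((1 : ℝ) / 3)) ≤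
        4 * max (dl M S i - S.u0) (Xp ^ ((1 : ℝ) / 3)) :=
      max_le (by
        have := le_max_left (dl M S i - S.u0) (Xp ^ ((1 : ℝ) / 3))
        unfold L69.dl at *; linarith) (by linarith [le_max_right (dl M S i - S.u0) (Xp ^ ((1 : ℝ) / 3))])
    have t1 : √(Xp / max (dl M S i - S.u0) (Xp ^ ((1 : ℝ) / 3))) ≤
        2 * √(Xp / max (dl M S k - S.u0) (Xp ^ ((1 : ℝ) / 3))) := by
      refine sqrt_le_iff.2 ⟨by positivity, ?_⟩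
      rw [mul_pow, sq_sqrt (by positivity), ← mul_div_assoc, div_le_div_iff₀ m0 m1]
      nlinarith
    have t2 : min Vt (√(Xp / du M i)) ≤ min Vt (√(Xp / du M k)) :=
      min_le_min_left _ (sqrt_le_sqrt (div_le_div_of_nonneg_left X0.le
        (by unfold du; linarith) (by unfold du; linarith)))
    have t3 := le_min V0 (sqrt_nonneg (Xp / du M k))
    unfold Rp
    linarith
  replace r0 : 0 ≤ Rp M S Xp Vt γ i + Xp ^ ((1 : ℝ) / 3) := by positivity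
  replace r1 : Rp M S Xp Vt γ i + Xp ^ ((1 : ℝ) / 3) ≤
      2 * (Rp M S Xp Vt γ k + Xp ^ ((1 : ℝ) / 3)) := by linarith
  unfold ap lsh
  set x := S.den (M.z (i - 1))
  set y := S.den (M.z (k - 1))
  set R := Rp M S Xp Vt γ i + Xp ^ ((1 : ℝ) / 3)
  set R' := Rp M S Xp Vt γ k + Xp ^ ((1 : ℝ) / 3)
  set s := ds M S i
  set s' := ds M S k
  have s0 := sk0.trans_le sk
  have q1 : s' ^ 2 * y ≤ S.C * (s ^ 2 * x) :=
    calc s' ^ 2 * y ≤ s ^ 2 * (S.C * x) := by gcongr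
      _ = _ := by ring
  have q2 : R ^ 2 / (s ^ 2 * x) ≤ 4 * S.C * (R' ^ 2 / (s' ^ 2 * y)) := by
    rw [← mul_div_assoc, div_le_div_iff₀ (by positivity) (by positivity)]
    calc R ^ 2 * (s' ^ 2 * y) ≤ (2 * R') ^ 2 * (S.C * (s ^ 2 * x)) := by gcongr
      _ = _ := by ring
  have q3 : S.w3 1 / (x * s ^ 2) ≤ 4 * S.C * (S.w3 1 / (y * s' ^ 2)) := by
    rw [← mul_div_assoc, div_le_div_iff₀ (by positivity) (by positivity)]
    have : y * s' ^ 2 ≤ 4 * S.C * (x * s ^ 2) := by nlinarith [mul_pos (pow_pos s0 2) di]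
    nlinarith [mul_le_mul_of_nonneg_left this w0]
  have q4 : (S.w3 1 * (x + R ^ 2 / (s ^ 2 * x))) ^ ((1 : ℝ) / 3) ≤
      4 * S.C * (S.w3 1 * (y + R' ^ 2 / (s' ^ 2 * y))) ^ ((1 : ℝ) / 3) := by
    have p : S.w3 1 * (x + R ^ 2 / (s ^ 2 * x)) ≤
        4 * S.C * (S.w3 1 * (y + R' ^ 2 / (s' ^ 2 * y))) := by
      have : x + R ^ 2 / (s ^ 2 * x) ≤ 4 * S.C * (y + R' ^ 2 / (s' ^ 2 * y)) := by nlinarith
      nlinarith [mul_le_mul_of_nonneg_left this w0]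
    refine (rpow_le_rpow (by positivity) p (by norm_num)).trans ?_
    rw [mul_rpow (by positivity) (by positivity)]
    refine mul_le_mul_of_nonneg_right ?_ (by positivity)
    exact (rpow_le_rpow_of_exponent_le (by linarith) (by norm_num : (1 : ℝ) / 3 ≤ 1)).trans_eq
      (rpow_one _)
  have q5 : √(S.w3 1 / (x * s)) ≤ 4 * S.C * √(S.w3 1 / (y * s')) := by
    refine sqrt_le_iff.2 ⟨by positivity, ?_⟩
    rw [mul_pow (4 * S.C), sq_sqrt (by positivity), ← mul_div_assoc,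
      div_le_div_iff₀ (by positivity) (by positivity)]
    calc S.w3 1 * (y * s') ≤ S.w3 1 * (S.C * x * s) * 1 := by rw [mul_one]; gcongr
      _ ≤ S.w3 1 * (S.C * x * s) * (16 * S.C) := by gcongr; linarith
      _ = _ := by ring
  linarith

/-- the cost of one upper shell, for any slowly varying size `f` -/
theorem shell_gen (A : At S M m a T) {f : ℕ → ℝ} {K u2 N : ℝ} (p0 : ∀ k, 0 ≤ f k) (K1 : 1 ≤ K)
    (c1 : ∑ k ∈ (Finset.Icc S.J S.Jp).filter fun k => u2 ≤ du M k,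
      dx M k * min (f k ^ 3) (f k ^ 4 / S.θ) ≤ N)
    {i : ℕ} (hi : S.J ≤ i) (hi' : i ≤ S.Jp) (ρ0 : 0 < du M i) (hu : 2 * u2 ≤ du M i)
    (hv : ∀ k, i ≤ k → k ≤ S.Jp → du M i / 2 ≤ du M k → f i ≤ K * f k) :
    Pr.Reg48.Sm S.θ 1 (2 * K ^ 4 * N) (du M i) (f i ^ 2) := by
  have i2 := A.cl.i2
  have θ0 : 0 < S.θ := A.ms_pos zero_le_one
  have dz : ∀ j, 0 ≤ dx M j := fun j => sub_nonneg.2 (A.cl.leg.zm (Nat.sub_le j 1))
  refine Pr.Reg48.sm_of_min' θ0 ρ0.le (p0 i) ?_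
  set J := Nat.findGreatest (fun k => du M i / 2 ≤ du M k) S.Jp with hK
  have k1 : i ≤ J := Nat.le_findGreatest hi' (by linarith)
  have k2 : J ≤ S.Jp := Nat.findGreatest_le _
  have k3 : du M i / 2 ≤ du M J := Nat.findGreatest_spec (P := fun k => du M i / 2 ≤ du M k) hi'
    (by linarith)
  have k4 : 1 - M.z J ≤ du M i / 2 := by
    rcases k2.eq_or_lt with x | x
    · rw [x, A.cl.top _ le_rfl]; linarith
    · exact (not_le.1 (Nat.findGreatest_is_greatest (P := fun k => du M i / 2 ≤ du M k)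
        (Nat.lt_succ_self J) x)).le
  have k5 : ∀ k ∈ Finset.Icc i J, du M i / 2 ≤ du M k := fun k hk => k3.trans
    (sub_le_sub_left (A.cl.leg.zm (Nat.sub_le_sub_right (Finset.mem_Icc.1 hk).2 1)) 1)
  have f0 : ∀ k, 0 ≤ min (f k ^ 3) (f k ^ 4 / S.θ) :=
    fun k => le_min (pow_nonneg (p0 k) 3) (div_nonneg (pow_nonneg (p0 k) 4) θ0.le)
  have s1 := (Finset.sum_le_sum_of_subset_of_nonneg (s := Finset.Icc i J) (fun k hk =>
    Finset.mem_filter.2 ⟨Finset.Icc_subset_Icc hi k2 hk, by linarith [k5 k hk]⟩)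
    fun k _ _ => mul_nonneg (dz k) (f0 k)).trans c1
  have s2 : ∑ k ∈ Finset.Icc i J, dx M k = M.z J - M.z (i - 1) := tel_z M (by omega) (by omega)
  have s3 : ∑ k ∈ Finset.Icc i J, dx M k * min (f i ^ 3) (f i ^ 4 / S.θ) ≤
      K ^ 4 * ∑ k ∈ Finset.Icc i J, dx M k * min (f k ^ 3) (f k ^ 4 / S.θ) := by
    rw [Finset.mul_sum]
    refine Finset.sum_le_sum fun k hk => ?_
    rw [mul_left_comm, mul_min_of_nonneg _ _ (by positivity : 0 ≤ K ^ 4)]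
    have x := hv k (Finset.mem_Icc.1 hk).1 ((Finset.mem_Icc.1 hk).2.trans k2) (k5 k hk)
    refine mul_le_mul_of_nonneg_left (min_le_min ?_ ?_) (dz k)
    · refine (pow_le_pow_left₀ (p0 i) x 3).trans ?_
      rw [mul_pow]
      exact mul_le_mul_of_nonneg_right (pow_le_pow_right₀ K1 (by norm_num))
        (pow_nonneg (p0 k) 3)
    · rw [← mul_div_assoc, ← mul_pow]
      exact div_le_div_of_nonneg_right (pow_le_pow_left₀ (p0 i) x 4) θ0.le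
  rw [← Finset.sum_mul, s2] at s3
  have s4 := mul_le_mul_of_nonneg_left s1 (by positivity : 0 ≤ K ^ 4)
  have s5 := mul_le_mul_of_nonneg_right (show du M i / 2 ≤ M.z J - M.z (i - 1) by
    unfold du at *; linarith) (f0 i)
  linarith

/-- the cost of one upper shell -/
theorem ap_shell (A : At S M m a T) {Xp Vt γ Lg u2 N : ℝ} (X0 : 0 < Xp) (V0 : 0 ≤ Vt) (γ0 : 0 ≤ γ)
    (u0 : 0 < S.u0) (c1 : ∑ k ∈ (Finset.Icc S.J S.Jp).filter fun k => u2 ≤ du M k,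
      dx M k * min ((Lg ^ 2 * ap M S Xp Vt γ k) ^ 3) ((Lg ^ 2 * ap M S Xp Vt γ k) ^ 4 / S.θ) ≤ N)
    {i : ℕ} (hi : S.J ≤ i) (hi' : i ≤ S.Jp) (ρ0 : 0 < du M i) (hu : 2 * u2 ≤ du M i)
    (h1 : du M i ≤ M.z (i - 1) - M.z (S.J - 1)) :
    Pr.Reg48.Sm S.θ 1 (2 * (4 * S.C) ^ 4 * N) (du M i) ((Lg ^ 2 * ap M S Xp Vt γ i) ^ 2) :=
  A.shell_gen (f := fun k => Lg ^ 2 * ap M S Xp Vt γ k)
    (fun k => mul_nonneg (sq_nonneg Lg) (A.ap_nn Xp Vt γ k)) (by linarith [A.cl.C1]) c1 hi hi' ρ0 hu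
    fun k h2 _ h3 => by
      rw [mul_left_comm]
      exact mul_le_mul_of_nonneg_left (A.ap_le X0 V0 γ0 u0 hi h2 ρ0 h1 h3) (sq_nonneg Lg)

/-- the uniform part of the node errors on the plateau -/
def e0 (S : Sc) (M : Md) (Xp Vt Lp X2 G0 u1 γ : ℝ) (η : ℝ → ℝ) : ℝ :=
  η 1 + G0 ^ 2 + Np M S Xp Vt γ u1 Lp 2 + X2 * (Xp ^ ((1 : ℝ) / 3) + Vt)

/-- **node data above the cut node `w`**; `L` is the loss -/
structure TZ (S : Sc) (M : Md) (m : ℕ) (a T L E e0 g0 κ c θ' Ch e t0 g βs τ0 N Lg u2 : ℝ)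
    (ap : ℕ → ℝ) (v w : ℕ) : Prop where
  L1 : 64 * S.C ≤ L
  E1 : L ^ 4 ≤ E
  θ1 : S.θ ≤ 1
  c0 : 0 < c ∧ 1 ≤ L * c ∧ c ≤ L
  κ1 : 1 ≤ L * κ
  θ2 : 1 ≤ L * θ'
  T1 : T ≤ L
  Ch : 0 ≤ Ch ∧ Ch ≤ L
  e1 : S.θ ≤ L * e ∧ e ≤ 1 ∧ e ≤ S.ms t0 / S.C
  t0 : 0 ≤ t0 ∧ t0 ≤ sb M m a (w + 1) ∧ t0 ≤ M.s S.Jp
  τ0 : 0 < τ0 ∧ τ0 ≤ 1 ∧ τ0 ^ 2 ≤ N ∧ log (1 + T / τ0) ≤ L
  m1 : 1 / ((m : ℝ) + 1) ≤ e0
  β0 : 0 ≤ βs ∧ βs ≤ L * e0
  g0 : 0 ≤ g ∧ g ≤ L * g0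
  v1 : S.jl < v ∧ v ≤ w
  w1 : S.J ≤ w ∧ w ≤ S.Jp
  w2 : κ ≤ du M w ∧ du M w ≤ M.z (w - 1) - M.z (S.J - 1)
  conc : ∀ r ∈ Ico (sb M m a (w + 1)) T, Pr.Reg48.Gd (lb M S m a T) r ≤ 0
  ew : |res M S m a T v - res M S m a T w| ≤ L * (e0 + (Lg ^ 2 * ap w) ^ 2)
  mu : sb M m a (w + 1) < M.s S.Jp → M.b * Pr.GG (lb M S m a T) (sb M m a (w + 1)) ≤ 1 + g
  nx : ∀ k, w ≤ k → k ≤ S.Jp → 8 * u2 < 1 - M.z k → ∃ j, k < j ∧ j ≤ S.Jp ∧
    1 - M.z k ≤ 4 * du M j ∧ res M S m a T v - res M S m a T j ≤ L * (e0 + (Lg ^ 2 * ap j) ^ 2)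

/-- `e0` with the location `V2` above the cut of the costs -/
def e0x (S : Sc) (M : Md) (Xp Vt V2 Lp X2 G0 u1 γ : ℝ) (η : ℝ → ℝ) : ℝ :=
  η 1 + G0 ^ 2 + Np M S Xp Vt γ u1 Lp 2 + X2 * (Xp ^ ((1 : ℝ) / 3) + V2)

theorem sm_e0x (A : At S M m a T) {E Xp Vt V2 Lg Lp X2 G0 G1 u1 u2 j γ ηc τ N : ℝ} {η : ℝ → ℝ}
    (Q : LC E S M Xp Vt V2 Lg Lp X2 G0 G1 u1 u2 j γ ηc τ η N) (N0 : 0 ≤ N) :
    Pr.Reg48.Sm S.θ 1 (4 * N) 1 (e0x S M Xp Vt V2 Lp X2 G0 u1 γ η + ηc) :=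
  have θ0 : 0 < S.θ := A.ms_pos zero_le_one
  (Pr.Reg48.sm_of_min θ0 (Q.c1' _ rfl)).add (Pr.Reg48.sm_of_min θ0 Q.c8) θ0.le zero_le_one N0
    zero_le_one

theorem sm_e0 (A : At S M m a T) {E Xp Vt Lg Lp X2 X3 G0 G1 u1 u2 j γ Lc ηc τ N : ℝ} {η : ℝ → ℝ}
    (P : LP E S M Xp Vt Lg Lp X2 X3 G0 G1 u1 u2 j γ Lc ηc τ η N) (N0 : 0 ≤ N) :
    Pr.Reg48.Sm S.θ 1 (4 * N) 1 (e0 S M Xp Vt Lp X2 G0 u1 γ η + ηc) := A.sm_e0x P.lc N0

/-- **what the top part reads of the costs**, for any size function `ap` -/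
structure TK (S : Sc) (M : Md) (E L γ u2 g0 Lg N : ℝ) (ap : ℕ → ℝ) : Prop where
  γ0 : M.s S.Jp - M.s S.J ≤ γ
  γ1 : E * γ ≤ 1
  γ2 : γ ^ 3 ≤ N
  u0 : 0 ≤ u2 ∧ E * u2 ≤ 1 ∧ u2 ^ 2 ≤ N
  c2 : GP M S + (S.θ * γ) ^ 2 ≤ N * S.θ
  g3 : g0 ^ 3 ≤ N ∨ E * g0 ≤ S.θ
  sh : ∀ i, S.J ≤ i → i ≤ S.Jp → 0 < du M i → 2 * u2 ≤ du M i →
    du M i ≤ M.z (i - 1) - M.z (S.J - 1) → Pr.Reg48.Sm S.θ 1 (L ^ 5 * N) (du M i) ((Lg ^ 2 * ap i) ^ 2)

theorem tk_of (A : At S M m a T) {E Xp Vt V2 Lg Lp X2 X3 G0 G1 u1 u2 j γ Lc ηc τ N' N L : ℝ}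
    {η : ℝ → ℝ} (P : LP E S M Xp Vt Lg Lp X2 X3 G0 G1 u1 u2 j γ Lc ηc τ η N')
    (Q : LC E S M Xp Vt V2 Lg Lp X2 G0 G1 u1 u2 j γ ηc τ η N) (η0 : 0 ≤ η 1 + X2)
    (L1 : 64 * S.C ≤ L) (E1 : 1 ≤ E) :
    TK S M E L γ u2 (X2 + (S.θ + j + τ + γ) * min (S.θ + j + τ + γ) (Xp ^ ((1 : ℝ) / 3))) Lg N
      (ap M S Xp V2 γ) := by
  have C1 := A.cl.C1
  have θ0 : 0 < S.θ := A.ms_pos zero_le_one
  have γ0 : 0 ≤ γ := by linarith [P.γ0, A.cl.sm A.cl.i3]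
  have γ1 : γ ≤ 1 := by nlinarith [P.γ1]
  have u0 : 0 ≤ u2 := by linarith [P.u1a, P.u1b.1, A.cl.last, A.cl.leg.z1 (S.Jp - 1)]
  have dz : ∀ j, 0 ≤ dx M j := fun j => sub_nonneg.2 (A.cl.leg.zm (Nat.sub_le j 1))
  have GS0 : 0 ≤ GS M S (1 / (8 * S.C ^ 2)) S.C :=
    Finset.sum_nonneg fun k _ => mul_nonneg (dz k) (sq_nonneg _)
  have a2 := (div_le_iff₀ θ0).1 Q.c2
  have f1 : u2 ^ 2 ≤ N ∧ γ ^ ((15 : ℝ) / 7) ≤ N := by
    have x1 : 0 ≤ u2 * (η 1 + X2 + √((GP M S + G1 ^ 2) / u2) + S.θ * γ) := by positivity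
    have x2 : 0 ≤ (u2 * S.θ) ^ ((3 : ℝ) / 2) := by positivity
    have x3 : 0 ≤ γ * (η 1 + X2) := by positivity
    have x4 : 0 ≤ γ ^ ((15 : ℝ) / 7) := by positivity
    exact ⟨by linarith [Q.c4], by linarith [Q.c4, sq_nonneg u2]⟩
  have N0 : 0 ≤ N := (sq_nonneg _).trans f1.1
  refine ⟨P.γ0, P.γ1, ?_, ⟨u0, P.u1b.2, f1.1⟩, by linarith [sq_nonneg G1], (Q.c5 _ _ rfl rfl).2,
    fun i a1 a2 a3 a4 a5 => ?_⟩
  · refine le_trans ?_ f1.2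
    rw [← rpow_natCast]
    exact rpow_le_rpow_of_exponent_ge' γ0 γ1 (by norm_num) (by norm_num)
  · refine (A.ap_shell P.Xp0.1 Q.v2.1 γ0 P.u0 Q.c1 a1 a2 a3 a4 a5).mono θ0.le zero_le_one
      (by positivity) a3.le le_rfl le_rfl (mul_le_mul_of_nonneg_right ?_ N0) le_rfl le_rfl
    calc 2 * (4 * S.C) ^ 4 ≤ L * L ^ 4 := by gcongr <;> linarith
      _ = _ := by ring

set_option maxHeartbeats 1600000 in
/-- **`PlZ` and its numbers** -/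
theorem topG (A : At S M m a T) {E L γ u2 g0 Lg N : ℝ} {ap : ℕ → ℝ}
    (P : TK S M E L γ u2 g0 Lg N ap)
    {κ c θ' Ch e t0 g βs τ0 x0 : ℝ} {v w : ℕ} (hx : Pr.Reg48.Sm S.θ 1 (4 * N) 1 x0)
    (h : TZ S M m a T L E x0 g0 κ c θ' Ch e t0 g βs τ0 N Lg u2 ap v w) :
    ∃ p, w ≤ p ∧ p ≤ S.Jp ∧ 1 - M.z p ≤ 8 * u2 ∧ ∃ hb' η0 N0,
      PlZ (lb M S m a T) (lh M T) T M.b c (M.s S.J) (M.s S.Jp) γ (sb M m a (w + 1))
        (sb M m a (p + 1)) (resN (lb M S m a T) M.b (sb M m a) (hb M) (v + 1)) η0 g 0 N0 e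
        (S.C * S.θ) κ (8 * u2) hb' ∧
      PNY T Ch M.b c θ' (η0 + βs + (0 * e * γ + (g + S.C * S.θ) * (γ + 8 * u2 * T)) / M.b) g e κ
        γ (8 * u2 * T) N0 τ0 (L ^ 23 * N) := by
  have C1 := A.cl.C1
  have i2 := A.cl.i2
  have L64 : 64 ≤ L := by linarith [h.L1]
  have L0 : 0 < L := by linarith
  have L1 : 1 ≤ L := by linarith
  have CL : S.C ≤ L := by linarith [h.L1]
  have θ0 : 0 < S.θ := A.ms_pos zero_le_one
  obtain ⟨b1, b2⟩ := A.b_mem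
  have b0 := A.b_pos
  have T0 : 0 ≤ T := (s_nn A.cl _).trans A.t2
  have γ0 : 0 ≤ γ := by linarith [P.γ0, A.cl.sm A.cl.i3]
  have E1 : 1 ≤ E := (one_le_pow₀ L1).trans h.E1
  have γ1 : γ ≤ 1 := by nlinarith [P.γ1]
  have u0 : 0 ≤ u2 := P.u0.1
  have u1' : u2 ≤ 1 := by nlinarith [P.u0.2.1]
  have κ0 : 0 < κ := by by_contra x; nlinarith [h.κ1]
  have ep : 0 < e := by by_contra x; nlinarith [h.e1.1]
  obtain ⟨c0, c1, c2⟩ := h.c0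
  have dz : ∀ j, 0 ≤ dx M j := fun j => sub_nonneg.2 (A.cl.leg.zm (Nat.sub_le j 1))
  have GP0 : 0 ≤ GP M S := Finset.sum_nonneg fun k _ => mul_nonneg (dz k) (sq_nonneg _)
  have N0 : 0 ≤ N := (sq_nonneg _).trans h.τ0.2.2.1
  have a2 := P.c2
  have f1 : u2 ^ 2 ≤ N ∧ True := ⟨P.u0.2.2, trivial⟩
  have γ2 : γ ^ 3 ≤ N := P.γ2
  have γ3 : S.θ * γ ^ 2 ≤ N := by
    refine le_of_mul_le_mul_left ?_ θ0
    nlinarith
  have m0 : (0 : ℝ) < 1 / ((m : ℝ) + 1) := by positivity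
  have x00 : 0 ≤ x0 := m0.le.trans h.m1
  have g00 : 0 ≤ g0 := by by_contra x; nlinarith [h.g0.1, h.g0.2]
  have g3 : g0 ^ 3 ≤ N ∨ E * g0 ≤ S.θ := P.g3
  have pw : ∀ i j : ℕ, i ≤ j → L ^ i * N ≤ L ^ j * N := fun i j h =>
    mul_le_mul_of_nonneg_right (pow_le_pow_right₀ L1 h) N0
  have p6 : N ≤ L ^ 6 * N := by simpa using pw 0 6 (Nat.zero_le _)
  have up : ∀ {ρ K}, 0 ≤ ρ → ρ ≤ 1 → Pr.Reg48.Sm S.θ 1 N 1 K →
      Pr.Reg48.Sm S.θ 1 (L ^ 6 * N) ρ K := fun r0 r1 s =>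
    s.mono θ0.le zero_le_one N0 r0 le_rfl le_rfl p6 r1 le_rfl
  have s1 : ∀ {ρ}, 0 ≤ ρ → ρ ≤ 1 → Pr.Reg48.Sm S.θ 1 (L ^ 6 * N) ρ x0 := fun r0 r1 =>
    hx.mono θ0.le zero_le_one (by positivity) r0 le_rfl le_rfl (mul_le_mul_of_nonneg_right
      (le_trans (by linarith) (le_self_pow₀ L1 (by norm_num))) N0) r1 le_rfl
  have s3 : Pr.Reg48.Sm S.θ 1 N 1 (S.θ * γ) := .inr (.inl (by nlinarith))
  have s4 : Pr.Reg48.Sm S.θ 1 N 1 √(GP M S) := .inr (.inl (by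
    rw [sq_sqrt GP0]; nlinarith [sq_nonneg (S.θ * γ)]))
  have s6 : Pr.Reg48.Sm S.θ 1 N 1 (S.θ * u2) := .inr (.inl (by
    have : S.θ * u2 ^ 2 ≤ 1 * N := by gcongr; exacts [h.θ1, f1.1]
    nlinarith))
  have gθ : E * g0 ≤ S.θ → g0 ≤ S.θ := fun x => by nlinarith
  have s5 : Pr.Reg48.Sm S.θ 1 N 1 (g0 * γ) := g3.elim (fun x => .inr (.inr (by
      have : g0 ^ 3 * γ ^ 3 ≤ N * N := by gcongr
      nlinarith))) fun x => s3.mono θ0.le zero_le_one N0 zero_le_one le_rfl le_rfl le_rfl le_rfl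
    (mul_le_mul_of_nonneg_right (gθ x) γ0)
  have s7 : Pr.Reg48.Sm S.θ 1 N 1 (g0 * u2) := g3.elim (fun x => .inr (.inr (by
      have : g0 ^ 3 * u2 ^ 3 ≤ N * N := by
        gcongr; exact (pow_le_pow_of_le_one u0 u1' (by norm_num)).trans f1.1
      nlinarith))) fun x => s6.mono θ0.le zero_le_one N0 zero_le_one le_rfl le_rfl le_rfl le_rfl
    (mul_le_mul_of_nonneg_right (gθ x) u0)
  have sh : ∀ i ρ, w ≤ i → i ≤ S.Jp → 0 < du M i → 2 * u2 ≤ du M i → 0 ≤ ρ → ρ ≤ L * du M i →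
      Pr.Reg48.Sm S.θ 1 (L ^ 6 * N) ρ ((Lg ^ 2 * ap i) ^ 2) := fun i ρ a1 a2 a3 a4 a5 a6 => by
    have zz := A.cl.leg.zm (Nat.sub_le_sub_right a1 1)
    have y := (P.sh i (h.w1.1.trans a1) a2 a3 a4 (by
      have := h.w2.2; unfold du at *; linarith)).wt L0.le a5 a6
    exact y.mono θ0.le zero_le_one (by positivity) a5 le_rfl le_rfl (le_of_eq (by ring)) le_rfl
      le_rfl
  have w0 : 0 < du M w := κ0.trans_le h.w2.1
  have w3 : 2 * u2 ≤ du M w := by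
    refine le_trans (le_of_mul_le_mul_left ?_ L0) h.w2.1
    have : L * 2 ≤ E := le_trans (by nlinarith [one_le_pow₀ (n := 2) L1, sq_nonneg L]) h.E1
    nlinarith [P.u0.2.1, h.κ1]
  have s2 := sh w 1 le_rfl h.w1.2 w0 w3 zero_le_one
    (h.κ1.trans (mul_le_mul_of_nonneg_left h.w2.1 L0.le))
  set aw := (Lg ^ 2 * ap w) ^ 2 with haw
  have aw0 : 0 ≤ aw := sq_nonneg _
  have zw := A.cl.leg.zm (Nat.sub_le w 1)
  have Gw := abs_le.1 (A.G_abs P.γ0 h.w1.1 h.w1.2 κ0 (by linarith [h.w2.1, h.w2.2]) h.w2.1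
    (le_refl (GP M S)))
  have cv : ∀ {ρ K}, Pr.Reg48.Sm S.θ 1 (L ^ 12 * N) ρ K →
      Pr.Reg48.Sm (e / 4) (M.b * c / 4) (L ^ 14 * N) ρ K := fun s => by
    have := s.conv (e := e / 4) (c := M.b * c / 4) (a := L ^ 2) (by positivity)
      (h.e1.1.trans (by nlinarith [mul_pos L0 ep])) (by
        calc (1 : ℝ) ≤ 1 * 1 * (L ^ 3 / 4) := by nlinarith [one_le_pow₀ (n := 2) L1]
          _ ≤ M.b * (L * c) * (L ^ 3 / 4) := by gcongr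
          _ = _ := by ring)
    rwa [← mul_assoc, ← pow_add] at this
  have ml : ∀ {ρ K K'}, 0 ≤ ρ → Pr.Reg48.Sm S.θ 1 (L ^ 6 * N) ρ K → K' ≤ L ^ 3 * K →
      Pr.Reg48.Sm S.θ 1 (L ^ 12 * N) ρ K' := fun r0 s x =>
    (s.mul zero_le_one (one_le_pow₀ (n := 3) L1)).mono θ0.le zero_le_one (by positivity) r0 le_rfl
      le_rfl (le_of_eq (by ring)) le_rfl x
  have L3 : L ≤ L ^ 3 := le_self_pow₀ L1 (by norm_num)
  have ex : ∃ k, w ≤ k ∧ 1 - M.z k ≤ 8 * u2 :=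
    ⟨S.Jp, h.w1.2, by rw [A.cl.top _ le_rfl]; linarith⟩
  classical
  have q1 := Nat.find_spec ex
  have q2 : Nat.find ex ≤ S.Jp := Nat.find_min' ex ⟨h.w1.2, by rw [A.cl.top _ le_rfl]; linarith⟩
  have ew := abs_le.1 h.ew
  obtain ⟨hb', H⟩ := A.plz (c := c) (er := L * (x0 + aw)) (Gp := S.C * S.θ * γ + √(GP M S / κ))
    (N0 := 16 * (L ^ 14 * N)) h.v1.1 h.v1.2 h.w1.1 q1.1 q2 P.γ0 c0 (by positivity) h.g0.1 ep
    (by positivity) κ0 (by linarith [h.w2.1, h.w2.2]) h.t0.1 h.t0.2.1 h.t0.2.2 h.e1.2.2 h.e1.2.1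
    h.conc ⟨ew.2, Gw.2⟩ (fun x => ⟨by linarith [ew.1], by linarith [Gw.1], h.mu x⟩)
    (fun k k1 k2 => by
      have k3 : 8 * u2 < 1 - M.z k := not_le.1 fun x => Nat.find_min ex k2 ⟨k1, x⟩
      obtain ⟨i, i1, i2, i3, i4⟩ := h.nx k k1 (by omega) k3
      have ρ0 : 0 ≤ 1 - M.z k := by linarith
      have ρ1 : 1 - M.z k ≤ 1 := by
        linarith [A.cl.leg.zm (Nat.zero_le k), A.cl.leg.z0, A.mem.a2, A.a_pos]
      have i5 : 0 < du M i := by linarith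
      have y1 := sh i _ (by omega) i2 i5 (by linarith) ρ0 (i3.trans (by gcongr; linarith))
      have y2 := ((s1 ρ0 ρ1).max (s2.mono θ0.le zero_le_one (by positivity) ρ0 le_rfl le_rfl
        le_rfl ρ1 le_rfl)).max y1
      set ai := (Lg ^ 2 * ap i) ^ 2
      have ai0 : 0 ≤ ai := sq_nonneg _
      have z1 := (le_max_left x0 aw).trans (le_max_left _ ai)
      have z2 := (le_max_right x0 aw).trans (le_max_left _ ai)
      have z3 := le_max_right (max x0 aw) ai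
      set y := max (max x0 aw) ai
      have y0 : 0 ≤ y := ai0.trans z3
      have z4 : ∀ r s, r ≤ L * (x0 + s) → s ≤ y → 0 ≤ s → M.b * r ≤ L ^ 3 * y := fun r s a1 a2 a3 =>
        calc M.b * r ≤ M.b * (L * (x0 + s)) := by gcongr
          _ ≤ L * (L * (y + y)) := by gcongr; linarith
          _ = L ^ 2 * 2 * y := by ring
          _ ≤ L ^ 2 * L * y := by gcongr; linarith
          _ = _ := by ring
      exact A.net_of h.w1.1 P.γ0 (by positivity) (by positivity) (by positivity) (le_refl (GP M S))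
        (cv (ml zero_le_one (up zero_le_one le_rfl s3) (by
          rw [mul_assoc]; gcongr; linarith)))
        (cv (ml zero_le_one (up zero_le_one le_rfl s4) (by gcongr; linarith))) le_rfl k1 i1 i2
        (z4 _ _ ew.2 z2 aw0) (z4 _ _ i4 z3 ai0) i3 (cv (ml ρ0 y2 le_rfl))) q1.2
  refine ⟨_, q1.1, q2, q1.2, hb', _, _, H, Pr.Reg48.pny_of L64 h.E1 N0 θ0 h.θ1 b1 (b2.trans CL) c0 c2
    h.κ1 h.θ2 T0 h.T1 h.Ch.1 h.Ch.2 h.e1.1 h.e1.2.1 ?_ ?_ h.g0.1 h.g0.2 g3 γ0 γ1 γ2 γ3 u0 u1' f1.1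
    h.τ0.1 h.τ0.2.1 h.τ0.2.2.1 h.τ0.2.2.2⟩
  · have := h.β0.1
    have := h.g0.1
    positivity
  · have y2 := ((((((s1 zero_le_one le_rfl).max s2).max (up zero_le_one le_rfl s3)).max
      (up zero_le_one le_rfl s4)).max (up zero_le_one le_rfl s5)).max
      (up zero_le_one le_rfl s6)).max (up zero_le_one le_rfl s7)
    refine ml zero_le_one y2 ?_
    generalize hy : max (max (max (max (max (max x0 aw) (S.θ * γ)) √(GP M S)) (g0 * γ))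
      (S.θ * u2)) (g0 * u2) = y
    have hy' := hy.le
    simp only [max_le_iff] at hy'
    obtain ⟨⟨⟨⟨⟨⟨z1, z2⟩, z3⟩, z4⟩, z5⟩, z6⟩, z7⟩ := hy'
    have y0 : 0 ≤ y := x00.trans z1
    have r1 : √(GP M S / κ) ≤ L * y := by
      refine le_trans (sqrt_le_iff.2 ⟨by positivity, ?_⟩) (mul_le_mul_of_nonneg_left z4 L0.le)
      rw [mul_pow, sq_sqrt GP0, div_le_iff₀ κ0]
      calc GP M S = 1 * GP M S * 1 := by ring
        _ ≤ L * GP M S * (L * κ) := by gcongr; exact h.κ1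
        _ = _ := by ring
    have r2 : S.C * S.θ * γ ≤ L * y := by rw [mul_assoc]; gcongr
    have r3 : (S.C * S.θ * γ + √(GP M S / κ) + S.C * S.θ * γ) / M.b ≤ 3 * (L * y) :=
      (div_le_self (by positivity) b1).trans (by linarith)
    have r4 : (0 * e * γ + (g + S.C * S.θ) * (γ + 8 * u2 * T)) / M.b ≤
        2 * (L * y) + 16 * (L * (L * y)) := by
      have := h.g0.1
      refine (div_le_self (by positivity) b1).trans ?_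
      calc 0 * e * γ + (g + S.C * S.θ) * (γ + 8 * u2 * T) = (g + S.C * S.θ) * (γ + 8 * u2 * T) := by
            ring
        _ ≤ (L * g0 + L * S.θ) * (γ + 8 * u2 * L) := by gcongr; exacts [h.g0.2, h.T1]
        _ = L * (g0 * γ) + L * (S.θ * γ) + 8 * (L * (L * (g0 * u2))) + 8 * (L * (L * (S.θ * u2))) := by
            ring
        _ ≤ L * y + L * y + 8 * (L * (L * y)) + 8 * (L * (L * y)) := by gcongr
        _ = _ := by ring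
    have r5 : L * (x0 + aw) ≤ L * (y + y) := by gcongr
    have r6 : βs ≤ L * y := h.β0.2.trans (by gcongr)
    have r7 : y ≤ L * y := le_mul_of_one_le_left y0 L1
    have r8 : L * y ≤ L * (L * y) := by gcongr
    have r9 : 64 * (L * (L * y)) ≤ L * (L * (L * y)) := by gcongr
    have := h.m1
    have : 0 ≤ L * y := by positivity
    calc _ ≤ L * (L * (L * y)) := by linarith
      _ = _ := by ring

theorem topZx (A : At S M m a T) {E Xp Vt V2 Lg Lp X2 X3 G0 G1 u1 u2 j γ Lc ηc τ N' N : ℝ}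
    {η : ℝ → ℝ} (P : LP E S M Xp Vt Lg Lp X2 X3 G0 G1 u1 u2 j γ Lc ηc τ η N')
    (Q : LC E S M Xp Vt V2 Lg Lp X2 G0 G1 u1 u2 j γ ηc τ η N) (η0 : 0 ≤ η 1 + X2)
    {L κ c θ' Ch e t0 g βs τ0 x0 : ℝ} {v w : ℕ} (hx : Pr.Reg48.Sm S.θ 1 (4 * N) 1 x0)
    (h : TZ S M m a T L E x0 (X2 + (S.θ + j + τ + γ) *
      min (S.θ + j + τ + γ) (Xp ^ ((1 : ℝ) / 3))) κ c θ' Ch e t0 g βs τ0 N Lg u2
      (ap M S Xp V2 γ) v w) :
    ∃ p, w ≤ p ∧ p ≤ S.Jp ∧ 1 - M.z p ≤ 8 * u2 ∧ ∃ hb' η0 N0,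
      PlZ (lb M S m a T) (lh M T) T M.b c (M.s S.J) (M.s S.Jp) γ (sb M m a (w + 1))
        (sb M m a (p + 1)) (resN (lb M S m a T) M.b (sb M m a) (hb M) (v + 1)) η0 g 0 N0 e
        (S.C * S.θ) κ (8 * u2) hb' ∧
      PNY T Ch M.b c θ' (η0 + βs + (0 * e * γ + (g + S.C * S.θ) * (γ + 8 * u2 * T)) / M.b) g e κ
        γ (8 * u2 * T) N0 τ0 (L ^ 23 * N) :=
  A.topG (A.tk_of P Q η0 h.L1
    ((one_le_pow₀ (by linarith [h.L1, A.cl.C1])).trans h.E1)) hx h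

theorem topZ (A : At S M m a T) {E Xp Vt Lg Lp X2 X3 G0 G1 u1 u2 j γ Lc ηc τ N : ℝ} {η : ℝ → ℝ}
    (P : LP E S M Xp Vt Lg Lp X2 X3 G0 G1 u1 u2 j γ Lc ηc τ η N) (η0 : 0 ≤ η 1 + X2)
    {L κ c θ' Ch e t0 g βs τ0 x0 : ℝ} {v w : ℕ} (hx : Pr.Reg48.Sm S.θ 1 (4 * N) 1 x0)
    (h : TZ S M m a T L E x0 (X2 + (S.θ + j + τ + γ) *
      min (S.θ + j + τ + γ) (Xp ^ ((1 : ℝ) / 3))) κ c θ' Ch e t0 g βs τ0 N Lg u2
      (ap M S Xp Vt γ) v w) :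
    ∃ p, w ≤ p ∧ p ≤ S.Jp ∧ 1 - M.z p ≤ 8 * u2 ∧ ∃ hb' η0 N0,
      PlZ (lb M S m a T) (lh M T) T M.b c (M.s S.J) (M.s S.Jp) γ (sb M m a (w + 1))
        (sb M m a (p + 1)) (resN (lb M S m a T) M.b (sb M m a) (hb M) (v + 1)) η0 g 0 N0 e
        (S.C * S.θ) κ (8 * u2) hb' ∧
      PNY T Ch M.b c θ' (η0 + βs + (0 * e * γ + (g + S.C * S.θ) * (γ + 8 * u2 * T)) / M.b) g e κ
        γ (8 * u2 * T) N0 τ0 (L ^ 23 * N) := A.topZx P P.lc η0 hx h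

/-- **the continuation from the cut node `w`, as `Cont`**, any size function -/
theorem topCG (A : At S M m a T) {E L γ u2 g0 Lg N : ℝ} {ap : ℕ → ℝ}
    (P : TK S M E L γ u2 g0 Lg N ap)
    {κ c θ' Ch e t0 g βs τ0 x0 : ℝ} {v w : ℕ} (hx : Pr.Reg48.Sm S.θ 1 (4 * N) 1 x0)
    (h : TZ S M m a T L E x0 g0 κ c θ' Ch e t0 g βs τ0 N Lg u2 ap v w) (hL : Spl27.GLip T Ch)
    (hq : ∀ r, M.s S.Jp ≤ r → r < T → Pr.Reg48.Gd (lh M T) r ≤ -c) :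
    ∃ p, w ≤ p ∧ p ≤ S.Jp ∧ 1 - M.z p ≤ 8 * u2 ∧ ∀ A1 A0 En : ℝ,
      0 ≤ A1 → A1 ≤ sb M m a (w + 1) → 0 ≤ A0 → A0 ≤ sb M m a (w + 1) →
      (∫ t in A0..T, Sc48.Jf (lh M T) (lb M S m a T) T t ^ 2) +
        (∫ t in (0:ℝ)..A0, |Sc48.Jf (lh M T) (lb M S m a T) T t|) ^ 2 ≤ En →
      Cut8.Cont T (fun t => lvr 1 (lb M S m a T) t - lvr 1 (lh M T) t)
        (fun t => Pr.Gam (lb M S m a T) t - Pr.Gam (lh M T) t)
        (resN (lb M S m a T) M.b (sb M m a) (hb M) (v + 1)) βs A1 (sb M m a (w + 1))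
        (8 * θ' * En + 10 * (L ^ 23 * N))
        (QZ (lb M S m a T) M.b c (M.s S.J) (M.s S.Jp) (sb M m a (w + 1)) (sb M m a (p + 1)) e κ
          (L ^ 23 * N)) := by
  obtain ⟨p, p1, p2, p3, hb', η1, N0, H0, n⟩ := A.topG P hx h
  exact ⟨p, p1, p2, p3, fun A1 A0 En a1 a2 a3 a4 a5 =>
    Pr.Lag8.contB H0 (fun s hs => A.lb_top hs) (H0.σ0.trans H0.σT) (by
      linarith [(A.sb_mem (le_refl S.Jp)).2, le_max_left (sb M m a (w + 1)) (M.s S.Jp), H0.M0])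
      h.Ch.1 hL a1 a2 h.β0.1 a3 a4 a5 hq n⟩

/-- **the continuation from the cut node `w`, as `Cont`** -/
theorem topC (A : At S M m a T) {E Xp Vt V2 Lg Lp X2 X3 G0 G1 u1 u2 j γ Lc ηc τ N' N : ℝ}
    {η : ℝ → ℝ} (P : LP E S M Xp Vt Lg Lp X2 X3 G0 G1 u1 u2 j γ Lc ηc τ η N')
    (Q : LC E S M Xp Vt V2 Lg Lp X2 G0 G1 u1 u2 j γ ηc τ η N) (η0 : 0 ≤ η 1 + X2)
    {L κ c θ' Ch e t0 g βs τ0 x0 : ℝ} {v w : ℕ} (hx : Pr.Reg48.Sm S.θ 1 (4 * N) 1 x0)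
    (h : TZ S M m a T L E x0 (X2 + (S.θ + j + τ + γ) *
      min (S.θ + j + τ + γ) (Xp ^ ((1 : ℝ) / 3))) κ c θ' Ch e t0 g βs τ0 N Lg u2
      (ap M S Xp V2 γ) v w) (hL : Spl27.GLip T Ch)
    (hq : ∀ r, M.s S.Jp ≤ r → r < T → Pr.Reg48.Gd (lh M T) r ≤ -c) :
    ∃ p, w ≤ p ∧ p ≤ S.Jp ∧ 1 - M.z p ≤ 8 * u2 ∧ ∀ A1 A0 En : ℝ,
      0 ≤ A1 → A1 ≤ sb M m a (w + 1) → 0 ≤ A0 → A0 ≤ sb M m a (w + 1) →
      (∫ t in A0..T, Sc48.Jf (lh M T) (lb M S m a T) T t ^ 2) +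
        (∫ t in (0:ℝ)..A0, |Sc48.Jf (lh M T) (lb M S m a T) T t|) ^ 2 ≤ En →
      Cut8.Cont T (fun t => lvr 1 (lb M S m a T) t - lvr 1 (lh M T) t)
        (fun t => Pr.Gam (lb M S m a T) t - Pr.Gam (lh M T) t)
        (resN (lb M S m a T) M.b (sb M m a) (hb M) (v + 1)) βs A1 (sb M m a (w + 1))
        (8 * θ' * En + 10 * (L ^ 23 * N))
        (QZ (lb M S m a T) M.b c (M.s S.J) (M.s S.Jp) (sb M m a (w + 1)) (sb M m a (p + 1)) e κ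
          (L ^ 23 * N)) :=
  A.topCG (A.tk_of P Q η0 h.L1
    ((one_le_pow₀ (by linarith [h.L1, A.cl.C1])).trans h.E1)) hx h hL hq

/-- **the continuation from the cut node `w`** -/
theorem topR (A : At S M m a T) {E Xp Vt Lg Lp X2 X3 G0 G1 u1 u2 j γ Lc ηc τ N : ℝ} {η : ℝ → ℝ}
    (P : LP E S M Xp Vt Lg Lp X2 X3 G0 G1 u1 u2 j γ Lc ηc τ η N) (η0 : 0 ≤ η 1 + X2)
    {L κ c θ' Ch e t0 g βs τ0 x0 : ℝ} {v w : ℕ} (hx : Pr.Reg48.Sm S.θ 1 (4 * N) 1 x0)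
    (h : TZ S M m a T L E x0 (X2 + (S.θ + j + τ + γ) *
      min (S.θ + j + τ + γ) (Xp ^ ((1 : ℝ) / 3))) κ c θ' Ch e t0 g βs τ0 N Lg u2
      (ap M S Xp Vt γ) v w) (hL : Spl27.GLip T Ch)
    (hq : ∀ r, M.s S.Jp ≤ r → r < T → Pr.Reg48.Gd (lh M T) r ≤ -c) :
    ∃ p, w ≤ p ∧ p ≤ S.Jp ∧ 1 - M.z p ≤ 8 * u2 ∧ ∀ (A1 A0 En : ℝ) (H r1 r2 ω β ξ : ℝ → ℝ),
      0 ≤ A1 → A1 ≤ sb M m a (w + 1) → 0 ≤ A0 → A0 ≤ sb M m a (w + 1) →
      (∫ t in A0..T, Sc48.Jf (lh M T) (lb M S m a T) T t ^ 2) +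
        (∫ t in (0:ℝ)..A0, |Sc48.Jf (lh M T) (lb M S m a T) T t|) ^ 2 ≤ En →
      Res T (fun t => lvr 1 (lb M S m a T) t - lvr 1 (lh M T) t)
        (fun t => Pr.Gam (lb M S m a T) t - Pr.Gam (lh M T) t) H r1 r2 ω β ξ A1 (sb M m a (w + 1)) →
      r2 (sb M m a (w + 1)) = resN (lb M S m a T) M.b (sb M m a) (hb M) (v + 1) →
      β (sb M m a (w + 1)) = βs → ∃ (H' r1' r2' ω' β' ξ' : ℝ → ℝ) (Z : ℝ),
      Res T (fun t => lvr 1 (lb M S m a T) t - lvr 1 (lh M T) t)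
        (fun t => Pr.Gam (lb M S m a T) t - Pr.Gam (lh M T) t) H' r1' r2' ω' β' ξ' A1 T ∧
      (∀ t, t < sb M m a (w + 1) → H' t = H t ∧ r1' t = r1 t ∧ r2' t = r2 t ∧ β' t = β t) ∧
      ∫ t in A1..T, ω' t ^ 2 = ∫ t in A1..sb M m a (w + 1), ω t ^ 2 ∧
      ∫ t in A1..T, H' t * (lvr 1 (lb M S m a T) t - lvr 1 (lh M T) t) =
        (∫ t in A1..sb M m a (w + 1), H t * (lvr 1 (lb M S m a T) t - lvr 1 (lh M T) t)) + Z ∧
      ∫ t in A1..T, ξ' t ≤ (∫ t in A1..sb M m a (w + 1), ξ t) + 8 * θ' * En + Z / 4 +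
        10 * (L ^ 23 * N) ∧
      QZ (lb M S m a T) M.b c (M.s S.J) (M.s S.Jp) (sb M m a (w + 1)) (sb M m a (p + 1)) e κ
        (L ^ 23 * N) Z := by
  obtain ⟨p, p1, p2, p3, hb', η1, N0, H0, n⟩ := A.topZ P η0 hx h
  refine ⟨p, p1, p2, p3, fun A1 A0 En H r1 r2 ω β ξ a1 a2 a3 a4 a5 R a6 a7 => ?_⟩
  subst a7
  obtain ⟨H', r1', r2', ω', β', ξ', Z, b1, b2, b3, b4, b5, b6, b7⟩ :=
    H0.resY (fun s hs => A.lb_top hs) (H0.σ0.trans H0.σT) (by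
      linarith [(A.sb_mem (le_refl S.Jp)).2, le_max_left (sb M m a (w + 1)) (M.s S.Jp), H0.M0])
      h.Ch.1 hL R a1 a2 a6 h.β0.1 a3 a4 a5 hq n
  exact ⟨H', r1', r2', ω', β', ξ', Z, b1, b2, b3, b4, b6, b5, b7⟩

end Crest.Agent.T156.Alt.Mp9.At

end
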