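import Crest.Agent.T156.PgR_33
import Crest.Agent.T156.TopZ_48

/-!
# Row 156, block (L): supply of plateau nodes for the top zone (helper33)
-/

set_option autoImplicit false
set_option linter.unusedSectionVars false

noncomputable section

namespace Crest.Agent.T156.Alt.Nd33

open Real Finset Filter
open Crest.Agent.T156.Alt.Md67 Crest.Agent.T156.Alt.L69 Crest.Agent.T156.Alt.E61
open Crest.Agent.T156.Alt.Mp9
open Crest.Agent.T156.Pr.Reg48 (Sm)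

variable {S : Sc} {M : Md} {m : ℕ} {a T Xp γ V : ℝ}

/-- the size with the deficit term -/
def apx (M : Md) (S : Sc) (Xp V γ Lg N2 : ℝ) (j : ℕ) : ℝ :=
  √((Lg ^ 2 * ap M S Xp V γ j) ^ 2 + N2 * √(GP M S / du M j))

theorem apx_sq {Lg N2 : ℝ} (N0 : 0 ≤ N2) (j : ℕ) : (1 ^ 2 * apx M S Xp V γ Lg N2 j) ^ 2 =
    (Lg ^ 2 * ap M S Xp V γ j) ^ 2 + N2 * √(GP M S / du M j) := by
  rw [one_pow, one_mul, apx, sq_sqrt (by positivity)]

theorem GP_nn (h : Cl S M) : 0 ≤ GP M S := sum_nonneg fun k _ =>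
  mul_nonneg (sub_nonneg.2 (h.leg.zm (Nat.sub_le k 1))) (sq_nonneg _)

theorem tk_apx (h : Cl S M) {E L u2 g0 Lg N N2 : ℝ}
    (P : At.TK S M E L γ u2 g0 Lg N (ap M S Xp V γ)) (L1 : 1 ≤ L) (N0 : 0 ≤ N2) (N1 : N2 ≤ 1) :
    At.TK S M E (2 * L) γ u2 g0 1 N (apx M S Xp V γ Lg N2) := by
  refine ⟨P.γ0, P.γ1, P.γ2, P.u0, P.c2, P.g3, fun i a1 a2 a3 a4 a5 => ?_⟩
  have n0 : 0 ≤ N := (sq_nonneg _).trans P.u0.2.2
  have θ0 := h.θ0.le
  have G0 := GP_nn h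
  have l5 : N ≤ L ^ 5 * N := le_mul_of_one_le_left n0 (one_le_pow₀ L1)
  have b : Sm S.θ 1 (L ^ 5 * N) (du M i) (N2 * √(GP M S / du M i)) := .inr (.inl (by
    rw [mul_pow, sq_sqrt (by positivity), mul_left_comm, mul_div_cancel₀ _ a3.ne']
    linarith [mul_le_mul_of_nonneg_right (pow_le_one₀ (n := 2) N0 N1) G0, P.c2,
      sq_nonneg (S.θ * γ), mul_le_mul_of_nonneg_left l5 θ0]))
  rw [apx_sq N0]
  exact ((P.sh i a1 a2 a3 a4 a5).add b θ0 zero_le_one (by positivity) a3.le).mono θ0 zero_le_one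
    (by positivity) a3.le le_rfl le_rfl (by linarith [show 0 ≤ L ^ 5 * N by positivity]) le_rfl
    le_rfl

/-- **supply**: `vc` is the sloped node at the corner, `v0` the node of the constant, good nodes
exist in the shells above the cut `u` -/
structure PV (W : ℝ) (S : Sc) (M : Md) (m : ℕ) (a T Xp γ V Lp Lg G ev N2 g x u : ℝ) (vc v0 : ℕ) :
    Prop where
  rn : RN W S M m a T γ V Lp Lg G ev N2 g x vc
  ex : ∀ k, S.J ≤ k → k ≤ S.Jp → u ≤ du M k → ∃ i, k < i ∧ i + 1 < S.Jp ∧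
    M.z (i - 1) ≤ M.z (k - 1) + ds M S k / 8 ∧ M.z i ≤ M.z (k - 1) + ds M S k / 4 ∧
    Gp W S M m a Xp V γ Lp i
  vt : ∀ i, S.J ≤ i → i ≤ S.Jp → 7 / 8 * u ≤ du M i → M.del m a i ≤ V
  r0 : |res M S m a T vc - res M S m a T v0| ≤ x
  g2 : g ^ 2 ≤ x

namespace PV
variable {W Lp Lg G ev N2 g x u L : ℝ} {vc v0 : ℕ}
  (H : PV W S M m a T Xp γ V Lp Lg G ev N2 g x u vc v0)
include H

theorem x0 : 0 ≤ x := (abs_nonneg _).trans H.r0

theorem g0 : 0 ≤ g := by linarith [H.rn.G0.1, H.rn.G0.2.1, H.rn.G0.2.2]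

/-- the residual at a good node -/
theorem rs {i : ℕ} (P : Gp W S M m a Xp V γ Lp i) (hu : 7 / 8 * u ≤ du M i)
    (hL : 2 * S.C * W ^ 4 * (4 * T + 5) ≤ L) :
    |res M S m a T v0 - res M S m a T i| ≤ L * (x + (1 ^ 2 * apx M S Xp V γ Lg N2 i) ^ 2) := by
  have R := H.rn
  have h := R.A.cl
  have a1 := R.rs P (H.vt i P.lo P.hi.le hu)
  have a2 : gd S M m a T i ≤ 4 * T + 2 := Tq5.abs_Gd R.A P.hi.le
  have T0 : 0 ≤ T := (h.s_nn _).trans R.A.t2
  have d1 : ds M S i ≤ 1 := (min_le_right _ _).trans (by unfold du; linarith [h.z_pos (i - 1)])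
  have x0 := H.x0
  have N0 := R.G0.2.1
  rw [apx_sq N0]
  set U := Lg ^ 2 * ap M S Xp V γ i
  have q0 : 0 ≤ N2 * √(GP M S / du M i) := by positivity
  have a3 : el S M m a T g U i ≤ x + (4 * T + 5) * U ^ 2 := by
    have := mul_le_mul_of_nonneg_left (show min U 1 + gd S M m a T i + ds M S i ≤ 4 * T + 4 by
      linarith [min_le_right U 1]) (sq_nonneg U)
    unfold el
    linarith [sq_nonneg (g - U), H.g2, sq_nonneg g, sq_nonneg U]
  have c1 : 1 ≤ 2 * S.C * W ^ 4 := by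
    linarith [mul_le_mul h.C1 (one_le_pow₀ (n := 4) R.W1) zero_le_one h.C0.le]
  set c := 2 * S.C * W ^ 4
  have a4 := mul_le_mul_of_nonneg_left a3 (zero_le_one.trans c1)
  have a5 := mul_le_mul_of_nonneg_right hL (show 0 ≤ x + (U ^ 2 + N2 * √(GP M S / du M i)) by
    positivity)
  have a6 := mul_le_mul_of_nonneg_right c1 x0
  have a7 : 0 ≤ c * T * (x + N2 * √(GP M S / du M i)) := by positivity
  have a8 : 0 ≤ c * (x + N2 * √(GP M S / du M i)) := by positivity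
  have a9 : 0 ≤ c * (N2 * √(GP M S / du M i)) := by positivity
  have := abs_sub_le (res M S m a T v0) (res M S m a T vc) (res M S m a T i)
  rw [abs_sub_comm (res M S m a T v0) (res M S m a T vc),
    abs_sub_comm (res M S m a T vc) (res M S m a T i)] at this
  linarith [H.r0]

/-- **a good node above `k`**: `w` of the top zone, with `TZ.ew` -/
theorem top {k : ℕ} (h0 : S.J ≤ k) (h1 : k ≤ S.Jp) (hu : u ≤ du M k)
    (hL : 2 * S.C * W ^ 4 * (4 * T + 5) ≤ L) : ∃ w, k < w ∧ w + 1 < S.Jp ∧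
      7 / 8 * du M k ≤ du M w ∧ Gp W S M m a Xp V γ Lp w ∧
      |res M S m a T v0 - res M S m a T w| ≤ L * (x + (1 ^ 2 * apx M S Xp V γ Lg N2 w) ^ 2) ∧
      M.G w ≤ S.C * S.θ * γ + 2 * √(GP M S / du M w) := by
  obtain ⟨i, i1, i2, i3, -, P⟩ := H.ex k h0 h1 hu
  have d : 7 / 8 * du M k ≤ du M i := by
    have : ds M S k ≤ du M k := min_le_right _ _
    unfold du at *
    linarith
  exact ⟨i, i1, i2, d, P, H.rs P (by linarith) hL, G_up H.rn.A H.rn.γ0 P.lo P.hi.le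
    ((SzT98.ds_pos H.rn.A.cl H.rn.u0 P.lo P.hi).trans_le (min_le_right _ _))⟩

/-- **`TZ.nx`** -/
theorem nx {u2 : ℝ} {w : ℕ} (hw : S.J ≤ w) (u0 : 0 ≤ u2) (hu : u ≤ 8 * u2)
    (hL : 2 * S.C * W ^ 4 * (4 * T + 5) ≤ L) : ∀ k, w ≤ k → k ≤ S.Jp → 8 * u2 < 1 - M.z k →
      ∃ j, k < j ∧ j ≤ S.Jp ∧ 1 - M.z k ≤ 4 * du M j ∧ res M S m a T v0 - res M S m a T j ≤
        L * (x + (1 ^ 2 * apx M S Xp V γ Lg N2 j) ^ 2) := by
  intro k k1 k2 k3
  have k4 : k < S.Jp := k2.lt_of_ne fun e => by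
    rw [e, H.rn.A.cl.top _ le_rfl] at k3; linarith
  have e : du M (k + 1) = 1 - M.z k := rfl
  obtain ⟨j, j1, j2, j3, -, j4, -⟩ := H.top (k := k + 1) (by omega) k4 (by linarith) hL
  exact ⟨j, by omega, by omega, by linarith, (le_abs_self _).trans j4⟩

end PV

end Crest.Agent.T156.Alt.Nd33

end
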