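import Crest.Agent.T156.TxC_65
import Crest.Agent.T156.PgT_33
import Crest.Agent.T156.SzL_32
import Crest.Agent.T156.SzS_50
import Crest.Agent.T156.SzP_98

/-!
# Row 156, block (L) (helper5): the supply of plateau nodes under the hypotheses of `TxS`
-/

set_option autoImplicit false
set_option maxHeartbeats 800000

noncomputable section

namespace Crest.Agent.T156.Alt.L31

open Real Finset
open Crest.Agent.T156.Alt.Mp9 Crest.Agent.T156.Alt.L69 Crest.Agent.T156.Alt.E61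
open Crest.Agent.T156.Alt.Nd33 Crest.Agent.T156.Alt.Md67
open Crest.Agent.T156.Alt.G89 (Gc Mg Lo)
open Crest.Agent.T156.Alt.Nd22 (U)

/-- the cut of the supply -/
def uP (p : Pa) : ℝ := 3 * max p.u1 (p.u2 / 8)

/-- the inputs on the plateau at the loss `Λ` -/
structure Pw (Λ : ℝ) (S : Sc) (M : Md) (m : ℕ) (a : ℝ) (p : Pa) : Prop where
  Λ1 : 1 ≤ Λ
  po : 8 * S.jl ≤ S.J → ∀ v G ev N2, v ≤ S.J → SV S M m a v G ev → Nu M m a (u4 M m a) 2 ≤ N2 →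
    PO Λ S M m a G ev N2
  rh : RH S M m a p.Xp p.γ
  ex : ∀ k, S.J ≤ k → k ≤ S.Jp → uP p ≤ du M k → ∃ i, k < i ∧ i + 1 < S.Jp ∧
    M.z (i - 1) ≤ M.z (k - 1) + L69.ds M S k / 8 ∧ M.z i ≤ M.z (k - 1) + L69.ds M S k / 4 ∧
    Gp Λ S M m a p.Xp p.V2 p.γ p.Lp i
  vt : ∀ i, S.J ≤ i → i ≤ S.Jp → max p.u1 (p.u2 / 8) ≤ du M i → M.del m a i ≤ p.V2
  ss : ∑ k ∈ Ico S.J M.N, M.dz m a k * u4 M m a k ^ 2 ≤ Λ * Np M S p.Xp p.Vt p.γ p.u1 p.Lp 2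
  sl : ∀ (q : ℕ) (k0 ρ : ℝ), q < S.J → 2 * S.J ≤ 3 * q → 1 ≤ k0 →
    (∀ i : ℕ, S.J / 2 ≤ i → i ≤ q → M.rb m a q - M.rb m a i ≤ k0 * (((q : ℝ) - i) * S.v)) →
    M.rb m a (S.J - 1) - M.rb m a q ≤ ρ →
    ∑ k ∈ Ico q S.J, M.dz m a k * u4 M m a k ^ 2 ≤
      Λ * (((S.J : ℝ) - q) * S.v * (k0 ^ ((2 : ℝ) / 3) * S.w3 1 ^ ((1 : ℝ) / 3)) ^ 2 +
        √(S.w3 1 * ρ ^ 3) + √(S.w3 1 * p.Xp) + Np M S p.Xp p.Vt p.γ p.u1 p.Lp 2)

/-- **(PwS)** -/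
def PwS : Prop := CL fun E Λ S M m a => ∀ p lam, Hx E lam S M m a p → Pw Λ S M m a p

theorem pwS : PwS :=
  ((ndP.and (pgS_of (szQ0_of SzT98.szQ))).and ((S50.szS_of SzT98.szQ).and SzT98.szL)).mono
  fun E Λ S M m a E1 Λ1 h _ ⟨⟨p1, p2⟩, p3, p4⟩ p lam H => by
    have F := Tg64.far_LP E1 h H.ln H.lp
    have u12 := H.lp.u1b
    have u0 : 0 ≤ p.u1 := le_trans (by linarith [h.leg.z1 (S.Jp - 1), h.last]) F.u1a
    have vt : ∀ i, S.J ≤ i → i ≤ S.Jp → max p.u1 (p.u2 / 8) ≤ du M i → M.del m a i ≤ p.V2 :=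
      fun i a b c => H.ap2 i a b ((le_max_left _ _).trans c)
        (by linarith [(le_max_right _ _).trans c])
    have F' : SzT98.Far E S M p.Xp p.V2 p.γ (max p.u1 (p.u2 / 8)) p.Lp :=
      ⟨F.u0, F.jl, F.rev, F.Xp0, H.lc.v2.1, F.u1a.trans (le_max_left _ _),
        (mul_le_mul_of_nonneg_left (max_le u12.1 (by linarith [u12.1])) (by linarith)).trans u12.2,
        F.γ0, F.γ1, F.Lp1, fun i k a b c d => F.far i k a b c ((le_max_left _ _).trans d)⟩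
    have A' : Ap S M m a p.l0 p.X p.Xp p.V2 (max p.u1 (p.u2 / 8)) p.j :=
      ⟨H.ap.all, H.ap.top, vt, H.ap.j0, H.ap.jn.dj1, H.ap.jn.dj2, H.ap.jn.u03,
        fun k a b c => H.ap.jn.fine k a b ((le_max_left _ _).trans c)⟩
    obtain ⟨R, e⟩ := p2 _ _ _ _ _ _ _ _ F' A'
    refine ⟨Λ1, p1 H.ln.HJ (le_trans ?_ (H.ln.Lg0.trans H.ln.Lg1)), R, e, vt,
      p3 _ _ _ _ _ _ _ _ F H.ap 2 le_rfl (by norm_num), p4 _ _ _ _ _ _ _ _ F H.ap⟩
    exact (le_self_pow₀ h.F1 two_ne_zero).trans (le_mul_of_one_le_left (sq_nonneg _) E1)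

/-- the atoms of the uniform error: `ℓ` is the distance of the sloped node to the corner, `Dv` the
lag of its time -/
def xa (S : Sc) (M : Md) (p : Pa) (ℓ Dv : ℝ) : ℝ :=
  p.ηc + p.η 1 + p.G0 ^ 2 + Np M S p.Xp p.Vt p.γ p.u1 p.Lp 2 + √(S.w3 1 * p.Xp) + p.γ ^ 3 +
    U S p.Lc 1 ^ 2 * ℓ + √(S.w3 1 * ℓ ^ 3) + p.X2 * (p.V2 + p.γ + Dv)

theorem sq3 {w x y z K : ℝ} (w0 : 0 ≤ w) (x0 : 0 ≤ x) (y0 : 0 ≤ y) (z0 : 0 ≤ z) (K1 : 1 ≤ K) :
    √(w * (K * (x + y + z)) ^ 3) ≤ 3 * K ^ 2 * (√(w * x ^ 3) + √(w * y ^ 3) + √(w * z ^ 3)) := by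
  have a1 : (x + y + z) ^ 3 ≤ 9 * (x ^ 3 + y ^ 3 + z ^ 3) := by
    nlinarith [mul_nonneg (add_nonneg x0 y0) (sq_nonneg (x - y)),
      mul_nonneg (add_nonneg x0 z0) (sq_nonneg (x - z)),
      mul_nonneg (add_nonneg y0 z0) (sq_nonneg (y - z)), mul_nonneg x0 (sq_nonneg (y - z)),
      mul_nonneg y0 (sq_nonneg (x - z)), mul_nonneg z0 (sq_nonneg (x - y))]
  refine sqrt_le_iff.2 ⟨by positivity, ?_⟩
  have b1 := sq_sqrt (show 0 ≤ w * x ^ 3 by positivity)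
  have b2 := sq_sqrt (show 0 ≤ w * y ^ 3 by positivity)
  have b3 := sq_sqrt (show 0 ≤ w * z ^ 3 by positivity)
  have c1 := sqrt_nonneg (w * x ^ 3)
  have c2 := sqrt_nonneg (w * y ^ 3)
  have c3 := sqrt_nonneg (w * z ^ 3)
  generalize √(w * x ^ 3) = p at *
  generalize √(w * y ^ 3) = q at *
  generalize √(w * z ^ 3) = r at *
  have a2 : w * (x + y + z) ^ 3 ≤ 9 * (p + q + r) ^ 2 := by
    linarith [mul_le_mul_of_nonneg_left a1 w0, mul_nonneg c1 c2, mul_nonneg c1 c3, mul_nonneg c2 c3]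
  calc _ = K ^ 3 * (w * (x + y + z) ^ 3) := by ring
    _ ≤ K ^ 4 * (9 * (p + q + r) ^ 2) :=
      mul_le_mul (pow_le_pow_right₀ K1 (by norm_num)) a2 (by positivity) (by positivity)
    _ = _ := by ring

variable {D E Λ Λ0 L W3 lam : ℝ} {S : Sc} {M : Md} {m : ℕ} {a : ℝ} {p : Pa}

/-- the rise above a sloped node -/
theorem Pw.rise (P : Pw Λ S M m a p) {q : ℕ} {ℓ : ℝ} (hq : q < S.J)
    (hl : ((S.J : ℝ) - q) * S.v ≤ ℓ) : M.rb m a (S.J - 1) - M.rb m a q ≤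
      14 * S.C ^ 4 * (p.γ + p.Xp ^ ((1 : ℝ) / 3) + ℓ) := by
  have R := P.rh
  have h := R.cl
  have C1 := h.C1
  have C0 := h.C0
  have v0 := h.v0
  have g0 := R.γ_nn
  have p3 := Sz9.rp3 R.X0.le
  have p0 : 0 < p.Xp ^ ((1 : ℝ) / 3) := rpow_pos_of_pos R.X0 _
  have c4 : 1 ≤ S.C ^ 4 := one_le_pow₀ C1
  have c1 : S.C ≤ S.C ^ 4 := le_self_pow₀ C1 (by norm_num)
  have a1 := R.rise (b := S.J) le_rfl h.i3 q
  have a2 := R.up (b := S.J) le_rfl h.i3 (W := 1 / S.C) (by positivity) (by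
    have := h.atom.2
    have : 0 < 1 / S.C := by positivity
    unfold du; linarith)
  have x1 := R.X1
  have a3 : √(p.Xp / (1 / S.C)) ≤ S.C * p.Xp ^ ((1 : ℝ) / 3) := by
    refine sqrt_le_iff.2 ⟨by positivity, ?_⟩
    rw [div_div_eq_mul_div, div_one]
    generalize p.Xp ^ ((1 : ℝ) / 3) = r at *
    have r1 : r ≤ 1 := by nlinarith
    rw [← p3]
    calc r ^ 3 * S.C ≤ r ^ 2 * S.C ^ 2 := mul_le_mul (pow_le_pow_of_le_one p0.le r1 (by norm_num))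
          (le_self_pow₀ C1 two_ne_zero) C0.le (by positivity)
      _ = _ := by ring
  rw [Nat.cast_sub hq.le] at a1
  have a4 : S.v ≤ ℓ := le_trans (le_mul_of_one_le_left v0.le (by
    have : ((q + 1 : ℕ) : ℝ) ≤ S.J := by exact_mod_cast hq
    push_cast at this; linarith)) hl
  have a5 : max (M.del m a S.J) 0 ≤ p.γ + 2 * (S.C * p.Xp ^ ((1 : ℝ) / 3)) :=
    max_le (by linarith) (by positivity)
  linarith [Md67.rb_mono (M := M) (a := a) R.m0 (Nat.sub_le S.J 1),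
    mul_le_mul_of_nonneg_left hl (by positivity : 0 ≤ 12 * S.C ^ 4),
    mul_le_mul c1 a4 v0.le (by positivity), mul_le_mul_of_nonneg_right c4 g0,
    mul_le_mul_of_nonneg_right c1 p0.le, mul_nonneg (pow_pos C0 4).le g0, mul_pos (pow_pos C0 4) p0]

/-- **the supply** from a good node `vc` of the corner -/
theorem pv_of (W : Cw D E Λ0 L W3 lam S M m a p) (H : Hx E lam S M m a p) (P : Pw Λ S M m a p)
    (hΛ : Λ ≤ D) {vc v0 : ℕ} {ℓ Dv x : ℝ} (lo : Lo S M vc)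
    (gc : Gc S M m a p.l0 p.V L p.Lc vc) (mg : Mg S p.Lc vc) (hl : ((S.J : ℝ) - vc) * S.v ≤ ℓ)
    (D0 : 0 ≤ Dv) (hD : M.s S.J - sb M m a (vc + 1) ≤ Dv)
    (r0 : |res M S m a (2 * S.C) vc - res M S m a (2 * S.C) v0| ≤ x)
    (hx : D ^ 29 * S.F * xa S M p ℓ Dv ≤ x) : ∃ G ev g, 0 ≤ D ^ 4 * p.X2 ∧ D ^ 4 * p.X2 ≤ 1 ∧
      PV Λ S M m a (2 * S.C) p.Xp p.γ p.V2 p.Lp p.Lg G ev (D ^ 4 * p.X2) g x (uP p) vc v0 := by
  have K := W.cc H
  have Z := W.Z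
  have A := Z.A
  have h := A.cl
  have Lm := lg A
  have C1 := h.C1
  have C0 := h.C0
  have v0' := h.v0
  have D4 := Z.D4
  have D1 : 1 ≤ D := by linarith
  obtain ⟨ψ1, ψ9⟩ := psi_spec h
  have ψ6 : psi S ^ 6 ≤ S.F := (pow_le_pow_right₀ ψ1 (by norm_num)).trans ψ9.le
  have ψ4 : psi S ^ 4 ≤ S.F := (pow_le_pow_right₀ ψ1 (by norm_num)).trans ψ9.le
  have F1 := h.F1
  have hi : vc < S.J := by have := mg.1; omega
  have X20 := Z.X20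
  have G00 := Z.G00
  have g0 := W.γ0
  have V0 := H.lc.v2.1
  have u0 := K.u0
  have e0 := K.η0
  have L1 := K.L1
  have E1 := Z.E1
  have w0 := Z.w3p one_pos
  obtain ⟨q1, q2, q3⟩ := K.parts
  have X1 : D ^ 4 * p.X2 ≤ 1 := by
    linarith [mul_le_mul_of_nonneg_right (Z.DpE (show 4 ≤ 40 by norm_num)) X20, H.ln.th3,
      Z.mf_le p.l]
  have X2' : p.X2 ≤ 1 := (le_mul_of_one_le_left X20 (one_le_pow₀ D1)).trans X1
  have U3 := G89.U_cube (S := S) (κ := p.Lc) (t := 1) (by linarith) w0.le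
  have U1 : U S p.Lc 1 ≤ 1 := by
    nlinarith [K.thk, Z.mf_le 1, mul_le_mul_of_nonneg_right E1 (sq_nonneg (U S p.Lc 1))]
  have w1 : S.w3 1 ≤ U S p.Lc 1 ^ 3 := by
    rw [U3]; exact le_mul_of_one_le_left w0.le (one_le_pow₀ L1)
  have gw : gg S 1 = S.w3 1 := by rw [Sc.w3, gg, mul_one]
  rw [gw] at q1
  have s0 := sqrt_nonneg (p.Lc * S.w3 1)
  have s1 : √(p.Lc * S.w3 1) ≤ U S p.Lc 1 := by
    refine sqrt_le_iff.2 ⟨u0.le, le_of_pow_le_pow_left₀ three_ne_zero (by positivity) ?_⟩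
    rw [← pow_mul, mul_comm 2 3, pow_mul, U3]
    have := (w1.trans (pow_le_one₀ u0.le U1)).trans L1
    calc _ = p.Lc ^ 3 * S.w3 1 ^ 2 * S.w3 1 := by ring
      _ ≤ p.Lc ^ 3 * S.w3 1 ^ 2 * p.Lc := by gcongr
      _ = _ := by ring
  have x0 := sqrt_nonneg p.X2
  have x1 : p.X2 ≤ √p.X2 := le_sqrt_of_sq_le (pow_le_of_le_one X20 X2' two_ne_zero)
  have X30 := Z.X30
  have n0 : (0 : ℝ) ≤ 1 / S.n := by positivity
  have U30 : 0 ≤ U S p.Lc 1 ^ 3 := by positivity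
  have y0 : √(p.Lc * S.w3 1) ^ 2 + p.X2 ^ 2 + S.w3 1 + 1 / S.n ≤ p.ηc := by
    linarith [mul_le_mul_of_nonneg_left s1 s0, mul_le_mul_of_nonneg_left x1 X20, mul_nonneg s0 x0,
      mul_nonneg G00 u0.le, mul_nonneg G00 x0, mul_nonneg X20 u0.le]
  obtain ⟨b1, G, sv, b2⟩ := K.sv lo gc mg
  rw [gw] at b2
  have G0' : 0 ≤ G := sv.tn.gm.1
  have n2 : Nu M m a (u4 M m a) 2 ≤ D ^ 4 * p.X2 := Z.no.n2.trans (mul_le_mul_of_nonneg_right (by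
    rw [pow_succ' D 3]
    exact mul_le_mul Z.ΛD (pow_le_pow_left₀ (by linarith [Z.ni.L1]) Z.LD 3)
      (by have := Z.ni.L1; positivity) (by linarith)) X20)
  have j8 : 8 * S.jl ≤ S.J := by
    have a1 := (W.fn.s_mem h.jl_lt.le).1
    have a2 : 24 * S.C ^ 4 * M.s S.jl ≤ 1 := le_trans (mul_le_mul_of_nonneg_right
      (by linarith [Z.Cp (show 4 ≤ 10 by norm_num), Z.D_E, pow_pos C0 4]) (h.s_nn _)) W.far.jl
    have a3 : S.C ^ 3 * S.v * (8 * S.jl) ≤ S.C ^ 3 * S.v * S.J := by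
      linarith [W.fn.J_lo, mul_le_mul_of_nonneg_left a1 (pow_pos C0 3).le]
    exact_mod_cast le_of_mul_le_mul_left a3 (by positivity)
  have c1 : 1 ≤ (D ^ 3 * psi S) ^ 3 := one_le_pow₀ (by linarith [K.Dc'])
  have l0 : 0 ≤ ℓ := le_trans (mul_nonneg (sub_nonneg.2 (by exact_mod_cast hi.le)) v0'.le) hl
  have R0 : 0 ≤ p.Xp ^ ((1 : ℝ) / 3) := K.R0
  have lo1 := lo.1
  have s2 := P.sl vc ((D ^ 3 * psi S) ^ 3 * p.Lc) _ hi lo.1 (one_le_mul_of_one_le_of_one_le c1 L1)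
    (fun r r1 r2 => by
      rcases le_or_gt (vc - vc / 3) r with e | e
      · exact (Z.cx.cone_dn gc (by linarith) hi.le (y := vc) (by omega) hi.le (K.cq_le' lo hi) e
          r2).trans_eq (by ring)
      · refine K.far lo hi ?_ _ _
        have : vc + 3 * r ≤ 3 * vc := by omega
        have : (vc : ℝ) + 3 * r ≤ 3 * vc := by exact_mod_cast this
        linarith) (P.rise hi hl)
  rw [G89.kp23 (by positivity) (by linarith)] at s2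
  have c4 : 1 ≤ 14 * S.C ^ 4 := by linarith [one_le_pow₀ (n := 4) C1]
  have s3 := sq3 w0.le g0 R0 l0 c4
  rw [Sz9.rp3 H.lp.Xp0.1.le] at s3
  have s4 : √(S.w3 1 * p.γ ^ 3) ≤ S.w3 1 + p.γ ^ 3 := sqrt_le_iff.2 ⟨by positivity, by
    have : 0 ≤ S.w3 1 * p.γ ^ 3 := by positivity
    linarith [sq_nonneg (S.w3 1), sq_nonneg (p.γ ^ 3)]⟩
  have s5 : ∑ k ∈ Ioo vc S.Jp, M.dz m a k * u4 M m a k ^ 2 ≤
      ∑ k ∈ Ico vc S.J, M.dz m a k * u4 M m a k ^ 2 +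
        ∑ k ∈ Ico S.J M.N, M.dz m a k * u4 M m a k ^ 2 := by
    rw [sum_Ico_consecutive _ hi.le h.J_lt.le]
    exact sum_le_sum_of_subset_of_nonneg (fun k hk => by
      have := mem_Ioo.1 hk
      have := h.i4
      exact mem_Ico.2 ⟨by omega, by omega⟩) fun k _ _ => mul_nonneg (Lm.dz_nonneg k) (sq_nonneg _)
  have s6 := P.ss
  have Λ1 := P.Λ1
  have N0 : 0 ≤ Np M S p.Xp p.Vt p.γ p.u1 p.Lp 2 := (mul_nonneg_iff_of_pos_left (by linarith)).1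
    (le_trans (sum_nonneg fun k _ => mul_nonneg (Lm.dz_nonneg k) (sq_nonneg _)) s6)
  have t1 : u4 M m a vc ^ 2 * gd S M m a (2 * S.C) vc ≤
      D ^ 17 * psi S ^ 4 * (2 * p.ηc + p.γ ^ 3) := by
    refine (mul_le_mul (pow_le_pow_left₀ (u4_nn _) b1 2) (K.out vc lo.2 hi) (abs_nonneg _)
      (by positivity)).trans ?_
    have := mul_le_mul_of_nonneg_left (show U S p.Lc 1 ^ 2 * (S.θ + p.j + p.γ +
      p.Xp ^ ((1 : ℝ) / 3)) ≤ 2 * p.ηc + p.γ ^ 3 by linarith [K.uγ])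
      (by positivity : 0 ≤ D ^ 17 * psi S ^ 4)
    linarith
  have t2 : ((S.J : ℝ) - vc) * S.v * ((D ^ 3 * psi S) ^ 2 * p.Lc ^ ((2 : ℝ) / 3) *
      S.w3 1 ^ ((1 : ℝ) / 3)) ^ 2 ≤ D ^ 12 * psi S ^ 4 * (U S p.Lc 1 ^ 2 * ℓ) :=
    (mul_le_mul_of_nonneg_right hl (sq_nonneg _)).trans_eq (by rw [U, Sz9.w1]; ring)
  have y1 := sqrt_nonneg (S.w3 1 * p.Xp)
  have y2 := sqrt_nonneg (S.w3 1 * ℓ ^ 3)
  have y3 : 0 ≤ U S p.Lc 1 ^ 2 * ℓ := by positivity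
  have y4 : 0 ≤ p.X2 * (p.V2 + p.γ + Dv) := by positivity
  have y5 : 0 ≤ p.γ ^ 3 := by positivity
  have y6 := sq_nonneg p.G0
  have y7 := sq_nonneg p.X2
  have y8 := sq_nonneg √(p.Lc * S.w3 1)
  have X0 : 0 ≤ xa S M p ℓ Dv := by unfold xa; positivity
  have k0 : ∀ i ≤ 28, ∀ c y, 0 ≤ c → c ≤ S.F → 0 ≤ y → y ≤ 10 * xa S M p ℓ Dv →
      D ^ i * c * y ≤ x / 10 := fun i hi c y c0 c1 y0 y1 => by
    have a1 : D ^ i * c * y ≤ D ^ 28 * S.F * (10 * xa S M p ℓ Dv) := by gcongr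
    have a2 := mul_le_mul_of_nonneg_right D4 (by positivity : 0 ≤ D ^ 28 * S.F * xa S M p ℓ Dv)
    have a3 : 0 ≤ D ^ 28 * S.F * xa S M p ℓ Dv := by positivity
    linarith
  have C8 : 3 * (14 * S.C ^ 4) ^ 2 ≤ D := by linarith [Z.Cp (show 8 ≤ 10 by norm_num), pow_pos C0 8]
  refine ⟨G, D ^ 28 * psi S ^ 6 * (p.ηc + p.η 1), G + D ^ 4 * p.X2, by positivity, X1,
    ⟨A, Λ1, W.θ1, H.lp.u0, H.lp.γ0, V0, ⟨H.lp.Lp1.1, H.lp.Lp2⟩, E1.trans Z.EL,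
      P.po j8 vc _ _ _ hi.le sv n2, ⟨G0', by positivity, le_rfl⟩, hi, G, _, Dv, sv, by positivity,
      by positivity, D0, hD, ?_⟩, P.ex, fun i a1 a2 a3 => P.vt i a1 a2 ?_, r0, ?_⟩
  · have a1 := k0 28 le_rfl _ (p.ηc + p.η 1) (by positivity) ψ6 (by positivity)
      (by unfold xa; linarith)
    have a2 := k0 17 (by norm_num) _ (2 * p.ηc + p.γ ^ 3) (by positivity) ψ4 (by positivity)
      (by unfold xa; linarith)
    have a3 := k0 0 (by norm_num) 1 (S.w3 1 + 1 / S.n) zero_le_one F1 (by positivity)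
      (by unfold xa; linarith)
    have a4 := k0 13 (by norm_num) _ _ (by positivity) ψ4 y3 (by unfold xa; linarith)
    have a5 := k0 2 (by norm_num) 1 (S.w3 1 + p.γ ^ 3 + √(S.w3 1 * p.Xp) + √(S.w3 1 * ℓ ^ 3))
      zero_le_one F1 (by positivity) (by unfold xa; linarith)
    have a6 := k0 1 (by norm_num) 1 (√(S.w3 1 * p.Xp) + 2 * Np M S p.Xp p.Vt p.γ p.u1 p.Lp 2)
      zero_le_one F1 (by positivity) (by unfold xa; linarith)
    have a7 := k0 4 (by norm_num) 1 _ zero_le_one F1 y4 (by unfold xa; linarith)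
    have a8 := s3.trans (mul_le_mul C8 (show _ ≤ S.w3 1 + p.γ ^ 3 + √(S.w3 1 * p.Xp) +
      √(S.w3 1 * ℓ ^ 3) by linarith) (by positivity) (by linarith))
    have a9 := s2.trans ((mul_le_mul_of_nonneg_left (add_le_add (add_le_add (add_le_add t2 a8) le_rfl)
      le_rfl) (by linarith)).trans (mul_le_mul_of_nonneg_right hΛ (by positivity)))
    have a10 := mul_le_mul_of_nonneg_right hΛ N0
    have xx : 0 ≤ x := (abs_nonneg _).trans r0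
    linarith
  · have : 0 ≤ max p.u1 (p.u2 / 8) := le_max_of_le_left (le_trans
      (by linarith [h.leg.z1 (S.Jp - 1), h.last]) H.lp.u1a)
    unfold uP at a3
    linarith
  · have a1 := k0 18 (by norm_num) _ (4 * (√(p.Lc * S.w3 1) ^ 2 + p.G0 ^ 2)) (by positivity) ψ4
      (by positivity) (by unfold xa; linarith)
    have a2 := k0 8 (by norm_num) 1 (2 * p.X2 ^ 2) zero_le_one F1 (by positivity)
      (by unfold xa; linarith)
    have a3 := pow_le_pow_left₀ G0' b2 2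
    have a4 := mul_nonneg (by positivity : 0 ≤ D ^ 18 * psi S ^ 4)
      (sq_nonneg (√(p.Lc * S.w3 1) - p.G0))
    have xx : 0 ≤ x := (abs_nonneg _).trans r0
    linarith [sq_nonneg (G - D ^ 4 * p.X2)]

theorem uP_le (h : Cl S M) (H : Hx E lam S M m a p) : uP p ≤ 8 * p.u2 := by
  have a1 := H.lp.u1b.1
  have a2 : 0 ≤ p.u1 := le_trans (by linarith [h.leg.z1 (S.Jp - 1), h.last]) H.lp.u1a
  have : max p.u1 (p.u2 / 8) ≤ p.u2 := max_le a1 (by linarith)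
  unfold uP
  linarith

end Crest.Agent.T156.Alt.L31

end
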