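import Crest.Agent.T156.TopZ_48

/-!
Row 156, block (L) (helper14): the numbers of the corner.
-/

set_option autoImplicit false

noncomputable section

namespace Crest.Agent.T156.Alt.X14

open Real
open Crest.Agent.T156.Pr.Reg48 (Sm)

/-- the numbers read by the corner; `G = Γ ^ (1/3)`, `w = w3 1`, `R = Xp ^ (1/3)` -/
structure Nm (E θ j τ γ R X2 w G N N0 : ℝ) : Prop where
  θ0 : 0 < θ ∧ θ ≤ 1
  j0 : 0 ≤ j ∧ j ≤ 1
  τ0 : 0 ≤ τ ∧ τ ≤ R ∧ R ≤ 1
  γ0 : 0 ≤ γ ∧ γ ≤ 1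
  X0 : 0 ≤ X2 ∧ X2 ≤ 1
  w0 : 0 ≤ w ∧ w ≤ τ ^ 3
  G0 : 0 ≤ G ∧ G ^ 3 ≤ θ * N
  N0 : 0 ≤ N ∧ N ≤ N0 ∧ X2 ^ 2 ≤ N0
  γ3 : γ ^ 3 ≤ N ∧ γ * X2 ≤ N
  c9 : (w * R ^ 3) ^ 3 ≤ N ^ 4
  c5 : Sm θ 1 N 1 (X2 * R + (θ + j + τ + γ) * min (θ + j + τ + γ) R ^ 2)
  c5' : (X2 + (θ + j + τ + γ) * min (θ + j + τ + γ) R) ^ 3 ≤ N ∨
    E * (X2 + (θ + j + τ + γ) * min (θ + j + τ + γ) R) ≤ θ

theorem sm3 {θ N x : ℝ} (h : x ^ 3 ≤ N ^ 2) : Sm θ 1 N 1 x := .inr (.inr (by linarith))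
theorem sm2 {θ N x : ℝ} (h : x ^ 2 ≤ θ * N) : Sm θ 1 N 1 x := .inr (.inl (by linarith))

theorem min_le14 {P A R y aa Lr : ℝ} (P0 : 0 ≤ P) (R0 : 0 ≤ R) (y0 : 0 ≤ y) (h1 : aa ≤ P * A)
    (h2 : Lr ≤ P * (R + y)) : min (2 * aa) Lr ≤ 2 * P * (min A R + y) := by
  have := mul_nonneg P0 y0
  have := mul_nonneg P0 R0
  rcases le_total A R with c | c
  · rw [min_eq_left c]; exact (min_le_left _ _).trans (by linarith)
  · rw [min_eq_right c]; exact (min_le_right _ _).trans (by linarith)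

namespace Nm

variable {E θ j τ γ R X2 w G N N0 : ℝ} (h : Nm E θ j τ γ R X2 w G N N0)
include h

theorem R0 : 0 ≤ R := h.τ0.1.trans h.τ0.2.1
theorem wR : w ≤ R ^ 3 := h.w0.2.trans (pow_le_pow_left₀ h.τ0.1 h.τ0.2.1 3)
theorem w1 : w ≤ 1 := h.wR.trans (pow_le_one₀ h.R0 h.τ0.2.2)
theorem G3 : G ^ 3 ≤ N := h.G0.2.trans (mul_le_of_le_one_left h.N0.1 h.θ0.2)

theorem up {x : ℝ} (s : Sm θ 1 N 1 x) : Sm θ 1 N0 1 x :=
  s.mono h.θ0.1.le zero_le_one h.N0.1 zero_le_one le_rfl le_rfl h.N0.2.1 le_rfl le_rfl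

/-- the clock term of `Rs` -/
theorem smZ : Sm θ 1 N 1 √(w * max R (max γ G) ^ 3) := by
  have w0 := h.w0.1
  have R0 := h.R0
  have N0 := h.N0.1
  have γ0 := h.γ0.1
  have G0 := h.G0.1
  rcases le_total (max γ G) R with c | c
  · rw [max_eq_left c]
    refine sm3 (le_of_pow_le_pow_left₀ two_ne_zero (sq_nonneg _) ?_)
    rw [← pow_mul, mul_comm 3 2, pow_mul, sq_sqrt (by positivity), ← pow_mul]
    exact h.c9
  rw [max_eq_right c]
  rcases le_total G γ with d | d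
  · rw [max_eq_left d] at c ⊢
    have a : √(w * γ ^ 3) ≤ γ ^ 3 := sqrt_le_iff.2 ⟨by positivity, by
      rw [sq]; exact mul_le_mul_of_nonneg_right (h.wR.trans (pow_le_pow_left₀ R0 c 3))
        (by positivity)⟩
    have b : γ ^ 3 ≤ 1 := pow_le_one₀ γ0 h.γ0.2
    refine sm3 ((pow_le_pow_left₀ (sqrt_nonneg _) a 3).trans ?_)
    exact (pow_le_pow_of_le_one (by positivity) b (by norm_num)).trans
      (pow_le_pow_left₀ (by positivity) h.γ3.1 2)
  · rw [max_eq_right d]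
    refine sm2 ?_
    rw [sq_sqrt (by positivity)]
    exact (mul_le_of_le_one_left (by positivity) h.w1).trans h.G0.2

theorem q3 : √(w * R) ^ 3 ≤ N := by
  have w0 := h.w0.1
  have R0 := h.R0
  refine le_of_pow_le_pow_left₀ (n := 4) (by norm_num) h.N0.1 (le_trans ?_ h.c9)
  have a : w ≤ R := h.wR.trans (pow_le_of_le_one R0 h.τ0.2.2 three_ne_zero)
  calc (√(w * R) ^ 3) ^ 4 = (√(w * R) ^ 2) ^ 6 := by ring
    _ = w ^ 3 * R ^ 6 * w ^ 3 := by rw [sq_sqrt (by positivity)]; ring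
    _ ≤ w ^ 3 * R ^ 6 * R ^ 3 := by gcongr
    _ = _ := by ring

theorem sq_le : √((R + γ + G) * w) ≤ 2 * max (max √(w * R) γ) G := by
  have w0 := h.w0.1
  have R0 := h.R0
  have γ0 := h.γ0.1
  have G0 := h.G0.1
  have a : w ≤ R := h.wR.trans (pow_le_of_le_one R0 h.τ0.2.2 three_ne_zero)
  have y1 : √(w * R) ≤ max (max √(w * R) γ) G := (le_max_left _ _).trans (le_max_left _ _)
  have y2 : γ ≤ max (max √(w * R) γ) G := (le_max_right _ _).trans (le_max_left _ _)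
  have y3 : G ≤ max (max √(w * R) γ) G := le_max_right _ _
  generalize max (max √(w * R) γ) G = y at *
  have y0 := G0.trans y3
  have b := pow_le_pow_left₀ (sqrt_nonneg _) y1 2
  rw [sq_sqrt (by positivity)] at b
  have k : ∀ u, 0 ≤ u → u ≤ y → u * w ≤ y ^ 2 := fun u u0 u1 => by
    rcases le_total u R with c | c
    · linarith [mul_le_mul_of_nonneg_right c w0]
    · rw [sq]; exact mul_le_mul u1 ((a.trans c).trans u1) w0 y0
  exact sqrt_le_iff.2 ⟨by positivity, by linarith [k γ γ0 y2, k G G0 y3, sq_nonneg y]⟩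

/-- **the numbers of the corner** -/
theorem numD {P Q b la aa Lr : ℝ} (P1 : 1 ≤ P) (b0 : 0 ≤ b) (b1 : b ≤ P) (l0 : 0 ≤ la)
    (l1 : la ≤ P * (X2 + √((R + γ + G) * w))) (a0 : 0 ≤ aa) (a1 : aa ≤ P * (θ + j + τ + γ))
    (L0 : 0 ≤ Lr) (L1 : Lr ≤ P * (R + γ + G)) (Q0 : 0 ≤ Q) (hQ : Q * (22 * P ^ 3) ≤ E) :
    Sm θ 1 ((117 * P ^ 4) ^ 2 * N0) 1 (b * la * Lr + b * aa * min (2 * aa) Lr ^ 2) ∧
      ((b * la + b * aa * min (2 * aa) Lr) ^ 3 ≤ (22 * P ^ 3) ^ 3 * N ∨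
        Q * (b * la + b * aa * min (2 * aa) Lr) ≤ θ) := by
  have w0 := h.w0.1
  have R0 := h.R0
  have N0' := h.N0.1
  have γ0 := h.γ0.1
  have G0 := h.G0.1
  have X0 := h.X0.1
  have P0 : 0 ≤ P := by linarith
  have mm := min_le14 (Lr := Lr) P0 R0 (add_nonneg γ0 G0) a1 (by rwa [← add_assoc])
  have c5 := h.c5
  have c5' := h.c5'
  have A0 : 0 ≤ θ + j + τ + γ := by linarith [h.θ0.1, h.j0.1, h.τ0.1]
  have A4 : θ + j + τ + γ ≤ 4 := by linarith [h.θ0.2, h.j0.2, h.τ0.2.1, h.τ0.2.2, h.γ0.2]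
  have m0 : 0 ≤ min (2 * aa) Lr := le_min (by linarith) L0
  have μ0 : 0 ≤ min (θ + j + τ + γ) R := le_min A0 R0
  generalize min (2 * aa) Lr = k at *
  generalize min (θ + j + τ + γ) R = μ at *
  generalize θ + j + τ + γ = A at *
  have p2 : P ^ 2 ≤ P ^ 3 := pow_le_pow_right₀ P1 (by norm_num)
  have p3 : P ^ 3 ≤ P ^ 4 := pow_le_pow_right₀ P1 (by norm_num)
  constructor
  · have s1 : Sm θ 1 N0 1 (γ * X2) := h.up (sm3 (by
      have a : γ * X2 ≤ 1 := mul_le_one₀ h.γ0.2 X0 h.X0.2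
      exact (pow_le_pow_of_le_one (by positivity) a (by norm_num)).trans
        (pow_le_pow_left₀ (by positivity) h.γ3.2 2)))
    have s2 : Sm θ 1 N0 1 (X2 * G) := sm3 (by
      calc (X2 * G) ^ 3 = X2 * X2 ^ 2 * G ^ 3 := by ring
        _ ≤ 1 * N0 * N0 := by
          have := h.N0.2.2
          have := h.X0.2
          have := h.G3.trans h.N0.2.1
          have := N0'.trans h.N0.2.1
          gcongr
        _ = _ := by ring)
    have s3 : Sm θ 1 N0 1 (γ ^ 2) := h.up (sm3 (by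
      rw [← pow_mul, mul_comm, pow_mul]; exact pow_le_pow_left₀ (by positivity) h.γ3.1 2))
    have s4 : Sm θ 1 N0 1 (G ^ 2) := h.up (sm3 (by
      rw [← pow_mul, mul_comm, pow_mul]; exact pow_le_pow_left₀ (by positivity) h.G3 2))
    have s := ((((h.up c5).max s1).max s2).max (h.up h.smZ)).max (s3.max s4)
    obtain ⟨x, hx⟩ : ∃ x, x = max (max (max (max (X2 * R + A * μ ^ 2) (γ * X2)) (X2 * G))
      √(w * max R (max γ G) ^ 3)) (max (γ ^ 2) (G ^ 2)) := ⟨_, rfl⟩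
    have x := hx.ge
    simp only [max_le_iff] at x
    obtain ⟨⟨⟨⟨x1, x2⟩, x3⟩, x4⟩, x5, x6⟩ := x
    rw [← hx] at s
    have Z1 := le_max_left R (max γ G)
    have Z2 := (le_max_left γ G).trans (le_max_right R (max γ G))
    have Z3 := (le_max_right γ G).trans (le_max_right R (max γ G))
    generalize max R (max γ G) = Z at *
    have Z0 := R0.trans Z1
    have y1 : √((R + γ + G) * w) * (R + γ + G) ≤ 6 * √(w * Z ^ 3) :=
      le_of_pow_le_pow_left₀ two_ne_zero (by positivity) (by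
        rw [mul_pow, mul_pow, sq_sqrt (by positivity), sq_sqrt (by positivity)]
        calc (R + γ + G) * w * (R + γ + G) ^ 2 ≤ 3 * Z * w * (3 * Z) ^ 2 := by gcongr <;> linarith
          _ = 27 * (w * Z ^ 3) := by ring
          _ ≤ _ := by gcongr; norm_num)
    have t1 := mul_nonneg A0 (sq_nonneg μ)
    have t2 := mul_nonneg X0 R0
    have x0 : 0 ≤ x := (sq_nonneg _).trans x5
    have y2 : b * la * Lr ≤ P ^ 4 * (9 * x) :=
      calc b * la * Lr ≤ P * (P * (X2 + √((R + γ + G) * w))) * (P * (R + γ + G)) := by gcongr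
        _ = P ^ 3 * (X2 * (R + γ + G) + √((R + γ + G) * w) * (R + γ + G)) := by ring
        _ ≤ P ^ 4 * (9 * x) := mul_le_mul p3 (by linarith) (by positivity) (by positivity)
    have y3 : A * (μ + (γ + G)) ^ 2 ≤ 27 * x := by
      have : (μ + (γ + G)) ^ 2 ≤ 3 * (μ ^ 2 + γ ^ 2 + G ^ 2) := by
        nlinarith [sq_nonneg (μ - γ), sq_nonneg (μ - G), sq_nonneg (γ - G)]
      linarith [mul_le_mul_of_nonneg_left this A0, mul_le_mul A4 x5 (sq_nonneg _) (by norm_num),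
        mul_le_mul A4 x6 (sq_nonneg _) (by norm_num)]
    have y4 : b * aa * k ^ 2 ≤ P ^ 4 * (108 * x) :=
      calc b * aa * k ^ 2 ≤ P * (P * A) * (2 * P * (μ + (γ + G))) ^ 2 := by gcongr
        _ = P ^ 4 * (4 * (A * (μ + (γ + G)) ^ 2)) := by ring
        _ ≤ _ := mul_le_mul_of_nonneg_left (by linarith) (by positivity)
    have P4 : 1 ≤ 117 * P ^ 4 := by linarith [one_le_pow₀ (n := 4) P1]
    exact (s.mul zero_le_one P4).mono h.θ0.1.le zero_le_one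
      (by have := N0'.trans h.N0.2.1; positivity) zero_le_one le_rfl le_rfl le_rfl le_rfl
      (by linarith)
  · obtain ⟨y, hy⟩ : ∃ y, y = max (max √(w * R) γ) G := ⟨_, rfl⟩
    have y3 : y ^ 3 ≤ N := by
      rw [hy]
      rcases max_choice (max √(w * R) γ) G with e | e <;> rw [e]
      · rcases max_choice √(w * R) γ with e | e <;> rw [e]
        exacts [h.q3, h.γ3.1]
      · exact h.G3
    have y1 : max √(w * R) γ ≤ y := hy ▸ le_max_left _ _
    have y2 : G ≤ y := hy ▸ le_max_right _ _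
    have y4 : γ ≤ y := (le_max_right _ _).trans y1
    have y0 := G0.trans y2
    have q := h.sq_le
    rw [← hy] at q
    have t1 := mul_nonneg A0 μ0
    have g1 : b * la ≤ P ^ 3 * (X2 + 2 * y) :=
      calc b * la ≤ P * (P * (X2 + √((R + γ + G) * w))) := by gcongr
        _ = P ^ 2 * (X2 + √((R + γ + G) * w)) := by ring
        _ ≤ _ := mul_le_mul p2 (by linarith) (by positivity) (by positivity)
    have g2 : b * aa * k ≤ P ^ 3 * (2 * (A * μ) + 16 * y) :=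
      calc b * aa * k ≤ P * (P * A) * (2 * P * (μ + (γ + G))) := by gcongr
        _ = P ^ 3 * (2 * (A * μ) + 2 * (A * (γ + G))) := by ring
        _ ≤ _ := mul_le_mul_of_nonneg_left (by
          linarith [mul_le_mul A4 (add_le_add y4 y2) (by positivity) (by norm_num)]) (by positivity)
    have g0 : 0 ≤ b * la + b * aa * k := by positivity
    have P3 : 0 ≤ P ^ 3 := by positivity
    have g3 : ∀ u, X2 + A * μ ≤ u → y ≤ u → b * la + b * aa * k ≤ 22 * P ^ 3 * u := fun u u1 u2 => by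
      linarith [mul_le_mul_of_nonneg_left (show X2 + 2 * y + (2 * (A * μ) + 16 * y) ≤ 22 * u by
        linarith) P3]
    have g4 : ∀ u, X2 + A * μ ≤ u → y ≤ u → u ^ 3 ≤ N →
        (b * la + b * aa * k) ^ 3 ≤ (22 * P ^ 3) ^ 3 * N := fun u u1 u2 u3 =>
      (pow_le_pow_left₀ g0 (g3 u u1 u2) 3).trans (by
        rw [mul_pow (22 * P ^ 3)]; exact mul_le_mul_of_nonneg_left u3 (by positivity))
    rcases le_total (X2 + A * μ) y with c | c
    · exact .inl (g4 y c le_rfl y3)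
    · refine c5'.imp (g4 _ le_rfl c) fun e => le_trans ?_ e
      calc _ ≤ Q * (22 * P ^ 3 * (X2 + A * μ)) := mul_le_mul_of_nonneg_left (g3 _ le_rfl c) Q0
        _ = Q * (22 * P ^ 3) * (X2 + A * μ) := by ring
        _ ≤ _ := mul_le_mul_of_nonneg_right hQ (by positivity)

end Nm

end Crest.Agent.T156.Alt.X14

end
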