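import Crest.Agent.T156.TopI_51
import Crest.Agent.T156.TxCx_5
import Crest.Agent.T156.TxA_83
import Crest.Agent.T156.TxDn_14

/-!
# Row 156, block (L) (helper14): the corner, `TxD`
-/

set_option autoImplicit false

noncomputable section

namespace Crest.Agent.T156.Alt.X84

open MeasureTheory Set Real
open Crest.Agent.T156.Alt.Mp9 Crest.Agent.T156.Alt.L69 Crest.Agent.T156.Alt.L31
open Crest.Agent.T156.Pr.Reg48 (Sm sm_of_min)

variable {E : ℝ} {S : Sc} {M : Md} {m : ℕ} {a : ℝ} {c : Dt}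

theorem Cy.nm14 (Y : Cy E S M m a c) : X14.Nm E S.θ c.p.j c.p.τ c.p.γ (c.p.Xp ^ ((1 : ℝ) / 3))
    c.p.X2 (S.w3 1) (Ve83.Gam S M ^ ((1 : ℝ) / 3)) c.p.N (X48.N0 c.p) := by
  have B := Y.at5
  have h := Y.tw.at'.cl
  have θ0 := h.θ0
  have P := Y.hx.lp
  have x0 := P.Xp0.1
  have x1 : c.p.Xp ≤ 1 := (le_mul_of_one_le_left x0.le Y.cw.Z.E1).trans P.Xp0.2
  have w0 := Y.cw.Z.w3p one_pos
  have g0 : 0 ≤ Ve83.Gam S M := add_nonneg (Finset.sum_nonneg fun k _ =>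
    mul_nonneg (Ve83.dx_nn h k) (sq_nonneg _)) B.Ga0.1
  have j1 := B.Ga0.2.2.2.2
  obtain ⟨q1, q2⟩ := Y.hx.lc.c5 _ _ rfl rfl
  refine ⟨⟨θ0, Y.cw.θ1⟩, ⟨B.j0, j1⟩, ⟨B.τ0, P.τ1, rpow_le_one x0.le x1 (by norm_num)⟩, B.γ0, B.X0,
    ⟨w0.le, P.tw⟩, ⟨by positivity, by rw [Ve83.cb3 g0]; exact Y.tw.gN⟩,
    ⟨B.N0, B.N_le.1, le_add_of_nonneg_left B.N0⟩,
    ⟨B.γ3.1, by linarith [B.γ3.2.2, mul_nonneg B.γ0.1 B.η0]⟩, ?_, sm_of_min θ0 q1, q2⟩
  have a1 : (S.w3 1 * c.p.Xp) ^ ((3 : ℝ) / 4) ≤ c.p.N := by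
    have := B.j0
    exact le_trans (le_add_of_nonneg_right (by positivity)) Y.hx.lc.c9
  have a2 := pow_le_pow_left₀ (by positivity) a1 4
  rw [← rpow_natCast, ← rpow_mul (by positivity),
    show (3 : ℝ) / 4 * (4 : ℕ) = (3 : ℕ) by norm_num, rpow_natCast] at a2
  rwa [Ve83.cb3 x0.le]

/-- **(D) the corner** -/
theorem txD : TxD := by
  choose K0 _ hK using cor51
  have cg : CL fun _ Λ S _ _ _ => K0 S.C ≤ Λ := fun C => .of_forall fun _ _ _ η hη => by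
    filter_upwards [Pre29.ev_K (K0 C) hη] with n h S M b1 _ _ _ m a _
    rwa [b1]
  unfold TxD LF
  refine cg.mono fun E Λ S M m a _ _ h _ k c Y hD v v1 v2 N w w1 w2 hw => ?_
  have G := Y.geo51 N w1 w2 hw
  obtain ⟨r1, r2⟩ := hK S.C rfl Y (k.trans hD) N w1 w2 hw G.rho
  have n := Y.nm14
  have A := Y.tw.at'
  have D4 := Y.cw.Z.D4
  have D1 : 1 ≤ c.D := by linarith
  have F1 := h.F1
  have θ0 := h.θ0
  have j0 := n.j0.1
  have τ0 := n.τ0.1
  have γ0 := n.γ0.1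
  have R0 := n.R0
  have G0 := n.G0.1
  have w0 := n.w0.1
  have X0 := n.X0.1
  have b0 := A.b_pos
  have N5 := Y.N5
  have N0 := n.N0.1.trans n.N0.2.1
  have pw : ∀ {i k : ℕ}, i ≤ k → c.D ^ i ≤ c.D ^ k := fun e => pow_le_pow_right₀ D1 e
  have pf : ∀ {i k : ℕ}, i ≤ k → S.F ^ i ≤ S.F ^ k := fun e => pow_le_pow_right₀ F1 e
  have P1 : c.D ≤ c.D ^ 46 * S.F :=
    (le_self_pow₀ D1 (by norm_num)).trans (le_mul_of_one_le_right (by positivity) F1)
  have r0 : 0 ≤ rR S M c.p := by unfold rR; positivity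
  have a0 : 0 ≤ aaI S c := by unfold aaI aA; positivity
  have L0 : 0 ≤ LrI S M c := by unfold LrI; positivity
  have l0 : 0 ≤ laI S c (c.D ^ 45 * S.F * rR S M c.p) := by unfold laI; positivity
  have l1 : laI S c (c.D ^ 45 * S.F * rR S M c.p) ≤
      c.D ^ 46 * S.F * (c.p.X2 + √(rR S M c.p * S.w3 1)) := by
    have e1 : √(c.D ^ 45 * S.F * rR S M c.p * S.w3 1) ≤ c.D ^ 42 * S.F * √(rR S M c.p * S.w3 1) :=
      sqrt_le_iff.2 ⟨by positivity, by
        rw [mul_pow, sq_sqrt (by positivity), mul_pow, ← pow_mul, mul_assoc (_ * _)]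
        exact mul_le_mul_of_nonneg_right (mul_le_mul (pw (by norm_num))
          (le_self_pow₀ F1 two_ne_zero) (by positivity) (by positivity)) (by positivity)⟩
    have e2 : c.p.X2 ≤ c.D ^ 42 * S.F * c.p.X2 :=
      le_mul_of_one_le_left X0 (one_le_mul_of_one_le_of_one_le (one_le_pow₀ D1) F1)
    calc _ ≤ c.D ^ 4 * (c.D ^ 42 * S.F * c.p.X2 + c.D ^ 42 * S.F * √(rR S M c.p * S.w3 1)) :=
          mul_le_mul_of_nonneg_left (add_le_add e2 e1) (by positivity)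
      _ = _ := by ring
  have L1 : LrI S M c ≤ c.D ^ 46 * S.F * rR S M c.p :=
    mul_le_mul_of_nonneg_right (mul_le_mul_of_nonneg_right (pw (by norm_num)) (by linarith)) r0
  have hQ : c.D ^ 24 * (22 * (c.D ^ 46 * S.F) ^ 3) ≤ E := by
    refine le_trans ?_ Y.DF83
    calc _ = 22 * c.D ^ 162 * S.F ^ 3 := by ring
      _ ≤ c.D * c.D ^ 162 * S.F ^ 20 := by
        have := pf (show 3 ≤ 20 by norm_num)
        gcongr
        linarith
      _ ≤ _ := mul_le_mul_of_nonneg_right ((pow_succ' _ _).symm.trans_le (pw (by norm_num)))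
          (by positivity)
  obtain ⟨s1, s2⟩ := n.numD (D1.trans P1) b0.le (h.b1.trans (le_trans (by
    linarith [Y.cw.Z.Cp (k := 1) (by norm_num), h.C0, pow_one S.C]) P1)) l0 l1 a0 le_rfl L0 L1
    (by positivity) hQ
  have m0 : 0 ≤ min (2 * aaI S c) (LrI S M c) := le_min (by linarith) L0
  have k1 : ∀ (x : ℝ) (i k : ℕ) (y : ℝ), x ≤ c.D ^ 2 → i ≤ 598 → k ≤ 10 → 0 ≤ y → y ≤ X48.N0 c.p →
      x * c.D ^ i * S.F ^ k * y ≤ c.D ^ 600 * Nb S M c := fun x i k y x1 i1 k1 y0 y1 =>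
    calc _ ≤ c.D ^ 2 * c.D ^ 598 * S.F ^ 10 * Nn S M c.p c.X4 c.t4 := by
          have := pw i1
          have := pf k1
          have := y1.trans N5
          gcongr
      _ = _ := by unfold Nb; ring
  have D2 : 13689 ≤ c.D ^ 2 := by nlinarith
  refine ⟨_, _, by positivity, s1.mono θ0.le zero_le_one (by positivity) zero_le_one le_rfl le_rfl
    (le_trans (le_of_eq (by ring)) (k1 13689 368 8 _ D2 (by norm_num) (by norm_num) N0 le_rfl))
    le_rfl le_rfl, r2, by positivity, fun _ => r1 _ ((min_le_left _ _).trans (A.sb_mono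
      (Nat.succ_le_succ (G.J2.le.trans w1)))) le_rfl, s2.imp_left fun e => e.trans ?_⟩
  exact le_trans (le_of_eq (by ring)) (k1 10648 414 9 _ (by linarith) (by norm_num) (by norm_num)
    n.N0.1 n.N0.2.1)

end Crest.Agent.T156.Alt.X84

end
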