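import Crest.Agent.T156.LInt_31
import Crest.Agent.T156.NdW_22
import Crest.Agent.T156.NgS_9
import Crest.Agent.T156.SzTG_64
import Crest.Agent.T156.SzW_61
import Crest.Agent.T156.GdT_65
import Crest.Agent.T156.TxE_87

/-!
# Row 156, block (L): the pointwise context of the corner on the class (helper65)
-/

set_option autoImplicit false

noncomputable section

namespace Crest.Agent.T156.Alt.L31

open Real Finset
open Crest.Agent.T156.Alt.Mp9 Crest.Agent.T156.Alt.L69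
open Crest.Agent.T156.Alt.G89 (Cz)
open Crest.Agent.T156.Alt.Gd65 (Out)

/-- the context at the loss `D` -/
structure Cw (D E Λ L W3 lam : ℝ) (S : Sc) (M : Md) (m : ℕ) (a : ℝ) (p : Pa) : Prop where
  Z : Cz D E Λ L S M m a (2 * S.C) p.G1 p.l0 p.l p.V p.X p.Lg p.X2 p.X3 p.G0 W3 p.η
  fn : C33.Fn S M m a
  lL : lam ≤ L
  DE : D ^ 500 ≤ E
  θ1 : S.θ ≤ 1
  vθ : S.v ≤ S.θ
  j0 : 0 ≤ p.j
  γ0 : 0 ≤ p.γ
  far : SzT98.Far E S M p.Xp p.Vt p.γ p.u1 p.Lp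
  tp : Sz9.TpS D S M m a p.X2 p.X3 p.G0 p.η
  outX : ∀ k, S.J ≤ 8 * k → k < S.J → Out D S M m a (2 * S.C) p.j p.γ (p.X ^ ((1 : ℝ) / 3)) k
  out : ∀ k, 5 * M.s S.J ≤ 8 * M.s k → k < S.J →
    Out D S M m a (2 * S.C) p.j p.γ (p.Xp ^ ((1 : ℝ) / 3)) k
  sw : ∀ k κ e, 2 * S.J ≤ 3 * k → k < S.J → 1 ≤ κ → 0 ≤ e →
    (∀ i : ℕ, S.J / 2 ≤ i → i < S.J → |M.rb m a i - M.rb m a k| ≤ e + κ * (|(i : ℝ) - k| * S.v)) →
    E61.u4 M m a k ≤ D * (κ ^ ((2 : ℝ) / 3) * S.w3 1 ^ ((1 : ℝ) / 3) + e +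
      min (S.w3 1 / (((S.J : ℝ) - k) * S.v) ^ 2)
        (S.w3 1 / S.u0 ^ 2 + min p.X p.Xp ^ ((1 : ℝ) / 3) + p.γ))

/-- **(CzS)**; `f` is any function of the class constant -/
def CzS : Prop := ∀ f : ℝ → ℝ, CL fun E Λ S M m a => ∀ p lam, Hx E lam S M m a p →
  ∃ D Λ0 L W3, Cw D E Λ0 L W3 lam S M m a p ∧ D ≤ Λ * lam ∧ f S.C * lam ≤ D ∧ f S.C * S.θ ≤ 1

theorem czS_of (hT : Tg64.SzTG) : CzS := fun f => by
  refine (((hT.and Nd22.nodeS).and (Gd65.gdT.and SzT98.szW)).and Sz9.CL_fn).glue fun C =>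
    ⟨3, fun A hA ε η hε hη => ⟨ε, min (ε / 3000) (η / 3), max (f C) (10000 * C ^ 10), hε,
      by positivity, fun S M m a R h I ⟨⟨⟨p1, p2⟩, p3, p4⟩, F⟩ p lam H => ?_⟩⟩
  obtain rfl := R.hC
  have n1 := h.n1
  have hL := R.K_le
  have k2 := R.log_le
  have k3 := R.num_le
  have θ1 := R.θ1 h
  have hθ := R.Cθ h
  have fθ := (mul_le_mul_of_nonneg_right (le_max_left _ _) h.θ0.le).trans (R.Kθ h)
  have vθ := Gd65.v_le R h
  have hA' : 3 ≤ S.A := R.hA ▸ hA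
  have hE : ((S.n : ℝ) ^ min (ε / 3000) (η / 3)) ^ 3000 ≤ (S.n : ℝ) ^ ε := by
    rw [Pre29.rp_pow]
    exact Pre29.rp_le n1 (by push_cast; linarith [min_le_left (ε / 3000) (η / 3)])
  have hΛ : ((S.n : ℝ) ^ min (ε / 3000) (η / 3)) ^ 3 ≤ (S.n : ℝ) ^ η := by
    rw [Pre29.rp_pow]
    exact Pre29.rp_le n1 (by push_cast; linarith [min_le_right (ε / 3000) (η / 3)])
  generalize (S.n : ℝ) ^ min (ε / 3000) (η / 3) = s at *
  generalize (S.n : ℝ) ^ ε = E at *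
  generalize (S.n : ℝ) ^ η = Λ at *
  have C1 := h.C1
  have C0 := h.C0
  have s1 : 1 ≤ s := by linarith
  have s0 : 0 < s := by linarith
  have l1 := H.l1
  have E1 : 1 ≤ E := (one_le_pow₀ s1).trans hE
  have a2 := H.ln
  have a3 := H.lp
  have B : At S M m a (2 * S.C) := ⟨h, I, by linarith [h.b1, a2.HJ], by linarith [h.sT]⟩
  have l0 : 0 < p.l0 := Tg64.l0_pos h E1 a2.l0s
  have lC : p.l ≤ 1 := Tg64.le1 E1 a2.l1
  have G00 : 0 ≤ p.G0 := le_trans (by positivity) a2.g0a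
  have X20 : 0 ≤ p.X2 := le_trans (by positivity) a2.x2a
  have X30 : 0 ≤ p.X3 := le_trans (by positivity) a2.x3a
  have e1 := Sz9.X3_η h a2 C0 (lC.trans C1) le_rfl G00 X20
  have η0 := X30.trans e1
  have e2 := Sz9.η_C h a2 η0
  have η1 : 0 ≤ p.η 1 := η0.trans (a2.ηa C1)
  obtain ⟨t2, t3, pa⟩ := p1 _ _ _ _ _ _ _ _ _ _ _ _ _ _ _ _ _ _ _ _ _ H.ce a2 a3 H.ap
  have c4 : 1 ≤ S.C ^ 4 := one_le_pow₀ C1
  have c10 : S.C ^ 4 ≤ S.C ^ 10 := pow_le_pow_right₀ C1 (by norm_num)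
  have CD : 10000 * S.C ^ 10 ≤ s := (le_max_right _ _).trans hL
  have q1 : s ≤ s ^ 2 := le_self_pow₀ s1 two_ne_zero
  have q2 : s ^ 2 ≤ s ^ 2 * lam := le_mul_of_one_le_right (by positivity) l1
  have q3 : lam ≤ s ^ 2 * lam := le_mul_of_one_le_left (by linarith) (one_le_pow₀ s1)
  have q4 : s ^ 2 * lam ≤ s ^ 3 * lam :=
    mul_le_mul_of_nonneg_right (pow_le_pow_right₀ s1 (by norm_num)) (by linarith)
  have q5 : s ≤ s ^ 3 * lam := by linarith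
  have DE : (s ^ 3 * lam) ^ 500 ≤ E := by
    refine le_of_pow_le_pow_left₀ two_ne_zero (by linarith) ?_
    calc _ = s ^ 3000 * lam ^ 1000 := by ring
      _ ≤ E * E := mul_le_mul hE H.lE (by positivity) (by linarith)
      _ = _ := by ring
  have D1 : 1 ≤ s ^ 3 * lam := s1.trans q5
  have ni : Nd22.NI (s ^ 2 * lam) S M m a p.l0 p.V p.X2 p.G0 (s * (p.X3 + p.η 1)) :=
    ⟨by linarith, fun k hk => (H.cru k hk).trans (mul_le_mul_of_nonneg_right q3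
      ((le_max_of_le_right l0.le).trans (Nd22.cl_ge F a2.V0 (le_max_of_le_right l0.le)))),
      t2.trans (mul_le_mul_of_nonneg_right (by linarith) X20), t3,
      pa.trans (mul_le_mul_of_nonneg_right (by linarith) (sq_nonneg _))⟩
  have W3 : s * (p.X3 + p.η 1) ≤ s ^ 2 * lam * p.η S.C := by
    have := mul_le_mul_of_nonneg_right (show 16 * S.C ^ 4 + 1 ≤ s by linarith) η0
    refine le_trans ?_ (mul_le_mul_of_nonneg_right q2 η0)
    rw [sq, mul_assoc]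
    exact mul_le_mul_of_nonneg_left (by linarith) s0.le
  have O := p2 _ _ _ _ _ _ _ _ _ _ _ _ H.ce a2 a3.rev H.ap.all
    (((pow_le_pow_left₀ (by positivity) q4 6).trans (pow_le_pow_right₀ D1 (by norm_num))).trans DE) ni
  have far := Tg64.far_LP E1 h a2 a3
  obtain ⟨o1, o2⟩ := p3 _ _ _ _ _ _ _ _ B le_rfl a2.l0s (a2.l0l.trans lC) a2.X0 a2.X1 a3.γ0 a3.γ1 H.ap
  have N0 := h.N0
  have γ0 : 0 ≤ p.γ := (sub_nonneg.2 (h.sm h.i3)).trans a3.γ0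
  refine ⟨s ^ 3 * lam, s, s ^ 2 * lam, _, ⟨⟨B, H.ce, a2, ni, O, H.Vl, W3, CD.trans q5, s1, q5, q4,
    k2.trans q5, (pow_le_pow_right₀ D1 (by norm_num)).trans DE, ?_, I.m1, hθ⟩, F, q3, DE, θ1, vθ,
    le_trans (by positivity) H.ap.j0, γ0, far, ⟨t2.trans (mul_le_mul_of_nonneg_right q5 X20),
      t3.trans (mul_le_mul_of_nonneg_right q5 (by linarith)),
      pa.trans (mul_le_mul_of_nonneg_right q5 (sq_nonneg _))⟩,
    fun k x y => (o1 k x y).mono s1 q5, fun k x y => (o2 a3.Xp0.1 a3.Xp0.2 k x y).mono s1 q5,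
    fun k κ e b1 b2 b3 b4 b5 => (p4 _ _ _ _ _ _ _ _ far H.ap k κ e b1 b2 b3 b4 b5).trans
      (mul_le_mul_of_nonneg_right q5 ?_)⟩, mul_le_mul_of_nonneg_right hΛ (by linarith),
    mul_le_mul_of_nonneg_right (((le_max_left _ _).trans hL).trans (le_self_pow₀ s1 (by norm_num)))
      (by linarith), fθ⟩
  · have a1 : S.v * (S.n : ℝ) ^ 3 ≤ S.C := (mul_le_mul_of_nonneg_left
      (pow_le_pow_right₀ (by exact_mod_cast n1) hA') h.v0.le).trans h.v2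
    have a2' : S.C ^ 2 ≤ S.n := by
      have b1 := (le_mul_of_one_le_right (by linarith) (one_le_pow₀ h.F1)).trans
        (a2.Lg0.trans a2.Lg1)
      linarith [pow_le_pow_right₀ C1 (by norm_num : 2 ≤ 10), sq_nonneg S.C,
        le_self_pow₀ s1 (by norm_num : 3000 ≠ 0)]
    refine le_of_mul_le_mul_right ?_ N0
    linarith [mul_le_mul_of_nonneg_left a1 h.C0.le]
  · have w := (T5.w3_pos h).le
    have x : 0 ≤ min p.X p.Xp := le_min a2.X0.le a3.Xp0.1.le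
    have : 0 ≤ min (S.w3 1 / (((S.J : ℝ) - k) * S.v) ^ 2)
        (S.w3 1 / S.u0 ^ 2 + min p.X p.Xp ^ ((1 : ℝ) / 3) + p.γ) :=
      le_min (by positivity) (by positivity)
    have : 0 ≤ κ := by linarith
    positivity

/-- `F ^ (1/9)` -/
def psi (S : Sc) : ℝ := S.F ^ ((1 : ℝ) / 9)

theorem psi_spec {S : Sc} {M : Md} (h : Cl S M) : 1 ≤ psi S ∧ psi S ^ 9 = S.F :=
  ⟨one_le_rpow h.F1 (by norm_num), by
    rw [psi, ← rpow_natCast, ← rpow_mul (by linarith [h.F1])]; norm_num⟩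

theorem Cw.cc {D E Λ L W3 lam : ℝ} {S : Sc} {M : Md} {m : ℕ} {a : ℝ} {p : Pa}
    (W : Cw D E Λ L W3 lam S M m a p) (H : Hx E lam S M m a p) :
    G89.Cc D E Λ L (psi S) S M m a (2 * S.C) p.G1 p.l0 p.l p.V p.X p.Lg p.X2 p.X3 p.G0 W3 p.η
      p.Lc p.ηc p.j p.γ (p.Xp ^ ((1 : ℝ) / 3)) := by
  have h := W.Z.A.cl
  obtain ⟨a1, a2⟩ := psi_spec h
  obtain ⟨b1, b2⟩ := H.lp.ηc1 _ rfl
  have x := H.lp.Xp0.1
  have D0 : 0 ≤ D := le_trans (by positivity) W.Z.CD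
  exact ⟨W.Z, a1, a2.ge, ((pow_le_pow_right₀ a1 (by norm_num)).trans a2.le).trans
    ((le_self_pow₀ h.F1 (by norm_num)).trans H.F40), H.lp.Lc1.1, b1, b2, W.j0, W.γ0, by positivity,
    fun k c d => (W.out k c d).2.2, fun k κ e c1 c2 c3 c4 c5 => (W.sw k κ e c1 c2 c3 c4 c5).trans
      (mul_le_mul_of_nonneg_left (add_le_add_right (min_le_left _ _) _) D0)⟩

/-- **(CcS)** -/
def CcS : Prop := ∀ f : ℝ → ℝ, CL fun E Λ S M m a => ∀ p lam, Hx E lam S M m a p →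
  ∃ D Λ0 L W3, Cw D E Λ0 L W3 lam S M m a p ∧
    G89.Cc D E Λ0 L (psi S) S M m a (2 * S.C) p.G1 p.l0 p.l p.V p.X p.Lg p.X2 p.X3 p.G0 W3 p.η
      p.Lc p.ηc p.j p.γ (p.Xp ^ ((1 : ℝ) / 3)) ∧
    D ≤ Λ * lam ∧ f S.C * lam ≤ D ∧ f S.C * S.θ ≤ 1

theorem ccS_of (hT : Tg64.SzTG) : CcS := fun f =>
  (czS_of hT f).mono fun _ _ _ _ _ _ _ _ _ _ Z p lam H =>
    let ⟨D, Λ0, L, W3, W, r⟩ := Z p lam H
    ⟨D, Λ0, L, W3, W, W.cc H, r⟩

end Crest.Agent.T156.Alt.L31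

end
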