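import Crest.Agent.T156.PgN_33
import Crest.Agent.T156.TxC_65

/-!
# Row 156, block (L): the net of the middle zone from the hypotheses of (TxS) (helper33)
-/

set_option autoImplicit false

noncomputable section

namespace Crest.Agent.T156.Alt.L31

open Real Finset
open Crest.Agent.T156.Alt.L69 Crest.Agent.T156.Alt.Mp9 Crest.Agent.T156.Alt.Nd33
open Crest.Agent.T156.Pr.Reg48 (Sm)

variable {D E Λ L W3 lam : ℝ} {S : Sc} {M : Md} {m : ℕ} {a : ℝ} {p : Pa}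

theorem Cw.nv (Z : Cw D E Λ L W3 lam S M m a p) : 48 * S.C ^ 4 * (S.n * S.v) ≤ 1 := by
  have h := Z.Z.A.cl
  have n0 : (0 : ℝ) < S.n := h.N0
  have a1 : 48 * S.C ^ 3 ≤ S.n := by
    linarith [Z.Z.CD, Z.Z.D_E, Z.Z.En, pow_le_pow_right₀ h.C1 (show 3 ≤ 10 by norm_num),
      pow_pos h.C0 10]
  linarith [Z.Z.hv, mul_le_mul_of_nonneg_right a1 (mul_pos h.C0 (mul_pos n0 h.v0)).le]

theorem Cw.big (Z : Cw D E Λ L W3 lam S M m a p) : (48 * S.C ^ 4) ^ 3 ≤ E := by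
  have h := Z.Z.A.cl
  have D4 := Z.Z.D4
  refine le_trans (pow_le_pow_left₀ (by have := h.C0; positivity) (show _ ≤ D from ?_) 3)
    ((pow_le_pow_right₀ (by linarith) (by norm_num)).trans Z.DE)
  linarith [Z.Z.CD, pow_le_pow_right₀ h.C1 (show 4 ≤ 10 by norm_num), pow_pos h.C0 10]

theorem Cw.rh (Z : Cw D E Λ L W3 lam S M m a p) (H : Hx E lam S M m a p) :
    RH S M m a p.Xp p.γ := by
  have h := Z.Z.A.cl
  have C0 := h.C0
  have C1 := h.C1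
  have X0 := H.lp.Xp0.1
  have e1 := Z.big
  have n1 : (1 : ℝ) ≤ S.n := by exact_mod_cast h.n1
  refine ⟨h, Z.Z.A.m_pos, H.lp.u0, X0, ?_, ?_, ?_, H.ap.top, H.lp.γ0⟩
  · refine le_of_pow_le_pow_left₀ three_ne_zero zero_le_one ?_
    rw [mul_pow, ← rpow_natCast (p.Xp ^ _), ← rpow_mul X0.le]
    norm_num
    linarith [H.lp.Xp0.2, mul_le_mul_of_nonneg_right e1 X0.le]
  · linarith [Z.nv, mul_le_mul_of_nonneg_right n1 (mul_pos (pow_pos C0 4) h.v0).le]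
  · have a1 := mul_le_mul_of_nonneg_right e1 (h.s_nn S.jl)
    have a2 := Ab33.sJ_ge h
    have a3 : 48 * S.C ^ 3 ≤ (48 * S.C ^ 4) ^ 3 := le_trans
      (by linarith [pow_le_pow_right₀ C1 (show 3 ≤ 4 by norm_num)])
      (le_self_pow₀ (by linarith [one_le_pow₀ (n := 4) C1]) (by norm_num))
    have a4 := mul_le_mul_of_nonneg_right a3 (h.s_nn S.jl)
    refine lt_of_mul_lt_mul_left ?_ (show 0 ≤ 3 * S.C ^ 3 by positivity)
    linarith [Z.far.jl]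

/-- **`TM.net`** -/
theorem netH (C : ℝ) : ∃ K0 : ℝ, 1 ≤ K0 ∧ ∀ {D E Λ L W3 lam : ℝ} {S : Sc} {M : Md} {m : ℕ} {a : ℝ}
    {p : Pa}, S.C = C → Hx E lam S M m a p → Cw D E Λ L W3 lam S M m a p → K0 ≤ D →
    ∀ {W G ev N2 g x u N y : ℝ} {vc v0 w : ℕ},
    PV W S M m a (2 * S.C) p.Xp p.γ p.V2 p.Lp p.Lg G ev N2 g x u vc v0 → W ≤ D → N2 ≤ 1 →
    u ≤ 8 * p.u2 → p.N ≤ N → Sm S.θ 1 N 1 x → w ≤ S.Jp → 1 ≤ D ^ 6 * du M w → N ≤ S.θ * y ^ 3 →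
    ∀ k, k < w → y < M.z k - M.z (S.J - 1) → ∃ i K1 K2, S.J ≤ i ∧ i ≤ k ∧
      M.z k - M.z (S.J - 1) ≤ 4 * (M.z i - M.z (S.J - 1)) ∧ 0 ≤ K1 ∧ 0 ≤ K2 ∧
      res M S m a (2 * S.C) i - res M S m a (2 * S.C) v0 ≤ D ^ 7 * x + K1 + K2 ∧
      (M.z k - M.z (S.J - 1)) * K1 ^ 2 ≤ S.θ * (D ^ 196 * N) ∧
      (M.z k - M.z (S.J - 1)) * K2 ^ 3 ≤ (D ^ 196 * N) ^ 2 := by
  obtain ⟨K, K1, hK⟩ := gd_pl (2 * C) C
  refine ⟨K, K1, fun {D E Λ L W3 lam S M m a p} hC H Z hD W G ev N2 g x u N y vc v0 w P W1 N1 hu hN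
    hx w1 w2 hy => ?_⟩
  subst hC
  have A := Z.Z.A
  have h := A.cl
  have C0 := h.C0
  have C1 := h.C1
  have θ0 := h.θ0
  have D4 := Z.Z.D4
  have D1 : 1 ≤ D := by linarith
  have E1 := Z.Z.E1
  have lp := H.lp
  have lc := H.lc
  have c1 : 64 * S.C ≤ D := by
    linarith [Z.Z.CD, le_self_pow₀ C1 (show 10 ≠ 0 by norm_num), pow_pos C0 10]
  have d6 : 0 < D ^ 6 := by positivity
  have d7 : D ≤ D ^ 7 := le_self_pow₀ D1 (by norm_num)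
  have d8 : 8 * D ^ 6 ≤ E := le_trans (by
    linarith [mul_le_mul_of_nonneg_right (show 8 ≤ D by linarith) d6.le])
    ((pow_le_pow_right₀ D1 (show 7 ≤ 500 by norm_num)).trans Z.DE)
  have η0 : 0 ≤ p.η 1 + p.X2 := add_nonneg
    (Z.Z.eta_pos (by nlinarith [H.ln.l1, Z.Z.lp]) C1).le Z.Z.X20
  have tk := A.tk_of lp lc η0 c1 E1
  have u0 := tk.u0.1
  have κ1 : 8 * p.u2 ≤ 1 / D ^ 6 := by
    rw [le_div_iff₀ d6]
    linarith [mul_le_mul_of_nonneg_right d8 u0, tk.u0.2.1]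
  have κ2 : 1 / D ^ 6 ≤ du M w := by rw [div_le_iff₀ d6]; linarith
  have dw : ∀ j, j < w → 1 / D ^ 6 ≤ du M j := fun j hj =>
    κ2.trans (sub_le_sub_left (h.leg.zm (by omega)) 1)
  have X0 := lp.Xp0.1
  have j0 := Z.j0
  have γ0 := Z.γ0
  have p0 : 0 < p.Xp ^ ((1 : ℝ) / 3) := rpow_pos_of_pos X0 _
  have c9 : S.θ * (p.j ^ 9 + p.Xp ^ 3) ≤ N := by
    have := w3_nn h
    linarith [lc.c9, show 0 ≤ (S.w3 1 * p.Xp) ^ ((3 : ℝ) / 4) by positivity]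
  have τ0 : 0 ≤ p.τ ^ 3 := (w3_nn h).trans lp.tw
  have y1 : S.u0 ^ 3 ≤ y ^ 3 := le_of_mul_le_mul_left (by
    linarith [lc.c3, mul_nonneg θ0.le τ0]) θ0
  have e : (D ^ 7) ^ 28 = D ^ 196 := by rw [← pow_mul]
  rw [← e]
  refine P.net (u2 := p.u2) (κ := 1 / D ^ 6) (t := max p.j (max p.γ (p.Xp ^ ((1 : ℝ) / 3))))
    ⟨⟨by linarith, ?_, by linarith⟩, X0, lc.c1.trans hN,
      tk.c2.trans (mul_le_mul_of_nonneg_right hN θ0.le), hx, N1,
      ⟨(Odd.pow_le_pow (show Odd 3 by decide)).1 y1, hy⟩, w1,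
      ⟨?_, κ2, by linarith, by linarith, lp.u1a.trans lp.u1b.1⟩, fun j j1 j2 => ?_,
      fun i i1 i2 => ?_, j0.trans (le_max_left _ _), ?_⟩
  · have b1 := mul_le_mul (show 6 * S.C ≤ D by linarith)
      (pow_le_pow_left₀ (by linarith [P.rn.W1]) W1 4) (by have := P.rn.W1; positivity) (by linarith)
    linarith [pow_le_pow_right₀ D1 (show 5 ≤ 7 by norm_num)]
  · rw [mul_one_div, le_div_iff₀ d6]
    linarith [pow_le_pow_right₀ D1 (show 6 ≤ 7 by norm_num)]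
  · refine mesh_pl h lp.u0 ?_ j1 (by omega)
      (H.ap.jn.fine j j1 (by omega) (by linarith [dw j j2, lp.u1b.1]))
    have n0 : (0 : ℝ) < S.n := h.N0
    linarith [Z.nv, mul_le_mul_of_nonneg_right (pow_le_pow_right₀ C1 (show 2 ≤ 4 by norm_num))
      (mul_pos n0 h.v0).le, mul_pos (pow_pos C0 4) (mul_pos n0 h.v0)]
  · have l1 : p.l0 ≤ 1 := H.ln.l0l.trans (by nlinarith [H.ln.l1, Z.Z.lp])
    have zz : 0 ≤ M.z i - M.z (S.J - 1) := sub_nonneg.2 (h.leg.zm (by omega))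
    refine (hK A le_rfl le_rfl (Z.rh H) Z.Z.hθ Z.vθ (by nlinarith [H.ln.l0s, h.s_nn S.jl]) l1 H.ln.X0
      (by nlinarith [H.ln.X1, H.ln.X0]) H.ap (le_max_left _ _)
      ((le_max_left _ _).trans (le_max_right _ _)) ((le_max_right _ _).trans (le_max_right _ _))
      (one_le_pow₀ D1) (by rw [mul_one_div_cancel d6.ne']) i i1 (by omega) (dw i i2)).trans
      (mul_le_mul_of_nonneg_right ?_ (by positivity))
    linarith [mul_le_mul_of_nonneg_right hD d6.le]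
  · have b1 := mul_nonneg θ0.le (pow_nonneg j0 9)
    have b2 := mul_nonneg θ0.le (pow_nonneg X0.le 3)
    rcases max_choice p.j (max p.γ (p.Xp ^ ((1 : ℝ) / 3))) with c | c <;> rw [c]
    · linarith
    rcases max_choice p.γ (p.Xp ^ ((1 : ℝ) / 3)) with c | c <;> rw [c]
    · exact (mul_le_of_le_one_left (by positivity) Z.θ1).trans ((pow_le_pow_of_le_one γ0
        (by nlinarith [lp.γ1]) (by norm_num)).trans (tk.γ2.trans hN))
    · rw [← rpow_natCast, ← rpow_mul X0.le]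
      norm_num
      linarith

end Crest.Agent.T156.Alt.L31

end
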