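import Crest.Agent.T156.TopM_47
import Crest.Agent.T156.LDef_69

/-!
# Row 156, text (L) (helper51): the deficit bound at the corner node
-/

set_option autoImplicit false

noncomputable section

namespace Crest.Agent.T156.Alt.Mp9.At

open Real

variable {S : Sc} {M : Md} {m : ℕ} {a T : ℝ}

theorem cbrt51 {θ N : ℝ} (θ0 : 0 < θ) (N0 : 0 ≤ N) :
    0 ≤ (N / θ) ^ ((1 : ℝ) / 3) ∧ θ * ((N / θ) ^ ((1 : ℝ) / 3)) ^ 3 = N := by
  have q : 0 ≤ N / θ := by positivity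
  refine ⟨rpow_nonneg q _, ?_⟩
  rw [← rpow_natCast, ← rpow_mul q]
  norm_num
  field_simp

theorem le_cbrt51 {θ N x y : ℝ} (θ0 : 0 < θ) (y0 : 0 ≤ y) (hy : θ * y ^ 3 = N)
    (h : θ * x ^ 3 ≤ N) : x ≤ y :=
  le_of_pow_le_pow_left₀ three_ne_zero y0 (le_of_mul_le_mul_left (h.trans hy.ge) θ0)

/-- **the deficit bound `Gm`** (fields of `TM.cn`) -/
theorem gm51 (A : At S M m a T) {v : ℕ} {γ τ ν N0 N L : ℝ} (θ1 : S.θ ≤ 1)
    (hγ : M.s S.Jp - M.s S.J ≤ γ) (γ3 : S.θ * γ ^ 3 ≤ N0) (τ0 : 0 ≤ τ) (τ3 : S.θ * τ ^ 3 ≤ N0)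
    (vν : S.C * S.v ≤ ν) (ν1 : ν ≤ 1) (νN : ν ≤ N0) (zv : M.z (S.J - 1) - τ ≤ M.z v)
    (hG : L69.GS M S (1 / (8 * S.C ^ 2)) S.C ≤ S.θ * N0) (hl : M.s S.jl < 1 / (8 * S.C ^ 2))
    (hN : 125 * S.C ^ 9 * N0 ≤ N) (hL : S.C ^ 2 ≤ L) :
    ∃ Gm, df36 S M T v ≤ Gm ∧ S.θ * ν ≤ Gm ∧ Gm ≤ L ∧ Gm ^ 3 ≤ S.θ ^ 2 * N ∧
      0 ≤ (N / S.θ) ^ ((1 : ℝ) / 3) ∧ Gm ^ 2 * (N / S.θ) ^ ((1 : ℝ) / 3) ≤ S.θ * N := by
  have c0 := A.c_pos
  have C1 := A.cl.C1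
  have v0 := v_pos A.cl
  have θ0 : 0 < S.θ := (A.ms_pos le_rfl).trans_le (A.cl.ms1 0)
  have ν0 : 0 < ν := (mul_pos c0 v0).trans_le vν
  have n0 : 0 < N0 := ν0.trans_le νN
  have C2 : 1 ≤ S.C ^ 2 := one_le_pow₀ C1
  have C3 : S.C ≤ S.C ^ 3 := le_self_pow₀ C1 three_ne_zero
  have n1 : 0 ≤ N := le_trans (by positivity) hN
  obtain ⟨p0, p1⟩ := cbrt51 θ0 n0.le
  obtain ⟨q0, q1⟩ := cbrt51 θ0 n1
  generalize (N0 / S.θ) ^ ((1 : ℝ) / 3) = y0 at p0 p1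
  generalize (N / S.θ) ^ ((1 : ℝ) / 3) = y at q0 q1
  have a1 := le_cbrt51 θ0 p0 p1 γ3
  have a2 := le_cbrt51 θ0 p0 p1 τ3
  have a3 : ν ≤ y0 := le_cbrt51 θ0 p0 p1 (by
    have : ν ^ 3 ≤ ν := pow_le_of_le_one ν0.le ν1 three_ne_zero
    have : S.θ * ν ^ 3 ≤ 1 * ν ^ 3 := by gcongr
    linarith)
  have y00 : 0 < y0 := ν0.trans_le a3
  have θy : 0 < S.θ * y0 := mul_pos θ0 y00
  obtain ⟨Gm, hm⟩ : ∃ Gm, Gm = min (S.C ^ 2 * S.θ) (5 * S.C ^ 3 * (S.θ * y0)) := ⟨_, rfl⟩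
  have g1 : Gm ≤ S.C ^ 2 * S.θ := hm ▸ min_le_left _ _
  have g2 : Gm ≤ 5 * S.C ^ 3 * (S.θ * y0) := hm ▸ min_le_right _ _
  have g0 : S.θ * ν ≤ Gm := by
    rw [hm]
    have k1 : S.θ * ν ≤ S.θ * y0 := by gcongr
    have k2 : S.θ * ν ≤ S.θ * 1 := by gcongr
    have k3 := mul_le_mul_of_nonneg_right C2 θ0.le
    have k4 := mul_le_mul_of_nonneg_right (C1.trans C3) θy.le
    exact le_min (by linarith only [k2, k3]) (by linarith only [k1, k4, θy])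
  have g00 : 0 ≤ Gm := le_trans (by positivity) g0
  have g3 : Gm ^ 3 ≤ S.θ ^ 2 * N :=
    calc _ ≤ (5 * S.C ^ 3 * (S.θ * y0)) ^ 3 := pow_le_pow_left₀ g00 g2 3
      _ = S.θ ^ 2 * (125 * S.C ^ 9 * (S.θ * y0 ^ 3)) := by ring
      _ ≤ _ := by rw [p1]; gcongr
  have g4 : Gm ≤ S.θ * y := le_of_pow_le_pow_left₀ three_ne_zero (by positivity)
    (g3.trans_eq (by rw [← q1]; ring))
  refine ⟨Gm, ?_, g0, g1.trans ((mul_le_of_le_one_right (by positivity) θ1).trans hL), g3, q0, ?_⟩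
  · rw [hm]
    refine le_min (A.df_crude v) ?_
    rcases le_or_gt (5 * S.C * y0) 1 with c | c
    · have k := A.df_corner (v := v) (y := y0) (t0 := 1 / (8 * S.C ^ 2)) (g := S.θ * N0) hγ τ0 zv
        y00 hl (by
          have e1 : S.C * (1 / (8 * S.C ^ 2) + 2 * S.v) = 1 / 8 * (1 / S.C) + 2 * (S.C * S.v) := by
            field_simp
          have e2 : 5 * y0 ≤ 1 / S.C := by rw [le_div_iff₀ c0]; linarith
          rw [e1]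
          linarith [A.cl.atom.1]) hG
      have e3 : √(S.θ * N0 / y0) = S.θ * y0 := by
        rw [← p1, show S.θ * (S.θ * y0 ^ 3) / y0 = (S.θ * y0) ^ 2 by field_simp, sqrt_sq θy.le]
      rw [e3] at k
      have k1 : γ + S.C * S.v + S.C ^ 2 * (τ + y0) ≤ 2 * y0 + S.C ^ 2 * (2 * y0) := by
        have : S.C ^ 2 * (τ + y0) ≤ S.C ^ 2 * (2 * y0) := by gcongr; linarith
        linarith
      have k2 := mul_le_mul_of_nonneg_left k1 (mul_pos c0 θ0).le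
      have k3 := mul_le_mul_of_nonneg_right C3 θy.le
      have k4 := mul_le_mul_of_nonneg_right C1 θy.le
      linarith only [k, k2, k3, k4]
    · refine (A.df_crude v).trans ?_
      have k := mul_le_mul_of_nonneg_left c.le (show 0 ≤ S.C ^ 2 * S.θ by positivity)
      linarith only [k]
  · calc _ ≤ (S.θ * y) ^ 2 * y := by gcongr
      _ = _ := by rw [← q1]; ring

end Crest.Agent.T156.Alt.Mp9.At

end
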