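import Crest.Agent.T156.PgT_33
import Crest.Agent.T156.TxT_48
import Crest.Agent.T156.LInt_31

/-!
# Row 156, block (L): the node `w` and the top block of (TxS) (helper60)
-/

set_option autoImplicit false

noncomputable section

namespace Crest.Agent.T156.Alt.O60

open Real
open Crest.Agent.T156.Alt.L69 Crest.Agent.T156.Alt.Mp9 Crest.Agent.T156.Alt.Nd33
open Crest.Agent.T156.Pr.Reg48 (Sm)

/-- **the upper node** `w`; `x'` is the uniform error of the middle zone -/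
structure Wn (S : Sc) (M : Md) (m : ℕ) (a T L κ c θ' βs N u2 g0 γ x : ℝ) (v0 w : ℕ) (x' : ℝ) :
    Prop where
  w1 : S.J < w ∧ w + 1 < S.Jp
  du1 : 1 ≤ L * du M w
  x1 : x ≤ x'
  sm : Sm S.θ 1 (L ^ 9 * N) 1 x'
  aM : res M S m a T v0 - res M S m a T w ≤ x' ∧ M.G w ≤ x'
  Gw : M.G w ≤ S.C * S.θ * γ + 2 * √(L * GP M S)
  top : ∀ g, 0 ≤ g → g ≤ L * g0 →
    (sb M m a (w + 1) < M.s S.Jp → M.b * Pr.GG (lb M S m a T) (sb M m a (w + 1)) ≤ 1 + g) →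
    At.TO S M m a T L κ c θ' βs N u2 v0 w
  top' : ∀ g, 0 ≤ g → (g ^ 3 ≤ N ∨ L ^ 4 * g ≤ S.θ) →
    (sb M m a (w + 1) < M.s S.Jp → M.b * Pr.GG (lb M S m a T) (sb M m a (w + 1)) ≤ 1 + g) →
    At.TO S M m a T L κ c θ' βs N u2 v0 w

set_option maxHeartbeats 1000000 in
theorem top60 (T0 : ℝ) : ∃ K0 κ0 c : ℝ, 1 ≤ K0 ∧ ∀ {S : Sc} {M : Md} {m : ℕ} {a T : ℝ}, T ≤ T0 →
    ∀ {W Xp Xp' γ V Lp Lg G ev N2 g x u E L0 L u1 u2 g0 N θ' βs ν : ℝ} {vc v0 : ℕ},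
    PV W S M m a T Xp γ V Lp Lg G ev N2 g x u vc v0 →
    At.TK S M E L0 γ u2 g0 Lg N (ap M S Xp V γ) → Jn S M Xp' u1 → S.ue ≤ u1 → u1 ≤ u2 →
    u ≤ 8 * u2 → N2 ≤ 1 → K0 * S.C ^ 7 ≤ L → 1 ≤ L0 → 2 * L0 ≤ L →
    2 * S.C * W ^ 4 * (4 * T + 5) ≤ L → L ^ 4 ≤ E → E * (S.C * S.v * S.n) ≤ 1 →
    Sm S.θ 1 (4 * N) 1 x → 1 ≤ L * θ' → 0 < ν ∧ ν ≤ 1 ∧ ν ≤ N ∧ log (1 + T / ν) ≤ L →
    1 / ((m : ℝ) + 1) ≤ x → 0 ≤ βs ∧ βs ≤ L * x → S.jl < v0 → v0 ≤ S.J →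
    M.s S.J ≤ 4 * sb M m a (v0 + 1) →
    ∃ w x', Wn S M m a T L (κ0 / (8 * S.C)) c θ' βs N u2 g0 γ x v0 w x' := by
  obtain ⟨K0, ρ0, c, K1, r0, r1, -, h⟩ := At.top_pack T0
  have r2 : 0 < 32 / ρ0 := by positivity
  refine ⟨K0 + 32 / ρ0 + 128, ρ0, c, by linarith, fun {S M m a T} hT {W Xp Xp' γ V Lp Lg G ev N2 g
    x u E L0 L u1 u2 g0 N θ' βs ν vc v0} H P J a1 a2 a3 a4 hK L01 L02 hW hE hv hx hθ hν hm hβ v1
    v2 v3 => ?_⟩
  have A := H.rn.A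
  have cl := A.cl
  have C0 := cl.C0
  have C1 := cl.C1
  have θ0 := cl.θ0
  have C7 : S.C ≤ S.C ^ 7 := le_self_pow₀ C1 (by norm_num)
  have k : ∀ y, 0 ≤ y → y ≤ K0 + 32 / ρ0 + 128 → y * S.C ≤ L := fun y y0 y1 =>
    le_trans (by gcongr) hK
  have L1 : 128 * S.C ≤ L := k 128 (by norm_num) (by linarith)
  have L2 : 128 ≤ L := by linarith
  have L0' : 0 < L := by linarith
  set ρ := ρ0 / (2 * S.C) with hρ
  have ρ1 : 16 ≤ L * ρ := by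
    have := k _ r2.le (by linarith)
    rw [div_mul_eq_mul_div, div_le_iff₀ r0] at this
    rw [hρ, mul_div_assoc', le_div_iff₀ (by positivity)]
    linarith
  have ρp : 0 < ρ := by positivity
  have ρ2 : S.C * ρ ≤ 1 / 2 := by
    rw [hρ, mul_div_assoc', div_le_iff₀ (by positivity)]; nlinarith
  have LE : L ≤ E := (le_self_pow₀ (by linarith) (by norm_num)).trans hE
  have sm : ∀ y, 0 ≤ y → E * y ≤ 1 → 16 * y ≤ ρ := fun y y0 y1 =>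
    le_of_mul_le_mul_left (by
      linarith [mul_le_mul_of_nonneg_right LE y0]) L0'
  have u0 := P.u0.1
  have b1 := sm u2 u0 P.u0.2.1
  have b2 := sm _ (by have := cl.v0; positivity) hv
  have vn : 0 ≤ S.C * S.v * S.n := by have := cl.v0; positivity
  obtain ⟨k0, k1, k2, k3, k4⟩ := A.node_du (ρ := ρ) J a1 (by linarith) (by linarith) (by linarith)
  obtain ⟨w, w1, w2, w3, w4, Q⟩ := H.ex k0 k1.le k2 (by linarith)
  have d0 : ds M S k0 ≤ du M k0 := min_le_right _ _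
  have d1 : 7 / 8 * du M k0 ≤ du M w := by unfold du at *; linarith
  have d2 : du M w ≤ ρ := by
    have := cl.leg.zm (show k0 - 1 ≤ w - 1 by omega)
    unfold du at *; linarith
  have d3 : ρ / 4 ≤ 1 - M.z w := by unfold du at *; linarith
  have d4 : 0 < du M w := by linarith
  have d5 : 1 ≤ L * du M w := by
    linarith [mul_le_mul_of_nonneg_left (show ρ / 16 ≤ du M w by linarith) L0'.le]
  have d6 : du M w ≤ M.z (w - 1) - M.z (S.J - 1) := by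
    have e1 := cl.atom.2
    have e2 : 2 * ρ ≤ 1 / S.C := by rw [le_div_iff₀ C0]; linarith
    unfold du at *; linarith
  have N0 : 0 ≤ N := (sq_nonneg _).trans P.u0.2.2
  have P' := (tk_apx cl P L01 H.rn.G0.2.1 a4).mono A le_rfl (by linarith) L02
  have ew := H.rs Q (by linarith) hW
  have G0 := GP_nn cl
  have g1 := G_up A H.rn.γ0 Q.lo Q.hi.le d4
  have g2 : √(GP M S / du M w) ≤ √(L * GP M S) := sqrt_le_sqrt (by
    rw [div_le_iff₀ d4]; linarith [mul_le_mul_of_nonneg_right d5 G0])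
  have x0 := H.x0
  have p : ∀ i j : ℕ, i ≤ j → L ^ i * N ≤ L ^ j * N := fun i j e =>
    mul_le_mul_of_nonneg_right (pow_le_pow_right₀ (by linarith) e) N0
  have s1 : Sm S.θ 1 (L ^ 6 * N) 1 ((1 ^ 2 * apx M S Xp V γ Lg N2 w) ^ 2) := by
    have := (P'.sh w Q.lo Q.hi.le d4 (by linarith) d6).wt L0'.le zero_le_one d5
    rwa [← mul_assoc, ← pow_succ'] at this
  have s2 : Sm S.θ 1 (L ^ 6 * N) 1 x := hx.mono θ0.le zero_le_one (by positivity) zero_le_one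
    le_rfl le_rfl (by
      linarith [p 1 6 (by norm_num), mul_le_mul_of_nonneg_right L2 N0, pow_one L]) le_rfl le_rfl
  have s3 : Sm S.θ 1 (L ^ 9 * N) 1 (L * (x + (1 ^ 2 * apx M S Xp V γ Lg N2 w) ^ 2)) :=
    ((s2.add s1 θ0.le zero_le_one (by positivity) zero_le_one).mul zero_le_one
      (show 1 ≤ L by linarith)).mono θ0.le zero_le_one (by positivity) zero_le_one le_rfl le_rfl
      (by linarith [mul_le_mul_of_nonneg_right L2 (show 0 ≤ L ^ 8 * N by positivity),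
        show 0 ≤ L ^ 8 * N by positivity])
      le_rfl le_rfl
  have s4 : Sm S.θ 1 (L ^ 9 * N) 1 (S.C * S.θ * γ + 2 * √(L * GP M S)) := by
    refine .inr (.inl ?_)
    have e1 := sq_sqrt (mul_nonneg L0'.le G0)
    have e2 : 2 * S.C ^ 2 ≤ L ^ 2 := by
      linarith [pow_le_pow_left₀ (by positivity) L1 2, sq_nonneg S.C]
    have e3 := mul_le_mul_of_nonneg_right e2 (sq_nonneg (S.θ * γ))
    have e4 := mul_le_mul_of_nonneg_right (show 8 * L ≤ L ^ 2 by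
      linarith [mul_le_mul_of_nonneg_right L2 L0'.le]) G0
    have e5 := mul_le_mul_of_nonneg_left P.c2 (sq_nonneg L)
    have e6 := mul_le_mul_of_nonneg_left (p 2 9 (by norm_num)) θ0.le
    linarith [sq_nonneg (S.C * S.θ * γ - 2 * √(L * GP M S))]
  have to' : ∀ E' g0', At.TK S M E' L γ u2 g0' 1 N (apx M S Xp V γ Lg N2) → L ^ 4 ≤ E' → ∀ g',
      0 ≤ g' → g' ≤ L * g0' → (sb M m a (w + 1) < M.s S.Jp →
        M.b * Pr.GG (lb M S m a T) (sb M m a (w + 1)) ≤ 1 + g') →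
      At.TO S M m a T L (ρ0 / (8 * S.C)) c θ' βs N u2 v0 w := fun E' g0' Q' hE' g' g3 g4 mu =>
    h A hT (le_trans (by gcongr; linarith) hK) Q' hx ⟨hE', H.rn.θ1, hθ, hν, hm, hβ,
      ⟨g3, g4⟩, ⟨v1, by omega⟩, ⟨Q.lo, Q.hi.le⟩, ⟨d3, d2⟩,
      by linarith [A.sb_mono (show v0 + 1 ≤ w + 1 by omega)], ew, mu, H.nx Q.lo u0 a3 hW⟩
  have γ0 : 0 ≤ γ := by linarith [P.γ0, cl.sm cl.i3]
  exact ⟨w, _, ⟨by omega, w2⟩, d5, le_max_of_le_left ((le_add_of_nonneg_right (sq_nonneg _)).trans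
      (le_mul_of_one_le_left (by positivity) (by linarith))), s3.max s4,
    ⟨le_max_of_le_left ((le_abs_self _).trans ew), le_max_of_le_right (by linarith)⟩, by linarith,
    to' E g0 P' hE, fun g' g3 g4 => to' (L ^ 4) g'
      ⟨P'.γ0, (mul_le_mul_of_nonneg_right hE γ0).trans P'.γ1, P'.γ2,
        ⟨u0, (mul_le_mul_of_nonneg_right hE u0).trans P'.u0.2.1, P'.u0.2.2⟩, P'.c2, g4, P'.sh⟩
      le_rfl g' g3 (le_mul_of_one_le_left g3 (by linarith))⟩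

/-- the slope excess paid by `LC.c5` -/
def g0 (S : Sc) (p : L31.Pa) : ℝ :=
  p.X2 + (S.θ + p.j + p.τ + p.γ) * min (S.θ + p.j + p.τ + p.γ) (p.Xp ^ ((1 : ℝ) / 3))

/-- **the top block from `Hx`** -/
theorem topH (T0 : ℝ) : ∃ K0 κ0 c : ℝ, 1 ≤ K0 ∧ ∀ {E lam : ℝ} {S : Sc} {M : Md} {m : ℕ} {a : ℝ}
    {p : L31.Pa}, L31.Hx E lam S M m a p → 2 * S.C ≤ T0 →
    ∀ {W G ev N2 g x u L N θ' βs ν : ℝ} {vc v0 : ℕ},
    PV W S M m a (2 * S.C) p.Xp p.γ p.V2 p.Lp p.Lg G ev N2 g x u vc v0 →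
    u ≤ 8 * p.u2 → N2 ≤ 1 → 0 ≤ p.η 1 + p.X2 → p.N ≤ N → K0 * S.C ^ 7 ≤ L →
    2 * S.C * W ^ 4 * (4 * (2 * S.C) + 5) ≤ L → L ^ 4 ≤ E → S.C * S.v * (S.n : ℝ) ^ 2 ≤ 1 →
    Sm S.θ 1 (4 * N) 1 x → 1 ≤ L * θ' → 0 < ν ∧ ν ≤ 1 ∧ ν ≤ N ∧ log (1 + 2 * S.C / ν) ≤ L →
    1 / ((m : ℝ) + 1) ≤ x → 0 ≤ βs ∧ βs ≤ L * x → S.jl < v0 → v0 ≤ S.J →
    M.s S.J ≤ 4 * sb M m a (v0 + 1) →
    ∃ w x', Wn S M m a (2 * S.C) L (κ0 / (8 * S.C)) c θ' βs N p.u2 (g0 S p) p.γ x v0 w x' := by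
  obtain ⟨K0, κ0, c, K1, h⟩ := top60 T0
  refine ⟨K0 + 128, κ0, c, by linarith, fun {E lam S M m a p} H hT {W G ev N2 g x u L N θ' βs ν vc
    v0} P a1 a2 a3 a4 hK hW hE hv => ?_⟩
  have A := P.rn.A
  have C0 := A.cl.C0
  have C1 := A.cl.C1
  have C7 : S.C ≤ S.C ^ 7 := le_self_pow₀ C1 (by norm_num)
  have L1 : 128 * S.C ≤ L := le_trans (by gcongr; linarith) hK
  have E1 : 1 ≤ E := (one_le_pow₀ (by linarith)).trans hE
  have En : E ≤ S.n :=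
    ((le_mul_of_one_le_right (by linarith) (one_le_pow₀ A.cl.F1)).trans H.ln.Lg0).trans H.ln.Lg1
  refine h hT P ((A.tk_of H.lp H.lc a3 le_rfl E1).mono A a4 (by positivity) le_rfl) H.ap.jn
    H.lp.u1a H.lp.u1b.1 a1 a2 (le_trans (by gcongr; linarith) hK) (by linarith) (by linarith) hW hE
    ?_
  have := mul_le_mul_of_nonneg_right En
    (show 0 ≤ S.C * S.v * S.n by have := A.cl.v0; positivity)
  linarith

end Crest.Agent.T156.Alt.O60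

end
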