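import Crest.Agent.T156.TxX_84
import Crest.Agent.T156.TxO_60
import Crest.Agent.T156.TopG_51
import Crest.Agent.T156.TxN_48
import Crest.Agent.T156.TxU_12
import Crest.Agent.T156.PgH_33

/-!
# Row 156, block (L): the middle zone and the top of (TxS) (helper60)
-/

set_option autoImplicit false

noncomputable section

namespace Crest.Agent.T156.Alt.O60

open Real Filter
open Crest.Agent.T156.Alt.L69 Crest.Agent.T156.Alt.Mp9 Crest.Agent.T156.Alt.Nd33
open Crest.Agent.T156.Alt.L31 Crest.Agent.T156.Alt.X84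
open Crest.Agent.T156.Pr.Reg48 (Sm)

theorem cl_ge (f : ℝ → ℝ) : CL fun _ Λ S _ _ _ => f S.C ≤ Λ := fun C =>
  .of_forall fun _ _ _ η hη => by
    filter_upwards [Pre29.ev_K (f C) hη] with n h S M b1 _ _ _ m a _
    rwa [b1]

theorem pv_mono {S : Sc} {M : Md} {m : ℕ} {a T W Xp γ V Lp Lg G ev N2 g x x' u : ℝ} {vc v0 : ℕ}
    (H : PV W S M m a T Xp γ V Lp Lg G ev N2 g x u vc v0) (h : x ≤ x') :
    PV W S M m a T Xp γ V Lp Lg G ev N2 g x' u vc v0 := by
  have R := H.rn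
  obtain ⟨G', ev', D, a1, a2, a3, a4, a5, a6⟩ := R.sv
  exact ⟨⟨R.A, R.W1, R.θ1, R.u0, R.γ0, R.V0, R.Lp, R.Lg1, R.po, R.G0, R.vJ,
    G', ev', D, a1, a2, a3, a4, a5, a6.trans h⟩, H.ex, H.vt, H.r0.trans h, H.g2.trans h⟩

variable {E : ℝ} {S : Sc} {M : Md} {m : ℕ} {a : ℝ} {c : Dt}

theorem nb60 (Y : Cy E S M m a c) (E1 : 1 ≤ E) :
    S.F ^ 10 * c.p.N ≤ Nb S M c := by
  have h := Y.tw.at'.cl
  have F1 := h.F1
  have C0 := h.C0
  have n0 := h.N0
  have c0 : 0 ≤ cB M S c.p.η c.t4 S.C := Finset.sum_nonneg fun k _ => by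
    have : 0 < mf S (M.s k) := div_pos (Y.tw.at'.ms_pos (h.s_nn k)) (by linarith)
    have : 0 ≤ cr S (M.s k) := zero_le_one.trans (le_max_left _ _)
    have : 0 ≤ min (|M.G k| ^ ((4 : ℝ) / 3)) (M.G k ^ 2 / mf S (M.s k)) :=
      le_min (by positivity) (by positivity)
    exact mul_nonneg (sub_nonneg.2 (h.leg.zm (Nat.sub_le k 1))) (by positivity)
  have x0 : 0 ≤ c.X4 := by
    have := (Y.cw.Z.w3p C0).le
    have V0 := Y.hx.ln.V0
    have : 0 ≤ cr S S.C := zero_le_one.trans (le_max_left _ _)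
    have : 0 ≤ L69.cl S c.p.V S.C := by unfold L69.cl; positivity
    have : 0 ≤ ws S c.p.V S.C := by unfold ws; positivity
    have : 0 ≤ min c.p.X (L69.cl S c.p.V S.C ^ 3) := le_min Y.hx.ln.X0.le (by positivity)
    refine le_trans (by positivity) (Y.l4 S.C ?_ le_rfl)
    by_contra q
    linarith [Y.t4, mul_le_mul_of_nonneg_right E1 (C0.trans (not_le.1 q)).le]
  refine mul_le_mul_of_nonneg_left ?_ (by positivity)
  unfold Nn
  linarith [sq_nonneg c.p.X2, show 0 ≤ 1 / (S.n : ℝ) ^ 3 by positivity]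

set_option maxHeartbeats 1000000 in
/-- **(M)** -/
theorem txM_of (hC : TxC) (hD : TxD) (hE : TxE) : TxM := by
  choose K0 κ0 c0 K1 hT using topH
  choose Kn Kn1 hn using netH
  unfold TxC LF at hC
  unfold TxD LF at hD
  unfold TxE LF at hE
  unfold TxM LF
  refine (((hC.and hD).and hE).and
    (cl_ge fun C => max (K0 (2 * C) * C ^ 7) (Kn C))).mono
    fun E Λ S M m a E1 Λ1 h hm ⟨⟨⟨pC, pD⟩, pE⟩, pK⟩ c Y hΛ v v1 v2 Q βs θ' β0 β1 hθ => ?_
  obtain ⟨G, ev, N2, g, x1, vc, a1, a2, P1⟩ := pC c Y hΛ v v1 v2 Q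
  obtain ⟨x2, b1, b2, b3, b4⟩ := pE c Y hΛ v v1 v2 Q
  have pD := pD c Y hΛ v v1 v2 Q
  have H := Y.hx
  have A := Y.tw.at'
  have Z := Y.cw.Z
  have Cw' := Y.cw
  have θ1 := Y.cw.θ1
  have θ0 := h.θ0
  have C1 := h.C1
  have C0 := h.C0
  have F1 := h.F1
  have n0 := h.N0
  have v0 := h.v0
  have DE := Y.cw.DE
  have CD := Z.CD
  have γ0 := Y.tw.γ0
  have τ0 := Y.tw.τ0
  generalize hD' : c.D = D at *
  have cp : ∀ i : ℕ, i ≤ 10 → 10000 * S.C ^ i ≤ D := fun i e =>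
    le_trans (by gcongr) CD
  have D4 : 10000 ≤ D := by simpa using cp 0 (by norm_num)
  have D1 : 1 ≤ D := by linarith
  have D0 : 0 ≤ D := by linarith
  have pw : ∀ i j : ℕ, i ≤ j → D ^ i ≤ D ^ j := fun i j e => pow_le_pow_right₀ D1 e
  have d6 : D ≤ D ^ 6 := le_self_pow₀ D1 (by norm_num)
  have E2 : D ≤ E := (le_self_pow₀ D1 (by norm_num)).trans DE
  have T := X48.at48 A H (by linarith) θ1
  have U := tm12 Y.tw H θ1 (by linarith)
  have N0 := U.N0
  have nb := nb60 Y E1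
  generalize Nb S M c = B at *
  have fb : ∀ i : ℕ, i ≤ 10 → S.F ^ i * c.p.N ≤ B := fun i e => le_trans (by gcongr) nb
  have NB : c.p.N ≤ B := by simpa using fb 0 (by norm_num)
  have B0 : 0 ≤ B := by linarith
  have pb : ∀ i j : ℕ, i ≤ j → D ^ i * B ≤ D ^ j * B := fun i j e =>
    mul_le_mul_of_nonneg_right (pw i j e) B0
  have pb' : ∀ i j : ℕ, i < j → 10000 * (D ^ i * B) ≤ D ^ j * B := fun i j e =>
    (mul_le_mul_of_nonneg_right D4 (by positivity)).trans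
      (by rw [← mul_assoc, ← pow_succ']; exact pb _ _ e)
  have pz : ∀ i : ℕ, 0 ≤ D ^ i * B := fun i => by positivity
  have p0 : ∀ i : ℕ, B ≤ D ^ i * B := fun i => le_mul_of_one_le_left B0 (one_le_pow₀ D1)
  have up : ∀ {i j : ℕ} {x : ℝ}, Sm S.θ 1 (D ^ i * B) 1 x → i ≤ j → Sm S.θ 1 (D ^ j * B) 1 x :=
    fun s e => s.mono θ0.le zero_le_one (by positivity) zero_le_one le_rfl le_rfl (pb _ _ e) le_rfl
      le_rfl
  -- the uniform error
  have s0 := a2.max b1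
  have P := pv_mono P1 (le_max_left x1 x2)
  have m2 := le_max_right x1 x2
  generalize max x1 x2 = x at *
  have x0 := P.x0
  have u1 := H.lp.u1b
  have u0 : 0 ≤ c.p.u1 := ((sub_nonneg.2 (h.leg.z1 _)).trans h.last).trans H.lp.u1a
  have hu : 3 * max c.p.u1 (c.p.u2 / 8) ≤ 8 * c.p.u2 := by
    have : max c.p.u1 (c.p.u2 / 8) ≤ c.p.u2 := max_le u1.1 (by linarith [u1.1])
    linarith [u1.1]
  -- the cut-off
  have n1 : (1 : ℝ) ≤ S.n := by exact_mod_cast h.n1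
  have ν0 : 0 < 1 / (S.n : ℝ) ^ 2 := by positivity
  have ν1 : 1 / (S.n : ℝ) ^ 2 ≤ 1 / S.n :=
    one_div_le_one_div_of_le n0 (le_self_pow₀ n1 two_ne_zero)
  have ν2 : 1 / (S.n : ℝ) ≤ 1 := (div_le_one n0).2 n1
  have νv : S.C * S.v ≤ 1 / (S.n : ℝ) ^ 2 := (le_div_iff₀ (by positivity)).2 Z.hv
  have νN : 1 / (S.n : ℝ) ^ 2 ≤ c.p.N := by
    have q0 : 0 < 1 / (S.n : ℝ) := by positivity
    have q1 : (1 / (S.n : ℝ)) ^ 2 ≤ c.p.ηc ^ 2 := pow_le_pow_left₀ q0.le T.a7.1 2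
    rw [← one_div_pow]
    refine le_trans (le_min ?_ ?_) H.lc.c8
    · refine le_trans ?_ (rpow_le_rpow q0.le T.a7.1 (by norm_num))
      rw [← rpow_natCast]
      exact rpow_le_rpow_of_exponent_ge q0 ν2 (by norm_num)
    · exact q1.trans (le_div_self (sq_nonneg _) θ0 θ1)
  have νl : log (1 + 2 * S.C / (1 / (S.n : ℝ) ^ 2)) ≤ D ^ 6 := by
    have e1 : 1 + 2 * S.C / (1 / (S.n : ℝ) ^ 2) ≤ 3 * S.C * (S.n : ℝ) ^ 2 := by
      rw [div_div_eq_mul_div, div_one]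
      linarith [one_le_mul_of_one_le_of_one_le C1 (one_le_pow₀ (n := 2) n1)]
    refine (log_le_log (by positivity) e1).trans ?_
    rw [log_mul (by positivity) (by positivity), log_pow]
    have e2 := log_le_sub_one_of_pos (show 0 < 3 * S.C by positivity)
    have e3 := cp 1 (by norm_num)
    have e4 := mul_le_mul_of_nonneg_right D4 D0
    push_cast
    linarith [Z.lg, pw 2 6 (by norm_num)]
  generalize 1 / (S.n : ℝ) ^ 2 = ν at *
  obtain ⟨e1, e2, e3, e4, e5⟩ := Q.ve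
  have J2 := Q.mg.1
  have o1 := Q.o1
  have o2 := Q.o2
  obtain ⟨w, x', W⟩ := hT (2 * S.C) H le_rfl (L := D ^ 6) (N := D ^ 600 * B) (θ' := θ') (βs := βs)
    (ν := ν) P hu a1 (add_nonneg T.η0 T.X0.1) (NB.trans (p0 _))
    (((le_max_left _ _).trans pK).trans (hΛ.trans d6))
    (by
      have := mul_le_mul_of_nonneg_right ((show 26 * S.C ^ 2 ≤ D by
        linarith [cp 2 (by norm_num), sq_nonneg S.C]).trans (le_self_pow₀ D1 two_ne_zero))
        (pow_nonneg D0 4)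
      have := mul_le_mul_of_nonneg_right (le_self_pow₀ C1 two_ne_zero) (pow_nonneg D0 4)
      linarith)
    (by rw [← pow_mul]; exact (pw _ _ (by norm_num)).trans DE) Z.hv
    ((up s0 (j := 600) (by norm_num)).mono θ0.le zero_le_one (by positivity) zero_le_one le_rfl
      le_rfl (by linarith [p0 600]) le_rfl le_rfl)
    hθ ⟨ν0, ν1.trans ν2, νN.trans (NB.trans (p0 _)), νl⟩ (b4.trans m2)
    ⟨β0, (β1.trans (b2.trans m2)).trans (le_mul_of_one_le_left x0 (one_le_pow₀ D1))⟩ Q.jv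
    (by omega) e4
  obtain ⟨w1, w2⟩ := W.w1
  obtain ⟨Rs, g', r0, r1, r2, g0', g1, g2⟩ := pD w w1.le (by omega) W.du1
  -- the margin
  have t0 : 0 ≤ D ^ 44 * tc S c := by unfold tc; positivity
  obtain ⟨t1', t2, t3, -, t4⟩ := U.mar h γ0 (W := D ^ 44 * S.F) (by positivity) t0 (by
    unfold tc
    rw [← mul_assoc]
    exact mul_le_mul_of_nonneg_left U.cu (by positivity))
  have t5 : D ^ 44 * tc S c ≤ 1 := t1' (by
    refine le_of_pow_le_pow_left₀ two_ne_zero (by linarith) ?_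
    have q1 : S.F ^ 2 ≤ E := (pow_le_pow_right₀ F1 (by norm_num)).trans H.F40
    have q2 : 9 * D ^ 88 ≤ E := by
      linarith [mul_le_mul_of_nonneg_right D4 (pow_nonneg D0 88), pw 89 500 (by norm_num),
        pow_nonneg D0 88]
    linarith [mul_le_mul q2 q1 (by positivity) (by linarith)])
  have t6 : 2 * (S.C * S.v) ≤ D ^ 44 * tc S c := by
    have q0 : 0 ≤ c.p.ηc := le_trans (by positivity) T.a7.1
    have q1 : c.p.ηc ≤ c.p.τ := by
      have := H.lp.Xp0.1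
      have : 0 < c.p.Lc := by linarith [H.lp.Lc1.1, Y.tw.EL]
      linarith [H.lp.τ0, le_div_self q0 T.m0.1 (T.m0.2.trans θ1),
        show 0 ≤ c.p.Xp ^ ((1 : ℝ) / 3) / c.p.Lc by positivity]
    have q2 : c.p.τ + c.p.γ ≤ tc S c := le_mul_of_one_le_left (by positivity) F1
    have q3 := mul_le_mul_of_nonneg_right
      (D4.trans (le_self_pow₀ D1 (show 44 ≠ 0 by norm_num))) ((add_nonneg τ0.le γ0).trans q2)
    linarith [T.a7.1]
  have zv : M.z (S.J - 1) - D ^ 44 * tc S c ≤ M.z v2 := by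
    have := Q.lo
    rw [hD'] at this
    exact this.trans (h.leg.zm o2.le)
  generalize D ^ 44 * tc S c = τ at *
  have t7 : S.θ * τ ^ 3 ≤ D ^ 300 * B := by
    linarith [mul_le_mul_of_nonneg_left (fb 3 (by norm_num)) (pow_nonneg D0 132),
      pb' 132 300 (by norm_num), p0 132]
  have t8 : τ ^ 6 ≤ D ^ 300 * B := by
    linarith [mul_le_mul_of_nonneg_left (fb 6 (by norm_num)) (pow_nonneg D0 264),
      pb' 264 300 (by norm_num), p0 264,
      mul_le_mul_of_nonneg_right (one_le_pow₀ (n := 2) F1) (pow_nonneg t0 6)]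
  have t9 : S.θ * c.p.γ * τ ≤ D ^ 300 * B := by
    linarith [mul_le_mul_of_nonneg_left (fb 2 (by norm_num)) (pow_nonneg D0 44),
      pb' 44 300 (by norm_num), p0 44]
  have q8 := pb 300 800 (by norm_num)
  have q0 := p0 300
  obtain ⟨Gm, m1, m2', m3, m4, m5, m6⟩ := A.gm51 (v := v2) (N0 := D ^ 300 * B) (N := D ^ 800 * B)
    (L := D ^ 6) θ1 H.lp.γ0
    (by linarith [U.γ3, mul_le_mul_of_nonneg_right θ1 (pow_nonneg γ0 3)]) t0 t7 νv (ν1.trans ν2)
    (by linarith) zv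
    (by
      have := T.Ga0
      unfold X48.Ga at this
      linarith [mul_le_mul_of_nonneg_left (NB.trans q0) θ0.le])
    (by
      have j0 := h.s_nn S.jl
      rw [lt_div_iff₀ (by positivity)]
      have q1 := mul_le_mul_of_nonneg_left (H.ln.l0s.trans H.ln.l0l) (show 0 ≤ E by linarith)
      have q2 := mul_le_mul_of_nonneg_right ((cp 2 (by norm_num)).trans E2) j0
      have q3 := mul_le_mul_of_nonneg_right E1 (mul_nonneg (show 0 ≤ E by linarith) j0)
      linarith [H.ln.l1, show 0 ≤ S.C ^ 2 * M.s S.jl by positivity])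
    (by
      have := mul_le_mul_of_nonneg_right (cp 9 (by norm_num)) (pz 300)
      linarith [pb 301 800 (by norm_num), mul_nonneg (pow_nonneg C0.le 9) (pz 300)])
    (by linarith [cp 2 (by norm_num), sq_nonneg S.C])
  obtain ⟨-, y3⟩ := At.cbrt51 θ0 (pz 800)
  generalize (D ^ 800 * B / S.θ) ^ ((1 : ℝ) / 3) = y at *
  have nt := hn S.C rfl H Cw' (((le_max_right _ _).trans pK).trans hΛ)
    P le_rfl a1 hu (NB.trans (p0 200)) s0 (w := w) (by omega) W.du1 (y := y)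
    ((pb 200 800 (by norm_num)).trans y3.ge)
  obtain ⟨k1, k2, k3, k4, k5⟩ := A.e_pack θ1
  have s1 : Sm S.θ 1 (D ^ (6 * 9 + 600) * B) 1 x' := by
    rw [pow_add, pow_mul, mul_assoc]
    exact W.sm
  have s2 : Sm S.θ 1 (D ^ (7 * 2 + 200) * B) 1 (D ^ 7 * x) := by
    rw [pow_add, pow_mul, mul_assoc]
    exact s0.mul zero_le_one (one_le_pow₀ (n := 7) D1)
  have xx := W.x1
  have l1 : x' ≤ max (max x' Rs) (D ^ 7 * x) := le_max_of_le_left (le_max_left _ _)
  have q9 := pb (196 + 200) 800 (by norm_num)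
  rw [pow_add, mul_assoc] at q9
  refine ⟨w, max (max x' Rs) (D ^ 7 * x), D ^ 800 * B, D ^ 600 * B, ν, τ, c.p.γ, y, Gm, Rs, _, _,
    w1.le, le_rfl, pb _ _ (by norm_num), ⟨by linarith [cp 1 (by norm_num)],
      by linarith [cp 1 (by norm_num)], θ1, ⟨k5.trans (mul_le_mul_of_nonneg_right
        (by linarith [cp 7 (by norm_num), pow_pos C0 7]) k3.le), k4, le_rfl⟩,
      ⟨k1.le, le_min (by linarith [A.sb_mono (show v + 1 ≤ v2 + 1 by omega)]) (by linarith)⟩,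
      ⟨ν0, ν1.trans ν2, by linarith, νl, νv⟩,
      ⟨by linarith, ((up s1 (by norm_num)).max (up r1 (by norm_num))).max (up s2 (by norm_num))⟩,
      ⟨β0, by linarith⟩, ⟨Q.jv, by omega, by omega, by omega, by omega⟩,
      ⟨H.lp.γ0, T.γ0.2, by linarith [U.γ3], by linarith [U.γ2]⟩,
      ⟨t6, t5, by linarith, by linarith, by linarith⟩, zv,
      ⟨r0, le_max_of_le_left (le_max_right _ _)⟩, r2, ⟨W.aM.1.trans l1, W.aM.2.trans l1⟩,
      ⟨by linarith, m1, m2', m3, m4, m5, m6⟩,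
      U.gp.trans (mul_le_mul_of_nonneg_left (by linarith) θ0.le), fun k _ kw hy => ?_⟩,
    W.top' g' g0' (by rwa [← pow_mul]) g1⟩
  obtain ⟨i, K1', K2', i1, i2, i3, i4, i5, i6, i7, i8⟩ := nt k kw hy
  exact ⟨i, K1', K2', i1, i2, i3, i4, i5, by linarith [le_max_right (max x' Rs) (D ^ 7 * x)],
    i7.trans (mul_le_mul_of_nonneg_left q9 θ0.le),
    i8.trans (pow_le_pow_left₀ (mul_nonneg (pow_nonneg D0 _) (pz _)) q9 2)⟩

end Crest.Agent.T156.Alt.O60

end
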