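import Crest.Agent.T156.TxX_84
import Crest.Agent.T156.TxC2_65

/-!
Row 156, block (L) (helper89): `TxS` from the leaves of `TxX_84`.
-/

set_option autoImplicit false

noncomputable section

namespace Crest.Agent.T156.Alt.X84

open MeasureTheory Set Real
open Crest.Agent.R164.GC Crest.Agent.R339.B Crest.Agent.R339.Var Crest.Agent.T157.Pf
open Crest.Agent.T156.Cut8 Crest.Agent.T156.Alt.Mp9 Crest.Agent.T156.Alt.L69
open Crest.Agent.T156.Alt.L31 Crest.Agent.T156.Alt.L25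

theorem qt89 {S : Sc} {M : Md} {m : ℕ} {a T s u K E N Z P : ℝ} (h : QT S M m a T s u K E (P * N) Z)
    (K0 : 0 ≤ K) (P1 : 1 ≤ P) (Z0 : 0 ≤ Z) (E0 : 0 ≤ E) : QT S M m a T s u (K * P) E N Z := by
  obtain ⟨Q, q1, q2, q3, q4, q5, q6⟩ := h
  have z := mul_le_mul_of_nonneg_left (le_mul_of_one_le_left Z0 P1) K0
  have e := mul_le_mul_of_nonneg_left (le_mul_of_one_le_left E0 P1) K0
  exact ⟨Q, q1, q2, q3, by linarith, by linarith, by linarith⟩

/-- **(TxS)** from the nodes, zone I, the middle zone and the top -/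
theorem txS_of (hC : CzS2) (hA : TxA) (hB : TxB) (hM : TxM) : TxS := by
  unfold TxA LF at hA
  unfold TxB LF at hB
  unfold TxM LF at hM
  refine (CL.and (CL.and (hC fun _ => 0) veS) (CL.and hA (CL.and hB hM))).glue fun C =>
    ⟨0, fun A0 _ ε η hε hη => ⟨ε, min (ε / 1000) (η / 859), 1, hε, by positivity,
      fun S M m a R h I ⟨⟨p1, p2⟩, pA, pB, pM⟩ p lam K θ1 X4 t4 Gn V0 H lK KE hθ h4 l4 G => ?_⟩⟩
  have n1 := h.n1
  have k3 := R.num_le
  have hE : ((S.n : ℝ) ^ min (ε / 1000) (η / 859)) ^ 1000 ≤ (S.n : ℝ) ^ ε := by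
    rw [Pre29.rp_pow]
    exact Pre29.rp_le n1 (by push_cast; linarith [min_le_left (ε / 1000) (η / 859)])
  have hΛ : ((S.n : ℝ) ^ min (ε / 1000) (η / 859)) ^ 859 ≤ (S.n : ℝ) ^ η := by
    rw [Pre29.rp_pow]
    exact Pre29.rp_le n1 (by push_cast; linarith [min_le_right (ε / 1000) (η / 859)])
  generalize (S.n : ℝ) ^ min (ε / 1000) (η / 859) = s at *
  generalize (S.n : ℝ) ^ ε = E at *
  generalize (S.n : ℝ) ^ η = Λ at *
  obtain ⟨D0, Λ0, L, W3, W, d1, -, -, w0, w1⟩ := p1 p lam H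
  have K1 : 1 ≤ K := H.l1.trans lK
  have s0 : 0 ≤ s := by linarith
  have sD : s ≤ s * K := le_mul_of_one_le_right s0 K1
  have KD : K ≤ s * K := le_mul_of_one_le_left (by linarith) (by linarith)
  have dD : D0 ≤ s * K := d1.trans (mul_le_mul_of_nonneg_left lK s0)
  have E0 : 0 ≤ E := le_trans (by positivity) hE
  have DE : (s * K) ^ 500 ≤ E := by
    refine le_of_pow_le_pow_left₀ two_ne_zero E0 ?_
    calc _ = s ^ 1000 * K ^ 1000 := by ring
      _ ≤ E * E := mul_le_mul hE KE (by positivity) E0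
      _ = _ := by ring
  have DΛ : (s * K) ^ 859 ≤ Λ * K ^ 990 := by
    rw [mul_pow]
    exact mul_le_mul hΛ (pow_le_pow_right₀ K1 (by norm_num)) (by positivity)
      (le_trans (by positivity) hΛ)
  have D3 : 1000 ≤ s * K := k3.trans sD
  have Y : Cy E S M m a ⟨lam, K, θ1, X4, t4, s * K, Λ0, L, W3, p, Gn, V0⟩ :=
    ⟨H, lK, KE, hθ, h4, l4, G, W.mono dD DE, up65 (by linarith [W.D1]) dD w0 w1, KD,
      (p2 p lam K Gn V0 H lK KE G).1⟩
  obtain ⟨v, v1, v2, N⟩ := pA _ Y sD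
  have B := pB _ Y sD v v1 v2 N
  have Q := pM _ Y sD v v1 v2 N
  have A := Y.tw.at'
  have ve := N.ve
  have vv : v ≤ v2 := N.o1.trans N.o2.le
  have θle := W.θ1
  unfold Nb at B Q
  dsimp only at B Q ve
  clear pA pB pM p1 p2 Y N hE hΛ
  generalize s * K = D at *
  refine ⟨v, ve, fun A1 A0 En βs a0 a1 b0 b1 hE β0 β1 => ?_⟩
  have D1 : 1 ≤ D := by linarith
  have D0' : 0 ≤ D := by linarith
  have θ0 : 0 ≤ θ1 := by by_contra c; nlinarith
  have hθ' : 1 ≤ D ^ 6 * (θ1 / 34) := by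
    have e1 : D ^ 2 ≤ D ^ 6 := pow_le_pow_right₀ D1 (by norm_num)
    have e2 := mul_le_mul_of_nonneg_right KD θ0
    have e3 := mul_le_mul_of_nonneg_right e1 θ0
    have e4 := mul_le_mul_of_nonneg_right D3 (mul_nonneg D0' θ0)
    nlinarith
  obtain ⟨w, x, N, N', ν, τ, γ, y, Gm, Rs, κ, c0, jw, n1, n2, h2, h3⟩ := Q βs _ β0 β1 hθ'
  obtain ⟨-, -, -, s1, s2⟩ := ve
  obtain ⟨Ch, -, hC'⟩ := Hm.hlip (2 * S.C)
  have F1 := h.F1
  set Nb := S.F ^ 10 * Nn S M p X4 t4 with hNb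
  have Nb0 : 0 ≤ Nb := by
    have : 0 < D ^ 800 * Nb := by linarith [h2.ν0.1, h2.ν0.2.2.1]
    exact (pos_of_mul_pos_of_nn this (by positivity)).le
  have MT := (A.sb_mem h2.v1.2.2.2.2).2
  have sy : sb M m a (v + 1) ≤ ys S M m a v2 := le_min (A.sb_mono (by omega)) s2.le
  have yM : ys S M m a v2 ≤ sb M m a (w + 1) :=
    (min_le_left _ _).trans (A.sb_mono (Nat.succ_le_succ h2.v1.2.2.2.1))
  have hI : 0 ≤ At.e48 S / M.b * Il S M m a (2 * S.C) (ys S M m a v2) (sb M m a (w + 1)) :=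
    mul_nonneg (div_nonneg (A.e_pack θle).2.2.1.le A.b_pos.le)
      (intervalIntegral.integral_nonneg yM fun _ _ => mul_nonneg (abs_nonneg _) (ff_nn _ _ _ _))
  have En0 : 0 ≤ En := le_trans (add_nonneg (intervalIntegral.integral_nonneg
    (by linarith) fun _ _ => sq_nonneg _) (sq_nonneg _)) hE
  have y1 : D ^ 800 * Nb ≤ D ^ 838 * Nb :=
    mul_le_mul_of_nonneg_right (pow_le_pow_right₀ D1 (by norm_num)) Nb0
  have y2 : (D ^ 6) ^ 23 * N' ≤ D ^ 838 * Nb :=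
    (mul_le_mul_of_nonneg_left n2 (by positivity)).trans_eq (by ring)
  have y3 : (D ^ 6) ^ 6 * N ≤ D ^ 838 * Nb :=
    calc _ ≤ (D ^ 6) ^ 6 * (D ^ 800 * Nb) := mul_le_mul_of_nonneg_left n1 (by positivity)
      _ = D ^ 836 * Nb := by ring
      _ ≤ _ := mul_le_mul_of_nonneg_right (pow_le_pow_right₀ D1 (by norm_num)) Nb0
  have W0 : 0 ≤ D ^ 20 * S.F := by positivity
  have z := (B _ A0 En βs (A.sb_mono (by omega)) MT b0 b1 hE β0 β1).mono sy hI le_rfl W0 le_rfl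
    (mul_nonneg (pow_nonneg D0' _) Nb0) y1
  have d21 : 1000 ≤ D ^ 21 := D3.trans (le_self_pow₀ D1 (by norm_num))
  have c1 : 12 * (D ^ 838 * Nb) ≤ Λ * K ^ 990 * S.F ^ 10 * Nn S M p X4 t4 :=
    calc _ ≤ D ^ 21 * (D ^ 838 * Nb) := mul_le_mul_of_nonneg_right (by linarith) (mul_nonneg (pow_nonneg D0' _) Nb0)
      _ = D ^ 859 * Nb := by ring
      _ ≤ Λ * K ^ 990 * Nb := mul_le_mul_of_nonneg_right DΛ Nb0
      _ = _ := by rw [hNb]; ring
  have c2 : (320 * (D ^ 6) ^ 3 + D ^ 20 * S.F) * D ^ 838 ≤ Λ * K ^ 990 * S.F := by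
    have e1 : (D ^ 6) ^ 3 ≤ D ^ 20 * S.F := by
      rw [← pow_mul]
      exact (pow_le_pow_right₀ D1 (by norm_num)).trans (le_mul_of_one_le_right (by positivity) F1)
    have e2 := mul_le_mul_of_nonneg_right D3 W0
    calc _ ≤ D * (D ^ 20 * S.F) * D ^ 838 := mul_le_mul_of_nonneg_right (by linarith) (by positivity)
      _ = D ^ 859 * S.F := by ring
      _ ≤ _ := mul_le_mul_of_nonneg_right DΛ (by linarith)
  have u0 : 0 ≤ p.u2 := by linarith [h.last, h.leg.z1 (S.Jp - 1), H.lp.u1a, H.lp.u1b.1]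
  have c3 : 8 * p.u2 ≤ Λ * K ^ 990 * p.u2 := mul_le_mul_of_nonneg_right
    (le_trans (by linarith) ((le_self_pow₀ D1 (by norm_num)).trans DΛ)) u0
  refine (fin A (hC' _ le_rfl).2.2.2.2.2.2.2 h2 h3 hθ' W0 z y2 y3 s2.le a0 a1 b0 (by linarith)
    hE).mono (by linarith) fun Z z0 q => ?_
  exact (qt89 q (by positivity) (one_le_pow₀ D1) z0 En0).mono c3 (by positivity) c2 En0 le_rfl
    (by linarith) le_rfl

end Crest.Agent.T156.Alt.X84

end
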