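import Crest.Agent.T156.KeyB_41
import Crest.Agent.T156.LZ_94
import Crest.Agent.T156.TxS_89
import Crest.Agent.T156.TxA_83
import Crest.Agent.T156.TxMo_60
import Crest.Agent.T156.TxCz_5
import Crest.Agent.T156.TxD_14
import Crest.Agent.T156.TxEr_75
import Crest.Agent.T156.TLqY_53

/-!
# Row 156 (helper41): the key estimate from the last leaf `TxB`
-/

set_option autoImplicit false

noncomputable section

namespace Crest.Agent.T156.Alt.KeyB

variable {β : ℝ}

theorem txS (b : X84.TxB) : L31.TxS :=
  X84.txS_of (L31.czS2_of LZ.szS) X84.txA b (O60.txM_of X84.txC5 X84.txD X84.txE75)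

theorem out (b : X84.TxB) : LZ.Out := LZ.Open.out ⟨txS b, L63.tlq53⟩

theorem key_open (hβ : 1 < β) (b : X84.TxB) : Soft.Key β := key_out hβ (out b)

end Crest.Agent.T156.Alt.KeyB

end
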