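import Crest.Agent.T156.LNx_97
import Crest.Agent.T156.AltReg_29

/-!
# Row 156, block (L): the bulk numbers `LN` in exponents (helper97)
-/

set_option autoImplicit false
set_option linter.unusedSectionVars false

noncomputable section

namespace Crest.Agent.T156.Alt.Ln97

open Real Finset
open Crest.Agent.T156.Alt.L69 Crest.Agent.T156.Alt.Tn15

/-- the twelve monomials of `e2` at a level with exponent `T` and mass exponent `m` -/
structure M12 (η L ξ χ2 χ3 γ T m b : ℝ) : Prop where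
  h1 : 6 * L - (1 + T + m) ≤ b
  h2 : 4 * L - 2 / 3 - T ≤ b
  h3 : 5 / 2 * L - (1 + m) / 2 - (1 + T + m) / 3 ≤ b
  h4 : (L - (1 + m)) / 2 + χ2 / 2 ≤ b
  h5 : γ + 2 * L - (1 + T + m) / 3 ≤ b
  h6 : γ + χ2 / 2 ≤ b
  h7 : χ2 + 2 * L - (1 + T + m) / 3 ≤ b
  h8 : 3 / 2 * χ2 ≤ b
  h9 : χ3 ≤ b
  h10 : -1 ≤ b
  h11 : η - (1 + m) ≤ b
  h12 : η - (1 + m) / 7 + 6 / 7 * (3 * ξ - (1 + T + m) / 3) ≤ b

theorem M12.mono {η L ξ χ2 χ3 γ T m b b' : ℝ} (h : M12 η L ξ χ2 χ3 γ T m b) (hb : b ≤ b') :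
    M12 η L ξ χ2 χ3 γ T m b' :=
  ⟨h.h1.trans hb, h.h2.trans hb, h.h3.trans hb, h.h4.trans hb, h.h5.trans hb, h.h6.trans hb,
    h.h7.trans hb, h.h8.trans hb, h.h9.trans hb, h.h10.trans hb, h.h11.trans hb, h.h12.trans hb⟩

/-- the lines of `LN` in exponents, constant part (`e, a0, a, ξ, L, χ2, χ3, γ` = exponents of
`E, l0, l, x, Lg, X2, X3, G0`; `m0, m` = mass exponents at `l0, l`) -/
structure GX (η e a0 a ξ L χ2 χ3 γ m0 m : ℝ) : Prop where
  l0w : -(1 + a0 + m0) ≤ 3 * a0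
  l1 : e + a ≤ 0
  X1 : e + 3 * ξ ≤ 0
  xl : ξ ≤ a
  Lg0 : e ≤ L
  Lg1 : L ≤ 1
  X43 : e + 4 * ξ ≤ m
  G04 : e + 4 * γ ≤ 3 * m
  a2 : η + 3 * a0 ≤ χ2 ∧ η + a0 + 2 * ξ ≤ χ2
  a3 : η + 5 * a0 ≤ χ3 ∧ η + a0 + 4 * ξ ≤ χ3
  ga : η + 3 * a0 ≤ γ ∧ η + a0 + 2 * ξ ≤ γ
  t3 : e + χ2 ≤ m

/-- the lines of `LN` at a level above `l0`; `Y = max T ξ` -/
structure GV (η ξ χ2 χ3 T Y m : ℝ) : Prop where
  b2 : η + T + 2 * Y ≤ χ2 ∨ (η + 2 * Y - 2 / 3 * (1 + T + m) - T ≤ χ2 ∧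
    2 * η + 3 * (2 * Y - 2 / 3 * (1 + T + m) - T) + 12 * ξ ≤ 7 * χ2)
  b3 : η + T + 4 * Y ≤ χ3 ∨ (η + 4 * Y - (1 + T + m) - 2 * T ≤ χ3 ∧
    3 * η + 16 * Y - 3 * (1 + T + m) + 18 * ξ - 8 * T ≤ 7 * χ3)

section

variable {β c0 C0 : ℝ} {A : ℕ} {c η K : ℝ} {p : Pm} (H : Reg β c0 C0 A c η K p)
  {E l0 l x X Lg X2 X3 G0 t b : ℝ} {S : Sc} {M : Md}
include H

theorem lg_W (cl : Cl S M) (hn : S.n = p.n) (hF : S.F = 1) (ht : 0 < t) (h1 : S.ms t ≤ t ^ 2) :
    logb p.n (W S t) = -(1 + logb p.n t + logb p.n (S.ms t)) / 3 ∧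
    logb p.n (P S t) = -(1 + logb p.n (S.ms t)) ∧ logb p.n (gg S t) = -(1 + logb p.n (S.ms t)) := by
  have m0 := cl.ms_pos ht.le
  have n0 := H.N0
  have e : cr S t = 1 := max_eq_left (rpow_le_one (by rw [hF]; positivity)
    ((div_le_one (by positivity)).2 (by rw [hF, one_mul]; exact h1)) (by norm_num))
  have g : logb p.n (gg S t) = -(1 + logb p.n (S.ms t)) := by
    rw [gg, hF, hn]; lg_norm; rw [H.lg_n]; ring
  refine ⟨?_, by rw [P_cr cl ht, e, one_pow, one_mul, g], g⟩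
  rw [W, e, one_mul, Sc.w3, hF, hn]; lg_norm; rw [H.lg_n]; ring

theorem lg_mx {u y : ℝ} (hu : 0 < u) (hy : 0 < y) : logb p.n u ≤ logb p.n (max u y) ∧
    logb p.n y ≤ logb p.n (max u y) ∧
      (logb p.n (max u y) = logb p.n u ∨ logb p.n (max u y) = logb p.n y) := by
  rw [lg_max H.N1 hu hy]
  exact ⟨le_max_left _ _, le_max_right _ _, max_choice _ _⟩

/-- the exponent of the residual size -/
theorem e2_lg (h : FX E S M l0 l x X Lg ((p.n : ℝ) ^ (-(2 : ℝ) / 3)) X2 X3 G0) (hn : S.n = p.n)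
    (hF : S.F = 1) (ht : l0 ≤ t)
    (m : M12 η (logb p.n Lg) (logb p.n x) (logb p.n X2) (logb p.n X3) (logb p.n G0) (logb p.n t)
      (logb p.n (S.ms t)) b) :
    e2 S Lg ((p.n : ℝ) ^ (-(2 : ℝ) / 3)) X X2 X3 G0 t ≤ (p.n : ℝ) ^ (b + η) := by
  have t0 := h.l00.trans_le ht
  obtain ⟨w, q, -⟩ := lg_W H h.cl hn hF t0 (by have := h.c1 t ht; rwa [hF, one_mul] at this)
  have := W0 h.cl t0
  have := Tn15.P0 h.cl t0
  have := h.Lgp
  have := h.G00
  have := h.X20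
  have := h.X30
  have := h.X0
  have := h.x0
  have n0 := H.N0
  have η0 := H.η_pos
  have n8 := H.lg_num (x := 8) (by norm_num) (by norm_num)
  have n2 := H.lg_num (x := 2) (by norm_num) (by norm_num)
  have eX : logb p.n X = 3 * logb p.n x := by rw [← h.x3]; lg_norm
  obtain ⟨h1, h2, h3, h4, h5, h6, h7, h8, h9, h10, h11, h12⟩ := m
  have k : ∀ y, 0 < y → logb p.n y ≤ b → y ≤ (p.n : ℝ) ^ b := fun y y0 a =>
    H.le_of_lg y0 (by positivity) (by rw [H.lg_rp]; exact a)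
  refine (h.e2_le (B := (p.n : ℝ) ^ b) ?_ ?_ ?_ ?_ ?_ ?_ ?_ ?_ (k _ (by positivity) h9) ?_ ?_
    ?_).trans ?_
  rotate_right
  · rw [rpow_add n0, mul_comm]
    exact mul_le_mul_of_nonneg_left (by linarith [H.num_le]) (by positivity)
  all_goals
    try rw [hn]
    refine k _ (by positivity) ?_
    lg_norm
    try simp only [H.lg_n]
    linarith

/-- the monomial lines from the exponents -/
theorem fx_lg (cl : Cl S M) (hn : S.n = p.n) (hF : S.F = 1) (HJ : M.H S.Jp ≤ S.C)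
    (l0s : E * M.s S.jl ≤ l0) (l0l : l0 ≤ l)
    (sub : ∀ t t', 0 ≤ t → t ≤ t' → S.ms t' ≤ S.ms t + t' ^ 2)
    (c1 : ∀ t, l0 ≤ t → S.ms t ≤ t ^ 2) (x3 : x ^ 3 = X) (E0 : 0 < E) (l00 : 0 < l0) (x0 : 0 < x)
    (L0 : 0 < Lg) (Y0 : 0 < X2) (Z0 : 0 < X3) (G : 0 < G0)
    (g : GX η (logb p.n E) (logb p.n l0) (logb p.n l) (logb p.n x) (logb p.n Lg) (logb p.n X2)
      (logb p.n X3) (logb p.n G0) (logb p.n (S.ms l0)) (logb p.n (S.ms l)))
    (gl : ∀ t, l0 ≤ t → t ≤ S.C → GV η (logb p.n x) (logb p.n X2) (logb p.n X3) (logb p.n t)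
      (logb p.n (max t x)) (logb p.n (S.ms t)))
    (gb : ∀ t, l0 ≤ t → t ≤ l → η + 3 * logb p.n (max t x) - logb p.n t -
      (1 + logb p.n (S.ms t)) ≤ 2 * logb p.n G0)
    (t2 : ∀ t, l ≤ t → t ≤ S.C → logb p.n E + 4 * logb p.n Lg -
      2 / 3 * (1 + logb p.n t + logb p.n (S.ms t)) ≤ logb p.n (S.ms t)) :
    FX E S M l0 l x X Lg ((p.n : ℝ) ^ (-(2 : ℝ) / 3)) X2 X3 G0 := by
  have n0 := H.N0
  have η0 := H.η_pos
  have lp := l00.trans_le l0l
  have m0 := cl.ms_pos l00.le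
  have m1 := cl.ms_pos lp.le
  have X0 : 0 < X := x3 ▸ pow_pos x0 3
  have eX : logb p.n X = 3 * logb p.n x := by rw [← x3]; lg_norm
  have mf1 : ∀ t, mf S t = S.ms t := fun t => by rw [mf, hF, div_one]
  have n2 := H.lg_num (x := 2 ^ 9) (by norm_num) (by norm_num)
  have n4 := H.lg_num (x := 4) (by norm_num) (by norm_num)
  have n8 := H.lg_num (x := 8) (by norm_num) (by norm_num)
  have n16 := H.lg_num (x := 16) (by norm_num) (by norm_num)
  have n32 := H.lg_num (x := 32) (by norm_num) (by norm_num)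
  rw [logb_pow] at n2
  push_cast at n2
  have y0 : ∀ t, 0 < max t x := fun t => lt_max_of_lt_right x0
  obtain ⟨-, -, y3⟩ := lg_mx H l00 x0
  have y00 := y0 l0
  obtain ⟨g1, g2, g3, g4, g5, g6, g7, g8, ⟨g9, g9'⟩, ⟨g10, g10'⟩, ⟨g11, g11'⟩, g12⟩ := g
  refine ⟨cl, HJ, l0s, l00, ?_, l0l, ?_, sub, fun t a => by rw [hF, one_mul]; exact c1 t a, x0, x3,
    ?_, H.le_of_lg x0 lp g4, by rw [hF, one_pow, mul_one]; exact H.le_of_lg E0 L0 g5, L0,
    by rw [hn]; exact H.le_of_lg L0 n0 (by rw [H.lg_n]; exact g6), ?_, ?_, ?_, by positivity, ?_,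
    ?_, fun t a b => ?_, ?_, fun t a b => ?_, ?_, fun t a b => ?_, fun t a b => ?_, ?_⟩
  · rw [Sc.w3, hF, hn]
    refine H.le_of_lg (by positivity) (by positivity) ?_
    lg_norm; rw [H.lg_n]; linarith
  · refine H.le_of_lg (by positivity) one_pos ?_
    lg_norm; linarith
  · refine H.le_of_lg (by positivity) one_pos ?_
    lg_norm; linarith
  · refine H.le_of_lg (by positivity) (by positivity) ?_
    lg_norm; linarith
  · rw [mf1]
    refine H.le_of_lg (by positivity) m1 ?_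
    lg_norm; linarith
  · rw [mf1]
    refine H.le_of_lg (by positivity) (by positivity) ?_
    lg_norm; linarith
  · rw [hF, hn]
    refine H.le_of_lg (by positivity) (by positivity) ?_
    lg_norm; rw [H.lg_n]; linarith
  · refine H.le_of_lg (by positivity) Y0 ?_
    lg_norm; rcases y3 with y | y <;> linarith
  · have t0 := l00.trans_le a
    have := y0 t
    have := W0 cl t0
    have w := (lg_W H cl hn hF t0 (c1 t a)).1
    refine (gl t a b).b2.imp (fun k => H.le_of_lg (by positivity) Y0 ?_) fun ⟨k, k'⟩ =>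
      ⟨H.le_of_lg (by positivity) Y0 ?_, H.le_of_lg (by positivity) (by positivity) ?_⟩ <;>
    lg_norm <;> linarith
  · refine H.le_of_lg (by positivity) Z0 ?_
    lg_norm; rcases y3 with y | y <;> linarith
  · have t0 := l00.trans_le a
    have := y0 t
    have := W0 cl t0
    have w := (lg_W H cl hn hF t0 (c1 t a)).1
    refine (gl t a b).b3.imp (fun k => H.le_of_lg (by positivity) Z0 ?_) fun ⟨k, k'⟩ =>
      ⟨H.le_of_lg (by positivity) Z0 ?_, H.le_of_lg (by positivity) (by positivity) ?_⟩ <;>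
    lg_norm <;> linarith
  · refine H.le_of_lg (by positivity) G ?_
    lg_norm; rcases y3 with y | y <;> linarith
  · have t0 := l00.trans_le a
    have := y0 t
    have := gg0 cl t0.le
    have w := (lg_W H cl hn hF t0 (c1 t a)).2.2
    have k := gb t a b
    refine H.le_of_lg (by positivity) (by positivity) ?_
    lg_norm; linarith
  · have t0 := lp.trans_le a
    have := W0 cl t0
    have w := (lg_W H cl hn hF t0 (c1 t (l0l.trans a))).1
    have k := t2 t a b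
    rw [mf1]
    refine H.le_of_lg (by positivity) (cl.ms_pos t0.le) ?_
    lg_norm; linarith
  · rw [mf1]
    refine H.le_of_lg (by positivity) m1 ?_
    lg_norm; linarith

/-- **`LN` from the exponents** -/
theorem ln_lg (h : FX E S M l0 l x X Lg ((p.n : ℝ) ^ (-(2 : ℝ) / 3)) X2 X3 G0) (hn : S.n = p.n)
    (hF : S.F = 1) (E0 : 0 < E)
    (t14 : ∀ t, l ≤ t → t ≤ S.C → ∃ b, M12 η (logb p.n Lg) (logb p.n x) (logb p.n X2)
      (logb p.n X3) (logb p.n G0) (logb p.n t) (logb p.n (S.ms t)) b ∧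
      logb p.n E + η + b ≤ 3 / 2 * logb p.n (S.ms t) ∧
      logb p.n E + η + b ≤ logb p.n (S.ms t) + logb p.n t) :
    LN E S M l0 l (X ^ ((1 : ℝ) / 3)) X Lg X2 X3 G0
      (eta S l Lg ((p.n : ℝ) ^ (-(2 : ℝ) / 3)) X X2 X3 G0) := by
  have n0 := H.N0
  have mf1 : ∀ t, mf S t = S.ms t := fun t => by rw [mf, hF, div_one]
  refine h.ln (fun t a b => ?_) fun t a b => ?_ <;>
  · obtain ⟨B, m, k1, k2⟩ := t14 t a b
    have t0 := h.lp.trans_le a
    have := h.cl.ms_pos t0.le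
    refine (mul_le_mul_of_nonneg_left (e2_lg H h hn hF (h.l0l.trans a) m) E0.le).trans ?_
    rw [mf1]
    refine H.le_of_lg (by positivity) (by positivity) ?_
    lg_norm; rw [H.lg_n]; linarith

end

end Crest.Agent.T156.Alt.Ln97

end
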