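import Crest.Agent.T156.LtC2_85
import Crest.Agent.T156.LPa_72
import Crest.Agent.T156.HyD_77
import Crest.Agent.T156.R1LocB_77
import Crest.Agent.T156.LNy_97

/-!
# Row 156 (helper13): the leaf `R77.LPx`
-/

set_option autoImplicit false
set_option linter.unusedSectionVars false

noncomputable section

namespace Crest.Agent.T156.Alt.Lx13

open Real Tr3 Lq3 Lp86 Kn72 L69 R77

variable {β c0 C0 c0' C0' η' : ℝ} {A : ℕ} {c η K K' : ℝ} {p : Pm} {σ t y : ℝ} {Q : Pl}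
  (X : Nr44.Cx β c0 C0 A c η K' p σ t) (G : GrD K c0' C0' η' p σ t Q) (nd : p.Need t)
include X G nd

theorem ltL_le : p.ltL t ≤ 1 := by
  have H := B.of X.H
  have f := Lc85.facts (σ := σ) X nd
  refine max_le (H.le (H.mul (t_nc X _).1 (H.rpw (H.ul X.Ph0) _)) B.done
    (by linarith [f.φ1, f.c1])) ?_
  have k : p.κ ^ 10 ≤ 1 := pow_le_one₀ X.H.κ0.le (rpow_le_one_of_one_le_of_nonpos H.n1.le
    (by rw [X.H.hc]; linarith [f.c0]))
  linarith [min_le_right (p.yL t) (p.κ ^ 10)]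

/-- the residual size at the top -/
theorem eta1 : U p.n (etaL p σ t (p.scG K σ t Q) 1) (-(2 / 5)) := by
  have H := B.of X.H
  obtain ⟨c0, c1, η0, η1, μ0, μ1, -, -, -, φ1, -, -⟩ := Lc85.facts (σ := σ) X nd
  have cl := G.cl.1
  have e : (p.scG K σ t Q).ms 1 = p.muG t := G.top
  obtain ⟨w, q, -⟩ := Ln97.lg_W X.H cl rfl rfl one_pos (by
    rw [e, one_pow]; exact H.le (H.ul X.θ0) B.done (by linarith))
  rw [e] at w q
  rw [logb_one] at w
  have uW := H.mono (H.ul (Tn15.W0 cl one_pos)) (show _ ≤ -(21 / 100 : ℝ) by linarith)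
  have uP := H.mono (H.ul (Tn15.P0 cl one_pos)) (show _ ≤ -(66 / 100 : ℝ) by linarith)
  have L : U p.n p.LgL (1 / 1000) := H.mono (H.pow (t_nc X _).1 2) (by push_cast; linarith)
  have χ := Lc85.uX2 X nd
  have c8 := H.mul (H.cst (y := 8) (by norm_num) (by norm_num)) uP
  have p1 := H.pc (c := -(2 / 5)) (H.mul (H.pow L 6) (H.pow uW 3)) (by push_cast; linarith)
  have p2 := H.pc (c := -(2 / 5)) (H.mul (H.pow L 4) (H.div (H.up (-(2 : ℝ) / 3)) B.done))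
    (by push_cast; linarith)
  have p3 := H.pc (c := -(2 / 5)) (H.mul (H.add3 (c := -(28 / 100)) (H.sqrt (H.mul L uP))
    (Lc85.uG0 (σ := σ) X nd) χ (by linarith) (by linarith) (by linarith))
    (H.add (c := -(14 / 100)) (H.mul (H.pow L 2) uW) (H.sqrt χ) (by push_cast; linarith)
      (by linarith))) (by linarith)
  have p4 := H.pc (c := -(2 / 5)) (Lc85.uX3 X nd) (by linarith)
  have p5 := H.pc (c := -(2 / 5)) (H.div B.one B.dn) (by linarith)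
  have p6 := H.pc (c := -(2 / 5)) c8 (by linarith)
  have p7 := H.pc (c := -(2 / 5)) (H.mul (H.rpw c8 ((1 : ℝ) / 7)) (H.rpw (H.mul (H.mul
    (H.cst (y := 2) (by norm_num) (by norm_num)) uW) (H.ul X.Ph0)) ((6 : ℝ) / 7))) (by linarith)
  rw [etaL, Ln97.eta_eq (ltL_le X G nd), Ln97.e2, Tn15.e0]
  change U p.n (_ + _ + _ + _ + 1 / (p.n : ℝ) + _) _
  exact H.tot 7 (by linarith) (by linarith)

/-- **`LP` on `LtD_29`** -/
theorem lpx (hA : 4 ≤ A) (P : p.PlX σ t Q) (y0 : p.XloL σ t ≤ y) (y1 : y ≤ p.PhN t) :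
    LP p.EL (p.scG K σ t Q) (p.gst Q t) y (p.VL σ t) p.LgL 1 (p.X2L t) (p.X3L t) (p.G0L σ t) 0
      (p.uL t) (p.uL t) (p.jL σ t) 0 (p.LcL t) (p.ecL σ t y) (p.tauL σ t y)
      (etaL p σ t (p.scG K σ t Q)) (p.NL σ t y) := by
  have yp := (pow_pos X.la0 2).trans_le ((la_Xlo X).trans y0)
  have x0 := rpow_pos_of_pos yp ((1 : ℝ) / 3)
  have hx : (y ^ ((1 : ℝ) / 3)) ^ 3 = y := by
    rw [← rpow_natCast, ← rpow_mul yp.le]; norm_num
  have e := eta1 X G nd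
  obtain ⟨_, _, _, _, _, S⟩ := nsL X G nd y0 y1 x0 hx
  obtain ⟨_, _, _, _, _, _, _, R⟩ := Lc85.ncL X nd G x0 hx y1 y0 ((B.of X.H).up _)
  have k := lp X.H hA X.o G P S (La72.naL X nd y0 y1 x0 hx le_rfl le_rfl) R e.1 e.2
  rwa [hx, one_pow] at k

omit X G nd in
/-- **the leaf `LPx`** -/
theorem lpxG (hβ : 1 < β) : OnG LPx β :=
  OnG.cl' hβ CL.triv (OnG.triv β) one_pos (by norm_num : (0 : ℝ) < 1 / 2000) 10000 0 (fun _ => 0)
    fun _ _ _ _ _ _ _ _ _ _ _ _ _ _ G a _ b _ _ _ nd _ _ y0 y1 =>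
      lpx ⟨G.R, a, by exact_mod_cast b, G.O⟩ G.D nd G.A4 G.X y0 y1

end Crest.Agent.T156.Alt.Lx13

end
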