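import Crest.Agent.T156.HyE_77
import Crest.Agent.T156.ApL_39
import Crest.Agent.T156.VtG_18
import Crest.Agent.T156.LT2q_38
import Crest.Agent.T156.BlkG_79
import Crest.Agent.T156.LNt_97
import Crest.Agent.T156.LPw_13

/-!
# Row 156 (helper77): the leaf `Blkx` from the statements of block (L)
-/

set_option autoImplicit false

noncomputable section

namespace Crest.Agent.T156.Alt.R77

theorem hyx_3 {β : ℝ} (hβ : 1 < β) (T : L69.TLt) (Y : L63.TL2y) (h0 : OnG Lt38.FXx β)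
    (h1 : OnG LNx β) (h2 : OnG LPx β) : OnG Hyx β :=
  Ap39.hyx_of hβ Y (hyY_of hβ h1 h2 (Lt38.ltxG hβ h0) (Vt18.vtx hβ T))

theorem blkx_3 {β : ℝ} (hβ : 1 < β) (T : L69.TLt) (X : L63.TL2x) (Y : L63.TL2y)
    (h0 : OnG Lt38.FXx β) (h1 : OnG LNx β) (h2 : OnG LPx β) : OnG Blkx β :=
  Bk79.blkG hβ (supx_of hβ X (hyx_3 hβ T Y h0 h1 h2))

theorem hyx_1 {β : ℝ} (hβ : 1 < β) (T : L69.TLt) (Y : L63.TL2y) (h2 : OnG LPx β) : OnG Hyx β :=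
  hyx_3 hβ T Y (Ln97.fxG hβ) (Ln97.lnG hβ) h2

theorem blkx_1 {β : ℝ} (hβ : 1 < β) (T : L69.TLt) (X : L63.TL2x) (Y : L63.TL2y)
    (h2 : OnG LPx β) : OnG Blkx β :=
  blkx_3 hβ T X Y (Ln97.fxG hβ) (Ln97.lnG hβ) h2

theorem hyx_all {β : ℝ} (hβ : 1 < β) (T : L69.TLt) (Y : L63.TL2y) : OnG Hyx β :=
  hyx_1 hβ T Y (Lx13.lpxG hβ)

/-- **the leaf `Blkx`** -/
theorem blkx_all {β : ℝ} (hβ : 1 < β) (T : L69.TLt) (X : L63.TL2x) (Y : L63.TL2y) : OnG Blkx β :=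
  blkx_1 hβ T X Y (Lx13.lpxG hβ)

end Crest.Agent.T156.Alt.R77

end
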