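import Crest.Agent.T156.SrMem_29

/-!
# Row 156, SR: the ceiling of the auxiliary models (helper29)
-/

set_option autoImplicit false

noncomputable section

namespace Crest.Agent.T156.Alt.Sr.M29

open Real Finset Filter Pre29

namespace Cx

variable {E : ℝ} {S : Sc} {M : Md} {l Ys Y : ℝ} (X : Cx E S M l Ys Y) {c F : ℕ → ℝ} {w D u : ℝ}
include X

theorem q_pl {i j : ℕ} (hi : S.J ≤ i) (hij : i ≤ j) (hj : j ≤ S.Jp) : M.q j - M.q i ≤ √Y := by
  have a := (X.cl.q_tel (by linarith [X.Cθ]) hij hj).2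
  have b := le_sqrt_of_sq_le X.sh.flat
  linarith [X.cl.sm hi, X.cl.sm hj]

theorem sY_le : √Y ≤ √(E ^ 100 * Y) :=
  sqrt_le_sqrt (le_mul_of_one_le_left X.Y0.le (one_le_pow₀ X.E1))

theorem res' (hF : K0 E S M Y c w F) :
    ∑ j ∈ Ioc S.jl S.Jp, M.dx j * (F j - w * M.q j) ^ 2 ≤ (4 * w * √(E ^ 100 * Y)) ^ 2 := by
  have := X.E0
  have := X.Y0
  rw [mul_pow, sq_sqrt (by positivity)]
  exact hF.res.trans_eq (by ring)

/-- upper bound of the adaptive residual on the plateau -/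
theorem res_up (hc : Ax E S M Y c) (hF : K0 E S M Y c w F) (hw : 0 ≤ w) {k : ℕ} (h : S.J ≤ k)
    (h' : k ≤ S.Jp) (hz : M.z (k - 1) < 1) :
    F k - w * M.q k ≤ w * √Y + 4 * w * √(E ^ 100 * Y) / √(1 - M.z (k - 1)) := by
  have H := X.cl
  have i2 := H.i2
  rw [← sub_le_iff_le_add']
  refine le_of_win (φ := fun j => F j - w * M.q j) (U := Ioc (k - 1) S.Jp) (sub_pos.2 hz)
    (by positivity) (Ioc_subset_Ioc_left (by omega)) (fun j _ => dx_nn H j) ?_ (fun j hj => ?_)
    (X.res' hF)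
  · rw [sum_dx M (by omega), H.top _ le_rfl]
  · obtain ⟨a, b⟩ := mem_Ioc.1 hj
    have a' : k ≤ j := by omega
    refine le_trans ?_ (le_abs_self _)
    linarith [X.F_mono hc hF hw a', mul_le_mul_of_nonneg_left (X.q_pl h a' b) hw]

/-- lower bound of the adaptive residual on the plateau -/
theorem res_dn (hc : Ax E S M Y c) (hF : K0 E S M Y c w F) (hw : 0 ≤ w) {k : ℕ} (h : S.J ≤ k)
    (h' : k ≤ S.Jp) : -(F k - w * M.q k) ≤
      w * √Y + 9 * w * √(E ^ 100 * Y) / √(M.z (k - 1) - M.z (S.J - 1) + S.u0) := by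
  have H := X.cl
  have i2 := H.i2
  have i3 := H.i3
  have C0 := H.C0
  have v0 := H.v0
  have u0 := X.sh.u0.1
  have r0 : 0 ≤ M.z (k - 1) - M.z (S.J - 1) := sub_nonneg.2 (H.leg.zm (by omega))
  have R0 : 0 ≤ w * √(E ^ 100 * Y) := by positivity
  have two : ∀ {x y : ℝ}, 0 < x → 0 < y → y ≤ 2 * x →
      4 * w * √(E ^ 100 * Y) / √x ≤ 8 * w * √(E ^ 100 * Y) / √y := fun {x y} a b d => by
    have e : √y ≤ 2 * √x := by
      rw [sqrt_le_left (by positivity), mul_pow, sq_sqrt a.le]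
      linarith
    rw [div_le_div_iff₀ (sqrt_pos.2 a) (sqrt_pos.2 b)]
    linarith [mul_le_mul_of_nonneg_left e R0]
  have p0 := sqrt_pos.2 (add_pos_of_nonneg_of_pos r0 u0)
  have sp : 9 * w * √(E ^ 100 * Y) / √(M.z (k - 1) - M.z (S.J - 1) + S.u0) =
      8 * w * √(E ^ 100 * Y) / √(M.z (k - 1) - M.z (S.J - 1) + S.u0) +
        w * (√(E ^ 100 * Y) / √(M.z (k - 1) - M.z (S.J - 1) + S.u0)) := by ring
  rw [sp]
  rcases le_total S.u0 (M.z (k - 1) - M.z (S.J - 1)) with d | d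
  · have := le_of_win (φ := fun j => F j - w * M.q j) (x := -(F k - w * M.q k) - w * √Y)
      (U := Ioc (S.J - 1) k) (u0.trans_le d) (by positivity)
      (Ioc_subset_Ioc (by omega) h') (fun j _ => dx_nn H j)
      (by rw [sum_dx M (by omega)]; linarith [H.leg.zm (Nat.sub_le k 1)])
      (fun j hj => by
        obtain ⟨a, b⟩ := mem_Ioc.1 hj
        refine le_trans ?_ (neg_le_abs _)
        linarith [X.F_mono hc hF hw b,
          mul_le_mul_of_nonneg_left (X.q_pl (show S.J ≤ j by omega) b h') hw]) (X.res' hF)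
    linarith [two (u0.trans_le d) (add_pos_of_nonneg_of_pos r0 u0) (by linarith),
      mul_nonneg hw (div_nonneg (sqrt_nonneg (E ^ 100 * Y)) p0.le)]
  · have W0 := X.W0
    have W3 := X.W3
    have WE := X.WE
    have uW := X.u0_le
    have vW : S.C * S.v ≤ Y ^ ((1 : ℝ) / 3) := by linarith [X.Cv_le, X.sjl_le, mul_pos C0 v0]
    generalize Y ^ ((1 : ℝ) / 3) = W at *
    obtain ⟨r, r1, r2⟩ : ∃ r : ℕ, S.C * S.u0 ≤ r * S.v ∧ r * S.v ≤ S.C * S.u0 + S.v := by
      refine ⟨⌈S.C * S.u0 / S.v⌉₊, (div_le_iff₀ v0).1 (Nat.le_ceil _), ?_⟩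
      have := (Nat.ceil_lt_add_one (show 0 ≤ S.C * S.u0 / S.v by positivity)).le
      rwa [div_add_one v0.ne', le_div_iff₀ v0] at this
    have C2 : 1 ≤ S.C ^ 2 := one_le_pow₀ H.C1
    have r3 : r * (S.C * S.v) ≤ 2 * S.C ^ 2 * W := by
      linarith [mul_le_mul_of_nonneg_left r2 C0.le, mul_le_mul_of_nonneg_left uW (pow_pos C0 2).le,
        mul_le_mul_of_nonneg_right C2 W0.le]
    have W4 : 1000 * S.C ^ 4 * W ≤ 1 :=
      (mul_le_mul_of_nonneg_right (X.CE.trans (X.E_le (by norm_num))) W0.le).trans WE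
    have rJ : S.jl + r + 1 ≤ S.J := by
      by_contra hr
      have a := (H.z_tel H.i1 (show S.jl ≤ S.J - 1 by omega) (by omega)).2
      have b : ((S.J - 1 : ℕ) : ℝ) - S.jl ≤ r := by
        have : ((S.J - 1 : ℕ) : ℝ) ≤ (S.jl + r : ℕ) := Nat.cast_le.2 (by omega)
        push_cast at this
        linarith
      have e : 1 / (2 * S.C) ≤ 2 * S.C ^ 2 * W := by
        have : 1 / S.C = 1 / (2 * S.C) + 1 / (2 * S.C) := by field_simp; norm_num
        linarith [H.atom.1, mul_le_mul_of_nonneg_right b (mul_pos C0 v0).le,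
          (H.leg.zm S.jl.le_succ).trans (X.z1_le.trans X.c16)]
      rw [div_le_iff₀ (by positivity)] at e
      have : S.C ^ 3 * W ≤ S.C ^ 4 * W :=
        mul_le_mul_of_nonneg_right (pow_le_pow_right₀ H.C1 (by norm_num)) W0.le
      linarith [mul_pos (pow_pos C0 4) W0]
    have jj := X.sh.jj
    have := le_of_win (φ := fun j => F j - w * M.q j)
      (x := -(F k - w * M.q k) - w * √Y - w * (2 * S.C ^ 2 * W))
      (U := Ioc (S.J - 1 - r) (S.J - 1)) u0 (by positivity)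
      (Ioc_subset_Ioc (by omega) (by omega)) (fun j _ => dx_nn H j)
      (by
        rw [sum_dx M (Nat.sub_le _ _)]
        refine le_trans ?_ (H.z_tel (by omega) (Nat.sub_le _ r) (by omega)).1
        rw [Nat.cast_sub (show r ≤ S.J - 1 by omega), sub_sub_cancel, ← mul_div_assoc,
          le_div_iff₀ C0]
        linarith)
      (fun j hj => by
        obtain ⟨a, b⟩ := mem_Ioc.1 hj
        refine le_trans ?_ (neg_le_abs _)
        have b' : j ≤ S.J := by omega
        have a1 := ((H.q_tel (by linarith [X.Cθ]) b' i3).2.trans (H.s_tel b' le_rfl).2)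
        have a2 : (S.J : ℝ) - j ≤ r := by
          have : (S.J : ℝ) ≤ (j + r : ℕ) := Nat.cast_le.2 (by omega)
          push_cast at this
          linarith
        have a3 := (a1.trans (mul_le_mul_of_nonneg_right a2 (mul_pos C0 v0).le)).trans r3
        linarith [X.F_mono hc hF hw (b'.trans h), mul_le_mul_of_nonneg_left a3 hw,
          mul_le_mul_of_nonneg_left (X.q_pl le_rfl h h') hw]) (X.res' hF)
    have e : 2 * S.C ^ 2 * W ≤ √(E ^ 100 * Y) / √(M.z (k - 1) - M.z (S.J - 1) + S.u0) := by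
      rw [le_div_iff₀ p0]
      refine le_sqrt_of_sq_le ?_
      rw [mul_pow _ (√_), sq_sqrt (by linarith), ← W3]
      have a := mul_le_mul_of_nonneg_left
        (show M.z (k - 1) - M.z (S.J - 1) + S.u0 ≤ 2 * W by linarith) (sq_nonneg (2 * S.C ^ 2 * W))
      have b := mul_le_mul_of_nonneg_right (X.CE.trans (X.E_le (j := 100) (by norm_num)))
        (pow_pos W0 3).le
      linarith [mul_pos (pow_pos C0 4) (pow_pos W0 3)]
    linarith [two u0 (add_pos_of_nonneg_of_pos r0 u0) (by linarith), mul_le_mul_of_nonneg_left e hw]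

/-- **ceiling** -/
theorem cei (hc : Ax E S M Y c) (hD : 0 ≤ D) (h0 : 0 ≤ u) (hz : M.z (S.Jp - 1) < 1)
    (hF : K0 E S M Y c (min u D) F) :
    CeiG (scU E (8 * S.C) S M Y D u) (Gu71.sh M u (Ft S M u (min u D) F))
      (9 * min u D * √(E ^ 100 * Y)) := by
  have H := X.cl
  have C0 := H.C0
  have C1 := H.C1
  have v0 := H.v0
  have E0 := X.E0
  have i1 := H.i1
  have i2 := H.i2
  have i3 := H.i3
  have hw : 0 ≤ min u D := le_min h0 hD
  have hu : min u D ≤ u := min_le_left _ _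
  generalize min u D = w at *
  have E8 : E ^ 8 ≤ S.C * E ^ 9 := (X.Ep (by norm_num)).trans (le_mul_of_one_le_left (by positivity) C1)
  have E9 : S.C ≤ S.C * E ^ 9 := le_mul_of_one_le_right C0.le (one_le_pow₀ X.E1)
  have mp : ∀ k, 0 < S.ms (M.s k) := fun k => H.ms_pos (H.s_nn k)
  refine ⟨by positivity, fun k a b => ?_, ?_, fun k k' a b d => ?_⟩
  · change M.H (k + 1) + Ft S M u w F (k + 1) - (M.H k + Ft S M u w F k) ≤
      8 * S.C * E ^ 9 * (S.ms (M.s k) + u) * S.v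
    have a' : S.jl < k := a
    have b' : k < S.J := b
    have a1 := X.sh.cei.up k a (by omega)
    rw [X.sh.F1, mul_one] at a1
    have a2 := mul_le_mul_of_nonneg_left (H.ckm k (by omega) (by omega)).2 (sub_nonneg.2 hu)
    rw [Ft, Ft, ct_mid H a' (by omega), ct_mid H (by omega) (show k + 1 ≤ S.Jp by omega)]
    have p := mul_pos (mp k) v0
    linarith [hF.cei k a' b', mul_le_mul_of_nonneg_right E9 p.le, mul_pos C0 p,
      mul_le_mul_of_nonneg_right E9 (mul_nonneg h0 v0.le), mul_nonneg (mul_nonneg hw C0.le) v0.le,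
      mul_le_mul E8 (mul_le_mul_of_nonneg_right hu v0.le) (mul_nonneg hw v0.le) (by positivity),
      mul_nonneg (mul_nonneg h0 C0.le) v0.le]
  · change M.H (S.jl + 1) + Ft S M u w F (S.jl + 1) ≤
      8 * S.C * E ^ 9 * (S.ms (M.s S.jl) + u) * M.s S.jl
    have a1 := X.sh.cei.bot
    rw [X.sh.F1, mul_one] at a1
    have s0 := H.s_nn S.jl
    have a2 := mul_le_mul (sub_le_self u hw)
      ((H.q_le_s (X.jp1.trans H.i4.le)).trans X.s1_le) (H.q_nn (X.jp1.trans H.i4.le)) h0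
    have a3 := hF.f1.trans (mul_le_mul_of_nonneg_left X.s1_le (by positivity))
    rw [Ft, ct_mid H (Nat.lt_succ_self _) X.jp1, X.ck1]
    have p := mul_nonneg (mp S.jl).le s0
    linarith [mul_le_mul_of_nonneg_right E9 p, mul_nonneg C0.le p,
      mul_le_mul_of_nonneg_right (C1.trans E9) (mul_nonneg h0 s0),
      mul_le_mul E8 (mul_le_mul_of_nonneg_right hu s0) (mul_nonneg hw s0) (by positivity)]
  · change M.H k' + Ft S M u w F k' - (M.H k + Ft S M u w F k) ≤
      ((k' : ℝ) - k) * (8 * S.C * E ^ 9 * (S.θ + u) * S.v) + 9 * w * √(E ^ 100 * Y) *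
        (1 / √(M.z (k - 1) - M.z (S.J - 1) + S.u0) + 1 / √(1 - M.z (k' - 1)))
    have a' : S.J ≤ k := a
    have d' : k' ≤ S.Jp := d
    have a1 := (X.sh.cei.toG H).pl k k' a' b d'
    rw [X.sh.F1, mul_one, zero_mul, add_zero] at a1
    have a2 := mul_le_mul (sub_le_self u hw) (H.ck_tel (by omega) b d').2
      (sub_nonneg.2 (by
        have := X.ct_mono b
        rwa [ct_mid H (by omega) (b.trans d'), ct_mid H (by omega) d'] at this)) h0
    have z1 : M.z (k' - 1) < 1 := (H.leg.zm (by omega)).trans_lt hz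
    have a3 := X.res_up hc hF hw (a'.trans b) d' z1
    have a4 := X.res_dn hc hF hw a' (b.trans d')
    have a5 := mul_le_mul_of_nonneg_left (X.q_pl a' b d') hw
    have p0 := sqrt_pos.2 (sub_pos.2 z1)
    have a6 : w * √Y ≤ w * √(E ^ 100 * Y) / √(1 - M.z (k' - 1)) :=
      (mul_le_mul_of_nonneg_left X.sY_le hw).trans (le_div_self (by positivity) p0
        (sqrt_le_one.2 (by linarith [H.z_pos (k' - 1)])))
    have kk : 0 ≤ (k' : ℝ) - k := sub_nonneg.2 (Nat.cast_le.2 b)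
    have a7 : S.C * S.θ * S.v + u * (S.C * S.v) ≤ 8 * S.C * E ^ 9 * (S.θ + u) * S.v := by
      have p := mul_nonneg (add_nonneg H.θ0.le h0) v0.le
      linarith [mul_le_mul_of_nonneg_right E9 p, mul_nonneg C0.le p]
    have a8 := mul_le_mul_of_nonneg_left a7 kk
    have a9 : 0 ≤ w * √(E ^ 100 * Y) / √(1 - M.z (k' - 1)) := by positivity
    rw [Ft, Ft, ct_mid H (by omega) (b.trans d'), ct_mid H (by omega) d']
    simp only [div_eq_mul_inv, one_mul] at *
    linarith

theorem cei' {N : Md} (hc : Ax E S M Y c) (hD : 0 ≤ D) (hz : M.z (S.Jp - 1) < 1)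
    (hN : KC E S M Y c D u N) :
    CeiG (scU E (8 * S.C) S M Y D u) N (9 * min u D * √(E ^ 100 * Y)) := by
  obtain ⟨h0, _, F, hF, rfl⟩ := hN
  exact X.cei hc hD h0 hz hF

end Cx

end Crest.Agent.T156.Alt.Sr.M29

end
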