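import Crest.Agent.T156.TermX_71
import Crest.Agent.T156.LDefX_64
import Crest.Agent.T156.SrCei_29

/-!
Row 156 (helper71): the closing of `Term K` from the outputs of (TL1x), (TL1cx) and the numbers.
-/

set_option autoImplicit false
set_option linter.unusedSectionVars false
set_option linter.unusedVariables false

noncomputable section

namespace Crest.Agent.T156.Alt.Tm71

open Real Finset Filter Pre29 Sr
open Crest.Agent.T156.Alt.L69 (mf cr GS GP Pla cB Ap LO L4 LN LP LC Ap2 TL1x TL1cx)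
open Crest.Agent.T156.Alt.Sr.C71 (dx_nn)

/-- the tail of (TL1c'), (TL1cx) -/
def Cut (E Λ : ℝ) (S : Sc) (M : Md) (m : ℕ) (a l X X2 X4 : ℝ) (η : ℝ → ℝ) (N : ℝ) : Prop :=
  ∀ t (g En : ℝ → ℝ), E * (cr S l * l) ≤ t → E * t ≤ 1 →
  (∀ t', t ≤ t' → E * t' ≤ 1 → (∀ k, t' ≤ M.s k → M.s k ≤ 4 * t' → |M.G k| ≤ g t') ∧
    E * √(S.ms (4 * t')) ≤ t' ∧ E * En t' ≤ t' ^ 5 ∧
    L4 S (cr S l * l) X l (4 * t') (En t') ∧
    l ^ 5 + S.ms l * l ^ 3 + cB M S η l (4 * t') + (η t' + g t') ^ 2 / t' +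
      t' * (l ^ 5 + S.ms l * l ^ 3 + cB M S η l S.C + X2 ^ 2 + X4 + N) ≤ En t' ∧
    (E * (2 * t') ≤ 1 → En (2 * t') ≤ 16 * En t') ∧
    (1 < E * (2 * t') → l ^ 5 + S.ms l * l ^ 3 + cB M S η l S.C + X2 ^ 2 + X4 + N ≤ En t')) →
  ∀ t0 t', l ≤ t0 → t0 ≤ t' → t' ≤ t → ∑ k ∈ M.blk S t0 t', L69.dx M k * M.del m a k ^ 2 ≤
    Λ * S.F ^ 12 * (min (√(t' * En t)) (En t / mf S t0) + GS M S t0 t' + 1 / (S.n : ℝ) ^ 2)

/-- the global energy without the residual -/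
def Eg0 (S : Sc) (M : Md) (l X2 X4 : ℝ) (η : ℝ → ℝ) (Nc : ℝ) : ℝ :=
  l ^ 5 + S.ms l * l ^ 3 + cE M S η l S.C + X2 ^ 2 + X4 + Nc

theorem min_sq {T x y : ℝ} (hT : 0 ≤ T) (h : x ≤ T ^ 2) : min (√x) y ≤ T :=
  (min_le_left _ _).trans (sqrt_le_iff.2 ⟨hT, h⟩)

namespace Tx

variable {K : ℕ} {E : ℝ} {S : Sc} {M : Md} {l lm Ys Y : ℝ} {c : ℕ → ℝ} {D u : ℝ} {F : ℕ → ℝ}
  (Z : Tx K E S M l lm Ys Y c D u F)

/-- the energy below the level `t` -/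
def En (t : ℝ) : ℝ := max ((Y / E ^ 12) ^ 2 / t) (Y / E ^ 12 * mf Z.S' t)
/-- the first cut -/
def t0 (_ : Tx K E S M l lm Ys Y c D u F) (E' : ℝ) : ℝ :=
  E' ^ 2 * max (√u) ((Y / E ^ 12) ^ ((1 : ℝ) / 3))
/-- the constant of `CeiG` -/
def G1 (_ : Tx K E S M l lm Ys Y c D u F) : ℝ := 9 * min u D * √(E ^ 100 * Y)
/-- the residual part of the cost `c2` -/
def GN : ℝ := (GP Z.N Z.S' + GS Z.N Z.S' (1 / (8 * Z.S'.C ^ 2)) Z.S'.C + Z.G1 ^ 2) / Z.S'.θ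

/-- **the numbers of the closing** -/
structure Hn (E' l' X X2 X4 u2 : ℝ) (η : ℝ → ℝ) (Nc : ℝ) : Prop where
  jl : M.s S.jl ≤ l'
  l3 : l' ^ 3 ≤ Y / E ^ 12
  u2 : u2 ≤ Y / E ^ 12
  h1 : ∀ t, Z.t0 E' ≤ t → E' * t ≤ 1 → L4 Z.S' (cr Z.S' l' * l') X l' (4 * t) (Z.En t)
  h2 : ∀ t, Z.t0 E' ≤ t → E' * t ≤ 1 → l' ^ 5 + Z.S'.ms l' * l' ^ 3 + cE Z.N Z.S' η l' (4 * t) +
    2 * (η t ^ 2 / t) + t * Eg0 Z.S' Z.N l' X2 X4 η Nc ≤ Z.En t / 2
  h3 : ∀ t, l' ≤ t → (1 ≤ 2 * E' * t ∨ 1 ≤ E' ^ 6 * u) →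
    Eg0 Z.S' Z.N l' X2 X4 η Nc ≤ max ((Y / E ^ 12) ^ 2 / E) (Y / E ^ 12 * mf Z.S' t) / 2

include Z

theorem cei' : CeiG Z.S' Z.N Z.G1 := Z.X.cei Z.ax Z.D0.le Z.u0.le Z.sx.zJ Z.k0

theorem T0 : 0 < Y / E ^ 12 := div_pos Z.Y0 (pow_pos Z.E0 _)
theorem T_Y : Y / E ^ 12 ≤ Y := div_le_self Z.Y0.le (one_le_pow₀ Z.E1)
theorem Y1 : Y ≤ 1 := (le_mul_of_one_le_left Z.Y0.le (one_le_pow₀ Z.Q1)).trans Z.YQ

theorem sqG_g2 : M.sq S M.G ≤ 2 * E ^ K * S.g2 := by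
  classical
  have H := Z.X.cl
  have g0 := Z.g2_nn
  have Q0 := Z.Q0
  have k1 : ∀ k ∈ Ioc S.jl S.Jp, M.dx k * M.G k ^ 2 ≤ E ^ K * S.g2 * M.dx k +
      if 1 / (2 * S.C) < M.z k then M.dx k * M.G k ^ 2 else 0 := fun k hk => by
    obtain ⟨a1, a2⟩ := mem_Ioc.1 hk
    have d0 := dx_nn H k
    split_ifs with e
    · linarith [mul_nonneg (mul_nonneg Q0.le g0) d0]
    have c1 := pow_le_pow_left₀ (abs_nonneg _) (H.Gmi k a1.le (not_lt.1 e)) 2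
    rw [sq_abs] at c1
    have b2 : M.G k ^ 2 ≤ E ^ K * S.g2 := le_of_mul_le_mul_left (by
      linarith [mul_le_mul_of_nonneg_left c1 H.θ0.le, Z.sx.gm _ (H.s_lt a1 H.jl_lt) (H.s_le_C a2),
        mul_le_mul_of_nonneg_left (H.ms1 (M.s k)) (mul_nonneg Q0.le g0)]) H.θ0
    linarith [mul_le_mul_of_nonneg_left b2 d0]
  refine (sum_le_sum k1).trans ?_
  rw [sum_add_distrib, ← mul_sum, ← sum_filter]
  have b1 := wt_one H (Ioc S.jl S.Jp) fun k hk => Nat.zero_lt_of_lt (mem_Ioc.1 hk).1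
  have b2 : ∑ k ∈ (Ioc S.jl S.Jp).filter fun k => 1 / (2 * S.C) < M.z k, M.dx k * M.G k ^ 2 ≤
      S.g2 := le_trans (sum_le_sum_of_subset_of_nonneg (fun k hk => by
      obtain ⟨a, b⟩ := mem_filter.1 hk
      have := mem_Ioc.1 a
      exact mem_filter.2 ⟨mem_Icc.2 ⟨by omega, by omega⟩, b⟩) fun k _ _ => term_nn H M.G k) H.Gtp
  linarith [mul_le_mul_of_nonneg_left b1 (mul_nonneg Q0.le g0), mul_le_mul_of_nonneg_right Z.Q1 g0]

theorem g2_t {t : ℝ} (h0 : 0 ≤ t) (h1 : t ≤ 1) :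
    t * S.g2 ≤ E ^ K * S.θ * (Yd K E Y * (S.ms t + u)) := by
  have H := Z.X.cl
  have Q0 := Z.Q0
  have θ0 := H.θ0
  have y0 := Z.Yd0
  rcases le_total Ys t with e | e
  · refine (Z.sx.g3 t e (h1.trans H.C1)).trans ?_
    linarith [mul_pos (mul_pos Q0 θ0) (mul_pos y0 Z.u0)]
  · have b1 : t * nu S ≤ Yd K E Y :=
      (mul_le_mul_of_nonneg_right (le_min e h1) Z.X.nu0.le).trans Z.sx.big.Y2
    have b2 := mul_le_mul b1 (Z.nu_u.trans (le_add_of_nonneg_left (H.ms_pos h0).le)) Z.X.nu0.le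
      y0.le
    linarith [mul_le_mul_of_nonneg_left Z.sx.g5 h0,
      mul_le_mul_of_nonneg_left b2 (mul_pos Q0 θ0).le]

/-- the two branches of the unit -/
theorem branch : nuY K E S Y = Y / E ^ K ∨ (nuY K E S Y = nu S ∧ Ys ≤ 1) := by
  rcases le_or_gt (nu S) (Y / E ^ K) with e | e
  · exact .inl (max_eq_right e)
  refine .inr ⟨max_eq_left e.le, ?_⟩
  have d : Yd K E Y ≤ Y / E ^ K := by
    rw [le_div_iff₀' Z.Q0]
    simpa using Z.QY' (i := 1) (by norm_num)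
  have y2 := Z.sx.big.Y2
  by_contra hc
  rw [min_eq_right (not_le.1 hc).le, one_mul] at y2
  linarith

theorem y_θ : 113 * (min u D ^ 2 * (E ^ 100 * Y)) / (S.θ + u) ≤
    Z.σ 0 + (Y / E ^ 12) ^ 2 / E / 4 := by
  have H := Z.X.cl
  have E0 := Z.E0
  have y0 := Z.Y0
  have w0 := Z.w0
  have wν := Z.wν
  have E3 := Z.X.E3
  have m : 0 < S.θ + u := add_pos H.θ0 Z.u0
  rcases Z.branch with e | ⟨e, Y1⟩
  · have c1 : E ^ 137 ≤ E ^ K := Z.EQ (by norm_num)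
    have a : min u D ≤ E ^ 11 * (Y / E ^ 137) := wν.trans (by rw [e]; gcongr)
    have b : min u D ≤ S.θ + u := (min_le_left _ _).trans (le_add_of_nonneg_left H.θ0.le)
    have : 113 * (min u D ^ 2 * (E ^ 100 * Y)) / (S.θ + u) ≤ (Y / E ^ 12) ^ 2 / E / 4 := by
      rw [div_le_iff₀ m]
      calc _ = 113 * (min u D * (E ^ 100 * Y)) * min u D := by ring
        _ ≤ E / 4 * (E ^ 11 * (Y / E ^ 137) * (E ^ 100 * Y)) * (S.θ + u) := by gcongr; linarith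
        _ = _ := by field_simp
    linarith [Z.σ0 le_rfl]
  · have c1 : E ^ 137 * nu S ≤ S.θ + u := by
      have := Z.sx.big.star 1 Y1 H.C1
      have n0 := Z.X.nu0
      change _ ≤ S.θ at this
      linarith [mul_le_mul_of_nonneg_right ((Z.EQ (i := 137) (by norm_num)).trans
        (le_self_pow₀ Z.Q1 (show 30 ≠ 0 by norm_num))) n0.le, Z.u0]
    rw [e] at wν
    have n0 := Z.X.nu0
    have : 113 * (min u D ^ 2 * (E ^ 100 * Y)) / (S.θ + u) ≤ min u D * Y / E ^ 25 := by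
      rw [div_le_div_iff₀ m (by positivity)]
      calc _ = 113 * min u D * (E ^ 125 * (min u D * Y)) := by ring
        _ ≤ E * (E ^ 11 * nu S) * (E ^ 125 * (min u D * Y)) := by gcongr; linarith
        _ = min u D * Y * (E ^ 137 * nu S) := by ring
        _ ≤ _ := by gcongr
    linarith [Z.σ_u le_rfl, show 0 ≤ (Y / E ^ 12) ^ 2 / E by positivity]

theorem sqG_split : Z.N.sq Z.S' Z.N.G ≤ 4 * M.sq S M.G +
    4 * (u ^ 2 * M.sq S fun k => M.ck k - M.q k) + 2 * M.sq S Z.gy := by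
  have H := Z.X.cl
  simp only [Md.sq, mul_sum, ← sum_add_distrib]
  refine sum_le_sum (s := Ioc S.jl S.Jp) fun k hk => ?_
  have b := Z.gx_sq (mem_Ioc.1 hk).1 (mem_Ioc.1 hk).2
  have d : Z.N.G k ^ 2 ≤ 2 * Z.gx k ^ 2 + 2 * Z.gy k ^ 2 := by
    rw [Z.G_eq]
    nlinarith [sq_nonneg (Z.gx k - Z.gy k)]
  change M.dx k * _ ≤ _
  linarith [mul_le_mul_of_nonneg_left d (dx_nn H k), mul_le_mul_of_nonneg_left b (dx_nn H k)]

theorem GN_le : Z.GN ≤ 8 * E ^ K * (S.g2 / S.θ) + 2 * Z.σ 0 + (Y / E ^ 12) ^ 2 / E / 4 := by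
  have H := Z.X.cl
  have E0 := Z.E0
  have y0 := Z.Y0
  have u0 := Z.u0
  have m : 0 < S.θ + u := add_pos H.θ0 u0
  have g1 : Z.G1 ^ 2 = 81 * (min u D ^ 2 * (E ^ 100 * Y)) := by
    rw [G1, mul_pow, sq_sqrt (by positivity)]
    ring
  have b7 : M.sq S Z.gy ≤ _ := Z.k0.res
  have a : GP Z.N Z.S' + GS Z.N Z.S' (1 / (8 * Z.S'.C ^ 2)) Z.S'.C + Z.G1 ^ 2 ≤
      8 * E ^ K * S.g2 + 4 * (u ^ 2 * Yd K E Y) + 113 * (min u D ^ 2 * (E ^ 100 * Y)) := by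
    linarith [GS_GP Z.cl' (1 / (8 * Z.S'.C ^ 2)) Z.S'.C, Z.sqG_split, Z.sqG_g2,
      mul_le_mul_of_nonneg_left Z.sx.big.ck (sq_nonneg u)]
  have b := (div_le_div_of_nonneg_right a m.le).trans_eq (by rw [add_div, add_div])
  have c1 : 8 * E ^ K * S.g2 / (S.θ + u) ≤ 8 * E ^ K * (S.g2 / S.θ) := by
    rw [mul_div_assoc]
    exact mul_le_mul_of_nonneg_left (div_le_div_of_nonneg_left Z.g2_nn H.θ0 (by linarith))
      (by have := Z.Q0; positivity)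
  have c2 : 4 * (u ^ 2 * Yd K E Y) / (S.θ + u) ≤ Z.σ 0 := by
    refine le_trans ?_ (Z.σ_ge' le_rfl (x := 4) (le_trans (by
      linarith [one_le_pow₀ (n := 9) Z.E1]) (Z.c_Q (x := 4) (by norm_num) (i := 0) (by norm_num))))
    rw [div_le_iff₀ m]
    have y1 := Z.Yd0
    have := mul_le_mul (show u ≤ S.ms 0 + u by linarith [H.ms_pos le_rfl])
      (show u ≤ S.θ + u by linarith [H.θ0]) u0.le (Z.mu0 le_rfl).le
    linarith [mul_le_mul_of_nonneg_left this y1.le]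
  have c3 := Z.y_θ
  exact b.trans (by linarith)

theorem GN_t {t : ℝ} (h0 : 0 ≤ t) (h1 : t ≤ 1) :
    t * Z.GN ≤ 3 * Z.σ t + (Y / E ^ 12) ^ 2 / E / 4 := by
  have E0 := Z.E0
  have a : t * (S.g2 / S.θ) ≤ E ^ K * (Yd K E Y * (S.ms t + u)) := by
    rw [← mul_div_assoc, div_le_iff₀ Z.X.cl.θ0]
    linarith [Z.g2_t h0 h1]
  have e := Z.σ_ge' h0 (x := 8 * (E ^ K) ^ 2) (le_trans (by
    linarith [mul_le_mul_of_nonneg_right (one_le_pow₀ (n := 9) Z.E1) (pow_pos Z.Q0 2).le])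
    (Z.c_Q (x := 8) (by norm_num) (i := 2) (by norm_num)))
  linarith [mul_le_mul_of_nonneg_left Z.GN_le h0, Z.σ_mono h0,
    mul_le_mul_of_nonneg_right h1 (Z.σ0 le_rfl).le, mul_le_mul_of_nonneg_left a Z.Q0.le,
    mul_le_mul_of_nonneg_right h1 (show 0 ≤ (Y / E ^ 12) ^ 2 / E by positivity)]

theorem GN_top {t x : ℝ} (h0 : 0 ≤ t) (x0 : 0 ≤ x) (hx : x ≤ E ^ K)
    (h : 1 ≤ 2 * x * t ∨ 1 ≤ x ^ 6 * u) : Z.GN ≤ 3 * Z.σ t + (Y / E ^ 12) ^ 2 / E / 4 := by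
  have H := Z.X.cl
  have Q0 := Z.Q0
  have y0 := Z.Yd0
  have p := mul_pos y0 (Z.mu0 h0)
  have A0 := div_nonneg Z.g2_nn H.θ0.le
  have a : ∀ {r : ℝ}, 0 ≤ r → r ≤ 1 → r * (S.g2 / S.θ) ≤ E ^ K * (Yd K E Y * (S.ms r + u)) :=
    fun r0 r1 => by
      rw [← mul_div_assoc, div_le_iff₀ H.θ0]
      linarith [Z.g2_t r0 r1]
  have b : S.g2 / S.θ ≤ 2 * (E ^ K) ^ 7 * (Yd K E Y * (S.ms t + u)) := by
    rcases h with h | h
    · have b1 := a (le_min h0 zero_le_one) (min_le_right t 1)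
      have b2 : 1 ≤ 2 * E ^ K * min t 1 := by
        rw [mul_min_of_nonneg _ _ (by positivity)]
        exact le_min (h.trans (by gcongr)) (by linarith [Z.Q1])
      have b3 : S.ms (min t 1) + u ≤ S.ms t + u := add_le_add (H.msm (min_le_left _ _)) le_rfl
      have b4 := mul_le_mul_of_nonneg_left (b1.trans (by gcongr : _ ≤ E ^ K *
        (Yd K E Y * (S.ms t + u)))) (show 0 ≤ 2 * E ^ K by positivity)
      linarith [mul_le_mul_of_nonneg_right b2 A0,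
        mul_le_mul_of_nonneg_right (Z.Qp (show 2 ≤ 7 by norm_num)) p.le]
    · have b1 := a zero_le_one le_rfl
      have b2 : S.ms 1 + u ≤ 2 * ((E ^ K) ^ 6 * (S.ms t + u)) := by
        have : S.θ ≤ 1 := (le_mul_of_one_le_left H.θ0.le Z.E1).trans Z.Eθ
        have : x ^ 6 * u ≤ (E ^ K) ^ 6 * (S.ms t + u) := by
          have := Z.u0
          gcongr
          linarith [H.ms_pos h0]
        change S.θ + u ≤ _
        linarith [Z.u_one]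
      linarith [mul_le_mul_of_nonneg_left (mul_le_mul_of_nonneg_left b2 y0.le) Q0.le]
  have e := Z.σ_ge' h0 (x := 16 * (E ^ K) ^ 8) (le_trans (by
    linarith [mul_le_mul_of_nonneg_right (one_le_pow₀ (n := 9) Z.E1) (pow_pos Z.Q0 8).le])
    (Z.c_Q (x := 16) (by norm_num) (i := 8) (by norm_num)))
  linarith [Z.GN_le, Z.σ_mono h0, mul_le_mul_of_nonneg_left b Q0.le]

theorem σ_T {t : ℝ} (h0 : 0 ≤ t) : 1000 * Z.σ t ≤ Y / E ^ 12 * mf Z.S' t := by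
  rw [Z.T_mf]
  exact mul_le_mul_of_nonneg_right (Z.X.E3.trans (Z.X.E_le (by norm_num))) (Z.σ0 h0).le

theorem n2_T : 1 / (S.n : ℝ) ^ 2 ≤ Y / E ^ 12 := by
  refine le_trans ?_ (Z.sx.big.Y0.trans Z.Yd_T1)
  rw [one_div, ← rpow_natCast, ← rpow_neg Z.X.cl.N0.le]
  exact rp_le Z.X.cl.n1 (by norm_num)

variable {E' l' X X2 X4 u2 Nc N Λ : ℝ} {η : ℝ → ℝ} {m : ℕ} {a : ℝ}

/-- the global energy in the top cases -/
theorem Eg_top (H : Z.Hn E' l' X X2 X4 u2 η Nc) (e0 : 0 ≤ E') (e2 : E' ≤ E ^ K)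
    (hN : N ≤ Nc + Z.GN) {t : ℝ} (ht : l' ≤ t) (h : 1 ≤ 2 * E' * t ∨ 1 ≤ E' ^ 6 * u) :
    l' ^ 5 + Z.S'.ms l' * l' ^ 3 + cB Z.N Z.S' η l' Z.S'.C + X2 ^ 2 + X4 + N ≤
      max ((Y / E ^ 12) ^ 2 / E) (Y / E ^ 12 * mf Z.S' t) := by
  have t0 := ((Z.X.cl.s_nn _).trans H.jl).trans ht
  have a := H.h3 t ht h
  rw [Eg0] at a
  rw [cB_eq]
  linarith [Z.GN_top t0 e0 e2 h, Z.cG_top l' t0 e0 e2 h, Z.σ_T t0, Z.σ0 t0,
    le_max_left ((Y / E ^ 12) ^ 2 / E) (Y / E ^ 12 * mf Z.S' t),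
    le_max_right ((Y / E ^ 12) ^ 2 / E) (Y / E ^ 12 * mf Z.S' t)]

theorem top_min {t x : ℝ} (h0 : 0 ≤ t)
    (h : x ≤ max ((Y / E ^ 12) ^ 2 / E) (Y / E ^ 12 * mf Z.S' t)) :
    min (√(Z.S'.C * x)) (x / mf Z.S' t) ≤ Y / E ^ 12 := by
  rcases le_max_iff.1 h with h | h
  · refine min_sq Z.T0.le ((mul_le_mul_of_nonneg_left h Z.cl'.C0.le).trans ?_)
    rw [← mul_div_assoc, div_le_iff₀' Z.E0]
    refine mul_le_mul_of_nonneg_right ?_ (sq_nonneg _)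
    change 8 * S.C ≤ E
    linarith [Z.X.CE1, Z.X.cl.C0]
  · exact (min_le_right _ _).trans ((div_le_iff₀ (mf_pos Z.cl' h0)).2 h)

theorem pla_min {x : ℝ} (h : x ≤ max ((Y / E ^ 12) ^ 2 / E) (Y / E ^ 12 * mf Z.S' 1)) :
    min (x ^ ((3 : ℝ) / 5)) (x / Z.S'.θ) ≤ Y / E ^ 12 := by
  have T0 := Z.T0
  have θ0 := Z.cl'.θ0
  rcases le_total x 0 with x0 | x0
  · exact (min_le_right _ _).trans ((div_nonpos_of_nonpos_of_nonneg x0 θ0.le).trans T0.le)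
  rcases le_max_iff.1 h with h | h
  · refine (min_le_left _ _).trans ((rpow_le_rpow x0 (h.trans (div_le_self (sq_nonneg _) Z.E1))
      (by norm_num)).trans ?_)
    rw [← rpow_natCast, ← rpow_mul T0.le]
    simpa using rpow_le_rpow_of_exponent_ge T0 (Z.T_Y.trans Z.Y1)
      (show (1 : ℝ) ≤ ((2 : ℕ) : ℝ) * (3 / 5) by norm_num)
  · exact (min_le_right _ _).trans ((div_le_iff₀ θ0).2 (h.trans (mul_le_mul_of_nonneg_left
      (div_le_self θ0.le Z.cl'.F1) T0.le)))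

set_option maxHeartbeats 800000 in
/-- **the closing** -/
theorem closing (hm : 0 < m) (e1 : 2 * E ^ 3 ≤ E') (e2 : E' ≤ E ^ K) (Λ0 : 0 ≤ Λ) (Λ1 : Λ ≤ E)
    (hN : N ≤ Nc + Z.GN) (H : Z.Hn E' l' X X2 X4 u2 η Nc)
    (lo : LO (Λ * Z.S'.F ^ 12) Z.S' Z.N m a l' u2
      (l' ^ 5 + Z.S'.ms l' * l' ^ 3 + cB Z.N Z.S' η l' Z.S'.C + X2 ^ 2 + X4 + N))
    (cut : Cut E' Λ Z.S' Z.N m a l' X X2 X4 η N) (hX : Z.N.Phi S m a ≤ 2 * (E ^ 100 * Y)) :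
    Z.N.Phi S m a ≤ E ^ 99 * Y := by
  have c := Z.X.cl
  have c' := Z.cl'
  have jj : Z.S'.j0 = Z.S'.jl := Z.X.sh.jj
  have E0 := Z.E0
  have E3 := Z.X.E3
  have C0 := c.C0
  have y0 := Z.Y0
  have u0 := Z.u0
  have T0 := Z.T0
  have W0 := Z.X.W0
  have W3 := Z.X.W3
  have Q0 := Z.Q0
  have eE : 2 * E ≤ E' := by linarith [Z.X.E_le (j := 3) (by norm_num)]
  have e0 : 0 < E' := by linarith
  have e1' : 1 ≤ E' := by linarith
  have l0 : 0 < l' := (c.s_pos (c.i0.trans c.i1)).trans_le H.jl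
  have lW : E ^ 4 * l' ≤ Y ^ ((1 : ℝ) / 3) := by
    refine le_of_pow_le_pow_left₀ three_ne_zero W0.le ?_
    rw [W3, mul_pow, ← pow_mul]
    exact (le_div_iff₀' (pow_pos E0 _)).1 H.l3
  have lW' : l' ≤ Y ^ ((1 : ℝ) / 3) := (le_mul_of_one_le_left l0.le (one_le_pow₀ Z.E1)).trans lW
  have l1 : l' ≤ 1 := lW'.trans Z.W1
  have Λ' : 0 ≤ Λ * Z.S'.F ^ 12 := mul_nonneg Λ0 (pow_nonneg (zero_le_one.trans c'.F1) _)
  have fin : ∀ {x y : ℝ}, x ≤ Λ * Z.S'.F ^ 12 * y → y ≤ 6 * (Y / E ^ 12) → x ≤ 6 * E ^ 97 * Y :=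
    fun h1 h2 => (h1.trans (mul_le_mul_of_nonneg_left h2 Λ')).trans (by
      change Λ * (E ^ 9) ^ 12 * _ ≤ _
      calc _ ≤ E * (E ^ 9) ^ 12 * (6 * (Y / E ^ 12)) := by gcongr
        _ = _ := by field_simp)
  have gs : ∀ r r', GS Z.N Z.S' r r' ≤ Y / E ^ 12 := fun r r' => (GS_le c' r r').trans Z.sqG
  have n2 : 1 / (Z.S'.n : ℝ) ^ 2 ≤ Y / E ^ 12 := Z.n2_T
  have b0 : Bq Z.N Z.S' m a 0 l' ≤ 6 * E ^ 97 * Y := by
    have vs : S.v ≤ M.s S.jl := by linarith [Z.X.Cv_le, le_mul_of_one_le_left c.v0.le c.C1, c.v0]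
    have a1 : 1 ≤ E ^ 34 := one_le_pow₀ Z.E1
    have a2 := Bq_low c' jj Z.Cθ' hm (a := a) (V := 2 * E ^ 34 * Y ^ ((1 : ℝ) / 3)) (vs.trans H.jl)
      (by linarith [mul_le_mul_of_nonneg_right a1 W0.le])
      (by
        change 6 * (8 * S.C) ^ 2 * l' ≤ 1
        linarith [Z.X.W_le, mul_le_mul_of_nonneg_left lW' (pow_pos C0 2).le, mul_pos (pow_pos C0 2) l0])
      (hX.trans (by
        rw [mul_pow, W3]
        linarith [mul_le_mul_of_nonneg_right (Z.X.Ep (show 100 ≤ 102 by norm_num)) y0.le,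
          mul_pos (pow_pos E0 102) y0]))
    refine a2.trans ?_
    change 27 * (8 * S.C) ^ 7 * _ ≤ _
    have a3 : 27 * (8 * S.C) ^ 7 ≤ E ^ 29 := by
      have p1 := pow_le_pow_left₀ (by positivity) (show 8 * S.C ≤ E by linarith [Z.X.CE1]) 7
      linarith [mul_le_mul (show 27 ≤ E by linarith) p1 (by positivity) E0.le,
        Z.X.Ep (show 8 ≤ 29 by norm_num)]
    calc _ ≤ E ^ 29 * (Y ^ ((1 : ℝ) / 3) * (2 * E ^ 34 * Y ^ ((1 : ℝ) / 3)) ^ 2) := by gcongr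
      _ = 4 * E ^ 97 * (Y ^ ((1 : ℝ) / 3)) ^ 3 := by ring
      _ ≤ _ := by rw [W3]; linarith [mul_pos (pow_pos E0 97) y0]
  have b4 : Pla Z.N Z.S' m a 2 ≤ 6 * E ^ 97 * Y := by
    have a1 := Z.pla_min (Z.Eg_top H e0.le e2 hN l1 (.inl (by linarith)))
    have a2 : (Z.N.s Z.S'.Jp - Z.N.s Z.S'.J) ^ 2 ≤ Y / E ^ 12 := Z.sx.big.flat.trans Z.Yd_T1
    exact fin lo.pla (by linarith [H.u2, (GP_le c').trans Z.sqG])
  have top : ∀ t, l' ≤ t → t ≤ 1 → (1 ≤ 2 * E' * t ∨ 1 ≤ E' ^ 6 * u) →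
      Bq Z.N Z.S' m a t Z.S'.C ≤ 6 * E ^ 97 * Y := fun t a1 a2 a3 =>
    fin (lo.two t _ a1 (a2.trans c'.C1))
      (by linarith [Z.top_min (l0.le.trans a1) (Z.Eg_top H e0.le e2 hN a1 a3), gs t Z.S'.C])
  have R0 : 0 < (Y / E ^ 12) ^ ((1 : ℝ) / 3) := rpow_pos_of_pos T0 _
  have R3 : ((Y / E ^ 12) ^ ((1 : ℝ) / 3)) ^ 3 = Y / E ^ 12 := by
    rw [← rpow_natCast, ← rpow_mul T0.le]
    norm_num
  have ht0 : Z.t0 E' = E' ^ 2 * max (√u) ((Y / E ^ 12) ^ ((1 : ℝ) / 3)) := rfl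
  generalize (Y / E ^ 12) ^ ((1 : ℝ) / 3) = R at R0 R3 ht0
  have lR : l' ≤ R := le_of_pow_le_pow_left₀ three_ne_zero R0.le (H.l3.trans R3.ge)
  have uμ : u ≤ max (√u) R ^ 2 :=
    (sq_sqrt u0.le).ge.trans (pow_le_pow_left₀ (sqrt_nonneg _) (le_max_left _ _) 2)
  have Rμ : R ≤ max (√u) R := le_max_right _ _
  have μc : max (√u) R ^ 2 = u ∨ max (√u) R = R := (max_choice (√u) R).imp
    (fun h => by rw [h, sq_sqrt u0.le]) id
  generalize max (√u) R = μ at *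
  have μ0 := R0.trans_le Rμ
  have e4 : 4 ≤ E' ^ 2 := by nlinarith
  have t0μ : 4 * μ ≤ Z.t0 E' := ht0 ▸ mul_le_mul_of_nonneg_right e4 μ0.le
  rcases lt_or_ge 1 (E' * Z.t0 E') with nc | hc
  · have hu : 1 ≤ E' ^ 6 * u := by
      rw [ht0] at nc
      rcases μc with e | e
      · rw [← e]
        exact (one_le_pow₀ (n := 2) nc.le).trans_eq (by ring)
      · have a1 := one_lt_pow₀ nc three_ne_zero
        have a2 : E' ^ 9 * (Y / E ^ 12) ≤ (E ^ K) ^ 10 * Y := mul_le_mul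
          ((pow_le_pow_left₀ e0.le e2 9).trans (Z.Qp (by norm_num))) Z.T_Y T0.le (by positivity)
        rw [← R3, ← e] at a2
        linarith [Z.YQ]
    have t := top l' le_rfl l1 (.inr hu)
    refine (close0 c' jj b0 ((Bq_mono c' le_rfl (l1.trans c'.C1)).trans t) t b4).trans ?_
    linarith [mul_le_mul_of_nonneg_right (show 24 ≤ E ^ 2 by nlinarith)
      (mul_pos (pow_pos E0 97) y0).le]
  have Qb : ∀ i : ℕ, i ≤ 10 → 1000 * E' ^ i ≤ (E ^ K) ^ 60 := fun i hi =>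
    (mul_le_mul (E3.trans Z.E_Q) ((pow_le_pow_left₀ e0.le e2 i).trans (Z.Qp hi)) (by positivity)
      Q0.le).trans ((pow_succ' _ _).ge.trans (Z.Qp (by norm_num)))
  have ml : ∀ i : ℕ, i ≤ 10 → ∀ t, l' ≤ t → 1000 * (E' ^ i * S.ms t) ≤ t ^ 2 := fun i hi t ht => by
    linarith [Z.ml' (H.jl.trans ht),
      mul_le_mul_of_nonneg_right (Qb i hi) (c.ms_pos (l0.le.trans ht)).le]
  have mfl : ∀ t, 0 ≤ t → mf Z.S' t ≤ S.ms t + u := fun t ht =>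
    div_le_self (Z.mu0 ht).le (one_le_pow₀ Z.E1)
  have pr : ∀ t, Z.t0 E' ≤ t → E' * t ≤ 1 →
      (∀ k, t ≤ Z.N.s k → Z.N.s k ≤ 4 * t → |Z.N.G k| ≤ Z.g t) ∧
      E' * √(Z.S'.ms (4 * t)) ≤ t ∧ E' * Z.En t ≤ t ^ 5 ∧
      L4 Z.S' (cr Z.S' l' * l') X l' (4 * t) (Z.En t) ∧
      l' ^ 5 + Z.S'.ms l' * l' ^ 3 + cB Z.N Z.S' η l' (4 * t) + (η t + Z.g t) ^ 2 / t +
        t * (l' ^ 5 + Z.S'.ms l' * l' ^ 3 + cB Z.N Z.S' η l' Z.S'.C + X2 ^ 2 + X4 + N) ≤ Z.En t ∧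
      (E' * (2 * t) ≤ 1 → Z.En (2 * t) ≤ 16 * Z.En t) ∧
      (1 < E' * (2 * t) → l' ^ 5 + Z.S'.ms l' * l' ^ 3 + cB Z.N Z.S' η l' Z.S'.C + X2 ^ 2 + X4 + N ≤
        Z.En t) := fun t a1 a2 => by
    have tμ := t0μ.trans a1
    have t0 : 0 < t := by linarith
    have lt : l' ≤ t := by linarith
    have Et : E * t ≤ 1 := by linarith [mul_le_mul_of_nonneg_right eE t0.le, mul_pos E0 t0]
    have t1 : t ≤ 1 := (le_mul_of_one_le_left t0.le Z.E1).trans Et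
    have a3 : E' ^ 2 * μ ≤ t := ht0.ge.trans a1
    have a4 : E' ^ 4 * u ≤ t ^ 2 := by
      linarith [pow_le_pow_left₀ (by positivity) a3 2, mul_le_mul_of_nonneg_left uμ (pow_pos e0 4).le]
    have a5 : E' ^ 6 * (Y / E ^ 12) ≤ t ^ 3 := by
      rw [← R3]
      exact (show _ = (E' ^ 2 * R) ^ 3 by ring).trans_le (pow_le_pow_left₀ (by positivity)
        ((mul_le_mul_of_nonneg_left Rμ (by positivity)).trans a3) 3)
    have a5' : E' * (Y / E ^ 12) ≤ t ^ 3 :=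
      (mul_le_mul_of_nonneg_right (le_self_pow₀ e1' (by norm_num)) T0.le).trans a5
    have a6 : 4 * (E' ^ 2 * u) ≤ t ^ 2 := by
      linarith [mul_le_mul_of_nonneg_right e4 (mul_pos (pow_pos e0 2) u0).le]
    have En1 : (Y / E ^ 12) ^ 2 / t ≤ Z.En t := le_max_left _ _
    have En2 : Y / E ^ 12 * mf Z.S' t ≤ Z.En t := le_max_right _ _
    have TE : (Y / E ^ 12) ^ 2 / E ≤ (Y / E ^ 12) ^ 2 / t / 4 := by
      rw [div_div]
      exact div_le_div_of_nonneg_left (sq_nonneg _) (by positivity) (by linarith)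
    have p0 : 0 ≤ (Y / E ^ 12) ^ 2 / t := by positivity
    refine ⟨Z.g_bd ?_ (by linarith [H.jl]) Et, ?_, ?_, H.h1 t a1 a2, ?_, fun _ => ?_, fun h => ?_⟩
    · have := le_of_pow_le_pow_left₀ three_ne_zero R0.le ((Z.sx.big.l3.trans Z.Yd_T1).trans R3.ge)
      linarith
    · rw [← le_div_iff₀' e0, sqrt_le_iff, div_pow, le_div_iff₀' (pow_pos e0 2)]
      refine ⟨by positivity, ?_⟩
      change E' ^ 2 * (S.ms (4 * t) + u) ≤ _
      linarith [ml 2 (by norm_num) (4 * t) (by linarith), sq_nonneg t]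
    · rw [En, mul_max_of_nonneg _ _ e0.le]
      refine max_le ?_ ?_
      · rw [← mul_div_assoc, div_le_iff₀ t0]
        have := mul_le_mul a5' ((le_mul_of_one_le_left T0.le e1').trans a5') T0.le (by positivity)
        linarith
      · have p1 : mf Z.S' t ≤ t ^ 2 := by
          have := ml 0 (by norm_num) t lt
          linarith [mfl t t0.le, mul_le_mul_of_nonneg_right e4 u0.le, sq_nonneg t]
        linarith [mul_le_mul a5' p1 (mf_pos c' t0.le).le (by positivity)]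
    · have p1 := H.h2 t a1 a2
      have p2 : (η t + Z.g t) ^ 2 / t ≤ 2 * (η t ^ 2 / t) + 2 * (Z.g t ^ 2 / t) := by
        rw [← mul_div_assoc, ← mul_div_assoc, ← add_div]
        exact div_le_div_of_nonneg_right (by nlinarith [sq_nonneg (η t - Z.g t)]) t0.le
      rw [Eg0] at p1
      rw [cB_eq, cB_eq]
      linarith [Z.g_sq t0, Z.cG_loc l' t0.le t1, Z.cG_glob l' t0.le t1, Z.GN_t t0.le t1,
        mul_le_mul_of_nonneg_left hN t0.le, Z.σ_T t0.le, Z.σ0 t0.le]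
    · refine max_le ?_ ?_
      · linarith [div_le_div_of_nonneg_left (sq_nonneg (Y / E ^ 12)) t0 (show t ≤ 2 * t by linarith)]
      · have p1 : mf Z.S' (2 * t) ≤ 4 * mf Z.S' t := by
          rw [mf, mf, ← mul_div_assoc]
          exact div_le_div_of_nonneg_right (c'.ms2 t t0.le) (zero_le_one.trans c'.F1)
        linarith [mul_le_mul_of_nonneg_left p1 T0.le]
    · exact (Z.Eg_top H e0.le e2 hN lt (.inl (by linarith))).trans (max_le (by linarith) En2)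
  have crl : E' * (cr Z.S' l' * l') ≤ Z.t0 E' := by
    have a0 : E ^ 9 * (S.ms l' + u) / l' ^ 2 ≤ (E' * μ / l') ^ 3 := by
      rw [div_pow, div_le_div_iff₀ (by positivity) (by positivity)]
      have p1 : S.ms l' + u ≤ 2 * μ ^ 2 := by
        have := ml 0 (by norm_num) l' le_rfl
        linarith [pow_le_pow_left₀ l0.le (lR.trans Rμ) 2, sq_nonneg l']
      have p2 : 2 * E ^ 9 ≤ E' ^ 3 := by
        linarith [pow_le_pow_left₀ (by positivity) e1 3, pow_pos E0 9]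
      have lμ := lR.trans Rμ
      calc _ = E ^ 9 * (S.ms l' + u) * l' * l' ^ 2 := by ring
        _ ≤ E ^ 9 * (2 * μ ^ 2) * μ * l' ^ 2 := by gcongr
        _ = 2 * E ^ 9 * (μ ^ 3 * l' ^ 2) := by ring
        _ ≤ E' ^ 3 * (μ ^ 3 * l' ^ 2) := by gcongr
        _ = _ := by ring
    have a1 : cr Z.S' l' ≤ E' * μ / l' := by
      refine max_le ?_ ?_
      · rw [le_div_iff₀ l0]
        linarith [mul_le_mul_of_nonneg_right e1' μ0.le]
      · have m := Z.mu0 l0.le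
        refine (rpow_le_rpow (show 0 ≤ E ^ 9 * (S.ms l' + u) / l' ^ 2 by positivity) a0
          (by norm_num)).trans_eq ?_
        rw [← rpow_natCast, ← rpow_mul (by positivity)]
        norm_num
    rw [le_div_iff₀ l0] at a1
    linarith [mul_le_mul_of_nonneg_left a1 e0.le]
  have blk : ∀ t, Z.t0 E' ≤ t → E' * t ≤ 1 → ∀ r, l' ≤ r → r ≤ t →
      min (√(t * Z.En t)) (Z.En t / mf Z.S' r) ≤ 4 * (Y / E ^ 12) →
      Bq Z.N Z.S' m a r t ≤ 6 * E ^ 97 * Y := fun t a1 a2 r a3 a4 a5 =>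
    fin ((Bq_le c' r t).trans (cut t Z.g Z.En (crl.trans a1) a2
      (fun t' p1 p2 => pr t' (a1.trans p1) p2) r t a3 a4 le_rfl)) (by linarith [gs r t])
  have sq1 : ∀ t y, 0 < t → Z.En t = (Y / E ^ 12) ^ 2 / t →
      min (√(t * Z.En t)) y ≤ 4 * (Y / E ^ 12) := fun t y t0 e =>
    (min_sq T0.le (by rw [e, mul_div_cancel₀ _ t0.ne'])).trans (by linarith)
  have t00 : 0 < Z.t0 E' := by linarith
  have lt0 : 2 * l' ≤ Z.t0 E' := by linarith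
  have b1 : Bq Z.N Z.S' m a l' (Z.t0 E') ≤ 6 * E ^ 97 * Y := by
    refine blk _ le_rfl hc l' le_rfl (by linarith) ?_
    rcases max_choice ((Y / E ^ 12) ^ 2 / Z.t0 E') (Y / E ^ 12 * mf Z.S' (Z.t0 E')) with e | e
    · exact sq1 _ _ t00 e
    change Z.En (Z.t0 E') = _ at e
    rcases le_total (S.ms (Z.t0 E')) u with f | f
    · refine (min_le_right _ _).trans ?_
      rw [e, div_le_iff₀ (mf_pos c' l0.le)]
      have p1 : mf Z.S' (Z.t0 E') ≤ 4 * mf Z.S' l' := by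
        rw [Z.mf_eq, Z.mf_eq, ← mul_div_assoc]
        exact div_le_div_of_nonneg_right (by linarith [c.ms_pos l0.le]) (pow_pos E0 9).le
      linarith [mul_le_mul_of_nonneg_left p1 T0.le]
    rcases μc with g | g
    · have p1 := ml 4 (by norm_num) (Z.t0 E') (by linarith)
      have p2 : Z.t0 E' ^ 2 = E' ^ 4 * u := by rw [ht0, ← g]; ring
      linarith [mul_le_mul_of_nonneg_left f (pow_pos e0 4).le, mul_pos (pow_pos e0 4) u0]
    · refine (min_sq T0.le ?_).trans (by linarith)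
      have p1 := ml 6 (by norm_num) (Z.t0 E') (by linarith)
      have p2 : Z.t0 E' ^ 3 = E' ^ 6 * (Y / E ^ 12) := by rw [ht0, g, ← R3]; ring
      have p3 : E' ^ 6 * mf Z.S' (Z.t0 E') ≤ Z.t0 E' ^ 2 / 500 := by
        linarith [mul_le_mul_of_nonneg_left (show mf Z.S' (Z.t0 E') ≤ 2 * S.ms (Z.t0 E') by
          linarith [mfl _ t00.le]) (pow_pos e0 6).le]
      have p4 : Z.t0 E' * mf Z.S' (Z.t0 E') ≤ Y / E ^ 12 := le_of_mul_le_mul_left (by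
        linarith [mul_le_mul_of_nonneg_left p3 t00.le, pow_pos t00 3]) (pow_pos e0 6)
      rw [e]
      linarith [mul_le_mul_of_nonneg_left p4 T0.le]
  have i1 : E' * (1 / E') = 1 := mul_one_div_cancel e0.ne'
  have h1 : Z.t0 E' ≤ 1 / E' := (le_div_iff₀' e0).2 hc
  have h2 : 1 / E' ≤ 1 := div_le_one_of_le₀ e1' e0.le
  obtain ⟨I, I1, I2⟩ := exists_dy (t1 := 1 / E') t00 Z.X.N1 (h2.trans (by
    have p1 : (S.n : ℝ)⁻¹ ≤ Z.t0 E' := by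
      rw [← rpow_neg_one]
      refine (rp_le c.n1 (show (-1 : ℝ) ≤ -(1 : ℝ) / 6 by norm_num)).trans ?_
      linarith [Z.X.sh.rt, H.jl, mul_le_mul_of_nonneg_right (one_le_pow₀ (n := 10) Z.E1)
        (rp_pos c.n1 (-(1 : ℝ) / 6)).le]
    exact (mul_inv_cancel₀ c.N0.ne').ge.trans (mul_le_mul_of_nonneg_left p1 c.N0.le)))
  have := close c' jj t00.le h1 I1 b0 b1 (fun t a1 a2 => by
    have t0 := t00.trans_le a1
    refine blk t a1 ((le_div_iff₀' e0).1 a2) _ (by linarith) (by linarith) ?_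
    rcases max_choice ((Y / E ^ 12) ^ 2 / t) (Y / E ^ 12 * mf Z.S' t) with e | e
    · exact sq1 _ _ t0 e
    change Z.En t = _ at e
    refine (min_le_right _ _).trans ?_
    rw [e, div_le_iff₀ (mf_pos c' (half_pos t0).le)]
    have p1 : mf Z.S' t ≤ 4 * mf Z.S' (t / 2) := by
      have := c'.ms2 (t / 2) (half_pos t0).le
      rw [mul_div_cancel₀ _ two_ne_zero] at this
      rw [mf, mf, ← mul_div_assoc]
      exact div_le_div_of_nonneg_right this (zero_le_one.trans c'.F1)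
    linarith [mul_le_mul_of_nonneg_left p1 T0.le])
    (top _ (by linarith) h2 (.inl (by linarith))) b4
  refine this.trans ?_
  have p1 : ((I : ℝ) + 5) * 6 ≤ E ^ 2 := by nlinarith [Z.X.lgE]
  linarith [mul_le_mul_of_nonneg_right p1 (mul_pos (pow_pos E0 97) y0).le]

end Tx

/-! ### the wrapper -/

variable {P : CP}

/-- a class statement on the auxiliary class, margin `E^i`, loss `E` -/
theorem up8 (H : CL P) {i : ℕ} (hi : 1 ≤ i) : CL fun E _ S _ m a => ∀ (S' : Sc) (N : Md),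
    S'.C = 8 * S.C → S'.A = S.A → S'.n = S.n → Cl S' N → S'.In m a → P (E ^ i) E S' N m a := by
  intro C
  filter_upwards [H (8 * C)] with A H ε hε η hη
  filter_upwards [H (ε * i) (mul_pos hε (Nat.cast_pos.2 hi)) ε hε] with n H S M b1 b2 b3 _ m a _
    S' N d1 d2 d3 d4 d5
  rw [rp_pow]
  exact H S' N (d1.trans (by rw [b1])) (d2.trans b2) (d3.trans b3) d4 m a d5

/-- the kit of numbers holds on the class -/
theorem cxS : CL fun E _ S M _ _ => ∀ l Ys Y, SH E S M l Ys Y → M29.Cx E S M l Ys Y := by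
  intro C
  filter_upwards [eventually_ge_atTop 2] with A hA ε hε η hη
  filter_upwards [ev_rgc C hA (half_pos hε) (1000 * C ^ 4)] with n G S M b1 b2 b3 b4 m a b5 l Ys Y h1
  replace G := G S b1 b2 b3
  subst b1 b2 b3
  have a1 : (S.n : ℝ) ^ (ε / 2) ≤ (S.n : ℝ) ^ ε := rp_le G.n1 (by linarith)
  refine ⟨b4, h1, hA, G.n3, G.K_le.trans a1, ?_, G.C_log⟩
  rw [← add_halves ε, rpow_add G.N0]
  exact mul_le_mul (le_trans (by norm_num) G.num_le) G.log_le (by linarith [G.log1]) (G.rp0 _).le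

/-- a class statement read on the auxiliary model of the context -/
theorem onTx (K : ℕ) (H : CL P) {i : ℕ} (hi : 1 ≤ i) : CL fun E _ S M m a =>
    ∀ l lm Ys Y c D u F (Z : Tx K E S M l lm Ys Y c D u F), P (E ^ i) E Z.S' Z.N m a :=
  (up8 H hi).mono fun _ _ _ _ _ _ _ _ _ I h _ _ _ _ _ _ _ _ Z =>
    h _ _ rfl rfl rfl Z.cl' ⟨I.m1, I.m2, I.a1, I.a2⟩

/-- **the numbers and the a priori location**, margin `E^i` -/
def Num (K i : ℕ) : Prop := CL fun E _ S M m a =>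
  ∀ l lm Ys Y c D u F (Z : Tx K E S M l lm Ys Y c D u F), VarH E S M m a Y →
  Z.N.Phi S m a ≤ 2 * (E ^ 100 * Y) →
  ∃ u1 u2 j γ Lc ηc τ l' X Xp Vt V2 Lg Lp X2 X3 X4 G0 η N' N Nc,
    LN (E ^ i) Z.S' Z.N l' l' (cr Z.S' l' * l') X Lg X2 X3 G0 η ∧
    L4 Z.S' (cr Z.S' l' * l') X l' Z.S'.C X4 ∧
    LP (E ^ i) Z.S' Z.N Xp Vt Lg Lp X2 X3 G0 Z.G1 u1 u2 j γ Lc ηc τ η N' ∧
    LC (E ^ i) Z.S' Z.N Xp Vt V2 Lg Lp X2 G0 Z.G1 u1 u2 j γ ηc τ η N ∧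
    Ap Z.S' Z.N m a l' X Xp Vt u1 j ∧ Ap2 Z.S' Z.N m a V2 u1 u2 ∧
    N ≤ Nc + Z.GN ∧ Z.Hn (E ^ i) l' X X2 X4 u2 η Nc

/-- **`Term K` from (TL1x), (TL1cx) and the numbers** -/
theorem term_of {K i : ℕ} (hi : 360 ≤ i) (hK : i ≤ K) (h1 : TL1x) (h2 : TL1cx) (h3 : Num K i) :
    Term K := by
  refine (((cxS.and (onTx K h1 (i := i) (by omega))).and (onTx K h2 (i := i) (by omega))).and
    h3).mono ?_
  rintro E Λ S M m a - - H I ⟨⟨⟨h0, h1⟩, h2⟩, h3⟩ l lm Ys Y c D sh sx vh ax D1 D2 u N u1 u2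
    ⟨-, ud, F, k0, rfl⟩ hX
  have Z : Tx K E S M l lm Ys Y c D u F := ⟨h0 _ _ _ sh, sx, by omega, ax, D1, D2, u1, u2, ud, k0⟩
  obtain ⟨u1, u2, j, γ, Lc, ηc, τ, l', X, Xp, Vt, V2, Lg, Lp, X2, X3, X4, G0, η, N', N, Nc, ln, l4,
    lp, lc, ap, ap2, hN, hn⟩ := h3 _ _ _ _ _ _ _ _ Z vh hX
  have hF : Z.S'.F ^ 40 ≤ E ^ i := by
    change (E ^ 9) ^ 40 ≤ _
    rw [← pow_mul]
    exact Z.X.Ep hi
  refine Z.closing (H.n1.trans I.m1) ?_ (Z.X.Ep hK) Z.E0.le le_rfl hN hn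
    (h1 _ _ _ _ _ _ _ _ Z _ _ _ _ _ _ _ _ _ _ _ _ _ _ _ _ _ _ _ _ _ _ Z.cei' ln l4 lp lc hF ap ap2)
    (fun t g En => h2 _ _ _ _ _ _ _ _ Z _ _ _ _ _ _ _ _ _ _ _ _ _ _ _ _ _ _ _ _ _ _ t g En Z.cei' ln
      l4 lp lc hF ap ap2) hX
  linarith [mul_le_mul_of_nonneg_right (show 2 ≤ E by linarith [Z.X.E3]) (pow_pos Z.E0 3).le,
    Z.X.Ep (show 4 ≤ i by omega)]

end Crest.Agent.T156.Alt.Tm71

end
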