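import Crest.Agent.T156.TermTC_46
import Crest.Agent.T156.TermC_71
import Crest.Agent.T156.TermR_19

/-!
# Row 156, SR, terminal statement: the location below the upper end of the plateau (helper46)
-/

set_option autoImplicit false
set_option linter.unusedSectionVars false

noncomputable section

namespace Crest.Agent.T156.Alt.Tt46

open Real Finset L69 Ps64 Sr Tm92

variable {E : ℝ} {S : Sc} {M : Md} {l lm Ys Y : ℝ} {c : ℕ → ℝ} {D u : ℝ} {F : ℕ → ℝ} {r1 r2 : ℝ}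

theorem tx46 (Z : Tm71.Tx KK E S M l lm Ys Y c D u F) : Tx E S M l lm Ys Y u := ⟨Z.X, Z.sx, Z.u1, Z.u2⟩

/-- `max θ ν` -/
abbrev mx (S : Sc) : ℝ := max S.θ (nu S)
/-- lower bound of `den ρ²` -/
def dm (S : Sc) : ℝ := (S.n : ℝ) ^ ((1 : ℝ) / 8) / (S.n * mx S)
/-- the size of the passes -/
def Zt (E : ℝ) (S : Sc) (Y u : ℝ) : ℝ := E ^ 30 * B2 E S Y u

section
variable (Z : Tm71.Tx KK E S M l lm Ys Y c D u F)
include Z

theorem mx0 : 0 < mx S := Z.X.nu0.trans_le (le_max_right _ _)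
theorem mm0 : 0 < S.θ + u := add_pos Z.X.cl.θ0 Z.u0
theorem lm0 : 0 < lm := Z.sx.vh.lm0
theorem dm0 : 0 < dm S := by have := mx0 Z; have := (tx46 Z).N0; unfold dm; positivity
theorem θ1 : S.θ ≤ 1 := (le_mul_of_one_le_left Z.X.cl.θ0.le Z.E1).trans Z.Eθ
theorem mx_le : mx S ≤ S.θ + u :=
  max_le (le_add_of_nonneg_right Z.u0.le) (Z.nu_u.trans (le_add_of_nonneg_left Z.X.cl.θ0.le))

theorem lg_mx : -1 / 3 ≤ logb S.n (mx S) ∧ logb S.n (mx S) ≤ 0 ∧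
    logb S.n (mx S) ≤ logb S.n (S.θ + u) := by
  have X := tx46 Z
  have a := X.lg_mono X.nu0 (le_max_right S.θ _)
  have b := X.lg_mono (mx0 Z) (max_le (θ1 Z) (Z.nu_u.trans Z.u_one))
  rw [X.lg_nu] at a
  rw [logb_one] at b
  exact ⟨a, b, X.lg_mono (mx0 Z) (mx_le Z)⟩

theorem w_eq : Z.S'.w3 1 = E ^ 9 / (S.n * (S.θ + u)) := by
  change E ^ 9 / (S.n * 1 * (S.θ + u)) = _
  rw [mul_one]

theorem w0 : 0 < Z.S'.w3 1 := w3_pos Z.cl' one_pos

theorem lg_w : logb S.n (Z.S'.w3 1) = 9 * logb S.n E - 1 - logb S.n (S.θ + u) := by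
  have X := tx46 Z
  have := X.E0; have := X.N0; have := mm0 Z
  rw [w_eq Z]
  lg_norm
  rw [X.lg_n]
  ring

theorem lg_dm : logb S.n (dm S) = 1 / 8 - 1 - logb S.n (mx S) := by
  have X := tx46 Z
  have := X.N0; have := mx0 Z
  rw [dm]
  lg_norm
  rw [X.lg_n]
  ring

theorem lg_lm : -251 / 500 ≤ logb S.n lm + logb S.n (mx S) ∧
    -18 / 25 ≤ 2 * logb S.n lm + logb S.n (mx S) := by
  have X := tx46 Z
  have := X.N0; have := mx0 Z; have := lm0 Z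
  have a := X.lg_mono (by positivity) Z.sx.w2
  have b := X.lg_mono (by positivity) Z.sx.lm2
  revert a b
  lg_norm
  rw [X.lg_n]
  intro a b
  constructor <;> linarith

theorem inv_le {x : ℝ} (hx : 0 < x) (h : -1 ≤ logb S.n x) : 1 / (S.n : ℝ) ≤ x := by
  have X := tx46 Z
  have := X.N0
  refine X.le_of_lg (by positivity) hx ?_
  lg_norm
  rw [X.lg_n]
  linarith

theorem n16 : (16 : ℝ) ≤ S.n :=
  le_trans (by linarith [Z.X.E3]) ((Z.X.E_le (by norm_num [KK])).trans Z.sx.sm)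

theorem mesh_le {x : ℝ} (h : 1 / (S.n : ℝ) ≤ x) : 16 * (1 / (S.n : ℝ) ^ 2) ≤ x := by
  have n := n16 Z
  refine le_trans ?_ h
  rw [mul_one_div, div_le_div_iff₀ (by positivity) (by positivity)]
  nlinarith

theorem log_le {x : ℝ} (h : 1 / (S.n : ℝ) ≤ x) : log (1 + 1 / x) ≤ E := by
  have n := n16 Z
  have x0 : 0 < x := lt_of_lt_of_le (by positivity) h
  have a : 1 / x ≤ S.n := (one_div_le x0 (by linarith)).2 h
  have b : log (1 + 1 / x) ≤ log ((S.n : ℝ) ^ 2) := log_le_log (by positivity) (by nlinarith)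
  rw [log_pow] at b
  exact b.trans (by exact_mod_cast Z.X.lgE)

theorem u00 : 0 < S.u0 := Z.X.sh.u0.1

theorem u0_ge : 1 / (S.n : ℝ) ≤ S.u0 := by
  have X := tx46 Z
  have H := X.cl
  have := X.N0; have := mx0 Z; have := lm0 Z; have u0 := u00 Z; have := X.E0
  have y : Yd KK E Y ≤ 1 / S.C := by
    rw [le_div_iff₀ H.C0]
    have := mul_le_mul_of_nonneg_left ((by linarith [Z.big.CE1, H.C0] : S.C ≤ E ^ KK).trans
      (Z.big.E_le (j := 200) (by norm_num))) Z.Yd0.le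
    linarith [Z.big.EY]
  have a := Z.sx.vh.den (M.xs S) le_rfl (by have := H.atom.2; rw [Md.xs]; linarith)
  have b : lm ≤ E * S.u0 := a.trans (mul_le_mul (Z.sx.vh.dj.2.trans (by linarith [Z.X.CE1, H.C0]))
    ((min_le_left _ _).trans (by linarith)) (le_min (by linarith) (by
      have := H.leg.z1 (S.J - 1); rw [Md.xs]; linarith)) X.E0.le)
  have d := X.lg_mono (lm0 Z) b
  have e := X.lg_mono (by positivity) Z.sx.d0
  revert d e
  lg_norm
  rw [X.lg_n]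
  intro d e
  exact inv_le Z u0 (by linarith [(lg_mx Z).2.1, X.lg_E.2])

theorem ckJ : 0 ≤ M.ck S.J := by
  have := Z.X.ct_nn S.J
  rwa [M29.ct_mid Z.X.cl Z.X.cl.jl_lt Z.X.cl.i3] at this

theorem ckD : Z.S'.C ^ 2 * (Z.N.ck Z.S'.Jp - Z.N.ck Z.S'.J) ≤ (8 * S.C) ^ 2 * E :=
  mul_le_mul_of_nonneg_left (by
    change M.ck S.Jp - M.ck S.J ≤ E
    linarith [ckJ Z, Z.X.sh.ckT]) (sq_nonneg _)

theorem xs_le {k : ℕ} (h : S.J ≤ k) : M.xs S ≤ M.z (k - 1) := Z.X.cl.leg.zm (by omega)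

theorem Zt0 : 0 < Zt E S Y u := mul_pos (pow_pos Z.E0 _) (B2_pos (tx46 Z))

theorem Zt_ge : E ^ 30 * (S.n : ℝ) ^ (-(1 : ℝ) / 11) ≤ Zt E S Y u ∧
    E ^ 30 * min (√S.θ) ((S.n : ℝ) ^ (-(21 : ℝ) / 400)) ≤ Zt E S Y u ∧ E ^ 30 * √u ≤ Zt E S Y u ∧
    E ^ 30 * Xx E Y ^ ((1 : ℝ) / 3) ≤ Zt E S Y u := by
  have X := tx46 Z
  have a := rpow_pos_of_pos X.N0 (-(1 : ℝ) / 11)
  have b : 0 ≤ min (√S.θ) ((S.n : ℝ) ^ (-(21 : ℝ) / 400)) :=
    le_min (sqrt_nonneg _) (rpow_pos_of_pos X.N0 _).le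
  have d := sqrt_nonneg u
  have e := rpow_pos_of_pos X.X0 ((1 : ℝ) / 3)
  refine ⟨?_, ?_, ?_, ?_⟩ <;>
    exact mul_le_mul_of_nonneg_left (by rw [B2]; linarith) (pow_pos X.E0 _).le

theorem lg_Zt : 30 * logb S.n E - 1 / 11 ≤ logb S.n (Zt E S Y u) ∧
    30 * logb S.n E + logb S.n u / 2 ≤ logb S.n (Zt E S Y u) ∧
    30 * logb S.n E + logb S.n (Xx E Y) / 3 ≤ logb S.n (Zt E S Y u) := by
  have X := tx46 Z
  have := X.N0; have := X.E0; have := X.u_pos; have := X.X0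
  have a := X.lg_mono (by positivity) (Zt_ge Z).1
  have b := X.lg_mono (by positivity) (Zt_ge Z).2.2.1
  have d := X.lg_mono (by positivity) (Zt_ge Z).2.2.2
  revert a b d
  lg_norm
  rw [X.lg_n]
  intro a b d
  refine ⟨?_, ?_, ?_⟩ <;> linarith

variable (T : Tp KK E S M lm Y r1 r2)
include T

theorem r10 : 0 < r1 := by
  have := (tx46 Z).N0
  exact (pos_iff_pos_of_mul_pos (lt_of_lt_of_le (by positivity) T.a1)).1 (mul_pos this (mx0 Z))

theorem lg_r1 : -21 / 25 ≤ logb S.n (mx S) + logb S.n r1 ∧ logb S.n r1 ≤ -101 / 200 := by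
  have X := tx46 Z
  have := X.N0; have := mx0 Z; have := r10 Z T
  have a := X.lg_mono (by positivity) T.a1
  have b := X.lg_mono (by positivity) T.a2
  revert a b
  lg_norm
  rw [X.lg_n]
  intro a b
  constructor <;> linarith

theorem r1_ge : 1 / (S.n : ℝ) ≤ r1 :=
  inv_le Z (r10 Z T) (by linarith [(lg_r1 Z T).1, (lg_mx Z).2.1])

theorem lsh_ge {k : ℕ} (h : S.J ≤ k) (h' : r1 ≤ du Z.N k) : lm ≤ lsh Z.N Z.S' k :=
  T.dn _ (xs_le Z h) h'

/-- **the plateau data of the auxiliary model** -/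
theorem pd {ρ Xp : ℝ} (h : r1 < ρ) (hX : 0 < Xp) (hX' : 1 / (S.n : ℝ) ≤ Xp ^ ((1 : ℝ) / 3)) :
    PD Z.S' Z.N (1 / (S.n : ℝ) ^ 2) ρ Xp ((8 * S.C) ^ 2 * E) lm (dm S) (6 * E) := by
  have n0 := (tx46 Z).N0
  have r := (r1_ge Z T).trans h.le
  have p := mul_pos n0 (mx0 Z)
  refine ⟨Z.cl', by positivity, fun k a b => Z.X.sh.mesh k a b.le,
    (Z.sx.ue2.trans (r1_ge Z T)).trans_lt h, mesh_le Z r, mesh_le Z (u0_ge Z), hX, mesh_le Z hX',
    ckD Z, lm0 Z, fun k hk => lsh_ge Z T (mem_Icc.1 (mem_filter.1 hk).1).1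
      (h.le.trans (mem_filter.1 hk).2), dm0 Z, fun k hk => ?_, ?_, ?_⟩
  · have a := (mem_Icc.1 (mem_filter.1 hk).1).1
    have b := h.le.trans (mem_filter.1 hk).2
    rw [dm, div_le_iff₀' p]
    rcases le_total (dl Z.N Z.S' k) (du Z.N k) with e | e
    · have d := lsh_ge Z T a b
      have f : S.u0 ≤ dl Z.N Z.S' k := le_add_of_nonneg_left (sub_nonneg.2 (xs_le Z a))
      rw [lsh, ds, min_eq_left e] at d
      rw [ds, min_eq_left e, sq, ← mul_assoc (Z.S'.den _)]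
      exact ((rpow_le_rpow_of_exponent_le (tx46 Z).N1.le (by norm_num)).trans Z.sx.d0).trans
        (mul_le_mul_of_nonneg_left (mul_le_mul d f (u00 Z).le ((lm0 Z).le.trans d)) p.le)
    · rw [ds, min_eq_right e]
      exact T.dt _ (xs_le Z a) b
  · have : log (1 + 1 / Z.S'.u0) ≤ E := log_le Z (u0_ge Z)
    linarith [log_le Z r]
  · linarith [log_le Z r, log_le Z hX']

theorem jn {ρ Xp : ℝ} (h : r1 ≤ ρ) (hX : Yd KK E Y ≤ Xp) : Jn Z.S' Z.N Xp ρ := by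
  have C0 := Z.X.cl.C0
  have a := Z.sx.vh.dj
  have d0 := Z.X.cl.den0 (M.xs S)
  refine ⟨?_, ?_, Z.sx.big.u0.2.trans hX, fun k b _ e => ?_⟩
  · change 1 ≤ 8 * S.C * S.den (M.xs S)
    have := (div_le_iff₀' C0).1 a.1
    linarith
  · change S.den (M.xs S) ≤ 8 * S.C
    linarith [a.2]
  · have := (inv_le Z (lm0 Z) (by linarith [(lg_lm Z).1, (lg_mx Z).2.1])).trans
      (lsh_ge Z T b (h.trans e))
    exact (div_le_iff₀' (tx46 Z).N0).1 this

theorem fa {ρ Lp : ℝ} (h : r1 ≤ ρ) (hL : E ^ KK ≤ Lp) (i k : ℕ) (a : Z.S'.J ≤ i) (b : i ≤ k)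
    (_ : k ≤ Z.S'.Jp) (e : ρ ≤ du Z.N k) :
    Z.S'.den (Z.N.z (i - 1)) ≤ Lp * (1 + Z.S'.den (Z.N.z (k - 1))) :=
  (Z.sx.fa _ _ (xs_le Z a) (Z.X.cl.leg.zm (show i - 1 ≤ k - 1 by omega)) (by
    have := (r10 Z T).trans_le (h.trans e)
    change 0 < 1 - M.z (k - 1) at this
    linarith)).trans (mul_le_mul_of_nonneg_right hL (by linarith [Z.X.cl.den0 (M.z (k - 1))]))

/-- **`Far` for the auxiliary model** -/
theorem far {ρ Lp Xp : ℝ} (Vt γ : ℝ) (h : r1 ≤ ρ) (hL : E ^ KK ≤ Lp) (hX : Yd KK E Y ≤ Xp) :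
    Far Z.N Z.S' Xp Vt γ ρ Lp := by
  have X := tx46 Z
  have X0 := Z.Yd0.trans_le hX
  have := lm0 Z
  refine far_of Z.cl' X0.le (Z.Q0.le.trans hL) this.le (fa Z T h hL)
    (fun k a _ e => lsh_ge Z T a (h.trans e)) (X.le_of_lg (w0 Z) (by positivity) ?_)
  have a := X.lg_mono Z.Yd0 hX
  rw [X.lg_Yd] at a
  lg_norm
  linarith [lg_w Z, (lg_mx Z).2.2, (lg_lm Z).2, X.lg_Y.1, X.lg_E.2]

theorem wden {k : ℕ} (a : S.J ≤ k) (b : k ≤ S.Jp) (e : 2 * r1 ≤ du Z.N k) :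
    Z.S'.w3 1 * Z.S'.den (Z.N.z (k - 1)) ≤ ((S.n : ℝ) ^ (-(21 : ℝ) / 400)) ^ 3 := by
  have X := tx46 Z
  have H := X.cl
  have r0 := r10 Z T
  have d0 : 0 < Z.S'.den (Z.N.z (k - 1)) := H.den0 _
  have := X.N0; have E0 := X.E0; have := w0 Z
  have f := den_le Z.cl' (ckD Z) Z.Q0.le a b (by
      have : Z.S'.ue ≤ r1 := Z.sx.ue2.trans (r1_ge Z T)
      linarith) fun i i1 i2 =>
    Z.sx.fa _ _ (xs_le Z a) (H.leg.zm (show k - 1 ≤ i - 1 by omega))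
      ((H.leg.zm (show i - 1 ≤ S.Jp - 1 from Nat.sub_le_sub_right i2.le 1)).trans_lt Z.sx.zJ)
  have g : 1 + (8 * S.C) ^ 2 * E ≤ E ^ 2 := by nlinarith [Z.X.CE2, Z.X.E3]
  have i : Z.S'.den (Z.N.z (k - 1)) * r1 ≤ E ^ KK * E ^ 2 := by
    linarith [mul_le_mul_of_nonneg_left e d0.le, mul_le_mul_of_nonneg_left g Z.Q0.le]
  have j := X.lg_mono (by positivity) i
  refine X.le_of_lg (by positivity) (by positivity) ?_
  revert j
  lg_norm
  rw [X.lg_n, show ((KK : ℕ) : ℝ) = 10000 by norm_num [KK]]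
  intro j
  linarith [lg_w Z, (lg_mx Z).2.2, (lg_r1 Z T).1, X.lg_E.2]

theorem wden2 {k : ℕ} (a : S.J ≤ k) (e : r2 ≤ 16 * du Z.N k) :
    Z.S'.w3 1 * Z.S'.den (Z.N.z (k - 1)) ≤ (E ^ 3 * (S.n : ℝ) ^ (-(1 : ℝ) / 11)) ^ 3 := by
  have X := tx46 Z
  have d0 : 0 < Z.S'.den (Z.N.z (k - 1)) := X.cl.den0 _
  have := X.N0; have E0 := X.E0; have := w0 Z; have := mm0 Z
  have i : Z.S'.den (Z.N.z (k - 1)) ≤ (S.n : ℝ) ^ ((8 : ℝ) / 11) * (S.θ + u) :=
    (T.up _ (xs_le Z a) e).trans (mul_le_mul_of_nonneg_left (max_le (le_add_of_nonneg_right Z.u0.le)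
      (Z.ν_u.trans (le_add_of_nonneg_left X.cl.θ0.le))) (by positivity))
  have j := X.lg_mono d0 i
  refine X.le_of_lg (by positivity) (by positivity) ?_
  revert j
  lg_norm
  rw [X.lg_n]
  intro j
  linarith [lg_w Z]

theorem node : ∃ k, S.J ≤ k ∧ k ≤ S.Jp ∧ du Z.N k ≤ 2 * r1 ∧ (k = S.J ∨ r1 ≤ du Z.N k) := by
  classical
  have H := Z.X.cl
  have r := r1_ge Z T
  have r0 := r10 Z T
  have p : S.J ≤ S.Jp ∧ du Z.N S.Jp ≤ 2 * r1 :=
    ⟨H.i3, (H.last.trans (Z.sx.ue2.trans r)).trans (by linarith)⟩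
  have ex : ∃ k, S.J ≤ k ∧ du Z.N k ≤ 2 * r1 := ⟨_, p⟩
  have a := Nat.find_spec ex
  have b := Nat.find_min' ex p
  refine ⟨_, a.1, b, a.2, ?_⟩
  rcases a.1.eq_or_lt with e | e
  · exact .inl e.symm
  have d := Nat.find_min ex (show Nat.find ex - 1 < Nat.find ex by omega)
  have f := Z.X.sh.mesh (Nat.find ex - 1) (by omega) (by omega)
  have g := mesh_le Z r
  have i : 0 ≤ 1 / (S.n : ℝ) ^ 2 := by positivity
  rw [not_and, not_le] at d
  have j := d (by omega)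
  refine .inr ?_
  change _ < 1 - M.z _ at j
  change _ ≤ 1 - M.z _
  rw [Md.dx] at f
  linarith

omit T in
theorem H_ck {k : ℕ} (a : S.J ≤ k) (b : k ≤ S.Jp) :
    M.H k - M.H S.J ≤ S.C ^ 2 * S.θ * (M.ck k - M.ck S.J) ∧ M.ck k ≤ M.ck S.Jp ∧
      M.ck S.J ≤ M.ck k := by
  have H := Z.X.cl
  have C0 := H.C0
  have m := Z.X.ct_mono
  refine ⟨?_, ?_, ?_⟩
  · induction k, a using Nat.le_induction with
    | base => simp
    | succ k a ih =>
      have j := H.jl_lt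
      have d := Z.X.sh.cei.up k (by omega) (by omega)
      have e := (div_le_iff₀' C0).1 (H.ckm k (by have := H.i1; omega) (by omega)).1
      rw [Z.X.sh.F1, mul_one] at d
      have f := mul_le_mul (mul_le_mul_of_nonneg_left (H.ms1 (M.s k)) C0.le) e H.v0.le
        (mul_pos C0 H.θ0).le
      linarith [ih (by omega)]
  · have := m b
    rwa [M29.ct_mid H (H.jl_lt.trans_le a) b, M29.ct_mid H (H.jl_lt.trans_le H.i3) le_rfl] at this
  · have := m a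
    rwa [M29.ct_mid H (H.jl_lt.trans_le a) b, M29.ct_mid H H.jl_lt H.i3] at this

theorem ks : ∃ k, k ≤ Z.S'.Jp ∧ du Z.N k ≤ 2 * r1 ∧ min (√(Z.N.H k - Z.N.H Z.S'.J))
    (Z.S'.F * (Z.N.H k - Z.N.H Z.S'.J) / Z.S'.θ) ≤ Zt E S Y u := by
  obtain ⟨k, k1, k2, k3, k4⟩ := node Z T
  have H := Z.X.cl
  have E0 := Z.E0
  have θ0 := H.θ0
  have n0 := H.N0
  have u0 := Z.u0
  have w0 := Z.w0
  obtain ⟨a1, a2, a3⟩ := H_ck Z k1 k2
  have mo := Z.X.Ft_mono Z.ax Z.k0 w0.le (min_le_left _ _)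
  have b1 := mo k2
  have b2 := mo H.jl_lt.le
  rw [M29.Cx.Ft_lo Z.k0 le_rfl] at b2
  have b3 : M29.Cx.Ft S M u (min u D) F S.Jp ≤ u * E ^ 51 := by
    have d : E + 1 ≤ E ^ 51 := le_trans (by nlinarith [Z.X.E3]) (Z.X.Ep (show 2 ≤ 51 by norm_num))
    have := mul_le_mul_of_nonneg_left ((Z.X.ct_le S.Jp).trans d) (sub_nonneg.2 (min_le_left u D))
    rw [M29.Cx.Ft]
    linarith [Z.k0.le]
  refine ⟨k, k2, k3, ?_⟩
  change min (√(M.H k + M29.Cx.Ft S M u (min u D) F k - (M.H S.J + M29.Cx.Ft S M u (min u D) F S.J)))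
    (E ^ 9 * (M.H k + M29.Cx.Ft S M u (min u D) F k - (M.H S.J + M29.Cx.Ft S M u (min u D) F S.J)) /
      (S.θ + u)) ≤ _
  set x := M.H k + M29.Cx.Ft S M u (min u D) F k - (M.H S.J + M29.Cx.Ft S M u (min u D) F S.J)
    with hx
  set Δ := M.ck k - M.ck S.J with hΔ
  have Δ0 : 0 ≤ Δ := sub_nonneg.2 a3
  have Δ1 : Δ ≤ E := by linarith [ckJ Z, Z.X.sh.ckT]
  rcases le_total (S.C ^ 2 * S.θ * Δ) (u * E ^ 51) with e | e
  · refine (min_le_left _ _).trans (le_trans (sqrt_le_iff.2 ⟨by positivity, ?_⟩) (Zt_ge Z).2.2.1)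
    have d : 2 * E ^ 51 ≤ E ^ 60 := le_trans (by
      linarith [mul_le_mul_of_nonneg_right (show 2 ≤ E by linarith [Z.X.E3]) (pow_pos E0 51).le])
      (Z.X.Ep (show 52 ≤ 60 by norm_num))
    rw [mul_pow, sq_sqrt u0.le]
    linarith [mul_le_mul_of_nonneg_left d u0.le]
  have f : x ≤ E * S.θ * Δ := by
    linarith [mul_le_mul_of_nonneg_right Z.X.CE2 (mul_nonneg θ0.le Δ0),
      mul_nonneg (mul_pos (pow_pos H.C0 2) θ0).le Δ0]
  have g : √x ≤ E ^ 30 * √S.θ := sqrt_le_iff.2 ⟨by positivity, by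
    rw [mul_pow, sq_sqrt θ0.le]
    linarith [mul_le_mul_of_nonneg_left Δ1 (mul_pos E0 θ0).le,
      mul_le_mul_of_nonneg_right (Z.X.Ep (show 2 ≤ 60 by norm_num)) θ0.le]⟩
  refine le_trans ?_ (Zt_ge Z).2.1
  rw [mul_min_of_nonneg _ _ (pow_pos E0 30).le]
  refine le_min ((min_le_left _ _).trans g) ?_
  rcases T.c1 with i | i
  · refine ((min_le_left _ _).trans g).trans (mul_le_mul_of_nonneg_left
      (sqrt_le_iff.2 ⟨by positivity, i.trans_eq ?_⟩) (by positivity))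
    rw [← rpow_natCast, ← rpow_mul n0.le]
    norm_num
  · have j : Δ ≤ (S.n : ℝ) ^ (-(21 : ℝ) / 400) := by
      rcases k4 with rfl | k4
      · rw [hΔ, sub_self]
        positivity
      · exact i k k1 k2 k4
    refine (min_le_right _ _).trans ?_
    rw [div_le_iff₀ (by positivity)]
    have p := mul_le_mul (Z.X.Ep (show 10 ≤ 30 by norm_num)) j Δ0 (by positivity)
    have q := mul_le_mul p (le_add_of_nonneg_right u0.le : S.θ ≤ S.θ + u) θ0.le (by positivity)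
    linarith [mul_le_mul_of_nonneg_left f (pow_pos E0 9).le]

variable {m : ℕ} {a : ℝ}

theorem ps (ht : TtAt (E ^ 360) E Z.S' Z.N m a) (hm : 0 < m) (hX : Z.N.Phi S m a ≤ Xx E Y)
    (rev : ∃ k1, Z.S'.Jp ≤ k1 ∧ k1 ≤ Z.N.N ∧ 1 / Z.S'.C ≤ ((k1 : ℝ) - Z.S'.Jp) * Z.S'.v ∧
      ∀ k, Z.S'.Jp ≤ k → k < k1 → Z.S'.θ * Z.S'.v / (Z.S'.C * Z.S'.F) ≤ Z.N.H (k + 1) - Z.N.H k)
    (hZ : E ^ 360 * Zt E S Y u ≤ 1) :
    PS (E ^ 360) E Z.S' Z.N m a (Zt E S Y u) (E ^ 3400) (2 * r1) (Zt E S Y u) (Zt E S Y u)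
      (1 / (S.n : ℝ) ^ 2) ((8 * S.C) ^ 2 * E) lm (dm S) (6 * E) := by
  have X := tx46 Z
  have H := X.cl
  have n0 := X.N0; have E0 := X.E0; have w := w0 Z; have l0 := lm0 Z; have d0 := dm0 Z
  have z0 := Zt0 Z; have u0 := Z.u0; have C0 := H.C0; have y0 := Z.Yd0; have r0 := r10 Z T
  have Y0 := Z.Y0; have s0 := X.sj0
  obtain ⟨z1, z2, z3⟩ := lg_Zt Z
  obtain ⟨e1, e2⟩ := X.lg_E
  obtain ⟨m1, m2, m3⟩ := lg_mx Z
  obtain ⟨x1, x2⟩ := X.lg_X
  obtain ⟨y1, y2⟩ := X.lg_Y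
  obtain ⟨l1, l2⟩ := lg_lm Z
  have lw := lg_w Z
  have ld := lg_dm Z
  have c8 := X.lg_C.2
  have c6 := (X.lg_num (x := 6) (by norm_num) (by norm_num)).2
  have yd := X.lg_Yd
  have Z1 : Zt E S Y u ≤ 1 := (le_mul_of_one_le_left z0.le (one_le_pow₀ X.E1)).trans hZ
  have L3 : (E ^ 3400) ^ 3 = E ^ 10200 := by rw [← pow_mul]
  have YZ : Yd KK E Y ≤ Zt E S Y u ^ 3 := X.le_of_lg y0 (by positivity) (by lg_norm; linarith)
  have sZ : E ^ 360 * M.s S.jl ≤ Zt E S Y u :=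
    X.le_of_lg (by positivity) z0 (by lg_norm; linarith [X.lg_sj.2.1])
  have wZ : Z.S'.w3 (Zt E S Y u) ≤ Zt E S Y u ^ 6 := by
    have p := Z.mu0 z0.le
    have q := X.lg_mono X.nu0 (Z.nu_u.trans (le_add_of_nonneg_left (H.ms_pos z0.le).le))
    rw [X.lg_nu] at q
    change E ^ 9 / (S.n * Zt E S Y u * (S.ms (Zt E S Y u) + u)) ≤ _
    refine X.le_of_lg (by positivity) (by positivity) ?_
    lg_norm
    rw [X.lg_n]
    linarith
  exact
    { tt := ht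
      pd := pd Z T (by linarith) (by positivity) (by rw [third z0.le]; exact inv_le Z z0 (by linarith))
      jj := Z.X.sh.jj
      m0 := hm
      Z0 := z0
      ZE := hZ
      E1 := le_trans (by change 72 * (8 * S.C) ≤ E; linarith [Z.X.CE1]) (Z.X.E_le (by norm_num))
      Λ1 := X.E1
      L0 := one_le_pow₀ X.E1
      L1 := (Z.X.Ep (by norm_num)).trans L3.ge
      Ln := L3.le.trans ((Z.X.Ep (by norm_num [KK])).trans Z.sx.sm)
      HJ := by
        have := Z.X.Ft_le Z.k0 Z.w0.le Z.u2 ((Z.wW (by norm_num)).trans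
          (pow_le_one₀ Z.X.W0.le Z.W1)) le_rfl
        change M.H S.Jp + M29.Cx.Ft S M u (min u D) F S.Jp ≤ 8 * S.C
        linarith [Z.sx.HJ, H.C1]
      l0s := sZ
      l0w := wZ.trans (pow_le_pow_of_le_one z0.le Z1 (by norm_num))
      l0Z := le_rfl
      ms := fun t h => by
        have p := Z.sx.ml t (((le_mul_of_one_le_left s0.le (one_le_pow₀ X.E1)).trans sZ).trans h)
        have q := mul_le_mul_of_nonneg_right (Z.X.Ep (show 9 ≤ 60 * KK by norm_num [KK]))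
          (H.ms_pos (z0.le.trans h)).le
        have r : E ^ 9 * u ≤ Zt E S Y u ^ 2 :=
          X.le_of_lg (by positivity) (by positivity) (by lg_norm; linarith)
        change E ^ 9 * (S.ms t + u) ≤ _
        linarith
      wZ := wZ
      rev := rev
      γ0 := (abs_le_of_sq_le_sq' (Z.sx.big.flat.trans (YZ.trans
        (pow_le_pow_of_le_one z0.le Z1 (by norm_num)))) z0.le).2
      γ1 := le_rfl
      fa := fa Z T (by linarith) ((Z.X.Ep (by norm_num [KK])).trans L3.ge)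
      wl := X.le_of_lg w (by positivity) (by lg_norm; linarith)
      n1 := X.le_of_lg (by positivity) (by positivity) (by
        rw [logb_mul w.ne' (by positivity), logb_mul (by positivity) E0.ne', logb_pow, logb_pow]
        push_cast
        linarith)
      n2 := X.le_of_lg (by positivity) z0 (by lg_norm; linarith)
      n3 := X.le_of_lg (by positivity) (by positivity) (by lg_norm; linarith)
      n4 := ⟨by linarith [X.E1], (le_trans (by nlinarith [Z.X.E3])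
        (Z.X.Ep (show 2 ≤ 10200 by norm_num))).trans L3.ge⟩
      phi := hX.trans (X.le_of_lg X.X0 (by positivity) (by lg_norm; linarith))
      sqG := Z.sqG.trans (X.le_of_lg (by positivity) (by positivity) (by lg_norm; linarith))
      jn := jn Z T (by linarith) YZ
      nZ := X.le_of_lg (x := 1 / √S.n) (by positivity) z0 (by lg_norm; rw [X.lg_n]; linarith)
      ks := ks Z T }

/-- **the location below the upper end** -/
theorem vt (ht : TtAt (E ^ 360) E Z.S' Z.N m a) (hm : 0 < m) (hX : Z.N.Phi S m a ≤ Xx E Y)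
    (rev : ∃ k1, Z.S'.Jp ≤ k1 ∧ k1 ≤ Z.N.N ∧ 1 / Z.S'.C ≤ ((k1 : ℝ) - Z.S'.Jp) * Z.S'.v ∧
      ∀ k, Z.S'.Jp ≤ k → k < k1 → Z.S'.θ * Z.S'.v / (Z.S'.C * Z.S'.F) ≤ Z.N.H (k + 1) - Z.N.H k) :
    VT Z.S' Z.N m a (8 * r1) (Vt E S Y u) ∧ VT Z.S' Z.N m a (r2 / 8) (V2 E S Y u) := by
  have X := tx46 Z
  have n0 := X.N0; have E0 := X.E0; have w := w0 Z; have d0 := dm0 Z
  have z0 := Zt0 Z; have r0 := r10 Z T; have b0 := B2_pos X
  rcases le_total (E ^ 360 * Zt E S Y u) 1 with hZ | hZ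
  swap
  · have h : 1 ≤ V2 E S Y u := hZ.trans (by
      rw [Zt, ← mul_assoc, ← pow_add]
      exact mul_le_mul_of_nonneg_right (Z.X.Ep (by norm_num)) b0.le)
    exact ⟨fun k _ _ _ => (Tm71.del_le_one hm k).trans (h.trans (V2_le X)),
      fun k _ _ _ => (Tm71.del_le_one hm k).trans h⟩
  obtain ⟨z1, z2, z3⟩ := lg_Zt Z
  obtain ⟨e1, e2⟩ := X.lg_E
  obtain ⟨m1, m2, m3⟩ := lg_mx Z
  have lw := lg_w Z
  have ld := lg_dm Z
  have ln := X.lg_n
  have YZ : Yd KK E Y ≤ Zt E S Y u ^ 2 := X.le_of_lg Z.Yd0 (by positivity) (by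
    lg_norm
    linarith [X.lg_Yd, X.lg_X.1, X.lg_Y.2])
  have r := (mul_le_mul_of_nonneg_right ((by linarith [Z.X.E3] : 256 ≤ E).trans Z.E_Q) r0.le).trans T.a3
  obtain ⟨h1, h2⟩ := (ps Z T ht hm hX rev hZ).four (ρ1 := r2 / 32)
    (y1 := (S.n : ℝ) ^ (-(1 : ℝ) / 25)) (y2 := (S.n : ℝ) ^ (-(21 : ℝ) / 400))
    (y3 := (S.n : ℝ) ^ (-(3 : ℝ) / 40)) (p := E ^ 3 * (S.n : ℝ) ^ (-(1 : ℝ) / 11))
    (by linarith) (by linarith [T.a4]) (by positivity)
    (rpow_le_rpow_of_exponent_le X.N1.le (by norm_num)) (by positivity)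
    (X.le_of_lg (by positivity) (by positivity) (by lg_norm; rw [ln]; linarith))
    ((mul_le_mul_of_nonneg_right (Z.X.Ep (by norm_num)) (by positivity)).trans (Zt_ge Z).1)
    (X.le_of_lg (by positivity) (by positivity) (by lg_norm; rw [ln]; linarith))
    (X.le_of_lg (by positivity) (by positivity) (by lg_norm; rw [ln]; linarith))
    (X.le_of_lg (by positivity) (by positivity) (by lg_norm; rw [ln]; linarith))
    (X.le_of_lg (by positivity) (by positivity) (by lg_norm; rw [ln]; linarith))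
    (fun k a b e => wden Z T a b (by linarith)) (fun k a _ e => wden2 Z T a (by linarith))
  have H : 20 * E * (E ^ 3400) ^ 3 ≤ E ^ 10202 := by
    have p : ∀ i : ℕ, 20 * E * E ^ i ≤ E ^ (i + 2) := fun i => by
      linarith [mul_le_mul_of_nonneg_right (show 20 ≤ E by linarith [Z.X.E3])
        (mul_pos E0 (pow_pos E0 i)).le, show E ^ (i + 2) = E * (E * E ^ i) by ring]
    rw [← pow_mul]
    exact p _
  have H0 : 0 ≤ 20 * E * (E ^ 3400) ^ 3 := by positivity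
  refine ⟨h1.mono (by linarith) ?_, h2.mono (by linarith) ?_⟩
  · have p := rpow_pos_of_pos n0 (-(21 : ℝ) / 400)
    have q : (S.n : ℝ) ^ (-(21 : ℝ) / 400) + Zt E S Y u ≤
        E ^ 30 * (B2 E S Y u + (S.n : ℝ) ^ (-(21 : ℝ) / 400)) := by
      rw [Zt]
      linarith [le_mul_of_one_le_left p.le (one_le_pow₀ (n := 30) X.E1)]
    refine (mul_le_mul (pow_le_pow_left₀ H0 H 2) q (by positivity) (by positivity)).trans ?_
    rw [← mul_assoc, ← pow_mul, ← pow_add]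
    exact mul_le_mul_of_nonneg_right (Z.X.Ep (by norm_num)) (by positivity)
  · have q : 2 * Zt E S Y u ≤ E ^ 31 * B2 E S Y u := by
      rw [Zt, pow_succ' E 30, mul_assoc E]
      exact mul_le_mul_of_nonneg_right (by linarith [Z.X.E3]) (by positivity)
    refine (mul_le_mul (pow_le_pow_left₀ H0 H 4) q (by positivity) (by positivity)).trans ?_
    rw [← mul_assoc, ← pow_mul, ← pow_add]
    exact mul_le_mul_of_nonneg_right (Z.X.Ep (by norm_num)) b0.le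

end

theorem VT.ap2 {m : ℕ} {a V u1 u2 r : ℝ} (h : VT S M m a (r / 8) V) (hr : r ≤ u2) :
    Ap2 S M m a V u1 u2 := fun k a b _ e => h k a b (by linarith)

/-- **the a priori location of the auxiliary model** -/
def VtS : Prop := CL fun E _ S M m a => ∀ l lm Ys Y c D u F
  (Z : Tm71.Tx KK E S M l lm Ys Y c D u F) r1 r2, Tp KK E S M lm Y r1 r2 →
  Z.N.Phi S m a ≤ Xx E Y →
    (∀ k, Z.S'.J ≤ k → k ≤ Z.S'.Jp → 8 * r1 ≤ du Z.N k → Z.N.del m a k ≤ Vt E S Y u) ∧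
    ∀ u1 u2, r2 ≤ u2 → Ap2 Z.S' Z.N m a (V2 E S Y u) u1 u2

theorem vtS (h : TLt) : VtS := (Tm71.onTx KK (tlt_iff.1 h) (i := 360) (by norm_num)).mono
  fun _ _ _ _ _ _ _ _ H I h _ _ _ _ _ _ _ _ Z _ _ T hX =>
    have p := vt Z T (h _ _ _ _ _ _ _ _ Z) (H.n1.trans I.m1) hX Z.rev'
    ⟨p.1, fun _ _ e => p.2.ap2 e⟩

end Crest.Agent.T156.Alt.Tt46

end
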