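import Crest.Agent.T156.TermH_92
import Crest.Agent.T156.TermT_46

/-!
# Row 156, SR, terminal statement: the passes (helper92)
-/

set_option autoImplicit false

noncomputable section

namespace Crest.Agent.T156.Alt.Tm92

open Real Finset Filter Pre29 Sr L69

theorem hVt : HVt := fun _ _ _ _ _ _ _ _ _ _ _ Z _ _ T _ _ I h hX =>
  have p := Tt46.vt Z T h ((tx Z).cl.n1.trans I.m1) hX Z.rev'
  ⟨p.1, p.2.ap2 (by linarith [T.a3, r_pos Z T,
    le_mul_of_one_le_left (r_pos Z T).le (one_le_pow₀ (n := KK) (tx Z).E1)])⟩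

/-- **`TermS2`** from the block (L), the corner, the costs and the sizes -/
theorem termS2_of' (h0 : TLt) (h1 : TL1x) (h2 : TL1cx) (hC : HCn) (hL : HLC) (hP : HLP) :
    TermS2 := termS2_of h0 h1 h2 hVt hC hL hBud hP

end Crest.Agent.T156.Alt.Tm92

end
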