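import Crest.Agent.T156.TermA_92

/-!
# Row 156, SR, terminal statement: budgets of the plateau costs and the corner numbers (helper28)
-/

set_option autoImplicit false
set_option linter.unusedSectionVars false

noncomputable section

namespace Crest.Agent.T156.Alt.Tc28

open Real Finset Filter Pre29 Sr L69 Tm92

section
variable (E : ℝ) (S : Sc) (M : Md) (Y D u : ℝ)

/-- budget of the corner -/
def Bc : ℝ := max (Xi E S Y u) (B4 E S) / E ^ 10
/-- budget of the plateau sums -/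
def Bu : ℝ := Bd E S M Y u / E ^ 10
/-- budget of the doubling -/
def B6 : ℝ := Tt E Y ^ ((4 : ℝ) / 3) * (S.θ + u) ^ ((2 : ℝ) / 3) / E ^ 4000
/-- `X ^ (1/3)` -/
def xx : ℝ := Xx E Y ^ ((1 : ℝ) / 3)
/-- the a priori size of the first moment -/
def jj : ℝ := √(Xx E Y) + √(Tt E Y) + ll E S M Y u ^ 2
/-- slope at the corner -/
def Lc : ℝ := max (max (Zz E) (xx E Y * ((S.θ + u) / Bc E S Y u) ^ ((1 : ℝ) / 3)))
  (max (nu S * (S.θ + u) * xx E Y / Bc E S Y u) (xx E Y / Bc E S Y u ^ ((2 : ℝ) / 9)))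
/-- size at the corner -/
def uc : ℝ := Lc E S Y u ^ ((2 : ℝ) / 3) * (Su E S M Y D u).w3 1 ^ ((1 : ℝ) / 3)
/-- residual at the corner -/
def ec (η1 : ℝ) : ℝ := η1 + uc E S M Y D u ^ 3 +
  uc E S M Y D u ^ 2 * (S.θ + u + jj E S M Y u + xx E Y) +
  √(Lc E S Y u * gg (Su E S M Y D u) 1) * (uc E S M Y D u + √(X2 E S M Y u)) +
  (G0 E S M Y u + X2 E S M Y u) * uc E S M Y D u
/-- distance to the corner -/
def tc (η1 : ℝ) : ℝ := xx E Y / Lc E S Y u + ec E S M Y D u η1 / mf (Su E S M Y D u) 1 +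
  (Su E S M Y D u).w3 1 ^ ((1 : ℝ) / 3)
/-- **the cost** without the residual part -/
def Nc : ℝ := E ^ 8 * (Bu E S M Y u + B6 E S Y u) + (S.θ + u) * S.u0 ^ 3
end

variable {E : ℝ} {S : Sc} {M : Md} {l lm Ys Y u : ℝ} (X : Tx E S M l lm Ys Y u)
include X

theorem th0 : 0 < S.θ + u := add_pos X.cl.θ0 X.u_pos
theorem Bc0 : 0 < Bc E S Y u := div_pos (X.Xi0.trans_le (le_max_left _ _)) (pow_pos X.E0 _)
theorem Bc_le : Bc E S Y u ≤ Bu E S M Y u := div_le_div_of_nonneg_right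
  (max_le_max le_rfl (le_max_left _ _)) (pow_pos X.E0 _).le
theorem Bu0 : 0 < Bu E S M Y u := (Bc0 X).trans_le (Bc_le X)
theorem B60 : 0 < B6 E S Y u := by
  have := X.T0; have := th0 X; have := X.E0
  unfold B6; positivity
theorem xx0 : 0 < xx E Y := rpow_pos_of_pos X.X0 _

theorem lg_Bc : logb S.n (Bc E S Y u) =
    max (logb S.n (Xi E S Y u)) (10 ^ 7 * logb S.n E - 203 / 300) - 10 * logb S.n E := by
  have := X.Xi0; have := X.N0; have := X.E0
  rw [Bc, B4, logb_div (by positivity) (by positivity),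
    lg_max X.N1 (by positivity) (by positivity), logb_mul (by positivity) (by positivity),
    logb_pow, logb_pow, X.lg_rp]
  push_cast
  congr 2
  ring

/-- lower bounds of `Bc` -/
theorem Bc_lo : logb S.n (Tt E Y) + logb S.n (mu0 E u) - 10 * logb S.n E ≤ logb S.n (Bc E S Y u) ∧
    logb S.n (Tt E Y) + 289990 * logb S.n E - 1 / 3 ≤ logb S.n (Bc E S Y u) ∧
    9999990 * logb S.n E - 203 / 300 ≤ logb S.n (Bc E S Y u) := by
  rw [lg_Bc X]
  have a := le_max_left (logb S.n (Xi E S Y u)) (10 ^ 7 * logb S.n E - 203 / 300)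
  have b := le_max_right (logb S.n (Xi E S Y u)) (10 ^ 7 * logb S.n E - 203 / 300)
  obtain ⟨c, d⟩ := X.lg_Xi
  refine ⟨?_, ?_, ?_⟩ <;> linarith

theorem lg_Bu : logb S.n (Bu E S M Y u) = logb S.n (Bd E S M Y u) - 10 * logb S.n E := by
  rw [Bu, logb_div X.Bd0.ne' (pow_pos X.E0 _).ne', logb_pow]
  norm_num

end Crest.Agent.T156.Alt.Tc28

end
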