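import Crest.Agent.T156.TermB_92
import Crest.Agent.T156.TermN_15

/-!
# Row 156, SR, terminal statement: the bulk numbers `LN` of the auxiliary model (helper15)
-/

set_option autoImplicit false
set_option linter.unusedSectionVars false

noncomputable section

namespace Crest.Agent.T156.Alt.Tm92.M15

open Real Finset Filter Pre29 Sr L69

section
variable (E : ℝ) (S : Sc) (M : Md) (Y D u : ℝ)
def gq : ℝ := E * nu S ^ 2
def om : ℝ := (gq E S / ll E S M Y u) ^ ((1 : ℝ) / 3)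
def nv : ℝ := E ^ 18 * nu S ^ 2
def r3 : ℝ := min (E / (S.n * mu0 E u) ^ 2 + E ^ 36 / ((S.n : ℝ) ^ 2 * ll E S M Y u ^ 3))
  (E ^ 19 * Yd KK E Y ^ 3)
def rho : ℝ := r3 E S M Y u ^ ((1 : ℝ) / 3)
def ze : ℝ := max (mu0 E u) (Zz E ^ 29 * nu S) / E ^ 116
/-- the quartic sum -/
def X4 : ℝ := 16 * gq E S * om E S M Y u + 4 * ze E S u * Xx E Y
/-- the residual size -/
def et : ℝ → ℝ := Tn15.eta (Su E S M Y D u) (ll E S M Y u) (Zz E) (nv E S) (X2 E S M Y u)
  (X3n E S M Y u) (G0 E S M Y u)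
def ee : ℝ := (Zz E ^ 2 * om E S M Y u) ^ 3 + Zz E ^ 4 * E ^ 18 * nu S ^ 2 / ll E S M Y u +
  3 * G0 E S M Y u * (Zz E ^ 2 * om E S M Y u + √(X2 E S M Y u)) + 2 * X3 E S M Y u
end

variable {E : ℝ} {S : Sc} {M N : Md} {l lm Ys Y D u t : ℝ} (X : Tx E S M l lm Ys Y u)
include X

theorem gq0 : 0 < gq E S := mul_pos X.E0 (pow_pos X.nu0 2)
theorem om0 : 0 < om E S M Y u := rpow_pos_of_pos (div_pos (gq0 X) X.l0) _
theorem rho30 : 0 < r3 E S M Y u := by
  have := X.E0; have := X.mu_pos; have := X.Yd0; have := X.N0; have := X.l0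
  rw [r3]; positivity
theorem rho0 : 0 < rho E S M Y u := rpow_pos_of_pos (rho30 X) _
theorem ze0 : 0 < ze E S u := div_pos (X.mu_pos.trans_le (le_max_left _ _)) (pow_pos X.E0 _)
theorem lg_gq : logb S.n (gq E S) = logb S.n E - 2 / 3 := by
  have := X.E0; have := X.nu0
  rw [gq]; lg_norm; rw [X.lg_nu]; ring
theorem lg_om : 3 * logb S.n (om E S M Y u) = logb S.n E - 2 / 3 - logb S.n (ll E S M Y u) := by
  rw [om, logb_rpow_eq_mul_logb_of_pos (div_pos (gq0 X) X.l0), logb_div (gq0 X).ne' X.l0.ne',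
    lg_gq X]
  ring
theorem lg_rho : (3 * logb S.n (rho E S M Y u) ≤ 2 * logb S.n E - 2 - 2 * logb S.n (mu0 E u) ∨
    3 * logb S.n (rho E S M Y u) ≤ -3 / 2) ∧
    3 * logb S.n (rho E S M Y u) ≤ 4 * logb S.n E - 4 / 3 ∧
    3 * logb S.n (rho E S M Y u) ≤ 3 * logb S.n Y - 299999981 * logb S.n E := by
  have := X.E0; have := X.mu_pos; have := X.Yd0; have := X.N0; have := X.l0
  have k := (X.lg_num (x := 2) (by norm_num) (by norm_num)).2
  have e := X.lg_E.1
  have a : r3 E S M Y u ≤ _ := min_le_left _ _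
  have b := X.lg_mono (rho30 X) (min_le_right _ _)
  have q : 3 * logb S.n (rho E S M Y u) = logb S.n (r3 E S M Y u) := by
    rw [rho, logb_rpow_eq_mul_logb_of_pos (rho30 X)]; ring
  have o : logb S.n (r3 E S M Y u) ≤ 2 * logb S.n E - 2 - 2 * logb S.n (mu0 E u) ∨
      logb S.n (r3 E S M Y u) ≤ -3 / 2 := by
    rcases le_total (E / (S.n * mu0 E u) ^ 2) (E ^ 36 / ((S.n : ℝ) ^ 2 * ll E S M Y u ^ 3)) with h | h
    · refine .inr ((X.lg_mono (rho30 X) (show r3 E S M Y u ≤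
        2 * (E ^ 36 / ((S.n : ℝ) ^ 2 * ll E S M Y u ^ 3)) by linarith)).trans ?_)
      lg_norm; rw [X.lg_n]; linarith [X.lg_l_lo.1]
    · refine .inl ((X.lg_mono (rho30 X) (show r3 E S M Y u ≤
        2 * (E / (S.n * mu0 E u) ^ 2) by linarith)).trans ?_)
      lg_norm; rw [X.lg_n]; linarith
  rw [q]
  refine ⟨o, by rcases o with o | o <;> linarith [X.lg_mu.1], b.trans ?_⟩
  lg_norm; rw [X.lg_Yd]; linarith

theorem l1 : ll E S M Y u ≤ 1 :=
  X.le_of_lg X.l0 one_pos (by rw [logb_one]; linarith [X.lg_l_hi.2.2.2])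

theorem X2_G0 : X2 E S M Y u ≤ G0 E S M Y u := by
  have := mul_pos (pow_pos X.E0 5001) X.nu0
  rw [G0]; linarith [X.Gp0]
theorem nu_G0 : E ^ 5001 * nu S ≤ G0 E S M Y u := by rw [G0]; linarith [X.Gp0, X.X20]

section
variable (c : Cl (Su E S M Y D u) N)
include c

theorem gg_mu (ht : 0 ≤ t) : gg (Su E S M Y D u) t ≤ 1 / (S.n * mu0 E u) := by
  have := X.E0; have := X.N0; have := X.u_pos; have := X.cl.ms_pos ht
  refine le_trans (b := E ^ 9 / (S.n * u)) ?_ (le_of_eq (by rw [mu0]; field_simp))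
  change E ^ 9 / (S.n * (S.ms t + u)) ≤ _
  gcongr
  linarith

theorem gg_le (ht : 0 ≤ t) : gg (Su E S M Y D u) t ≤ gq E S := by
  have := X.N0; have := X.mu_pos
  refine (gg_mu X c ht).trans (X.le_of_lg (by positivity) (gq0 X) ?_)
  rw [lg_gq X]; lg_norm; rw [X.lg_n]; linarith [X.lg_mu.1]

theorem P_le (ht : ll E S M Y u ≤ t) : Tn15.P (Su E S M Y D u) t ≤ gq E S := by
  have := X.E0; have := X.N0; have l0 := X.l0
  refine (Tn15.P_anti c l0 ht).trans ?_
  rw [Tn15.P_eq c l0]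
  refine max_le (gg_le X c l0.le) ?_
  change (E ^ 9) ^ 2 / (S.n * ll E S M Y u ^ 2) ≤ _
  refine X.le_of_lg (by positivity) (gq0 X) ?_
  rw [lg_gq X]; lg_norm; rw [X.lg_n]; linarith [X.lg_l_lo.1, X.lg_E.1]

theorem V0 : 0 < Vv E S M Y D u := mul_pos (one_pos.trans_le (Tn15.cr1 _ _)) X.l0

theorem lg_V : 3 * logb S.n (Vv E S M Y D u) ≤ logb S.n E + 3 * logb S.n (ll E S M Y u) ∨
    3 * logb S.n (Vv E S M Y D u) ≤
      19 * logb S.n E + logb S.n (mu0 E u) + logb S.n (ll E S M Y u) := by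
  have E0 := X.E0; have u0 := X.u_pos; have l0 := X.l0; have v0 := V0 X c
  have a : Vv E S M Y D u ^ 3 ≤ ll E S M Y u ^ 3 + E ^ 9 * u * ll E S M Y u := by
    have m0 := X.cl.ms_pos l0.le
    have b := (mul_le_mul_of_nonneg_right (X.cx.Ep (i := 9) (by norm_num [KK])) m0.le).trans
      (X.sx.ml _ X.sj_l')
    rw [Vv, Tn15.crt3 c l0]
    refine max_le (le_add_of_nonneg_right (by positivity)) ?_
    change E ^ 9 * (S.ms (ll E S M Y u) + u) * ll E S M Y u ≤ _
    nlinarith [mul_le_mul_of_nonneg_right b l0.le]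
  have k := (X.lg_num (x := 2) (by norm_num) (by norm_num)).2
  rcases le_total (ll E S M Y u ^ 3) (E ^ 9 * u * ll E S M Y u) with h | h
  · have := X.lg_mono (by positivity)
      (show Vv E S M Y D u ^ 3 ≤ 2 * (E ^ 9 * u * ll E S M Y u) by linarith)
    revert this
    lg_norm
    rw [X.lg_u]
    exact fun _ => .inr (by linarith)
  · have := X.lg_mono (by positivity) (show Vv E S M Y D u ^ 3 ≤ 2 * ll E S M Y u ^ 3 by linarith)
    revert this
    lg_norm
    exact fun _ => .inl (by linarith)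

theorem rho_gg (a : ll E S M Y u ≤ t) (b : t ≤ 8 * S.C) :
    t * gg (Su E S M Y D u) t ^ 2 ≤ E ^ 19 * Yd KK E Y ^ 3 := by
  have E0 := X.E0; have := X.N0; have t0 := X.l0.trans_le a; have y0 := X.Yd0
  have g0 := Tn15.gg0 c t0.le
  have q0 := gq0 X
  obtain ⟨e0, e1⟩ := X.lg_E
  obtain ⟨y1, y2⟩ := X.lg_Y
  rcases le_total t l with h | h
  · refine (mul_le_mul_of_nonneg_left (pow_le_pow_left₀ g0.le (gg_le X c t0.le) 2) t0.le).trans
      (X.le_of_lg (by positivity) (by positivity) ?_)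
    have := X.lg_mono (by positivity) ((pow_le_pow_left₀ t0.le h 3).trans X.sx.vh.l3)
    revert this
    lg_norm
    rw [lg_gq X, X.lg_Yd]
    intro; linarith
  have C1 := X.cl.C1
  have lC : l ≤ S.C := Tn15.le3 (by linarith) <| X.sx.vh.l3.trans <|
    (X.le_of_lg y0 one_pos (by rw [logb_one, X.lg_Yd]; linarith)).trans (one_le_pow₀ C1)
  have r0 : 0 < min t S.C := lt_min t0 (by linarith)
  have k := X.sx.vh.bas (min t S.C) (le_min h lC) (min_le_right _ _)
  have m0 := X.cl.ms_pos r0.le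
  have tr : t ≤ 8 * min t S.C := by
    rw [mul_min_of_nonneg _ _ (by norm_num : (0 : ℝ) ≤ 8)]
    exact le_min (by linarith) b
  have g1 : gg (Su E S M Y D u) t ≤ E ^ 9 / (S.n * S.ms (min t S.C)) := by
    change E ^ 9 / (S.n * (S.ms t + u)) ≤ _
    gcongr
    linarith [X.cl.msm (min_le_left t S.C), X.u_pos]
  rw [Sc.w3, X.cx.sh.F1] at k
  calc _ ≤ 8 * min t S.C * (E ^ 9 / (S.n * S.ms (min t S.C))) ^ 2 := by gcongr
    _ = 8 * E ^ 18 * (min t S.C ^ 3 * (1 / (S.n * min t S.C * S.ms (min t S.C))) ^ 2) := by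
        field_simp
    _ ≤ E * E ^ 18 * Yd KK E Y ^ 3 := by gcongr; linarith [X.cx.E3]
    _ = _ := by ring

theorem fn (hs : N.s = M.s) (HJ : N.H S.Jp ≤ 8 * S.C) :
    Tn15.FN (E ^ 360) (Su E S M Y D u) N (ll E S M Y u) (mu0 E u) (Vv E S M Y D u) (gq E S)
      (rho E S M Y u) (ze E S u) := by
  have E0 := X.E0; have n0 := X.N0; have l0 := X.l0; have q0 := gq0 X; have m0 := X.mu_pos
  refine ⟨c, HJ, by rw [hs]; exact X.sj_l, fun t t' a b => ?_, m0, X.mu_le l0.le, le_rfl,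
    P_le X c le_rfl, (rho0 X).le, fun t a b => ?_, (ze0 X).le, fun t a => ?_⟩
  · change S.ms t' + u ≤ S.ms t + u + t' ^ 2
    linarith [X.sx.sub t t' a b]
  · have t0 := l0.trans_le a
    have := X.Yd0
    rw [rho, Tn15.cub3 (rho30 X).le, Tn15.P_eq c t0]
    rcases le_total (gg (Su E S M Y D u) t) ((Su E S M Y D u).F ^ 2 / ((Su E S M Y D u).n * t ^ 2))
      with h | h
    · rw [max_eq_right h]
      change t * ((E ^ 9) ^ 2 / (S.n * t ^ 2)) ^ 2 ≤ _
      have := X.lg_mono l0 a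
      refine le_min (le_trans ?_ (le_add_of_nonneg_left (by positivity))) ?_ <;>
        refine X.le_of_lg (by positivity) (by positivity) ?_ <;> lg_norm
      · linarith
      rw [X.lg_n, X.lg_Yd]
      linarith [X.lg_l_lo.1, X.lg_E.1, X.lg_Y.1]
    · rw [max_eq_left h]
      refine le_min (le_trans ?_ (le_add_of_nonneg_right (by positivity))) (rho_gg X c a b)
      have := Tn15.gg0 c t0.le
      calc _ ≤ E * (1 / (S.n * mu0 E u)) ^ 2 := by
            gcongr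
            exacts [b.trans (show 8 * S.C ≤ E by linarith [X.cx.CE1, X.cl.C1]), gg_mu X c t0.le]
        _ = _ := by field_simp
  · have t0 := l0.trans_le a
    have := X.nu0; have := X.Z0
    have p := P_le X c a
    obtain ⟨e0, e1⟩ := X.lg_E
    rcases X.cr_cases (D := D) (X.sj_l'.trans a) with h | h
    · rw [h, one_mul]
      refine p.trans (le_trans (b := (Zz E ^ 29 * nu S / E ^ 116) ^ 2)
        (X.le_of_lg q0 (by positivity) ?_) (by rw [ze]; gcongr; exact le_max_right _ _))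
      lg_norm
      rw [lg_gq X, X.lg_Z, X.lg_nu]
      linarith
    · have k : cr (Su E S M Y D u) t ≤ E ^ 10 * √(mu0 E u) / ll E S M Y u :=
        ((le_div_iff₀ t0).2 h).trans (by gcongr)
      refine (mul_le_mul k p (Tn15.P0 c t0).le (by positivity)).trans
        (le_trans (b := (mu0 E u / E ^ 116) ^ 2) (X.le_of_lg (by positivity) (by positivity) ?_)
          (by rw [ze]; gcongr; exact le_max_left _ _))
      lg_norm
      rw [lg_gq X]
      linarith [X.lg_l_lo.1, X.lg_mu.1]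

theorem a2 : 4 * ll E S M Y u * Vv E S M Y D u ^ 2 ≤ X2 E S M Y u := by
  have l0 := X.l0; have v0 := V0 X c
  have k := (X.lg_num (x := 4) (by norm_num) (by norm_num)).2
  obtain ⟨e0, e1⟩ := X.lg_E
  obtain ⟨y1, y2⟩ := X.lg_Y
  obtain ⟨m1, m2, m3⟩ := X.lg_mu
  obtain ⟨h1, h2, h3, h4⟩ := X.lg_l_hi
  have t := X.lg_T
  obtain ⟨b1, -, -, b4⟩ := X.lg_Bd
  have sj := X.lg_sj.1
  have lc : logb S.n (ll E S M Y u) ≤ 360 * logb S.n E + logb S.n (M.s S.jl) ∨
      logb S.n (ll E S M Y u) ≤ -1 / 300 + (logb S.n (Tt E Y) + logb S.n (mu0 E u)) / 5 := by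
    rw [X.lg_l_eq]
    exact (le_max_iff.1 le_rfl).imp id fun h => h.trans (add_le_add le_rfl (min_le_left _ _))
  refine X.le_X2 (by positivity) ?_ ?_ ?_ ?_ <;> lg_norm <;> rcases lg_V X c with v | v <;>
    rcases lc with lc | lc <;> linarith

theorem a3 : 16 * ll E S M Y u * Vv E S M Y D u ^ 4 ≤ X3 E S M Y u := by
  have l0 := X.l0; have v0 := V0 X c
  have k := (X.lg_num (x := 16) (by norm_num) (by norm_num)).2
  obtain ⟨e0, e1⟩ := X.lg_E
  obtain ⟨y1, y2⟩ := X.lg_Y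
  obtain ⟨m1, m2, m3⟩ := X.lg_mu
  obtain ⟨h1, h2, h3, h4⟩ := X.lg_l_hi
  have t := X.lg_T
  refine X.le_X3 (by positivity) ?_ ?_ ?_ <;> lg_norm <;> rcases lg_V X c with v | v <;> linarith

end

/-- the residual at the level `l` -/
theorem ee_le {B : ℝ} (B0 : 0 < B) (h : logb S.n B = 3 / 2 * logb S.n (mu0 E u) ∨
    logb S.n B = logb S.n (mu0 E u) + logb S.n (ll E S M Y u)) :
    E ^ 360 * (ee E S M Y u + x3 E S) ≤ B := by
  have E0 := X.E0; have l0 := X.l0; have := X.Z0; have := om0 X; have := X.nu0; have := X.G00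
  have := X.X20; have := X.X30
  obtain ⟨e0, e1⟩ := X.lg_E
  obtain ⟨y1, y2⟩ := X.lg_Y
  obtain ⟨m1, m2, m3⟩ := X.lg_mu
  obtain ⟨l1, l2⟩ := X.lg_l_lo
  obtain ⟨x1, x2, -⟩ := X.lg_X2
  obtain ⟨z1, z2, -⟩ := X.lg_X3
  have t := X.lg_T
  have o := lg_om X
  have Z := X.lg_Z
  have n := X.lg_nu
  have k : ∀ x, 0 < x → 361 * logb S.n E + logb S.n x ≤ logb S.n B → E * (E ^ 360 * x) ≤ B :=
    fun x a b => X.le_of_lg (by positivity) B0 (by lg_norm; linarith)
  have a1 := k ((Zz E ^ 2 * om E S M Y u) ^ 3) (by positivity)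
    (by lg_norm; rcases h with h | h <;> linarith)
  have a2 := k (Zz E ^ 4 * E ^ 18 * nu S ^ 2 / ll E S M Y u) (by positivity)
    (by lg_norm; rcases h with h | h <;> linarith)
  have a3 := k (G0 E S M Y u * (Zz E ^ 2 * om E S M Y u)) (by positivity) (by
    lg_norm
    rcases h with h | h <;> rcases X.lg_G0 with g | g | ⟨g, g'⟩ <;> rcases l2 with l2 | ⟨l2, l3⟩ <;>
      linarith)
  have a4 := k (G0 E S M Y u * √(X2 E S M Y u)) (by positivity) (by
    lg_norm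
    rcases h with h | h <;> rcases X.lg_G0 with g | g | ⟨g, g'⟩ <;> rcases l2 with l2 | ⟨l2, l3⟩ <;>
      linarith)
  have a5 := k (X3 E S M Y u) X.X30 (by rcases h with h | h <;> linarith)
  have a6 := k (x3 E S) X.x30 (by rw [X.lg_x3]; rcases h with h | h <;> linarith)
  refine le_of_mul_le_mul_left ?_ E0
  have b := mul_le_mul_of_nonneg_right X.cx.E3 B0.le
  rw [ee]
  linarith

theorem nn (c : Cl (Su E S M Y D u) N) {X3' : ℝ} (h3 : X3 E S M Y u ≤ X3') :
    Tn15.NN (E ^ 360) S.n (E ^ 9) (mu0 E u) (ll E S M Y u) (Vv E S M Y D u) (gq E S)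
    (om E S M Y u) (nv E S) (rho E S M Y u) (Xx E Y) (Zz E) (X2 E S M Y u) X3' (G0 E S M Y u)
    (ee E S M Y u + x3 E S) := by
  have E0 := X.E0; have l0 := X.l0; have Z0 := X.Z0; have o0 := om0 X; have nu0 := X.nu0
  have := X.G00; have := X.X20; have := X.X30; have q0 := gq0 X; have r0 := rho0 X
  have x0 := X.X0; have m0 := X.mu_pos; have n0 := X.N0
  obtain ⟨e0, e1⟩ := X.lg_E
  obtain ⟨y1, y2⟩ := X.lg_Y
  obtain ⟨m1, m2, m3⟩ := X.lg_mu
  obtain ⟨l1, -⟩ := X.lg_l_lo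
  obtain ⟨-, -, -, h4⟩ := X.lg_l_hi
  obtain ⟨x1, -, -⟩ := X.lg_X2
  obtain ⟨-, r1, r2⟩ := lg_rho X
  obtain ⟨-, xx⟩ := X.lg_X
  obtain ⟨b1, -, b3, -⟩ := X.lg_Bd
  have t := X.lg_T
  have o := lg_om X
  have Z := X.lg_Z
  have n := X.lg_nu
  have q := lg_gq X
  have k2 := (X.lg_num (x := 2) (by norm_num) (by norm_num)).2
  have k4 := (X.lg_num (x := 4) (by norm_num) (by norm_num)).2
  have k8 := (X.lg_num (x := 8) (by norm_num) (by norm_num)).2
  have k16 := (X.lg_num (x := 16) (by norm_num) (by norm_num)).2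
  refine ⟨one_le_pow₀ X.E1, l0, X.le_of_lg (by positivity) one_pos (by lg_norm; linarith), o0, ?_,
    X.le_of_lg o0 l0 (by linarith), by rw [nv]; positivity, ?_, x0,
    X.le_of_lg (by positivity) one_pos (by lg_norm; linarith),
    X.le_of_lg (by positivity) (by positivity) (by lg_norm; linarith),
    X.le_of_lg (by positivity) (by positivity) ?_,
    X.le_of_lg (by positivity) Z0 (by lg_norm; linarith),
    X.le_of_lg Z0 n0 (by rw [X.lg_n]; linarith), a2 X c,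
    X.le_X2 (by positivity) (by lg_norm; linarith) (by lg_norm; linarith) (by lg_norm; linarith)
      (by lg_norm; linarith), ?_,
    (a3 X c).trans h3, (X.le_X3 (by positivity) (by lg_norm; linarith) (by lg_norm; linarith)
      (by lg_norm; linarith)).trans h3, (X.le_X3 (by positivity) (by lg_norm; linarith)
      (by lg_norm; linarith) (by lg_norm; linarith)).trans h3,
    (a2 X c).trans (X2_G0 X), le_trans ?_ (pow_le_pow_left₀ (by positivity) (nu_G0 X) 2), ?_,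
    X.le_of_lg (by positivity) m0 (by lg_norm; linarith),
    X.le_of_lg (by positivity) m0 (by lg_norm; linarith),
    ee_le X (by positivity) (.inr (by lg_norm))⟩
  · rw [om, Tn15.cub3 (by positivity), mul_div_cancel₀ _ l0.ne']
  · rw [nv]
    exact X.le_of_lg (by positivity) (by positivity) (by lg_norm; rw [X.lg_n]; linarith)
  · lg_norm
    rcases X.lg_G0 with g | g | ⟨g, g'⟩ <;> linarith
  · have p : 0 < 2 ^ 13 * rho E S M Y u ^ 3 * Xx E Y ^ 4 := by positivity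
    have g : 7 * logb S.n ((2 ^ 13 * rho E S M Y u ^ 3 * Xx E Y ^ 4) ^ ((1 : ℝ) / 7)) =
        13 * logb S.n 2 + 3 * logb S.n (rho E S M Y u) + 4 * logb S.n (Xx E Y) := by lg_norm; ring
    have := pow_le_pow_left₀ (by positivity) (X.le_X2 (rpow_pos_of_pos p ((1 : ℝ) / 7))
      (by linarith) (by linarith) (by linarith) (by linarith)) 7
    rwa [Tn15.rp_pow p.le 7 1 (by norm_num), pow_one] at this
  · exact X.le_of_lg (by positivity) (by positivity) (by lg_norm; linarith)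
  · have := pow_le_pow_left₀ (by have := X.x30; rw [ee]; positivity)
      (ee_le X (rpow_pos_of_pos m0 ((3 : ℝ) / 2)) (.inl (by lg_norm))) 2
    rwa [Tn15.rp_pow m0.le 2 3 (by norm_num)] at this

section
variable (c : Cl (Su E S M Y D u) N)
include c

theorem ff_eq : ff E S M Y D u t = (Zz E ^ 2 * Tn15.W (Su E S M Y D u) t) ^ 3 +
    Zz E ^ 4 * E ^ 18 * nu S ^ 2 / t + 3 * G0 E S M Y u *
      (Zz E ^ 2 * Tn15.W (Su E S M Y D u) t + √(X2 E S M Y u)) + 2 * X3 E S M Y u := by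
  rw [ff, uw, mul_assoc (Zz E ^ 2), ← Tn15.W]

theorem ff_anti {t' : ℝ} (t0 : 0 < t) (h : t ≤ t') : ff E S M Y D u t' ≤ ff E S M Y D u t := by
  have := X.E0; have := X.Z0; have := X.nu0; have := X.G00
  have := Tn15.W0 c (t0.trans_le h)
  have := Tn15.W_anti c t0 h
  rw [ff_eq X c, ff_eq X c]
  gcongr

theorem ff_two (t0 : 0 < t) : ff E S M Y D u t ≤ 16 * ff E S M Y D u (2 * t) := by
  have := X.E0; have := X.Z0; have := X.nu0; have := X.G00; have := X.X30
  have := Tn15.W0 c t0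
  have w := Tn15.W0 c (show 0 < 2 * t by linarith)
  have a : Zz E ^ 2 * Tn15.W (Su E S M Y D u) t ≤ 2 * (Zz E ^ 2 * Tn15.W (Su E S M Y D u) (2 * t)) := by
    linarith [mul_le_mul_of_nonneg_left (Tn15.W_two c t0) (sq_nonneg (Zz E))]
  have b := pow_le_pow_left₀ (by positivity) a 3
  have d := mul_le_mul_of_nonneg_left a X.G00.le
  have e : Zz E ^ 4 * E ^ 18 * nu S ^ 2 / t = 2 * (Zz E ^ 4 * E ^ 18 * nu S ^ 2 / (2 * t)) := by
    field_simp
  have p1 : 0 ≤ (Zz E ^ 2 * Tn15.W (Su E S M Y D u) (2 * t)) ^ 3 := by positivity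
  have p2 : 0 ≤ Zz E ^ 4 * E ^ 18 * nu S ^ 2 / (2 * t) := by positivity
  have p3 : 0 ≤ G0 E S M Y u * (Zz E ^ 2 * Tn15.W (Su E S M Y D u) (2 * t)) := by positivity
  have p4 : 0 ≤ G0 E S M Y u * √(X2 E S M Y u) := by positivity
  rw [ff_eq X c, ff_eq X c, e]
  rw [mul_pow 2] at b
  linarith

theorem eta_anti : Antitone (eta E S M Y D u) := fun _ _ a =>
  ff_anti X c (X.l0.trans_le (le_max_right _ _)) (max_le_max_right _ a)

theorem eta_le : eta E S M Y D u t ≤ ee E S M Y u := by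
  have := X.Z0; have := X.G00; have l0 := X.l0
  have := Tn15.W0 c l0
  have w : Tn15.W (Su E S M Y D u) (ll E S M Y u) ≤ om E S M Y u := Tn15.le3 (om0 X).le <| by
    rw [om, Tn15.cub3 (div_pos (gq0 X) l0).le, le_div_iff₀' l0]
    exact P_le X c le_rfl
  refine (ff_anti X c l0 (le_max_right t _)).trans ?_
  rw [ff_eq X c, ee]
  gcongr

/-- **the bulk numbers of the auxiliary model** -/
theorem ln (hs : N.s = M.s) (HJ : N.H S.Jp ≤ 8 * S.C) :
    LN (E ^ 360) (Su E S M Y D u) N (ll E S M Y u) (ll E S M Y u) (Vv E S M Y D u) (Xx E Y) (Zz E)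
      (X2 E S M Y u) (X3 E S M Y u) (G0 E S M Y u) (eta E S M Y D u) := by
  have l0 := X.l0
  refine Tn15.ln' (fn X c hs HJ) (nn X c le_rfl) (eta_anti X c) (fun t _ => ?_) (fun t a => ?_)
    ((eta_le X c).trans (le_add_of_nonneg_right X.x30.le))
  · exact (ff_two X c (l0.trans_le (le_max_right t _))).trans (mul_le_mul_of_nonneg_left
      (ff_anti X c (l0.trans_le (le_max_right _ _)) (max_le (by linarith [le_max_left t (ll E S M Y u)])
        (by linarith [le_max_right t (ll E S M Y u)]))) (by norm_num))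
  have E0 := X.E0; have Z0 := X.Z0; have := X.nu0; have n0 := X.N0; have q0 := gq0 X
  have := Tn15.W0 c (l0.trans_le a)
  obtain ⟨e0, e1⟩ := X.lg_E
  have s : √(Zz E * Tn15.P (Su E S M Y D u) t) ≤ G0 E S M Y u := by
    refine (sqrt_le_iff.2 ⟨by positivity, (mul_le_mul_of_nonneg_left (P_le X c a) Z0.le).trans
      (X.le_of_lg (by positivity) (by positivity) ?_)⟩).trans (nu_G0 X)
    lg_norm
    rw [X.lg_Z, lg_gq X, X.lg_nu]
    linarith
  have r : 1 / (S.n : ℝ) ≤ X3 E S M Y u := by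
    have := X.lg_mu.1
    have := X.lg_l_lo.1
    have := X.lg_T
    have := X.lg_Y.1
    refine X.le_X3 (by positivity) ?_ ?_ ?_ <;> lg_norm <;> rw [X.lg_n] <;> linarith
  have p := mul_le_mul_of_nonneg_right (show √(Zz E * Tn15.P (Su E S M Y D u) t) + G0 E S M Y u +
    X2 E S M Y u ≤ 3 * G0 E S M Y u by linarith [X2_G0 X])
    (show 0 ≤ Zz E ^ 2 * Tn15.W (Su E S M Y D u) t + √(X2 E S M Y u) by positivity)
  have e : Zz E ^ 4 * (nv E S / t) = Zz E ^ 4 * E ^ 18 * nu S ^ 2 / t := by rw [nv]; ring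
  rw [eta, max_eq_left a, ff_eq X c, Tn15.e0, e]
  change _ + 1 / (S.n : ℝ) ≤ _
  linarith

omit c in
theorem n_X3 : 1 / (S.n : ℝ) ≤ X3 E S M Y u := by
  have := X.N0
  have := X.lg_mu.1
  have := X.lg_l_lo.1
  have := X.lg_T
  have := X.lg_Y.1
  obtain ⟨e0, e1⟩ := X.lg_E
  refine X.le_X3 (by positivity) ?_ ?_ ?_ <;> lg_norm <;> rw [X.lg_n] <;> linarith

omit c in
theorem eb : Zz E ^ 6 * om E S M Y u ^ 3 + Zz E ^ 4 * (nv E S / ll E S M Y u) +
    (√(Zz E * gq E S) + G0 E S M Y u + X2 E S M Y u) * (Zz E ^ 2 * om E S M Y u + √(X2 E S M Y u)) +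
      X3n E S M Y u + 1 / S.n ≤ ee E S M Y u + x3 E S := by
  have E0 := X.E0; have Z0 := X.Z0; have := X.nu0; have q0 := gq0 X; have := om0 X
  have s : √(Zz E * gq E S) ≤ G0 E S M Y u := by
    refine (sqrt_le_iff.2 ⟨by positivity, X.le_of_lg (by positivity) (by positivity) ?_⟩).trans
      (nu_G0 X)
    lg_norm
    rw [X.lg_Z, lg_gq X, X.lg_nu]
    linarith [X.lg_E.1]
  have p := mul_le_mul_of_nonneg_right (show √(Zz E * gq E S) + G0 E S M Y u +
    X2 E S M Y u ≤ 3 * G0 E S M Y u by linarith [X2_G0 X])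
    (show 0 ≤ Zz E ^ 2 * om E S M Y u + √(X2 E S M Y u) by positivity)
  have e : Zz E ^ 4 * (nv E S / ll E S M Y u) = Zz E ^ 4 * E ^ 18 * nu S ^ 2 / ll E S M Y u := by
    rw [nv]; ring
  rw [ee, X3n, e]
  linarith [n_X3 X]

variable (hs : N.s = M.s) (HJ : N.H S.Jp ≤ 8 * S.C)
include hs HJ

/-- **the bulk numbers at `X3n`** -/
theorem lnN : LN (E ^ 360) (Su E S M Y D u) N (ll E S M Y u) (ll E S M Y u) (Vv E S M Y D u) (Xx E Y)
    (Zz E) (X2 E S M Y u) (X3n E S M Y u) (G0 E S M Y u) (et E S M Y D u) :=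
  Tn15.ln (fn X c hs HJ) (nn X c X.X3_le_n) (eb X)

theorem et_le (t : ℝ) : et E S M Y D u t ≤ ee E S M Y u + x3 E S :=
  Tn15.eta_le (fn X c hs HJ) (nn X c X.X3_le_n) (eb X) t

theorem et_ge (t : ℝ) : X3n E S M Y u ≤ et E S M Y D u t :=
  Tn15.X3_le (fn X c hs HJ) (nn X c X.X3_le_n) t

theorem l4N (T : ℝ) :
    L4 (Su E S M Y D u) (Vv E S M Y D u) (Xx E Y) (ll E S M Y u) T (X4 E S M Y u) :=
  Tn15.l4 (fn X c hs HJ) (nn X c le_rfl) T

omit c hs HJ in
theorem X40 : 0 ≤ X4 E S M Y u := by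
  have := gq0 X; have := om0 X; have := ze0 X; have := X.X0
  rw [X4]; positivity

omit c hs HJ in
theorem X4_le : E * X4 E S M Y u ≤ Xi E S Y u := by
  have E0 := X.E0; have := gq0 X; have := om0 X; have x0 := X.Xi0
  have m0 : 0 < max (mu0 E u) (Zz E ^ 29 * nu S) := X.mu_pos.trans_le (le_max_left _ _)
  have a : E * (E * (gq E S * om E S M Y u)) ≤ Xi E S Y u := X.le_of_lg (by positivity) x0 (by
    lg_norm
    linarith [lg_gq X, lg_om X, X.lg_Xi.2, X.lg_T, X.lg_Y.1, X.lg_l_lo.1, X.lg_E.1])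
  have b : E ^ 3 * (E * (ze E S u * Xx E Y)) = 2 * Xi E S Y u := by
    rw [ze, Xx, Xi, Tt]; field_simp
  have p : 0 < E * (ze E S u * Xx E Y) := by have := ze0 X; have := X.X0; positivity
  have d := mul_le_mul_of_nonneg_right (X.cx.E3.trans (X.cx.E_le (j := 3) (by norm_num))) p.le
  have f := mul_le_mul_of_nonneg_right X.cx.E3
    (show 0 ≤ E * (gq E S * om E S M Y u) by positivity)
  rw [X4]
  linarith

/-- **the cost of the residual** -/
theorem costN (r : ℝ) (a : ll E S M Y u ≤ r) (b : r ≤ 8 * S.C) : r * (cr (Su E S M Y D u) r *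
    (et E S M Y D u r ^ 2 / mf (Su E S M Y D u) r)) ≤ Xi E S Y u / E ^ 2 := by
  have E0 := X.E0; have l0 := X.l0; have Z0 := X.Z0; have nu0 := X.nu0
  have g0 := X.G00; have := X.X20; have := X.X30; have q0 := gq0 X; have r0 := rho0 X
  have m0 := X.mu_pos; have n0 := X.N0; have x0 := X.Xi0; have C0 := X.cl.C0
  obtain ⟨e0, e1⟩ := X.lg_E
  obtain ⟨y1, y2⟩ := X.lg_Y
  obtain ⟨m1, m2, m3⟩ := X.lg_mu
  obtain ⟨l1, -⟩ := X.lg_l_lo
  obtain ⟨x1, x2, x3'⟩ := X.lg_X2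
  obtain ⟨-, -, z3⟩ := X.lg_X3
  obtain ⟨r1, r2, r3⟩ := lg_rho X
  obtain ⟨i1, i2⟩ := X.lg_Xi
  have t := X.lg_T
  have Z := X.lg_Z
  have q := lg_gq X
  have n := X.lg_n
  have lc := X.lg_C.2
  have v0 : 0 < nv E S := by rw [nv]; positivity
  have v : logb S.n (nv E S) = 18 * logb S.n E - 2 / 3 := by rw [nv]; lg_norm; rw [X.lg_nu]; ring
  obtain ⟨σ, σ0, hσ⟩ : ∃ σ, 0 < σ ∧ rho E S M Y u ^ 3 * gq E S = σ ^ 3 * (S.n * mu0 E u) ^ 2 :=
    ⟨(rho E S M Y u ^ 3 * gq E S / (S.n * mu0 E u) ^ 2) ^ ((1 : ℝ) / 3), by positivity, by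
      rw [Tn15.cub3 (by positivity)]; field_simp⟩
  have s := congrArg (logb S.n) hσ
  revert s
  lg_norm
  intro s
  have G0' : 0 < G0 E S M Y u + X2 E S M Y u := by positivity
  have G : logb S.n (G0 E S M Y u + X2 E S M Y u) ≤ logb S.n E + logb S.n (G0 E S M Y u) := by
    refine (X.lg_mono G0' (show _ ≤ 2 * G0 E S M Y u by linarith [X2_G0 X])).trans ?_
    lg_norm
    linarith [(X.lg_num (x := 2) (by norm_num) (by norm_num)).2]
  have e : et E S M Y D u r = Tn15.eta (Su E S M Y D u) (ll E S M Y u) (Zz E) (nv E S)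
      (X2 E S M Y u) (X3 E S M Y u) (G0 E S M Y u) r + x3 E S := by
    simp only [et, Tn15.eta, Tn15.e0, X3n]; ring
  rw [e]
  refine X.cost_add a b ((Tn15.cost (fn X c hs HJ) (nn X c le_rfl) σ0.le hσ.le
    (X.le_of_lg m0 one_pos (by rw [logb_one]; linarith)) a b).trans ?_)
  change 8 * ((S.n : ℝ) * _ + E ^ 9 * (8 * S.C) * (_ + _ + 1 / (S.n : ℝ) ^ 2) / _) ≤ _
  generalize G0 E S M Y u + X2 E S M Y u = H at *
  have C8 : 0 < 8 * S.C := by positivity
  generalize 8 * S.C = C at *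
  have k : ∀ x, 0 < x → 4 * logb S.n E + logb S.n x ≤ logb S.n (Xi E S Y u) →
      E * x ≤ Xi E S Y u / E ^ 3 :=
    fun x a b => X.le_of_lg (by positivity) (by positivity) (by lg_norm; linarith)
  have a1 := k (S.n * (Zz E ^ 12 * gq E S ^ 3 / ll E S M Y u)) (by positivity)
    (by lg_norm; linarith)
  have a2 := k (S.n * (Zz E ^ 8 * gq E S * nv E S ^ 2 / ll E S M Y u)) (by positivity)
    (by lg_norm; linarith)
  have a3 := k (S.n * (Zz E ^ 5 * rho E S M Y u * gq E S ^ 2)) (by positivity)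
    (by lg_norm; linarith)
  have a4 := k (S.n * (Zz E * rho E S M Y u ^ 3 * X2 E S M Y u)) (by positivity)
    (by lg_norm; rcases r1 with r1 | r1 <;> linarith)
  have a5 := k (S.n * (Zz E ^ 4 * σ * H ^ 2)) (by positivity)
    (by lg_norm; rcases X.lg_G0 with g | g | ⟨g, g'⟩ <;> linarith)
  have a6 := k (E ^ 9 * C * (H ^ 2 * X2 E S M Y u) / mu0 E u) (by positivity)
    (by lg_norm; rcases X.lg_G0 with g | g | ⟨g, g'⟩ <;> linarith)
  have a7 := k (E ^ 9 * C * X3 E S M Y u ^ 2 / mu0 E u) (by positivity) (by lg_norm; linarith)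
  have a8 := k (E ^ 9 * C * (1 / (S.n : ℝ) ^ 2) / mu0 E u) (by positivity) (by lg_norm; linarith)
  refine le_of_mul_le_mul_left ?_ E0
  have w0 : 0 ≤ Xi E S Y u / E ^ 3 := by positivity
  have w := mul_le_mul_of_nonneg_right X.cx.E3 w0
  rw [mul_add (E ^ 9 * C), mul_add (E ^ 9 * C), add_div, add_div]
  linarith

end

end Crest.Agent.T156.Alt.Tm92.M15

end
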