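import Crest.Agent.T156.TermA_92
import Crest.Agent.T156.LDefX_64

/-!
# Row 156, SR, terminal statement: the sizes of the location below the upper end (helper46)
-/

set_option autoImplicit false

noncomputable section

namespace Crest.Agent.T156.Alt.Tt46

open Real Finset L69

/-- the body of `TLt` -/
def TtAt (E Λ : ℝ) (S : Sc) (M : Md) (m : ℕ) (a : ℝ) : Prop :=
  ∀ l0 X Xp Vt X2 u1 j γ Lp, M.H S.Jp ≤ S.C →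
  0 < X → E * X ≤ 1 → 0 < Xp → E * Xp ≤ 1 → 0 ≤ Vt → E * M.s S.jl ≤ l0 →
  S.w3 l0 ≤ l0 ^ 3 → E * l0 ≤ 1 →
  l0 * cl S (X ^ ((1 : ℝ) / 3)) l0 ^ 2 ≤ X2 →
  (∀ t, l0 ≤ t → t ≤ S.C → min (t * cl S (X ^ ((1 : ℝ) / 3)) t ^ 2)
    (t * ws S (X ^ ((1 : ℝ) / 3)) t ^ 2 +
      (t * ws S (X ^ ((1 : ℝ) / 3)) t ^ 2) ^ ((3 : ℝ) / 7) * X ^ ((4 : ℝ) / 7)) ≤ X2) →
  0 < S.u0 → (∃ k1, S.Jp ≤ k1 ∧ k1 ≤ M.N ∧ 1 / S.C ≤ ((k1 : ℝ) - S.Jp) * S.v ∧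
    ∀ k, S.Jp ≤ k → k < k1 → S.θ * S.v / (S.C * S.F) ≤ M.H (k + 1) - M.H k) →
  S.ue ≤ u1 → E * u1 ≤ 1 → M.s S.Jp - M.s S.J ≤ γ → E * γ ≤ 1 → E ≤ Lp → Lp ≤ S.n →
  Far M S Xp Vt γ u1 Lp → Np M S Xp Vt γ u1 Lp 2 ≤ X2 → Ap S M m a l0 X Xp Vt u1 j →
  ∀ k, S.J ≤ k → k ≤ S.Jp → 2 * u1 ≤ du M k → ∀ k', k ≤ k' → k' ≤ S.Jp → du M k' ≤ du M k / 2 →
    M.del m a k ≤ Λ * (j + γ + √X2 + Lp * ap M S Xp Vt γ k +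
      min (√(M.H k' - M.H S.J)) (S.F * (M.H k' - M.H S.J) / S.θ) + 1 / √S.n)

theorem tlt_iff : TLt ↔ CL TtAt := Iff.rfl

/-- the common size -/
def B2 (E : ℝ) (S : Sc) (Y u : ℝ) : ℝ := (S.n : ℝ) ^ (-(1 : ℝ) / 11) +
  min (√S.θ) ((S.n : ℝ) ^ (-(21 : ℝ) / 400)) + √u + Tm92.Xx E Y ^ ((1 : ℝ) / 3)
/-- location above the cut of the costs -/
def V2 (E : ℝ) (S : Sc) (Y u : ℝ) : ℝ := E ^ 50000 * B2 E S Y u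
/-- location above the cut of the sizes -/
def Vt (E : ℝ) (S : Sc) (Y u : ℝ) : ℝ :=
  E ^ 50000 * (B2 E S Y u + (S.n : ℝ) ^ (-(21 : ℝ) / 400))

variable {E : ℝ} {S : Sc} {M : Md} {l lm Ys Y u : ℝ}

theorem B2_pos (X : Tm92.Tx E S M l lm Ys Y u) : 0 < B2 E S Y u := by
  have := X.N0
  have := X.X0
  have := X.cl.θ0
  unfold B2
  positivity

theorem V2_pos (X : Tm92.Tx E S M l lm Ys Y u) : 0 < V2 E S Y u :=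
  mul_pos (pow_pos X.E0 _) (B2_pos X)

theorem V2_le (X : Tm92.Tx E S M l lm Ys Y u) : V2 E S Y u ≤ Vt E S Y u :=
  mul_le_mul_of_nonneg_left (le_add_of_nonneg_right (rpow_pos_of_pos X.N0 _).le) (pow_pos X.E0 _).le

end Crest.Agent.T156.Alt.Tt46

end
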