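import Crest.Agent.T156.TermB_92

/-!
Row 156 (helper71): the budget of the plateau cost `Nc` in the closing of `Term K`.
-/

set_option autoImplicit false
set_option linter.unusedSectionVars false

noncomputable section

namespace Crest.Agent.T156.Alt.Tm92

open Real Finset Filter Pre29 Sr L69

/-- the two lines of `Nc` with the factor `κ` -/
def Bud (E : ℝ) (S : Sc) (M : Md) (Y D u κ x : ℝ) : Prop :=
  (∀ t, 0 < t → t ≤ 1 → t * x ≤ κ * En E S M Y D u t) ∧
  ∀ t, 0 < t → (1 ≤ 2 * E ^ 360 * t ∨ 1 ≤ (E ^ 360) ^ 6 * u) →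
    x ≤ κ * max (Tt E Y ^ 2 / E) (Tt E Y * mf (Su E S M Y D u) t)

variable {E : ℝ} {S : Sc} {M : Md} {l lm Ys Y u D κ κ' x y : ℝ}

theorem Bud.add (h : Bud E S M Y D u κ x) (h' : Bud E S M Y D u κ' y) :
    Bud E S M Y D u (κ + κ') (x + y) :=
  ⟨fun t a b => by linarith [h.1 t a b, h'.1 t a b], fun t a b => by linarith [h.2 t a b, h'.2 t a b]⟩

theorem Bud.of_le (h : Bud E S M Y D u κ y) (hx : x ≤ y) : Bud E S M Y D u κ x :=
  ⟨fun t a b => (mul_le_mul_of_nonneg_left hx a.le).trans (h.1 t a b),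
    fun t a b => hx.trans (h.2 t a b)⟩

theorem Bud.max (h : Bud E S M Y D u κ x) (h' : Bud E S M Y D u κ y) :
    Bud E S M Y D u κ (max x y) := by
  rcases max_choice x y with e | e <;> rw [e] <;> assumption

theorem Bud.smul (h : Bud E S M Y D u κ x) {c : ℝ} (hc : 0 ≤ c) : Bud E S M Y D u (c * κ) (c * x) :=
  ⟨fun t a b => by linarith [mul_le_mul_of_nonneg_left (h.1 t a b) hc],
    fun t a b => by linarith [mul_le_mul_of_nonneg_left (h.2 t a b) hc]⟩

namespace Tx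

variable (X : Tx E S M l lm Ys Y u)
include X

theorem En0 {t : ℝ} (ht : 0 < t) : 0 < En E S M Y D u t :=
  (mul_pos X.T0 (X.mf_pos ht.le)).trans_le (le_max_right _ _)

theorem bud_mono (h : Bud E S M Y D u κ x) (hκ : κ ≤ κ') : Bud E S M Y D u κ' x :=
  ⟨fun t a b => (h.1 t a b).trans (mul_le_mul_of_nonneg_right hκ (X.En0 a).le),
    fun t a b => (h.2 t a b).trans (mul_le_mul_of_nonneg_right hκ
      ((mul_pos X.T0 (X.mf_pos a.le)).le.trans (le_max_right _ _)))⟩

/-- **the lines of `Nc`** -/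
theorem bud_out (h : Bud E S M Y D u κ x) (hκ : κ ≤ 100 / E) :
    (∀ t, 0 < t → t ≤ 1 → t * x ≤ En E S M Y D u t / 10) ∧
    ∀ t, 0 < t → (1 ≤ 2 * E ^ 360 * t ∨ 1 ≤ (E ^ 360) ^ 6 * u) →
      x ≤ max (Tt E Y ^ 2 / E) (Tt E Y * mf (Su E S M Y D u) t) / 10 := by
  have g := X.bud_mono h (κ' := 1 / 10) (hκ.trans (by
    rw [div_le_iff₀ X.E0]
    linarith [X.cx.E3]))
  exact ⟨fun t a b => by linarith [g.1 t a b], fun t a b => by linarith [g.2 t a b]⟩

theorem bud_Xi (h : E * x ≤ Xi E S Y u) : Bud E S M Y D u (1 / E) x := by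
  have E0 := X.E0
  have k : ∀ {B : ℝ}, Xi E S Y u ≤ B → x ≤ 1 / E * B := fun g => by
    rw [one_div_mul_eq_div, le_div_iff₀' E0]
    exact h.trans g
  refine ⟨fun t a b => ?_, fun t a b => k ((X.Xi_le' a b).trans (le_max_right _ _))⟩
  rcases le_total x 0 with e | e
  · exact (mul_nonpos_of_nonneg_of_nonpos a.le e).trans (mul_pos (one_div_pos.2 E0) (X.En0 a)).le
  · exact (mul_le_of_le_one_left e b).trans (k (X.Xi_le a b))

theorem θu_le : S.θ + u ≤ 2 := by
  have a : S.θ ≤ 1 := by nlinarith [X.cx.Cθ, X.cl.C1, X.cl.θ0]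
  linarith [X.u1.trans (div_le_one_of_le₀ X.E1 X.E0.le)]

/-- the uniform form -/
theorem bud_unif (h : ∀ t, 0 < t → t ≤ 1 → E ^ 3000 * (t * x) ≤ En E S M Y D u t) :
    Bud E S M Y D u (1 / E) x := by
  have E0 := X.E0
  have T0 := X.T0
  have Ep : ∀ {i j : ℕ}, i ≤ j → E ^ i ≤ E ^ j := fun h => pow_le_pow_right₀ X.E1 h
  rcases le_total x 0 with x0 | x0
  · exact X.bud_Xi ((mul_nonpos_of_nonneg_of_nonpos E0.le x0).trans X.Xi0.le)
  refine ⟨fun t a b => ?_, fun t a b => ?_⟩ <;> rw [one_div_mul_eq_div, le_div_iff₀' E0]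
  · exact (mul_le_mul_of_nonneg_right (le_self_pow₀ X.E1 (by norm_num)) (mul_nonneg a.le x0)).trans
      (h t a b)
  have m0 : 0 < mf (Su E S M Y D u) t := X.mf_pos a.le
  have k : ∀ {B : ℝ}, E ^ 2200 * (E * x) ≤ B →
      B ≤ max (E ^ 2199 * Tt E Y ^ 2) (E ^ 2200 * (Tt E Y * mf (Su E S M Y D u) t)) →
      E * x ≤ max (Tt E Y ^ 2 / E) (Tt E Y * mf (Su E S M Y D u) t) := fun g1 g2 => by
    refine le_of_mul_le_mul_left ((g1.trans g2).trans_eq ?_) (pow_pos E0 2200)
    have e : E ^ 2200 * (Tt E Y ^ 2 / E) = E ^ 2199 * Tt E Y ^ 2 := by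
      rw [pow_succ E 2199, mul_assoc, mul_div_cancel₀ _ E0.ne']
    rw [mul_max_of_nonneg _ _ (pow_pos E0 2200).le, e]
  rcases b with b | b
  · have p := X.min_ge b
    have p0 : 0 < min t 1 := lt_min a one_pos
    rw [div_le_iff₀ (pow_pos E0 _)] at p
    refine k (le_trans ?_ (h _ p0 (min_le_right _ _))) (max_le_max ?_ ?_)
    · calc _ = E ^ 2201 * 1 * x := by ring
        _ ≤ E ^ 2639 * (min t 1 * E ^ 361) * x := by gcongr <;> first | exact X.E1 | norm_num
        _ = _ := by ring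
    · rw [div_le_iff₀ p0]
      calc _ = 1 * Tt E Y ^ 2 := (one_mul _).symm
        _ ≤ min t 1 * E ^ 2199 * Tt E Y ^ 2 := by
          gcongr
          exact p.trans (mul_le_mul_of_nonneg_left (Ep (by norm_num)) p0.le)
        _ = _ := by ring
    · refine le_trans (mul_le_mul_of_nonneg_left ?_ T0.le)
        (le_mul_of_one_le_left (mul_pos T0 m0).le (one_le_pow₀ X.E1))
      exact div_le_div_of_nonneg_right (add_le_add (X.cl.msm (min_le_left _ _)) le_rfl)
        (pow_pos E0 9).le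
  · refine k (le_trans ?_ (h 1 one_pos le_rfl)) (max_le_max ?_ ?_)
    · calc _ = E ^ 2201 * x := by ring
        _ ≤ E ^ 3000 * x := mul_le_mul_of_nonneg_right (Ep (by norm_num)) x0
        _ = _ := by rw [one_mul]
    · rw [div_one]
      exact le_mul_of_one_le_left (sq_nonneg _) (one_le_pow₀ X.E1)
    · rw [mul_left_comm]
      refine mul_le_mul_of_nonneg_left ?_ T0.le
      rw [X.mf_eq, X.mf_eq, ← mul_div_assoc]
      refine div_le_div_of_nonneg_right (X.θu_le.trans ?_) (pow_pos E0 9).le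
      have u0 := X.u_pos
      have p1 : 2 ≤ E ^ 40 := le_trans (by linarith [X.cx.E3]) (le_self_pow₀ X.E1 (by norm_num))
      calc (2 : ℝ) = 2 * 1 := (mul_one _).symm
        _ ≤ E ^ 40 * ((E ^ 360) ^ 6 * (S.ms t + u)) := by
          gcongr
          exact b.trans (mul_le_mul_of_nonneg_left (le_add_of_nonneg_left (X.cl.ms_pos a.le).le)
            (by positivity))
        _ = _ := by rw [← pow_mul, ← mul_assoc, ← pow_add]

theorem bud_T2 (hx : 0 < x) (h : logb S.n x ≤ 2 * logb S.n (Tt E Y) - 3000 * logb S.n E) :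
    Bud E S M Y D u (1 / E) x := X.bud_unif fun t a b => by
  have := X.E0; have := X.T0
  refine le_max_of_le_left (X.le_of_lg (by positivity) (by positivity) ?_)
  have c := X.lg_mono a b
  rw [logb_one] at c
  lg_norm
  linarith

/-- the interpolated level -/
theorem bud_43 (hx : 0 < x) (h : logb S.n x ≤ 4 / 3 * logb S.n (Tt E Y) +
    2 / 3 * logb S.n (S.θ + u) - 3010 * logb S.n E) : Bud E S M Y D u (1 / E) x :=
  X.bud_unif fun t a b => by
  have E0 := X.E0; have := X.T0; have u0 := X.u_pos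
  have m0 : 0 < mf (Su E S M Y D u) t := X.mf_pos a.le
  have θ0 := X.cl.θ0
  have p1 : t ^ 2 * (S.θ + u) ≤ E ^ 10 * mf (Su E S M Y D u) t := by
    have q := X.cl.ms_mul a.le ((one_le_div a).2 b)
    rw [one_div_mul_cancel a.ne'] at q
    have q1 : t ^ 2 * S.θ ≤ 4 * S.ms t :=
      (mul_le_mul_of_nonneg_left q (sq_nonneg t)).trans_eq (by field_simp)
    have q2 := mul_le_of_le_one_left u0.le (pow_le_one₀ (n := 2) a.le b)
    have e : E ^ 10 * mf (Su E S M Y D u) t = E * (S.ms t + u) := by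
      rw [X.mf_eq]
      field_simp
    rw [e]
    linarith [mul_le_mul_of_nonneg_right (show 4 ≤ E by linarith [X.cx.E3])
      (add_pos (X.cl.ms_pos a.le) u0).le]
  have c1 := X.lg_mono (by positivity) p1
  have c2 := X.lg_mono (by positivity) (le_max_left _ _ : _ ≤ En E S M Y D u t)
  have c3 := X.lg_mono (by positivity) (le_max_right _ _ : _ ≤ En E S M Y D u t)
  rw [logb_mul (by positivity) (by positivity)] at c1
  refine X.le_of_lg (by positivity) (X.En0 a) ?_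
  rw [En]
  generalize logb S.n (S.θ + u) = z at *
  revert c1 c2 c3
  lg_norm
  intro c1 c2 c3
  linarith [X.lg_E.1]

/-- the mass form -/
theorem bud_ms (h : ∀ t, 0 < t → t ≤ 1 → t * x ≤ E ^ 10 ^ 7 * (Yd KK E Y * (S.ms t + u))) :
    Bud E S M Y D u (1 / E) x := X.bud_unif fun t a b => by
  have E0 := X.E0; have := X.T0; have := X.Yd0
  have m := add_pos (X.cl.ms_pos a.le) X.u_pos
  refine le_max_of_le_right ((mul_le_mul_of_nonneg_left (h t a b) (by positivity)).trans ?_)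
  rw [X.mf_eq]
  generalize S.ms t + u = z at *
  refine X.le_of_lg (by positivity) (by positivity) ?_
  lg_norm
  rw [X.lg_Yd, X.lg_T]
  push_cast
  linarith [X.lg_E.1]

/-- the dichotomy at the level `Ys` -/
theorem bud_dich (h1 : x ≤ E ^ 10 ^ 7 * nu S ^ 2)
    (h2 : ∀ t, Ys ≤ t → 0 < t → t ≤ 1 → t * x ≤ E ^ 10 ^ 7 * (S.ms t * Yd KK E Y)) :
    Bud E S M Y D u (1 / E) x := X.bud_ms fun t a b => by
  have E0 := X.E0; have y0 := X.Yd0; have n0 := X.nu0
  generalize hp : E ^ 10 ^ 7 = p at *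
  have p0 : 0 < p := hp ▸ pow_pos E0 _
  rcases le_total Ys t with e | e
  · linarith [h2 t e a b, mul_pos p0 (mul_pos y0 X.u_pos)]
  · have b1 : t * nu S ≤ Yd KK E Y :=
      (mul_le_mul_of_nonneg_right (le_min e b) n0.le).trans X.sx.big.Y2
    have b2 := mul_le_mul b1 (X.nu_u.trans (le_add_of_nonneg_left (X.cl.ms_pos a.le).le)) n0.le y0.le
    linarith [mul_le_mul_of_nonneg_left h1 a.le, mul_le_mul_of_nonneg_left b2 p0.le]

theorem bud_n (hx : 0 < x) (h : logb S.n x ≤ -2 / 3 - 1 / 100 + 10 ^ 7 * logb S.n E) :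
    Bud E S M Y D u (1 / E) x := by
  have E0 := X.E0; have n0 := X.nu0; have N0 := X.N0
  have a : x ≤ E ^ 10 ^ 7 * (nu S ^ 2 / (S.n : ℝ) ^ ((1 : ℝ) / 100)) :=
    X.le_of_lg hx (by positivity) (by
      lg_norm
      rw [X.lg_nu, X.lg_n]
      linarith)
  refine X.bud_dich (a.trans (mul_le_mul_of_nonneg_left (div_le_self (sq_nonneg _)
    (one_le_rpow X.N1.le (by norm_num))) (pow_pos E0 _).le)) fun t e a0 b => ?_
  refine (mul_le_mul_of_nonneg_left a a0.le).trans ?_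
  rw [mul_left_comm, ← mul_div_assoc]
  exact mul_le_mul_of_nonneg_left (X.sx.g6 t e (b.trans X.cl.C1)) (pow_pos E0 _).le

theorem pw_le {i j : ℕ} (h : i + j ≤ 10 ^ 7) {z w : ℝ} (hw : 0 ≤ w) (hz : z ≤ E ^ j * w) :
    E ^ i * z ≤ E ^ 10 ^ 7 * w := by
  refine (mul_le_mul_of_nonneg_left hz (pow_pos X.E0 i).le).trans ?_
  rw [← mul_assoc, ← pow_add]
  exact mul_le_mul_of_nonneg_right (pow_le_pow_right₀ X.E1 h) hw

theorem bud_g2 (h : x ≤ E ^ 10 ^ 6 * (S.g2 / S.θ)) : Bud E S M Y D u (1 / E) x := by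
  have θ0 := X.cl.θ0
  refine X.bud_dich (h.trans (X.pw_le (j := KK) (by norm_num [KK]) (sq_nonneg _) ?_))
    fun t e a b => (mul_le_mul_of_nonneg_left h a.le).trans ?_
  · rw [div_le_iff₀ θ0]
    linarith [X.sx.g5]
  · rw [mul_left_comm]
    refine X.pw_le (j := KK) (by norm_num [KK]) (mul_pos (X.cl.ms_pos a.le) X.Yd0).le ?_
    rw [← mul_div_assoc, div_le_iff₀ θ0]
    linarith [X.sx.g3 t e (b.trans X.cl.C1)]

theorem bud_u0 (h : x ≤ E ^ 10 ^ 6 * (S.θ * S.u0 ^ 3)) : Bud E S M Y D u (1 / E) x := by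
  refine X.bud_dich (h.trans (X.pw_le (j := 2 * KK) (by norm_num [KK]) (sq_nonneg _) X.sx.u3.1))
    fun t e a b => (mul_le_mul_of_nonneg_left h a.le).trans ?_
  rw [mul_left_comm]
  exact X.pw_le (j := 2 * KK) (by norm_num [KK]) (mul_pos (X.cl.ms_pos a.le) X.Yd0).le
    (X.sx.u3.2 t e (b.trans X.cl.C1))

/-- below `T u / E¹⁰` -/
theorem bud_Tmu (hx : 0 < x) (h : logb S.n x ≤ logb S.n (Tt E Y) + logb S.n (mu0 E u) - logb S.n E) :
    Bud E S M Y D u (1 / E) x := X.bud_Xi (X.le_of_lg (mul_pos X.E0 hx) X.Xi0 (by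
  rw [logb_mul X.E0.ne' hx.ne']
  linarith [X.lg_Xi.1]))

/-- below `T Z²⁹ n^{-1/3} / E` -/
theorem bud_Tnu (hx : 0 < x) (h : logb S.n x ≤ logb S.n (Tt E Y) + 289999 * logb S.n E - 1 / 3) :
    Bud E S M Y D u (1 / E) x := X.bud_Xi (X.le_of_lg (mul_pos X.E0 hx) X.Xi0 (by
  rw [logb_mul X.E0.ne' hx.ne']
  linarith [X.lg_Xi.2]))

/-- the root level -/
theorem bud_jl (h : x ≤ B7 E S M) : Bud E S M Y D u (1 / E) x := Bud.of_le (X.bud_unif fun t a b => by
  have E0 := X.E0; have := X.T0; have := X.Yd0; have := X.sj0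
  have m := X.cl.ms_pos a.le
  have c := X.lg_mono a b
  rw [logb_one] at c
  rw [B7]
  rcases X.dich a with ⟨-, g⟩ | ⟨-, g⟩
  · refine le_max_of_le_right (le_trans (X.le_of_lg (by positivity) (by positivity) ?_)
      (mul_le_mul_of_nonneg_left (X.ms_le t) X.T0.le))
    have g := X.lg_mono (by positivity) g
    revert g
    lg_norm
    rw [X.lg_Yd, X.lg_T]
    push_cast
    intro g
    linarith [X.lg_E.1]
  · rw [min_eq_left b] at g
    refine le_max_of_le_left (X.le_of_lg (by positivity) (by positivity) ?_)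
    have g := X.lg_mono (by positivity) g
    revert g
    lg_norm
    rw [X.lg_Yd, X.lg_T]
    push_cast
    intro g
    linarith [X.lg_E.1]) h

/-- below `Bd / E` -/
theorem bud_Bd (h : E * x ≤ Bd E S M Y u) : Bud E S M Y D u (1 / E) x := by
  have E0 := X.E0; have N0 := X.N0
  have k : ∀ {B : ℝ}, 0 ≤ B → E * x ≤ B → x ≤ B := fun {B} b g => by
    rcases le_total x 0 with e | e
    · exact e.trans b
    · exact (le_mul_of_one_le_left e X.E1).trans g
  rcases le_max_iff.1 h with g | g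
  · exact X.bud_Xi g
  rcases le_max_iff.1 g with g | g
  · have b : 0 < B4 E S := by unfold B4; positivity
    refine (X.bud_n b ?_).of_le (k b.le g)
    rw [B4, logb_mul (by positivity) (by positivity), logb_pow, X.lg_rp]
    push_cast
    linarith
  · exact X.bud_jl (k (by have := X.sj0; unfold B7; positivity) g)

theorem bud_Bd' (hx : 0 < x) (h : logb S.n x ≤ logb S.n (Bd E S M Y u) - logb S.n E) :
    Bud E S M Y D u (1 / E) x := X.bud_Bd (X.le_of_lg (mul_pos X.E0 hx) X.Bd0 (by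
  rw [logb_mul X.E0.ne' hx.ne']
  linarith))

end Tx

end Crest.Agent.T156.Alt.Tm92

end
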