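import Crest.Agent.T156.TermF_92
import Crest.Agent.T156.TermM_15
import Crest.Agent.T156.TermR_19
import Crest.Agent.T156.TermCD_28
import Crest.Agent.T156.TermTD_46
import Crest.Agent.T156.TermU_71

/-!
# Row 156, SR, terminal statement: the assembly of the numbers (helper92)
-/

set_option autoImplicit false
set_option linter.unusedSectionVars false

noncomputable section

namespace Crest.Agent.T156.Alt.Tm92

open Real Finset Filter Pre29 Sr L69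

/-- the two locations -/
def Vt1 (E : ℝ) (S : Sc) (Y u : ℝ) : ℝ := min 1 (Tt46.Vt E S Y u)
def V21 (E : ℝ) (S : Sc) (Y u : ℝ) : ℝ := min 1 (Tt46.V2 E S Y u)

/-- the corner fields of `LP` -/
structure Cn (E : ℝ) (S : Sc) (Xp Lg X2 X3 G0 j Lc ηc τ : ℝ) : Prop where
  tw : S.w3 1 ≤ τ ^ 3
  Lc1 : Lg ≤ Lc ∧ Lc ≤ S.n
  ηc1 : ∀ u, u = Lc ^ ((2 : ℝ) / 3) * S.w3 1 ^ ((1 : ℝ) / 3) →
    u ^ 3 + u ^ 2 * (S.θ + j + Xp ^ ((1 : ℝ) / 3)) +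
    (√(Lc * gg S 1) + G0 + X2) * (u + √X2) + X3 + 1 / S.n ≤ ηc ∧ E * u ^ 2 ≤ mf S 1
  τ0 : Xp ^ ((1 : ℝ) / 3) / Lc + ηc / mf S 1 ≤ τ
  τ1 : τ ≤ Xp ^ ((1 : ℝ) / 3)
  j1 : E * (j + τ) ≤ 1

/-- prefix: context and cuts -/
def AllZ (P : ∀ (E : ℝ) (S : Sc) (M : Md) (l lm Ys Y : ℝ) (c : ℕ → ℝ) (D u : ℝ) (F : ℕ → ℝ),
    Tm71.Tx KK E S M l lm Ys Y c D u F → ℝ → ℝ → Prop) : Prop :=
  ∀ E S M l lm Ys Y c D u F (Z : Tm71.Tx KK E S M l lm Ys Y c D u F) r1 r2,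
    Tp KK E S M lm Y r1 r2 → P E S M l lm Ys Y c D u F Z r1 r2

/-- **passes of `TLt`** (46) -/
def HVt : Prop := AllZ fun E S _ _ _ _ Y _ _ u _ Z r1 r2 => ∀ m a, S.In m a →
  Tt46.TtAt (E ^ 360) E Z.S' Z.N m a → Z.N.Phi S m a ≤ 2 * (E ^ 100 * Y) →
  (∀ k, S.J ≤ k → k ≤ S.Jp → 8 * r1 ≤ du Z.N k → Z.N.del m a k ≤ Tt46.Vt E S Y u) ∧
    Ap2 Z.S' Z.N m a (Tt46.V2 E S Y u) (8 * r1) (2 * r2)

/-- **corner** (28) -/
def HCn : Prop := AllZ fun E S M _ _ _ Y _ D u _ Z _ _ =>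
  Cn (E ^ 360) Z.S' (Xx E Y) (Zz E) (X2 E S M Y u) (X3n E S M Y u) (G0 E S M Y u)
    (Tc28.jj E S M Y u) (Tc28.Lc E S Y u) (Tc28.ec E S M Y D u (M15.et E S M Y D u 1))
    (Tc28.tc E S M Y D u (M15.et E S M Y D u 1))

/-- **costs** (28, 71) -/
def HLC : Prop := AllZ fun E S M _ _ _ Y _ D u _ Z r1 r2 =>
  LC (E ^ 360) Z.S' Z.N (Xx E Y) (Vt1 E S Y u) (V21 E S Y u) (Zz E) (Zz E ^ 3) (X2 E S M Y u)
    (G0 E S M Y u) Z.G1 (8 * r1) (2 * r2) (Tc28.jj E S M Y u) (nu S)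
    (Tc28.ec E S M Y D u (M15.et E S M Y D u 1)) (Tc28.tc E S M Y D u (M15.et E S M Y D u 1))
    (M15.et E S M Y D u) (Tc28.Nc E S M Y u + Z.GN)

/-- **budget of the costs** (28, 71) -/
def HBud : Prop := AllZ fun E S M _ _ _ Y _ D u _ _ _ _ =>
  Bud E S M Y D u (100 / E) (Tc28.Nc E S M Y u)

/-- **sizes of the plateau** (72, 19) -/
def HLP : Prop := AllZ fun E S M _ _ _ Y _ _ u _ Z r1 r2 => ∀ j Lc ηc τ η,
  Cn (E ^ 360) Z.S' (Xx E Y) (Zz E) (X2 E S M Y u) (X3n E S M Y u) (G0 E S M Y u) j Lc ηc τ →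
  ∃ N', LP (E ^ 360) Z.S' Z.N (Xx E Y) (Vt1 E S Y u) (Zz E) (Zz E ^ 3) (X2 E S M Y u)
    (X3n E S M Y u) (G0 E S M Y u) Z.G1 (8 * r1) (2 * r2) j (nu S) Lc ηc τ η N'

section

variable {E : ℝ} {S : Sc} {M : Md} {l lm Ys Y : ℝ} {c : ℕ → ℝ} {D u : ℝ} {F : ℕ → ℝ}
  (Z : Tm71.Tx KK E S M l lm Ys Y c D u F)
include Z

theorem bk : Bk E S M Z.N Y D u (M15.X4 E S M Y u) (M15.et E S M Y D u) :=
  ⟨M15.lnN (tx Z) Z.cl' rfl (hJ Z), M15.l4N (tx Z) Z.cl' rfl (hJ Z), M15.X40 (tx Z),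
    M15.X4_le (tx Z), M15.costN (tx Z) Z.cl' rfl (hJ Z)⟩

theorem ncl {Nc : ℝ} (h : Bud E S M Y D u (100 / E) Nc) : NcL E S M Y D u Nc := by
  have X := tx Z
  obtain ⟨a, b⟩ := X.bud_out h le_rfl
  exact ⟨fun t p q => a t ((rpow_pos_of_pos X.T0 _).trans_le p) q,
    fun t p q => b t (X.l0.trans_le p) q⟩

theorem Yd_X : Yd KK E Y ≤ Xx E Y := by
  have X := tx Z
  refine X.le_of_lg X.Yd0 X.X0 ?_
  linarith [X.lg_Yd, X.lg_X.1, X.lg_E.1]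

theorem r_pos {r1 r2 : ℝ} (T : Tp KK E S M lm Y r1 r2) : 0 < r1 := by
  have X := tx Z
  have a := (rpow_pos_of_pos X.N0 _).trans_le T.a1
  have b : 0 < (S.n : ℝ) * max S.θ (nu S) := mul_pos X.N0 (X.nu0.trans_le (le_max_right _ _))
  by_contra hc
  nlinarith [not_lt.1 hc]

end

/-- **the numbers of `Term`** -/
theorem num_of (h0 : TLt) (hV : HVt) (hC : HCn) (hL : HLC) (hB : HBud) (hP : HLP) :
    Tm71.Num KK 360 := by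
  refine (Tm71.onTx KK (Tt46.tlt_iff.1 h0) (i := 360) (by norm_num)).mono ?_
  intro E Λ S M m a _ _ H I h l lm Ys Y c D u F Z _ hX
  obtain ⟨r1, r2, T⟩ := Z.sx.top
  have X := tx Z
  have B := bk Z
  have r0 := r_pos Z T
  have m0 : 0 < m := H.n1.trans I.m1
  obtain ⟨v1, v2⟩ := hV _ _ _ _ _ _ _ _ _ _ _ Z r1 r2 T m a I (h _ _ _ _ _ _ _ _ Z) hX
  obtain ⟨N', lp⟩ := hP _ _ _ _ _ _ _ _ _ _ _ Z r1 r2 T _ _ _ _ (M15.et E S M Y D u)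
    (hC _ _ _ _ _ _ _ _ _ _ _ Z r1 r2 T)
  refine ⟨_, _, _, _, _, _, _, _, _, _, _, _, _, _, _, _, _, _, _, N', _, _, B.ln, B.l4 _, lp,
    hL _ _ _ _ _ _ _ _ _ _ _ Z r1 r2 T,
    ap_N Z hX (fun k p q r => le_min (Tm71.del_le_one m0 k) (v1 k p q r))
      (Z.jn T (Yd_X Z) (by linarith)),
    fun k p q r s => le_min (Tm71.del_le_one m0 k) (v2 k p q r s), le_rfl,
    hn_of Z B (ncl Z (hB _ _ _ _ _ _ _ _ _ _ _ Z r1 r2 T)) ?_⟩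
  have := Z.Yd_T (x := 2) ((show (2 : ℝ) ≤ E by linarith [Z.X.E3]).trans
    (Z.E_Q.trans (le_self_pow₀ Z.Q1 (by norm_num))))
  exact (mul_le_mul_of_nonneg_left T.a4 zero_le_two).trans this

/-- **`TermS2`** from the block (L) and the numbers -/
theorem termS2_of (h0 : TLt) (h1 : TL1x) (h2 : TL1cx) (hV : HVt) (hC : HCn) (hL : HLC)
    (hB : HBud) (hP : HLP) : TermS2 :=
  ⟨KK, by norm_num [KK], Tm71.term_of le_rfl (by norm_num [KK]) h1 h2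
    (num_of h0 hV hC hL hB hP)⟩

end Crest.Agent.T156.Alt.Tm92

end
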