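import Crest.Agent.T156.TermQ_72
import Crest.Agent.T156.TermG_92

/-!
# Row 156, SR, terminal statement: `HLP` (helper72)
-/

set_option autoImplicit false

noncomputable section

namespace Crest.Agent.T156.Alt.Tm92

open Real

theorem hLP : HLP := fun _ _ _ _ _ _ _ _ _ _ _ Z _ _ T _ _ _ _ η C =>
  Tp72.lpZ Z T (le_min zero_le_one ((Tt46.V2_pos (tx Z)).le.trans (Tt46.V2_le (tx Z))))
    ((min_le_right _ _).trans (Tp72.vt_le (tx Z))) Z.sx.fl2 le_rfl η C.tw C.Lc1 C.ηc1 C.τ0 C.τ1 C.j1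

end Crest.Agent.T156.Alt.Tm92

end
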