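import Crest.Agent.T156.PlS_64

/-!
# Row 156, SR, terminal statement: the sizes of the plateau, class level (helper72)
-/

set_option autoImplicit false
set_option linter.unusedSectionVars false

noncomputable section

namespace Crest.Agent.T156.Alt.Tp72

open Real Finset L69 Ps64

theorem rp32 {R : ℝ} (h : 0 ≤ R) : R ^ (((2 : ℕ) : ℝ) - 1 / 2) = √(R ^ 3) := by
  rw [sqrt_eq_rpow, ← rpow_natCast, ← rpow_mul h]
  norm_num

theorem rp52 {R : ℝ} (h : 0 ≤ R) : R ^ (((3 : ℕ) : ℝ) - 1 / 2) = √(R ^ 5) := by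
  rw [sqrt_eq_rpow, ← rpow_natCast, ← rpow_mul h]
  norm_num

theorem cube_add {a b c : ℝ} (ha : 0 ≤ a) (hb : 0 ≤ b) (hc : 0 ≤ c) :
    (a + b + c) ^ 3 ≤ 9 * (a ^ 3 + b ^ 3 + c ^ 3) := by
  nlinarith [mul_nonneg ha (sq_nonneg (a - b)), mul_nonneg hb (sq_nonneg (a - b)),
    mul_nonneg ha (sq_nonneg (a - c)), mul_nonneg hc (sq_nonneg (a - c)),
    mul_nonneg hb (sq_nonneg (b - c)), mul_nonneg hc (sq_nonneg (b - c)),
    mul_nonneg ha (sq_nonneg (b - c)), mul_nonneg hb (sq_nonneg (a - c)),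
    mul_nonneg hc (sq_nonneg (a - b))]

theorem Lp_pow {L : ℝ} (hL : 0 < L) (p : ℕ) : ((L ^ 3) ^ ((2 : ℝ) / 3)) ^ p = L ^ (2 * p) := by
  rw [← rpow_natCast L 3, ← rpow_mul hL.le, pow_mul, ← rpow_natCast L 2]
  norm_num

/-- the two parts of the rise -/
def R1 (S : Sc) (M : Md) (Xp : ℝ) (k : ℕ) : ℝ :=
  √(Xp / max (dl M S k - S.u0) (Xp ^ ((1 : ℝ) / 3)))
def R2 (M : Md) (Xp Vt : ℝ) (k : ℕ) : ℝ := min Vt (√(Xp / du M k))

theorem Rp_eq (S : Sc) (M : Md) (Xp Vt γ : ℝ) (k : ℕ) :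
    Rp M S Xp Vt γ k = R1 S M Xp k + R2 M Xp Vt k + γ := rfl

/-- small data of the plateau -/
structure PX (S : Sc) (Xp Vt Vm γ w : ℝ) : Prop where
  u0 : S.u0 ≤ Xp ^ ((1 : ℝ) / 3)
  x1 : 2 * S.C * Xp ^ ((1 : ℝ) / 3) ≤ 1
  γ0 : 0 ≤ γ
  γ1 : γ ≤ √Xp
  V0 : 0 ≤ Vt
  V1 : Vt ≤ Vm
  V2 : 1 ≤ Vm
  hw : S.w3 1 ≤ w

section cls

variable {S : Sc} {M : Md} {h u1 Xp D lm dm Λ Vt Vm γ w : ℝ} (P : PD S M h u1 Xp D lm dm Λ)
  (H : PX S Xp Vt Vm γ w) {k : ℕ}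
include P H

theorem x0 : 0 < Xp ^ ((1 : ℝ) / 3) := rpow_pos_of_pos P.X0 _
theorem x1 : Xp ^ ((1 : ℝ) / 3) ≤ 1 := by nlinarith [H.x1, P.cl.C1, x0 P H]
theorem y0 : 0 < √Xp := sqrt_pos.2 P.X0
theorem y_x : √Xp ≤ Xp ^ ((1 : ℝ) / 3) := by
  have a := x0 P H
  refine sqrt_le_iff.2 ⟨a.le, ?_⟩
  nth_rewrite 1 [← cube3 P.X0.le]
  exact pow_le_pow_of_le_one a.le (x1 P H) (by norm_num)
theorem x_y : (Xp ^ ((1 : ℝ) / 3)) ^ 2 ≤ √Xp := by
  have a := x0 P H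
  refine le_sqrt_of_sq_le ?_
  nth_rewrite 2 [← cube3 P.X0.le]
  rw [← pow_mul]
  exact pow_le_pow_of_le_one a.le (x1 P H) (by norm_num)
theorem w0' : 0 < w := P.w0.trans_le H.hw
theorem du1 (k : ℕ) : du M k ≤ 1 := by rw [du]; linarith [P.cl.z_pos (k - 1)]
theorem ds1 (k : ℕ) : ds M S k ≤ 1 := (min_le_right _ _).trans (du1 P H k)

theorem R1_x (k : ℕ) : R1 S M Xp k ≤ Xp ^ ((1 : ℝ) / 3) := by
  have p0 := x0 P H
  have p3 := cube3 P.X0.le
  refine sqrt_le_iff.2 ⟨p0.le, (div_le_div_of_nonneg_left P.X0.le p0 (le_max_right _ _)).trans ?_⟩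
  rw [div_le_iff₀ p0]
  nlinarith

theorem R1_sq (hk : k ∈ nd S M u1) : R1 S M Xp k ^ 2 ≤ 2 * Xp / ds M S k := by
  have p0 := x0 P H
  have s0 := P.ds0 hk
  have X0 := P.X0
  have c1 := le_max_left (dl M S k - S.u0) (Xp ^ ((1 : ℝ) / 3))
  have c2 := le_max_right (dl M S k - S.u0) (Xp ^ ((1 : ℝ) / 3))
  have c3 : ds M S k ≤ dl M S k := min_le_left _ _
  rw [R1, sq_sqrt (by positivity), div_le_div_iff₀ (by positivity) s0]
  nlinarith [H.u0]

theorem R20 (k : ℕ) : 0 ≤ R2 M Xp Vt k := le_min H.V0 (sqrt_nonneg _)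

theorem R2_le (hk : k ∈ nd S M u1) : R2 M Xp Vt k ≤ √Xp / √(ds M S k) := by
  rw [← sqrt_div P.X0.le]
  exact (min_le_right _ _).trans
    (sqrt_le_sqrt (div_le_div_of_nonneg_left P.X0.le (P.ds0 hk) (min_le_right _ _)))

theorem R2_sq (hk : k ∈ nd S M u1) : R2 M Xp Vt k ^ 2 ≤ Xp / ds M S k := by
  have a := pow_le_pow_left₀ (R20 P H k) (R2_le P H hk) 2
  rwa [div_pow, sq_sqrt P.X0.le, sq_sqrt (P.ds0 hk).le] at a

/-- the synchronisation part -/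
theorem a0_le' (hk : k ∈ nd S M u1) : a0 S M Xp Vt γ k ≤
    w * S.den (M.z (k - 1)) + 16 * Vm * (w / lm) * √Xp / √(ds M S k) ^ 3 := by
  have d0 := P.cl.den0 (M.z (k - 1))
  have s0 := P.ds0 hk
  have l0 := P.lm0
  have r0 := sqrt_pos.2 s0
  have r1 : √(ds M S k) ≤ 1 := sqrt_le_one.2 (ds1 P H k)
  have y0 := y0 P H
  have w0 := w0' P H
  have V0 : 0 < Vm := one_pos.trans_le H.V2
  have a : √Xp ≤ Vm * (√Xp / √(ds M S k)) :=
    (le_div_self y0.le r0 r1).trans (le_mul_of_one_le_left (by positivity) H.V2)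
  have b1 := pow_le_pow_left₀ (sqrt_nonneg _) (R1_x P H k) 2
  have b2 : R2 M Xp Vt k ^ 2 ≤ Vm * (√Xp / √(ds M S k)) := by
    rw [sq]
    exact mul_le_mul ((min_le_left _ _).trans H.V1) (R2_le P H hk) (R20 P H k) V0.le
  have b3 := pow_le_pow_left₀ H.γ0 (H.γ1.trans (y_x P H)) 2
  have b : (Rp M S Xp Vt γ k + Xp ^ ((1 : ℝ) / 3)) ^ 2 ≤ 16 * (Vm * (√Xp / √(ds M S k))) := by
    have c1 := x_y P H
    rw [Rp_eq]
    change R1 S M Xp k ^ 2 ≤ _ at b1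
    generalize R1 S M Xp k = p at *
    generalize R2 M Xp Vt k = q at *
    generalize Xp ^ ((1 : ℝ) / 3) = x at *
    nlinarith [sq_nonneg (p - q), sq_nonneg (p - γ), sq_nonneg (p - x), sq_nonneg (q - γ),
      sq_nonneg (q - x), sq_nonneg (γ - x)]
  have e : √(ds M S k) ^ 3 = √(ds M S k) * ds M S k := by rw [pow_succ', sq_sqrt s0.le]
  calc _ ≤ w * (S.den (M.z (k - 1)) + 16 * (Vm * (√Xp / √(ds M S k))) / (ds M S k * lm)) :=
        mul_le_mul H.hw (add_le_add le_rfl (div_le_div₀ (by positivity) b (by positivity)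
          (by nlinarith [mul_le_mul_of_nonneg_left (P.lm1 k hk) s0.le]))) (by positivity) w0.le
    _ = _ := by rw [e]; field_simp

theorem ap_sq {s q : ℝ} (hs : 0 < s) (hq : 0 ≤ q) (hq3 : 16 * Vm * (w / lm) * √Xp ≤ q ^ 3)
    (hk : k ∈ nd S M u1) : ap M S Xp Vt γ k ^ 2 ≤ 4 * (2 / (3 * s) * (w * S.den (M.z (k - 1))) +
      s ^ 2 / 3 + q ^ 2 / ds M S k + aB S M k ^ 2 + w / lm) := by
  have d0 := P.cl.den0 (M.z (k - 1))
  have s0 := P.ds0 hk
  have l0 := P.lm0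
  have r0 := sqrt_pos.2 s0
  have w0 := w0' P H
  have a1 := third_nn (w * S.den (M.z (k - 1)))
  have a2 := young a1 hs
  have a3 := cube3 (show 0 ≤ w * S.den (M.z (k - 1)) by positivity)
  rw [a3] at a2
  have q0 : 0 ≤ q / √(ds M S k) := by positivity
  have a4 : a0 S M Xp Vt γ k ^ ((1 : ℝ) / 3) ≤
      (w * S.den (M.z (k - 1))) ^ ((1 : ℝ) / 3) + q / √(ds M S k) := by
    refine le_of_pow_le_pow_left₀ three_ne_zero (by positivity) ?_
    rw [cube3 (P.a00 k)]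
    refine ((a0_le' P H hk).trans ?_).trans (pow_add_pow_le a1 q0 three_ne_zero)
    rw [a3, div_pow]
    gcongr
  have a5 : (q / √(ds M S k)) ^ 2 = q ^ 2 / ds M S k := by rw [div_pow, sq_sqrt s0.le]
  have a6 := pow_le_pow_left₀ (sqrt_nonneg _) (P.aC_le H.hw hk) 2
  rw [sq_sqrt (show 0 ≤ w / lm by positivity)] at a6
  have a7 := pow_le_pow_left₀ (P.ap0 (Vt := Vt) (γ := γ) k) (show ap M S Xp Vt γ k ≤
    (w * S.den (M.z (k - 1))) ^ ((1 : ℝ) / 3) + q / √(ds M S k) + aB S M k +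
      √(S.w3 1 / lsh M S k) by rw [ap_eq0]; linarith) 2
  generalize (w * S.den (M.z (k - 1))) ^ ((1 : ℝ) / 3) = a at *
  generalize q / √(ds M S k) = b at *
  generalize aB S M k = c at *
  generalize √(S.w3 1 / lsh M S k) = d at *
  nlinarith [sq_nonneg (a - b), sq_nonneg (a - c), sq_nonneg (a - d), sq_nonneg (b - c),
    sq_nonneg (b - d), sq_nonneg (c - d)]

theorem sum_ap2' {s q : ℝ} (hs : 0 < s) (hs3 : w * D ≤ s ^ 3) (hq : 0 ≤ q)
    (hq3 : 16 * Vm * (w / lm) * √Xp ≤ q ^ 3) : ∑ k ∈ nd S M u1, dx M k * ap M S Xp Vt γ k ^ 2 ≤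
      4 * (s ^ 2 + q ^ 2 * Λ + w / dm * (w / lm * Λ) + w / lm) := by
  have w0 := w0' P H
  have l0 := P.lm0
  calc _ ≤ ∑ k ∈ nd S M u1, 4 * (2 * w / (3 * s) * (dx M k * S.den (M.z (k - 1))) +
          (s ^ 2 / 3 + w / lm) * dx M k + q ^ 2 * (dx M k / ds M S k) +
          dx M k * aB S M k ^ (1 + 1)) := sum_le_sum fun k hk =>
        (mul_le_mul_of_nonneg_left (ap_sq P H hs hq hq3 hk) (P.dx0 k)).trans_eq (by ring)
    _ ≤ _ := by
        rw [← mul_sum, sum_add_distrib, sum_add_distrib, sum_add_distrib, ← mul_sum, ← mul_sum,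
          ← mul_sum]
        have c1 := mul_le_mul_of_nonneg_left P.sum_den (by positivity : 0 ≤ 2 * w / (3 * s))
        have c2 := mul_le_mul_of_nonneg_left P.sum_one (by positivity : 0 ≤ s ^ 2 / 3 + w / lm)
        have c3 := mul_le_mul_of_nonneg_left P.sum_ds (sq_nonneg q)
        have c4 := P.sum_aB H.hw 1
        have c5 : 2 * w / (3 * s) * D ≤ 2 * s ^ 2 / 3 := by
          rw [div_mul_eq_mul_div, div_le_div_iff₀ (by positivity) (by norm_num)]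
          nlinarith
        rw [pow_one] at c4
        linarith

/-- the cake term of `Np 2` -/
theorem cake2 {b : ℝ} (hb : 0 ≤ b) (hb2 : 27 * Vm * (w / lm) * Xp ≤ b ^ 2) (hk : k ∈ nd S M u1) :
    √(aB S M k) * Rp M S Xp Vt γ k ^ (((2 : ℕ) : ℝ) - 1 / 2) ≤ b / ds M S k := by
  have s0 := P.ds0 hk
  have l0 := P.lm0
  have w0 := w0' P H
  have X0 := P.X0
  have R0 := P.Rp0 H.V0 H.γ0 k
  have V0 : 0 < Vm := one_pos.trans_le H.V2
  have a : Xp ≤ Vm * (Xp / ds M S k) :=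
    (le_div_self X0.le s0 (ds1 P H k)).trans (le_mul_of_one_le_left (by positivity) H.V2)
  have b1 := pow_le_pow_left₀ (sqrt_nonneg _) (R1_x P H k) 3
  have b2 : R2 M Xp Vt k ^ 3 ≤ Vm * (Xp / ds M S k) := by
    rw [pow_succ']
    exact mul_le_mul ((min_le_left _ _).trans H.V1) (R2_sq P H hk) (sq_nonneg _) V0.le
  have b3 := pow_le_pow_left₀ H.γ0 (H.γ1.trans (y_x P H)) 3
  rw [cube3 X0.le] at b1 b3
  have c : Rp M S Xp Vt γ k ^ 3 ≤ 27 * (Vm * (Xp / ds M S k)) := by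
    have := cube_add (sqrt_nonneg (Xp / max (dl M S k - S.u0) (Xp ^ ((1 : ℝ) / 3)))) (R20 P H k) H.γ0
    rw [Rp_eq, R1]
    linarith
  rw [rp32 R0, ← sqrt_mul (P.aB0 k)]
  refine sqrt_le_iff.2 ⟨by positivity, ?_⟩
  calc _ ≤ w / lm / ds M S k * (27 * (Vm * (Xp / ds M S k))) :=
        mul_le_mul (P.aB_le H.hw hk).2 c (by positivity) (by positivity)
    _ = 27 * Vm * (w / lm) * Xp / ds M S k ^ 2 := by field_simp
    _ ≤ _ := by rw [div_pow]; gcongr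

/-- **`Np 2`** -/
theorem np2 {s q b L : ℝ} (hs : 0 < s) (hs3 : w * D ≤ s ^ 3) (hq : 0 ≤ q)
    (hq3 : 16 * Vm * (w / lm) * √Xp ≤ q ^ 3) (hb : 0 ≤ b) (hb2 : 27 * Vm * (w / lm) * Xp ≤ b ^ 2)
    (hL : 0 < L) : Np M S Xp Vt γ u1 (L ^ 3) 2 ≤
      u1 + (L ^ 4 * (4 * (s ^ 2 + q ^ 2 * Λ + w / dm * (w / lm * Λ) + w / lm)) +
        min ((9 * Xp * Λ + 3 * γ ^ 2) / L ^ 3) (b * Λ)) := by
  have a1 := mul_le_mul_of_nonneg_left (sum_ap2' P H hs hs3 hq hq3) (pow_pos hL 4).le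
  rw [Np]
  simp only [mul_add, sum_add_distrib, mul_pow, Lp_pow hL]
  refine add_le_add le_rfl (add_le_add ?_ (le_min ?_ ?_))
  · refine le_trans (le_of_eq ?_) (a1.trans_eq (by ring))
    rw [mul_sum]
    exact sum_congr rfl fun k _ => by ring
  · refine le_trans ?_ (div_le_div_of_nonneg_right (P.sum_Rp (γ := γ) H.V0) (pow_pos hL 3).le)
    rw [sum_div]
    exact sum_le_sum fun k _ =>
      (mul_le_mul_of_nonneg_left (min_le_left _ _) (P.dx0 k)).trans_eq (by ring)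
  · refine le_trans ?_ (mul_le_mul_of_nonneg_left P.sum_ds hb)
    rw [mul_sum]
    exact sum_le_sum fun k hk => (mul_le_mul_of_nonneg_left
      ((min_le_right _ _).trans (cake2 P H hb hb2 hk)) (P.dx0 k)).trans_eq (by ring)

/-- a large upper rise lives on an upper shell -/
theorem ds_du (hk : k ∈ nd S M u1) (hR : Xp ^ ((1 : ℝ) / 3) < R2 M Xp Vt k) :
    ds M S k = du M k := by
  refine min_eq_right (le_of_not_gt fun c => ?_)
  have x0 := x0 P H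
  have C0 := P.cl.C0
  have u0 := P.u10.trans_le (P.lt hk).2.2
  have a := P.cl.atom.2
  have b : 1 / S.C ≤ 2 * du M k := by
    simp only [dl, du] at c ⊢
    linarith [P.h0, P.hu0]
  rw [div_le_iff₀ C0] at b
  have e : √(Xp / du M k) ≤ Xp ^ ((1 : ℝ) / 3) := by
    refine sqrt_le_iff.2 ⟨x0.le, ?_⟩
    rw [div_le_iff₀ u0]
    nth_rewrite 1 [← cube3 P.X0.le]
    have f := mul_le_mul b H.x1 (by positivity) (by positivity)
    generalize Xp ^ ((1 : ℝ) / 3) = x at *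
    have g : x ≤ du M k := by nlinarith
    nlinarith
  exact absurd ((min_le_right _ _).trans e) (not_le.2 hR)

/-- the cake term of `Np 3` -/
theorem cake3 {a V Q b : ℝ} (ha : Xp ^ ((1 : ℝ) / 3) ≤ a) (hV : Vt ≤ a + V) (hb : 0 ≤ b)
    (hQ : ∀ k ∈ nd S M u1, S.w3 1 ≤ Q * (S.den (M.z (k - 1)) * (du M k * √(du M k))))
    (hb2 : 32 * V ^ 2 * √Xp ^ 3 * Q ≤ b ^ 2) (hk : k ∈ nd S M u1) :
    √(aB S M k) * Rp M S Xp Vt γ k ^ (((3 : ℕ) : ℝ) - 1 / 2) ≤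
      √(w / lm) * ((Rp M S Xp Vt γ k ^ 2 + 216 * a ^ 3 / ds M S k) / 2) + b / ds M S k := by
  have d0 := P.cl.den0 (M.z (k - 1))
  have s0 := P.ds0 hk
  have l0 := P.lm0
  have w0 := w0' P H
  have x0 := x0 P H
  have y0 := y0 P H
  have a0 := x0.trans_le ha
  have R0 := P.Rp0 H.V0 H.γ0 k
  rw [rp52 R0, ← sqrt_mul (P.aB0 k)]
  rcases le_or_gt (Rp M S Xp Vt γ k) (6 * a) with c | c
  · refine le_add_of_le_of_nonneg (sqrt_le_iff.2 ⟨by positivity, ?_⟩) (by positivity)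
    have c3 : Rp M S Xp Vt γ k ^ 3 / ds M S k ≤ 216 * a ^ 3 / ds M S k :=
      div_le_div_of_nonneg_right ((pow_le_pow_left₀ R0 c 3).trans_eq (by ring)) s0.le
    rw [mul_pow, sq_sqrt (by positivity)]
    calc _ ≤ w / lm / ds M S k * Rp M S Xp Vt γ k ^ 5 :=
          mul_le_mul_of_nonneg_right (P.aB_le H.hw hk).2 (by positivity)
      _ = w / lm * (Rp M S Xp Vt γ k ^ 2 * (Rp M S Xp Vt γ k ^ 3 / ds M S k)) := by field_simp
      _ ≤ w / lm * (Rp M S Xp Vt γ k ^ 2 * (216 * a ^ 3 / ds M S k)) := by gcongr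
      _ ≤ _ := mul_le_mul_of_nonneg_left (by
          nlinarith [sq_nonneg (Rp M S Xp Vt γ k ^ 2 - 216 * a ^ 3 / ds M S k)]) (by positivity)
  · refine le_add_of_nonneg_of_le (by positivity) (sqrt_le_iff.2 ⟨by positivity, ?_⟩)
    have b1 := R1_x P H k
    have b2 := H.γ1.trans (y_x P H)
    have b3 : R2 M Xp Vt k ≤ Vt := min_le_left _ _
    have b4 := R2_le P H hk
    have e0 := Rp_eq S M Xp Vt γ k
    have e := ds_du P H hk (by linarith)
    have c1 : Rp M S Xp Vt γ k ≤ 2 * V := by linarith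
    have c2 : Rp M S Xp Vt γ k ≤ 2 * (√Xp / √(ds M S k)) := by linarith
    have q := hQ k hk
    rw [← e] at q
    have r0 := sqrt_pos.2 s0
    have Q0 : 0 < Q := (pos_iff_pos_of_mul_pos (P.w0.trans_le q)).2 (by positivity)
    have e2 := sq_sqrt s0.le
    calc _ ≤ Q * (S.den (M.z (k - 1)) * (ds M S k * √(ds M S k))) /
          (S.den (M.z (k - 1)) * ds M S k ^ 2) * ((2 * V) ^ 2 * (2 * (√Xp / √(ds M S k))) ^ 3) := by
          rw [aB, show 5 = 2 + 3 from rfl, pow_add]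
          gcongr
      _ = 32 * V ^ 2 * √Xp ^ 3 * Q / ds M S k ^ 2 := by
          generalize √(ds M S k) = r at *
          rw [← e2]
          field_simp
          ring
      _ ≤ _ := by rw [div_pow]; gcongr

/-- **`Np 3`** -/
theorem np3 {a V Q b R L : ℝ} (ha : Xp ^ ((1 : ℝ) / 3) ≤ a) (hV : Vt ≤ a + V) (hb : 0 ≤ b)
    (hQ : ∀ k ∈ nd S M u1, S.w3 1 ≤ Q * (S.den (M.z (k - 1)) * (du M k * √(du M k))))
    (hb2 : 32 * V ^ 2 * √Xp ^ 3 * Q ≤ b ^ 2) (hR : 2 * Xp ^ ((1 : ℝ) / 3) + Vt + γ ≤ R)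
    (hL : 0 < L) : Np M S Xp Vt γ u1 (L ^ 3) 3 ≤
      u1 + (L ^ 6 * (4 * ZA w D R lm Λ + 4 * ((w / dm) ^ 2 * (w / lm * Λ))) +
        (√(w / lm) * ((9 * Xp * Λ + 3 * γ ^ 2 + 216 * a ^ 3 * Λ) / 2) + b * Λ)) := by
  have a1 := mul_le_mul_of_nonneg_left (P.sum_ap3 H.V0 H.γ0 H.hw hR) (pow_pos hL 6).le
  have a0 := (x0 P H).trans_le ha
  rw [Np]
  simp only [mul_add (dx M _), sum_add_distrib, mul_pow, Lp_pow hL]
  refine add_le_add le_rfl (add_le_add ?_ ?_)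
  · refine le_trans (le_of_eq ?_) a1
    rw [mul_sum]
    exact sum_congr rfl fun k _ => by ring
  · calc _ ≤ ∑ k ∈ nd S M u1, (√(w / lm) / 2 * (dx M k * Rp M S Xp Vt γ k ^ 2) +
          (√(w / lm) * (108 * a ^ 3) + b) * (dx M k / ds M S k)) :=
          sum_le_sum fun k hk => (mul_le_mul_of_nonneg_left ((min_le_right _ _).trans
            (cake3 P H ha hV hb hQ hb2 hk)) (P.dx0 k)).trans_eq (by ring)
      _ ≤ _ := by
          rw [sum_add_distrib, ← mul_sum, ← mul_sum]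
          have c1 := mul_le_mul_of_nonneg_left (P.sum_Rp (γ := γ) H.V0)
            (by positivity : 0 ≤ √(w / lm) / 2)
          have c2 := mul_le_mul_of_nonneg_left P.sum_ds
            (by positivity : 0 ≤ √(w / lm) * (108 * a ^ 3) + b)
          linarith

/-- the line `g0p` -/
theorem g0p (hk : k ∈ nd S M u1) :
    S.w3 1 * (Rp M S Xp Vt γ k / S.den (M.z (k - 1)) + ds M S k) ≤ 4 * (w / lm) * √Xp + w := by
  have d0 := P.cl.den0 (M.z (k - 1))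
  have s0 := P.ds0 hk
  have s1 := ds1 P H k
  have l0 := P.lm0
  have w0 := w0' P H
  have y0 := y0 P H
  have X0 := P.X0
  have R0 := P.Rp0 H.V0 H.γ0 k
  have y2 := sq_sqrt X0.le
  have b1 : R1 S M Xp k * ds M S k ≤ 2 * √Xp := by
    refine le_of_pow_le_pow_left₀ two_ne_zero (by positivity) ?_
    have := mul_le_mul_of_nonneg_right (R1_sq P H hk) (sq_nonneg (ds M S k))
    rw [show 2 * Xp / ds M S k * ds M S k ^ 2 = 2 * Xp * ds M S k by field_simp] at this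
    rw [mul_pow, mul_pow, y2]
    nlinarith
  have b2 : R2 M Xp Vt k * ds M S k ≤ √Xp := by
    refine le_of_pow_le_pow_left₀ two_ne_zero (by positivity) ?_
    have := mul_le_mul_of_nonneg_right (R2_sq P H hk) (sq_nonneg (ds M S k))
    rw [show Xp / ds M S k * ds M S k ^ 2 = Xp * ds M S k by field_simp] at this
    rw [mul_pow, y2]
    nlinarith
  have b3 : γ * ds M S k ≤ √Xp := (mul_le_of_le_one_right H.γ0 s1).trans H.γ1
  have b : Rp M S Xp Vt γ k / S.den (M.z (k - 1)) ≤ 4 * √Xp / lm := by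
    rw [← mul_div_mul_right _ _ s0.ne']
    refine div_le_div₀ (by positivity) ?_ l0 (P.lm1 k hk)
    rw [Rp_eq]
    linarith
  exact (mul_le_mul H.hw (add_le_add b s1) (by positivity) w0.le).trans_eq (by ring)

/-- **`Far`** -/
theorem far {K Lp : ℝ} (hK : 0 ≤ K) (hL : K ≤ Lp)
    (fa : ∀ x x', M.z (S.J - 1) ≤ x → x ≤ x' → x' < 1 → S.den x ≤ K * (1 + S.den x'))
    (hw : w ≤ Xp ^ ((1 : ℝ) / 3) * lm ^ 2) : Far M S Xp Vt γ u1 Lp := fun i k a b c d => by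
  have hk : k ∈ nd S M u1 := mem_filter.2 ⟨mem_Icc.2 ⟨a.trans b, c⟩, d⟩
  have d0 := P.cl.den0 (M.z (k - 1))
  have l0 := P.lm0
  have w0 := P.w0
  have x0 := x0 P H
  have l1 : lm ≤ lsh M S k := P.lm1 k hk
  have l2 := l0.trans_le l1
  have u0 := P.u10.trans_le d
  have f := fa (M.z (i - 1)) (M.z (k - 1)) (P.cl.leg.zm (by omega)) (P.cl.leg.zm (by omega))
    (by rw [du] at u0; linarith)
  have g : S.w3 1 ≤ (lsh M S k + Xp ^ ((1 : ℝ) / 3)) * lsh M S k ^ 2 :=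
    (H.hw.trans hw).trans (by gcongr; linarith)
  calc _ ≤ S.w3 1 * (K * (1 + S.den (M.z (k - 1)))) := mul_le_mul_of_nonneg_left f w0.le
    _ = K * (S.w3 1 + S.w3 1 * S.den (M.z (k - 1))) * 1 := by ring
    _ ≤ _ := by
        have := hK.trans hL
        gcongr
        exact one_le_pow₀ (le_max_left _ _)

end cls

end Crest.Agent.T156.Alt.Tp72

end
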