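import Crest.Agent.T156.TermF_92
import Crest.Agent.T156.TermT_46
import Crest.Agent.T156.TermP_72

/-!
Row 156 (helper71): two plateau sums of `Term K`: the cost `c1` and the size `Np 2`.
-/

set_option autoImplicit false
set_option linter.unusedSectionVars false

noncomputable section

namespace Crest.Agent.T156.Alt.Ts71

open Real Finset Filter Pre29 Sr L69 Ps64 Tp72

section cls

variable {S : Sc} {M : Md} {h u1 Xp D lm dm Λ V γ w : ℝ}

theorem den_up (c : Cl S M) {T : Finset ℕ} {B : ℝ} (hB : 0 ≤ B)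
    (hT : ∀ k ∈ T, S.J ≤ k ∧ k < S.Jp ∧ M.ck k - M.ck S.J ≤ B) :
    ∑ k ∈ T, dx M k * S.den (M.z (k - 1)) ≤ S.C ^ 2 * (B + S.C * S.v) := by
  have C0 := c.C0
  have v0 := c.v0
  have j0 := c.j0_lt
  rcases T.eq_empty_or_nonempty with rfl | ne
  · rw [sum_empty]; positivity
  obtain ⟨b1, b2, b3⟩ := hT _ (T.max'_mem ne)
  calc _ ≤ ∑ k ∈ Ico S.J (T.max' ne + 1), dx M k * S.den (M.z (k - 1)) :=
        sum_le_sum_of_subset_of_nonneg (fun k hk => mem_Ico.2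
          ⟨(hT k hk).1, Nat.lt_succ_of_le (T.le_max' k hk)⟩) fun k _ _ =>
          mul_nonneg (Sr.C71.dx_nn c k) (c.den0 _).le
    _ ≤ ∑ k ∈ Ico S.J (T.max' ne + 1), S.C ^ 2 * (M.ck (k + 1) - M.ck k) := by
        refine sum_le_sum fun k hk => ?_
        obtain ⟨k1, k2⟩ := mem_Ico.1 hk
        have a1 := (c.plat k k1 (by omega)).2
        have a2 := (c.ckm k (by omega) (by omega)).1
        rw [div_le_iff₀ C0] at a2
        have := mul_le_mul_of_nonneg_left a2 C0.le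
        simp only [dx]
        linarith
    _ ≤ _ := by
        rw [← mul_sum, sum_Ico_sub _ (by omega)]
        exact mul_le_mul_of_nonneg_left (by linarith [(c.ckm _ (by omega) b2).2]) (sq_nonneg _)

theorem wt_top (c : Cl S M) {T : Finset ℕ} {ρ : ℝ} (hρ : 0 ≤ ρ) (hT : ∀ k ∈ T, 0 < k ∧ du M k ≤ ρ) :
    ∑ k ∈ T, dx M k ≤ ρ := by
  rcases T.eq_empty_or_nonempty with rfl | ne
  · simpa using hρ
  obtain ⟨b1, b2⟩ := hT _ (T.min'_mem ne)
  have a := T.min'_le_max' ne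
  calc _ ≤ ∑ k ∈ Ioc (T.min' ne - 1) (T.max' ne), M.dx k :=
        sum_le_sum_of_subset_of_nonneg (f := M.dx) (fun k hk => by
          have := T.min'_le k hk
          exact mem_Ioc.2 ⟨by omega, T.le_max' k hk⟩) fun k _ _ => Sr.C71.dx_nn c k
    _ ≤ ρ := by
        rw [M29.sum_dx M (by omega)]
        rw [du] at b2
        linarith [c.leg.z1 (T.max' ne)]

variable (P : PD S M h u1 Xp D lm dm Λ)
include P

/-- **the cost `c1`** with the local clock -/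
theorem c1_loc (hV : 0 ≤ V) (hγ : 0 ≤ γ) (hw : S.w3 1 ≤ w) {R D2 : ℝ}
    (hR : 2 * Xp ^ ((1 : ℝ) / 3) + V + γ ≤ R)
    (hD : ∑ k ∈ nd S M u1, dx M k * S.den (M.z (k - 1)) ≤ D2) (Lg : ℝ) : ∑ k ∈ nd S M u1,
      dx M k * min ((Lg ^ 2 * ap M S Xp V γ k) ^ 3) ((Lg ^ 2 * ap M S Xp V γ k) ^ 4 / S.θ) ≤
      Lg ^ 6 * (16 * (w * D2 + w / lm * R ^ 2 * Λ + w / lm * √(w / lm)) +
        4 * ((w / dm) ^ 2 * (w / lm * Λ))) := by
  have l0 := P.lm0
  have w0 := P.w0.le.trans hw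
  have a0 : ∑ k ∈ nd S M u1, dx M k * a0 S M Xp V γ k ≤ w * D2 + w / lm * R ^ 2 * Λ :=
    calc _ ≤ ∑ k ∈ nd S M u1, (w * (dx M k * S.den (M.z (k - 1))) +
          w / lm * R ^ 2 * (dx M k / ds M S k)) :=
        sum_le_sum fun k hk => (mul_le_mul_of_nonneg_left (P.a0_le hV hγ hw hR hk)
          (P.dx0 k)).trans_eq (by have := (P.ds0 hk).ne'; field_simp)
      _ ≤ _ := by
        rw [sum_add_distrib, ← mul_sum, ← mul_sum]
        exact add_le_add (mul_le_mul_of_nonneg_left hD w0)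
          (mul_le_mul_of_nonneg_left P.sum_ds (by positivity))
  have a1 := P.sum_aA0 hw a0
  have a2 := P.sum_aB hw 2
  calc _ ≤ ∑ k ∈ nd S M u1, Lg ^ 6 *
        (4 * (dx M k * aA S M Xp V γ k) + 4 * (dx M k * aB S M k ^ (2 + 1))) := by
        refine sum_le_sum fun k _ => ?_
        have b1 := add_pow_le (rpow_nonneg (P.aA0 (Vt := V) (γ := γ) k) ((1 : ℝ) / 3)) (P.aB0 k) 3
        rw [cube3 (P.aA0 k), ← ap_eq] at b1
        refine (mul_le_mul_of_nonneg_left (min_le_left _ _) (P.dx0 k)).trans ?_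
        exact (show _ = Lg ^ 6 * (dx M k * ap M S Xp V γ k ^ 3) by ring).trans_le
          ((mul_le_mul_of_nonneg_left (mul_le_mul_of_nonneg_left b1 (P.dx0 k))
            (show 0 ≤ Lg ^ 6 by positivity)).trans_eq (by ring))
    _ ≤ _ := by
        rw [← mul_sum, sum_add_distrib, ← mul_sum, ← mul_sum]
        exact mul_le_mul_of_nonneg_left (by linarith) (by positivity)

variable (H : PX S Xp 0 1 γ w) (hV : 0 ≤ V) {k : ℕ}
include H hV

theorem R2_nn (k : ℕ) : 0 ≤ Tp72.R2 M Xp V k := le_min hV (sqrt_nonneg _)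

theorem R2_le' (hk : k ∈ nd S M u1) : Tp72.R2 M Xp V k ≤ √Xp / √(ds M S k) := by
  rw [← sqrt_div P.X0.le]
  exact (min_le_right _ _).trans
    (sqrt_le_sqrt (div_le_div_of_nonneg_left P.X0.le (P.ds0 hk) (min_le_right _ _)))

theorem a0_V (hk : k ∈ nd S M u1) : a0 S M Xp V γ k ≤ w * S.den (M.z (k - 1)) +
    4 * (w / lm) * (3 * (Xp ^ ((1 : ℝ) / 3)) ^ 2 + V * √Xp) / √(ds M S k) ^ 3 := by
  have d0 := P.cl.den0 (M.z (k - 1))
  have s0 := P.ds0 hk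
  have l0 := P.lm0
  have r0 := sqrt_pos.2 s0
  have r1 : √(ds M S k) ≤ 1 := sqrt_le_one.2 (ds1 P H k)
  have y0 := y0 P H
  have w0 := w0' P H
  have x0 := x0 P H
  have b1 := pow_le_pow_left₀ (sqrt_nonneg _) (R1_x P H k) 2
  have b2 : Tp72.R2 M Xp V k ^ 2 ≤ V * (√Xp / √(ds M S k)) := by
    rw [sq]
    exact mul_le_mul (min_le_left _ _) (R2_le' P H hV hk) (R2_nn P H hV k) hV
  have b3 := pow_le_pow_left₀ H.γ0 (H.γ1.trans (y_x P H)) 2
  have a : (Xp ^ ((1 : ℝ) / 3)) ^ 2 ≤ (Xp ^ ((1 : ℝ) / 3)) ^ 2 / √(ds M S k) :=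
    le_div_self (sq_nonneg _) r0 r1
  have b : (Rp M S Xp V γ k + Xp ^ ((1 : ℝ) / 3)) ^ 2 ≤
      4 * (3 * (Xp ^ ((1 : ℝ) / 3)) ^ 2 + V * √Xp) / √(ds M S k) := by
    have e : 4 * (3 * (Xp ^ ((1 : ℝ) / 3)) ^ 2 + V * √Xp) / √(ds M S k) =
        12 * ((Xp ^ ((1 : ℝ) / 3)) ^ 2 / √(ds M S k)) + 4 * (V * (√Xp / √(ds M S k))) := by ring
    rw [Rp_eq, e]
    change Tp72.R1 S M Xp k ^ 2 ≤ _ at b1
    generalize Tp72.R1 S M Xp k = p at *
    generalize Tp72.R2 M Xp V k = q at *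
    generalize Xp ^ ((1 : ℝ) / 3) = x at *
    linarith [sq_nonneg (p - q), sq_nonneg (p - γ), sq_nonneg (p - x), sq_nonneg (q - γ),
      sq_nonneg (q - x), sq_nonneg (γ - x)]
  have e : √(ds M S k) ^ 3 = √(ds M S k) * ds M S k := by rw [pow_succ', sq_sqrt s0.le]
  calc _ ≤ w * (S.den (M.z (k - 1)) +
        4 * (3 * (Xp ^ ((1 : ℝ) / 3)) ^ 2 + V * √Xp) / √(ds M S k) / (ds M S k * lm)) :=
        mul_le_mul H.hw (add_le_add le_rfl (div_le_div₀ (by positivity) b (by positivity)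
          (by linarith [mul_le_mul_of_nonneg_left (P.lm1 k hk) s0.le]))) (by positivity) w0.le
    _ = _ := by rw [e]; field_simp

theorem ap_V {s r : ℝ} (hs : 0 < s) (hr : 0 ≤ r)
    (hr3 : 4 * (w / lm) * (3 * (Xp ^ ((1 : ℝ) / 3)) ^ 2 + V * √Xp) ≤ r ^ 3) (hk : k ∈ nd S M u1) :
    ap M S Xp V γ k ^ 2 ≤ 4 * (2 / (3 * s) * (w * S.den (M.z (k - 1))) +
      s ^ 2 / 3 + r ^ 2 / ds M S k + aB S M k ^ 2 + w / lm) := by
  have d0 := P.cl.den0 (M.z (k - 1))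
  have s0 := P.ds0 hk
  have l0 := P.lm0
  have r0 := sqrt_pos.2 s0
  have w0 := w0' P H
  have a1 := third_nn (w * S.den (M.z (k - 1)))
  have a2 := young a1 hs
  have a3 := cube3 (show 0 ≤ w * S.den (M.z (k - 1)) by positivity)
  rw [a3] at a2
  have q0 : 0 ≤ r / √(ds M S k) := by positivity
  have a4 : a0 S M Xp V γ k ^ ((1 : ℝ) / 3) ≤
      (w * S.den (M.z (k - 1))) ^ ((1 : ℝ) / 3) + r / √(ds M S k) := by
    refine le_of_pow_le_pow_left₀ three_ne_zero (by positivity) ?_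
    rw [cube3 (P.a00 k)]
    refine ((a0_V P H hV hk).trans ?_).trans (pow_add_pow_le a1 q0 three_ne_zero)
    rw [a3, div_pow]
    gcongr
  have a5 : (r / √(ds M S k)) ^ 2 = r ^ 2 / ds M S k := by rw [div_pow, sq_sqrt s0.le]
  have a6 := pow_le_pow_left₀ (sqrt_nonneg _) (P.aC_le H.hw hk) 2
  rw [sq_sqrt (show 0 ≤ w / lm by positivity)] at a6
  have a7 := pow_le_pow_left₀ (P.ap0 (Vt := V) (γ := γ) k) (show ap M S Xp V γ k ≤
    (w * S.den (M.z (k - 1))) ^ ((1 : ℝ) / 3) + r / √(ds M S k) + aB S M k +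
      √(S.w3 1 / lsh M S k) by rw [ap_eq0]; linarith) 2
  generalize (w * S.den (M.z (k - 1))) ^ ((1 : ℝ) / 3) = a at *
  generalize r / √(ds M S k) = b at *
  generalize aB S M k = c at *
  generalize √(S.w3 1 / lsh M S k) = d at *
  linarith [sq_nonneg (a - b), sq_nonneg (a - c), sq_nonneg (a - d), sq_nonneg (b - c),
    sq_nonneg (b - d), sq_nonneg (c - d)]

theorem sum_ap_V {s1 s2 r ρ D2 : ℝ} (h1 : 0 < s1) (h2 : 0 < s2) (hr : 0 ≤ r) (hρ : 0 ≤ ρ)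
    (hr3 : 4 * (w / lm) * (3 * (Xp ^ ((1 : ℝ) / 3)) ^ 2 + V * √Xp) ≤ r ^ 3)
    (hD : ∑ k ∈ (nd S M u1).filter fun k => ρ ≤ du M k, dx M k * S.den (M.z (k - 1)) ≤ D2) :
    ∑ k ∈ nd S M u1, dx M k * ap M S Xp V γ k ^ 2 ≤ 4 * (w * D2 / s1 + s1 ^ 2 + w * D / s2 +
      s2 ^ 2 * ρ + r ^ 2 * Λ + w / dm * (w / lm * Λ) + w / lm) := by
  have w0 := w0' P H
  have l0 := P.lm0
  have k1 : ∀ k ∈ nd S M u1, dx M k * ap M S Xp V γ k ^ 2 ≤
      4 * (w / s1 * (if ρ ≤ du M k then dx M k * S.den (M.z (k - 1)) else 0) +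
        w / s2 * (dx M k * S.den (M.z (k - 1))) + s2 ^ 2 * (if ¬ρ ≤ du M k then dx M k else 0) +
        (s1 ^ 2 + w / lm) * dx M k + r ^ 2 * (dx M k / ds M S k) +
        dx M k * aB S M k ^ (1 + 1)) := fun k hk => by
    have d0 := P.dx0 k
    have e0 := P.cl.den0 (M.z (k - 1))
    have p1 : 0 ≤ w / s1 * (dx M k * S.den (M.z (k - 1))) := by positivity
    have p2 : 0 ≤ w / s2 * (dx M k * S.den (M.z (k - 1))) := by positivity
    have p3 : 0 ≤ s1 ^ 2 * dx M k := by positivity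
    have p4 : 0 ≤ s2 ^ 2 * dx M k := by positivity
    have e : ∀ s : ℝ, dx M k * (4 * (2 / (3 * s) * (w * S.den (M.z (k - 1))) +
        s ^ 2 / 3 + r ^ 2 / ds M S k + aB S M k ^ 2 + w / lm)) =
        4 * (2 / 3 * (w / s * (dx M k * S.den (M.z (k - 1)))) + s ^ 2 * dx M k / 3 +
          r ^ 2 * (dx M k / ds M S k) + dx M k * aB S M k ^ (1 + 1) + w / lm * dx M k) :=
      fun s => by ring
    by_cases c : ρ ≤ du M k
    · have := (mul_le_mul_of_nonneg_left (ap_V P H hV h1 hr hr3 hk) d0).trans_eq (e _)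
      rw [if_pos c, if_neg (not_not.2 c)]
      linarith
    · have := (mul_le_mul_of_nonneg_left (ap_V P H hV h2 hr hr3 hk) d0).trans_eq (e _)
      rw [if_neg c, if_pos c]
      linarith
  refine (sum_le_sum k1).trans ?_
  rw [← mul_sum, sum_add_distrib, sum_add_distrib, sum_add_distrib, sum_add_distrib,
    sum_add_distrib, ← mul_sum, ← mul_sum, ← mul_sum, ← mul_sum, ← mul_sum, ← sum_filter,
    ← sum_filter]
  have c1 := mul_le_mul_of_nonneg_left hD (by positivity : 0 ≤ w / s1)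
  have c2 := mul_le_mul_of_nonneg_left P.sum_den (by positivity : 0 ≤ w / s2)
  have c3 := mul_le_mul_of_nonneg_left (wt_top P.cl hρ
    (T := (nd S M u1).filter fun k => ¬ρ ≤ du M k) fun k hk =>
      ⟨(Nat.zero_lt_of_lt P.cl.jl_lt).trans_le (P.lt (mem_filter.1 hk).1).1,
        (not_le.1 (mem_filter.1 hk).2).le⟩) (sq_nonneg s2)
  have c4 := mul_le_mul_of_nonneg_left P.sum_one (by positivity : 0 ≤ s1 ^ 2 + w / lm)
  have c5 := mul_le_mul_of_nonneg_left P.sum_ds (sq_nonneg r)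
  have c6 := P.sum_aB H.hw 1
  rw [pow_one] at c6
  rw [← div_mul_eq_mul_div w s1, ← div_mul_eq_mul_div w s2]
  linarith

theorem six {a b c : ℝ} (ha : 0 ≤ a) (hb : 0 ≤ b) (hc : 0 ≤ c) :
    (a + b + c) ^ 6 ≤ 243 * (a ^ 6 + b ^ 6 + c ^ 6) := by
  have := pow_le_pow_left₀ (by positivity) (cube_add ha hb hc) 2
  linarith [sq_nonneg (a ^ 3 - b ^ 3), sq_nonneg (a ^ 3 - c ^ 3), sq_nonneg (b ^ 3 - c ^ 3)]

/-- the cake term of `Np 2`, sharp form -/
theorem cake_V {Q b : ℝ} (hb : 0 ≤ b) (hC : (2 * S.C) ^ 3 * Xp ^ ((1 : ℝ) / 3) ≤ 1)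
    (hQ : ∀ k ∈ nd S M u1, S.w3 1 ≤ Q * (S.den (M.z (k - 1)) * (du M k * √(du M k))))
    (hb4 : 243 * (6 * (w / lm) ^ 2 * (Xp ^ ((1 : ℝ) / 3)) ^ 8 + Q ^ 2 * (Xp ^ ((1 : ℝ) / 3)) ^ 9) ≤
      b ^ 4) (hk : k ∈ nd S M u1) :
    √(aB S M k) * Rp M S Xp V γ k ^ (((2 : ℕ) : ℝ) - 1 / 2) ≤ b / ds M S k := by
  have d0 := P.cl.den0 (M.z (k - 1))
  have s0 := P.ds0 hk
  have s1 := ds1 P H k
  have l0 := P.lm0
  have w0 := w0' P H
  have X0 := P.X0
  have x0 := x0 P H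
  have x1 := x1 P H
  have x3 := cube3 X0.le
  have R0 := P.Rp0 hV H.γ0 k
  have B0 := P.aB0 k
  have u0 := P.u10.trans_le (P.lt hk).2.2
  have q0 := R2_nn P H hV k
  have b0 := pow_le_pow_left₀ B0 (P.aB_le H.hw hk).2 2
  have i1 : 1 ≤ 1 / ds M S k ^ 2 := one_le_one_div (by positivity) (pow_le_one₀ s0.le s1)
  have c1 := le_max_left (dl M S k - S.u0) (Xp ^ ((1 : ℝ) / 3))
  have c2 := le_max_right (dl M S k - S.u0) (Xp ^ ((1 : ℝ) / 3))
  have c3 : ds M S k ≤ dl M S k := min_le_left _ _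
  have hu := H.u0
  have g1 := pow_le_pow_left₀ H.γ0 H.γ1 6
  have q1 := pow_le_pow_left₀ q0 (min_le_right _ _ : Tp72.R2 M Xp V k ≤ _) 6
  have r1 : Tp72.R1 S M Xp k ^ 6 = (Xp / max (dl M S k - S.u0) (Xp ^ ((1 : ℝ) / 3))) ^ 3 := by
    rw [Tp72.R1, show 6 = 2 * 3 from rfl, pow_mul, sq_sqrt (by positivity)]
  rw [show 6 = 2 * 3 from rfl, pow_mul (√Xp), sq_sqrt X0.le] at g1
  rw [show 6 = 2 * 3 from rfl, pow_mul (√(Xp / du M k)), sq_sqrt (by positivity)] at q1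
  have six := six P H hV (sqrt_nonneg (Xp / max (dl M S k - S.u0) (Xp ^ ((1 : ℝ) / 3)))) q0 H.γ0
  change Rp M S Xp V γ k ^ 6 ≤ 243 * (Tp72.R1 S M Xp k ^ 6 + _ + _) at six
  have C0 := P.cl.C0
  have top : ds M S k < du M k → 1 ≤ 2 * S.C * du M k := fun c => by
    have a := P.cl.atom.2
    have e : ds M S k = dl M S k := min_eq_left (le_of_not_gt fun g =>
      absurd (min_eq_right g.le : ds M S k = du M k) c.ne)
    have b : 1 / S.C ≤ 2 * du M k := by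
      rw [e] at c
      simp only [dl, du] at c ⊢
      linarith [P.h0, P.hu0]
    rw [div_le_iff₀ C0] at b
    linarith
  have q := hQ k hk
  generalize max (dl M S k - S.u0) (Xp ^ ((1 : ℝ) / 3)) = μ at *
  generalize Xp ^ ((1 : ℝ) / 3) = x at *
  have μ0 := x0.trans_le c2
  have x98 : x ^ 9 ≤ x ^ 8 := pow_le_pow_of_le_one x0.le x1 (by norm_num)
  have t1 : Tp72.R1 S M Xp k ^ 6 ≤ 4 * x ^ 8 / ds M S k ^ 2 := by
    rw [r1, ← x3, div_pow, div_le_div_iff₀ (by positivity) (by positivity)]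
    have m : ds M S k ≤ 2 * μ := by linarith
    calc _ = x ^ 8 * (x * ds M S k ^ 2) := by ring
      _ ≤ x ^ 8 * (μ * (2 * μ) ^ 2) := by gcongr
      _ = _ := by ring
  have t0 : x ^ 8 ≤ x ^ 8 / ds M S k ^ 2 := le_div_self (by positivity) (by positivity)
    (pow_le_one₀ s0.le s1)
  have t2 : γ ^ 6 ≤ x ^ 8 / ds M S k ^ 2 := by
    rw [← x3] at g1
    exact (g1.trans_eq (by ring)).trans (x98.trans t0)
  have e4 : (w / lm / ds M S k) ^ 2 * (x ^ 8 / ds M S k ^ 2) =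
      (w / lm) ^ 2 * x ^ 8 / ds M S k ^ 4 := by field_simp
  have k1 : ∀ {y : ℝ}, 0 ≤ y → y ≤ x ^ 8 / ds M S k ^ 2 →
      aB S M k ^ 2 * y ≤ (w / lm) ^ 2 * x ^ 8 / ds M S k ^ 4 := fun y0 y1 =>
    (mul_le_mul b0 y1 y0 (by positivity)).trans_eq e4
  have t3 : aB S M k ^ 2 * Tp72.R2 M Xp V k ^ 6 ≤
      (w / lm) ^ 2 * x ^ 8 / ds M S k ^ 4 + Q ^ 2 * x ^ 9 / ds M S k ^ 4 := by
    rcases (min_le_right _ _ : ds M S k ≤ du M k).lt_or_eq with c | c
    · refine le_add_of_le_of_nonneg (k1 (by positivity) (le_trans ?_ t0)) (by positivity)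
      refine q1.trans ?_
      rw [← x3, div_pow, div_le_iff₀ (by positivity)]
      have a := pow_le_pow_left₀ zero_le_one (top c) 3
      have := mul_le_mul a (le_refl (x ^ 9)) (by positivity) (by positivity)
      linarith [mul_le_mul_of_nonneg_right hC (show 0 ≤ x ^ 8 * du M k ^ 3 by positivity)]
    · refine le_add_of_nonneg_of_le (by positivity) ?_
      have r0 := sqrt_pos.2 u0
      have e2 := sq_sqrt u0.le
      have Q0 : 0 < Q := (pos_iff_pos_of_mul_pos (P.w0.trans_le q)).2 (by positivity)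
      calc _ ≤ (Q * (S.den (M.z (k - 1)) * (du M k * √(du M k))) /
            (S.den (M.z (k - 1)) * ds M S k ^ 2)) ^ 2 * (Xp / du M k) ^ 3 := by
            refine mul_le_mul (pow_le_pow_left₀ B0 ?_ 2) q1 (by positivity) (by positivity)
            rw [aB]
            gcongr
        _ = _ := by
            rw [show ds M S k = du M k from c, ← x3]
            generalize √(du M k) = r at *
            rw [← e2]
            field_simp
  have t4 := k1 (y := Tp72.R1 S M Xp k ^ 6 / 4) (by rw [r1]; positivity) (by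
    rw [mul_div_assoc] at t1
    linarith)
  have t5 := k1 (pow_nonneg H.γ0 6) t2
  rw [rp32 R0, ← sqrt_mul B0]
  refine sqrt_le_iff.2 ⟨by positivity, le_of_pow_le_pow_left₀ two_ne_zero (by positivity) ?_⟩
  have f := div_le_div_of_nonneg_right hb4 (pow_pos s0 4).le
  have e5 : 243 * (6 * (w / lm) ^ 2 * x ^ 8 + Q ^ 2 * x ^ 9) / ds M S k ^ 4 =
      243 * (6 * ((w / lm) ^ 2 * x ^ 8 / ds M S k ^ 4) + Q ^ 2 * x ^ 9 / ds M S k ^ 4) := by ring
  have e6 : ((b / ds M S k) ^ 2) ^ 2 = b ^ 4 / ds M S k ^ 4 := by ring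
  rw [e6]
  linarith [mul_le_mul_of_nonneg_left six (sq_nonneg (aB S M k))]

/-- **`Np 2`**, sharp form -/
theorem np2_V {s1 s2 r ρ D2 Q b L : ℝ} (h1 : 0 < s1) (h2 : 0 < s2) (hr : 0 ≤ r) (hρ : 0 ≤ ρ)
    (hr3 : 4 * (w / lm) * (3 * (Xp ^ ((1 : ℝ) / 3)) ^ 2 + V * √Xp) ≤ r ^ 3)
    (hD : ∑ k ∈ (nd S M u1).filter fun k => ρ ≤ du M k, dx M k * S.den (M.z (k - 1)) ≤ D2)
    (hb : 0 ≤ b) (hC : (2 * S.C) ^ 3 * Xp ^ ((1 : ℝ) / 3) ≤ 1)
    (hQ : ∀ k ∈ nd S M u1, S.w3 1 ≤ Q * (S.den (M.z (k - 1)) * (du M k * √(du M k))))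
    (hb4 : 243 * (6 * (w / lm) ^ 2 * (Xp ^ ((1 : ℝ) / 3)) ^ 8 + Q ^ 2 * (Xp ^ ((1 : ℝ) / 3)) ^ 9) ≤
      b ^ 4) (hL : 0 < L) : Np M S Xp V γ u1 (L ^ 3) 2 ≤
      u1 + (L ^ 4 * (4 * (w * D2 / s1 + s1 ^ 2 + w * D / s2 + s2 ^ 2 * ρ + r ^ 2 * Λ +
        w / dm * (w / lm * Λ) + w / lm)) + b * Λ) := by
  have a1 := mul_le_mul_of_nonneg_left (sum_ap_V P H hV h1 h2 hr hρ hr3 hD) (pow_pos hL 4).le
  rw [Np]
  simp only [mul_add (dx M _), sum_add_distrib, mul_pow, Lp_pow hL]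
  refine add_le_add le_rfl (add_le_add ?_ ?_)
  · refine le_trans (le_of_eq ?_) a1
    rw [mul_sum]
    exact sum_congr rfl fun k _ => by ring
  · refine le_trans ?_ (mul_le_mul_of_nonneg_left P.sum_ds hb)
    rw [mul_sum]
    exact sum_le_sum fun k hk => (mul_le_mul_of_nonneg_left
      ((min_le_right _ _).trans (cake_V P H hV hb hC hQ hb4 hk)) (P.dx0 k)).trans_eq (by ring)

end cls

/-! ### the numbers -/

open Tm92 Tt46

variable {E : ℝ} {S : Sc} {M : Md} {l lm Ys Y : ℝ} {c : ℕ → ℝ} {D u : ℝ} {F : ℕ → ℝ}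
  {r1 r2 γ ρ V : ℝ} (Z : Tm71.Tx KK E S M l lm Ys Y c D u F)
include Z

theorem lg_th : logb S.n u ≤ logb S.n (S.θ + u) ∧ logb S.n S.θ ≤ logb S.n (S.θ + u) :=
  ⟨(tx Z).lg_mono Z.u0 (le_add_of_nonneg_left Z.X.cl.θ0.le),
    (tx Z).lg_mono Z.X.cl.θ0 (le_add_of_nonneg_right Z.u0.le)⟩

theorem lg_w1 : -1 - logb S.n S.θ ≤ logb S.n Y - 10 ^ 8 * logb S.n E + logb S.n lm := by
  have X := tx Z
  have := X.N0; have θ0 : 0 < S.ms 1 := X.cl.θ0; have := lm0 Z; have := X.Yd0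
  have a := Z.sx.vh.w1
  rw [Sc.w3, Z.X.sh.F1, mul_one] at a
  have b := X.lg_mono (by positivity) a
  revert b
  lg_norm
  rw [X.lg_n, X.lg_Yd]
  intro b
  change _ - logb S.n (S.ms 1) ≤ _
  linarith

theorem lg_five {x y : ℝ} (hx : 0 < x) (hy : 0 < y) (h : x ≤ 5 * y) :
    logb S.n x ≤ logb S.n E + logb S.n y := by
  have X := tx Z
  have := X.lg_mono hx h
  rw [logb_mul (by norm_num) hy.ne'] at this
  linarith [(X.lg_num (x := 5) (by norm_num) (by norm_num)).2]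

theorem lg_V2 : logb S.n (V2 E S Y u) ≤ 50001 * logb S.n E - 1 / 11 ∨
    (logb S.n (V2 E S Y u) ≤ 50001 * logb S.n E + logb S.n S.θ / 2 ∧
      logb S.n (V2 E S Y u) ≤ 50001 * logb S.n E - 21 / 400) ∨
    logb S.n (V2 E S Y u) ≤ 50001 * logb S.n E + logb S.n u / 2 ∨
    logb S.n (V2 E S Y u) ≤ 50001 * logb S.n E + logb S.n (Xx E Y) / 3 := by
  have X := tx Z
  have := X.N0; have := X.X0; have := X.u_pos; have := X.cl.θ0; have := X.E0
  have B0 := B2_pos X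
  rw [V2, logb_mul (by positivity) B0.ne', logb_pow]
  push_cast
  by_cases h1 : B2 E S Y u ≤ 5 * (S.n : ℝ) ^ (-(1 : ℝ) / 11)
  · have := lg_five Z B0 (by positivity) h1
    rw [X.lg_rp] at this
    exact .inl (by linarith)
  by_cases h2 : B2 E S Y u ≤ 5 * min (√S.θ) ((S.n : ℝ) ^ (-(21 : ℝ) / 400))
  · have a := lg_five Z B0 (by positivity) (h2.trans (mul_le_mul_of_nonneg_left (min_le_left _ _)
      (by norm_num)))
    have b := lg_five Z B0 (by positivity) (h2.trans (mul_le_mul_of_nonneg_left (min_le_right _ _)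
      (by norm_num)))
    rw [lg_sqrt _ X.cl.θ0.le] at a
    rw [X.lg_rp] at b
    exact .inr (.inl ⟨by linarith, by linarith⟩)
  by_cases h3 : B2 E S Y u ≤ 5 * √u
  · have a := lg_five Z B0 (by positivity) h3
    rw [lg_sqrt _ X.u_pos.le] at a
    exact .inr (.inr (.inl (by linarith)))
  have a := lg_five Z B0 (rpow_pos_of_pos X.X0 ((1 : ℝ) / 3)) (by unfold B2 at *; linarith)
  rw [logb_rpow_eq_mul_logb_of_pos X.X0] at a
  exact .inr (.inr (.inr (by linarith)))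

theorem Vt0 : 0 < Vt E S Y u := (V2_pos (tx Z)).trans_le (V2_le (tx Z))

theorem lg_Vt : logb S.n (Vt E S Y u) ≤ 50001 * logb S.n E - 21 / 400 ∨
    logb S.n (Vt E S Y u) ≤ 50001 * logb S.n E + logb S.n u / 2 ∨
    logb S.n (Vt E S Y u) ≤ 50001 * logb S.n E + logb S.n (Xx E Y) / 3 := by
  have X := tx Z
  have := X.N0; have := X.X0; have := X.u_pos; have := X.E0
  have a0 := rp_pos X.cl.n1 (-(21 : ℝ) / 400)
  have B0 := add_pos (B2_pos X) a0
  rw [Vt, logb_mul (by positivity) B0.ne', logb_pow]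
  push_cast
  by_cases h1 : B2 E S Y u + (S.n : ℝ) ^ (-(21 : ℝ) / 400) ≤ 5 * (S.n : ℝ) ^ (-(21 : ℝ) / 400)
  · have := lg_five Z B0 a0 h1
    rw [X.lg_rp] at this
    exact .inl (by linarith)
  by_cases h3 : B2 E S Y u + (S.n : ℝ) ^ (-(21 : ℝ) / 400) ≤ 5 * √u
  · have a := lg_five Z B0 (by positivity) h3
    rw [lg_sqrt _ X.u_pos.le] at a
    exact .inr (.inl (by linarith))
  have a := lg_five Z B0 (rpow_pos_of_pos X.X0 ((1 : ℝ) / 3)) (by
    have := min_le_right (√S.θ) ((S.n : ℝ) ^ (-(21 : ℝ) / 400))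
    have := rp_le X.cl.n1 (show -(1 : ℝ) / 11 ≤ -(21 : ℝ) / 400 by norm_num)
    unfold B2 at *
    linarith)
  rw [logb_rpow_eq_mul_logb_of_pos X.X0] at a
  exact .inr (.inr (by linarith))

theorem x_ge : 1 / (S.n : ℝ) ≤ Xx E Y ^ ((1 : ℝ) / 3) := by
  have X := tx Z
  refine inv_le Z (rpow_pos_of_pos X.X0 _) ?_
  rw [logb_rpow_eq_mul_logb_of_pos X.X0]
  linarith [X.lg_X.1, X.lg_Y.1, X.lg_E.1]

theorem xC : (2 * Z.S'.C) ^ 3 * Xx E Y ^ ((1 : ℝ) / 3) ≤ 1 := by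
  have X := tx Z
  have := X.X0; have C0 : 0 < 8 * S.C := Z.cl'.C0
  change (2 * (8 * S.C)) ^ 3 * _ ≤ _
  have c := X.lg_C.2
  generalize 8 * S.C = C at *
  refine X.le_of_lg (by positivity) one_pos ?_
  lg_norm
  linarith [(X.lg_num (x := 2) (by norm_num) (by norm_num)).2, X.lg_X.2, X.lg_Y.2, X.lg_E.1,
    X.lg_E.2]

theorem px (γ0 : 0 ≤ γ) (γ1 : γ ≤ nu S) : PX Z.S' (Xx E Y) 0 1 γ (Z.S'.w3 1) := by
  have X := tx Z
  have x0 := rpow_pos_of_pos X.X0 ((1 : ℝ) / 3)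
  refine ⟨Z.X.u0_le.trans (rpow_le_rpow X.Y0.le ?_ (by norm_num)), le_trans
    (mul_le_mul_of_nonneg_right (le_self_pow₀ (by linarith [Z.cl'.C1]) (by norm_num)) x0.le) (xC Z),
    γ0, γ1.trans (X.le_of_lg X.nu0 (sqrt_pos.2 X.X0) ?_), le_rfl, zero_le_one, le_rfl, le_rfl⟩
  · have := mul_le_mul_of_nonneg_right (one_le_pow₀ (n := 100) X.E1) X.Y0.le
    rw [Xx]
    linarith [X.Y0]
  · rw [X.lg_nu, lg_sqrt _ X.X0.le]
    linarith [X.lg_X.1, X.lg_Y.1, X.lg_E.1]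

variable (T : Tp KK E S M lm Y r1 r2)
include T

theorem r12 : r1 ≤ r2 := (le_mul_of_one_le_left (r10 Z T).le Z.Q1).trans T.a3

/-- the clock above the second cut -/
theorem den2 {U : Finset ℕ} (hU : ∀ k ∈ U, S.J ≤ k ∧ k < S.Jp ∧ r2 ≤ du Z.N k) :
    ∑ k ∈ U, dx Z.N k * Z.S'.den (Z.N.z (k - 1)) ≤
      E * ((S.n : ℝ) ^ ((3 : ℝ) / 10) * (S.θ + u)) := by
  have H := Z.X.cl
  have C0 := H.C0
  have m := mm0 Z
  have p1 : 1 ≤ (S.n : ℝ) ^ ((3 : ℝ) / 10) := one_le_rpow Z.X.N1 (by norm_num)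
  have a : max S.θ (nuY KK E S Y) ≤ S.θ + u :=
    max_le (le_add_of_nonneg_right Z.u0.le) (Z.ν_u.trans (le_add_of_nonneg_left H.θ0.le))
  have B0 : 0 < (S.n : ℝ) ^ ((3 : ℝ) / 10) * (S.θ + u) := by positivity
  refine (den_up H B0.le fun k hk => ⟨(hU k hk).1, (hU k hk).2.1,
    (T.c2 k (hU k hk).1 (hU k hk).2.1.le (hU k hk).2.2).trans
      (mul_le_mul_of_nonneg_left a (by positivity))⟩).trans ?_
  have b : S.v ≤ S.C * ((S.n : ℝ) ^ ((3 : ℝ) / 10) * (S.θ + u)) := Z.X.v_le.trans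
    (mul_le_mul_of_nonneg_left ((Z.nu_u.trans (le_add_of_nonneg_left H.θ0.le)).trans
      (le_mul_of_one_le_left m.le p1)) C0.le)
  generalize (S.n : ℝ) ^ ((3 : ℝ) / 10) * (S.θ + u) = B at *
  linarith [mul_le_mul_of_nonneg_left b (pow_pos C0 3).le, mul_le_mul_of_nonneg_right Z.X.CE B0.le,
    mul_le_mul_of_nonneg_right Z.X.C2 B0.le, mul_pos (pow_pos C0 4) B0]

/-- **(S1)** the cost `c1` -/
theorem s1 (γ0 : 0 ≤ γ) (γ1 : γ ≤ nu S) (V0 : 0 ≤ V) (V1 : V ≤ V2 E S Y u) :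
    ∑ k ∈ (Icc Z.S'.J Z.S'.Jp).filter fun k => 2 * r2 ≤ du Z.N k,
      dx Z.N k * min ((Zz E ^ 2 * ap Z.N Z.S' (Xx E Y) V γ k) ^ 3)
        ((Zz E ^ 2 * ap Z.N Z.S' (Xx E Y) V γ k) ^ 4 / Z.S'.θ) ≤ Bd E S M Y u / E ^ 10 := by
  have X := tx Z
  have r0 := (r10 Z T).trans_le (r12 Z T)
  have P := pd Z T (ρ := 2 * r2) (by linarith [r12 Z T]) X.X0 (x_ge Z)
  have := X.N0; have := X.E0; have := X.Z0; have := X.Bd0; have := w0 Z; have := lm0 Z
  have := dm0 Z; have := mm0 Z; have v0 := V2_pos X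
  have hR : 2 * Xx E Y ^ ((1 : ℝ) / 3) + V + γ ≤ 4 * V2 E S Y u := by
    have a : B2 E S Y u ≤ V2 E S Y u := le_mul_of_one_le_left (B2_pos X).le (one_le_pow₀ X.E1)
    have b : u ≤ √u := le_sqrt_of_sq_le (by nlinarith [Z.u0, Z.u_one])
    have d : 0 ≤ min (√S.θ) ((S.n : ℝ) ^ (-(21 : ℝ) / 400)) := by positivity
    have e := rp_pos X.cl.n1 (-(1 : ℝ) / 11)
    have f := rpow_pos_of_pos X.X0 ((1 : ℝ) / 3)
    rw [B2] at a
    linarith [Z.nu_u, sqrt_nonneg u]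
  refine (c1_loc P V0 γ0 le_rfl hR (den2 Z T fun k hk =>
    ⟨(P.lt hk).1, (P.lt hk).2.1, by linarith [(P.lt hk).2.2]⟩) (Zz E)).trans ?_
  obtain ⟨e0, e1⟩ := X.lg_E
  obtain ⟨d1, d2, d3, -⟩ := X.lg_Bd
  obtain ⟨m1, m2, m3⟩ := lg_mx Z
  obtain ⟨l1, l2⟩ := lg_lm Z
  obtain ⟨t1, t2⟩ := lg_th Z
  have lw := lg_w Z
  have l3 := lg_w1 Z
  have ld := lg_dm Z
  have lt := X.lg_T
  have lu := X.lg_u
  have lx := X.lg_X.2
  have c4 := (X.lg_num (x := 4) (by norm_num) (by norm_num)).2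
  have c6 := (X.lg_num (x := 6) (by norm_num) (by norm_num)).2
  have lz := X.lg_Z
  have lv := lg_V2 Z
  generalize Z.S'.w3 1 = w at *
  generalize S.θ + u = θ' at *
  generalize Bd E S M Y u = B at *
  generalize Zz E = z at *
  generalize V2 E S Y u = v at *
  have k : ∀ {x : ℝ}, 0 < x → logb S.n x + 60011 * logb S.n E ≤ logb S.n B →
      x ≤ B / (z ^ 6 * E ^ 11) := fun hx h => X.le_of_lg hx (by positivity) (by
    lg_norm
    linarith)
  have b1 := k (x := w * (E * ((S.n : ℝ) ^ ((3 : ℝ) / 10) * θ'))) (by positivity) (by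
    lg_norm
    rw [X.lg_n]
    linarith)
  have b2 := k (x := w / lm * (4 * v) ^ 2 * (6 * E)) (by positivity) (by
    lg_norm
    rcases lv with h | ⟨h, h'⟩ | h | h <;> linarith)
  have b3 := k (x := w / lm * √(w / lm)) (by positivity) (by
    lg_norm
    linarith)
  have b4 := k (x := (w / dm S) ^ 2 * (w / lm * (6 * E))) (by positivity) (by
    lg_norm
    linarith)
  refine (mul_le_mul_of_nonneg_left (show _ ≤ E * (B / (z ^ 6 * E ^ 11)) by
    linarith [mul_le_mul_of_nonneg_right (show 52 ≤ E by linarith [Z.X.E3])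
      (show 0 ≤ B / (z ^ 6 * E ^ 11) by positivity)]) (by positivity)).trans_eq ?_
  field_simp

/-- **(S2)** the size `Np 2` -/
theorem s2 (γ0 : 0 ≤ γ) (γ1 : γ ≤ nu S) (V0 : 0 ≤ V) (V1 : V ≤ Vt E S Y u) :
    Np Z.N Z.S' (Xx E Y) V γ (8 * r1) (Zz E ^ 3) 2 ≤ (Bd E S M Y u / E ^ 10) ^ ((2 : ℝ) / 3) := by
  have X := tx Z
  have r1p := r10 Z T
  have r0 := r1p.trans_le (r12 Z T)
  have P := pd Z T (ρ := 8 * r1) (by linarith) X.X0 (x_ge Z)
  have N0 := X.N0; have E0 := X.E0; have Z0 := X.Z0; have := X.Bd0; have := w0 Z; have := lm0 Z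
  have := dm0 Z; have m0 := mm0 Z; have v0 := Vt0 Z; have := X.X0
  have C0 : 0 < 8 * S.C := Z.cl'.C0
  have hQ : ∀ k ∈ nd Z.S' Z.N (8 * r1), Z.S'.w3 1 ≤ E ^ 9 / (S.n : ℝ) ^ ((39 : ℝ) / 100) *
      (Z.S'.den (Z.N.z (k - 1)) * (du Z.N k * √(du Z.N k))) := fun k hk => by
    obtain ⟨a1, -, a3⟩ := P.lt hk
    have u0 : 0 < du Z.N k := by linarith
    have a := T.dq _ (xs_le Z a1) (show r1 ≤ du Z.N k by linarith)
    change _ ≤ _ * (Z.S'.den (Z.N.z (k - 1)) * du Z.N k ^ ((3 : ℝ) / 2)) at a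
    rw [show (3 : ℝ) / 2 = 1 + 1 / 2 by norm_num, rpow_add u0, rpow_one, ← sqrt_eq_rpow] at a
    have d0 := Z.cl'.den0 (Z.N.z (k - 1))
    rw [w_eq Z, div_mul_eq_mul_div, div_le_div_iff₀ (by positivity) (by positivity), mul_assoc]
    refine mul_le_mul_of_nonneg_left (a.trans ((mul_comm _ _).trans_le ?_)) (by positivity)
    have := mx_le Z
    gcongr
  obtain ⟨d1, d2, d3, -⟩ := X.lg_Bd
  have lz := X.lg_Z
  have z1 : 1 ≤ Zz E ^ 4 := one_le_pow₀ (one_le_pow₀ X.E1)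
  have lv := lg_Vt Z
  generalize Bd E S M Y u = B at *
  generalize Zz E = z at *
  generalize Vt E S Y u = v at *
  obtain ⟨β, hβ⟩ : ∃ β, β = (B / E ^ 10) ^ ((2 : ℝ) / 3) / (z ^ 4 * E) := ⟨_, rfl⟩
  have β0 : 0 < β := by rw [hβ]; positivity
  have lβ : logb S.n β = 2 / 3 * logb S.n B - (40001 + 20 / 3) * logb S.n E := by
    rw [hβ]
    lg_norm
    rw [lz]
    ring
  obtain ⟨e0, e1⟩ := X.lg_E
  obtain ⟨m1, m2, m3⟩ := lg_mx Z
  obtain ⟨l1, l2⟩ := lg_lm Z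
  obtain ⟨t1, t2⟩ := lg_th Z
  obtain ⟨u1, u2, -⟩ := X.lg_mu
  obtain ⟨y1, y2⟩ := X.lg_Y
  have lw := lg_w Z
  have ld := lg_dm Z
  have lt := X.lg_T
  have lu := X.lg_u
  have lx := X.lg_X.2
  have lc := X.lg_C.2
  have lr := (lg_r1 Z T).2
  have lr2 := X.lg_mono r0 T.a4
  rw [X.lg_Yd] at lr2
  have c6 := X.lg_num (x := 6) (by norm_num) (by norm_num)
  have c8 := (X.lg_num (x := 8) (by norm_num) (by norm_num)).2
  have c24 := (X.lg_num (x := 24) (by norm_num) (by norm_num)).2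
  have c486 := (X.lg_num (x := 486) (by norm_num) (by norm_num)).2
  have a := np2_V P (px Z γ0 γ1) V0 (s1 := √β) (s2 := Z.S'.w3 1 * ((8 * S.C) ^ 2 * E) / β)
    (r := √(β / (6 * E))) (ρ := r2) (b := β / (6 * E)) (L := z) (by positivity) (by positivity)
    (by positivity) r0.le ?_ (den2 Z T fun k hk => ⟨(P.lt (mem_filter.1 hk).1).1,
      (P.lt (mem_filter.1 hk).1).2.1, (mem_filter.1 hk).2⟩) (by positivity) (xC Z) hQ ?_ Z0
  · refine a.trans ?_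
    generalize Z.S'.w3 1 = w at *
    generalize S.θ + u = θ' at *
    generalize 8 * S.C = C at *
    have b0 : 8 * r1 ≤ β := X.le_of_lg (by positivity) β0 (by
      lg_norm
      linarith)
    have b1 : w * (E * ((S.n : ℝ) ^ ((3 : ℝ) / 10) * θ')) / √β ≤ β :=
      X.le_of_lg (by positivity) β0 (by
        lg_norm
        rw [X.lg_n]
        linarith)
    have b2 := sq_sqrt β0.le
    have b3 : w * (C ^ 2 * E) / (w * (C ^ 2 * E) / β) = β := by field_simp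
    have b4 : (w * (C ^ 2 * E) / β) ^ 2 * r2 ≤ β := X.le_of_lg (by positivity) β0 (by
      lg_norm
      linarith)
    have b5 : √(β / (6 * E)) ^ 2 * (6 * E) = β := by
      rw [sq_sqrt (by positivity)]
      field_simp
    have b6 : w / dm S * (w / lm * (6 * E)) ≤ β := X.le_of_lg (by positivity) β0 (by
      lg_norm
      linarith)
    have b7 : w / lm ≤ β := X.le_of_lg (by positivity) β0 (by
      lg_norm
      linarith)
    have b8 : β / (6 * E) * (6 * E) = β := by field_simp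
    have e : (B / E ^ 10) ^ ((2 : ℝ) / 3) = E * (z ^ 4 * β) := by
      rw [hβ]
      field_simp
    rw [e, b2, b3, b5, b8]
    linarith [mul_le_mul_of_nonneg_left (add_le_add (add_le_add b1 b4) (add_le_add b6 b7))
      (pow_pos Z0 4).le, mul_le_mul_of_nonneg_right z1 β0.le,
      mul_le_mul_of_nonneg_right (show 30 ≤ E by linarith [Z.X.E3]) (mul_pos (pow_pos Z0 4) β0).le]
  · generalize Z.S'.w3 1 = w at *
    have b1 : 24 * (w / lm * (Xx E Y ^ ((1 : ℝ) / 3)) ^ 2) ≤ √(β / (6 * E)) ^ 3 :=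
      X.le_of_lg (by positivity) (by positivity) (by
        lg_norm
        linarith)
    have b2 : 8 * (w / lm * (v * √(Xx E Y))) ≤ √(β / (6 * E)) ^ 3 :=
      X.le_of_lg (by positivity) (by positivity) (by
        lg_norm
        rcases lv with h | h | h <;> linarith)
    linarith [mul_le_mul_of_nonneg_left (mul_le_mul_of_nonneg_right V1 (sqrt_nonneg (Xx E Y)))
      (show 0 ≤ w / lm by positivity)]
  · generalize Z.S'.w3 1 = w at *
    have b1 : 486 * (6 * ((w / lm) ^ 2 * (Xx E Y ^ ((1 : ℝ) / 3)) ^ 8)) ≤ (β / (6 * E)) ^ 4 :=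
      X.le_of_lg (by positivity) (by positivity) (by
        lg_norm
        linarith)
    have b2 : 486 * ((E ^ 9 / (S.n : ℝ) ^ ((39 : ℝ) / 100)) ^ 2 * (Xx E Y ^ ((1 : ℝ) / 3)) ^ 9) ≤
        (β / (6 * E)) ^ 4 := X.le_of_lg (by positivity) (by positivity) (by
      lg_norm
      rw [X.lg_n]
      linarith)
    linarith

end Crest.Agent.T156.Alt.Ts71

end
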