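import Crest.Agent.T156.TermCc_28
import Crest.Agent.T156.TermS_71
import Crest.Agent.T156.TermI_92
import Crest.Agent.T156.TermL_72

/-!
# Row 156, SR, terminal statement from the block (L) alone (helper28)
-/

set_option autoImplicit false

noncomputable section

namespace Crest.Agent.T156.Alt.Tm92

open Real Finset Filter Pre29 Sr L69

theorem hS1 : HS1 := fun _ _ _ _ _ _ _ _ _ _ _ Z _ _ T =>
  Ts71.s1 Z T (tx Z).nu0.le le_rfl (le_min zero_le_one (Tt46.V2_pos (tx Z)).le) (min_le_right _ _)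

theorem hS2 : HS2 := fun _ _ _ _ _ _ _ _ _ _ _ Z _ _ T =>
  Ts71.s2 Z T (tx Z).nu0.le le_rfl
    (le_min zero_le_one ((Tt46.V2_pos (tx Z)).le.trans (Tt46.V2_le (tx Z)))) (min_le_right _ _)

theorem hLC : HLC := hLC_of hS1 hS2

/-- **`TermS2`** from the block (L) -/
theorem termS2_L (h0 : TLt) (h1 : TL1x) (h2 : TL1cx) : TermS2 := termS2_of' h0 h1 h2 hCn hLC hLP

end Crest.Agent.T156.Alt.Tm92

end
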