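import Mathlib

/-!
# Row 156: the finite-dimensional Parisi problem, frame-free part (helper28, after 85's #7053)

A convex function on the ordered simplex: minimiser, KKT at every node with mass, the discrete
consequences for a linear grid, and the envelope inequality.
-/

set_option autoImplicit false

noncomputable section

namespace Crest.Agent.T156.Kkt

open Set Filter Topology

variable {K : ℕ}

/-- the ordered simplex `lo ≤ x 0 ≤ … ≤ x (K-1) ≤ hi` -/
def Simp (K : ℕ) (lo hi : ℝ) : Set (Fin K → ℝ) := {x | Monotone x ∧ ∀ k, x k ∈ Icc lo hi}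

/-- `xe 0 = lo`, `xe (k+1) = x k` for `k < K`, `hi` beyond; the mass of node `k` is
`xe (k+1) - xe k` -/
def xe (lo hi : ℝ) (x : Fin K → ℝ) : ℕ → ℝ
  | 0 => lo
  | k + 1 => if h : k < K then x ⟨k, h⟩ else hi

/-- extension by zero -/
def ez (g : Fin K → ℝ) (k : ℕ) : ℝ := if h : k < K then g ⟨k, h⟩ else 0

theorem ez_fin (g : Fin K → ℝ) (k : Fin K) : ez g k = g k := by simp [ez]

theorem xe_succ (lo hi : ℝ) (x : Fin K → ℝ) (k : Fin K) : xe lo hi x (k + 1) = x k := by
  simp [xe]

theorem xe_mono {lo hi : ℝ} {x : Fin K → ℝ} (hx : x ∈ Simp K lo hi) (hlh : lo ≤ hi) :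
    Monotone (xe lo hi x) := by
  refine monotone_nat_of_le_succ fun k => ?_
  cases k with
  | zero =>
    simp only [xe]; split_ifs with h
    · exact (hx.2 _).1
    · exact hlh
  | succ k =>
    simp only [xe]
    split_ifs with h1 h2 h2
    · exact hx.1 (by simp [Fin.le_def])
    · exact (hx.2 _).2
    · omega
    · exact le_rfl

theorem simp_compact (K : ℕ) (lo hi : ℝ) : IsCompact (Simp K lo hi) := by
  refine (isCompact_Icc (a := fun _ : Fin K => lo) (b := fun _ => hi)).of_isClosed_subset ?_ ?_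
  · have : Simp K lo hi = (⋂ i, ⋂ j, ⋂ _ : i ≤ j, {x : Fin K → ℝ | x i ≤ x j}) ∩
        ⋂ k, {x : Fin K → ℝ | x k ∈ Icc lo hi} := by
      ext x; simp [Simp, Monotone]
    rw [this]
    refine (isClosed_iInter fun i => isClosed_iInter fun j => isClosed_iInter fun _ =>
      isClosed_le (continuous_apply i) (continuous_apply j)).inter
      (isClosed_iInter fun k => isClosed_Icc.preimage (continuous_apply k))
  · exact fun x hx => ⟨fun k => (hx.2 k).1, fun k => (hx.2 k).2⟩

/-- a minimiser exists -/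
theorem exists_min {G : (Fin K → ℝ) → ℝ} (hG : ConvexOn ℝ {x | ∀ k, 0 ≤ x k} G) {lo hi : ℝ}
    (hlo : 0 < lo) (hlh : lo ≤ hi) : ∃ x ∈ Simp K lo hi, ∀ y ∈ Simp K lo hi, G x ≤ G y := by
  have hc : ContinuousOn G (Simp K lo hi) := by
    refine hG.continuousOn_interior.mono fun x hx => ?_
    rw [mem_interior_iff_mem_nhds]
    have : {y : Fin K → ℝ | ∀ k, 0 ≤ y k} = ⋂ k, {y | 0 ≤ y k} := by ext; simp
    rw [this, iInter_mem]
    exact fun k => (continuous_apply k).continuousAt.preimage_mem_nhds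
      (Ici_mem_nhds (hlo.trans_le (hx.2 k).1))
  obtain ⟨x, hx, hm⟩ := (simp_compact K lo hi).exists_isMinOn
    ⟨fun _ => lo, monotone_const, fun _ => ⟨le_rfl, hlh⟩⟩ hc
  exact ⟨x, hx, fun y hy => hm hy⟩

/-- moving a block of coordinates: partial derivatives suffice for a convex function -/
theorem dir_nonneg {G : (Fin K → ℝ) → ℝ} (hG : ConvexOn ℝ {x | ∀ k, 0 ≤ x k} G)
    {x g : Fin K → ℝ} (hx : ∀ k, 0 < x k)
    (hd : ∀ k, HasDerivAt (fun t => G (Function.update x k t)) (g k) (x k))
    (A : Finset (Fin K)) (s : ℝ)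
    (hmin : ∀ᶠ ε in 𝓝[>] (0 : ℝ), G x ≤ G fun i => x i + if i ∈ A then ε * s else 0) :
    0 ≤ s * ∑ i ∈ A, g i := by
  rcases A.eq_empty_or_nonempty with rfl | hA
  · simp
  have hn : (0 : ℝ) < A.card := by exact_mod_cast hA.card_pos
  set n : ℝ := (A.card : ℝ) with hn'
  have hφ : HasDerivAt (fun ε => ∑ i ∈ A, G (Function.update x i (x i + ε * (n * s))))
      (∑ i ∈ A, g i * (n * s)) 0 := by
    refine HasDerivAt.fun_sum fun i _ => ?_
    have h1 : HasDerivAt (fun ε : ℝ => x i + ε * (n * s)) (n * s) 0 := by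
      simpa using ((hasDerivAt_id (0 : ℝ)).mul_const (n * s)).const_add (x i)
    have h2 : HasDerivAt (fun t => G (Function.update x i t)) (g i) (x i + 0 * (n * s)) := by
      simpa using hd i
    exact h2.comp 0 h1
  have hD : ∀ᶠ ε in 𝓝[>] (0 : ℝ), ∀ i, 0 ≤ x i + ε * (n * s) := by
    refine eventually_all.2 fun i => mem_nhdsWithin_of_mem_nhds ?_
    have : ContinuousAt (fun ε : ℝ => x i + ε * (n * s)) 0 := by fun_prop
    exact this.preimage_mem_nhds (Ici_mem_nhds (by simpa using hx i))
  have key : 0 ≤ ∑ i ∈ A, g i * (n * s) := by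
    refine ge_of_tendsto hφ.tendsto_slope_zero_right ?_
    filter_upwards [hmin, hD, self_mem_nhdsWithin] with ε h1 h2 h3
    have h3' : (0 : ℝ) < ε := h3
    have hJ := hG.map_sum_le (t := A) (w := fun _ => n⁻¹)
      (p := fun i => Function.update x i (x i + ε * (n * s))) (fun _ _ => by positivity)
      (by simp only [Finset.sum_const, nsmul_eq_mul, ← hn']; field_simp)
      (fun i _ k => by
        by_cases hk : k = i
        · subst hk; simpa using h2 k
        · simpa [Function.update_of_ne hk] using (hx k).le)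
    have e : (∑ i ∈ A, n⁻¹ • Function.update x i (x i + ε * (n * s))) =
        fun i => x i + if i ∈ A then ε * s else 0 := by
      funext j
      have : ∀ i, Function.update x i (x i + ε * (n * s)) j =
          x j + if j = i then ε * (n * s) else 0 := fun i => by
        by_cases hk : j = i
        · subst hk; simp
        · simp [hk]
      simp only [Finset.sum_apply, Pi.smul_apply, smul_eq_mul, this, ← Finset.mul_sum,
        Finset.sum_add_distrib, Finset.sum_const, nsmul_eq_mul, ← hn', Finset.sum_ite_eq]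
      split_ifs <;> field_simp
      simp
    rw [e] at hJ
    simp only [smul_eq_mul, ← Finset.mul_sum] at hJ
    simp only [zero_add, zero_mul, add_zero, Function.update_eq_self, Finset.sum_const,
      nsmul_eq_mul, ← hn', smul_eq_mul]
    refine mul_nonneg (by positivity) (sub_nonneg.2 ?_)
    have := h1.trans hJ
    rwa [← div_eq_inv_mul, le_div_iff₀ hn, mul_comm] at this
  rw [← Finset.sum_mul] at key
  have : 0 ≤ n * (s * ∑ i ∈ A, g i) := by linarith
  exact (mul_nonneg_iff_of_pos_left hn).1 this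

theorem sum_block (g : Fin K → ℝ) {a b : ℕ} (hb : b ≤ K) :
    ∑ i ∈ Finset.univ.filter (fun i : Fin K => a ≤ i.val ∧ i.val < b), g i =
      ∑ i ∈ Finset.Ico a b, ez g i := by
  refine Finset.sum_bij (fun i _ => i.val) (fun i hi => by simpa using hi)
    (fun i _ j _ h => Fin.ext h) (fun i hi => ?_) fun i _ => (ez_fin g i).symm
  rw [Finset.mem_Ico] at hi
  exact ⟨⟨i, by omega⟩, by simpa using hi, rfl⟩

/-- **KKT**: at a minimiser, at every node `k` with mass, the sums of the partial derivatives are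
`≥ 0` on the blocks ending at `k` and `≤ 0` on the blocks starting at `k` -/
theorem kkt {G : (Fin K → ℝ) → ℝ} (hG : ConvexOn ℝ {x | ∀ k, 0 ≤ x k} G) {lo hi : ℝ}
    (hlo : 0 < lo) {x g : Fin K → ℝ} (hx : x ∈ Simp K lo hi)
    (hm : ∀ y ∈ Simp K lo hi, G x ≤ G y)
    (hd : ∀ k, HasDerivAt (fun t => G (Function.update x k t)) (g k) (x k))
    {k : ℕ} (hk : k ≤ K) (hmass : xe lo hi x k < xe lo hi x (k + 1)) :
    (∀ j ≤ k, 0 ≤ ∑ i ∈ Finset.Ico j k, ez g i) ∧
      ∀ j, k ≤ j → j ≤ K → ∑ i ∈ Finset.Ico k j, ez g i ≤ 0 := by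
  have hpos : ∀ i, 0 < x i := fun i => hlo.trans_le (hx.2 i).1
  have hlh : lo ≤ hi := by
    by_contra hc
    rcases Nat.eq_zero_or_pos K with rfl | hK
    · obtain rfl : k = 0 := by omega
      simp only [xe, lt_irrefl, dite_false] at hmass
      exact hc hmass.le
    · exact hc ((hx.2 ⟨0, hK⟩).1.trans (hx.2 ⟨0, hK⟩).2)
  have hM := xe_mono hx hlh
  have below : ∀ i : Fin K, i.val < k → x i ≤ xe lo hi x k := fun i hi' => by
    rw [← xe_succ lo hi x i]; exact hM hi'
  have above : ∀ i : Fin K, k ≤ i.val → xe lo hi x (k + 1) ≤ x i := fun i hi' => by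
    rw [← xe_succ lo hi x i]; exact hM (by omega)
  have h0 : lo ≤ xe lo hi x k := hM (Nat.zero_le k)
  have h1 : xe lo hi x (k + 1) ≤ hi := by
    have : xe lo hi x (K + 1) = hi := by simp [xe]
    exact (hM (by omega : k + 1 ≤ K + 1)).trans this.le
  have hev : ∀ᶠ ε in 𝓝[>] (0 : ℝ), 0 < ε ∧ ε ≤ xe lo hi x (k + 1) - xe lo hi x k :=
    Ioc_mem_nhdsGT (sub_pos.2 hmass)
  constructor
  · intro j _
    have := dir_nonneg hG hpos hd (Finset.univ.filter fun i : Fin K => j ≤ i.val ∧ i.val < k) 1
      (hev.mono fun ε hε => hm _ ⟨fun a b hab => ?_, fun a => ?_⟩)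
    · rwa [one_mul, sum_block g hk] at this
    · have hab' : a.val ≤ b.val := hab
      have := hx.1 hab
      simp only [Finset.mem_filter, Finset.mem_univ, true_and, mul_one]
      split_ifs with ha hb hb
      · linarith
      · have := below a ha.2
        have := above b (by omega)
        linarith [hε.2]
      · linarith [hε.1]
      · linarith
    · simp only [Finset.mem_filter, Finset.mem_univ, true_and, mul_one]
      split_ifs with ha
      · have := below a ha.2
        exact ⟨by linarith [(hx.2 a).1, hε.1], by linarith [hε.2]⟩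
      · simpa using hx.2 a
  · intro j _ hj
    have := dir_nonneg hG hpos hd (Finset.univ.filter fun i : Fin K => k ≤ i.val ∧ i.val < j) (-1)
      (hev.mono fun ε hε => hm _ ⟨fun a b hab => ?_, fun a => ?_⟩)
    · rw [sum_block g hj] at this; linarith
    · have hab' : a.val ≤ b.val := hab
      have := hx.1 hab
      simp only [Finset.mem_filter, Finset.mem_univ, true_and, mul_neg, mul_one]
      split_ifs with ha hb hb
      · linarith
      · linarith [hε.1]
      · have := below a (by omega)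
        have := above b hb.1
        linarith [hε.2]
      · linarith
    · simp only [Finset.mem_filter, Finset.mem_univ, true_and, mul_neg, mul_one]
      split_ifs with ha
      · have := above a ha.1
        exact ⟨by linarith [hε.2], by linarith [(hx.2 a).2, hε.1]⟩
      · simpa using hx.2 a

/-! ### the linear grid -/

theorem sum_grid (a m : ℕ) :
    ∑ i ∈ Finset.Ico a (a + m), ((i : ℝ) + 1 / 2) = m * (a + m / 2) := by
  induction m with
  | zero => simp
  | succ m ih =>
    rw [← add_assoc, Finset.sum_Ico_succ_top (by omega), ih]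
    push_cast; ring

/-- the data of a discrete Parisi problem at a node `k` with mass -/
structure Grid (K k : ℕ) (h : ℝ) (r rb : ℕ → ℝ) : Prop where
  hk : k ≤ K
  h0 : 0 ≤ h
  nonneg : 0 ≤ r 0
  lo : ∀ i < K, r i ≤ rb i
  hi : ∀ i < K, rb i ≤ r (i + 1)
  below : ∀ j ≤ k, 0 ≤ ∑ i ∈ Finset.Ico j k, (rb i - (i + 1 / 2) * h)
  above : ∀ j, k ≤ j → j ≤ K → ∑ i ∈ Finset.Ico k j, (rb i - (i + 1 / 2) * h) ≤ 0

namespace Grid

variable {k : ℕ} {h : ℝ} {r rb : ℕ → ℝ} (H : Grid K k h r rb)
include H

theorem mono {i j : ℕ} (hij : i ≤ j) (hj : j ≤ K) : r i ≤ r j := by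
  induction j, hij using Nat.le_induction with
  | base => exact le_rfl
  | succ j hij ih => exact (ih (by omega)).trans ((H.lo j hj).trans (H.hi j hj))

theorem rb_le (hk : k < K) : rb k ≤ (k + 1 / 2) * h := by
  have := H.above (k + 1) (by omega) hk
  rw [Finset.sum_Ico_succ_top le_rfl] at this
  simp only [Finset.Ico_self, Finset.sum_empty, zero_add] at this
  linarith

/-- (i), upper half -/
theorem r_le (hk : k < K) : r k ≤ (k + 1 / 2) * h := (H.lo k hk).trans (H.rb_le hk)

/-- (i), lower half -/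
theorem le_r : (k - 1 / 2) * h ≤ r k := by
  cases k with
  | zero => have := H.nonneg; have := H.h0; simp only [Nat.cast_zero]; linarith
  | succ k =>
    have := H.below k (by omega)
    rw [Finset.sum_Ico_succ_top le_rfl] at this
    simp only [Finset.Ico_self, Finset.sum_empty, zero_add] at this
    have h2 := H.hi k H.hk
    push_cast; linarith

/-- (ii) -/
theorem rb_sub (hk : k < K) : rb k - r k ≤ h := by
  have := H.rb_le hk; have := H.le_r; linarith

/-- (iii), below the node -/
theorem sub_below (hk : k < K) (i : ℕ) : r k - r (k - i) ≤ (2 * i + 1) * h := by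
  have h0 := H.h0
  have hu := H.r_le hk
  rcases Nat.eq_zero_or_pos i with rfl | hi
  · simpa using h0
  have hi' : (0 : ℝ) < i := by exact_mod_cast hi
  by_cases h2 : 2 * i ≤ k
  · obtain ⟨a, rfl⟩ := Nat.exists_eq_add_of_le' h2
    have hb := H.below a (by omega)
    have e : a + 2 * i - i = a + i := by omega
    rw [e]
    rw [Finset.sum_sub_distrib, ← Finset.sum_mul, sum_grid,
      ← Finset.sum_Ico_consecutive _ (by omega : a ≤ a + i) (by omega : a + i ≤ a + 2 * i)] at hb
    have s1 : ∑ l ∈ Finset.Ico a (a + i), rb l ≤ i * r (a + i) := by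
      refine (Finset.sum_le_card_nsmul _ _ (r (a + i)) fun l hl => ?_).trans (by simp)
      rw [Finset.mem_Ico] at hl
      exact (H.hi l (by omega)).trans (H.mono (by omega) (by omega))
    have s2 : ∑ l ∈ Finset.Ico (a + i) (a + 2 * i), rb l ≤ i * r (a + 2 * i) := by
      refine (Finset.sum_le_card_nsmul _ _ (r (a + 2 * i)) fun l hl => ?_).trans ?_
      · rw [Finset.mem_Ico] at hl
        exact (H.hi l (by omega)).trans (H.mono (by omega) (by omega))
      · rw [Nat.card_Ico, show a + 2 * i - (a + i) = i by omega]; simp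
    push_cast at hb hu
    have : 0 ≤ i * (r (a + i) + r (a + 2 * i) - 2 * (a + i) * h) := by nlinarith
    have := (mul_nonneg_iff_of_pos_left hi').1 this
    nlinarith
  · have h3 : (k : ℝ) ≤ 2 * i := by exact_mod_cast (by omega : k ≤ 2 * i)
    have := H.nonneg.trans (H.mono (Nat.zero_le (k - i)) (by omega))
    nlinarith

/-- (iii), above the node -/
theorem sub_above (i : ℕ) (hi2 : k + 2 * i ≤ K) : r (k + i) - r k ≤ (2 * i + 1) * h := by
  have h0 := H.h0
  have hu := H.le_r
  rcases Nat.eq_zero_or_pos i with rfl | hi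
  · simpa using h0
  have hi' : (0 : ℝ) < i := by exact_mod_cast hi
  have hb := H.above (k + 2 * i) (by omega) hi2
  rw [Finset.sum_sub_distrib, ← Finset.sum_mul, sum_grid,
    ← Finset.sum_Ico_consecutive _ (by omega : k ≤ k + i) (by omega : k + i ≤ k + 2 * i)] at hb
  have s1 : i * r k ≤ ∑ l ∈ Finset.Ico k (k + i), rb l := by
    refine le_trans (by simp) (Finset.card_nsmul_le_sum _ _ (r k) fun l hl => ?_)
    rw [Finset.mem_Ico] at hl
    exact (H.mono hl.1 (by omega)).trans (H.lo l (by omega))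
  have s2 : i * r (k + i) ≤ ∑ l ∈ Finset.Ico (k + i) (k + 2 * i), rb l := by
    refine le_trans ?_ (Finset.card_nsmul_le_sum _ _ (r (k + i)) fun l hl => ?_)
    · rw [Nat.card_Ico, show k + 2 * i - (k + i) = i by omega]; simp
    · rw [Finset.mem_Ico] at hl
      exact (H.mono hl.1 (by omega)).trans (H.lo l (by omega))
  push_cast at hb
  have : 0 ≤ i * (2 * (k + i) * h - (r k + r (k + i))) := by nlinarith
  have := (mul_nonneg_iff_of_pos_left hi').1 this
  nlinarith

end Grid

/-! ### the envelope -/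

/-- the value function moves no faster than the partial derivative at a minimiser -/
theorem envelope {α : Type*} {G : ℝ → α → ℝ} {S : Set α} {m : ℝ → α} {a b C : ℝ}
    {D B B' : ℝ → ℝ} (hm : ∀ d ∈ Icc a b, m d ∈ S ∧ ∀ x ∈ S, G d (m d) ≤ G d x)
    (hL : ∀ x ∈ S, ∀ d ∈ Icc a b, ∀ e ∈ Icc a b, G d x - G e x ≤ C * |d - e|)
    (hD : ∀ d ∈ Ico a b, HasDerivWithinAt (fun e => G e (m d)) (D d) (Ici d) d)
    (hB : ContinuousOn B (Icc a b)) (hB' : ∀ d ∈ Ico a b, HasDerivWithinAt B (B' d) (Ici d) d)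
    (hle : ∀ d ∈ Ico a b, D d ≤ B' d) :
    ∀ d ∈ Icc a b, G d (m d) - G a (m a) ≤ B d - B a := by
  have hV : ∀ d ∈ Icc a b, ∀ e ∈ Icc a b, G d (m d) - G e (m e) ≤ C * |d - e| :=
    fun d hd e he => by linarith [(hm d hd).2 _ (hm e he).1, hL _ (hm e he).1 d hd e he]
  have hc : ContinuousOn (fun d => G d (m d)) (Icc a b) := by
    refine (LipschitzOnWith.of_dist_le_mul (K := ⟨|C|, abs_nonneg C⟩) fun d hd e he => ?_).continuousOn
    rw [Real.dist_eq, Real.dist_eq, abs_le]
    have h1 := hV d hd e he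
    have h2 := hV e he d hd
    rw [abs_sub_comm e d] at h2
    have h3 := mul_le_mul_of_nonneg_right (le_abs_self C) (abs_nonneg (d - e))
    change -(|C| * |d - e|) ≤ _ ∧ _ ≤ |C| * |d - e|
    constructor <;> linarith
  intro d hd
  have := image_le_of_liminf_slope_right_le_deriv_boundary hc
    (B := fun d => B d - B a + G a (m a)) (B' := B') (by simp)
    ((hB.sub continuousOn_const).add continuousOn_const)
    (fun x hx => ((hB' x hx).sub_const _).add_const _) (fun x hx r hr => ?_) hd
  · linarith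
  · have h1 := ((hD x hx).mono Ioi_subset_Ici_self)
    rw [hasDerivWithinAt_iff_tendsto_slope' (by simp)] at h1
    have h2 := h1.eventually (Iio_mem_nhds ((hle x hx).trans_lt hr))
    refine Eventually.frequently ?_
    filter_upwards [h2, Ioc_mem_nhdsGT hx.2] with z hz hz'
    refine lt_of_le_of_lt ?_ hz
    rw [slope_def_field, slope_def_field]
    have hx' : x ∈ Icc a b := ⟨hx.1, hx.2.le⟩
    have := (hm z ⟨hx.1.trans hz'.1.le, hz'.2⟩).2 _ (hm x hx').1
    exact div_le_div_of_nonneg_right (by linarith) (sub_pos.2 hz'.1).le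

/-- the same from below -/
theorem envelope_ge {α : Type*} {G : ℝ → α → ℝ} {S : Set α} {m : ℝ → α} {a b C : ℝ}
    {D B B' : ℝ → ℝ} (hm : ∀ d ∈ Icc a b, m d ∈ S ∧ ∀ x ∈ S, G d (m d) ≤ G d x)
    (hL : ∀ x ∈ S, ∀ d ∈ Icc a b, ∀ e ∈ Icc a b, G d x - G e x ≤ C * |d - e|)
    (hD : ∀ d ∈ Ioc a b, HasDerivWithinAt (fun e => G e (m d)) (D d) (Iic d) d)
    (hB : ContinuousOn B (Icc a b)) (hB' : ∀ d ∈ Ioc a b, HasDerivWithinAt B (B' d) (Iic d) d)
    (hle : ∀ d ∈ Ioc a b, B' d ≤ D d) :
    ∀ d ∈ Icc a b, B b - B d ≤ G b (m b) - G d (m d) := by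
  have n1 : ∀ d ∈ Icc (-b) (-a), -d ∈ Icc a b := fun d hd => ⟨by linarith [hd.2], by linarith [hd.1]⟩
  have n2 : ∀ d ∈ Ico (-b) (-a), -d ∈ Ioc a b := fun d hd => ⟨by linarith [hd.2], by linarith [hd.1]⟩
  have n3 : ∀ d : ℝ, HasDerivWithinAt (fun e : ℝ => -e) (-1) (Ici d) d :=
    fun d => (hasDerivAt_neg d).hasDerivWithinAt
  have n4 : ∀ d : ℝ, MapsTo (fun e : ℝ => -e) (Ici d) (Iic (-d)) :=
    fun d e he => neg_le_neg (mem_Ici.1 he)
  intro d hd
  have := envelope (G := fun d => G (-d)) (S := S) (m := fun d => m (-d)) (a := -b) (b := -a)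
    (C := C) (D := fun d => D (-d) * -1) (B := fun d => B (-d)) (B' := fun d => B' (-d) * -1)
    (fun d hd => hm _ (n1 d hd))
    (fun x hx d hd e he => by
      have := hL x hx _ (n1 d hd) _ (n1 e he)
      rwa [show -d - -e = -(d - e) by ring, abs_neg] at this)
    (fun d hd => (hD _ (n2 d hd)).comp d (n3 d) (n4 d))
    (hB.comp continuous_neg.continuousOn n1)
    (fun d hd => (hB' _ (n2 d hd)).comp d (n3 d) (n4 d))
    (fun d hd => by linarith [hle _ (n2 d hd)]) (-d) ⟨by linarith [hd.2], by linarith [hd.1]⟩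
  simp only [neg_neg] at this
  linarith

end Crest.Agent.T156.Kkt

end
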