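import Crest.Agent.T156.LDef_69

/-!
# Row 156, block (L): the thick zone, primed statements (helper69)
-/

set_option autoImplicit false

noncomputable section

namespace Crest.Agent.T156.Alt.L69

open MeasureTheory Real Finset Filter

/-- numbers of the thick zone: `g` bounds the residual below the last window -/
structure LT' (E : ℝ) (S : Sc) (M : Md) (l X Xp Lg X2 X4 g t1 ℓ N En p0 : ℝ) (η : ℝ → ℝ) :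
    Prop where
  F1 : S.F = 1
  g0 : 0 ≤ g
  g1 : ∀ k, S.jl < k → l ≤ M.s k → M.s k + ℓ / 8 ≤ M.s S.J → |M.G k| ≤ g
  g2 : E * g ≤ S.ms l ^ ((3 : ℝ) / 2)
  lX : E * X ^ ((1 : ℝ) / 3) ≤ l
  ml : ∀ t, l ≤ t → t ≤ S.C → E * √(S.ms t) ≤ t
  ℓ1 : E * √S.θ ≤ ℓ
  ℓ2 : E * ℓ ≤ 1
  t1a : 2 * l ≤ t1
  t1b : E * t1 ≤ 1
  t1c : E * X ≤ t1 ^ 4
  x4 : L4 S (X ^ ((1 : ℝ) / 3)) X (t1 / 2) S.C X4
  en : cB M S η (t1 / 2) S.C + X2 ^ 2 + X4 + N + l ^ 3 * X +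
    (S.ms t1 * bs S Lg X2 g η t1) ^ 2 / t1 ≤ En
  pa : √En + l * X ^ ((1 : ℝ) / 3) * √(S.ms l) +
    ∑ k ∈ (Ioo S.jl S.J).filter fun k => l ≤ M.s k, dx M k * bs S Lg X2 g η (M.s k) ≤ p0
  tp : E * Xp ≤ ℓ ^ 3 ∨ E * (En + t1 * p0 ^ 2) ≤ S.θ * ℓ ^ 3
  pc : E * p0 ≤ √(S.ms l)

/-- **(TL2')** -/
def TL2' : Prop := CL fun E Λ S M m a =>
  ∀ G1 u1 u2 j γ Lc ηc τ l0 l X Xp Vt Lg Lp X2 X3 X4 G0 η N g t1 ℓ En p0,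
  CeiG S M G1 → LN E S M l0 l (X ^ ((1 : ℝ) / 3)) X Lg X2 X3 G0 η →
  LP E S M Xp Vt Lg Lp X2 X3 G0 G1 u1 u2 j γ Lc ηc τ η N → Ap S M m a l0 X Xp Vt u1 j →
  LT' E S M l X Xp Lg X2 X4 g t1 ℓ N En p0 η →
    (∀ k, 2 * l ≤ M.s k → M.s k + ℓ ≤ M.s S.J →
      |M.del m a k| ≤ Λ * (p0 + bs S Lg X2 g η (M.s k))) ∧
    LO Λ S M m a (2 * t1) u2 (En + t1 * p0 ^ 2)

/-- **(TL3')** -/
def TL3' : Prop := CL fun E Λ S M m a =>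
  ∀ G1 u1 u2 j γ Lc ηc τ l0 l X Xp Vt Lg Lp X2 X3 X4 G0 η N g t1 ℓ En p0 X4',
  CeiG S M G1 → LN E S M l0 l (X ^ ((1 : ℝ) / 3)) X Lg X2 X3 G0 η →
  LP E S M Xp Vt Lg Lp X2 X3 G0 G1 u1 u2 j γ Lc ηc τ η N → Ap S M m a l0 X Xp Vt u1 j →
  LT' E S M l X Xp Lg X2 X4 g t1 ℓ N En p0 η → E * (p0 + bs S Lg X2 g η 1 ^ 2) ≤ ℓ ^ 2 →
  L4 S 0 Xp (M.s S.J / 2) S.C X4' →
    LO Λ S M m a (M.s S.J - ℓ) u2 (N + cB M S η (M.s S.J - 4 * ℓ) S.C + ℓ * X2 ^ 2 + X4' +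
      ℓ ^ 3 * (p0 + bs S Lg X2 g η 1) ^ 2 + u2 * (p0 + X2))

end Crest.Agent.T156.Alt.L69

end
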