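import Crest.Agent.T156.SoftDef_88

/-!
# Row 156 (helper39): the last glue, `flow + one weak lower bound ⇒ Key`

* `key_of_cauchy`: a Cauchy estimate uniform for tilts `s ≤ n^k` and a lower bound `≫ n^{-c}` at
  one growing tilt give `Key`.
* `key_of_flow`: the self-bounding form (helper5, note 7121): the error of one step is
  `n^{-c} (√(s B_n(2s)) + s^q)`, `B_n(s)` an upper envelope of `L(a,s)` over all models of the path
  from `n` to `n' ≤ 2n`.  Tightness is an output; the lower bound is needed in any one model.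
-/

set_option autoImplicit false
open Filter Topology Set

namespace Crest.Agent.T156.Soft

namespace LG39

/-- chaining along doublings, upper form -/
theorem chain (m : ℕ → ℝ) {c E : ℝ} {n₀ : ℕ} (hc : 0 < c) (hE : 0 ≤ E)
    (h : ∀ n : ℕ, n₀ ≤ n → m n ≤ m (2 * n) + E * (n : ℝ) ^ (-c)) {n : ℕ} (hn : n₀ ≤ n) (j : ℕ) :
    m n ≤ m (2 ^ j * n) + E / (1 - (2 : ℝ) ^ (-c)) * (n : ℝ) ^ (-c) := by
  have hρ : (2 : ℝ) ^ (-c) < 1 := Real.rpow_lt_one_of_one_lt_of_neg (by norm_num) (by linarith)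
  set G := E / (1 - (2 : ℝ) ^ (-c)) with hG
  have hG0 : 0 ≤ G := div_nonneg hE (by linarith)
  have hGE : G * (1 - (2 : ℝ) ^ (-c)) = E := by rw [hG]; field_simp [(by linarith : (1 - (2 : ℝ) ^ (-c)) ≠ 0)]
  have key : ∀ j : ℕ, m n - G * (n : ℝ) ^ (-c) ≤
      m (2 ^ j * n) - G * ((2 ^ j * n : ℕ) : ℝ) ^ (-c) := by
    intro j
    induction j with
    | zero => simp
    | succ j ih =>
      have h1 : n₀ ≤ 2 ^ j * n := hn.trans (Nat.le_mul_of_pos_left n (by positivity))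
      have h2 := h _ h1
      have e : 2 ^ (j + 1) * n = 2 * (2 ^ j * n) := by ring
      have e2 : ((2 * (2 ^ j * n) : ℕ) : ℝ) ^ (-c) =
          (2 : ℝ) ^ (-c) * ((2 ^ j * n : ℕ) : ℝ) ^ (-c) := by
        rw [Nat.cast_mul, Real.mul_rpow (by positivity) (by positivity)]; norm_num
      rw [e, e2]
      have : E * ((2 ^ j * n : ℕ) : ℝ) ^ (-c) =
        G * ((2 ^ j * n : ℕ) : ℝ) ^ (-c) - G * ((2 : ℝ) ^ (-c) * ((2 ^ j * n : ℕ) : ℝ) ^ (-c)) := by
        rw [← hGE]; ring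
      linarith
  have := key j
  have h3 : 0 ≤ G * ((2 ^ j * n : ℕ) : ℝ) ^ (-c) := by positivity
  linarith

theorem le_pow_mul (j n : ℕ) (hn : 1 ≤ n) : j ≤ 2 ^ j * n :=
  (Nat.lt_two_pow_self (n := j)).le.trans (Nat.le_mul_of_pos_right _ hn)

theorem ev_pow {k : ℝ} (hk : 0 < k) (x : ℝ) : ∃ n₀ : ℕ, ∀ n : ℕ, n₀ ≤ n → x ≤ (n : ℝ) ^ k := by
  have := ((tendsto_rpow_atTop hk).comp tendsto_natCast_atTop_atTop).eventually_ge_atTop x
  exact eventually_atTop.1 this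

theorem pow_mono {k : ℝ} (hk : 0 ≤ k) {n n' : ℕ} (h : n ≤ n') : (n : ℝ) ^ k ≤ (n' : ℝ) ^ k :=
  Real.rpow_le_rpow (by positivity) (by exact_mod_cast h) hk

theorem pow_anti {c : ℝ} (hc : 0 ≤ c) {n n' : ℕ} (hn : 1 ≤ n) (h : n ≤ n') :
    (n' : ℝ) ^ (-c) ≤ (n : ℝ) ^ (-c) :=
  Real.rpow_le_rpow_of_nonpos (by exact_mod_cast hn) (by exact_mod_cast h) (by linarith)

end LG39

open LG39

/-- Cauchy estimate at rate `n^{-c}`, uniform for tilt pairs `1 ≤ s ≤ s' ≤ K s`, `s' ≤ n^k` -/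
def CauchyR (β K k c C : ℝ) (n₁ : ℕ) : Prop :=
  ∀ n n' : ℕ, n₁ ≤ n → n ≤ n' → n' ≤ 2 * n → ∀ s s' : ℝ, 1 ≤ s → s ≤ s' → s' ≤ K * s →
    s' ≤ (n : ℝ) ^ k → |Ln n β s s' - Ln n' β s s'| ≤ C * (n : ℝ) ^ (-c)

/-- lower bound `≫ n^{-c}` at one (growing) tilt, infinitely often -/
def LowR (β K k c : ℝ) : Prop :=
  ∀ A : ℝ, ∃ᶠ n : ℕ in atTop, ∃ s s' : ℝ, 1 ≤ s ∧ s ≤ s' ∧ 2 * s' ≤ K * s ∧ K * s ≤ (n : ℝ) ^ k ∧
    A * (n : ℝ) ^ (-c) ≤ Ln n β s s'

theorem key_of_cauchy {β K k c C : ℝ} {n₁ : ℕ} (hK : 3 ≤ K) (hk : 0 ≤ k) (hc : 0 < c)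
    (hC : CauchyR β K k c C n₁) (hL : LowR β K k c) : Key β := by
  set E := max C 0 with hE
  have hE0 : 0 ≤ E := le_max_right _ _
  obtain ⟨n₀, ⟨s, s', h1, h2, h3, h4, h5⟩, hn₀⟩ :=
    ((hL (E / (1 - (2 : ℝ) ^ (-c)) + 1)).and_eventually
      (eventually_ge_atTop (max n₁ 1))).exists
  have hn1 : n₁ ≤ n₀ := (le_max_left _ _).trans hn₀
  have hn2 : 1 ≤ n₀ := (le_max_right _ _).trans hn₀
  have hKs : 3 * s ≤ K * s := by nlinarith
  have hC' : ∀ n n' : ℕ, n₀ ≤ n → n ≤ n' → n' ≤ 2 * n → ∀ u ∈ Icc s (K * s),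
      |Ln n β s u - Ln n' β s u| ≤ E * (n : ℝ) ^ (-c) := by
    intro n n' a b d u hu
    refine (hC n n' (hn1.trans a) b d s u h1 hu.1 hu.2
      (hu.2.trans (h4.trans (pow_mono hk a)))).trans ?_
    exact mul_le_mul_of_nonneg_right (le_max_left _ _) (by positivity)
  refine ⟨s, K * s, c, E, n₀, by linarith, hKs, hc, hC', s, s', (n₀ : ℝ) ^ (-c),
    ⟨le_rfl, by linarith⟩, ⟨h2, by linarith⟩, Real.rpow_pos_of_pos (by exact_mod_cast hn2) _, ?_⟩
  rw [frequently_atTop]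
  intro j
  refine ⟨2 ^ j * n₀, le_pow_mul j n₀ hn2, ?_⟩
  have := chain (fun n => Ln n β s s') hc hE0 (n₀ := n₀) (fun n hn => by
    have := hC' n (2 * n) hn (by omega) le_rfl s' ⟨h2, by linarith⟩
    have := (abs_le.1 this).2
    linarith) le_rfl j
  nlinarith

/-- one-step error of the flow -/
noncomputable def ferr (B : ℕ → ℝ → ℝ) (c q : ℝ) (n : ℕ) (s : ℝ) : ℝ :=
  (n : ℝ) ^ (-c) * (Real.sqrt (s * B n (2 * s)) + s ^ q)

/-- self-bounding flow: `ℓ n s = L_n(a,s)`, `B n s` an upper envelope of `L(a,s)` over the models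
of the paths from `n` to every `n' ∈ [n,2n]` -/
structure Flow (ℓ B : ℕ → ℝ → ℝ) (a k c q r D : ℝ) (n₁ : ℕ) : Prop where
  triv : ∀ n : ℕ, n₁ ≤ n → ∀ s : ℝ, a ≤ s → B n s ≤ D * s * (n : ℝ) ^ r
  le : ∀ n n' : ℕ, n₁ ≤ n → n ≤ n' → n' ≤ 2 * n → ∀ s : ℝ, a ≤ s → ℓ n' s ≤ B n s
  sup : ∀ n : ℕ, n₁ ≤ n → ∀ s : ℝ, a ≤ s → s ≤ (n : ℝ) ^ k → B n s ≤ ℓ n s + ferr B c q n s
  step : ∀ n n' : ℕ, n₁ ≤ n → n ≤ n' → n' ≤ 2 * n → ∀ s : ℝ, a ≤ s → s ≤ (n : ℝ) ^ k →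
    |ℓ n s - ℓ n' s| ≤ ferr B c q n s

/-- weak lower bound in any one model of the path -/
def LowB (B : ℕ → ℝ → ℝ) (a k c q : ℝ) : Prop :=
  ∀ A : ℝ, ∃ᶠ n : ℕ in atTop, ∃ s : ℝ, a ≤ s ∧ A * s ≤ (n : ℝ) ^ k ∧
    A * (n : ℝ) ^ (-c) * s ^ q ≤ B n s

namespace LG39

variable {ℓ B : ℕ → ℝ → ℝ} {a k c q r D : ℝ} {n₁ : ℕ}

/-- the error under a polynomial bound on `B` -/
theorem ferr_le {n : ℕ} {s x e e' : ℝ} (hs : 1 ≤ s) (hx : 0 ≤ x) (he : 0 ≤ e) (h1 : (1 + e) / 2 ≤ e')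
    (h2 : q ≤ e') (hB : B n (2 * s) ≤ x ^ 2 * (2 * s) ^ e) :
    ferr B c q n s ≤ (n : ℝ) ^ (-c) * ((2 ^ e * x + 1) * s ^ e') := by
  have hs0 : 0 < s := by linarith
  unfold ferr
  refine mul_le_mul_of_nonneg_left ?_ (by positivity)
  have a1 : s ^ q ≤ s ^ e' := Real.rpow_le_rpow_of_exponent_le hs h2
  have a2 : Real.sqrt (s * B n (2 * s)) ≤ 2 ^ e * x * s ^ e' := by
    refine Real.sqrt_le_iff.2 ⟨by positivity, ?_⟩
    have b1 : (1 : ℝ) ≤ 2 ^ e := Real.one_le_rpow (by norm_num) he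
    have b2 : s * s ^ e ≤ (s ^ e') ^ 2 := by
      rw [← Real.rpow_one_add' hs0.le (by linarith), ← Real.rpow_natCast, ← Real.rpow_mul hs0.le]
      exact Real.rpow_le_rpow_of_exponent_le hs (by push_cast; linarith)
    have b3 : (2 : ℝ) ^ e ≤ (2 ^ e) ^ 2 := by nlinarith
    calc s * B n (2 * s) ≤ s * (x ^ 2 * (2 * s) ^ e) := mul_le_mul_of_nonneg_left hB hs0.le
      _ = x ^ 2 * (2 ^ e * (s * s ^ e)) := by rw [Real.mul_rpow (by norm_num) hs0.le]; ring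
      _ ≤ x ^ 2 * ((2 ^ e) ^ 2 * (s ^ e') ^ 2) :=
          mul_le_mul_of_nonneg_left (mul_le_mul b3 b2 (by positivity) (by positivity))
            (by positivity)
      _ = (2 ^ e * x * s ^ e') ^ 2 := by ring
  nlinarith

/-- one step of tightness -/
theorem one_step (h : Flow ℓ B a k c q r D n₁) (ha : 1 ≤ a) (hk : 0 < k) (hr : 0 ≤ r) {p y : ℝ}
    (hp : 1 + r / k ≤ p) (hq : q ≤ p) {n : ℕ} (hn : n₁ ≤ n) (hy : 1 ≤ y) (hD : D ≤ y ^ 2)
    (hT : ∀ s : ℝ, a ≤ s → ℓ n s ≤ y ^ 2 * s ^ p) (s : ℝ) (hs : a ≤ s) :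
    B n s ≤ (y + (2 ^ p + 1) * (n : ℝ) ^ (-c)) ^ 2 * s ^ p := by
  have hp1 : 1 ≤ p := by have : 0 ≤ r / k := by positivity
                         linarith
  set S : Set ℝ := (fun s => B n s / s ^ p) '' Ici a with hS
  have hne : S.Nonempty := ⟨_, a, (le_rfl : a ≤ a), rfl⟩
  have hbd : BddAbove S := by
    refine ⟨y ^ 2 * (n : ℝ) ^ r, ?_⟩
    rintro _ ⟨u, hu, rfl⟩
    have hu1 : 1 ≤ u := ha.trans hu
    have hup : u ≤ u ^ p := by
      simpa using Real.rpow_le_rpow_of_exponent_le hu1 hp1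
    simp only
    rw [div_le_iff₀ (by positivity)]
    calc B n u ≤ D * u * (n : ℝ) ^ r := h.triv n hn u hu
      _ ≤ y ^ 2 * u ^ p * (n : ℝ) ^ r :=
          mul_le_mul_of_nonneg_right (mul_le_mul hD hup (by linarith) (by positivity))
            (by positivity)
      _ = _ := by ring
  set x := Real.sqrt (sSup S) with hx
  have hx0 : 0 ≤ x := Real.sqrt_nonneg _
  have hx2 : x ^ 2 = max (sSup S) 0 := Real.sq_sqrt'
  have hBx : ∀ u : ℝ, a ≤ u → B n u ≤ x ^ 2 * u ^ p := by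
    intro u hu
    have hu0 : 0 < u := by linarith
    have : B n u / u ^ p ≤ sSup S := le_csSup hbd ⟨u, hu, rfl⟩
    rw [← div_le_iff₀ (by positivity), hx2]
    exact this.trans (le_max_left _ _)
  set ε := (n : ℝ) ^ (-c) with hε
  have hε0 : 0 ≤ ε := by positivity
  have h2p : (0 : ℝ) ≤ 2 ^ p := by positivity
  have hsup : sSup S ≤ y ^ 2 + ε * (2 ^ p * x + 1) := by
    refine csSup_le hne ?_
    rintro _ ⟨u, hu, rfl⟩
    have hu1 : 1 ≤ u := ha.trans hu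
    have hu0 : 0 < u := by linarith
    simp only
    rw [div_le_iff₀ (by positivity)]
    rcases le_total u ((n : ℝ) ^ k) with hh | hh
    · have e1 := h.sup n hn u hu hh
      have e2 := ferr_le (B := B) (c := c) (q := q) (n := n) (e := p) (e' := p) hu1 hx0
        (by linarith) (by linarith) hq (hBx (2 * u) (by have : a ≤ u := hu; linarith))
      have e3 := hT u hu
      rw [← hε] at e2
      nlinarith
    · have e1 := h.triv n hn u hu
      have e2 : (n : ℝ) ^ r ≤ u ^ (r / k) := by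
        have : (n : ℝ) ^ r = ((n : ℝ) ^ k) ^ (r / k) := by
          rw [← Real.rpow_mul (by positivity)]; congr 1; field_simp
        rw [this]
        exact Real.rpow_le_rpow (by positivity) hh (by positivity)
      have e3 : u * u ^ (r / k) ≤ u ^ p := by
        rw [← Real.rpow_one_add' hu0.le (by positivity)]
        exact Real.rpow_le_rpow_of_exponent_le hu1 hp
      have e4 : D * u * (n : ℝ) ^ r ≤ y ^ 2 * u ^ p := by
        calc D * u * (n : ℝ) ^ r ≤ y ^ 2 * u * u ^ (r / k) :=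
              mul_le_mul (mul_le_mul_of_nonneg_right hD hu0.le) e2 (by positivity) (by positivity)
          _ = y ^ 2 * (u * u ^ (r / k)) := by ring
          _ ≤ _ := mul_le_mul_of_nonneg_left e3 (by positivity)
      have e5 : 0 ≤ ε * (2 ^ p * x + 1) * u ^ p := by positivity
      nlinarith
  have hx3 : x ^ 2 ≤ y ^ 2 + ε * (2 ^ p * x + 1) := by
    rw [hx2]; exact max_le hsup (by positivity)
  have hx4 : x ≤ y + (2 ^ p + 1) * ε := by
    by_contra hcon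
    rw [not_le] at hcon
    have f1 : y + ε < x - 2 ^ p * ε := by linarith
    have f2 : y + ε < x := by nlinarith
    have f3 : (y + ε) * (y + ε) < x * (x - 2 ^ p * ε) :=
      mul_lt_mul'' f2 f1 (by linarith) (by linarith)
    nlinarith
  have hs0 : 0 < s := by linarith
  exact (hBx s hs).trans (mul_le_mul_of_nonneg_right (pow_le_pow_left₀ hx0 hx4 2) (by positivity))

/-- tightness is an output of the flow -/
theorem tight (h : Flow ℓ B a k c q r D n₁) (ha : 1 ≤ a) (hk : 0 < k) (hc : 0 < c) (hr : 0 ≤ r)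
    {p : ℝ} (hp : 1 + r / k ≤ p) (hq : q ≤ p) :
    ∃ x : ℝ, 0 ≤ x ∧ ∀ n : ℕ, max n₁ 2 ≤ n → ∀ s : ℝ, a ≤ s → B n s ≤ x ^ 2 * s ^ p := by
  have hp1 : 1 ≤ p := by have : 0 ≤ r / k := by positivity
                         linarith
  set n₂ := max n₁ 2 with hn₂
  have h21 : n₁ ≤ n₂ := le_max_left _ _
  have h22 : 2 ≤ n₂ := le_max_right _ _
  have hρ : (3 / 2 : ℝ) ^ (-c) < 1 := Real.rpow_lt_one_of_one_lt_of_neg (by norm_num) (by linarith)
  set κ : ℝ := 2 ^ p + 1 with hκ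
  have hκ0 : 0 ≤ κ := by positivity
  set G := κ / (1 - (3 / 2 : ℝ) ^ (-c)) with hG
  have hG0 : 0 ≤ G := div_nonneg hκ0 (by linarith)
  have hGE : G * (1 - (3 / 2 : ℝ) ^ (-c)) = κ := by
    rw [hG]; field_simp [(by linarith : (1 - (3 / 2 : ℝ) ^ (-c)) ≠ 0)]
  set y₀ : ℝ := 1 + |D| * (1 + (n₂ : ℝ) ^ r) with hy₀
  have hnr : 0 ≤ (n₂ : ℝ) ^ r := by positivity
  have hD0 : 0 ≤ |D| := abs_nonneg D
  have hy1 : 1 ≤ y₀ := by nlinarith
  have hy2 : |D| ≤ y₀ := by nlinarith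
  have hy3 : |D| * (n₂ : ℝ) ^ r ≤ y₀ := by nlinarith
  have hlow : ∀ n : ℕ, n₂ ≤ n → y₀ ≤ y₀ + G - G * (n : ℝ) ^ (-c) := by
    intro n hn
    have : (n : ℝ) ^ (-c) ≤ 1 :=
      Real.rpow_le_one_of_one_le_of_nonpos (by exact_mod_cast (by omega : 1 ≤ n)) (by linarith)
    nlinarith
  have hstep : ∀ n : ℕ, n₂ ≤ n →
      (∀ s : ℝ, a ≤ s → ℓ n s ≤ (y₀ + G - G * (n : ℝ) ^ (-c)) ^ 2 * s ^ p) →
      ∀ s : ℝ, a ≤ s → B n s ≤ (y₀ + G - G * (n : ℝ) ^ (-c) + κ * (n : ℝ) ^ (-c)) ^ 2 * s ^ p := by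
    intro n hn hT
    have := hlow n hn
    exact one_step h ha hk hr hp hq (h21.trans hn) (by linarith)
      (by nlinarith [le_abs_self D]) hT
  have hT : ∀ N : ℕ, n₂ ≤ N → ∀ s : ℝ, a ≤ s →
      ℓ N s ≤ (y₀ + G - G * (N : ℝ) ^ (-c)) ^ 2 * s ^ p := by
    intro N
    induction N using Nat.strong_induction_on with
    | _ N ih =>
      intro hN s hs
      have hs1 : 1 ≤ s := ha.trans hs
      have hl := hlow N hN
      by_cases hh : N ≤ 2 * n₂
      · have e1 := (h.le n₂ N h21 hN hh s hs).trans (h.triv n₂ h21 s hs)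
        have hsp : s ≤ s ^ p := by simpa using Real.rpow_le_rpow_of_exponent_le hs1 hp1
        have e2 : D * s * (n₂ : ℝ) ^ r ≤ y₀ * s ^ p := by
          calc D * s * (n₂ : ℝ) ^ r = D * (n₂ : ℝ) ^ r * s := by ring
            _ ≤ y₀ * s ^ p := mul_le_mul ((mul_le_mul_of_nonneg_right (le_abs_self D) hnr).trans hy3)
                hsp (by linarith) (by linarith)
        have e3 : y₀ ≤ (y₀ + G - G * (N : ℝ) ^ (-c)) ^ 2 := by nlinarith
        exact e1.trans (e2.trans (mul_le_mul_of_nonneg_right e3 (by positivity)))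
      · set n := (N + 1) / 2 with hn
        have a1 : n₂ ≤ n := by omega
        have a2 : n < N := by omega
        have a3 : N ≤ 2 * n := by omega
        have a4 : (3 / 2 : ℝ) * n ≤ N := by
          have : 3 * n ≤ 2 * N := by omega
          have : (3 : ℝ) * n ≤ 2 * N := by exact_mod_cast this
          linarith
        have hn0 : (0 : ℝ) < n := by exact_mod_cast (by omega : 0 < n)
        have a5 : (N : ℝ) ^ (-c) ≤ (3 / 2 : ℝ) ^ (-c) * (n : ℝ) ^ (-c) := by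
          rw [← Real.mul_rpow (by norm_num) hn0.le]
          exact Real.rpow_le_rpow_of_nonpos (by positivity) a4 (by linarith)
        have e1 := (h.le n N (h21.trans a1) a2.le a3 s hs).trans (hstep n a1 (ih n a2 a1) s hs)
        refine e1.trans (mul_le_mul_of_nonneg_right (pow_le_pow_left₀ ?_ ?_ 2) (by positivity))
        · have := hlow n a1
          have : 0 ≤ κ * (n : ℝ) ^ (-c) := by positivity
          linarith
        · have b1 : G * (N : ℝ) ^ (-c) ≤ G * ((3 / 2 : ℝ) ^ (-c) * (n : ℝ) ^ (-c)) :=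
            mul_le_mul_of_nonneg_left a5 hG0
          have b2 : κ * (n : ℝ) ^ (-c) =
              G * (n : ℝ) ^ (-c) - G * ((3 / 2 : ℝ) ^ (-c) * (n : ℝ) ^ (-c)) := by
            rw [← hGE]; ring
          linarith
  refine ⟨y₀ + G + κ, by linarith, fun n hn s hs => ?_⟩
  have hs0 : 0 < s := by linarith
  refine (hstep n hn (hT n hn) s hs).trans
    (mul_le_mul_of_nonneg_right (pow_le_pow_left₀ ?_ ?_ 2) (by positivity))
  · have := hlow n hn
    have : 0 ≤ κ * (n : ℝ) ^ (-c) := by positivity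
    linarith
  · have b1 : (n : ℝ) ^ (-c) ≤ 1 :=
      Real.rpow_le_one_of_one_le_of_nonpos (by exact_mod_cast (by omega : 1 ≤ n)) (by linarith)
    have b2 : 0 ≤ G * (n : ℝ) ^ (-c) := by positivity
    nlinarith

/-- feedback step when the limit vanishes -/
theorem feed (h : Flow ℓ B a k c q r D n₁) (ha : 1 ≤ a) (hk : 0 < k) (hc : 0 < c)
    (hz : ∀ s : ℝ, a ≤ s → ∀ δ : ℝ, 0 < δ → ∀ᶠ n in atTop, ℓ n s < δ) {n₂ : ℕ} (h21 : n₁ ≤ n₂)
    (h22 : 1 ≤ n₂) {K x e e' : ℝ} (hK : 1 ≤ K) (hx : 0 ≤ x) (he : 0 ≤ e) (h1 : (1 + e) / 2 ≤ e')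
    (h2 : q ≤ e')
    (hB : ∀ n : ℕ, n₂ ≤ n → ∀ s : ℝ, a ≤ s → K * s ≤ (n : ℝ) ^ k → B n s ≤ x ^ 2 * s ^ e) :
    ∃ C : ℝ, 0 ≤ C ∧ ∀ n : ℕ, n₂ ≤ n → ∀ s : ℝ, a ≤ s → 2 * K * s ≤ (n : ℝ) ^ k →
      B n s ≤ C * (n : ℝ) ^ (-c) * s ^ e' := by
  have hρ : (2 : ℝ) ^ (-c) < 1 := Real.rpow_lt_one_of_one_lt_of_neg (by norm_num) (by linarith)
  set F : ℝ := 2 ^ e * x + 1 with hF
  have hF0 : 0 ≤ F := by positivity
  have hd : 0 ≤ F / (1 - (2 : ℝ) ^ (-c)) := div_nonneg hF0 (by linarith)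
  refine ⟨F / (1 - (2 : ℝ) ^ (-c)) + F, by linarith, fun n hn s hs hKs => ?_⟩
  have hs1 : 1 ≤ s := ha.trans hs
  have hs0 : 0 < s := by linarith
  have herr : ∀ m : ℕ, n ≤ m → s ≤ (m : ℝ) ^ k ∧ ferr B c q m s ≤ F * s ^ e' * (m : ℝ) ^ (-c) := by
    intro m hm
    have b1 := pow_mono hk.le hm
    refine ⟨by nlinarith, ?_⟩
    have := ferr_le (B := B) (c := c) (q := q) (n := m) hs1 hx he h1 h2
      (hB m (hn.trans hm) (2 * s) (by linarith) (by linarith))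
    rw [← hF] at this
    linarith
  have hch : ∀ j : ℕ, ℓ n s ≤ ℓ (2 ^ j * n) s +
      F * s ^ e' / (1 - (2 : ℝ) ^ (-c)) * (n : ℝ) ^ (-c) := fun j =>
    chain (fun m => ℓ m s) hc (by positivity) (n₀ := n) (fun m hm => by
      have b1 := h.step m (2 * m) (h21.trans (hn.trans hm)) (by omega) le_rfl s hs (herr m hm).1
      have b2 := (abs_le.1 b1).2
      have b3 := (herr m hm).2
      linarith) le_rfl j
  have hl : ℓ n s ≤ F * s ^ e' / (1 - (2 : ℝ) ^ (-c)) * (n : ℝ) ^ (-c) := by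
    refine le_of_forall_pos_le_add fun δ hδ => ?_
    obtain ⟨j, hj⟩ := eventually_atTop.1 (hz s hs δ hδ)
    have b1 := hj _ (le_pow_mul j n (h22.trans hn))
    have b2 := hch j
    linarith
  have b1 := h.sup n (h21.trans hn) s hs (herr n le_rfl).1
  have b2 := (herr n le_rfl).2
  have b3 : (F / (1 - (2 : ℝ) ^ (-c)) + F) * (n : ℝ) ^ (-c) * s ^ e' =
      F * s ^ e' / (1 - (2 : ℝ) ^ (-c)) * (n : ℝ) ^ (-c) + F * s ^ e' * (n : ℝ) ^ (-c) := by ring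
  linarith

/-- the limit of the flow is not zero -/
theorem nonzero (h : Flow ℓ B a k c q r D n₁) (ha : 1 ≤ a) (hk : 0 < k) (hc : 0 < c) (hq : 1 < q)
    (hr : 0 ≤ r) (hL : LowB B a k c q) :
    ∃ s : ℝ, a ≤ s ∧ ∃ δ : ℝ, 0 < δ ∧ ∃ᶠ n in atTop, δ ≤ ℓ n s := by
  by_contra hcon
  have hz : ∀ s : ℝ, a ≤ s → ∀ δ : ℝ, 0 < δ → ∀ᶠ n in atTop, ℓ n s < δ := by
    intro s hs δ hδ
    by_contra hh
    rw [not_eventually] at hh
    exact hcon ⟨s, hs, δ, hδ, hh.mono fun n hn => not_lt.1 hn⟩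
  set n₂ := max n₁ 2 with hn₂
  have h21 : n₁ ≤ n₂ := le_max_left _ _
  have h22 : 1 ≤ n₂ := (by norm_num : 1 ≤ 2).trans (le_max_right _ _)
  have ind : ∀ j : ℕ, ∀ e K x : ℝ, 0 ≤ e → e ≤ 1 + (q - 1) * 2 ^ j → 1 ≤ K → 0 ≤ x →
      (∀ n : ℕ, n₂ ≤ n → ∀ s : ℝ, a ≤ s → K * s ≤ (n : ℝ) ^ k → B n s ≤ x ^ 2 * s ^ e) →
      ∃ K' C : ℝ, ∀ n : ℕ, n₂ ≤ n → ∀ s : ℝ, a ≤ s → K' * s ≤ (n : ℝ) ^ k →
        B n s ≤ C * (n : ℝ) ^ (-c) * s ^ q := by
    intro j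
    induction j with
    | zero =>
      intro e K x he he' hK hx hB
      obtain ⟨C, -, hC⟩ := feed h ha hk hc hz h21 h22 hK hx he (e' := q)
        (by simp only [pow_zero] at he'; linarith) le_rfl hB
      exact ⟨2 * K, C, hC⟩
    | succ j ih =>
      intro e K x he he' hK hx hB
      obtain ⟨C, hC0, hC⟩ := feed h ha hk hc hz h21 h22 hK hx he (e' := max q ((1 + e) / 2))
        (le_max_right _ _) (le_max_left _ _) hB
      have h2j : (1 : ℝ) ≤ 2 ^ j := one_le_pow₀ (by norm_num)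
      refine ih (max q ((1 + e) / 2)) (2 * K) (Real.sqrt C) (le_max_of_le_left (by linarith))
        (max_le (by nlinarith) (by rw [pow_succ] at he'; linarith)) (by linarith)
        (Real.sqrt_nonneg _) fun n hn s hs hKs => ?_
      have hs0 : 0 < s := by linarith
      have b1 : (n : ℝ) ^ (-c) ≤ 1 :=
        Real.rpow_le_one_of_one_le_of_nonpos (by exact_mod_cast h22.trans hn) (by linarith)
      rw [Real.sq_sqrt hC0]
      exact (hC n hn s hs hKs).trans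
        (mul_le_mul_of_nonneg_right (by nlinarith) (by positivity))
  set p := max q (1 + r / k) with hp
  obtain ⟨x, hx, hB⟩ := tight h ha hk hc hr (p := p) (le_max_right _ _) (le_max_left _ _)
  obtain ⟨j, hj⟩ := pow_unbounded_of_one_lt ((p - 1) / (q - 1)) (by norm_num : (1 : ℝ) < 2)
  have hj' : p ≤ 1 + (q - 1) * 2 ^ j := by
    rw [div_lt_iff₀ (by linarith)] at hj
    linarith
  obtain ⟨K', C, hC⟩ := ind j p 1 x (le_max_of_le_left (by linarith)) hj' le_rfl hx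
    fun n hn s hs _ => hB n hn s hs
  obtain ⟨n, ⟨s, hs, h1, h2⟩, hn⟩ :=
    ((hL (max K' (C + 1))).and_eventually (eventually_ge_atTop n₂)).exists
  have hs0 : 0 < s := by linarith
  have b1 := hC n hn s hs ((mul_le_mul_of_nonneg_right (le_max_left _ _) hs0.le).trans h1)
  have hn0 : (0 : ℝ) < n := by exact_mod_cast h22.trans hn
  have b2 : 0 < (n : ℝ) ^ (-c) * s ^ q := by positivity
  have b3 : (C + 1) * ((n : ℝ) ^ (-c) * s ^ q) ≤ max K' (C + 1) * ((n : ℝ) ^ (-c) * s ^ q) :=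
    mul_le_mul_of_nonneg_right (le_max_right _ _) b2.le
  nlinarith

end LG39

/-- **flow + weak lower bound ⇒ `Key`** -/
theorem key_of_flow {β a k c q r D : ℝ} {n₁ : ℕ} {B : ℕ → ℝ → ℝ} (ha : 1 ≤ a) (hk : 0 < k)
    (hc : 0 < c) (hq : 1 < q) (hr : 0 ≤ r) (h : Flow (fun n s => Ln n β a s) B a k c q r D n₁)
    (hL : LowB B a k c q) : Key β := by
  obtain ⟨s, hs, δ, hδ, hf⟩ := nonzero h ha hk hc hq hr hL
  set p := max q (1 + r / k) with hp
  have hp1 : 1 ≤ p := le_max_of_le_left hq.le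
  obtain ⟨x, hx, hB⟩ := tight h ha hk hc hr (p := p) (le_max_right _ _) (le_max_left _ _)
  set s₂ := max (3 * a) (2 * s) with hs₂
  have h1 : 3 * a ≤ s₂ := le_max_left _ _
  have h2 : 2 * s ≤ s₂ := le_max_right _ _
  obtain ⟨n₀, hn₀⟩ := ev_pow hk s₂
  refine ⟨a, s₂, c, (2 ^ p * x + 1) * s₂ ^ p, max (max n₁ 2) n₀, by linarith, h1, hc, ?_,
    a, s, δ, ⟨le_rfl, by linarith⟩, ⟨hs, by linarith⟩, hδ, hf⟩
  intro n n' a1 a2 a3 u hu
  have b1 : max n₁ 2 ≤ n := (le_max_left _ _).trans a1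
  have hu1 : 1 ≤ u := ha.trans hu.1
  have b2 := h.step n n' ((le_max_left _ _).trans b1) a2 a3 u hu.1
    (hu.2.trans (hn₀ n ((le_max_right _ _).trans a1)))
  have b3 := ferr_le (B := B) (c := c) (q := q) (n := n) (e := p) (e' := p) hu1 hx (by linarith)
    (by linarith) (le_max_left _ _) (hB n b1 (2 * u) (by have := hu.1; linarith))
  have b4 : u ^ p ≤ s₂ ^ p := Real.rpow_le_rpow (by linarith) hu.2 (by linarith)
  refine b2.trans (b3.trans ?_)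
  rw [mul_comm]
  exact mul_le_mul_of_nonneg_right (mul_le_mul_of_nonneg_left b4 (by positivity)) (by positivity)

end Crest.Agent.T156.Soft
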