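import Crest.Agent.T156.LInt_31
import Crest.Agent.T156.TL1cA_74
import Crest.Agent.T156.GapB_27

/-!
# Row 156, block (L): the global energy from root, bulk and continuation (helper31)
-/

set_option autoImplicit false

noncomputable section

namespace Crest.Agent.T156.Alt.L31

open MeasureTheory Set Real
open Crest.Agent.R164.GC Crest.Agent.R339.B Crest.Agent.R339.Var Crest.Agent.T157.Pf
open Crest.Agent.T156.Cut8 (LB Res Jf Cont Rt Fr)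
open Crest.Agent.T156.Alt.Mp9 Crest.Agent.T156.Alt.L69 Crest.Agent.T156.Alt.C74

variable {S : Sc} {M : Md} {m : ℕ} {a : ℝ}

theorem int_sub {T x y : ℝ} {g : ℝ → ℝ} (lg : LB T g) (h : ∀ t, 0 ≤ g t) (x0 : 0 ≤ x) (xy : x ≤ y)
    (yT : y ≤ T) : ∫ t in x..y, g t ≤ ∫ t in (0 : ℝ)..T, g t := by
  have T0 : 0 ≤ T := by linarith
  rw [Cut8.int_split lg ⟨le_rfl, T0⟩ ⟨x0, xy.trans yT⟩ ⟨T0, le_rfl⟩,
    Cut8.int_split lg ⟨x0, xy.trans yT⟩ ⟨x0.trans xy, yT⟩ ⟨T0, le_rfl⟩]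
  have := intervalIntegral.integral_nonneg (μ := volume) x0 fun t _ => h t
  have := intervalIntegral.integral_nonneg (μ := volume) yT fun t _ => h t
  linarith

theorem en_num {C c θ0 δ E0 I Z x f0 r Ar μ P0 P1 Ff Ω : ℝ} (C1 : 1 ≤ C) (c0 : 0 < c) (c1 : c ≤ 1)
    (θ0' : 0 < θ0) (θ1 : θ0 ≤ 1 / 16) (δ0 : 0 < δ) (δ1 : δ ≤ 1) (e0 : 0 ≤ E0) (n1 : 0 ≤ x * f0)
    (n2 : 0 ≤ r) (Ar0 : 0 ≤ Ar) (m0 : 0 ≤ μ) (F0 : 0 ≤ Ff)
    (src : x * f0 + r + Ar + μ ≤ P1 + c ^ 2 / 256 * E0)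
    (h : c / 8 * E0 + I / 8 + Z / 4 ≤ θ0 * (x * f0 + Ff + 3 * (4096 * C ^ 2 * δ ^ 2 * (2 * C) ^ 3 +
      8 * δ ^ 4 * (2 * C) + 6 * δ / C)) + P0 + (16 / c * r + Ar) + Ω) :
    c / 16 * E0 + I / 8 + Z / 4 ≤ Ff + 100000 * C ^ 5 * δ + P0 + 16 / c * P1 + Ω ∧
      μ ≤ P1 + E0 := by
  have k0 := mul_le_mul_of_nonneg_right (pow_le_one₀ (n := 2) c0.le c1) e0
  refine ⟨?_, by linarith⟩
  have k1 : 1 ≤ 16 / c := by rw [le_div_iff₀ c0]; linarith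
  have k3 : 16 / c * (c ^ 2 / 256 * E0) = c / 16 * E0 := by field_simp; ring
  have k4 := mul_le_mul_of_nonneg_left (show x * f0 + r + Ar ≤ P1 + c ^ 2 / 256 * E0 by
    linarith) (show 0 ≤ 16 / c by positivity)
  have k8 := mul_le_mul_of_nonneg_right k1 (add_nonneg n1 Ar0)
  have k9 := mul_le_mul_of_nonneg_right (show θ0 ≤ 1 by linarith) n1
  have d2 : δ ^ 2 ≤ δ := pow_le_of_le_one δ0.le δ1 (by norm_num)
  have d4 : δ ^ 4 ≤ δ := pow_le_of_le_one δ0.le δ1 (by norm_num)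
  have d5 : δ / C ≤ δ := div_le_self δ0.le C1
  have c5 : C ≤ C ^ 5 := le_self_pow₀ C1 (by norm_num)
  have a1 := mul_le_mul_of_nonneg_left d2 (show 0 ≤ C ^ 5 by positivity)
  have a2 := mul_le_mul d4 c5 (by linarith) δ0.le
  have a3 := mul_le_mul_of_nonneg_left (C1.trans c5) δ0.le
  have a4 : 6 * δ / C = 6 * (δ / C) := by ring
  have k6 : 0 ≤ 3 * (4096 * C ^ 2 * δ ^ 2 * (2 * C) ^ 3 + 8 * δ ^ 4 * (2 * C) + 6 * δ / C) := by
    positivity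
  have k7 := mul_le_mul_of_nonneg_right (show θ0 ≤ 1 by linarith) (add_nonneg F0 k6)
  linarith

/-- **the global energy** -/
theorem energy (A : At S M m a (2 * S.C)) {c B θ0 A0 l' D ρ f0 Ar P0 P1 Ff Ω0 : ℝ}
    (F : Fr (2 * S.C) c B (Spl27.okT (2 * S.C)) (lvr 1) Pr.Gam Pr.GG) {v : ℕ}
    {r1 r2 ω β f : ℝ → ℝ} {Q : ℝ → Prop} (jv : S.jl ≤ v) (vJ : v < S.J)
    (As : A0 < sb M m a (v + 1)) (sJ : sb M m a (v + 1) < M.s S.J)
    (R : Rt (2 * S.C) B θ0 (lvr 1 (lh M (2 * S.C))) (lvr 1 (lb M S m a (2 * S.C))) (rq S M m a)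
      (HH M S m a (2 * S.C)) r1 r2 ω β (mm M S m a) f A0 (sb M m a (v + 1)) l' D ρ f0 S.C
      (2 * (S.C * S.v))) (Ar0 : 0 ≤ Ar) (lT : l' ≤ 2 * S.C)
    (ar : ρ * ∫ t in (0 : ℝ)..l', |uu M S m a (2 * S.C) t| ≤ Ar +
      (∫ t in A0..sb M m a (v + 1), HH M S m a (2 * S.C) t * uu M S m a (2 * S.C) t) / 16 +
      c / 32 * ∫ t in (0 : ℝ)..sb M m a (v + 1), JJ M S m a (2 * S.C) t ^ 2)
    (src : A0 * f0 + ρ ^ 2 / l' + Ar + mf S A0 * D ^ 2 * A0 ≤ P1 +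
      θ0 ^ 2 * ((∫ t in (0 : ℝ)..A0, JJ M S m a (2 * S.C) t ^ 2) + A0 * io M S m a (2 * S.C) ^ 2))
    (hF : ∫ t in A0..sb M m a (v + 1), f t ≤ Ff +
      ∫ t in A0..sb M m a (v + 1), HH M S m a (2 * S.C) t * uu M S m a (2 * S.C) t) (F0 : 0 ≤ Ff)
    (hΩ : ∫ t in A0..sb M m a (v + 1), ω t ^ 2 ≤ Ω0 +
      θ0 ^ 2 * ∫ t in A0..sb M m a (v + 1), uu M S m a (2 * S.C) t ^ 4)
    (K : Cont (2 * S.C) (uu M S m a (2 * S.C)) (rq S M m a) (r2 (sb M m a (v + 1)))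
      (β (sb M m a (v + 1))) 0 (sb M m a (v + 1))
      (c / 8 * (∫ t in (0 : ℝ)..2 * S.C, JJ M S m a (2 * S.C) t ^ 2) + P0) Q)
    (c1 : c ≤ 1) (θc : θ0 ≤ c) (θ1 : θ0 ≤ 1 / 16)
    (s4 : θ0 * (3 * (4096 * S.C ^ 2) + (1 + (2 * S.C) ^ 2)) ≤ c / 8)
    (s5 : 256 * (θ0 ^ 2 * (1 + 8 * S.C ^ 2)) ≤ c ^ 2) (v1 : 2 * (S.C * S.v) ≤ 1) :
    ∃ Z, 0 ≤ Z ∧ Q Z ∧ c / 16 * (∫ t in (0 : ℝ)..2 * S.C, JJ M S m a (2 * S.C) t ^ 2) +
      (∫ t in A0..sb M m a (v + 1), HH M S m a (2 * S.C) t * uu M S m a (2 * S.C) t) / 8 + Z / 4 ≤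
        Ff + 100000 * S.C ^ 5 * (2 * (S.C * S.v)) + P0 + 16 / c * P1 + Ω0 / c ∧
      mf S A0 * D ^ 2 * A0 ≤ P1 + ∫ t in (0 : ℝ)..2 * S.C, JJ M S m a (2 * S.C) t ^ 2 := by
  have c0 := F.c_pos
  have C1 := A.cl.C1
  have C0 := A.c_pos
  have v0 := A.cl.v0
  have θ0' := R.θ0
  have l0 := R.l0
  have hA := R.hA
  have sT := R.sT
  have T0 : 0 ≤ 2 * S.C := by linarith
  have J1 : S.J - 1 < S.J := by omega
  have bJ : max (sb M m a (v + 1)) (M.s (S.J - 1)) < M.s S.J := max_lt sJ (A.cl.s_lt J1 J1)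
  have bT : M.s S.J ≤ 2 * S.C := by linarith [A.cl.s_le_C A.cl.i3]
  have lJ : LB (2 * S.C) (JJ M S m a (2 * S.C)) := .of_cont (Lab36.jf_cont A.LB_u A.T_nn)
  have lu : LB (2 * S.C) (uu M S m a (2 * S.C)) := A.LB_u
  set E0 := ∫ t in (0 : ℝ)..2 * S.C, JJ M S m a (2 * S.C) t ^ 2 with hE0
  have e0 : 0 ≤ E0 := intervalIntegral.integral_nonneg T0 fun _ _ => sq_nonneg _
  have e1 : ∫ t in (0 : ℝ)..A0, JJ M S m a (2 * S.C) t ^ 2 ≤ E0 :=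
    int_sub lJ.sq (fun _ => sq_nonneg _) le_rfl hA (by linarith)
  have e2 : ∫ t in (0 : ℝ)..sb M m a (v + 1), JJ M S m a (2 * S.C) t ^ 2 ≤ E0 :=
    int_sub lJ.sq (fun _ => sq_nonneg _) le_rfl (by linarith) sT
  have e3 : io M S m a (2 * S.C) ^ 2 ≤ 2 * 0 ^ 2 + 2 * (2 * S.C) * E0 :=
    Cut8.io_sq lJ le_rfl T0 le_rfl (by linarith) (by simp) le_rfl
  have e4 : A0 * io M S m a (2 * S.C) ^ 2 ≤ 8 * S.C ^ 2 * E0 := by
    have := mul_le_mul (show A0 ≤ 2 * S.C by linarith) e3 (sq_nonneg _) T0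
    linarith
  have e5 : θ0 ^ 2 * ((∫ t in (0 : ℝ)..A0, JJ M S m a (2 * S.C) t ^ 2) +
      A0 * io M S m a (2 * S.C) ^ 2) ≤ c ^ 2 / 256 * E0 := by
    have := mul_le_mul_of_nonneg_left (add_le_add e1 e4) (sq_nonneg θ0)
    have := mul_le_mul_of_nonneg_right s5 e0
    linarith
  have l4 : LB (2 * S.C) fun t => uu M S m a (2 * S.C) t ^ 4 := by
    simpa [← pow_mul] using lu.sq.sq
  have u4 : ∫ t in A0..sb M m a (v + 1), uu M S m a (2 * S.C) t ^ 4 ≤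
      ∫ t in (0 : ℝ)..sb M m a (v + 1), uu M S m a (2 * S.C) t ^ 4 := by
    rw [Cut8.int_split l4 ⟨le_rfl, T0⟩ ⟨hA, by linarith⟩ ⟨by linarith, sT⟩]
    have := intervalIntegral.integral_nonneg (μ := volume) hA
      fun t _ => (show 0 ≤ uu M S m a (2 * S.C) t ^ 4 by positivity)
    linarith
  have u40 : 0 ≤ ∫ t in A0..sb M m a (v + 1), uu M S m a (2 * S.C) t ^ 4 :=
    intervalIntegral.integral_nonneg As.le fun _ _ => by positivity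
  obtain ⟨Z, ⟨z0, q⟩, h⟩ := F.top0 (Q := fun Z => 0 ≤ Z ∧ Q Z) (Ω := Ω0 / c) (P0 := P0) (K3 := 1)
    (Ff := Ff) A.okb A.okh hA As (le_max_left _ _) (bJ.le.trans bT) C0 θ0' R.lm R.lf R.R R.mass
    (by rw [one_mul]; exact hF) (by linarith)
    (fun s t h1 h2 h3 => by
      linarith only [(A.sl bJ s t h1 h2 h3).2, mul_pos C0 v0]) R.h0
    (fun t ht => by
      have h1 := L25.zs_of A jv vJ ht
      have h2 := A.lvh_node (k := S.J - 1) (by have := A.cl.j0_lt; omega) J1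
      have h3 := Sc48.lvr_mono A.okh.1.1 (le_max_right (sb M m a (v + 1)) (M.s (S.J - 1)))
      linarith only [h1, h2, h3, mul_pos C0 v0])
    R.D1 R.D2 R.ρ0 R.ab R.hf0 R.num l0 lT
    (le_trans ar (add_le_add le_rfl (mul_le_mul_of_nonneg_left e2 (by positivity)))) Ar0
    (fun H' r1' r2' ω' β' ξ' R' a1 a2 => by
      obtain ⟨X, Z, h1, h2, h3⟩ := K.top (by linarith) H' r1' r2' ω' β' ξ' R' a1 a2
      exact ⟨X, Z, h1, h2, h3.trans (le_of_eq (by rw [hE0]; unfold JJ; ring))⟩)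
    (by
      rw [div_le_iff₀ c0, add_mul, div_mul_cancel₀ _ c0.ne']
      refine hΩ.trans (add_le_add le_rfl ?_)
      have h1 := mul_le_mul_of_nonneg_left u4 (sq_nonneg θ0)
      have h2 := mul_le_mul_of_nonneg_left θc (mul_nonneg θ0'.le (u40.trans u4))
      exact h1.trans (le_of_eq_of_le (by ring) h2)) s4 (by linarith)
  have m0 : 0 ≤ mf S A0 * D ^ 2 * A0 := by have := L25.mf_pos A hA; positivity
  have n1 : 0 ≤ A0 * f0 := mul_nonneg hA R.hf0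
  have n2 : 0 ≤ ρ ^ 2 / l' := by positivity
  have k2 : 16 * ρ ^ 2 / (c * l') = 16 / c * (ρ ^ 2 / l') := by field_simp
  rw [k2] at h
  exact ⟨Z, z0, q, en_num C1 c0 c1 θ0' θ1 (by positivity) v1 e0 n1 n2 Ar0 m0 F0
    (src.trans (add_le_add le_rfl e5)) h⟩

/-- the mass down to the root -/
theorem mass0 (A : At S M m a (2 * S.C)) {A0 s D x : ℝ} (hA : 0 ≤ A0) (As : A0 ≤ s)
    (sT : s ≤ 2 * S.C) (x0 : 0 ≤ x) (xs : x ≤ s) (lH : LB (2 * S.C) (HH M S m a (2 * S.C)))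
    (D1 : lvr 1 (lb M S m a (2 * S.C)) A0 ≤ D) (D2 : lvr 1 (lh M (2 * S.C)) A0 ≤ D) :
    ∫ t in x..s, mf S t * uu M S m a (2 * S.C) t ^ 2 ≤ mf S A0 * D ^ 2 * A0 +
      384 * S.C ^ 5 * ∫ t in A0..s, HH M S m a (2 * S.C) t * uu M S m a (2 * S.C) t := by
  have lu : LB (2 * S.C) (uu M S m a (2 * S.C)) := A.LB_u
  have lg : LB (2 * S.C) fun t => mf S t * uu M S m a (2 * S.C) t ^ 2 :=
    (LB.of_mono (L25.mf_mono A)).mul lu.sq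
  have s0 := hA.trans As
  have h1 : ∫ t in x..s, mf S t * uu M S m a (2 * S.C) t ^ 2 ≤
      ∫ t in (0 : ℝ)..s, mf S t * uu M S m a (2 * S.C) t ^ 2 := by
    rw [Cut8.int_split lg ⟨le_rfl, by linarith⟩ ⟨x0, by linarith⟩ ⟨s0, sT⟩]
    have := intervalIntegral.integral_nonneg (μ := volume) x0 fun t ht =>
      mul_nonneg (L25.mf_pos A ht.1).le (sq_nonneg (uu M S m a (2 * S.C) t))
    linarith
  rw [Cut8.int_split lg ⟨le_rfl, by linarith⟩ ⟨hA, by linarith⟩ ⟨s0, sT⟩] at h1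
  have h2 := Cut8.int_mono lg (LB.const (mf S A0 * D ^ 2)) le_rfl hA (As.trans sT) fun t a1 a2 => by
    have b1 := Sc48.lvr_mono A.okb.1.1 a2.le
    have b2 := Sc48.lvr_mono A.okh.1.1 a2.le
    have b3 := Sc48.lvr_pos A.okb.1.1 t
    have b4 := Sc48.lvr_pos A.okh.1.1 t
    refine mul_le_mul (L25.mf_mono A a2.le) (sq_le_sq' ?_ ?_) (sq_nonneg _) (L25.mf_pos A hA).le <;>
      unfold uu <;> linarith
  have h3 := L25.mass_mm A hA As sT (Cut8.int_mono (A.LB_mm.mul lu.sq) (lH.mul lu) hA As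
    sT fun t a1 _ => C74.mass A (hA.trans a1.le))
  simp only [intervalIntegral.integral_const, sub_zero, smul_eq_mul] at h2
  linarith

end Crest.Agent.T156.Alt.L31

end
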