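import Crest.Agent.T156.LKc_37
import Crest.Agent.T156.KnP_17
import Crest.Agent.T156.MdDic_67

/-!
# Row 156: `LK.up` on a static plateau by three passes of `TLt`, class level (helper37)
-/

set_option autoImplicit false
set_option linter.unusedSectionVars false

noncomputable section

namespace Crest.Agent.T156.Alt.Lk37

open Real Finset Plt13
open Crest.Agent.T156.Alt.L69 (GS GP Rp ap Np Far Ap Jn)
open Crest.Agent.T156.Alt.R62 (lw sb pl ls)
open Crest.Agent.T156.Alt.Kn72 (SD)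

theorem ap_num {w e s l R x μ ε B Z : ℝ} (w0 : 0 ≤ w) (e0 : 0 < e) (s0 : 0 < s) (el : l = e * s)
    (ε0 : 0 ≤ ε) (ε1 : ε ≤ 1) (hw : w ≤ ε ^ 3 * (l ^ 2 * s)) (R0 : 0 ≤ R + x)
    (hR : R + x ≤ 2 * x + μ) (hx : ε ^ 3 * x ^ 2 ≤ B ^ 2) (B0 : 0 ≤ B) (Z0 : 0 ≤ Z)
    (hZ : 2 * w * μ ^ 2 ≤ Z ^ 3 * (l * s)) (hV : w ≤ 4 * B ^ 2 * l) :
    (w * (e + (R + x) ^ 2 / (s ^ 2 * e))) ^ ((1 : ℝ) / 3) + w / (e * s ^ 2) + √(w / l) ≤
      4 * l + 4 * B + Z := by
  have l0 : 0 < l := el ▸ mul_pos e0 s0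
  have e3 : ε ^ 3 ≤ 1 := pow_le_one₀ ε0 ε1
  have es : e * s ^ 2 = l * s := by rw [el]; ring
  have c : w / (l * s) ≤ ε ^ 3 * l := by rw [div_le_iff₀ (by positivity)]; linarith
  have c1 : ε ^ 3 * l ≤ l := mul_le_of_le_one_left l0.le e3
  have a : w * e ≤ l ^ 3 := by
    have a1 := mul_le_mul_of_nonneg_right
      (hw.trans (mul_le_of_le_one_left (by positivity) e3)) e0.le
    calc w * e ≤ l ^ 2 * s * e := a1
      _ = l ^ 3 := by rw [el]; ring
  have R2 : (R + x) ^ 2 ≤ 8 * x ^ 2 + 2 * μ ^ 2 := by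
    nlinarith [pow_le_pow_left₀ R0 hR 2, sq_nonneg (2 * x - μ)]
  have b : w * ((R + x) ^ 2 / (s ^ 2 * e)) ≤ 8 * (l * B ^ 2) + Z ^ 3 := by
    have p : 0 ≤ w / (l * s) := by positivity
    have t1 := mul_le_mul_of_nonneg_left R2 p
    have t2 := mul_le_mul_of_nonneg_right c (sq_nonneg x)
    have t3 := mul_le_mul_of_nonneg_left hx l0.le
    have t4 : w / (l * s) * (2 * μ ^ 2) ≤ Z ^ 3 := by
      rw [div_mul_eq_mul_div, div_le_iff₀ (by positivity)]; linarith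
    rw [show w * ((R + x) ^ 2 / (s ^ 2 * e)) = w / (l * s) * (R + x) ^ 2 by rw [← es]; ring]
    linarith
  have f : (w * (e + (R + x) ^ 2 / (s ^ 2 * e))) ^ ((1 : ℝ) / 3) ≤ 3 * l + 2 * B + Z := by
    have g : w * (e + (R + x) ^ 2 / (s ^ 2 * e)) ≤ (3 * l + 2 * B + Z) ^ 3 := by
      have : 0 ≤ (3 * l + 2 * B + Z) ^ 3 - (l ^ 3 + 8 * (l * B ^ 2) + Z ^ 3) := by
        ring_nf; positivity
      rw [mul_add]; linarith
    refine (rpow_le_rpow (by positivity) g (by norm_num)).trans_eq ?_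
    rw [← rpow_natCast, ← rpow_mul (by positivity)]; norm_num
  have d : √(w / l) ≤ 2 * B := sqrt_le_iff.2 ⟨by positivity, by rw [div_le_iff₀ l0]; linarith⟩
  rw [es]
  linarith

/-- numbers of the passes: `y³` bounds `V` and the root of the energy, `r³ = V` -/
structure UN (S : Sc) (M : Md) (la V u2 y r q Lg E K : ℝ) : Prop where
  sd : SD S M la V u2
  ce : Cei S M
  jj : S.j0 = S.jl
  F1 : S.F = 1
  flat : ∀ k, S.J ≤ k → k ≤ S.Jp → M.s k = M.s S.J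
  HJ : M.H S.Jp ≤ S.C
  rev : ∃ k1, S.Jp ≤ k1 ∧ k1 ≤ M.N ∧ 1 / S.C ≤ ((k1 : ℝ) - S.Jp) * S.v ∧
    ∀ k, S.Jp ≤ k → k < k1 → S.θ * S.v / (S.C * S.F) ≤ M.H (k + 1) - M.H k
  g2 : GS M S 0 S.C + GP M S ≤ y ^ 6
  r0 : 0 < r
  rV : r ^ 3 = V
  ry : r ≤ y
  E1 : 1 ≤ E
  En : E ≤ S.n
  Ey : E * y ^ 2 ≤ 1
  CV : 4 * S.C * V ^ 2 ≤ 1
  jl : E * M.s S.jl ≤ y ^ 2
  ms : ∀ t, y ^ 2 ≤ t → t ≤ S.C → S.ms t ≤ t ^ 2
  w3 : ∀ t, y ^ 2 ≤ t → t ≤ S.C → t ^ 3 * S.w3 t ^ 2 ≤ y ^ 18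
  v : 8 * S.C * S.v ≤ √u2
  ue : 8 * S.ue ≤ u2
  L1 : 1 ≤ Lg
  lg : 2 * log (1 + 4 / u2) ≤ Lg
  q1 : 1 ≤ q
  K1 : 1 ≤ K
  wq : 64 * S.w3 1 ≤ q ^ 3 * V * u2
  qr : q ^ 5 * r * K ^ 2 ≤ 1
  wV : 256 * K ^ 2 * S.w3 1 ≤ V ^ 4
  θl : S.θ * la ^ 2 ≤ V ^ 4
  nV : 1 ≤ S.n * V ^ 2
  nu : 4 ≤ S.n * √u2

/-- one pass, as `TLt` delivers it -/
def Ps (E Λ : ℝ) (S : Sc) (M : Md) (m : ℕ) (a V u2 y Lg : ℝ) : Prop :=
  ∀ u1 Vt, u2 / 2 ≤ u1 → u1 ≤ V ^ 2 → 0 ≤ Vt →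
  (∀ k, S.J ≤ k → k ≤ S.Jp → u1 ≤ R62.du M k → M.del m a k ≤ Vt) →
  ∀ k, S.J ≤ k → k ≤ S.Jp → 2 * u1 ≤ R62.du M k → ∀ k', k ≤ k' → k' ≤ S.Jp →
    R62.du M k' ≤ R62.du M k / 2 → M.del m a k ≤ Λ * (3 * y ^ 3 + 0 + √((19 * E * Lg * y ^ 3) ^ 2) +
      E * ap M S (y ^ 6) Vt 0 k +
      min (√(M.H k' - M.H S.J)) (S.F * (M.H k' - M.H S.J) / S.θ) + 1 / √S.n)

namespace UN

variable {S : Sc} {M : Md} {m : ℕ} {a la V u2 y r q Lg E K Λ : ℝ} {k : ℕ}
  (U : UN S M la V u2 y r q Lg E K)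
include U

theorem y0 : 0 < y := U.r0.trans_le U.ry
theorem y1 : y ^ 2 ≤ 1 := (le_mul_of_one_le_left (sq_nonneg y) U.E1).trans U.Ey
theorem y1' : y ≤ 1 := by nlinarith [U.y1, U.y0]
theorem V0 : 0 < V := U.sd.nu.Vp
theorem VB : V ≤ y ^ 3 := U.rV ▸ pow_le_pow_left₀ U.r0.le U.ry 3
theorem VX : V ^ 2 ≤ y ^ 6 := (pow_le_pow_left₀ U.V0.le U.VB 2).trans_eq (by ring)
theorem laX : la ^ 2 ≤ V ^ 2 := pow_le_pow_left₀ U.sd.nu.lp.le U.sd.nu.lV 2
theorem uV : u2 ≤ V ^ 2 := U.sd.nu.u2_sq.trans U.laX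
theorem x3 : (y ^ 6) ^ ((1 : ℝ) / 3) = y ^ 2 := by
  rw [← rpow_natCast, ← rpow_mul U.y0.le, ← rpow_two]; norm_num
theorem w0 {t : ℝ} (ht : 0 < t) : 0 < S.w3 t := by
  have := U.sd.cl.ms_pos ht.le
  have := U.sd.cl.n1
  unfold Sc.w3; rw [U.F1]; positivity
theorem ε3 : (q * r) ^ 3 = q ^ 3 * V := by rw [mul_pow, U.rV]
theorem ε0 : 0 ≤ q * r := mul_nonneg (zero_le_one.trans U.q1) U.r0.le
theorem qK : q ^ 3 * r * K ^ 2 ≤ 1 :=
  (mul_le_mul_of_nonneg_right (mul_le_mul_of_nonneg_right (pow_le_pow_right₀ U.q1 (by norm_num))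
    U.r0.le) (sq_nonneg K)).trans U.qr
theorem q3 : q ^ 3 * r ≤ 1 :=
  (le_mul_of_one_le_right (by have := U.r0; have := U.q1; positivity) (one_le_pow₀ U.K1)).trans U.qK
theorem ε1 : q * r ≤ 1 :=
  (mul_le_mul_of_nonneg_right (le_self_pow₀ U.q1 (by norm_num)) U.r0.le).trans U.q3
theorem r1 : r ≤ 1 := U.ry.trans U.y1'
theorem εK : (q * r) ^ 3 * K ^ 2 ≤ 1 := by
  have a := U.qK
  have b : r ^ 2 ≤ 1 := pow_le_one₀ U.r0.le U.r1
  calc (q * r) ^ 3 * K ^ 2 = q ^ 3 * r * K ^ 2 * r ^ 2 := by ring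
    _ ≤ 1 := mul_le_one₀ a (sq_nonneg r) b
theorem εx : (q * r) ^ 3 * (y ^ 2) ^ 2 ≤ (y ^ 3) ^ 2 := by
  have a := mul_le_of_le_one_left (sq_nonneg r) U.q3
  have b := pow_le_pow_left₀ U.r0.le U.ry 2
  have c := mul_le_mul_of_nonneg_right (a.trans b) (sq_nonneg (y ^ 2))
  linarith [show (q * r) ^ 3 * (y ^ 2) ^ 2 = q ^ 3 * r * r ^ 2 * (y ^ 2) ^ 2 by ring]
theorem wu : 64 * S.w3 1 ≤ u2 :=
  U.wq.trans (mul_le_of_le_one_left U.sd.nu.u2p.le (U.ε3 ▸ pow_le_one₀ U.ε0 U.ε1))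
theorem ws : S.w3 1 ≤ √u2 * V ^ 2 := by
  have w := U.w0 one_pos
  have u := U.sd.nu.u2p
  have a : S.w3 1 ≤ V ^ 4 := by nlinarith [U.wV, one_le_pow₀ (n := 2) U.K1]
  refine le_of_pow_le_pow_left₀ two_ne_zero (by positivity) ?_
  rw [mul_pow, sq_sqrt u.le]
  linarith [mul_le_mul (show S.w3 1 ≤ u2 by linarith [U.wu]) a w.le u.le]

theorem lt_Jp {u : ℝ} (hu : u2 / 4 ≤ u) (h1 : k ≤ S.Jp) (h2 : u ≤ R62.du M k) : k < S.Jp :=
  lt_of_le_of_ne h1 fun e => by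
    subst e
    have := U.sd.cl.last
    unfold R62.du at h2
    linarith [U.ue, U.sd.nu.u2p]

theorem mem (h0 : S.J ≤ k) (h1 : k ≤ S.Jp) (h2 : u2 / 4 ≤ R62.du M k) : k ∈ pl S M (u2 / 4) :=
  mem_filter.2 ⟨mem_Ico.2 ⟨h0, U.lt_Jp le_rfl h1 h2⟩, h2⟩

theorem sq64 (hk : k ∈ pl S M (u2 / 4)) :
    u2 / 64 ≤ ls S M k ^ 2 * min (R62.dl S M k) (R62.du M k) :=
  U.sd.wpl le_rfl (by linarith) k hk

theorem hw (hk : k ∈ pl S M (u2 / 4)) :
    S.w3 1 ≤ (q * r) ^ 3 * (ls S M k ^ 2 * min (R62.dl S M k) (R62.du M k)) := by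
  have := mul_le_mul_of_nonneg_left (U.sq64 hk) (pow_nonneg U.ε0 3)
  rw [U.ε3] at this ⊢
  linarith [U.wq]

theorem ds0 (hk : k ∈ pl S M (u2 / 4)) : 0 < min (R62.dl S M k) (R62.du M k) :=
  lt_min (U.sd.dl0 (SD.mem_pl hk).1) (U.sd.du0 (SD.mem_pl hk).1 (SD.mem_pl hk).2.1)

theorem ls0 (hk : k ∈ pl S M (u2 / 4)) : 0 < ls S M k := mul_pos (U.sd.cl.den0 _) (U.ds0 hk)

/-- the size on a shell -/
theorem ap_le {Vt Z : ℝ} (V0 : 0 ≤ Vt) (hk : k ∈ pl S M (u2 / 4)) (Z0 : 0 ≤ Z)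
    (hZ : 2 * S.w3 1 * min Vt (√(y ^ 6 / R62.du M k)) ^ 2 ≤
      Z ^ 3 * (ls S M k * min (R62.dl S M k) (R62.du M k))) :
    ap M S (y ^ 6) Vt 0 k ≤ 4 * ls S M k + 4 * y ^ 3 + Z := by
  have y0 := U.y0
  have r0 : 0 ≤ Rp M S (y ^ 6) Vt 0 k :=
    add_nonneg (add_nonneg (sqrt_nonneg _) (le_min V0 (sqrt_nonneg _))) le_rfl
  have r1 : Rp M S (y ^ 6) Vt 0 k ≤ y ^ 2 + min Vt (√(y ^ 6 / R62.du M k)) + 0 := by
    refine add_le_add (add_le_add ?_ le_rfl) le_rfl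
    rw [U.x3]
    refine sqrt_le_iff.2 ⟨by positivity, (div_le_div_of_nonneg_left (by positivity)
      (by positivity) (le_max_right _ _)).trans (le_of_eq ?_)⟩
    field_simp
  have g := U.sd.ls_ge (SD.mem_pl hk).1 (SD.mem_pl hk).2.1
  have hV : S.w3 1 ≤ 4 * (y ^ 3) ^ 2 * ls S M k := by
    have := mul_le_mul (show √u2 ≤ 4 * ls S M k by linarith) U.VX (sq_nonneg V)
      (by linarith [U.ls0 hk])
    linarith [U.ws]
  unfold ap
  rw [U.x3]
  exact ap_num (U.w0 one_pos).le (U.sd.cl.den0 _) (U.ds0 hk) rfl U.ε0 U.ε1 (U.hw hk)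
    (by positivity) (by linarith) U.εx (by positivity) Z0 hZ hV

theorem far {Vt u1 : ℝ} (h1 : u2 / 2 ≤ u1) : Far M S (y ^ 6) Vt 0 u1 E := fun i k a b c d => by
  have u := U.sd.nu.u2p
  have hk := U.mem (a.trans b) c (by change u1 ≤ R62.du M k at d; linarith)
  have e : R62.du M k ≤ R62.du M i := sub_le_sub_left (U.sd.cl.leg.zm (by omega)) 1
  have hi := U.mem a (b.trans c) (by linarith [(SD.mem_pl hk).2.2])
  have lk := U.ls0 hk
  have li := U.ls0 hi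
  have w := U.w0 one_pos
  have y0 := U.y0
  have dk := U.sd.cl.den0 (M.z (k - 1))
  have f : S.w3 1 * S.den (M.z (i - 1)) ≤ ls S M i ^ 3 :=
    (mul_le_mul_of_nonneg_right ((U.hw hi).trans (mul_le_of_le_one_left
      (by have := U.ds0 hi; positivity) (pow_le_one₀ U.ε0 U.ε1))) (U.sd.cl.den0 _).le).trans_eq
      (by unfold ls; ring)
  have g : ls S M i ≤ ls S M k * max 1 (ls S M i / ls S M k) := by
    rw [← div_le_iff₀' lk]; exact le_max_right _ _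
  rw [show L69.lsh M S k = ls S M k from rfl, show L69.lsh M S i = ls S M i from rfl, U.x3]
  refine (f.trans (pow_le_pow_left₀ li.le g 3)).trans ?_
  rw [mul_pow]
  refine mul_le_mul_of_nonneg_right (le_trans ?_ (le_mul_of_one_le_left (by positivity) U.E1))
    (by positivity)
  nlinarith [mul_pos w dk, mul_pos (pow_pos y0 2) (pow_pos lk 2)]

theorem np {Vt u1 : ℝ} (h1 : u2 / 2 ≤ u1) (h2 : u1 ≤ V ^ 2) (V0 : 0 ≤ Vt) :
    Np M S (y ^ 6) Vt 0 u1 E 2 ≤ (19 * E * Lg * y ^ 3) ^ 2 := by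
  have u := U.sd.nu.u2p
  have y0 := U.y0
  have E1 := U.E1
  have L1 := U.L1
  have P := R62.K17.sp_of U.sd (u1 := u2 / 2) (Λ := Lg)
    (by linarith [U.v, U.sd.nu.u2l, mul_pos U.sd.cl.C0 U.sd.cl.v0]) (by positivity) (by linarith)
    (le_trans (mul_le_mul_of_nonneg_left (log_le_log (by positivity) (by
      rw [one_div_div, add_le_add_iff_left]
      exact div_le_div_of_nonneg_right (by norm_num) u.le)) two_pos.le) U.lg)
  have A0 : 0 ≤ 178 * E ^ 2 * y ^ 6 := by positivity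
  have s := P.sum_le (f := fun k => 178 * E ^ 2 * y ^ 6 / R62.dl S M k +
    178 * E ^ 2 * y ^ 6 / R62.du M k) A0 A0 fun _ _ => le_rfl
  have t : Np M S (y ^ 6) Vt 0 u1 E 2 ≤ u1 + ∑ k ∈ pl S M (u2 / 2), lw M k *
      (178 * E ^ 2 * y ^ 6 / R62.dl S M k + 178 * E ^ 2 * y ^ 6 / R62.du M k) := by
    refine add_le_add le_rfl ((sum_le_sum fun k hk => ?_).trans
      (sum_le_sum_of_subset_of_nonneg (fun k hk => ?_) fun k hk _ => ?_))
    · obtain ⟨b, c⟩ := mem_filter.1 hk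
      change u1 ≤ R62.du M k at c
      obtain ⟨b0, b1⟩ := mem_Icc.1 b
      have hk' := U.mem b0 b1 (by linarith)
      refine mul_le_mul_of_nonneg_left ?_ (dx_nn U.sd.cl k)
      have dl := U.sd.dl0 b0
      have du : 0 < R62.du M k := by linarith
      have s0 := U.ds0 hk'
      have l0 := U.ls0 hk'
      have s1 := min_le_left (R62.dl S M k) (R62.du M k)
      have s2 := min_le_right (R62.dl S M k) (R62.du M k)
      have s3 : 178 * E ^ 2 * y ^ 6 / min (R62.dl S M k) (R62.du M k) ≤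
          178 * E ^ 2 * y ^ 6 / R62.dl S M k + 178 * E ^ 2 * y ^ 6 / R62.du M k := by
        rcases min_choice (R62.dl S M k) (R62.du M k) with e | e <;> rw [e] <;>
          linarith [div_nonneg A0 dl.le, div_nonneg A0 du.le]
      have q64 := U.sq64 hk'
      have lle := U.sd.ls_le b0 du
      have mu : min Vt (√(y ^ 6 / R62.du M k)) ≤ y ^ 3 / √(min (R62.dl S M k) (R62.du M k)) := by
        refine (min_le_right _ _).trans ?_
        rw [sqrt_div' _ du.le, show y ^ 6 = (y ^ 3) ^ 2 by ring, sqrt_sq (by positivity)]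
        exact div_le_div_of_nonneg_left (by positivity) (sqrt_pos.2 s0) (sqrt_le_sqrt s2)
      have mu0 : 0 ≤ min Vt (√(y ^ 6 / R62.du M k)) := le_min V0 (sqrt_nonneg _)
      have r0 : 0 ≤ Rp M S (y ^ 6) Vt 0 k := add_nonneg (add_nonneg (sqrt_nonneg _) mu0) le_rfl
      have r1 : Rp M S (y ^ 6) Vt 0 k ≤ 2 * (y ^ 3 / √(min (R62.dl S M k) (R62.du M k))) +
          y ^ 3 / √(min (R62.dl S M k) (R62.du M k)) + 0 := by
        refine add_le_add (add_le_add ?_ mu) le_rfl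
        have x0 : S.u0 ≤ y ^ 2 := by
          refine le_of_pow_le_pow_left₀ three_ne_zero (by positivity) ?_
          rw [U.sd.u0_cube]; linarith [U.laX, U.VX]
        have x1 : min (R62.dl S M k) (R62.du M k) / 2 ≤
            max (L69.dl M S k - S.u0) ((y ^ 6) ^ ((1 : ℝ) / 3)) := by
          rw [U.x3]
          have := le_max_left (L69.dl M S k - S.u0) (y ^ 2)
          have := le_max_right (L69.dl M S k - S.u0) (y ^ 2)
          linarith [show L69.dl M S k = R62.dl S M k from rfl]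
        refine sqrt_le_iff.2 ⟨by positivity, (div_le_div_of_nonneg_left (by positivity)
          (by positivity) x1).trans ?_⟩
        rw [mul_pow, div_pow, sq_sqrt s0.le, div_div_eq_mul_div, ← mul_div_assoc]
        exact div_le_div_of_nonneg_right (by nlinarith [pow_pos y0 6]) s0.le
      have ha := U.ap_le V0 hk' (Z := 3 * (y ^ 3 / √(min (R62.dl S M k) (R62.du M k))))
        (by positivity) (by
          have ws := U.ws
          have m2 := pow_le_pow_left₀ mu0 mu 2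
          have w := U.w0 one_pos
          have su := sqrt_pos.2 u
          have V1 : V ^ 2 ≤ y ^ 3 := by nlinarith [U.VB, U.V0, U.sd.nu.V1]
          generalize min Vt (√(y ^ 6 / R62.du M k)) = μ at *
          generalize min (R62.dl S M k) (R62.du M k) = s at *
          obtain ⟨σ, σ0, rfl⟩ : ∃ σ, 0 < σ ∧ s = σ ^ 2 := ⟨√s, sqrt_pos.2 s0, (sq_sqrt s0.le).symm⟩
          rw [sqrt_sq σ0.le] at m2 ⊢
          have b : √u2 ≤ 8 * (ls S M k * σ) := sqrt_le_iff.2 ⟨by positivity, by nlinarith⟩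
          have c : S.w3 1 ≤ 8 * (ls S M k * σ) * y ^ 3 :=
            ws.trans (mul_le_mul b V1 (sq_nonneg V) (by positivity))
          have d := mul_le_mul c m2 (sq_nonneg μ) (by positivity)
          have e : (3 * (y ^ 3 / σ)) ^ 3 * (ls S M k * σ ^ 2) =
              27 * ((ls S M k * σ) * y ^ 3 * (y ^ 3 / σ) ^ 2) := by field_simp; ring
          have f : 0 ≤ (ls S M k * σ) * y ^ 3 * (y ^ 3 / σ) ^ 2 := by positivity
          rw [e]; linarith)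
      have a0 : 0 ≤ ap M S (y ^ 6) Vt 0 k := by
        have := U.w0 one_pos
        have := U.sd.cl.den0 (M.z (k - 1))
        have : 0 < L69.ds M S k := s0
        unfold ap; positivity
      have σ0 := sqrt_pos.2 s0
      have σ1 : √(min (R62.dl S M k) (R62.du M k)) ≤ 1 := sqrt_le_one.2 (s2.trans (U.sd.du_le b0))
      have b2 : y ^ 3 ≤ y ^ 3 / √(min (R62.dl S M k) (R62.du M k)) :=
        le_div_self (by positivity) σ0 σ1
      have b3 := div_le_div_of_nonneg_right (U.sd.nu.lV.trans U.VB) σ0.le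
      have e2 : (y ^ 3 / √(min (R62.dl S M k) (R62.du M k))) ^ 2 =
          y ^ 6 / min (R62.dl S M k) (R62.du M k) := by rw [div_pow, sq_sqrt s0.le]; ring
      have E23 : E ^ ((2 : ℝ) / 3) ≤ E :=
        (rpow_le_rpow_of_exponent_le E1 (by norm_num)).trans_eq (rpow_one E)
      have c1 := pow_le_pow_left₀ (by positivity) (mul_le_mul E23
        (show ap M S (y ^ 6) Vt 0 k ≤ 13 * (y ^ 3 / √(min (R62.dl S M k) (R62.du M k))) by
          linarith) a0 (by linarith)) 2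
      have c2 := (min_le_left _ (√(S.w3 1 / (S.den (M.z (k - 1)) * L69.ds M S k ^ 2)) *
        Rp M S (y ^ 6) Vt 0 k ^ (((2 : ℕ) : ℝ) - 1 / 2))).trans ((div_le_self (sq_nonneg _) E1).trans
          (pow_le_pow_left₀ r0 (show Rp M S (y ^ 6) Vt 0 k ≤
            3 * (y ^ 3 / √(min (R62.dl S M k) (R62.du M k))) by linarith) 2))
      refine (add_le_add c1 c2).trans (le_trans ?_ s3)
      rw [mul_pow, mul_pow, mul_pow, e2, mul_div_assoc]
      nlinarith [mul_le_mul_of_nonneg_right (one_le_pow₀ (n := 2) E1)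
        (show 0 ≤ y ^ 6 / min (R62.dl S M k) (R62.du M k) by positivity)]
    · obtain ⟨b, c⟩ := mem_filter.1 hk
      change u1 ≤ R62.du M k at c
      obtain ⟨b0, b1⟩ := mem_Icc.1 b
      exact mem_filter.2 ⟨mem_Ico.2 ⟨b0, U.lt_Jp (by linarith) b1 c⟩, h1.trans c⟩
    · obtain ⟨b0, b1, -⟩ := SD.mem_pl hk
      have := U.sd.dl0 b0
      have := U.sd.du0 b0 b1
      exact mul_nonneg (dx_nn U.sd.cl k) (by positivity)
  have z : 1 ≤ E ^ 2 * Lg := one_le_mul_of_one_le_of_one_le (one_le_pow₀ E1) L1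
  have z1 := mul_le_mul_of_nonneg_right z (show 0 ≤ y ^ 6 by positivity)
  have z2 := mul_le_mul_of_nonneg_left L1 (show 0 ≤ E ^ 2 * Lg * y ^ 6 by positivity)
  have z3 : 0 ≤ E ^ 2 * Lg * y ^ 6 := by positivity
  linarith [U.VX, show (19 * E * Lg * y ^ 3) ^ 2 = 361 * (E ^ 2 * Lg * y ^ 6 * Lg) by ring]

theorem cl_eq {t : ℝ} (h0 : y ^ 2 ≤ t) (h1 : t ≤ S.C) :
    L69.cl S ((y ^ 6) ^ ((1 : ℝ) / 3)) t = t + y ^ 2 := by
  have t0 : 0 < t := (pow_pos U.y0 2).trans_le h0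
  have := U.sd.cl.ms_pos t0.le
  rw [L69.cl, L69.cr, U.x3, U.F1, max_eq_left (rpow_le_one (by positivity)
    (by rw [one_mul, div_le_one (by positivity)]; exact U.ms t h0 h1) (by norm_num)), one_mul]

theorem X8 : 8 * y ^ 6 ≤ (19 * E * Lg * y ^ 3) ^ 2 := by
  have z : 1 ≤ (E * Lg) ^ 2 := one_le_pow₀ (one_le_mul_of_one_le_of_one_le U.E1 U.L1)
  nlinarith [mul_le_mul_of_nonneg_right z (pow_pos U.y0 6).le, pow_pos U.y0 6]

theorem x2b (t : ℝ) (h0 : y ^ 2 ≤ t) (h1 : t ≤ S.C) :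
    t * L69.ws S ((y ^ 6) ^ ((1 : ℝ) / 3)) t ^ 2 + (t * L69.ws S ((y ^ 6) ^ ((1 : ℝ) / 3)) t ^ 2) ^
      ((3 : ℝ) / 7) * (y ^ 6) ^ ((4 : ℝ) / 7) ≤ 8 * y ^ 6 := by
  have y0 := U.y0
  have t0 : 0 < t := (pow_pos y0 2).trans_le h0
  have w := U.w0 t0
  have o0 := rpow_pos_of_pos w ((1 : ℝ) / 3)
  have o3 : (S.w3 t ^ ((1 : ℝ) / 3)) ^ 3 = S.w3 t := by
    rw [← rpow_mul_natCast w.le]; norm_num
  have a : t * (S.w3 t ^ ((1 : ℝ) / 3)) ^ 2 ≤ y ^ 6 := by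
    refine le_of_pow_le_pow_left₀ three_ne_zero (by positivity) ?_
    calc _ = t ^ 3 * ((S.w3 t ^ ((1 : ℝ) / 3)) ^ 3) ^ 2 := by ring
      _ ≤ y ^ 18 := by rw [o3]; exact U.w3 t h0 h1
      _ = _ := by ring
  have b : L69.ws S ((y ^ 6) ^ ((1 : ℝ) / 3)) t ≤ 2 * S.w3 t ^ ((1 : ℝ) / 3) := by
    rw [L69.ws, U.cl_eq h0 h1]
    exact mul_le_mul_of_nonneg_right (by rw [div_le_iff₀ t0]; linarith) o0.le
  have b0 : 0 ≤ L69.ws S ((y ^ 6) ^ ((1 : ℝ) / 3)) t := by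
    rw [L69.ws, U.cl_eq h0 h1]; positivity
  have c : t * L69.ws S ((y ^ 6) ^ ((1 : ℝ) / 3)) t ^ 2 ≤ 4 * y ^ 6 := by
    linarith [mul_le_mul_of_nonneg_left (pow_le_pow_left₀ b0 b 2) t0.le]
  have d := mul_le_mul (rpow_le_rpow (by positivity) c (show (0 : ℝ) ≤ 3 / 7 by norm_num))
    (rpow_le_rpow (by positivity) (show y ^ 6 ≤ 4 * y ^ 6 by linarith [pow_pos y0 6])
      (show (0 : ℝ) ≤ 4 / 7 by norm_num)) (by positivity) (by positivity)
  rw [← rpow_add (by positivity), show (3 : ℝ) / 7 + 4 / 7 = 1 by norm_num, rpow_one] at d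
  linarith

theorem apr {Vt u1 : ℝ} (h1 : u2 / 2 ≤ u1) (hΦ : Tot S M m a ≤ y ^ 6)
    (hV : ∀ k, S.J ≤ k → k ≤ S.Jp → u1 ≤ R62.du M k → M.del m a k ≤ Vt) :
    Ap S M m a (y ^ 2) (y ^ 6) (y ^ 6) Vt u1 (3 * y ^ 3) := by
  have c := U.sd.cl
  have y0 := U.y0
  have u := U.sd.nu.u2p
  have e : √(y ^ 6) = y ^ 3 := by rw [show y ^ 6 = (y ^ 3) ^ 2 by ring, sqrt_sq (by positivity)]
  refine ⟨(phi_eq c U.jj).trans_le hΦ, le_trans ?_ hΦ, hV, ?_, ?_, U.sd.dj.2, ?_, fun k a b d => ?_⟩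
  · refine le_trans (le_of_eq (sum_congr rfl fun k _ => ?_))
      (le_tot c (T := M.blk S (M.s S.J / 2) S.C) fun k hk => U.jj ▸ (mem_blk.1 hk).1)
    rw [sq_abs]; rfl
  · have := sqrt_le_sqrt U.g2
    rw [e] at this ⊢
    nlinarith [mul_le_of_le_one_left (pow_pos y0 3).le U.y1']
  · rw [← div_le_iff₀' c.C0]; exact U.sd.dj.1
  · rw [U.sd.u0_cube]; exact U.laX.trans U.VX
  · have g := U.sd.ls_ge a (U.lt_Jp (by linarith) b d)
    have := mul_le_mul_of_nonneg_left g (Nat.cast_nonneg (α := ℝ) S.n)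
    change 1 ≤ S.n * ls S M k
    linarith [U.nu]

end UN

/-- `TLt` at the numbers of the passes -/
theorem ps_of (T : L69.TLt) : CL fun E Λ S M m a => ∀ la V u2 y r q Lg K,
    UN S M la V u2 y r q Lg E K → Tot S M m a ≤ y ^ 6 → Ps E Λ S M m a V u2 y Lg :=
  CL.mono T fun E Λ S M m a _ _ c _ T la V u2 y r q Lg K U hΦ u1 Vt h1 h2 V0 hV => by
    have y0 := U.y0
    have u := U.sd.nu.u2p
    have yC : y ^ 2 ≤ S.C := U.y1.trans c.C1
    have EX : E * y ^ 6 ≤ 1 := le_trans (mul_le_mul_of_nonneg_left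
      (pow_le_pow_of_le_one y0.le U.y1' (by norm_num)) (by linarith [U.E1])) U.Ey
    refine T (y ^ 2) (y ^ 6) (y ^ 6) Vt _ u1 _ 0 E U.HJ (by positivity) EX (by positivity) EX V0
      U.jl ?_ U.Ey ?_ (fun t a b => (min_le_right _ _).trans ((U.x2b t a b).trans U.X8))
      U.sd.u0p U.rev (by linarith [U.ue]) ?_ (by rw [U.flat _ c.i3 le_rfl, sub_self])
      (by simp) le_rfl U.En (U.far h1) (U.np h1 h2 V0) (U.apr h1 hΦ hV)
    · refine le_of_pow_le_pow_left₀ two_ne_zero (by positivity) ?_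
      refine le_of_mul_le_mul_left ?_ (pow_pos (pow_pos y0 2) 3)
      exact (U.w3 _ le_rfl yC).trans_eq (by ring)
    · rw [U.cl_eq le_rfl yC]
      nlinarith [U.X8, pow_pos y0 6]
    · exact (mul_le_mul_of_nonneg_left (h2.trans U.VX) (by linarith [U.E1])).trans EX

namespace UN

variable {S : Sc} {M : Md} {m : ℕ} {a la V u2 y r q Lg E K Λ : ℝ} {k : ℕ}
  (U : UN S M la V u2 y r q Lg E K) (T : Ps E Λ S M m a V u2 y Lg) (Λ1 : 1 ≤ Λ) (hm : 0 < m)
  (hK : 300 * S.C ^ 4 * (Λ * E * Lg) ≤ K)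
include U

theorem clk {k' : ℕ} (h0 : S.J ≤ k') (h1 : k' ≤ S.Jp) {b : ℝ} (b0 : 0 ≤ b)
    (h : ((k' : ℝ) - S.J) * S.v ≤ 3 * S.C * (S.u0 + b)) :
    min (√(M.H k' - M.H S.J)) (S.F * (M.H k' - M.H S.J) / S.θ) ≤ 6 * S.C ^ 2 * (V + b) := by
  have c := U.sd.cl
  have θ0 := c.θ0
  have C0 := c.C0
  have V0 := U.V0
  have u0 := U.sd.u0p
  have a := (U.ce.toG c).pl S.J k' le_rfl h0 h1
  rw [U.F1] at a ⊢
  have d : M.H k' - M.H S.J ≤ 3 * S.C ^ 2 * (S.u0 + b) * S.θ := by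
    linarith [mul_le_mul_of_nonneg_left h (mul_pos C0 θ0).le]
  have e : 1 * (M.H k' - M.H S.J) / S.θ ≤ 3 * S.C ^ 2 * (S.u0 + b) := by
    rw [one_mul, div_le_iff₀ θ0]; exact d
  have C2 : 1 ≤ S.C ^ 2 := one_le_pow₀ c.C1
  rcases le_total S.u0 (max V b) with f | f
  · have : S.u0 ≤ V + b := f.trans (max_le (by linarith) (by linarith))
    nlinarith [min_le_right (√(M.H k' - M.H S.J)) (1 * (M.H k' - M.H S.J) / S.θ)]
  · obtain ⟨f1, f2⟩ := max_le_iff.1 f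
    have g : S.θ * S.u0 ≤ V ^ 2 := by
      refine le_of_mul_le_mul_right ?_ (pow_pos u0 2)
      have := mul_le_mul_of_nonneg_left (pow_le_pow_left₀ V0.le f1 2) (sq_nonneg V)
      linarith [U.θl, show S.θ * S.u0 * S.u0 ^ 2 = S.θ * la ^ 2 by rw [← U.sd.u0_cube]; ring]
    refine (min_le_left _ _).trans (sqrt_le_iff.2 ⟨by positivity, d.trans ?_⟩)
    have g1 := mul_le_mul_of_nonneg_left f2 θ0.le
    have g2 : V ^ 2 ≤ (V + b) ^ 2 := pow_le_pow_left₀ V0.le (by linarith) 2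
    have g3 : (S.u0 + b) * S.θ ≤ 2 * (V + b) ^ 2 := by linarith
    have g4 := mul_le_mul_of_nonneg_left g3 (sq_nonneg S.C)
    have g5 := mul_le_mul_of_nonneg_right C2 (show 0 ≤ S.C ^ 2 * (V + b) ^ 2 by positivity)
    have g6 : 0 ≤ S.C ^ 2 * (V + b) ^ 2 := by positivity
    linarith [show (6 * S.C ^ 2 * (V + b)) ^ 2 = 36 * (S.C ^ 2 * (S.C ^ 2 * (V + b) ^ 2)) by ring]

include T Λ1 in
/-- one pass at one node -/
theorem pas {u1 Vt Z : ℝ} (h1 : u2 / 2 ≤ u1) (h2 : u1 ≤ V ^ 2) (V0 : 0 ≤ Vt)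
    (hV : ∀ k, S.J ≤ k → k ≤ S.Jp → u1 ≤ R62.du M k → M.del m a k ≤ Vt) (k0 : S.J ≤ k)
    (k1 : k ≤ S.Jp) (hu : 2 * u1 ≤ R62.du M k) (Z0 : 0 ≤ Z)
    (hZ : 2 * S.w3 1 * Vt ^ 2 ≤ Z ^ 3 * (ls S M k * min (R62.dl S M k) (R62.du M k))) :
    M.del m a k ≤ Λ * E * Lg * (100 * S.C ^ 3 * (y ^ 3 + ls S M k) + Z) := by
  have u := U.sd.nu.u2p
  have su := sqrt_pos.2 u
  have y0 := U.y0
  have E1 := U.E1
  have L1 := U.L1
  have Vp := U.V0
  have C4 := U.sd.C4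
  have hk := U.mem k0 k1 (by linarith)
  have l0 := U.ls0 hk
  have hL : log (1 + 4 / √u2) ≤ Lg := by
    have a : u2 ≤ √u2 := by nlinarith [sq_sqrt u.le, U.sd.nu.s1]
    have b := log_le_log (x := 1 + 4 / √u2) (by positivity)
      (add_le_add le_rfl (div_le_div_of_nonneg_left (by norm_num) u a))
    linarith [U.lg, log_nonneg (show 1 ≤ 1 + 4 / u2 from le_add_of_nonneg_right (by positivity))]
  obtain ⟨j, j0, j1, j2, j3⟩ := half U.sd U.v U.ue hL hk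
  have a := T u1 Vt h1 h2 V0 hV k k0 k1 hu j j0 j1 j2
  have b := U.clk (k0.trans j0) j1 (b := V * Lg + 16 * S.C * ls S M k) (by positivity)
    (by linarith)
  have c := U.ap_le V0 hk Z0 (le_trans (mul_le_mul_of_nonneg_left (pow_le_pow_left₀
    (le_min V0 (sqrt_nonneg _)) (min_le_left _ _) 2) (by linarith [U.w0 one_pos])) hZ)
  have d : 1 / √(S.n : ℝ) ≤ V := by
    have n0 : (0 : ℝ) < S.n := by exact_mod_cast U.sd.cl.n1
    rw [div_le_iff₀ (sqrt_pos.2 n0), ← div_le_iff₀' Vp]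
    exact le_sqrt_of_sq_le (by rw [div_pow, one_pow, div_le_iff₀ (by positivity)]; exact U.nV)
  rw [sqrt_sq (by positivity)] at a
  refine a.trans ?_
  rw [mul_assoc Λ E, mul_assoc Λ]
  refine mul_le_mul_of_nonneg_left ?_ (by linarith)
  have VB := U.VB
  generalize y ^ 3 = B at *
  generalize ls S M k = l at *
  have B0 : 0 < B := Vp.trans_le VB
  have p1 : 1 ≤ E * Lg := one_le_mul_of_one_le_of_one_le E1 L1
  have p2 : E ≤ E * Lg := le_mul_of_one_le_right (by linarith) L1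
  have p3 : Lg ≤ E * Lg := le_mul_of_one_le_left (by linarith) E1
  have c1 := mul_le_mul p2 c (le_trans ?_ le_rfl) (by linarith)
  swap
  · have := U.w0 one_pos
    have := U.sd.cl.den0 (M.z (k - 1))
    have : 0 < L69.ds M S k := U.ds0 hk
    unfold ap; positivity
  have b1 : V + (V * Lg + 16 * S.C * l) ≤ E * Lg * (2 * B + 16 * S.C * l) := by
    have := mul_le_mul VB p3 (by linarith) B0.le
    have := mul_le_mul_of_nonneg_right p1 B0.le
    have := mul_le_mul_of_nonneg_right p1 (show 0 ≤ 16 * S.C * l by positivity)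
    linarith
  have b2 := mul_le_mul_of_nonneg_left b1 (show 0 ≤ 6 * S.C ^ 2 by positivity)
  have b3 := mul_le_mul_of_nonneg_right p1 B0.le
  have C3 : 64 ≤ S.C ^ 3 := by linarith [pow_le_pow_left₀ (by norm_num) C4 3]
  have C2 : S.C ^ 2 ≤ S.C ^ 3 := pow_le_pow_right₀ (by linarith) (by norm_num)
  have z : 27 * B + 4 * l + 6 * S.C ^ 2 * (2 * B + 16 * S.C * l) ≤ 100 * S.C ^ 3 * (B + l) := by
    linarith [mul_le_mul_of_nonneg_right C3 B0.le, mul_le_mul_of_nonneg_right C3 l0.le,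
      mul_le_mul_of_nonneg_right C2 B0.le, mul_pos (show 0 < S.C ^ 3 by positivity) B0]
  linarith [mul_le_mul_of_nonneg_left z (show 0 ≤ E * Lg by linarith)]

theorem upper (hu : R62.du M k ≤ 2 * V ^ 2) : R62.du M k ≤ R62.dl S M k ∧
    1 / (2 * S.C) ≤ R62.dl S M k := by
  have C0 := U.sd.cl.C0
  have a := U.sd.sum_ge k
  have b : 2 * V ^ 2 ≤ 1 / (2 * S.C) := by rw [le_div_iff₀ (by positivity)]; linarith [U.CV]
  have c : 1 / S.C = 1 / (2 * S.C) + 1 / (2 * S.C) := by field_simp; norm_num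
  constructor <;> linarith

/-- the cube of the profile pays the shell -/
theorem cube {u W g : ℝ} (k0 : S.J ≤ k) (k1 : k < S.Jp) (h1 : u2 ≤ u) (h2 : u ≤ R62.du M k)
    (h3 : R62.du M k ≤ 2 * V ^ 2) (hg : √(u2 / u) ≤ g) :
    2 * S.w3 1 * (2 * W * g) ^ 2 ≤ (q * r) ^ 3 * W ^ 2 * g ^ 3 *
      (ls S M k * min (R62.dl S M k) (R62.du M k)) ∧ √(u2 / R62.du M k) ≤ 4 * ls S M k := by
  have u0 := U.sd.nu.u2p
  have d := U.sd.du0 k0 k1
  have e := (U.upper h3).1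
  have a := (U.sd.nu.hi d e).2.1
  rw [← U.sd.ls_eq k0 d, ← sqrt_div u0.le, min_eq_left (sqrt_le_one.2
    ((div_le_one d).2 (h1.trans h2)))] at a
  refine ⟨?_, by linarith⟩
  rw [min_eq_right e]
  have p : 0 < u := u0.trans_le h1
  have b : u2 ≤ √(u2 / u) * (√(u2 / R62.du M k) * R62.du M k) := by
    have b1 := sqrt_le_sqrt (div_le_div_of_nonneg_left u0.le p h2)
    have b2 := mul_self_sqrt (div_pos u0 d).le
    have b3 := mul_le_mul_of_nonneg_right b1 (mul_pos (sqrt_pos.2 (div_pos u0 d)) d).le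
    rw [← mul_assoc, b2, div_mul_cancel₀ _ d.ne'] at b3
    exact b3
  have g0 : 0 ≤ g := (sqrt_nonneg _).trans hg
  have c : u2 ≤ g * (4 * ls S M k * R62.du M k) :=
    b.trans (mul_le_mul hg (mul_le_mul_of_nonneg_right (by linarith) d.le) (by positivity) g0)
  have f := mul_le_mul_of_nonneg_left c (pow_nonneg U.ε0 3)
  have i : 8 * S.w3 1 ≤ (q * r) ^ 3 * (g * (ls S M k * R62.du M k)) := by
    have := U.wq
    rw [← U.ε3] at this
    linarith [U.w0 one_pos]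
  linarith [mul_le_mul_of_nonneg_right i (show 0 ≤ W ^ 2 * g ^ 2 by positivity)]

theorem ls_up {u : ℝ} (k0 : S.J ≤ k) (p : 0 < u) (h2 : u ≤ R62.du M k)
    (h3 : R62.du M k ≤ 2 * V ^ 2) : ls S M k ≤ S.C * (y ^ 3 + √(u2 / u)) := by
  have d : 0 < R62.du M k := p.trans_le h2
  obtain ⟨e, f⟩ := U.upper h3
  have C4 := U.sd.C4
  have lp := U.sd.nu.lp
  have Vp := U.V0
  have su := U.sd.nu.sp
  have A0 := d.trans_le e
  have sA := sqrt_pos.2 A0
  have sd := sqrt_pos.2 d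
  rw [U.sd.ls_eq k0 d, Kn72.LL, min_eq_right e]
  have a : db la (R62.dl S M k) * R62.du M k ≤ S.C * la / 2 := by
    refine (mul_le_mul_of_nonneg_left e (db_pos lp A0).le).trans ?_
    rw [Kn72.db_mul A0]
    refine div_le_div_of_nonneg_right ?_ two_pos.le
    have : 1 / S.C ≤ √(R62.dl S M k) := le_sqrt_of_sq_le (le_trans (by
      rw [div_pow, one_pow]; exact one_div_le_one_div_of_le (by linarith) (by nlinarith)) f)
    rw [div_le_iff₀ (by linarith)] at this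
    rw [div_le_iff₀ sA]; nlinarith
  have b : dt V la (R62.du M k) * R62.du M k ≤ V / 2 := by
    unfold dt
    rw [div_mul_eq_mul_div, div_le_div_iff₀ (by positivity) two_pos]
    nlinarith [mul_pos (mul_pos (mul_pos Vp Vp) d) sd]
  have c : dt 1 (√u2) (R62.du M k) * R62.du M k ≤ √(u2 / u) / 2 := by
    refine (mul_le_mul_of_nonneg_right (Kn72.dt_le' one_pos su.le d) d.le).trans ?_
    rw [Kn72.db_mul d, ← sqrt_div U.sd.nu.u2p.le]
    exact div_le_div_of_nonneg_right (sqrt_le_sqrt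
      (div_le_div_of_nonneg_left U.sd.nu.u2p.le p h2)) two_pos.le
  have VB := U.VB
  have l1 := mul_le_mul_of_nonneg_left (U.sd.nu.lV.trans VB) (show 0 ≤ S.C by linarith)
  nlinarith [sqrt_nonneg (u2 / u), Vp.trans_le VB]

omit U in
/-- the profile claim -/
def PC (S : Sc) (M : Md) (m : ℕ) (a V u2 y W : ℝ) : Prop := ∀ u, 0 < u → u ≤ V ^ 2 → ∀ k, S.J ≤ k →
  k ≤ S.Jp → u ≤ R62.du M k → M.del m a k ≤ W * (y ^ 3 + √(u2 / u))

include hm

theorem del1 (k : ℕ) : M.del m a k ≤ 1 := by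
  linarith [Md67.rb_le_one (M := M) (a := a) hm k, show 0 ≤ M.q k from Pp.Ode3.Gam_nonneg _ _,
    show M.del m a k = M.rb m a k - M.q k from rfl]

theorem del_mono {i : ℕ} (h0 : S.J ≤ i) (h1 : i ≤ k) (h2 : k ≤ S.Jp) :
    M.del m a i ≤ M.del m a k := by
  unfold Md.del Md.q
  rw [U.flat i h0 (h1.trans h2), U.flat k (h0.trans h1) h2]
  exact sub_le_sub_right (Md67.rb_mono hm h1) _

theorem pc0 : PC S M m a V u2 y (1 / V) := fun u _ _ k _ _ _ => by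
  rw [one_div_mul_eq_div, le_div_iff₀ U.V0]
  nlinarith [U.del1 (a := a) hm k, U.VB, U.V0, sqrt_nonneg (u2 / u)]

omit hm in
theorem half_g {u : ℝ} (p : 0 < u) : √(u2 / (u / 2)) ≤ 2 * √(u2 / u) := by
  have := U.sd.nu.u2p
  refine sqrt_le_iff.2 ⟨by positivity, ?_⟩
  rw [mul_pow, sq_sqrt (by positivity), div_div_eq_mul_div, ← mul_div_assoc]
  exact div_le_div_of_nonneg_right (by linarith) p.le

include T Λ1 hK

theorem step {W ζ : ℝ} (W0 : 0 ≤ W) (ζ1 : 1 ≤ ζ) (hζ : (q * r) ^ 3 * W ^ 2 ≤ ζ ^ 3)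
    (h : PC S M m a V u2 y W) : PC S M m a V u2 y (K * ζ) := fun u p uV k k0 k1 hu => by
  have u0 := U.sd.nu.u2p
  have y0 := U.y0
  have C4 := U.sd.C4
  have g0 := sqrt_nonneg (u2 / u)
  have Kζ : 1 ≤ K * ζ := one_le_mul_of_one_le_of_one_le U.K1 ζ1
  rcases le_total u u2 with e | e
  · have : 1 ≤ √(u2 / u) := one_le_sqrt.2 ((one_le_div p).2 e)
    exact (U.del1 hm k).trans (one_le_mul_of_one_le_of_one_le Kζ (by linarith [pow_pos y0 3]))
  classical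
  have ex : ∃ i, k ≤ i ∧ R62.du M (i + 1) < u := ⟨S.Jp - 1, by
    have := U.lt_Jp (by linarith) k1 hu; omega, by
    have := U.lt_Jp (by linarith) k1 hu
    rw [show S.Jp - 1 + 1 = S.Jp by omega]
    linarith [U.sd.cl.last, U.ue, show R62.du M S.Jp = 1 - M.z (S.Jp - 1) from rfl]⟩
  obtain ⟨i0, i1⟩ := Nat.find_spec ex
  have i2 : u ≤ R62.du M (Nat.find ex) := by
    rcases i0.eq_or_lt with f | f
    · rwa [← f]
    · have := Nat.find_min ex (show Nat.find ex - 1 < Nat.find ex by omega)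
      rw [show Nat.find ex - 1 + 1 = Nat.find ex by omega] at this
      exact not_lt.1 fun z => this ⟨by omega, z⟩
  have i3 : Nat.find ex < S.Jp := by
    by_contra z
    have : R62.du M (Nat.find ex) ≤ R62.du M S.Jp :=
      sub_le_sub_left (U.sd.cl.leg.zm (by omega)) 1
    linarith [U.sd.cl.last, U.ue, show R62.du M S.Jp = 1 - M.z (S.Jp - 1) from rfl]
  generalize Nat.find ex = i at *
  have s := (le_min_iff.1 (Lk37.step U.sd U.v (k0.trans i0) i3)).2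
  have i4 : R62.du M i ≤ 2 * V ^ 2 := by
    unfold R62.du at *
    rw [Nat.add_sub_cancel] at i1
    linarith
  have hg := U.half_g p
  have c := (U.cube (W := W) (k0.trans i0) i3 e i2 i4
    (show √(u2 / u) ≤ y ^ 3 + √(u2 / u) by linarith [pow_pos y0 3])).1
  have hi := U.mem (k0.trans i0) i3.le (by linarith)
  have a := U.pas T Λ1 (u1 := u / 2) (Vt := 2 * W * (y ^ 3 + √(u2 / u)))
    (Z := ζ * (y ^ 3 + √(u2 / u))) (by linarith) (by linarith) (by positivity)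
    (fun j j0 j1 j2 => (h (u / 2) (by positivity) (by linarith) j j0 j1 j2).trans (by
      linarith [mul_le_mul_of_nonneg_left hg W0, mul_nonneg W0 (pow_pos y0 3).le]))
    (k0.trans i0) i3.le (by linarith) (by positivity) (c.trans (mul_le_mul_of_nonneg_right (by
      rw [mul_pow ζ]; exact mul_le_mul_of_nonneg_right hζ (by positivity))
      (mul_pos (U.ls0 hi) (U.ds0 hi)).le))
  have b := U.ls_up (k0.trans i0) p i2 i4
  refine (U.del_mono hm k0 i0 i3.le).trans (a.trans ?_)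
  have P0 : 0 ≤ Λ * E * Lg := by have := U.E1; have := U.L1; positivity
  have G0 : 0 < y ^ 3 + √(u2 / u) := by positivity
  have yG : y ^ 3 ≤ y ^ 3 + √(u2 / u) := by linarith
  generalize y ^ 3 + √(u2 / u) = G at *
  have C1 : 1 ≤ S.C ^ 4 := one_le_pow₀ (by linarith)
  have z1 : y ^ 3 + ls S M i ≤ 2 * S.C * G := by nlinarith
  have z2 := mul_le_mul_of_nonneg_left z1 (show 0 ≤ 100 * S.C ^ 3 by positivity)
  have z3 := mul_le_mul_of_nonneg_right ζ1 (show 0 ≤ S.C ^ 4 * G by positivity)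
  have z4 := mul_le_mul_of_nonneg_right C1 (show 0 ≤ ζ * G by positivity)
  have z5 : 100 * S.C ^ 3 * (y ^ 3 + ls S M i) + ζ * G ≤ 300 * S.C ^ 4 * (ζ * G) := by
    linarith [show 0 ≤ ζ * G by positivity]
  linarith [mul_le_mul_of_nonneg_left z5 P0,
    mul_le_mul_of_nonneg_right hK (show 0 ≤ ζ * G by positivity)]

theorem pc2 : PC S M m a V u2 y K := by
  have r0 := U.r0
  have q1 := U.q1
  have K1 := U.K1
  have z1 : 1 ≤ q / r := (one_le_div r0).2 (U.r1.trans q1)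
  have a := U.step T Λ1 hm hK (ζ := q / r) (one_div_pos.2 U.V0).le z1
    (le_of_eq (by rw [← U.rV]; field_simp)) (U.pc0 hm)
  have b := U.step T Λ1 hm hK (ζ := 1) (by positivity) le_rfl
    (le_trans (le_of_eq (by field_simp)) (U.qr.trans_eq (one_pow 3).symm)) a
  rwa [mul_one] at b

/-- **`LK.up`** -/
theorem up (hk : k ∈ pl S M (u2 / 4)) : M.del m a k ≤ K * (y ^ 3 + ls S M k) := by
  obtain ⟨k0, k1, hu⟩ := SD.mem_pl hk
  have u0 := U.sd.nu.u2p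
  have y0 := U.y0
  have C4 := U.sd.C4
  have K1 := U.K1
  have l0 := U.ls0 hk
  have s0 := U.ds0 hk
  have d := U.sd.du0 k0 k1
  have Vp := U.V0
  have P1 : 1 ≤ Λ * E * Lg :=
    one_le_mul_of_one_le_of_one_le (one_le_mul_of_one_le_of_one_le Λ1 U.E1) U.L1
  have C3 : 64 ≤ S.C ^ 3 := by linarith [pow_le_pow_left₀ (by norm_num) C4 3]
  have C2 : S.C ^ 3 ≤ S.C ^ 4 := pow_le_pow_right₀ (by linarith) (by norm_num)
  have G0 : 0 < y ^ 3 + ls S M k := by positivity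
  rcases le_total (R62.du M k) u2 with e | e
  · have a1 := U.sd.nu.fin d (U.upper (by linarith [U.uV, sq_nonneg V])).1 e
    rw [← U.sd.ls_eq k0 d] at a1
    have b : 4 ≤ K := by nlinarith
    nlinarith [U.del1 (a := a) hm k, pow_pos y0 3]
  obtain ⟨u, u1, u3, u4, hZ⟩ : ∃ u, u2 ≤ u ∧ u ≤ V ^ 2 ∧ u ≤ R62.du M k ∧
      2 * S.w3 1 * (2 * K * (y ^ 3 + √(u2 / u))) ^ 2 ≤ (4 * (y ^ 3 + ls S M k)) ^ 3 *
        (ls S M k * min (R62.dl S M k) (R62.du M k)) := by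
    rcases le_total (R62.du M k) (V ^ 2) with f | f
    · obtain ⟨c1, c2⟩ := U.cube (W := K) k0 k1 e le_rfl (by linarith [sq_nonneg V])
        (show √(u2 / R62.du M k) ≤ y ^ 3 + √(u2 / R62.du M k) by linarith [pow_pos y0 3])
      refine ⟨_, e, f, le_rfl, c1.trans (mul_le_mul_of_nonneg_right ?_ (by positivity))⟩
      exact (mul_le_of_le_one_left (by positivity) U.εK).trans
        (pow_le_pow_left₀ (by positivity) (by linarith [pow_pos y0 3]) 3)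
    · refine ⟨_, U.uV, le_rfl, f, ?_⟩
      have w := U.w0 one_pos
      have a1 : (y ^ 3 + √(u2 / V ^ 2)) ^ 2 ≤ 2 * (y ^ 3) ^ 2 + 2 * (u2 / V ^ 2) := by
        nlinarith [sq_nonneg (y ^ 3 - √(u2 / V ^ 2)), sq_sqrt (show 0 ≤ u2 / V ^ 2 by positivity)]
      have a2 : K ^ 2 * S.w3 1 ≤ ls S M k ^ 2 * min (R62.dl S M k) (R62.du M k) := by
        have := mul_le_mul_of_nonneg_left (U.hw hk) (sq_nonneg K)
        have := mul_le_of_le_one_left (show 0 ≤ ls S M k ^ 2 * min (R62.dl S M k) (R62.du M k) by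
          positivity) U.εK
        linarith
      have a3 : K ^ 2 * S.w3 1 * (u2 / V ^ 2) ≤
          (y ^ 3) ^ 2 * (ls S M k ^ 2 * min (R62.dl S M k) (R62.du M k)) := by
        have b1 : K ^ 2 * S.w3 1 * (u2 / V ^ 2) ≤ V ^ 2 * (u2 / 64) := by
          rw [← mul_div_assoc, div_le_iff₀ (by positivity)]
          nlinarith [mul_le_mul_of_nonneg_right U.wV u0.le, mul_pos (pow_pos Vp 4) u0]
        exact b1.trans (mul_le_mul (by linarith [U.VX]) (U.sq64 hk) (by positivity) (by positivity))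
      have a4 := mul_le_mul_of_nonneg_left a1 (show 0 ≤ K ^ 2 * S.w3 1 by positivity)
      have a5 := mul_le_mul_of_nonneg_right a2 (sq_nonneg (y ^ 3))
      have B0 := pow_pos y0 3
      generalize y ^ 3 = B at *
      generalize ls S M k = l at *
      generalize min (R62.dl S M k) (R62.du M k) = s at *
      have a6 : B ^ 2 * l ≤ (B + l) ^ 3 := by
        have : 0 ≤ (B + l) ^ 3 - B ^ 2 * l := by ring_nf; positivity
        linarith
      have a7 := mul_le_mul_of_nonneg_right a6 (mul_pos l0 s0).le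
      have a8 : 0 ≤ (B + l) ^ 3 * (l * s) := by positivity
      linarith
  have p : 0 < u := u0.trans_le u1
  have hg := U.half_g p
  have a := U.pas T Λ1 (u1 := u / 2) (by linarith) (by linarith) (by positivity)
    (fun j j0 j1 j2 => (U.pc2 T Λ1 hm hK (u / 2) (by positivity) (by linarith) j j0 j1 j2).trans
      (show _ ≤ 2 * K * (y ^ 3 + √(u2 / u)) by
        linarith [mul_le_mul_of_nonneg_left hg (show 0 ≤ K by linarith),
          mul_nonneg (show 0 ≤ K by linarith) (pow_pos y0 3).le]))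
    k0 k1.le (by linarith) (by positivity) hZ
  refine a.trans ?_
  generalize y ^ 3 + ls S M k = G at *
  have z : 100 * S.C ^ 3 * G + 4 * G ≤ 300 * S.C ^ 4 * G := by
    linarith [mul_le_mul_of_nonneg_right C3 G0.le, mul_le_mul_of_nonneg_right C2 G0.le]
  linarith [mul_le_mul_of_nonneg_left z (show 0 ≤ Λ * E * Lg by linarith),
    mul_le_mul_of_nonneg_right hK G0.le]

end UN

/-- **`LK.up` on the class** -/
theorem up_cl (T : L69.TLt) : CL fun E Λ S M m a => ∀ la V u2 y r q Lg K,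
    UN S M la V u2 y r q Lg E K → 300 * S.C ^ 4 * (Λ * E * Lg) ≤ K → Tot S M m a ≤ y ^ 6 →
    ∀ k ∈ pl S M (u2 / 4), M.del m a k ≤ K * (y ^ 3 + ls S M k) :=
  (ps_of T).mono fun _ _ S _ m _ _ Λ1 c I T la V u2 y r q Lg K U hK hΦ _ hk =>
    U.up (T la V u2 y r q Lg K U hΦ) Λ1
      (lt_of_lt_of_le (by exact_mod_cast one_pos.trans_le c.n1) I.m1) hK hk

end Crest.Agent.T156.Alt.Lk37

end
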