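import Crest.Agent.T156.SrNB_66

/-!
# Row 156, SR on the graded family: the numbers (helper66)
-/

set_option autoImplicit false
set_option linter.unusedSectionVars false

noncomputable section

namespace Crest.Agent.T156.Alt

open Real Set

namespace Pm

variable (p : Pm) (ε σ : ℝ)

/-- the deflated size -/
def Y0G : ℝ := (p.n : ℝ) ^ (ε / 2) * p.PhG ((p.n : ℝ) ^ ε) σ
/-- the level `l` -/
def lSR : ℝ := p.Y0G ε σ ^ ((1 : ℝ) / 3)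
open Classical in
/-- the level `Ys` -/
def YsG (C : ℝ) : ℝ := if p.Flat ((p.n : ℝ) ^ ε) σ then C + 1 else p.yG ((p.n : ℝ) ^ ε) σ

end Pm

namespace Reg

variable {β c0 C0 : ℝ} {A : ℕ} {c η K : ℝ} {p : Pm} (H : Reg β c0 C0 A c η K p)
  {σ σ' E t ε C Y s : ℝ}
include H

theorem yS_mono (M : p.MemG σ) {E' : ℝ} (hE : 0 < E) (h : E ≤ E') : p.yS E σ ≤ p.yS E' σ := by
  have := H.N0; have := H.κ0; have := H.sgG_pos M
  refine max_le_max (max_le_max ?_ ?_) ?_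
  · unfold Pm.yA; gcongr
  · unfold Pm.yB; gcongr
  · split_ifs with a b
    · exact le_rfl
    · exact absurd (le_trans a h) b
    · exact zero_le_one
    · exact le_rfl

/-- `PhG` is monotone in the margin -/
theorem PhG_mono (M : p.MemG σ) {E' : ℝ} (hE : 0 < E) (h : E ≤ E') : p.PhG E σ ≤ p.PhG E' σ := by
  have a := H.yS_mono M hE h
  have b : p.yG E σ ≤ p.yG E' σ := max_le_max a le_rfl
  have := H.N0; have := H.rj0
  unfold Pm.PhG Pm.rtG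
  gcongr

theorem Y0G0 (M : p.MemG σ) : 0 < p.Y0G ε σ := mul_pos (H.rp0 _) (H.PhG0 M (H.rp0 _))

theorem lg_Y0G (M : p.MemG σ) :
    logb p.n (p.Y0G ε σ) = ε / 2 + logb p.n (p.PhG ((p.n : ℝ) ^ ε) σ) := by
  rw [Pm.Y0G, logb_mul (H.rp0 _).ne' (H.PhG0 M (H.rp0 _)).ne', H.lg_rp]

theorem lSR0 (M : p.MemG σ) : 0 < p.lSR ε σ := rpow_pos_of_pos (H.Y0G0 M) _

theorem lSR_cube (M : p.MemG σ) : p.lSR ε σ ^ 3 = p.Y0G ε σ := by
  rw [Pm.lSR, ← rpow_natCast, ← rpow_mul (H.Y0G0 M).le]; norm_num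

theorem lg_lSR (M : p.MemG σ) :
    3 * logb p.n (p.lSR ε σ) = ε / 2 + logb p.n (p.PhG ((p.n : ℝ) ^ ε) σ) := by
  rw [Pm.lSR, logb_rpow_eq_mul_logb_of_pos (H.Y0G0 M), H.lg_Y0G M]; ring

/-- the amplitudes along an octave -/
theorem lg_la_oct (O : p.OctR σ σ') : logb p.n (p.laG σ) ≤ logb p.n (p.laG σ') + η ∧
    logb p.n (p.muG σ) ≤ logb p.n (p.muG σ') ∧ logb p.n (p.muG σ') ≤ logb p.n (p.muG σ) + η := by
  obtain ⟨M, M'⟩ := Gr29.oct_mem O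
  obtain ⟨a, b⟩ := H.oct_mu O
  have m := H.muG_pos M
  have a1 := H.lg_mono m a
  have b1 := H.lg_mono (H.muG_pos M') b
  rw [logb_mul two_ne_zero m.ne'] at b1
  have d := H.lg_two.2
  have c0 := H.c_pos
  have η0 := H.η_pos
  refine ⟨?_, a1, by linarith⟩
  rcases H.lg_laG M with ⟨x, y⟩ | ⟨x, x', y⟩ | ⟨x, x', y⟩ | ⟨x, y⟩ <;>
    rcases H.lg_laG M' with ⟨z, w⟩ | ⟨z, z', w⟩ | ⟨z, z', w⟩ | ⟨z, w⟩ <;> linarith

/-- the lower bounds of the size, in exponents -/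
theorem lg_low (O : p.OctR σ σ') (hE : 0 < E) :
    logb p.n (p.yS E σ') - 1 / 3 ≤ logb p.n (p.PhG E σ') ∧
    3 * (logb p.n p.s + c / 7 - 1 / 6) ≤ logb p.n (p.PhG E σ') ∧
    2 * logb p.n (p.laG σ) - 2 * η ≤ logb p.n (p.PhG E σ') ∧
    min (logb p.n (p.yG E σ')) 0 + 5 * (logb p.n p.s + c / 13 - 1 / 6) ≤
      2 * logb p.n (p.PhG E σ') := by
  obtain ⟨⟨a, b, d, e⟩, -⟩ := H.lg_PhG (Gr29.oct_mem O).2 hE
  exact ⟨a, H.lg_r ▸ b, by linarith [(H.lg_la_oct O).1], by linarith [H.lg_rtG (σ := σ') hE]⟩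

theorem lg_sj (h1 : p.rj / 2 ≤ s) (h2 : s ≤ 3 * p.rj) : 0 < s ∧
    logb p.n p.s + c / 13 - 1 / 6 - η ≤ logb p.n s ∧
    logb p.n s ≤ logb p.n p.s + c / 13 - 1 / 6 + η := by
  have r := H.rj0
  have s0 : 0 < s := (half_pos r).trans_le h1
  have a := H.lg_mono (half_pos r) h1
  have b := H.lg_mono s0 h2
  rw [logb_div r.ne' two_ne_zero, H.lg_rj] at a
  rw [logb_mul three_ne_zero r.ne', H.lg_rj] at b
  exact ⟨s0, by linarith [H.lg_two.2],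
    by linarith [(H.lg_num (x := 3) (by norm_num) (by norm_num)).2]⟩

section main

variable (O : p.OctR σ σ') (hη : 100 * η ≤ ε) (hε : 1000 * ε ≤ c)
include O hη hε

omit O in
theorem E1G : 1 ≤ (p.n : ℝ) ^ ε := one_le_rpow H.N1.le (by linarith [H.η_pos])

/-- above `Ys`: not flat and above `yG` -/
theorem above (h1 : p.YsG ε σ' C ≤ t) (h2 : t ≤ C) :
    ¬p.Flat ((p.n : ℝ) ^ ε) σ' ∧ p.yG ((p.n : ℝ) ^ ε) σ' ≤ t := by
  unfold Pm.YsG at h1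
  split_ifs at h1 with a
  · linarith
  · exact ⟨a, h1⟩

theorem star66 (E1 : 0 < E) (E2 : E ≤ (p.n : ℝ) ^ (ε / 100)) (h1 : p.YsG ε σ' C ≤ t) (h2 : t ≤ C) :
    E ^ 30 * (p.n : ℝ) ^ (-(1 : ℝ) / 3) ≤ p.msG σ' t := by
  obtain ⟨a, b⟩ := H.above O hη hε h1 h2
  have M := (Gr29.oct_mem O).2
  have d := H.lg_mono (H.rp0 _) (H.thick_of_yS M (H.rp0 _) a ((le_max_left _ _).trans b))
  have e := (H.lg_mono E1 E2).trans_eq (H.lg_rp _)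
  have := H.N0; have := H.msG_pos M t
  refine H.le_of_lg (by positivity) (by positivity) ?_
  revert d; lg_norm; rw [H.lg_n]; intro d
  linarith [H.η_pos]

theorem sj_le_Ys (h1 : p.rj / 2 ≤ s) (h2 : s ≤ 3 * p.rj) (hC : 0 ≤ C) : s ≤ p.YsG ε σ' C := by
  obtain ⟨s0, -, s2⟩ := H.lg_sj h1 h2
  have := H.lg_s.2; have := H.c_le; have := H.η_pos
  unfold Pm.YsG
  split_ifs
  · exact (H.le_of_lg s0 one_pos (by rw [logb_one]; linarith)).trans (by linarith)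
  · have a := (H.lg_yG (Gr29.oct_mem O).2 (H.rp0 ε)).1.2.2.1
    rw [H.lg_rj] at a
    exact H.le_of_lg s0 (H.yG0 (H.rp0 _)) (by linarith)

theorem sj_lt_l (h1 : p.rj / 2 ≤ s) (h2 : s ≤ 3 * p.rj) : s < p.lSR ε σ' := by
  obtain ⟨s0, -, s2⟩ := H.lg_sj h1 h2
  have M := (Gr29.oct_mem O).2
  have a := (H.lg_low O (H.rp0 ε)).2.1
  have b := H.lg_lSR (ε := ε) M
  have := H.η_pos
  exact (logb_lt_logb_iff H.N1 s0 (H.lSR0 M)).1 (by linarith)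

/-- the exponent of `min Ys 1` -/
theorem lg_Ys (hC : 0 ≤ C) : 0 < min (p.YsG ε σ' C) 1 ∧
    logb p.n (min (p.YsG ε σ' C) 1) = min (logb p.n (p.yG ((p.n : ℝ) ^ ε) σ')) 0 := by
  have M := (Gr29.oct_mem O).2
  have y := H.yG0 (σ := σ') (H.rp0 ε)
  unfold Pm.YsG
  split_ifs with a
  · rw [min_eq_right (by linarith), logb_one, min_eq_right
      (((H.lg_yS M (H.rp0 ε)).2.2.1 a).trans (H.lg_yG M (H.rp0 ε)).1.1)]
    exact ⟨one_pos, rfl⟩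
  · exact ⟨lt_min y one_pos, by rw [lg_min H.N1 y one_pos, logb_one]⟩

theorem Y2_66 (hC : 0 ≤ C) :
    min (p.YsG ε σ' C) 1 * (p.n : ℝ) ^ (-(1 : ℝ) / 3) ≤ p.Y0G ε σ' := by
  have M := (Gr29.oct_mem O).2
  obtain ⟨a0, a1⟩ := H.lg_Ys O hη hε hC
  obtain ⟨b1, b2, -, b4⟩ := H.lg_low O (H.rp0 ε)
  obtain ⟨y1, y2, y3, -⟩ := H.lg_yS M (H.rp0 ε)
  have f := (H.lg_flat M (H.rp0 ε)).2
  have g := (H.lg_yG M (H.rp0 ε)).2
  have m1 := min_le_left (logb p.n (p.yG ((p.n : ℝ) ^ ε) σ')) 0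
  have m2 := min_le_right (logb p.n (p.yG ((p.n : ℝ) ^ ε) σ')) 0
  rw [H.lg_rp] at y1 y2 f
  rw [H.lg_rj] at g
  have := H.η_pos; have := H.lg_s.1
  refine H.le_of_lg (mul_pos a0 (H.rp0 _)) (H.Y0G0 M) ?_
  rw [logb_mul a0.ne' (H.rp0 _).ne', a1, H.lg_rp, H.lg_Y0G M]
  rcases g with g | g | g | g
  · linarith
  · linarith
  · linarith
  · rcases le_total (logb p.n (p.muG σ') + 1 / 3) ε with k | k
    · linarith [y3 (f k)]
    · linarith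

theorem Y3_66 (hC : 0 ≤ C) (h1 : p.rj / 2 ≤ s) (h2 : s ≤ 3 * p.rj) :
    min (p.YsG ε σ' C) 1 * s ^ 5 ≤ p.Y0G ε σ' ^ 2 := by
  have M := (Gr29.oct_mem O).2
  obtain ⟨a0, a1⟩ := H.lg_Ys O hη hε hC
  obtain ⟨s0, -, s2⟩ := H.lg_sj h1 h2
  have b4 := (H.lg_low O (H.rp0 ε)).2.2.2
  have y := H.Y0G0 (ε := ε) M
  have := H.η_pos
  refine H.le_of_lg (by positivity) (by positivity) ?_
  lg_norm; rw [a1, H.lg_Y0G M]; linarith

theorem rt5_66 (hC : 0 < C) (CΛ : C ≤ (p.n : ℝ) ^ η) (h1 : p.rj / 2 ≤ s) (h2 : s ≤ 3 * p.rj)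
    (h3 : p.YsG ε σ' C ≤ t) (h4 : t ≤ C) : s ^ 5 ≤ p.msG σ' t * p.Y0G ε σ' := by
  have M := (Gr29.oct_mem O).2
  obtain ⟨-, b⟩ := H.above O hη hε h3 h4
  obtain ⟨s0, -, s2⟩ := H.lg_sj h1 h2
  have b4 := (H.lg_low O (H.rp0 ε)).2.2.2
  have y := H.Y0G0 (ε := ε) M
  have y0 := H.yG0 (σ := σ') (H.rp0 ε)
  have m := H.msG_pos M t
  have m0 := H.lg_mono (H.msG_pos M _) (H.msG_mono (H.sgG_pos M) b)
  have m1 := (H.lg_msG66 M (p.yG ((p.n : ℝ) ^ ε) σ')).1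
  obtain ⟨-, g2, g3, g4⟩ := (H.lg_yG M (H.rp0 ε)).1
  have u := (H.lg_mono y0 (b.trans h4)).trans (H.lg_le hC CΛ)
  rw [H.lg_rj] at g2 g3 g4
  have := H.η_pos
  refine H.le_of_lg (by positivity) (by positivity) ?_
  lg_norm; rw [H.lg_Y0G M]
  rcases H.lg_Tc_cases (σ := σ') y0 with ⟨t1, t2⟩ | ⟨t1, t2, t3⟩ | ⟨t1, t2, t3⟩
  · rw [min_eq_left (by linarith [H.lg_r, H.lg_s.2, H.c_le])] at b4
    rcases m1 with m1 | m1 <;> linarith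
  · rw [min_eq_left (by linarith)] at b4
    rcases m1 with m1 | m1 <;> linarith
  · rw [t3] at m0
    rcases min_choice (logb p.n (p.yG ((p.n : ℝ) ^ ε) σ')) 0 with k | k <;> linarith

/-- `θ la² ≤ κ n^{-2/3}` -/
theorem th_la : logb p.n (p.muG σ') + 2 * logb p.n (p.laG σ) ≤ -(2 / 3) - c + η := by
  have a := (H.lg_la_oct O).2.2
  have := H.c_pos
  rcases H.lg_laG (Gr29.oct_mem O).1 with ⟨x, y⟩ | ⟨x, x', y⟩ | ⟨x, x', y⟩ | ⟨x, y⟩ <;> linarith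

theorem g3_66 {B : ℝ} (B0 : 0 < B) (B1 : B ≤ (p.n : ℝ) ^ η) (hC : 0 < C) (CΛ : C ≤ (p.n : ℝ) ^ η)
    (h3 : p.YsG ε σ' C ≤ t) (h4 : t ≤ C) :
    t * (B * (p.muG σ' ^ 2 * (p.laG σ ^ 2 * log p.n))) ≤ p.muG σ' * p.msG σ' t * p.Y0G ε σ' := by
  obtain ⟨M0, M⟩ := Gr29.oct_mem O
  obtain ⟨-, b⟩ := H.above O hη hε h3 h4
  obtain ⟨b1, -, b3, -⟩ := H.lg_low O (H.rp0 ε)
  have y := H.Y0G0 (ε := ε) M
  have y0 := H.yG0 (σ := σ') (H.rp0 ε)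
  have t0 := y0.trans_le b
  have m := H.msG_pos M t
  have m1 := (H.lg_msG66 M t).1
  obtain ⟨y1, y2, -, -⟩ := H.lg_yS M (H.rp0 ε)
  have u0 := (H.lg_yG M (H.rp0 ε)).1.1.trans (H.lg_mono y0 b)
  have u := (H.lg_mono t0 h4).trans (H.lg_le hC CΛ)
  have k := H.th_la O hη hε
  have θ := H.muG_pos M
  have l := H.laG0 M0
  have g : 0 < log (p.n : ℝ) := by linarith [H.log1]
  have g1 := H.lg_log.2
  have g2 := H.lg_le B0 B1
  rw [H.lg_rp] at y1 y2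
  have := H.η_pos
  refine H.le_of_lg (by positivity) (by positivity) ?_
  lg_norm; rw [H.lg_Y0G M]
  rcases H.lg_Tc_cases (σ := σ') t0 with ⟨t1, t2⟩ | ⟨t1, t2, t3⟩ | ⟨t1, t2, t3⟩
  · rcases m1 with m1 | m1 <;> linarith
  · rcases m1 with m1 | m1 <;> linarith
  · rw [t3]; linarith

theorem wl66 (E1 : 0 < E) (E2 : E ≤ (p.n : ℝ) ^ (ε / 100)) :
    E ^ 39 * (1 / (p.n * p.lSR ε σ' * p.msG σ' (p.lSR ε σ'))) ≤ p.lSR ε σ' ^ 3 := by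
  have M := (Gr29.oct_mem O).2
  have t0 := H.lSR0 (ε := ε) M
  have a := H.lg_lSR (ε := ε) M
  have m := H.msG_pos M (p.lSR ε σ')
  have m1 := (H.lg_msG66 M (p.lSR ε σ')).1
  obtain ⟨b1, b2, -, -⟩ := H.lg_low O (H.rp0 ε)
  obtain ⟨y1, y2, -, -⟩ := H.lg_yS M (H.rp0 ε)
  obtain ⟨x1, x2⟩ := H.lg_sgG M
  have e := (H.lg_mono E1 E2).trans_eq (H.lg_rp _)
  rw [H.lg_rp] at y1 y2
  have := H.η_pos; have := H.c_le; have := H.N0
  refine H.le_of_lg (by positivity) (by positivity) ?_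
  lg_norm; rw [H.lg_n]
  rcases H.lg_Tc_cases (σ := σ') t0 with ⟨t1, t2⟩ | ⟨t1, t2, t3⟩ | ⟨t1, t2, -⟩ <;>
    rcases m1 with m1 | m1 <;> linarith

theorem bas66 (hC : 0 < C) (CΛ : C ≤ (p.n : ℝ) ^ η) (h1 : p.lSR ε σ' ≤ t) (h2 : t ≤ C) :
    t ^ 3 * (1 / (p.n * t * p.msG σ' t)) ^ 2 ≤ p.Y0G ε σ' ^ 3 := by
  have M := (Gr29.oct_mem O).2
  have t0 := (H.lSR0 (ε := ε) M).trans_le h1
  have a := H.lg_lSR (ε := ε) M
  have a1 := H.lg_mono (H.lSR0 (ε := ε) M) h1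
  have u := (H.lg_mono t0 h2).trans (H.lg_le hC CΛ)
  have m := H.msG_pos M t
  have m1 := (H.lg_msG66 M t).1
  obtain ⟨b1, b2, -, -⟩ := H.lg_low O (H.rp0 ε)
  obtain ⟨y1, y2, -, -⟩ := H.lg_yS M (H.rp0 ε)
  obtain ⟨x1, x2⟩ := H.lg_sgG M
  have y := H.Y0G0 (ε := ε) M
  rw [H.lg_rp] at y1 y2
  have := H.η_pos; have := H.c_le; have := H.N0
  refine H.le_of_lg (by positivity) (by positivity) ?_
  lg_norm; rw [H.lg_n, H.lg_Y0G M]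
  rcases H.lg_Tc_cases (σ := σ') t0 with ⟨t1, t2⟩ | ⟨t1, t2, t3⟩ | ⟨t1, t2, -⟩ <;>
    rcases m1 with m1 | m1 <;> linarith

/-- `w3 1 ≤ Y₀ lm` and `w3 1 ≤ lm u₀` -/
theorem w1_66 : 1 / (p.n * 1 * p.muG σ') ≤ p.Y0G ε σ' * (p.laG σ / 4) ∧
    1 / (p.n * 1 * p.muG σ') ≤ p.laG σ / 4 * p.laG σ ^ ((2 : ℝ) / 3) := by
  obtain ⟨M0, M⟩ := Gr29.oct_mem O
  have θ := H.muG_pos M
  have l := H.laG0 M0
  have y := H.Y0G0 (ε := ε) M
  have b3 := (H.lg_low O (H.rp0 ε)).2.2.1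
  have o := (H.lg_la_oct O).2.1
  obtain ⟨u1, u2⟩ := H.lg_muG' M0
  have d := (H.lg_num (x := 4) (by norm_num) (by norm_num)).2
  have := H.η_pos; have := H.c_le; have := H.N0
  constructor <;> refine H.le_of_lg (by positivity) (by positivity) ?_ <;> lg_norm <;>
    simp only [H.lg_n, H.lg_Y0G M] <;>
    rcases H.lg_laG M0 with ⟨x, y⟩ | ⟨x, x', y⟩ | ⟨x, x', y⟩ | ⟨x, y⟩ <;> linarith

theorem w2_66 : (p.n : ℝ) ^ (-(1 : ℝ) / 2 - c) ≤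
    p.laG σ / 4 * max (p.muG σ') ((p.n : ℝ) ^ (-(1 : ℝ) / 3)) := by
  obtain ⟨M0, M⟩ := Gr29.oct_mem O
  have θ := H.muG_pos M
  have l := H.laG0 M0
  have o := (H.lg_la_oct O).2.1
  have d := (H.lg_num (x := 4) (by norm_num) (by norm_num)).2
  have m := θ.trans_le (le_max_left _ ((p.n : ℝ) ^ (-(1 : ℝ) / 3)))
  have m1 := H.lg_mono θ (le_max_left _ ((p.n : ℝ) ^ (-(1 : ℝ) / 3)))
  have m2 := H.lg_mono (H.rp0 (-(1 : ℝ) / 3)) (le_max_right (p.muG σ') _)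
  rw [H.lg_rp] at m2
  have := H.η_pos; have := H.c_le; have := H.N0
  refine H.le_of_lg (by positivity) (by positivity) ?_
  lg_norm; rw [H.lg_n]
  rcases H.lg_laG M0 with ⟨x, y⟩ | ⟨x, x', y⟩ | ⟨x, x', y⟩ | ⟨x, y⟩ <;> linarith

/-- the end length: `n max(θ, ν)² u₂ ≥ n^{-1/6 - c}` -/
theorem u2_66 : -(1 / 6) - c ≤ 1 + 2 * logb p.n (max (p.muG σ') ((p.n : ℝ) ^ (-(1 : ℝ) / 3))) +
    logb p.n (p.u2 (p.mt (p.muG σ))) := by
  obtain ⟨M0, M⟩ := Gr29.oct_mem O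
  have θ := H.muG_pos M
  have μ := H.mt0 (H.muG_pos M0)
  have o := (H.lg_la_oct O).2.1
  have m1 := H.lg_mono θ (le_max_left _ ((p.n : ℝ) ^ (-(1 : ℝ) / 3)))
  have m2 := H.lg_mono (H.rp0 (-(1 : ℝ) / 3)) (le_max_right (p.muG σ') _)
  have a := (H.lg_mt (H.muG_pos M0)).le.trans (min_le_right _ _)
  rw [H.lg_rp] at m2
  rw [H.lg_u2 μ, H.lg_Vc μ]
  have := H.c_pos
  rcases le_max_iff.1 a with a | a <;>
    rcases max_choice 0 (-(logb p.n (p.mt (p.muG σ)) + 1 / 3) / 3) with k | k <;> rw [k] <;>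
    linarith [le_max_left 0 (-(logb p.n (p.mt (p.muG σ)) + 1 / 3) / 3)]

theorem ml66 (E1 : 0 < E) (E2 : E ≤ (p.n : ℝ) ^ (ε / 100)) (h1 : p.rj / 2 ≤ t) :
    E ^ 60 * p.msG σ' t ≤ t ^ 2 := by
  have M := (Gr29.oct_mem O).2
  have r := H.rj0
  have t0 : 0 < t := (half_pos r).trans_le h1
  have a := H.lg_mono (half_pos r) h1
  rw [logb_div r.ne' two_ne_zero, H.lg_rj] at a
  have m := H.msG_pos M t
  have m1 := (H.lg_msG66 M t).2.1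
  have e := (H.lg_mono E1 E2).trans_eq (H.lg_rp _)
  have := H.η_pos; have := H.lg_two.2; have := H.lg_r
  refine H.le_of_lg (by positivity) (by positivity) ?_
  lg_norm
  rcases H.lg_Tc_cases (σ := σ') t0 with ⟨t1, t2⟩ | ⟨t1, t2, t3⟩ | ⟨t1, t2, -⟩ <;> linarith

end main

theorem sub66 {t' : ℝ} (_ : 0 ≤ t) (h : t ≤ t') (hσ : 0 < σ) :
    p.msG σ t' ≤ p.msG σ t + t' ^ 2 := by
  rcases le_total t' p.r with a | a
  · rw [msG_lo σ a, msG_lo σ (h.trans a)]; exact le_add_of_nonneg_right (sq_nonneg _)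
  · have b := H.msG_le_sq σ t'
    have d : Gr29.xc p t' ≤ t' := Tc_le a
    have e := pow_le_pow_left₀ (H.xc0 t').le d 2
    have f := mul_le_of_le_one_left (sq_nonneg (Gr29.xc p t')) H.κ1
    linarith [H.msG0 hσ t]

end Reg

end Crest.Agent.T156.Alt

end
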