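import Crest.Agent.T156.LNy_97
import Crest.Agent.T156.SrPA_66

/-!
# Row 156, block (L): the bulk numbers `LN` on the graded mass, finitely many lines (helper97)
-/

set_option autoImplicit false
set_option linter.unusedSectionVars false

noncomputable section

namespace Crest.Agent.T156.Alt.Ln97

open Real Finset
open Crest.Agent.T156.Alt.L69 Crest.Agent.T156.Alt.Tn15

/-- all lines of `LN` on the graded mass: `μ` = exponent of the top mass, `(a2, y2, m2)`,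
`(a3, y3, m3)` = exponents of `t, max t x, ms t` at the crossing levels of `X2`, `X3` -/
structure LG (η e μ ξ a0 a L χ2 χ3 γ m0 m a2 y2 m2 a3 y3 m3 b : ℝ) : Prop where
  gx : GX η e a0 a ξ L χ2 χ3 γ m0 m
  c2 : η + a2 + 2 * y2 ≤ χ2
  f2 : 2 * η + 2 * y2 - 2 / 3 * (1 + a2 + m2) - a2 ≤ χ2
  f2' : 4 * η + 3 * (2 * y2 - 2 / 3 * (1 + a2 + m2) - a2) + 12 * ξ ≤ 7 * χ2
  g2 : 2 * η - 2 / 3 * (1 + μ) ≤ χ2
  g2' : 3 * η - 2 * (1 + μ) + 12 * ξ ≤ 7 * χ2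
  c3 : η + a3 + 4 * y3 ≤ χ3
  f3 : 2 * η + 4 * y3 - (1 + a3 + m3) - 2 * a3 ≤ χ3
  f3' : 6 * η + 16 * y3 - 3 * (1 + a3 + m3) + 18 * ξ - 8 * a3 ≤ 7 * χ3
  g3 : 2 * η - (1 + μ) ≤ χ3
  g3' : 8 * η - 3 * (1 + μ) + 18 * ξ ≤ 7 * χ3
  gb0 : η + 3 * ξ - a0 - (1 + m0) ≤ 2 * γ
  gb1 : 2 * η + 2 * a - (1 + m) ≤ 2 * γ
  t2 : e + 4 * L - 2 / 3 * (1 + a + m) ≤ m
  m12 : M12 η L ξ χ2 χ3 γ a m b
  th1 : e + η + b ≤ 3 / 2 * m
  th4 : e + η + b ≤ m + a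

/-- exponent facts on a level `T` above `x` and a reference level -/
theorem gv_lin {η c x μ ξ χ2 χ3 T Y m a2 y2 m2 a3 y3 m3 e a0 a L γ m0 ml b : ℝ}
    (g : LG η e μ ξ a0 a L χ2 χ3 γ m0 ml a2 y2 m2 a3 y3 m3 b) (η0 : 0 ≤ η) (c0 : 0 ≤ c)
    (T1 : T ≤ η) (hY : T ≤ ξ ∧ Y = ξ ∨ ξ ≤ T ∧ Y = T ∧
      (m = μ ∨ T ≤ -(3 * c) ∧ (-c + 2 * T ≤ m ∨ -c + x + 3 / 2 * T ≤ m)))
    (μ2 : μ ≤ x - 11 / 2 * c + η)
    (p2 : a2 ≤ y2 ∧ ξ ≤ y2 ∧ m2 ≤ -c + 2 * y2 + η ∧ m2 ≤ -c + x + 3 / 2 * y2 + η)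
    (p3 : a3 ≤ y3 ∧ ξ ≤ y3 ∧ m3 ≤ -c + 2 * y3 + η ∧ m3 ≤ -c + x + 3 / 2 * y3 + η)
    (q2 : T ≤ a2 ∧ Y ≤ y2 ∨ a2 ≤ T ∧ y2 ≤ Y ∧ m2 ≤ m)
    (q3 : T ≤ a3 ∧ Y ≤ y3 ∨ a3 ≤ T ∧ y3 ≤ Y ∧ m3 ≤ m) : GV η ξ χ2 χ3 T Y m := by
  obtain ⟨-, c2, f2, f2', g2, g2', c3, f3, f3', g3, g3', -⟩ := g
  obtain ⟨p21, p22, p23, p24⟩ := p2
  obtain ⟨p31, p32, p33, p34⟩ := p3
  constructor
  · rcases q2 with ⟨q, q'⟩ | ⟨q, q', q''⟩
    · exact .inl (by linarith)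
    · refine .inr ?_
      rcases hY with ⟨h, h'⟩ | ⟨h, h', k | ⟨k, k' | k'⟩⟩ <;> constructor <;> linarith
  · rcases q3 with ⟨q, q'⟩ | ⟨q, q', q''⟩
    · exact .inl (by linarith)
    · refine .inr ?_
      rcases hY with ⟨h, h'⟩ | ⟨h, h', k | ⟨k, k' | k'⟩⟩ <;> constructor <;> linarith

section

variable {β c0 C0 : ℝ} {A : ℕ} {c η K : ℝ} {p : Pm} (H : Reg β c0 C0 A c η K p)
  {E l0 l x X Lg X2 X3 G0 t t2 t3 b σ : ℝ} {S : Sc} {M : Md}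
include H

theorem ms_sq (hM : p.MemG σ) (hη : 10 * η ≤ c) (h1 : p.rj / 2 ≤ t) : p.msG σ t ≤ t ^ 2 := by
  have r := H.rj0
  have t0 : 0 < t := (half_pos r).trans_le h1
  have a := H.lg_mono (half_pos r) h1
  rw [logb_div r.ne' two_ne_zero, H.lg_rj] at a
  have m := H.msG_pos hM t
  have m1 := (H.lg_msG66 hM t).2.1
  have := H.η_pos; have := H.lg_two.2; have := H.lg_r
  refine H.le_of_lg (by positivity) (by positivity) ?_
  lg_norm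
  rcases H.lg_Tc_cases (σ := σ) t0 with ⟨t1, t2⟩ | ⟨t1, t2, t3⟩ | ⟨t1, t2, -⟩ <;> linarith

/-- the mass exponent above `r` -/
theorem ms_cases (hM : p.MemG σ) (ht : p.r ≤ t) : logb p.n (p.msG σ t) = logb p.n (p.muG σ) ∨
    logb p.n t ≤ -(3 * c) ∧ (-c + 2 * logb p.n t ≤ logb p.n (p.msG σ t) ∨
      -c + logb p.n σ + 3 / 2 * logb p.n t ≤ logb p.n (p.msG σ t)) := by
  rcases le_total p.ye t with h | h
  · exact .inl (by rw [H.msG_top h])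
  · have m := (H.lg_msG66 hM t).1
    rw [Reg.Tc_mid ht h] at m
    exact .inr ⟨H.lg_ye ▸ H.lg_mono (H.r0.trans_le ht) h, m⟩

theorem ms_up (hM : p.MemG σ) (rx : p.r ≤ x) (t0 : 0 < t) :
    logb p.n t ≤ logb p.n (max t x) ∧ logb p.n x ≤ logb p.n (max t x) ∧
    logb p.n (p.msG σ t) ≤ -c + 2 * logb p.n (max t x) + η ∧
    logb p.n (p.msG σ t) ≤ -c + logb p.n σ + 3 / 2 * logb p.n (max t x) + η := by
  obtain ⟨a, a', -⟩ := lg_mx H t0 (H.r0.trans_le rx)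
  obtain ⟨-, b1, b2⟩ := H.lg_msG66 hM t
  have d : p.Tc t ≤ max t x := max_le (rx.trans (le_max_right _ _))
    ((min_le_left _ _).trans (le_max_left _ _))
  have := H.lg_mono (H.Tc0 t) d
  exact ⟨a, a', by linarith, by linarith⟩

/-- **`LN` on the graded mass** -/
theorem ln_gst (hM : p.MemG σ) (hη : 10 * η ≤ c) (cl : Cl S M) (hn : S.n = p.n) (hF : S.F = 1)
    (hm : S.ms = p.msG σ) (hC : S.C ≤ (p.n : ℝ) ^ η) (HJ : M.H S.Jp ≤ S.C)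
    (l0s : E * M.s S.jl ≤ l0) (lj : p.rj / 2 ≤ l0) (l0l : l0 ≤ l) (rx : p.r ≤ x) (x3 : x ^ 3 = X)
    (E0 : 0 < E) (L0 : 0 < Lg) (Y0 : 0 < X2) (Z0 : 0 < X3) (G : 0 < G0) (t20 : 0 < t2)
    (t30 : 0 < t3)
    (g : LG η (logb p.n E) (logb p.n (p.muG σ)) (logb p.n x) (logb p.n l0) (logb p.n l)
      (logb p.n Lg) (logb p.n X2) (logb p.n X3) (logb p.n G0) (logb p.n (p.msG σ l0))
      (logb p.n (p.msG σ l)) (logb p.n t2) (logb p.n (max t2 x)) (logb p.n (p.msG σ t2))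
      (logb p.n t3) (logb p.n (max t3 x)) (logb p.n (p.msG σ t3)) b) :
    FX E S M l0 l x X Lg ((p.n : ℝ) ^ (-(2 : ℝ) / 3)) X2 X3 G0 ∧
    LN E S M l0 l (X ^ ((1 : ℝ) / 3)) X Lg X2 X3 G0
      (eta S l Lg ((p.n : ℝ) ^ (-(2 : ℝ) / 3)) X X2 X3 G0) := by
  have s0 := H.sgG_pos hM
  have l00 : 0 < l0 := (half_pos H.rj0).trans_le lj
  have lp := l00.trans_le l0l
  have x0 := H.r0.trans_le rx
  have η0 := H.η_pos
  have c0 := H.c_pos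
  have n0 := H.N0
  have mm : ∀ {u v : ℝ}, u ≤ v → logb p.n (p.msG σ u) ≤ logb p.n (p.msG σ v) := fun h =>
    H.lg_mono (H.msG_pos hM _) (H.msG_mono s0 h)
  have ym : ∀ {u v : ℝ}, u ≤ v → logb p.n (max u x) ≤ logb p.n (max v x) := fun h =>
    H.lg_mono (lt_max_of_lt_right x0) (max_le_max_right _ h)
  have hY : ∀ t, 0 < t → logb p.n t ≤ logb p.n x ∧ logb p.n (max t x) = logb p.n x ∨
      logb p.n x ≤ logb p.n t ∧ logb p.n (max t x) = logb p.n t ∧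
      (logb p.n (p.msG σ t) = logb p.n (p.muG σ) ∨ logb p.n t ≤ -(3 * c) ∧
        (-c + 2 * logb p.n t ≤ logb p.n (p.msG σ t) ∨
          -c + logb p.n σ + 3 / 2 * logb p.n t ≤ logb p.n (p.msG σ t))) := fun t t0 => by
    rcases le_total t x with h | h
    · exact .inl ⟨H.lg_mono t0 h, by rw [max_eq_right h]⟩
    · exact .inr ⟨H.lg_mono x0 h, by rw [max_eq_left h], ms_cases H hM (rx.trans h)⟩
  have q : ∀ t u, 0 < t → 0 < u → logb p.n t ≤ logb p.n u ∧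
      logb p.n (max t x) ≤ logb p.n (max u x) ∨ logb p.n u ≤ logb p.n t ∧
      logb p.n (max u x) ≤ logb p.n (max t x) ∧ logb p.n (p.msG σ u) ≤ logb p.n (p.msG σ t) :=
    fun t u t0 u0 => (le_total t u).imp (fun h => ⟨H.lg_mono t0 h, ym h⟩)
      fun h => ⟨H.lg_mono u0 h, ym h, mm h⟩
  have F : FX E S M l0 l x X Lg ((p.n : ℝ) ^ (-(2 : ℝ) / 3)) X2 X3 G0 := by
    refine fx_lg H cl hn hF HJ l0s l0l (fun t t' a b => by rw [hm]; exact H.sub66 a b s0)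
      (fun t a => by rw [hm]; exact ms_sq H hM hη (lj.trans a)) x3 E0 l00 x0 L0 Y0 Z0 G
      (by rw [hm]; exact g.gx) (fun t a b => ?_) (fun t a b => ?_) fun t a _ => ?_ <;> rw [hm]
    · have t0 := l00.trans_le a
      exact gv_lin g η0.le c0.le (H.lg_le t0 (b.trans hC)) (hY t t0) (H.lg_muG66 hM).2.2
        (ms_up H hM rx t20) (ms_up H hM rx t30) (q t t2 t0 t20) (q t t3 t0 t30)
    · have t0 := l00.trans_le a
      have a1 := H.lg_mono l00 a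
      have a2 := H.lg_mono t0 b
      have a3 := mm a
      have a4 := H.lg_mono (H.msG_pos hM l) (H.msG_le s0 l)
      obtain ⟨-, -, a5, a6⟩ := ms_up H hM rx lp
      rw [max_eq_left (H.le_of_lg x0 lp g.gx.xl)] at a5 a6
      have := g.gb0
      have := g.gb1
      rcases hY t t0 with ⟨h, h'⟩ | ⟨h, h', k | ⟨k, k' | k'⟩⟩ <;> linarith
    · have := H.lg_mono lp a
      have := mm a
      have := g.t2
      linarith
  refine ⟨F, ?_⟩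
  have k := e2_lg H F hn hF l0l (by rw [hm]; exact g.m12)
  have mf1 : ∀ t, mf S t = p.msG σ t := fun t => by rw [mf, hF, div_one, hm]
  refine F.ln (fun t a b => ?_) fun t a b => ?_ <;>
  · have t0 := lp.trans_le a
    have := H.msG_pos hM t
    have := H.lg_mono lp a
    have := mm a
    have := g.th1
    have := g.th4
    refine (mul_le_mul_of_nonneg_left ((F.e2_anti le_rfl a).trans k) E0.le).trans ?_
    rw [mf1]
    refine H.le_of_lg (by positivity) (by positivity) ?_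
    lg_norm; rw [H.lg_n]; linarith

end

end Crest.Agent.T156.Alt.Ln97

end
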