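import Crest.Agent.T156.LNg_97
import Crest.Agent.T156.LtK_15

/-!
# Row 156 (helper72): the level lines `c2 .. g3'` of `Ln97.LG` on the table `LtD_29`
-/

set_option autoImplicit false
set_option linter.unusedSectionVars false

noncomputable section

namespace Crest.Agent.T156.Alt.Lv72

open Real Lt15
open Crest.Agent.T156.Alt.Ln97 (LG GX M12)

/-- the lines of `LG` at the crossing levels -/
structure GW (η μ ξ χ2 χ3 a2 y2 m2 a3 y3 m3 : ℝ) : Prop where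
  c2 : η + a2 + 2 * y2 ≤ χ2
  f2 : 2 * η + 2 * y2 - 2 / 3 * (1 + a2 + m2) - a2 ≤ χ2
  f2' : 4 * η + 3 * (2 * y2 - 2 / 3 * (1 + a2 + m2) - a2) + 12 * ξ ≤ 7 * χ2
  g2 : 2 * η - 2 / 3 * (1 + μ) ≤ χ2
  g2' : 3 * η - 2 * (1 + μ) + 12 * ξ ≤ 7 * χ2
  c3 : η + a3 + 4 * y3 ≤ χ3
  f3 : 2 * η + 4 * y3 - (1 + a3 + m3) - 2 * a3 ≤ χ3
  f3' : 6 * η + 16 * y3 - 3 * (1 + a3 + m3) + 18 * ξ - 8 * a3 ≤ 7 * χ3
  g3 : 2 * η - (1 + μ) ≤ χ3
  g3' : 8 * η - 3 * (1 + μ) + 18 * ξ ≤ 7 * χ3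

theorem GW.lg {η e μ ξ a0 a L χ2 χ3 γ m0 m a2 y2 m2 a3 y3 m3 b : ℝ}
    (g : GW η μ ξ χ2 χ3 a2 y2 m2 a3 y3 m3) (gx : GX η e a0 a ξ L χ2 χ3 γ m0 m)
    (gb0 : η + 3 * ξ - a0 - (1 + m0) ≤ 2 * γ) (gb1 : 2 * η + 2 * a - (1 + m) ≤ 2 * γ)
    (t2 : e + 4 * L - 2 / 3 * (1 + a + m) ≤ m) (m12 : M12 η L ξ χ2 χ3 γ a m b)
    (th1 : e + η + b ≤ 3 / 2 * m) (th4 : e + η + b ≤ m + a) :
    LG η e μ ξ a0 a L χ2 χ3 γ m0 m a2 y2 m2 a3 y3 m3 b :=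
  ⟨gx, g.c2, g.f2, g.f2', g.g2, g.g2', g.c3, g.f3, g.f3', g.g3, g.g3', gb0, gb1, t2, m12, th1, th4⟩

/-- the linear core -/
theorem gl_lin {c η x μ ξ χ2 χ3 a2 m2 m3 : ℝ} (η0 : 0 < η) (hη : 10000 * η ≤ c) (hc : c ≤ 1 / 2000)
    (nd : -(4 * c) ≤ μ + 1 / 3) (θ1 : -(7 * c) ≤ μ ∨ x - 11 / 2 * c ≤ μ)
    (θ3 : μ ≤ x - 11 / 2 * c + η) (φ1 : -(1 / 2) + c / 2 ≤ 3 * ξ)
    (φ2 : 2 / 3 * (-(1 / 3) + c - x) - 1 / 3 ≤ 3 * ξ) (φ3 : 3 * ξ ≤ -(71 / 250))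
    (φ4 : 3 * ξ ≤ -(41 / 125) ∨ 1 / 20 ≤ μ + 1 / 3) (ha : a2 = ξ ∨ -7 / 60 ≤ a2) (ha' : a2 ≤ ξ)
    (e2 : χ2 = c / 1000 + a2 + 2 * ξ) (e3 : -(101 / 200) ≤ χ3) (e3' : 3 / 2 * χ2 ≤ χ3)
    (h2 : -c + 2 * a2 ≤ m2 ∨ -c + x + 3 / 2 * a2 ≤ m2)
    (h3 : -c + 2 * ξ ≤ m3 ∨ -c + x + 3 / 2 * ξ ≤ m3) : GW η μ ξ χ2 χ3 a2 ξ m2 ξ ξ m3 := by
  refine ⟨by linarith, ?_, ?_, ?_, ?_, ?_, ?_, ?_, by linarith, by linarith⟩
  · rcases ha with ha | ha <;> rcases h2 with h | h <;> linarith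
  · rcases ha with ha | ha <;> rcases h2 with h | h <;> rcases φ4 with k | k <;> linarith
  · rcases ha with ha | ha <;> rcases θ1 with h | h <;> linarith
  · rcases ha with ha | ha <;> rcases θ1 with h | h <;> linarith
  · rcases ha with ha | ha <;> linarith
  · rcases h3 with h | h <;> linarith
  · rcases h3 with h | h <;> linarith

variable {β c0 C0 : ℝ} {A : ℕ} {c η K : ℝ} {p : Pm} {σ t y : ℝ}
  (X : Nr44.Cx β c0 C0 A c η K p σ t)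
include X

/-- the crossing level of `X2L` -/
def t2L (p : Pm) (t : ℝ) : ℝ :=
  min (p.lN t) (max (p.nc (1 / 100) * p.rj) ((p.n : ℝ) ^ (-(7 : ℝ) / 60)))

theorem t2L0 : 0 < t2L p t := lt_min X.lN0 (lt_max_of_lt_right (X.H.rp0 _))

/-- the mass exponent below `ye` -/
theorem ms_lo (y0 : 0 < y) (hy : logb p.n y ≤ -(3 * c)) :
    -c + 2 * logb p.n y ≤ logb p.n (p.msG t y) ∨
      -c + logb p.n t + 3 / 2 * logb p.n y ≤ logb p.n (p.msG t y) := by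
  have a : y ≤ p.ye := X.H.le_of_lg y0 X.H.ye0 (by rw [X.H.lg_ye]; exact hy)
  have b : y ≤ p.Tc y := le_max_of_le_right (le_min le_rfl a)
  have d := X.H.lg_mono y0 b
  exact (X.H.lg_msG66 X.Mt y).1.imp (fun _ => by linarith) fun _ => by linarith

theorem Ph_nd2 (nd : p.Need t) (n2 : p.Need2 t) :
    logb p.n (p.PhN t) ≤ -(41 / 125) ∨ 1 / 20 ≤ logb p.n (p.muG t) + 1 / 3 := by
  refine ((need2_iff X).1 n2).imp (fun s2 => ?_) id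
  obtain ⟨c0, c1, e0, e1, s0, s1, x0, x1, m0, m1, m2, up⟩ := Nr44.ex X.H X.hy
  have := (need_iff X).1 nd
  have := X.hc
  rcases up with up | up | ⟨up, _, _⟩ | up | ⟨up, _⟩ | up | up | ⟨up, _, _⟩ | ⟨up, _⟩ | up |
    ⟨up, _⟩ <;> linarith

/-- **the level lines on `LtD_29`**: `t2 = t2L`, `t3 = lN` -/
theorem glL (nd : p.Need t) (n2 : p.Need2 t) :
    GW η (logb p.n (p.muG t)) (logb p.n (p.lN t)) (logb p.n (p.X2L t)) (logb p.n (p.X3L t))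
      (logb p.n (t2L p t)) (logb p.n (max (t2L p t) (p.lN t))) (logb p.n (p.msG t (t2L p t)))
      (logb p.n (p.lN t)) (logb p.n (max (p.lN t) (p.lN t))) (logb p.n (p.msG t (p.lN t))) := by
  have H := X.H
  have l := lg_lN X
  have c0 := H.c_pos; have hc := X.hc
  obtain ⟨φ1, φ2, -, -⟩ := lg_Ph_lo X
  have φ3 := lg_Ph_hi X nd
  obtain ⟨θ1, -, θ3⟩ := lg_θ X
  obtain ⟨e3, e3', -⟩ := lg_X3L X
  have t0 := t2L0 X
  have a' := H.lg_mono t0 (min_le_left _ _ : t2L p t ≤ p.lN t)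
  have := nc0 H (1 / 100); have := H.rj0
  have e : logb p.n (t2L p t) = min (logb p.n (p.PhN t) / 3)
      (max (c / 100 + (logb p.n p.s + c / 13 - 1 / 6)) (-7 / 60)) := by
    rw [t2L, lg_min H.N1 X.lN0 (lt_max_of_lt_right (H.rp0 _)),
      lg_max H.N1 (by positivity) (H.rp0 _), logb_mul (by positivity) (by positivity), lg_nc H,
      H.lg_rp, H.lg_rj, l, show 1 / 100 * c = c / 100 by ring]
  have e2 := lg_X2L_eq X
  have b := le_max_right (c / 100 + (logb p.n p.s + c / 13 - 1 / 6)) (-7 / 60)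
  generalize max (c / 100 + (logb p.n p.s + c / 13 - 1 / 6)) (-7 / 60) = z at e e2 b
  have tl : t2L p t ≤ p.lN t := min_le_left _ _
  rw [max_self, max_eq_right tl]
  refine gl_lin H.η_pos X.hη hc ((need_iff X).1 nd) θ1 θ3 (by linarith) (by linarith) (by linarith)
    ((Ph_nd2 X nd n2).imp (fun _ => by linarith) id) ?_ a' ?_ e3 e3' (ms_lo X t0 (by linarith))
    (ms_lo X X.lN0 (by linarith))
  · rw [e, l]
    exact (min_choice _ _).imp id fun h => by rw [h]; exact b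
  · rw [e, e2, l]
    rcases le_total (logb p.n (p.PhN t) / 3) z with h | h
    · rw [min_eq_left h, min_eq_left (by linarith)]; ring
    · rw [min_eq_right h, min_eq_right (by linarith)]; ring

end Crest.Agent.T156.Alt.Lv72

end
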