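import Crest.Agent.T156.Zb_9

/-!
Row 156, block (L) (helper25): node sums from time integrals with clamped times and truncated
labels; the quartic bound for a truncated difference; the area over the plateau.
-/

set_option autoImplicit false

namespace Crest.Agent.T156.Lo25

open MeasureTheory Set
open Crest.Agent.T156.Pp.Area50 Crest.Agent.T156.Sun9 Crest.Agent.T156.Zb9

variable {x sb sh : ℕ → ℝ} {J : ℕ} {a b c C η : ℝ}

theorem stp_comp {s : ℕ → ℝ} (hs : Up s J) (f : ℝ → ℝ) (t : ℝ) :
    stp (fun k => f (x k)) s J t = f (stp x s J t) := by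
  obtain ⟨k, c⟩ := exists_Cell hs t
  rw [c.stp hs, c.stp hs]

/-- node sums with clamped times against the truncated difference -/
theorem en_cl (hx : Up x J) (hb : Up sb J) (hh : Up sh J) (H : Sl (stp x sh J) a b c C η)
    (hab : a ≤ b) (hc : 0 < c) (hη : 0 ≤ η) {x0 : ℝ} (h0 : ∀ t ∈ Icc a b, stp x sh J t ≤ x0)
    {S : Finset ℕ} (hS : ∀ j ∈ S, j < J ∧ sh (j + 1) ∈ Icc a b ∧ x (j + 1) ≤ x0) (p : ℕ) :
    ∑ j ∈ S, (x (j + 1) - x j) * |cl a b (sb (j + 1)) - sh (j + 1)| ^ (p + 1) ≤
      (p + 1) * 2 ^ p / c ^ p *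
        ((∫ t in a..b, |min (stp x sb J t) x0 - stp x sh J t| ^ (p + 1)) + η ^ (p + 1) * (b - a)) := by
  set x' : ℕ → ℝ := fun k => min (x k) x0 with hx'
  have ux : Up x' J := fun j hj => min_le_min (hx j hj) le_rfl
  have e1 : ∀ t ∈ Icc a b, stp x' sh J t = stp x sh J t := fun t ht => by
    rw [hx', stp_comp hh (fun y => min y x0), min_eq_left (h0 t ht)]
  have H' : Sl (stp x' sh J) a b c C η := H.congr e1
  have A := area_ge ux hb hh hab hc hη (S := S)
    (fun j hj => ⟨(hS j hj).1, (hS j hj).2.1, H'.loSl ux hh (hS j hj).1 (hS j hj).2.1⟩) p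
  rw [Finset.sum_congr rfl
    (g := fun j => (x (j + 1) - x j) * |cl a b (sb (j + 1)) - sh (j + 1)| ^ (p + 1))
    fun j hj => by
      simp only [hx', min_eq_left (hS j hj).2.2,
        min_eq_left ((hx j (hS j hj).1).trans (hS j hj).2.2)]] at A
  refine A.trans ?_
  have e2 : ∫ t in a..b, |min (stp x sb J t) x0 - stp x sh J t| ^ (p + 1) =
      ∫ t in a..b, |stp x' sb J t - stp x' sh J t| ^ (p + 1) :=
    intervalIntegral.integral_congr fun t ht => by
      rw [uIcc_of_le hab] at ht
      simp only [e1 t ht]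
      rw [hx', stp_comp hb (fun y => min y x0)]
  rw [e2, mul_div_assoc, mul_assoc]
  refine mul_le_mul_of_nonneg_left ?_ (by positivity)
  have i1 := ii_comp ux sb sh (φ := fun u => |u| ^ (p + 1)) (by fun_prop) a b
  have e : η ^ (p + 1) * (b - a) = ∫ _ in a..b, η ^ (p + 1) := by simp [mul_comm]
  rw [e, ← intervalIntegral.integral_add i1 intervalIntegrable_const,
    ← intervalIntegral.integral_const_mul]
  refine intervalIntegral.integral_mono_on hab
    (ii_comp ux sb sh (φ := fun u => |u| * ((|u| + η) / c) ^ p) (by fun_prop) a b)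
    ((i1.add intervalIntegrable_const).const_mul _) fun t _ => ?_
  set w := |stp x' sb J t - stp x' sh J t|
  have w0 : 0 ≤ w := abs_nonneg _
  have h1 := add_pow_le w0 hη (p + 1)
  rw [Nat.add_sub_cancel] at h1
  calc w * ((w + η) / c) ^ p ≤ (w + η) * ((w + η) / c) ^ p :=
        mul_le_mul_of_nonneg_right (by linarith) (by positivity)
    _ = (w + η) ^ (p + 1) / c ^ p := by rw [div_pow]; ring
    _ ≤ 2 ^ p * (w ^ (p + 1) + η ^ (p + 1)) / c ^ p := by gcongr
    _ = _ := by ring

/-- the quartic bound for any `w` dominated by `dz` with its sign and by the two cones -/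
theorem four_tr {dz Jf w : ℝ → ℝ} (h : AOSL a b C η dz Jf) {c d : ℝ} (hc : a ≤ c) (hcd : c ≤ d)
    (hd : d ≤ b) (iw : IntervalIntegrable (fun s => w s ^ 4) volume c d)
    (hw : ∀ s ∈ Icc c d, (w s ≤ max (dz s) 0 ∧ w s ≤ 2 * C * (b - s)) ∧
      -w s ≤ max (-dz s) 0 ∧ -w s ≤ 2 * C * (s - a)) :
    ∫ s in c..d, w s ^ 4 ≤ 2048 * C ^ 2 * AOSL.En a b η Jf + 8 * η ^ 4 * (d - c) := by
  obtain ⟨dz', J', hO, h1, -, h3⟩ := h.exists_OSL
  have hC := h.pos
  have hη := h.eta
  have hab := h.le
  have ii : ∀ {p : ℝ → ℝ}, AEMeasurable p (volume.restrict (Icc a b)) →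
      (∀ s ∈ Icc a b, 0 ≤ p s ∧ p s ≤ 2 * C * (b - a)) →
      IntervalIntegrable (fun s => p s ^ 4) volume a b := fun {p} hp hp0 => by
    rw [intervalIntegrable_iff_integrableOn_Icc_of_le hab]
    refine Integrable.of_bound (hp.pow_const 4).aestronglyMeasurable ((2 * C * (b - a)) ^ 4)
      ((ae_restrict_iff' measurableSet_Icc).2 (Filter.Eventually.of_forall fun s hs => ?_))
    rw [Real.norm_eq_abs, abs_of_nonneg (by positivity)]
    exact pow_le_pow_left₀ (hp0 s hs).1 (hp0 s hs).2 4
  have i1 := ii (p := fun s => min (max (dz' s) 0) (2 * C * (b - s)))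
    ((hO.aem.max aemeasurable_const).min (by fun_prop)) fun s hs =>
      ⟨le_min (le_max_right _ _) (by nlinarith [hs.2]),
        (min_le_right _ _).trans (by nlinarith [hs.1])⟩
  have i2 := ii (p := fun s => min (max (-dz' s) 0) (2 * C * (s - a)))
    ((hO.aem.neg.max aemeasurable_const).min (by fun_prop)) fun s hs =>
      ⟨le_min (le_max_right _ _) (by nlinarith [hs.1]),
        (min_le_right _ _).trans (by nlinarith [hs.2])⟩
  have i3 := i1.add (i2.const_mul 8)
  have m1 := intervalIntegral.integral_mono_interval hc hcd hd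
    (Filter.Eventually.of_forall fun s => by positivity) i3
  rw [intervalIntegral.integral_add i1 (i2.const_mul 8), intervalIntegral.integral_const_mul] at m1
  have i4 := ii_sub hab i3 ⟨hc, hcd.trans hd⟩ ⟨hc.trans hcd, hd⟩
  have m2 := intervalIntegral.integral_mono_on hcd iw
    (i4.add (intervalIntegrable_const (c := 8 * η ^ 4))) fun s hs => by
      obtain ⟨⟨w1, w2⟩, w3, w4⟩ := hw s hs
      have ms : s ∈ Icc a b := ⟨hc.trans hs.1, hs.2.trans hd⟩
      obtain ⟨h6, h7⟩ := h1 s ms
      set P := min (max (dz' s) 0) (2 * C * (b - s))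
      set N := min (max (-dz' s) 0) (2 * C * (s - a))
      have N0 : 0 ≤ N := le_min (le_max_right _ _) (by nlinarith [ms.1])
      have p1 : w s ≤ P := le_min (w1.trans (max_le_max h6 le_rfl)) w2
      have p2 : -w s ≤ N + η := by
        have : -w s - η ≤ N := le_min (by
          rcases le_max_iff.1 w3 with y | y
          · linarith [le_max_left (-dz' s) 0]
          · linarith [le_max_right (-dz' s) 0]) (by linarith)
        linarith
      have h9 : (N + η) ^ 4 ≤ 8 * N ^ 4 + 8 * η ^ 4 := by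
        have := add_pow_le N0 hη 4
        norm_num at this
        linarith
      rcases le_total 0 (w s) with y | y
      · have := pow_le_pow_left₀ y p1 4
        have : 0 ≤ 8 * N ^ 4 + 8 * η ^ 4 := by positivity
        linarith
      · have := pow_le_pow_left₀ (neg_nonneg.2 y) p2 4
        rw [Even.neg_pow (by decide)] at this
        have : 0 ≤ P ^ 4 := by positivity
        linarith
  rw [intervalIntegral.integral_add i4 intervalIntegrable_const, intervalIntegral.integral_const,
    smul_eq_mul] at m2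
  have f1 := hO.four_pos hab
  have f2 := hO.four_neg hab
  have p0 : 0 ≤ ∫ s in a..b, J' s ^ 2 := intervalIntegral.integral_nonneg hab fun _ _ => sq_nonneg _
  have q := mul_le_mul_of_nonneg_left h3 (by positivity : (0:ℝ) ≤ 2048 * C ^ 2)
  have q0 : 0 ≤ C ^ 2 * ∫ s in a..b, J' s ^ 2 := by positivity
  linarith

/-- the area over the nodes from `i0` on against one time `r` -/
theorem pla_area (hx : Up x J) (hb : Up sb J) {i0 : ℕ} (hi : i0 ≤ J) {r : ℝ} (h1 : a ≤ r)
    (h2 : r ≤ b) (p : ℕ) :
    ∑ j ∈ Finset.Ico i0 J, (x (j + 1) - x j) * |cl a b (sb (j + 1)) - r| ^ (p + 1) =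
      (p + 1) * ∫ t in a..b,
        |max (stp x sb J t) (x i0) - (if r ≤ t then x J else x i0)| * |t - r| ^ p := by
  set x' : ℕ → ℝ := fun k => max (x k) (x i0) with hx'
  have ux : Up x' J := fun j hj => max_le_max (hx j hj) le_rfl
  have uh : Up (fun _ => r) J := fun _ _ => le_rfl
  have i0' : ∀ j, IntervalIntegrable (fun t => (x' (j + 1) - x' j) *
      (|ind (sb (j + 1)) t - ind r t| * |t - r| ^ p)) volume a b := fun j =>
    (ii_absind (Continuous.intervalIntegrable (by fun_prop) _ _) _ _).const_mul _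
  have e0 : ∑ j ∈ Finset.Ico i0 J, (x (j + 1) - x j) * |cl a b (sb (j + 1)) - r| ^ (p + 1) =
      ∑ j ∈ Finset.range J, (x' (j + 1) - x' j) * |cl a b (sb (j + 1)) - r| ^ (p + 1) := by
    rw [← Finset.sum_range_add_sum_Ico _ hi, Finset.sum_eq_zero (s := Finset.range i0)
      fun j hj => ?_, zero_add]
    · refine Finset.sum_congr rfl fun j hj => ?_
      rw [Finset.mem_Ico] at hj
      simp only [hx', max_eq_left (hx.le hj.1 hj.2.le),
        max_eq_left (hx.le (show i0 ≤ j + 1 by omega) hj.2)]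
    · rw [Finset.mem_range] at hj
      simp only [hx', max_eq_right (hx.le hj.le hi),
        max_eq_right (hx.le (show j + 1 ≤ i0 by omega) hi), sub_self, zero_mul]
  have e1 : ∀ t, |max (stp x sb J t) (x i0) - (if r ≤ t then x J else x i0)| * |t - r| ^ p =
      ∑ j ∈ Finset.range J, (x' (j + 1) - x' j) *
        (|ind (sb (j + 1)) t - ind r t| * |t - r| ^ p) := fun t => by
    have := abs_stp_sub ux hb uh t
    rw [hx', stp_comp hb (fun y => max y (x i0))] at this
    have e2 : stp (fun k => max (x k) (x i0)) (fun _ => r) J t =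
        if r ≤ t then x J else x i0 := by
      split_ifs with y
      · rw [stp_eq uh le_rfl (fun _ => y) fun z => absurd z (lt_irrefl _), max_eq_left (hx.le hi le_rfl)]
      · rw [stp_eq uh (Nat.zero_le _) (fun z => absurd z (lt_irrefl _)) fun _ => not_le.1 y,
          max_eq_right (hx.le (Nat.zero_le _) hi)]
    rw [e2] at this
    rw [this, Finset.sum_mul]
    exact Finset.sum_congr rfl fun j _ => by rw [mul_assoc]
  simp only [e1]
  rw [e0, intervalIntegral.integral_finsetSum fun j _ => i0' j, Finset.mul_sum]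
  refine Finset.sum_congr rfl fun j _ => ?_
  rw [intervalIntegral.integral_const_mul, int_absind_pow h1 h2]
  field_simp

/-- a time against its clamp -/
theorem abs_le_cl {y ℓ u s : ℝ} (hs : s ∈ Icc a b) (u0 : 0 ≤ u)
    (hu : u ≤ b + y) (hl : a ≤ u ∨ 2 * a ≤ s ∨ s ≤ ℓ) :
    |u - s| ≤ 2 * |cl a b u - s| ∨ (b - y ≤ s ∧ |u - s| ≤ 2 * y) ∨ (s ≤ ℓ ∧ |u - s| ≤ ℓ) := by
  obtain ⟨s1, s2⟩ := hs
  rcases le_total u a with c1 | c1
  · rw [cl_of_le c1, abs_sub_comm u, abs_sub_comm a, abs_of_nonneg (by linarith : 0 ≤ s - u),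
      abs_of_nonneg (by linarith : 0 ≤ s - a)]
    rcases hl with z | z | z
    · exact .inl (by linarith)
    · exact .inl (by linarith)
    · exact .inr (.inr ⟨z, by linarith⟩)
  rcases le_total u b with c2 | c2
  · rw [cl_of_mem c1 c2]; exact .inl (by linarith [abs_nonneg (u - s)])
  · rw [cl_of_ge (s1.trans s2) c2, abs_of_nonneg (by linarith : 0 ≤ u - s),
      abs_of_nonneg (by linarith : 0 ≤ b - s)]
    rcases le_total y (b - s) with z | z
    · exact .inl (by linarith)
    · exact .inr (.inl ⟨by linarith, by linarith⟩)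

end Crest.Agent.T156.Lo25
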