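import Crest.Agent.T156.EoT_25

/-!
Row 156, block (L) (helper25): the last window and the plateau from the linear gains only.
-/

set_option autoImplicit false

noncomputable section

namespace Crest.Agent.T156.Alt.L25

open MeasureTheory Set Real
open Crest.Agent.R164.GC Crest.Agent.R339.B Crest.Agent.R339.Var Crest.Agent.T157.Pf
open Crest.Agent.T156.Spl27 Crest.Agent.T156.Zb9
open Crest.Agent.T156.Lo25 Crest.Agent.T156.Cut8 Crest.Agent.T156.Alt.Mp9
open Crest.Agent.T156.Alt.L69 (mf LO dx GS GP Pla)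
open Crest.Agent.T156.Pr.Mid8.Mid (ff)

variable {S : Sc} {M : Md} {m : ℕ} {a T B a1 s Q t0 u1 X : ℝ}

/-- **linear gains** above the time `a1` (`X` is the energy divided by the mass) -/
structure Ol (S : Sc) (M : Md) (m : ℕ) (a T a1 s Q t0 u1 X : ℝ) : Prop where
  j0a : M.s S.j0 ≤ a1
  a1t : a1 ≤ t0
  jl : M.s S.jl < t0
  a1s : a1 ≤ s
  sJ : s ≤ M.s S.J
  Q1 : M.s S.Jp ≤ Q
  Q2 : Q ≤ T
  mass : ∫ t in a1..s, uu M S m a T t ^ 2 ≤ X
  low : ∀ k < S.J, t0 ≤ M.s k → a1 ≤ sb M m a (k + 1)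
  neg : ∫ t in s..M.s S.J, min (uu M S m a T t) 0 ^ 2 ≤ X
  top : ∫ t in s..Q, |t - M.s S.Jp| * ff (lb M S m a T) (lh M T) (M.s S.Jp) t ≤ X
  zs : ∀ t < s, lvr 1 (lb M S m a T) t ≤ M.z (S.J - 1)
  last : 1 - lvr 1 (lb M S m a T) Q ≤ u1
  uC : S.C * u1 < 1
  v4 : S.v ≤ 1 / (S.n : ℝ) ^ 4

namespace Ol

variable (E : Ol S M m a T a1 s Q t0 u1 X) (A : At S M m a T)
include E A

theorem s0 : 0 ≤ s := ((s_nn A.cl _).trans E.j0a).trans E.a1s

theorem sub {x y : ℝ} (h1 : s ≤ x) (h2 : x ≤ y) (h3 : y ≤ Q) :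
    ∫ t in x..y, |t - M.s S.Jp| * ff (lb M S m a T) (lh M T) (M.s S.Jp) t ≤ X :=
  (int_sub_le (LB_top A _) (E.s0 A) h1 h2 h3 E.Q2
    fun _ _ _ => mul_nonneg (abs_nonneg _) (ff_nn _ _ _ _)).trans E.top

theorem X0 : 0 ≤ X := by
  simpa using E.sub A le_rfl le_rfl ((E.sJ.trans (A.cl.sm A.cl.i3)).trans E.Q1)

theorem late {y : ℝ} (h1 : M.s S.Jp ≤ y) (h2 : y ≤ Q) :
    ∫ t in M.s S.Jp..y, (t - M.s S.Jp) * (1 - lvr 1 (lb M S m a T) t) ≤ X := by
  have σ0 := s_nn A.cl S.Jp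
  refine le_trans (int_mono ((LB.of_cont (by fun_prop)).mul ((LB.const 1).sub A.LB_zb))
    (LB_top A (M.s S.Jp)) σ0 h1 (h2.trans E.Q2) fun t t1 _ => ?_)
    (E.sub A (E.sJ.trans (A.cl.sm A.cl.i3)) h1 h2)
  have u6 : ff (lb M S m a T) (lh M T) (M.s S.Jp) t =
      |lvr 1 (lb M S m a T) t - lvr 1 (lh M T) t| := if_neg (by linarith)
  rw [u6, abs_of_nonneg (by linarith : 0 ≤ t - M.s S.Jp), A.lvh' (by linarith), A.cl.lv1 t t1.le,
    abs_sub_comm, abs_of_nonneg (by linarith [Pp.Ode3.lvr_le_one A.okb.1.1 (l := lb M S m a T) t])]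

/-- the excess of the last sloped node -/
theorem exc : max (sb M m a S.J - M.s S.Jp) 0 ^ 2 ≤ 4 * S.C * X := by
  have C0 := A.c_pos
  have X0 := E.X0 A
  have σ0 := s_nn A.cl S.Jp
  obtain ⟨j1, j2, j3⟩ := A.J_pred
  have jp : S.J - 1 ≤ S.Jp := j2.le.trans A.cl.i3
  have at' := A.cl.atom.2
  have z1 : ∀ t ≤ sb M m a S.J, lvr 1 (lb M S m a T) t ≤ M.z (S.J - 1) := fun t ht => by
    rw [← A.lvb_node (by have := A.cl.i2; omega) jp, j3]
    exact Sc48.lvr_mono A.okb.1.1 ht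
  rcases le_total (sb M m a S.J - M.s S.Jp) 0 with c | c
  · rw [max_eq_right c]; simpa using by positivity
  rw [max_eq_left c]
  have hQ : sb M m a S.J ≤ Q := by
    by_contra q
    have := z1 Q (not_le.1 q).le
    have r : 1 / S.C ≤ u1 := by linarith [E.last]
    rw [div_le_iff₀ C0] at r
    linarith [E.uC]
  set y := sb M m a S.J - M.s S.Jp with hy
  have lg : LB T fun t => (t - M.s S.Jp) * (1 - lvr 1 (lb M S m a T) t) :=
    (LB.of_cont (by fun_prop)).mul ((LB.const 1).sub A.LB_zb)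
  have p := int_mono (LB.const (y / 2 * (1 / S.C))) lg (a := M.s S.Jp + y / 2) (b := sb M m a S.J)
    (by linarith) (by linarith) (hQ.trans E.Q2) fun t t1 t2 =>
      mul_le_mul (by linarith) (by linarith [z1 t t2.le]) (by positivity) (by linarith)
  rw [intervalIntegral.integral_const, smul_eq_mul] at p
  have q := int_sub_le lg σ0 (show M.s S.Jp ≤ M.s S.Jp + y / 2 by linarith)
    (show M.s S.Jp + y / 2 ≤ sb M m a S.J by linarith) le_rfl (hQ.trans E.Q2) fun t t1 _ =>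
      mul_nonneg (by linarith)
        (by linarith [Pp.Ode3.lvr_le_one A.okb.1.1 (l := lb M S m a T) t])
  have r := mul_le_mul_of_nonneg_left ((p.trans q).trans (E.late A (by linarith) hQ))
    (show 0 ≤ 4 * S.C by positivity)
  refine le_of_eq_of_le ?_ r
  rw [show sb M m a S.J - (M.s S.Jp + y / 2) = y / 2 by rw [hy]; ring]
  field_simp
  ring

theorem int_two (hb : a1 ≤ M.s (S.J - 1)) :
    ∫ r in a1..M.s (S.J - 1), |ut M S m a T (S.J - 1) r| ^ 2 ≤ (5 + S.C) * X + S.C * S.v * T := by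
  simp only [sq_abs]
  have C0 := A.c_pos
  have v0 := v_pos A.cl
  have X0 := E.X0 A
  have sp := A.s_pred.1
  have sT := A.sJ_T
  have a0' : 0 ≤ a1 := (s_nn A.cl _).trans E.j0a
  have lu : LB T (uu M S m a T) := A.LB_u
  have l2 := (A.LB_ut (S.J - 1)).sq
  have cv : 0 ≤ S.C * S.v * T := by have := A.T_nn; positivity
  have F1 : ∀ y, a1 ≤ y → y ≤ s → y ≤ M.s (S.J - 1) →
      ∫ r in a1..y, ut M S m a T (S.J - 1) r ^ 2 ≤ X := fun y b2 b3 b4 =>
    ((int_mono l2 lu.sq a0' b2 (by linarith) fun r r1 r2 =>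
      (A.ut_sign (A.zh_le_8 (by linarith))).2.2.2.1).trans
      (int_sub_le lu.sq a0' le_rfl b2 b3 (by linarith [E.sJ]) fun r _ _ => sq_nonneg _)).trans E.mass
  have cX := mul_nonneg C0.le X0
  rcases le_total s (M.s (S.J - 1)) with d | d
  swap
  · linarith [F1 _ hb d le_rfl]
  have s0 := E.s0 A
  have sp' : M.s S.J ≤ M.s S.Jp := A.cl.sm A.cl.i3
  have ln := (LB_min lu (LB.const 0)).sq
  have lt := LB_top A (M.s S.Jp)
  have mx : s ∈ Icc 0 T := ⟨s0, by linarith⟩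
  have my : M.s (S.J - 1) ∈ Icc 0 T := ⟨by linarith, by linarith⟩
  have p := int_mono l2 ((ln.add ((LB.const S.C).mul lt)).add (LB.const (S.C * S.v))) mx.1 d my.2
    fun r r1 r2 => by
      have u1 := (A.ut_sign (k0 := S.J - 1) (A.zh_le_8 (t := r) (by linarith))).2.2.2.2
      have u2 := A.below (t := r) (by linarith) (by linarith)
      have u3 : max (uu M S m a T r) 0 ≤ 1 := max_le ((le_abs_self _).trans
        (Sc48.lvr_sub_le A.okh.1.1 A.okb.1.1 r)) zero_le_one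
      have u4 := mul_le_mul_of_nonneg_left u2 (le_max_right (uu M S m a T r) 0)
      have u5 := mul_le_of_le_one_left (show 0 ≤ S.C * S.v by positivity) u3
      have u6 : ff (lb M S m a T) (lh M T) (M.s S.Jp) r = max (uu M S m a T r) 0 :=
        if_pos (by linarith)
      rw [u6, abs_sub_comm, abs_of_nonneg (by linarith : 0 ≤ M.s S.Jp - r)]
      linarith
  rw [intervalIntegral.integral_add ((ln.add ((LB.const S.C).mul lt)).ii mx my)
    ((LB.const _).ii mx my), intervalIntegral.integral_add (ln.ii mx my)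
    (((LB.const S.C).mul lt).ii mx my), intervalIntegral.integral_const_mul,
    intervalIntegral.integral_const, smul_eq_mul] at p
  have q1 := int_sub_le ln s0 le_rfl d sp.le sT fun _ _ _ => sq_nonneg _
  have r3 := mul_le_mul_of_nonneg_left (E.sub A le_rfl d (by linarith [E.Q1])) C0.le
  have r4 := mul_le_mul_of_nonneg_right (show M.s (S.J - 1) - s ≤ T by linarith [my.2])
    (show 0 ≤ S.C * S.v by positivity)
  rw [int_split l2 (b := s) ⟨a0', by linarith⟩ mx my]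
  linarith [F1 s E.a1s le_rfl d, E.neg]

set_option maxHeartbeats 800000 in
/-- **the last window** -/
theorem win (hC : S.C ≤ B) (hT : T ≤ B) :
    ∑ k ∈ (M.blk S t0 S.C).filter (· < S.J), dx M k * M.del m a k ^ 2 ≤
      10 ^ 4 * B ^ 7 * (X + (M.s S.Jp - M.s S.J) ^ 2 + GS M S t0 S.C + 1 / (S.n : ℝ) ^ 2) := by
  have C0 := A.c_pos
  have C1 := A.cl.C1
  have B1 := C1.trans hC
  have X0 := E.X0 A
  have v0 := v_pos A.cl
  have n1 : (1 : ℝ) ≤ S.n := by exact_mod_cast A.cl.n1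
  have G0 := GS_nn A.cl t0 S.C
  obtain ⟨c0, c1⟩ := cm_le A hC
  set U := (M.blk S t0 S.C).filter (· < S.J) with hU
  rcases U.eq_empty_or_nonempty with h | ⟨k, hk⟩
  · rw [h, Finset.sum_empty]; positivity
  obtain ⟨j1, j2, j3⟩ := A.J_pred
  have hb : a1 ≤ M.s (S.J - 1) := E.a1t.trans ((mem_blk hk).2.2.1.trans
    (A.cl.sm (by have := (mem_blk hk).2.1; omega)))
  set q := 1 / (S.n : ℝ) ^ 2 with hq
  have q0 : 0 < q := by positivity
  have q1 : q ≤ 1 := by rw [hq, div_le_one (by positivity)]; exact one_le_pow₀ n1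
  have vq : S.v ≤ q := E.v4.trans (by
    rw [show 1 / (S.n : ℝ) ^ 4 = q * q by rw [hq]; field_simp]; exact mul_le_of_le_one_left q0.le q1)
  have g0 : 0 ≤ M.s S.Jp - M.s S.J := sub_nonneg.2 (A.cl.sm A.cl.i3)
  have ex := E.exc A
  have sT := (A.sb_mem (j2.le.trans A.cl.i3)).2
  rw [j3] at sT
  set y0 := max (sb M m a S.J - M.s S.Jp) 0 with hy
  have y00 : 0 ≤ y0 := le_max_right _ _
  have y01 : y0 ≤ T := max_le (by linarith [s_nn A.cl S.Jp]) A.T_nn
  have cv : S.C * S.v ≤ B * q := mul_le_mul hC vq v0.le (by linarith)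
  have cv0 : 0 ≤ S.C * S.v := by positivity
  have Bq : B * q ≤ B := mul_le_of_le_one_right (by linarith) q1
  set γ := M.s S.Jp - M.s S.J with hγ
  have γT : γ ≤ T := by linarith [A.t2, s_nn A.cl S.J]
  have p := A.win_pow j1 j2 E.j0a hb (y := y0 + γ + S.C * S.v) (ℓ := 0) (by positivity) le_rfl
    (by rw [j3]; linarith [A.s_pred.2, le_max_left (sb M m a S.J - M.s S.Jp) 0]) (U := U)
    (fun k hk => by
      obtain ⟨k1, k2, k3, -⟩ := mem_blk hk
      exact ⟨k1, by omega, E.a1t.trans k3, .inl (E.low k k2 k3)⟩) 1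
  have y2 : (y0 + γ + S.C * S.v) ^ 2 ≤ 3 * (4 * B * X + γ ^ 2 + B ^ 2 * q) := by
    have a1 : (S.C * S.v) ^ 2 ≤ B ^ 2 * q := by
      refine (pow_le_pow_left₀ cv0 cv 2).trans ?_
      rw [mul_pow]
      exact mul_le_mul_of_nonneg_left (pow_le_of_le_one q0.le q1 two_ne_zero) (by positivity)
    have a2 := mul_le_mul_of_nonneg_right hC X0
    nlinarith [sq_nonneg (y0 - γ), sq_nonneg (y0 - S.C * S.v), sq_nonneg (γ - S.C * S.v)]
  have y3 : (y0 + γ + S.C * S.v) ^ 3 ≤ 9 * (65 * B ^ 2 * (X + γ ^ 2) + B ^ 3 * q) := by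
    have a1 := mul_le_mul y2 (show y0 + γ + S.C * S.v ≤ 3 * B by linarith) (by positivity)
      (by positivity)
    have a2 : B * γ ^ 2 ≤ B ^ 2 * γ ^ 2 := mul_le_mul_of_nonneg_right (by nlinarith) (sq_nonneg _)
    have a3 : 0 ≤ B ^ 2 * X := by positivity
    have a4 : 0 ≤ B ^ 2 * γ ^ 2 := by positivity
    linarith
  have i2 := E.int_two A hb
  have r := num2 (En := X + γ ^ 2) (X := X + γ ^ 2) (l := 0) B1 C0.le hC A.T_nn hT v0.le vq q1
    (by positivity) (by linarith) (by positivity) le_rfl y3 le_rfl zero_le_one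
    (by simpa using by positivity) (d := M.s (S.J - 1) - a1) (by linarith)
    (by linarith [A.s_pred.1, A.sJ_T, s_nn A.cl S.j0, E.j0a])
    (i2.trans (by linarith [mul_nonneg (show 0 ≤ 5 + S.C by linarith) (sq_nonneg γ)]))
  have p' : ∑ k ∈ U, (M.z k - M.z (k - 1)) * |sb M m a (k + 1) - M.s k| ^ (1 + 1) ≤
      2500 * B ^ 7 * (X + γ ^ 2 + q) := by
    refine p.trans (le_of_eq_of_le ?_ r)
    norm_num
  have d := A.sum_del (U := U) (fun k hk => (mem_blk hk).2.1.le.trans A.cl.i3) 1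
  have W := A.wt_one_25 (U := U) fun k hk =>
    ⟨by have := (mem_blk hk).1; omega, (mem_blk hk).2.1.le.trans A.cl.i3⟩
  have c2 : (S.C / (m + 1)) ^ 2 ≤ B ^ 2 * q :=
    (pow_le_pow_left₀ c0 c1 2).trans_eq (by rw [hq]; field_simp)
  have g : ∑ k ∈ U, (M.z k - M.z (k - 1)) * M.G k ^ 2 ≤ GS M S t0 S.C :=
    Finset.sum_le_sum_of_subset_of_nonneg (fun k hk => by
      obtain ⟨k1, k2, k3, k4⟩ := mem_blk hk
      refine Finset.mem_filter.2 ⟨Finset.mem_Ioo.2 ⟨lt_of_not_ge fun z => ?_, k2⟩, k3, k4⟩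
      linarith [A.cl.sm z, E.jl]) fun k _ _ => mul_nonneg (A.dz_nn k) (sq_nonneg _)
  have g2 : ∑ k ∈ U, (M.z k - M.z (k - 1)) * (|M.G k| + S.C / (m + 1)) ^ (1 + 1) ≤
      2 * ∑ k ∈ U, (M.z k - M.z (k - 1)) * M.G k ^ 2 +
        (∑ k ∈ U, (M.z k - M.z (k - 1))) * (2 * (B ^ 2 * q)) := by
    rw [Finset.mul_sum, Finset.sum_mul, ← Finset.sum_add_distrib]
    refine Finset.sum_le_sum fun k _ => ?_
    have := mul_le_mul_of_nonneg_left (show (|M.G k| + S.C / (m + 1)) ^ (1 + 1) ≤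
      2 * M.G k ^ 2 + 2 * (B ^ 2 * q) by
        nlinarith [sq_abs (M.G k), sq_nonneg (|M.G k| - S.C / (m + 1))]) (A.dz_nn k)
    linarith
  have W' := mul_le_of_le_one_left (show 0 ≤ 2 * (B ^ 2 * q) by positivity) W
  simp only [show (1 + 1 : ℕ) = 2 from rfl, sq_abs, pow_one] at d p' g2
  simp only [dx, Md.del]
  have f1 := mul_le_mul_of_nonneg_right (pow_le_pow_right₀ B1 (show 2 ≤ 7 by norm_num)) q0.le
  have f2 := le_mul_of_one_le_left G0 (one_le_pow₀ B1 : 1 ≤ B ^ 7)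
  have f3 : 0 ≤ B ^ 7 * (X + γ ^ 2) := by positivity
  have f4 : 0 ≤ B ^ 7 * q := by positivity
  linarith

set_option maxHeartbeats 800000 in
/-- **the plateau** -/
theorem pla (hC : S.C ≤ B) (hT : T ≤ B) :
    Pla M S m a 2 ≤ 30 * B ^ 2 * (X + u1 + GP M S + (M.s S.Jp - M.s S.J) ^ 2 + 1 / (S.n : ℝ) ^ 2) := by
  have B1 := A.cl.C1.trans hC
  have X0 := E.X0 A
  have s0 := E.s0 A
  have sJ := E.sJ
  have sT := A.sJ_T
  have σ0 := s_nn A.cl S.J
  have sp : M.s S.J ≤ M.s S.Jp := A.cl.sm A.cl.i3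
  have σT := A.t2
  have Q1 := E.Q1
  have Q2 := E.Q2
  have z1 := fun t => Pp.Ode3.lvr_le_one A.okb.1.1 (l := lb M S m a T) t
  have u0 : 0 ≤ u1 := le_trans (by linarith [z1 Q]) E.last
  have x1 : ∫ t in (0 : ℝ)..M.s S.J, |max (lvr 1 (lb M S m a T) t) (M.z (S.J - 1)) -
      (if M.s S.J ≤ t then 1 else M.z (S.J - 1))| * |t - M.s S.J| ≤ X := by
    set x := M.z (S.J - 1) with hx
    set σ := M.s S.J with hσ
    have lρ : LB T fun t => max (lvr 1 (lb M S m a T) t - x) 0 * (σ - t) :=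
      (LB_max (A.LB_zb.sub (LB.const _)) (LB.const 0)).mul (LB.of_cont (by fun_prop))
    have e1 : ∫ t in (0 : ℝ)..σ, |max (lvr 1 (lb M S m a T) t) x - (if σ ≤ t then 1 else x)| *
        |t - σ| = ∫ t in (0 : ℝ)..σ, max (lvr 1 (lb M S m a T) t - x) 0 * (σ - t) :=
      intervalIntegral.integral_congr_Ioo_of_le σ0 fun t ht => by
        simp only [if_neg (not_le.2 ht.2)]
        rw [abs_of_nonneg (sub_nonneg.2 (le_max_right _ _)), abs_sub_comm,
          abs_of_nonneg (sub_nonneg.2 ht.2.le), ← max_sub_sub_right, sub_self]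
    rw [e1, int_split lρ (b := s) ⟨le_rfl, A.T_nn⟩ ⟨s0, sJ.trans sT⟩ ⟨σ0, sT⟩]
    have p0 := int_le_const lρ (K := 0) le_rfl s0 (sJ.trans sT) fun t _ b => by
      rw [max_eq_right (sub_nonpos.2 (E.zs t b)), zero_mul]
    have p := int_mono lρ (LB_top A (M.s S.Jp)) s0 sJ sT fun t t1 t2 => by
      have u6 : ff (lb M S m a T) (lh M T) (M.s S.Jp) t =
          max (lvr 1 (lb M S m a T) t - lvr 1 (lh M T) t) 0 := if_pos (by linarith)
      rw [u6, abs_sub_comm, abs_of_nonneg (by linarith : 0 ≤ M.s S.Jp - t), mul_comm]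
      exact mul_le_mul (by linarith) (max_le_max (by linarith [A.zh_le_8 t2]) le_rfl)
        (le_max_right _ _) (by linarith)
    linarith [E.sub A le_rfl sJ (sp.trans Q1)]
  have y1 : ∫ t in M.s S.Jp..T, |max (lvr 1 (lb M S m a T) t) (M.z (S.J - 1)) -
      (if M.s S.Jp ≤ t then 1 else M.z (S.J - 1))| * |t - M.s S.Jp| ≤ X + B ^ 2 * u1 := by
    have q1 := E.late A Q1 le_rfl
    set σ := M.s S.Jp with hσ
    have lg : LB T fun t => (t - σ) * (1 - lvr 1 (lb M S m a T) t) :=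
      (LB.of_cont (by fun_prop)).mul ((LB.const 1).sub A.LB_zb)
    have lf : LB T fun t => |max (lvr 1 (lb M S m a T) t) (M.z (S.J - 1)) - 1| * |t - σ| :=
      ((LB_max A.LB_zb (LB.const _)).sub (LB.const 1)).abs.mul (LB.of_cont (by fun_prop))
    have e2 : ∫ t in σ..T, |max (lvr 1 (lb M S m a T) t) (M.z (S.J - 1)) -
        (if σ ≤ t then 1 else M.z (S.J - 1))| * |t - σ| =
        ∫ t in σ..T, |max (lvr 1 (lb M S m a T) t) (M.z (S.J - 1)) - 1| * |t - σ| :=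
      intervalIntegral.integral_congr_Ioo_of_le σT fun t ht => by simp only [if_pos ht.1.le]
    have p1 := int_mono lf lg (σ0.trans sp) σT le_rfl fun t t1 _ => by
      rw [abs_of_nonneg (by linarith : 0 ≤ t - σ), mul_comm, abs_sub_comm,
        abs_of_nonneg (sub_nonneg.2 (max_le (z1 t) (A.cl.leg.z1 _)))]
      exact mul_le_mul_of_nonneg_left (sub_le_sub_left (le_max_left _ _) _) (by linarith)
    rw [int_split lg (b := Q) ⟨σ0.trans sp, σT⟩ ⟨by linarith, Q2⟩ ⟨A.T_nn, le_rfl⟩] at p1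
    have p2 := int_le_const lg (K := B * u1) (by linarith) Q2 le_rfl fun t t1 t2 =>
      mul_le_mul (by linarith) (by linarith [E.last, Sc48.lvr_mono A.okb.1.1 t1.le])
        (by linarith [z1 t]) (by linarith)
    have p3 : (T - Q) * (B * u1) ≤ B * (B * u1) :=
      mul_le_mul_of_nonneg_right (by linarith) (mul_nonneg (by linarith) u0)
    rw [e2]
    linarith
  have p1 := A.pla_eq (x := 0) (y := M.s S.J) (r := M.s S.J) le_rfl σ0 le_rfl
  have p2 := A.pla_eq (x := M.s S.Jp) (y := T) (r := M.s S.Jp) (σ0.trans sp) le_rfl A.t2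
  obtain ⟨c0, c1⟩ := cm_le A hC
  have n0 := A.cl.N0
  set q := 1 / (S.n : ℝ) ^ 2 with hq
  have q0 : 0 < q := by positivity
  have c2 : (S.C / (m + 1)) ^ 2 ≤ B ^ 2 * q :=
    (pow_le_pow_left₀ c0 c1 2).trans_eq (by rw [hq]; field_simp)
  set γ := M.s S.Jp - M.s S.J with hγ
  have W := A.wt_one_25 (U := Finset.Icc S.J S.Jp) fun k hk =>
    ⟨by have := Finset.mem_Icc.1 hk; have := A.cl.i2; omega, (Finset.mem_Icc.1 hk).2⟩
  have key : Pla M S m a 2 ≤
      8 * ∑ k ∈ Finset.Icc S.J S.Jp, (M.z k - M.z (k - 1)) *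
        (Pp.Area50.cl 0 (M.s S.J) (sb M m a (k + 1)) - M.s S.J) ^ 2 +
      4 * ∑ k ∈ Finset.Icc S.J S.Jp, (M.z k - M.z (k - 1)) *
        (Pp.Area50.cl (M.s S.Jp) T (sb M m a (k + 1)) - M.s S.Jp) ^ 2 + 4 * GP M S +
      (∑ k ∈ Finset.Icc S.J S.Jp, (M.z k - M.z (k - 1))) * (12 * γ ^ 2 + 4 * (B ^ 2 * q)) := by
    rw [Pla, GP, Finset.mul_sum, Finset.mul_sum, Finset.mul_sum, Finset.sum_mul,
      ← Finset.sum_add_distrib, ← Finset.sum_add_distrib, ← Finset.sum_add_distrib]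
    refine Finset.sum_le_sum fun k hk => ?_
    obtain ⟨k1, k2⟩ := Finset.mem_Icc.1 hk
    obtain ⟨b0, b1⟩ := A.sb_mem k2
    have d1 := A.del_le (A.jp_le k2)
    have s1 := A.cl.sm k1
    have s2 := A.cl.sm k2
    set u := sb M m a (k + 1)
    have d2 : |u - M.s k| ≤ |u - M.s S.Jp| + γ :=
      abs_le.2 ⟨by linarith [neg_abs_le (u - M.s S.Jp)], by linarith [le_abs_self (u - M.s S.Jp)]⟩
    have d3 : (u - M.s S.Jp) ^ 2 ≤ 2 * (Pp.Area50.cl 0 (M.s S.J) u - M.s S.J) ^ 2 + 2 * γ ^ 2 +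
        (Pp.Area50.cl (M.s S.Jp) T u - M.s S.Jp) ^ 2 := by
      have n1 := sq_nonneg (Pp.Area50.cl 0 (M.s S.J) u - M.s S.J)
      have n2 := sq_nonneg (Pp.Area50.cl (M.s S.Jp) T u - M.s S.Jp)
      rcases le_total (M.s S.Jp) u with c | c
      · rw [Pp.Area50.cl_of_mem c b1]; linarith [sq_nonneg γ]
      rcases le_total u (M.s S.J) with d | d
      · rw [Pp.Area50.cl_of_mem b0 d, hγ]
        linarith [sq_nonneg (u - M.s S.J + (M.s S.Jp - M.s S.J))]
      · have : (u - M.s S.Jp) ^ 2 ≤ γ ^ 2 := sq_le_sq' (by linarith) (by linarith)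
        linarith [sq_nonneg γ]
    have d4 : |M.del m a k| ^ 2 ≤ (|u - M.s S.Jp| + γ + |M.G k| + S.C / (m + 1)) ^ 2 :=
      pow_le_pow_left₀ (abs_nonneg _) (by linarith) 2
    have d6 := d4.trans (sq4_25 _ _ _ _)
    rw [sq_abs (u - M.s S.Jp), sq_abs (M.G k)] at d6
    have := mul_le_mul_of_nonneg_left (show |M.del m a k| ^ 2 ≤
      8 * (Pp.Area50.cl 0 (M.s S.J) u - M.s S.J) ^ 2 +
        4 * (Pp.Area50.cl (M.s S.Jp) T u - M.s S.Jp) ^ 2 + 4 * M.G k ^ 2 +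
        (12 * γ ^ 2 + 4 * (B ^ 2 * q)) by linarith) (A.dz_nn k)
    simp only [dx]
    linarith
  rw [p1, p2] at key
  have W' := mul_le_of_le_one_left (show 0 ≤ 12 * γ ^ 2 + 4 * (B ^ 2 * q) by positivity) W
  have G0 := GP_nn A.cl
  have B2 : 1 ≤ B ^ 2 := one_le_pow₀ B1
  have f1 := le_mul_of_one_le_left G0 B2
  have f2 := le_mul_of_one_le_left (sq_nonneg γ) B2
  have f3 := le_mul_of_one_le_left X0 B2
  have f4 : 0 ≤ B ^ 2 * u1 := by positivity
  have f5 : 0 ≤ B ^ 2 * q := by positivity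
  have f6 := sq_nonneg γ
  linarith

end Ol

end Crest.Agent.T156.Alt.L25

end
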