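import Crest.Agent.T156.PlS_64
import Crest.Agent.T156.KnQ_72

/-!
# Row 156 (helper86): pointwise sizes of the shells of the static plateau
-/

set_option autoImplicit false
set_option linter.unusedSectionVars false

noncomputable section

namespace Crest.Agent.T156.Alt.Lp86

open Real Finset
open Crest.Agent.T156.Alt.L69 Crest.Agent.T156.Alt.Ps64
open Crest.Agent.T156.Alt.Kn72 (SD Nu LL dt_mul db_mul)
open Plt13 (dt db dt_nn db_pos)

theorem third {x : ℝ} (hx : 0 ≤ x) : (x ^ 3) ^ ((1 : ℝ) / 3) = x := by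
  rw [← rpow_natCast, ← rpow_mul hx]; norm_num

theorem dt_up {V l u : ℝ} (hV : 0 < V) (hl : 0 < l) (hu : 0 < u) :
    dt V l u * u ≤ V ∧ dt V l u * u ≤ l / √u := by
  have s := sqrt_pos.2 hu
  have e : dt V l u * u = l * V / (2 * (V * √u + l)) := by unfold dt; field_simp
  rw [e]
  constructor
  · rw [div_le_iff₀ (by positivity)]
    nlinarith [mul_pos hV (mul_pos hV s), mul_pos hV hl]
  · rw [div_le_div_iff₀ (by positivity) s]
    nlinarith [mul_pos hl (mul_pos hV s), mul_pos hl hl]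

/-- a plateau node, with the size `x` of the corner -/
structure Nd (S : Sc) (M : Md) (la V U x : ℝ) (k : ℕ) : Prop where
  sd : SD S M la V U
  hk : S.J ≤ k
  hu : 0 < du M k
  ux : S.u0 ≤ x
  Cx : S.C * x ≤ 1

/-- `Q` bounds `min Vt √(x³ / du) / lsh` on the upper half -/
def QQ (la V U x Vt Q : ℝ) : Prop :=
  4 * (√(x ^ 3) / √U + Vt) ≤ Q ∨ 4 * (Vt / V + √(x ^ 3) / la) ≤ Q

/-- lower and upper part of the rise -/
def rT (S : Sc) (M : Md) (x : ℝ) (k : ℕ) : ℝ := √(x ^ 3 / max (dl M S k - S.u0) x)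
def rm (M : Md) (x Vt : ℝ) (k : ℕ) : ℝ := min Vt √(x ^ 3 / du M k)

/-- the shell bound of the two small parts of `ap` -/
def bD (w dm la : ℝ) (i : ℕ) : ℝ := ((w / dm) ^ (i + 1) + √(4 * w / la) ^ i) * (4 * w / la)

namespace Nd

variable {S : Sc} {M : Md} {la V U x Vt Q w : ℝ} {k : ℕ} (h : Nd S M la V U x k)
include h

theorem lp : 0 < la := h.sd.nu.lp
theorem C1 : 1 ≤ S.C := h.sd.cl.C1
theorem x0 : 0 < x := h.sd.u0p.trans_le h.ux
theorem x1 : x ≤ 1 := by nlinarith [h.C1, h.Cx, h.x0]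
theorem y0 : 0 < √(x ^ 3) := sqrt_pos.2 (pow_pos h.x0 3)
theorem y2 : √(x ^ 3) ^ 2 = x ^ 3 := sq_sqrt (pow_pos h.x0 3).le
theorem A0 : S.u0 ≤ dl M S k := by have := h.sd.xs_le h.hk; rw [dl]; linarith
theorem Ap : 0 < dl M S k := h.sd.u0p.trans_le h.A0
theorem u1 : du M k ≤ 1 := h.sd.du_le h.hk
theorem d0 : 0 < ds M S k := lt_min h.Ap h.hu
theorem d1 : ds M S k ≤ 1 := (min_le_right _ _).trans h.u1
theorem den0 : 0 < S.den (M.z (k - 1)) := h.sd.cl.den0 _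
theorem L0 : 0 < lsh M S k := mul_pos h.den0 h.d0
theorem L_eq : lsh M S k = LL la V U (dl M S k) (du M k) := h.sd.ls_eq h.hk h.hu

theorem Rp_eq : Rp M S (x ^ 3) Vt 0 k = rT S M x k + rm M x Vt k := by
  rw [Rp, third h.x0.le, add_zero]; rfl

theorem side : (ds M S k = dl M S k ∧ la / √(dl M S k) / 2 ≤ lsh M S k ∧ 1 ≤ 2 * S.C * du M k) ∨
    (ds M S k = du M k ∧ min (la / √(du M k)) V / 4 ≤ lsh M S k ∧
      min (√U / √(du M k)) 1 / 4 ≤ lsh M S k ∧ 1 ≤ 2 * S.C * dl M S k) := by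
  have s : 1 / S.C ≤ dl M S k + du M k := h.sd.sum_ge k
  rw [div_le_iff₀ h.sd.cl.C0] at s
  have C0 := h.sd.cl.C0
  rw [h.L_eq]
  rcases le_total (dl M S k) (du M k) with c | c
  · exact Or.inl ⟨min_eq_left c, (h.sd.nu.lo h.Ap c).1, by nlinarith⟩
  · exact Or.inr ⟨min_eq_right c, (h.sd.nu.hi h.hu c).1, (h.sd.nu.hi h.hu c).2.1, by nlinarith⟩

theorem L_ge : la / 4 ≤ lsh M S k := by
  have lp := h.lp
  have a : la ≤ la / √(ds M S k) := le_div_self lp.le (sqrt_pos.2 h.d0) (sqrt_le_one.2 h.d1)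
  rcases h.side with ⟨e, b, -⟩ | ⟨e, b, -, -⟩
  · rw [e] at a; linarith
  · rw [e] at a
    linarith [le_min a h.sd.nu.lV]

theorem L_le : √(ds M S k) * lsh M S k ≤ 2 * la := by
  have lp := h.lp
  have s := sqrt_pos.2 h.d0
  have a : lsh M S k ≤ 3 / 2 * (la / √(ds M S k)) := by
    rw [h.L_eq]
    rcases le_total (dl M S k) (du M k) with c | c
    · rw [ds, min_eq_left c]; exact (h.sd.nu.lo h.Ap c).2
    · rw [ds, min_eq_right c]; exact (h.sd.nu.hi h.hu c).2.2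
  have e : √(ds M S k) * (3 / 2 * (la / √(ds M S k))) = 3 / 2 * la := by field_simp
  linarith [mul_le_mul_of_nonneg_left a s.le]

/-- the clock length of a shell above the cut `u` -/
theorem L_up {u : ℝ} (u0 : 0 < u) (hu : u ≤ du M k) :
    lsh M S k ≤ S.u0 + V + min 1 (√U / √u) := by
  have N := h.sd.nu
  have a1 := db_mul (l := la) h.Ap
  have a2 : la / √(dl M S k) ≤ S.u0 := h.sd.fb_u0 ▸
    div_le_div_of_nonneg_left h.lp.le (sqrt_pos.2 h.sd.u0p) (sqrt_le_sqrt h.A0)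
  have a3 := (dt_up N.Vp N.lp h.hu).1
  obtain ⟨a4, a5⟩ := dt_up one_pos N.sp h.hu
  have a6 := le_min a4 (a5.trans
    (div_le_div_of_nonneg_left N.sp.le (sqrt_pos.2 u0) (sqrt_le_sqrt hu)))
  have b1 := mul_le_mul_of_nonneg_left (min_le_left (dl M S k) (du M k)) (db_pos N.lp h.Ap).le
  have b2 := mul_le_mul_of_nonneg_left (min_le_right (dl M S k) (du M k)) (dt_nn N.Vp N.lp.le h.hu)
  have b3 := mul_le_mul_of_nonneg_left (min_le_right (dl M S k) (du M k))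
    (dt_nn one_pos N.sp.le h.hu)
  rw [h.L_eq, LL]
  nlinarith [h.sd.u0p]

/-- `den ds² ≥ dm` -/
theorem dL_ge {u dm : ℝ} (hu : u ≤ du M k) (d0 : 0 < dm) (d1 : 2 * dm ≤ S.u0 ^ 2) (d2 : 4 * dm ≤ u)
    (d3 : 16 * dm ^ 2 ≤ U * u) : dm ≤ lsh M S k * ds M S k := by
  have u0 := h.sd.u0p
  have U0 := h.sd.nu.u2p
  rcases h.side with ⟨e, b, -⟩ | ⟨e, -, b, -⟩
  · have s := sqrt_pos.2 h.Ap
    have c : la / √(dl M S k) / 2 * dl M S k = la * √(dl M S k) / 2 := by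
      field_simp; rw [sq_sqrt h.Ap.le]
    have f : la * √S.u0 = S.u0 ^ 2 := by
      have s0 := sqrt_pos.2 u0
      have := h.sd.fb_u0
      rw [div_eq_iff s0.ne'] at this
      rw [this, mul_assoc, mul_self_sqrt u0.le, sq]
    have g := mul_le_mul_of_nonneg_left (sqrt_le_sqrt h.A0) h.lp.le
    rw [e]
    linarith [mul_le_mul_of_nonneg_right b h.Ap.le]
  · have s := sqrt_pos.2 h.hu
    have c : 4 * dm / du M k ≤ min (√U / √(du M k)) 1 := by
      refine le_min ?_ ((div_le_one h.hu).2 (d2.trans hu))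
      rw [div_le_div_iff₀ h.hu s]
      have a : 4 * dm ≤ √U * √(du M k) := by
        rw [← sqrt_mul U0.le]
        exact le_sqrt_of_sq_le (by nlinarith)
      nlinarith [mul_le_mul_of_nonneg_right a s.le, mul_self_sqrt h.hu.le]
    rw [div_le_iff₀ h.hu] at c
    rw [e]
    nlinarith [mul_le_mul_of_nonneg_right b h.hu.le]

theorem sq_ge : min (du M k) U / 16 ≤ lsh M S k ^ 2 * ds M S k := by
  rw [h.L_eq]; exact h.sd.nu.sq_ge h.Ap h.hu

theorem den_ge (hU : du M k ≤ U) : 1 / 4 ≤ S.den (M.z (k - 1)) := by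
  have N := h.sd.nu
  have a := dt_mul one_pos N.sp h.hu
  rw [min_eq_right ((one_le_div (sqrt_pos.2 h.hu)).2 (sqrt_le_sqrt hU))] at a
  have b := dt_nn one_pos N.sp.le h.hu
  have c := mul_le_of_le_one_right b h.u1
  have hx : M.z (k - 1) < 1 := by have := h.hu; rw [du] at this; linarith
  have e := congrFun h.sd.den (M.z (k - 1))
  rw [Plt13.den_eq (h.sd.xs_le h.hk) hx] at e
  have := db_pos N.lp h.Ap
  have := dt_nn N.Vp N.lp.le h.hu
  rw [e]
  unfold dl du at *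
  linarith

theorem den_dl : (la / 2) ^ 2 ≤ S.den (M.z (k - 1)) ^ 2 * dl M S k ^ 3 := by
  have N := h.sd.nu
  have A := h.Ap
  have s := sqrt_pos.2 A
  have hx : M.z (k - 1) < 1 := by have := h.hu; rw [du] at this; linarith
  have e := congrFun h.sd.den (M.z (k - 1))
  rw [Plt13.den_eq (h.sd.xs_le h.hk) hx] at e
  have a : db la (dl M S k) ≤ S.den (M.z (k - 1)) := by
    have := dt_nn one_pos N.sp.le h.hu
    have := dt_nn N.Vp N.lp.le h.hu
    rw [e]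
    unfold dl du at *
    linarith
  refine le_trans (le_of_eq ?_) (mul_le_mul_of_nonneg_right
    (pow_le_pow_left₀ (db_pos N.lp A).le a 2) (by positivity))
  rw [db, div_pow la (2 * _), mul_pow, mul_pow, sq_sqrt A.le]
  field_simp

theorem T0 : 0 ≤ rT S M x k := sqrt_nonneg _

theorem T_le : rT S M x k ≤ x := by
  have x0 := h.x0
  exact sqrt_le_iff.2 ⟨x0.le, (div_le_div_of_nonneg_left (by positivity) x0
    (le_max_right _ _)).trans (le_of_eq (by field_simp))⟩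

theorem T_sq : rT S M x k ^ 2 * dl M S k ≤ 2 * √(x ^ 3) ^ 2 := by
  have x0 := h.x0
  have m : 0 < max (dl M S k - S.u0) x := lt_max_of_lt_right x0
  rw [h.y2, rT, sq_sqrt (by positivity), div_mul_eq_mul_div, div_le_iff₀ m]
  have : dl M S k ≤ 2 * max (dl M S k - S.u0) x := by
    linarith [le_max_left (dl M S k - S.u0) x, le_max_right (dl M S k - S.u0) x, h.ux]
  nlinarith [pow_pos x0 3]

theorem m0 (hV : 0 ≤ Vt) : 0 ≤ rm M x Vt k := le_min hV (sqrt_nonneg _)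

theorem m_sq (_ : 0 ≤ Vt) : rm M x Vt k * √(du M k) ≤ √(x ^ 3) := by
  have s := sqrt_pos.2 h.hu
  rw [← le_div_iff₀ s, ← sqrt_div (pow_pos h.x0 3).le]
  exact min_le_right _ _

theorem m_sq2 (hV : 0 ≤ Vt) : rm M x Vt k ^ 2 * du M k ≤ √(x ^ 3) ^ 2 := by
  have := pow_le_pow_left₀ (mul_nonneg (h.m0 hV) (sqrt_nonneg _)) (h.m_sq hV) 2
  rwa [mul_pow, sq_sqrt h.hu.le] at this

/-- far from its end a rise is at most `2 C √(x³)` -/
theorem far {r A : ℝ} (h1 : r ^ 2 * A ≤ 2 * √(x ^ 3) ^ 2) (h2 : 1 ≤ 2 * S.C * A) :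
    r ≤ 2 * S.C * √(x ^ 3) := by
  have C1 := h.C1
  have y := h.y0
  refine le_of_pow_le_pow_left₀ (n := 2) two_ne_zero (by positivity) ?_
  have a := mul_le_mul_of_nonneg_left h2 (sq_nonneg r)
  have b := mul_le_mul_of_nonneg_left h1 (show 0 ≤ 2 * S.C by positivity)
  have c := mul_le_mul_of_nonneg_right C1 (show 0 ≤ S.C * √(x ^ 3) ^ 2 by positivity)
  nlinarith

theorem m_up (hV : 0 ≤ Vt) {a b : ℝ} (ha : 0 < a) (hb : 0 < b)
    (hL : min (a / √(du M k)) b / 4 ≤ lsh M S k) :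
    rm M x Vt k ≤ 4 * (√(x ^ 3) / a + Vt / b) * lsh M S k := by
  have s := sqrt_pos.2 h.hu
  have y := h.y0
  have L := h.L0
  have p1 : 0 ≤ √(x ^ 3) / a * lsh M S k := by positivity
  have p2 : 0 ≤ Vt / b * lsh M S k := by positivity
  rcases le_total (a / √(du M k)) b with c | c
  · rw [min_eq_left c] at hL
    have e : √(x ^ 3) / √(du M k) = √(x ^ 3) / a * (a / √(du M k)) := by field_simp
    have f := (le_div_iff₀ s).2 (h.m_sq hV)
    nlinarith [mul_le_mul_of_nonneg_left hL (show 0 ≤ √(x ^ 3) / a by positivity)]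
  · rw [min_eq_right c] at hL
    have e : Vt = Vt / b * b := by field_simp
    have f : rm M x Vt k ≤ Vt := min_le_left _ _
    nlinarith [mul_le_mul_of_nonneg_left hL (show 0 ≤ Vt / b by positivity)]

theorem mQ (hV : 0 ≤ Vt) (hQ : QQ la V U x Vt Q) : rm M x Vt k ≤ 2 * S.C * √(x ^ 3) ∨
    (ds M S k = du M k ∧ rm M x Vt k ≤ Q * lsh M S k) := by
  rcases h.side with ⟨-, -, c⟩ | ⟨e, b1, b2, -⟩
  · exact Or.inl (h.far (by nlinarith [h.m_sq2 hV, sq_nonneg √(x ^ 3)]) c)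
  · refine Or.inr ⟨e, ?_⟩
    rcases hQ with c | c
    · refine (h.m_up hV h.sd.nu.sp one_pos b2).trans (mul_le_mul_of_nonneg_right ?_ h.L0.le)
      rwa [div_one]
    · exact (h.m_up hV h.lp h.sd.nu.Vp b1).trans
        (mul_le_mul_of_nonneg_right (by linarith) h.L0.le)

theorem Q0 (hV : 0 ≤ Vt) (hQ : QQ la V U x Vt Q) : 0 ≤ Q := by
  have := h.lp
  have := h.sd.nu.Vp
  rcases hQ with c | c <;> exact le_trans (by positivity) c

theorem of_la {a : ℝ} (ha : 0 ≤ a) : a ≤ 4 * a / la * lsh M S k := by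
  have lp := h.lp
  exact le_trans (le_of_eq (by field_simp)) (mul_le_mul_of_nonneg_left h.L_ge
    (show 0 ≤ 4 * a / la by positivity))

theorem R0 (hV : 0 ≤ Vt) : 0 < Rp M S (x ^ 3) Vt 0 k := by
  have x0 := h.x0
  have : 0 < max (dl M S k - S.u0) x := lt_max_of_lt_right x0
  rw [h.Rp_eq]
  exact add_pos_of_pos_of_nonneg (sqrt_pos.2 (by positivity)) (h.m0 hV)

theorem R_le : Rp M S (x ^ 3) Vt 0 k ≤ x + Vt := by
  rw [h.Rp_eq]; exact add_le_add h.T_le (min_le_left _ _)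

/-- `r (R + x)² ≤ B lsh` for a weight `r ≤ 1` with `r m ≤ b` on the upper half -/
theorem Rx_le (hV : 0 ≤ Vt) (hQ : QQ la V U x Vt Q) {r b : ℝ} (r0 : 0 ≤ r) (r1 : r ≤ 1)
    (b0 : 0 ≤ b) (hb : ds M S k = du M k → r * rm M x Vt k ≤ b) :
    r * (Rp M S (x ^ 3) Vt 0 k + x) ^ 2 ≤ (64 * S.C * x ^ 2 / la + 2 * b * Q) * lsh M S k := by
  have C1 := h.C1
  have x0 := h.x0
  have m0 := h.m0 hV
  have L := h.L0
  have Q0 := h.Q0 hV hQ
  have a : (Rp M S (x ^ 3) Vt 0 k + x) ^ 2 ≤ 8 * x ^ 2 + 2 * rm M x Vt k ^ 2 := by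
    have := pow_le_pow_left₀ (add_nonneg (h.R0 hV).le x0.le)
      (show Rp M S (x ^ 3) Vt 0 k + x ≤ 2 * x + rm M x Vt k by rw [h.Rp_eq]; linarith [h.T_le]) 2
    nlinarith [sq_nonneg (2 * x - rm M x Vt k)]
  have a1 := mul_le_mul_of_nonneg_left a r0
  have a2 := h.of_la (a := 16 * S.C * x ^ 2) (by positivity)
  have a3 : r * x ^ 2 ≤ S.C * x ^ 2 := mul_le_mul_of_nonneg_right (r1.trans C1) (sq_nonneg x)
  have e : (64 * S.C * x ^ 2 / la + 2 * b * Q) * lsh M S k =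
      4 * (16 * S.C * x ^ 2) / la * lsh M S k + 2 * (b * (Q * lsh M S k)) := by ring
  have p : 0 ≤ b * (Q * lsh M S k) := by positivity
  have q : 0 ≤ S.C * x ^ 2 := by positivity
  rcases h.mQ hV hQ with c | ⟨c, d⟩
  · have c1 := pow_le_pow_left₀ m0 c 2
    rw [mul_pow, h.y2] at c1
    have c2 := mul_le_mul_of_nonneg_left h.Cx q
    have c3 := mul_le_of_le_one_left (sq_nonneg (rm M x Vt k)) r1
    nlinarith
  · have c1 := mul_le_mul (hb c) d m0 b0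
    nlinarith

theorem dR3 (hV : 0 ≤ Vt) (hQ : QQ la V U x Vt Q) : ds M S k * Rp M S (x ^ 3) Vt 0 k ^ 3 ≤
    (256 * S.C ^ 3 * √(x ^ 3) ^ 3 / la + 4 * x ^ 3 * Q) * lsh M S k := by
  have C1 := h.C1
  have y := h.y0
  have m0 := h.m0 hV
  have T0 := h.T0
  have L := h.L0
  have lp := h.lp
  have d0 := h.d0
  have Q0 := h.Q0 hV hQ
  have x0 := h.x0
  have a : Rp M S (x ^ 3) Vt 0 k ^ 3 ≤ 4 * (rT S M x k ^ 3 + rm M x Vt k ^ 3) := by
    have := add_pow_le T0 m0 3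
    rw [h.Rp_eq]; norm_num at this; linarith
  have a2 := h.of_la (a := 8 * S.C ^ 3 * √(x ^ 3) ^ 3) (by positivity)
  have fr : ∀ {r : ℝ}, 0 ≤ r → r ≤ 2 * S.C * √(x ^ 3) →
      ds M S k * r ^ 3 ≤ 4 * (8 * S.C ^ 3 * √(x ^ 3) ^ 3) / la * lsh M S k := fun r0 r1 =>
    (mul_le_of_le_one_left (pow_nonneg r0 3) h.d1).trans
      (((pow_le_pow_left₀ r0 r1 3).trans_eq (by ring)).trans a2)
  have bT : ds M S k * rT S M x k ^ 3 ≤ 4 * (8 * S.C ^ 3 * √(x ^ 3) ^ 3) / la * lsh M S k := by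
    rcases h.side with ⟨e, b, -⟩ | ⟨-, -, -, c⟩
    · have s := sqrt_pos.2 h.Ap
      have c : √(dl M S k) * rT S M x k ≤ 2 * √(x ^ 3) := by
        refine le_of_pow_le_pow_left₀ (n := 2) two_ne_zero (by positivity) ?_
        rw [mul_pow, sq_sqrt h.Ap.le]
        nlinarith [h.T_sq, sq_nonneg √(x ^ 3)]
      have c3 := pow_le_pow_left₀ (by positivity) c 3
      have C3 : 1 ≤ S.C ^ 3 := one_le_pow₀ C1
      calc _ = (√(dl M S k) * rT S M x k) ^ 3 / √(dl M S k) := by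
            rw [e]; field_simp; rw [sq_sqrt h.Ap.le, mul_comm]
        _ ≤ (2 * √(x ^ 3)) ^ 3 / √(dl M S k) := div_le_div_of_nonneg_right c3 s.le
        _ = 4 * (4 * 1 * √(x ^ 3) ^ 3) / la * (la / √(dl M S k) / 2) := by field_simp; norm_num
        _ ≤ _ := by gcongr; norm_num
    · exact fr T0 (h.far h.T_sq c)
  have e : (256 * S.C ^ 3 * √(x ^ 3) ^ 3 / la + 4 * x ^ 3 * Q) * lsh M S k =
      8 * (4 * (8 * S.C ^ 3 * √(x ^ 3) ^ 3) / la * lsh M S k) + 4 * (x ^ 3 * (Q * lsh M S k)) := by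
    ring
  have p : 0 ≤ x ^ 3 * (Q * lsh M S k) := by positivity
  have q : 0 ≤ 4 * (8 * S.C ^ 3 * √(x ^ 3) ^ 3) / la * lsh M S k := by positivity
  have a1 := mul_le_mul_of_nonneg_left a d0.le
  rcases h.mQ hV hQ with c | ⟨c, d⟩
  · linarith [fr m0 c]
  · have c1 := mul_le_mul (h.m_sq2 hV) d m0 (sq_nonneg _)
    rw [h.y2, ← c] at c1
    nlinarith

theorem dR (hV : 0 ≤ Vt) : ds M S k * Rp M S (x ^ 3) Vt 0 k ≤ 3 * √(x ^ 3) := by
  have y := h.y0
  have d0 := h.d0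
  have a : ∀ {r A c : ℝ}, ds M S k ≤ A → 0 ≤ c → r ^ 2 * A ≤ c ^ 2 → ds M S k * r ≤ c :=
    fun {r A c} h1 h2 h3 => le_of_pow_le_pow_left₀ (n := 2) two_ne_zero h2 (by
      have := mul_le_mul_of_nonneg_left (mul_le_mul h.d1 h1 d0.le zero_le_one) (sq_nonneg r)
      nlinarith)
  have b := a (r := rT S M x k) (c := 2 * √(x ^ 3)) (min_le_left _ _) (by positivity)
    (by nlinarith [h.T_sq, sq_nonneg √(x ^ 3)])
  have c := a (min_le_right _ _) y.le (h.m_sq2 hV)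
  rw [h.Rp_eq]
  linarith

theorem w0 : 0 < S.w3 1 := by
  have := h.sd.cl.ms_pos zero_le_one
  have := h.sd.cl.N0
  have := h.sd.cl.F1
  rw [Sc.w3]
  positivity

theorem aA0 : 0 ≤ a0 S M (x ^ 3) Vt 0 k := by
  have := h.w0
  have := h.den0
  rw [a0]; positivity

theorem aB0 : 0 ≤ aB S M k := by
  have := h.w0
  have := h.den0
  rw [aB]; positivity

theorem dA : ds M S k * a0 S M (x ^ 3) Vt 0 k =
    S.w3 1 * (lsh M S k + (Rp M S (x ^ 3) Vt 0 k + x) ^ 2 / lsh M S k) := by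
  have := h.den0
  have := h.d0
  rw [a0, third h.x0.le, lsh]; field_simp

theorem z3 (hV : 0 ≤ Vt) (hQ : QQ la V U x Vt Q) (hw : S.w3 1 ≤ w) {lM : ℝ}
    (hL : lsh M S k ≤ lM) : ds M S k * a0 S M (x ^ 3) Vt 0 k ≤
      w * (lM + (64 * S.C * x ^ 2 / la + 2 * Vt * Q)) := by
  have a := h.Rx_le hV hQ zero_le_one le_rfl hV fun _ => by rw [one_mul]; exact min_le_left _ _
  have L := h.L0
  rw [one_mul, ← div_le_iff₀ L] at a
  rw [h.dA]
  exact mul_le_mul hw (add_le_add hL a) (by positivity) (h.w0.le.trans hw)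

theorem z2 (hV : 0 ≤ Vt) (hQ : QQ la V U x Vt Q) (hw : S.w3 1 ≤ w) {σ : ℝ} (σ0 : 0 ≤ σ)
    (hσ : w * (2 * la + (64 * S.C * x ^ 2 / la + 2 * √(x ^ 3) * Q)) ≤ σ ^ 3) :
    ds M S k * (a0 S M (x ^ 3) Vt 0 k ^ ((1 : ℝ) / 3)) ^ 2 ≤ σ ^ 2 := by
  have s := sqrt_pos.2 h.d0
  have L := h.L0
  have a := h.Rx_le hV hQ s.le (sqrt_le_one.2 h.d1) h.y0.le fun e => by
    rw [e, mul_comm]; exact h.m_sq hV
  rw [← div_le_iff₀ L] at a
  have b : √(ds M S k) * a0 S M (x ^ 3) Vt 0 k ^ ((1 : ℝ) / 3) ≤ σ := by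
    refine le_of_pow_le_pow_left₀ (n := 3) (by norm_num) σ0 (le_trans ?_ hσ)
    rw [mul_pow, cube3 h.aA0, pow_succ', sq_sqrt h.d0.le, mul_assoc, h.dA]
    refine le_trans (le_of_eq (by ring)) (mul_le_mul hw (add_le_add h.L_le a) (by positivity)
      (h.w0.le.trans hw))
  have := pow_le_pow_left₀ (mul_nonneg s.le (rpow_nonneg h.aA0 _)) b 2
  rwa [mul_pow, sq_sqrt h.d0.le] at this

theorem dB (hw : S.w3 1 ≤ w) {dm : ℝ} (d0 : 0 < dm) (hd : dm ≤ lsh M S k * ds M S k) (i : ℕ) :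
    ds M S k * aB S M k ^ (i + 1) ≤ (w / dm) ^ i * (4 * w / la) := by
  have := h.den0
  have s := h.d0
  have w0 := h.w0
  have lp := h.lp
  have a : aB S M k ≤ w / dm :=
    div_le_div₀ (w0.le.trans hw) hw d0 (hd.trans_eq (by rw [lsh]; ring))
  have b : ds M S k * aB S M k ≤ 4 * w / la := by
    have e : ds M S k * aB S M k = S.w3 1 / lsh M S k := by rw [aB, lsh]; field_simp
    rw [e, div_le_iff₀ h.L0]
    exact hw.trans (h.of_la (w0.le.trans hw))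
  exact le_trans (le_of_eq (by ring)) (mul_le_mul (pow_le_pow_left₀ h.aB0 a i) b
    (mul_nonneg s.le h.aB0) (pow_nonneg (h.aB0.trans a) i))

/-- the two small parts of `ap` -/
theorem dD (hw : S.w3 1 ≤ w) {dm : ℝ} (d0 : 0 < dm) (hd : dm ≤ lsh M S k * ds M S k) (i : ℕ) :
    ds M S k * (aB S M k + √(S.w3 1 / lsh M S k)) ^ (i + 2) ≤ 2 ^ (i + 1) * bD w dm la i := by
  have s := h.d0
  have w0 := h.w0
  have lp := h.lp
  have L := h.L0
  have a : S.w3 1 / lsh M S k ≤ 4 * w / la := by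
    rw [div_le_iff₀ L]
    exact hw.trans (h.of_la (w0.le.trans hw))
  have b : ds M S k * √(S.w3 1 / lsh M S k) ^ (i + 2) ≤ √(4 * w / la) ^ i * (4 * w / la) := by
    rw [pow_add, sq_sqrt (by positivity)]
    exact (mul_le_of_le_one_left (by positivity) h.d1).trans (mul_le_mul
      (pow_le_pow_left₀ (sqrt_nonneg _) (sqrt_le_sqrt a) i) a (by positivity) (by positivity))
  have c := h.dB hw d0 hd (i + 1)
  have e := mul_le_mul_of_nonneg_left
    (add_pow_le h.aB0 (sqrt_nonneg (S.w3 1 / lsh M S k)) (i + 2)) s.le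
  refine e.trans (le_trans (le_of_eq ?_) ((mul_le_mul_of_nonneg_left (add_le_add c b)
    (show (0 : ℝ) ≤ 2 ^ (i + 1) by positivity)).trans_eq ?_))
  · rw [show i + 2 - 1 = i + 1 from rfl]; ring
  · rw [bD]; ring

theorem aA_le (hV : 0 ≤ Vt) (hw : S.w3 1 ≤ w) {u lM dm : ℝ} (u0 : 0 < u) (hu : u ≤ du M k)
    (hL : lsh M S k ≤ lM) (d0 : 0 < dm) (hd : dm ≤ lsh M S k * ds M S k) :
    a0 S M (x ^ 3) Vt 0 k ≤ w * (2 + lM / u + (2 * x + Vt) ^ 2 / dm) := by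
  have dp := h.den0
  have s := h.d0
  have L := h.L0
  have a : S.den (M.z (k - 1)) ≤ 2 + lM / u := by
    have p : 0 ≤ lM / u := div_nonneg (L.le.trans hL) u0.le
    rcases h.side with ⟨e, -, -⟩ | ⟨e, -, -, -⟩
    · have u0 := h.sd.u0p
      have s0 := sqrt_pos.2 u0
      have f := h.sd.fb_u0
      rw [div_eq_iff s0.ne'] at f
      have g := h.L_le
      have i := mul_le_mul h.A0 (sqrt_le_sqrt h.A0) s0.le h.Ap.le
      rw [lsh, e] at g
      have : S.den (M.z (k - 1)) ≤ 2 := le_of_mul_le_mul_right (by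
        nlinarith [mul_le_mul_of_nonneg_left i dp.le]) h.lp
      linarith
    · have : S.den (M.z (k - 1)) ≤ lM / u := by
        rw [le_div_iff₀ u0]
        exact (mul_le_mul_of_nonneg_left (hu.trans e.ge) dp.le).trans hL
      linarith
  rw [a0, third h.x0.le]
  exact mul_le_mul hw (add_le_add a (div_le_div₀ (sq_nonneg _) (pow_le_pow_left₀
    (add_nonneg (h.R0 hV).le h.x0.le) (by linarith [h.R_le (Vt := Vt)]) 2) d0
    (hd.trans_eq (by rw [lsh]; ring)))) (by positivity) (h.w0.le.trans hw)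

/-- the layer cake term -/
theorem cake (hV : 0 ≤ Vt) (hQ : QQ la V U x Vt Q) (hw : S.w3 1 ≤ w) {ρ : ℝ} (ρ0 : 0 ≤ ρ)
    (hρ : w * (256 * S.C ^ 3 * √(x ^ 3) ^ 3 / la + 4 * x ^ 3 * Q) ≤ ρ ^ 2) (q : ℕ) :
    ds M S k * (√(S.w3 1 / (S.den (M.z (k - 1)) * ds M S k ^ 2)) *
      Rp M S (x ^ 3) Vt 0 k ^ (((q + 2 : ℕ) : ℝ) - 1 / 2)) ≤ ρ * (x + Vt) ^ q := by
  have R := h.R0 hV
  have dp := h.den0
  have s := h.d0
  have w0 := h.w0
  have e : ((q + 2 : ℕ) : ℝ) - 1 / 2 = q + (1 + 1 / 2) := by push_cast; ring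
  rw [e, rpow_add R, rpow_add R, rpow_natCast, rpow_one, ← sqrt_eq_rpow]
  have a : ds M S k * (√(S.w3 1 / (S.den (M.z (k - 1)) * ds M S k ^ 2)) *
      (Rp M S (x ^ 3) Vt 0 k * √(Rp M S (x ^ 3) Vt 0 k))) ≤ ρ := by
    refine le_of_pow_le_pow_left₀ (n := 2) two_ne_zero ρ0 (le_trans ?_ hρ)
    have b := h.dR3 hV hQ
    rw [← div_le_iff₀ h.L0] at b
    rw [mul_pow, mul_pow, mul_pow, sq_sqrt (by positivity), sq_sqrt R.le]
    refine le_trans (le_of_eq ?_) (mul_le_mul hw b (by have := h.L0; positivity)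
      (w0.le.trans hw))
    rw [lsh]; field_simp
  exact le_trans (le_of_eq (by ring)) (mul_le_mul a (pow_le_pow_left₀ R.le h.R_le q)
    (by positivity) ρ0)

end Nd

end Crest.Agent.T156.Alt.Lp86

end
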