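import Crest.Agent.T156.LPgA_86
import Crest.Agent.T156.LDefX_64

/-!
# Row 156 (helper86): `LP` and `LC` for the static plateau from pure numbers
-/

set_option autoImplicit false
set_option linter.unusedSectionVars false

noncomputable section

namespace Crest.Agent.T156.Alt.Lp86

open Real Finset
open Crest.Agent.T156.Alt.L69 Crest.Agent.T156.Alt.Ps64
open Crest.Agent.T156.Alt.Kn72 (SD)

/-- the facts on the member -/
structure GX (S : Sc) (M : Md) (la V U h Γ : ℝ) : Prop where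
  sd : SD S M la V U
  F1 : S.F = 1
  mesh : 4 * S.C * S.v ≤ h * la
  ue : 0 < S.ue ∧ S.ue ≤ h
  rev : ∃ k1, S.Jp ≤ k1 ∧ k1 ≤ M.N ∧ 1 / S.C ≤ ((k1 : ℝ) - S.Jp) * S.v ∧
    ∀ k, S.Jp ≤ k → k < k1 → S.θ * S.v / (S.C * S.F) ≤ M.H (k + 1) - M.H k
  flat : M.s S.Jp ≤ M.s S.J
  G : GS M S 0 S.C + GP M S ≤ Γ

/-- the numbers of a cut `u` -/
structure Ct (n C u0 U h x u dm Λ : ℝ) : Prop where
  hu : 16 * h ≤ u
  hU : 16 * h ≤ u0
  ux : u0 ≤ x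
  Cx : C * x ≤ 1
  nu : 1 / u ≤ n
  nU : 1 / u0 ≤ n
  Λ1 : 6 * log (1 + n) ≤ Λ
  d0 : 0 < dm
  d1 : 2 * dm ≤ u0 ^ 2
  d2 : 4 * dm ≤ u
  d3 : 16 * dm ^ 2 ≤ U * u

/-- the largest clock length of a shell above the cut `u` -/
def lM (u0 V U u : ℝ) : ℝ := u0 + V + min 1 (√U / √u)
/-- `min (e^{3/2}, e² / θ)` -/
def mn (θ e : ℝ) : ℝ := min (e ^ ((3 : ℝ) / 2)) (e ^ 2 / θ)

theorem mn_mono {θ e e' : ℝ} (h0 : 0 < θ) (h1 : 0 ≤ e) (h : e ≤ e') : mn θ e ≤ mn θ e' :=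
  min_le_min (rpow_le_rpow h1 h (by norm_num))
    (div_le_div_of_nonneg_right (pow_le_pow_left₀ h1 h 2) h0.le)

section cut

variable {S : Sc} {M : Md} {la V U h Γ x u dm Λ Vt Q w σ z ρ L aM : ℝ} (F : GX S M la V U h Γ)
  (T : Ct S.n S.C S.u0 U h x u dm Λ)
include F T

theorem h0 : 0 < h := F.ue.1.trans_le F.ue.2
theorem cu0 : 0 < u := by linarith [T.hu, h0 F T]

theorem nd' {k : ℕ} (hk : S.J ≤ k) (hu : 0 < du M k) : Nd S M la V U x k :=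
  ⟨F.sd, hk, hu, T.ux, T.Cx⟩

theorem nd_of {k : ℕ} (hk : k ∈ nd S M u) : Nd S M la V U x k ∧ u ≤ du M k :=
  ⟨nd' F T (mem_Icc.1 (mem_filter.1 hk).1).1 ((cu0 F T).trans_le (mem_filter.1 hk).2),
    (mem_filter.1 hk).2⟩

theorem pd : PD S M h u (x ^ 3) (S.C ^ 2 * (M.ck S.Jp - M.ck S.J)) (la / 4) dm Λ := by
  have u0 := F.sd.u0p
  have x0 := u0.trans_le T.ux
  have lp := F.sd.nu.lp
  have lg : ∀ {y : ℝ}, 0 < y → 1 / y ≤ S.n → log (1 + 1 / y) ≤ log (1 + (S.n : ℝ)) :=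
    fun a b => log_le_log (by positivity) (by linarith)
  have l1 := lg (cu0 F T) T.nu
  refine ⟨F.sd.cl, h0 F T, fun k a b => ?_, by linarith [F.ue.2, T.hu, h0 F T], T.hu, T.hU,
    by positivity, by rw [third x0.le]; exact T.hU.trans T.ux, le_rfl, by positivity,
    fun k hk => (nd_of F T hk).1.L_ge, T.d0, fun k hk => ?_, ?_, ?_⟩
  · have N := nd' F T a (F.sd.du0 a b)
    have c := (F.sd.cl.plat k a b).2
    have d : la / 4 ≤ S.den (M.z (k - 1)) :=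
      N.L_ge.trans (mul_le_of_le_one_right N.den0.le N.d1)
    have e : 0 ≤ dx M k := sub_nonneg.2 (F.sd.cl.leg.zm (Nat.sub_le k 1))
    refine le_of_mul_le_mul_right ?_ lp
    have := mul_le_mul_of_nonneg_left d e
    rw [dx] at this ⊢
    linarith [F.mesh]
  · obtain ⟨N, c⟩ := nd_of F T hk
    exact (N.dL_ge c T.d0 T.d1 T.d2 T.d3).trans_eq (by rw [lsh]; ring)
  · linarith [T.Λ1, lg u0 T.nU]
  · rw [third x0.le]
    linarith [T.Λ1, lg x0 ((one_div_le_one_div_of_le u0 T.ux).trans T.nU)]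

/-- **sums from shell suprema** -/
theorem sum_sup {f : ℕ → ℝ} {B : ℝ} (hB : 0 ≤ B)
    (hf : ∀ k, Nd S M la V U x k → u ≤ du M k → ds M S k * f k ≤ B) :
    ∑ k ∈ nd S M u, dx M k * f k ≤ Λ * B := by
  have P := pd F T
  refine le_trans ?_ (mul_le_mul_of_nonneg_right P.sum_ds hB)
  rw [sum_mul]
  refine sum_le_sum fun k hk => ?_
  have s := P.ds0 hk
  exact le_trans (le_of_eq (by field_simp)) (mul_le_mul_of_nonneg_left
    (hf k (nd_of F T hk).1 (nd_of F T hk).2) (div_nonneg (P.dx0 k) s.le))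

variable (hV : 0 ≤ Vt) (hQ : QQ la V U x Vt Q) (hw : S.w3 1 ≤ w)
include hV hQ hw

omit F T hV hQ hw in
theorem ap_sp {k : ℕ} (N : Nd S M la V U x k) (p : ℕ) :
    ds M S k * ap M S (x ^ 3) Vt 0 k ^ (p + 1) ≤
      2 ^ p * (ds M S k * (a0 S M (x ^ 3) Vt 0 k ^ ((1 : ℝ) / 3)) ^ (p + 1) +
        ds M S k * (aB S M k + √(S.w3 1 / lsh M S k)) ^ (p + 1)) := by
  have e := add_pow_le (rpow_nonneg (N.aA0 (Vt := Vt)) ((1 : ℝ) / 3))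
    (add_nonneg N.aB0 (sqrt_nonneg (S.w3 1 / lsh M S k))) (p + 1)
  rw [← add_assoc, ← ap_eq0, Nat.add_sub_cancel] at e
  exact (mul_le_mul_of_nonneg_left e N.d0.le).trans_eq (by ring)

theorem ap2 (σ0 : 0 ≤ σ)
    (hσ : w * (2 * la + (64 * S.C * x ^ 2 / la + 2 * √(x ^ 3) * Q)) ≤ σ ^ 3) {k : ℕ}
    (N : Nd S M la V U x k) (c : u ≤ du M k) :
    ds M S k * ap M S (x ^ 3) Vt 0 k ^ 2 ≤ 2 * σ ^ 2 + 4 * bD w dm la 0 := by
  have a := N.z2 hV hQ hw σ0 hσ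
  have b := N.dD hw T.d0 (N.dL_ge c T.d0 T.d1 T.d2 T.d3) 0
  have e := ap_sp (Vt := Vt) N 1
  norm_num at e b a ⊢
  linarith

theorem ap3 (hz : w * (lM S.u0 V U u + (64 * S.C * x ^ 2 / la + 2 * Vt * Q)) ≤ z) {k : ℕ}
    (N : Nd S M la V U x k) (c : u ≤ du M k) :
    ds M S k * ap M S (x ^ 3) Vt 0 k ^ 3 ≤ 4 * z + 16 * bD w dm la 1 := by
  have a := (N.z3 hV hQ hw (N.L_up (cu0 F T) c)).trans hz
  have b := N.dD hw T.d0 (N.dL_ge c T.d0 T.d1 T.d2 T.d3) 1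
  have e := ap_sp (Vt := Vt) N 2
  rw [cube3 N.aA0] at e
  norm_num at e b
  linarith

theorem ap4 (hz : w * (lM S.u0 V U u + (64 * S.C * x ^ 2 / la + 2 * Vt * Q)) ≤ z) (a0' : 0 ≤ aM)
    (a1 : w * (2 + lM S.u0 V U u / u + (2 * x + Vt) ^ 2 / dm) ≤ aM ^ 3) {k : ℕ}
    (N : Nd S M la V U x k) (c : u ≤ du M k) :
    ds M S k * ap M S (x ^ 3) Vt 0 k ^ 4 ≤ 8 * (aM * z) + 64 * bD w dm la 2 := by
  have d := N.dL_ge c T.d0 T.d1 T.d2 T.d3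
  have a := (N.z3 hV hQ hw (N.L_up (cu0 F T) c)).trans hz
  have b := N.dD hw T.d0 d 2
  have e := ap_sp (Vt := Vt) N 3
  have f : a0 S M (x ^ 3) Vt 0 k ^ ((1 : ℝ) / 3) ≤ aM :=
    le_of_pow_le_pow_left₀ (n := 3) (by norm_num) a0' (by
      rw [cube3 N.aA0]; exact (N.aA_le hV hw (cu0 F T) c (N.L_up (cu0 F T) c) T.d0 d).trans a1)
  have g := mul_le_mul f a (mul_nonneg N.d0.le N.aA0) a0'
  rw [pow_succ' (a0 S M (x ^ 3) Vt 0 k ^ ((1 : ℝ) / 3)), cube3 N.aA0] at e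
  norm_num at e b
  linarith

omit F T hV hQ hw in
theorem pL (L0 : 0 ≤ L) : (L ^ 3) ^ ((2 : ℝ) / 3) = L ^ 2 := by
  rw [← rpow_natCast L 3, ← rpow_mul L0, ← rpow_natCast L 2]; norm_num

/-- `Np (q + 2)` from a shell bound `B` of `ap ^ (q + 2)` -/
theorem Np_le (L0 : 0 ≤ L) (ρ0 : 0 ≤ ρ)
    (hρ : w * (256 * S.C ^ 3 * √(x ^ 3) ^ 3 / la + 4 * x ^ 3 * Q) ≤ ρ ^ 2) (q : ℕ) {B : ℝ}
    (B0 : 0 ≤ B) (hB : ∀ k, Nd S M la V U x k → u ≤ du M k →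
      ds M S k * ap M S (x ^ 3) Vt 0 k ^ (q + 2) ≤ B) :
    Np M S (x ^ 3) Vt 0 u (L ^ 3) (q + 2) ≤ u + Λ * ((L ^ 2) ^ (q + 2) * B + ρ * (x + Vt) ^ q) := by
  have x0 := F.sd.u0p.trans_le T.ux
  rw [Np, pL L0]
  refine add_le_add le_rfl (sum_sup F T (by positivity) fun k N c => ?_)
  rw [mul_add, mul_pow]
  exact add_le_add (le_trans (le_of_eq (by ring)) (mul_le_mul_of_nonneg_left (hB k N c)
    (by positivity))) ((mul_le_mul_of_nonneg_left (min_le_right _ _) N.d0.le).trans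
      (N.cake hV hQ hw ρ0 hρ q))

omit hQ in
theorem Np0 (L0 : 0 ≤ L) (p : ℕ) : 0 ≤ Np M S (x ^ 3) Vt 0 u (L ^ 3) p := by
  refine add_nonneg (cu0 F T).le (sum_nonneg fun k hk => mul_nonneg ((pd F T).dx0 k) ?_)
  have := ((nd_of F T hk).1.R0 hV).le
  have := (pd F T).ap0 (Vt := Vt) (γ := 0) k
  exact add_nonneg (by positivity) (le_min (by positivity) (by positivity))

omit hV hQ in
theorem far {Lp γ : ℝ} (hU : u ≤ U) (h1 : 16 * w ≤ Lp * u) : Far M S (x ^ 3) Vt γ u Lp := by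
  intro i k hi hik hk c
  have u0 := cu0 F T
  have hd : du M k ≤ du M i := by
    rw [du, du]; linarith [F.sd.cl.leg.zm (show i - 1 ≤ k - 1 by omega)]
  have Nk := nd' F T (hi.trans hik) (u0.trans_le c)
  have Ni := nd' F T hi (Nk.hu.trans_le hd)
  have w0 := Nk.w0
  have L0 : 0 < Lp := (mul_pos_iff_of_pos_right u0).1 (by linarith)
  have a : w ≤ Lp * (lsh M S i ^ 2 * ds M S i) := by
    have := mul_le_mul_of_nonneg_left ((div_le_div_of_nonneg_right (le_min (c.trans hd) hU)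
      (by norm_num)).trans Ni.sq_ge) L0.le
    linarith
  have a2 : S.w3 1 * S.den (M.z (i - 1)) ≤ Lp * lsh M S i ^ 3 :=
    (mul_le_mul_of_nonneg_right (hw.trans a) Ni.den0.le).trans_eq (by rw [lsh]; ring)
  have sk := Nk.L0
  have si := Ni.L0
  have dk := Nk.den0
  have x0 := Nk.x0
  have a3 : lsh M S i ^ 3 ≤ ((lsh M S k + (x ^ 3) ^ ((1 : ℝ) / 3)) * lsh M S k ^ 2 +
      S.w3 1 * S.den (M.z (k - 1))) * max 1 (lsh M S i / lsh M S k) ^ 3 :=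
    le_trans (le_of_eq (by field_simp)) (mul_le_mul (show lsh M S k ^ 3 ≤ _ by
      rw [third x0.le]; nlinarith [mul_pos w0 dk, mul_pos x0 (pow_pos sk 2)])
      (pow_le_pow_left₀ (by positivity) (le_max_right 1 (lsh M S i / lsh M S k)) 3)
      (by positivity) (by positivity))
  rw [mul_assoc]
  exact a2.trans (mul_le_mul_of_nonneg_left a3 L0.le)

end cut

/-- **sizes**: `P2`, `P3` bound `Np 2`, `Np 3` at the slope `L³` -/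
structure NS (n C u0 la V U h x Vt Q w u dm Λ σ z ρ L P2 P3 : ℝ) : Prop where
  ct : Ct n C u0 U h x u dm Λ
  V0 : 0 ≤ Vt
  hQ : QQ la V U x Vt Q
  uU : u ≤ U
  L1 : 1 ≤ L
  far : 16 * w ≤ L ^ 3 * u
  σ0 : 0 ≤ σ
  σ1 : w * (2 * la + (64 * C * x ^ 2 / la + 2 * √(x ^ 3) * Q)) ≤ σ ^ 3
  z1 : w * (lM u0 V U u + (64 * C * x ^ 2 / la + 2 * Vt * Q)) ≤ z
  ρ0 : 0 ≤ ρ
  ρ1 : w * (256 * C ^ 3 * √(x ^ 3) ^ 3 / la + 4 * x ^ 3 * Q) ≤ ρ ^ 2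
  n2 : u + Λ * (L ^ 4 * (2 * σ ^ 2 + 4 * bD w dm la 0) + ρ) ≤ P2
  n3 : u + Λ * (L ^ 6 * (4 * z + 16 * bD w dm la 1) + ρ * (x + Vt)) ≤ P3

section sizes

variable {S : Sc} {M : Md} {la V U h Γ x u dm Λ Vt Q w σ z ρ L P2 P3 : ℝ} (F : GX S M la V U h Γ)
  (H : NS S.n S.C S.u0 la V U h x Vt Q w u dm Λ σ z ρ L P2 P3) (hw : S.w3 1 ≤ w)
include F H hw

theorem w_nn : 0 ≤ w := (pd F H.ct).w0.le.trans hw

theorem z_nn : 0 ≤ z := by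
  have N := nd' F H.ct le_rfl (F.sd.u0p.trans_le F.sd.duJ)
  have := N.Q0 H.V0 H.hQ
  have := N.lp
  have := N.sd.nu.Vp
  have := N.sd.u0p
  have := N.sd.cl.C0
  have := H.V0
  have := w_nn F H hw
  refine le_trans ?_ H.z1
  rw [lM]; positivity

theorem np2 : Np M S (x ^ 3) Vt 0 u (L ^ 3) 2 ≤ P2 := by
  have := w_nn F H hw
  have := H.ct.d0
  have := F.sd.nu.lp
  refine (Np_le F H.ct H.V0 H.hQ hw (by linarith [H.L1]) H.ρ0 H.ρ1 0 (by rw [bD]; positivity)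
    fun k N c => ap2 F H.ct H.V0 H.hQ hw H.σ0 H.σ1 N c).trans (le_trans (le_of_eq ?_) H.n2)
  ring

theorem np3 : Np M S (x ^ 3) Vt 0 u (L ^ 3) 3 ≤ P3 := by
  have := w_nn F H hw
  have := z_nn F H hw
  have := H.ct.d0
  have := F.sd.nu.lp
  refine (Np_le F H.ct H.V0 H.hQ hw (by linarith [H.L1]) H.ρ0 H.ρ1 1 (by rw [bD]; positivity)
    fun k N c => ap3 F H.ct H.V0 H.hQ hw H.z1 N c).trans (le_trans (le_of_eq ?_) H.n3)
  ring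

theorem far' (γ : ℝ) : Far M S (x ^ 3) Vt γ u (L ^ 3) := far F H.ct hw H.uU H.far

end sizes

/-- the other numbers of `LP` that do not read `N` -/
structure NA (E n θ la h x w u1 u2 L P2 P3 Lg Lc uc X2 X3 G0 j ηc τ : ℝ) : Prop where
  E1 : 1 ≤ E
  w1 : 1 ≤ w * (n * θ)
  x1 : E * x ≤ 1
  u12 : u1 ≤ u2
  u2E : E * u2 ≤ 1
  Ln : L ^ 3 ≤ n
  LL : L ≤ Lg
  n2 : P2 ≤ X2
  n3 : P3 ≤ X3
  g1 : u1 ≤ G0
  g2 : w * (12 * √(x ^ 3) / la + 4) ≤ G0 ^ 2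
  g3 : h ≤ G0 ^ 2
  Lc1 : Lg ≤ Lc ∧ Lc ≤ n
  uc0 : 0 ≤ uc
  uc1 : Lc ^ 2 * w ≤ uc ^ 3
  j0 : 0 ≤ j
  ec1 : uc ^ 3 + uc ^ 2 * (θ + j + x) + (√(Lc * w) + G0 + X2) * (uc + √X2) + X3 + 1 / n ≤ ηc
  uc2 : E * uc ^ 2 ≤ θ
  τ0 : x / Lc + ηc / θ ≤ τ
  τ1 : τ ≤ x
  j1 : E * (j + τ) ≤ 1
  tw : w ≤ τ ^ 3

/-- the numbers of the costs -/
structure NC (E n C θ u0 la V U h Γ x Vt V2 Q2 w u2 dm2 Λ z2 aM P2 Lg X2 G0 j ηc τ e1 e A m N : ℝ) :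
    Prop where
  ct : Ct n C u0 U h x u2 dm2 Λ
  v2 : 0 ≤ V2 ∧ V2 ≤ Vt
  hQ : QQ la V U x V2 Q2
  z1 : w * (lM u0 V U u2 + (64 * C * x ^ 2 / la + 2 * V2 * Q2)) ≤ z2
  c1 : Λ * (Lg ^ 6 * (4 * z2 + 16 * bD w dm2 la 1)) ≤ N ∨
    (0 ≤ aM ∧ w * (2 + lM u0 V U u2 / u2 + (2 * x + V2) ^ 2 / dm2) ≤ aM ^ 3 ∧
      Λ * (Lg ^ 8 / θ * (8 * (aM * z2) + 64 * bD w dm2 la 2)) ≤ N)
  e2 : e1 + G0 ^ 2 + P2 + X2 * (x + V2) ≤ e
  c1' : mn θ e ≤ N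
  c2 : Γ / θ ≤ N
  c3 : θ * (τ ^ 3 + la ^ 2) ≤ N
  c4 : u2 ^ 2 + u2 * (e1 + X2 + √(Γ / u2)) + (u2 * θ) ^ ((3 : ℝ) / 2) ≤ N
  c8 : mn θ ηc ≤ N
  c9 : (w * x ^ 3) ^ ((3 : ℝ) / 4) + θ * (j ^ 9 + (x ^ 3) ^ 3) ≤ N
  jτ : 0 ≤ j + τ
  A1 : θ + j + τ ≤ A
  m1 : min A x ≤ m
  c5 : mn θ (X2 * x + A * m ^ 2) ≤ N
  c5' : (X2 + A * m) ^ 3 ≤ N ∨ E * (X2 + A * m) ≤ θ

theorem w3_eq {S : Sc} {M : Md} {w : ℝ} (c : Cl S M) (F1 : S.F = 1) (w1 : 1 ≤ w * (S.n * S.θ)) :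
    S.w3 1 ≤ w ∧ gg S 1 = S.w3 1 ∧ mf S 1 = S.θ := by
  have n0 := c.N0
  have t0 : 0 < S.ms 1 := c.θ0
  rw [Sc.w3, gg, mf, F1, mul_one, div_one]
  exact ⟨(div_le_iff₀ (by positivity)).2 w1, rfl, rfl⟩

/-- the costs hold for some `N` -/
theorem lc_ex (E : ℝ) (S : Sc) (M : Md) (Xp Lg Lp X2 G0 G1 u1 u2 j γ ηc τ : ℝ) {Vt : ℝ}
    (η : ℝ → ℝ) (hV : 0 ≤ Vt) : ∃ N, LC E S M Xp Vt Vt Lg Lp X2 G0 G1 u1 u2 j γ ηc τ η N := by
  have key : ∀ a b c d e f g l i k : ℝ, ∃ N, a ≤ N ∧ b ≤ N ∧ c ≤ N ∧ d ≤ N ∧ e ≤ N ∧ f ≤ N ∧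
      g ≤ N ∧ l ≤ N ∧ i ≤ N ∧ k ≤ N := fun a b c d e f g l i k => by
    obtain ⟨N, hN⟩ := Finset.exists_le ({a, b, c, d, e, f, g, l, i, k} : Finset ℝ)
    exact ⟨N, by simpa using hN⟩
  obtain ⟨N, a, b, c, d, e, f, g, l, i, k⟩ := key _ _ _ _ _ _ _ _ _ _
  exact ⟨N, ⟨hV, le_rfl⟩, a, fun _ h => h ▸ b, c, d, e, f, g, l,
    fun _ _ h h' => by subst h h'; exact ⟨i, Or.inl k⟩⟩

/-- **`Jn`** -/
theorem jn_of {S : Sc} {M : Md} {la V U h Γ x u dm Λ : ℝ} (F : GX S M la V U h Γ)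
    (T : Ct S.n S.C S.u0 U h x u dm Λ) (hn : 4 ≤ S.n * la) : Jn S M (x ^ 3) u :=
  ⟨by have := F.sd.dj.1; rwa [div_le_iff₀' F.sd.cl.C0] at this, F.sd.dj.2, pow_le_pow_left₀ F.sd.u0p.le T.ux 3, fun k a _ b => by
    have := mul_le_mul_of_nonneg_left (nd' F T a ((cu0 F T).trans_le b)).L_ge F.sd.cl.N0.le
    linarith⟩

section main

variable {S : Sc} {M : Md} {η : ℝ → ℝ}
  {E la V U h Γ x u1 u2 dm Λ Vt Q w σ z ρ L P2 P3 Lg Lc uc X2 X3 G0 j ηc τ N : ℝ}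
  (F : GX S M la V U h Γ) (H : NS S.n S.C S.u0 la V U h x Vt Q w u1 dm Λ σ z ρ L P2 P3)
  (G : NA E S.n S.θ la h x w u1 u2 L P2 P3 Lg Lc uc X2 X3 G0 j ηc τ)
include F H G

/-- **`LP`** from the costs at `V2 = Vt` -/
theorem lp_of (c : LC E S M (x ^ 3) Vt Vt Lg (L ^ 3) X2 G0 0 u1 u2 j 0 ηc τ η N) :
    LP E S M (x ^ 3) Vt Lg (L ^ 3) X2 X3 G0 0 u1 u2 j 0 Lc ηc τ η N := by
  obtain ⟨w1, w2, mf1⟩ := w3_eq F.sd.cl F.F1 G.w1
  have P := pd F H.ct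
  have N0 := nd' F H.ct le_rfl (F.sd.u0p.trans_le F.sd.duJ)
  have w0 := P.w0
  have x0 := N0.x0
  have x1 := N0.x1
  have y0 := N0.y0
  have lp := N0.lp
  have u0 := cu0 F H.ct
  have E1 := G.E1
  have θ0 := F.sd.cl.θ0
  have e3 := third x0.le
  have L0 : 0 ≤ L := by linarith [H.L1]
  have X0 : 0 ≤ X2 := (Np0 F H.ct H.V0 w1 L0 2).trans ((np2 F H w1).trans G.n2)
  have G0' : 0 ≤ G0 := u0.le.trans G.g1
  have p : 0 ≤ w * (12 * √(x ^ 3) / la) := by have := w0.le.trans w1; positivity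
  refine ⟨F.sd.u0p, F.rev, ⟨by positivity, ?_⟩, H.V0, P.ue.le, ⟨G.u12, G.u2E⟩,
    by linarith [F.flat], by simp, ⟨one_le_pow₀ H.L1, G.Ln⟩, pow_le_pow_left₀ L0 G.LL 3,
    far' F H w1 0, (np2 F H w1).trans G.n2, (np3 F H w1).trans G.n3, ⟨G.g1, fun k a _ b => ?_⟩,
    ⟨la / 4, by positivity, fun k a _ b => (nd' F H.ct a (u0.trans_le b)).L_ge, ?_⟩,
    Or.inl ⟨la / 2, by positivity, fun k a _ b => (nd' F H.ct a (u0.trans_le b)).den_dl, ?_⟩,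
    Or.inr ⟨F.ue.2.trans G.g3, fun k a _ b d => ?_⟩, c.c1, c.c1', c.c2, c.c3, c.c4, c.c6, c.c8,
    w1.trans G.tw, c.c9, G.Lc1, fun u' hu => ?_, by rw [e3, mf1]; exact G.τ0, by rw [e3]; exact G.τ1, G.j1, c.c5⟩
  · nlinarith [G.x1, mul_le_mul_of_nonneg_left (pow_le_one₀ (n := 2) x0.le x1)
      (show 0 ≤ E * x by positivity)]
  · have N := nd' F H.ct a (u0.trans_le b)
    have d0 := N.den0
    have R := (N.R0 H.V0).le
    have s := N.d0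
    refine le_trans (mul_le_mul w1 (add_le_add ?_ (N.d1.trans (by norm_num))) (by positivity)
      (w0.le.trans w1)) G.g2
    rw [div_le_div_iff₀ d0 lp]
    have a1 := mul_le_mul_of_nonneg_left N.L_ge R
    have a2 := mul_le_mul_of_nonneg_right (N.dR H.V0) d0.le
    rw [lsh] at a1
    nlinarith
  · have a1 : S.u0 * x ≤ √(x ^ 3) := le_sqrt_of_sq_le (by
      have := mul_le_mul_of_nonneg_right H.ct.ux x0.le
      have := pow_le_pow_left₀ (mul_nonneg F.sd.u0p.le x0.le) this 2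
      nlinarith [pow_pos x0 3])
    have a2 : u1 ≤ la := by
      nlinarith [H.uU, F.sd.nu.u2_sq, F.sd.nu.lV, F.sd.nu.V1]
    have a3 := mul_le_mul_of_nonneg_left G.g2 (show 0 ≤ la / 4 by positivity)
    have a4 : la / 4 * (w * (12 * √(x ^ 3) / la + 4)) = w * (3 * √(x ^ 3) + la) := by
      field_simp; ring
    rw [e3]
    have := F.sd.u0p
    exact (mul_le_mul w1 (by linarith) (by positivity) (w0.le.trans w1)).trans (a4 ▸ a3)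
  · have a1 : √S.u0 * x ≤ √(x ^ 3) := le_sqrt_of_sq_le (by
      rw [mul_pow, sq_sqrt F.sd.u0p.le]
      nlinarith [mul_le_mul_of_nonneg_right H.ct.ux (sq_nonneg x)])
    have a3 := mul_le_mul_of_nonneg_left G.g2 (show 0 ≤ la / 2 by positivity)
    have a4 : la / 2 * (w * (12 * √(x ^ 3) / la + 4)) = w * (6 * √(x ^ 3) + 2 * la) := by
      field_simp; ring
    rw [e3]
    exact (mul_le_mul w1 (by linarith) (by positivity) (w0.le.trans w1)).trans (a4 ▸ a3)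
  · have N := nd' F H.ct a (F.ue.1.trans_le b)
    have := mul_le_mul_of_nonneg_left (N.den_ge (d.le.trans H.uU)) (sq_nonneg G0)
    nlinarith [G.g2]
  · have c0 : 0 ≤ Lc := by linarith [G.LL, G.Lc1.1]
    have v1 : 0 ≤ u' := by rw [hu]; positivity
    have v2 : u' ≤ uc := by
      refine le_of_pow_le_pow_left₀ (n := 3) (by norm_num) G.uc0 (le_trans ?_ G.uc1)
      rw [hu, mul_pow, cube3 w0.le, ← rpow_natCast, ← rpow_mul c0]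
      norm_num
      exact mul_le_mul_of_nonneg_left w1 (sq_nonneg _)
    have j0 := G.j0
    rw [e3, mf1, w2]
    refine ⟨le_trans ?_ G.ec1, le_trans ?_ G.uc2⟩
    · have := G.uc0
      gcongr
    · gcongr

/-- **`LP`** with some cost -/
theorem lp_ex (η : ℝ → ℝ) :
    ∃ N', LP E S M (x ^ 3) Vt Lg (L ^ 3) X2 X3 G0 0 u1 u2 j 0 Lc ηc τ η N' :=
  (lc_ex E S M _ Lg _ X2 G0 0 u1 u2 j 0 ηc τ η H.V0).imp fun _ c => lp_of F H G c

/-- **`LC`** -/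
theorem lc {V2 Q2 dm2 z2 aM e1 e A m : ℝ} (K : NC E S.n S.C S.θ S.u0 la V U h Γ x Vt V2 Q2 w u2 dm2
      Λ z2 aM P2 Lg X2 G0 j ηc τ e1 e A m N) (η0 : 0 ≤ η 1) (η1 : η 1 ≤ e1) :
    LC E S M (x ^ 3) Vt V2 Lg (L ^ 3) X2 G0 0 u1 u2 j 0 ηc τ η N := by
  obtain ⟨w1, -, -⟩ := w3_eq F.sd.cl F.F1 G.w1
  have P := pd F H.ct
  have N0 := nd' F H.ct le_rfl (F.sd.u0p.trans_le F.sd.duJ)
  have w0 := P.w0.le.trans w1
  have x0 := N0.x0
  have lp := N0.lp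
  have θ0 := F.sd.cl.θ0
  have e3 := third x0.le
  have L0 : 0 ≤ L := by linarith [H.L1]
  have n0 := Np0 F H.ct H.V0 w1 L0 2
  have X0 : 0 ≤ X2 := n0.trans ((np2 F H w1).trans G.n2)
  have a : 0 ≤ GP M S := sum_nonneg fun k _ => mul_nonneg (P.dx0 k) (sq_nonneg _)
  have b : 0 ≤ GS M S 0 S.C := sum_nonneg fun k _ => mul_nonneg (P.dx0 k) (sq_nonneg _)
  have b' : GS M S (1 / (8 * S.C ^ 2)) S.C ≤ GS M S 0 S.C :=
    sum_le_sum_of_subset_of_nonneg (fun k hk => mem_filter.2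
      ⟨(mem_filter.1 hk).1, F.sd.cl.s_nn k, (mem_filter.1 hk).2.2⟩)
      fun k _ _ => mul_nonneg (P.dx0 k) (sq_nonneg _)
  have g := F.G
  have u0 := cu0 F K.ct
  have d0 := K.ct.d0
  have v0 := K.v2.1
  have z0 : 0 ≤ z2 := by
    have := N0.Q0 v0 K.hQ
    have := F.sd.nu.Vp
    have := F.sd.u0p
    have := F.sd.cl.C0
    refine le_trans ?_ K.z1
    rw [lM]; positivity
  have c2 : (GP M S + GS M S (1 / (8 * S.C ^ 2)) S.C + 0 ^ 2 + (S.θ * 0) ^ 2) / S.θ ≤ N :=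
    le_trans (div_le_div_of_nonneg_right (by linarith) θ0.le) K.c2
  refine ⟨K.v2, ?_, fun e' he => le_trans (mn_mono θ0 ?_ ?_) K.c1', c2, ?_, ?_, ?_, K.c8,
    le_trans (add_le_add (rpow_le_rpow (mul_nonneg P.w0.le (by positivity))
      (mul_le_mul_of_nonneg_right w1 (by positivity)) (by norm_num)) le_rfl) K.c9,
    fun A' B hA hB => ?_⟩
  · rcases K.c1 with c | ⟨a0, a1, c⟩
    · refine le_trans (sum_sup F K.ct (by rw [bD]; positivity) fun k N c => ?_) c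
      exact (mul_le_mul_of_nonneg_left (min_le_left _ _) N.d0.le).trans (le_trans
        (le_of_eq (by ring)) (mul_le_mul_of_nonneg_left (ap3 F K.ct v0 K.hQ w1 K.z1 N c)
          (by positivity)))
    · refine le_trans (sum_sup F K.ct (by rw [bD]; positivity) fun k N c => ?_) c
      exact (mul_le_mul_of_nonneg_left (min_le_right _ _) N.d0.le).trans (le_trans
        (le_of_eq (by ring)) (mul_le_mul_of_nonneg_left (ap4 F K.ct v0 K.hQ w1 K.z1 a0 a1 N c)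
          (by positivity)))
  · rw [he, e3]; positivity
  · rw [he, e3]; linarith [np2 F H w1, K.e2]
  · rw [F.sd.u0_cube]; exact K.c3
  · refine le_trans ?_ K.c4
    have : √((GP M S + 0 ^ 2) / u2) ≤ √(Γ / u2) :=
      sqrt_le_sqrt (div_le_div_of_nonneg_right (by linarith) u0.le)
    rw [zero_rpow (by norm_num), zero_mul, mul_zero, add_zero, add_zero, add_zero]
    gcongr
  · rw [zero_mul, zero_mul]
    exact le_trans (div_nonneg (by linarith) θ0.le) K.c2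
  · rw [e3] at hB ⊢
    have A0 : 0 ≤ A' := by linarith [K.jτ]
    have A1 : A' ≤ A := by linarith [K.A1]
    have A2 := A0.trans A1
    have m0 : 0 ≤ min A' x := le_min A0 x0.le
    have m1 : min A' x ≤ m := (min_le_min A1 le_rfl).trans K.m1
    have q : A' * min A' x ≤ A * m := mul_le_mul A1 m1 m0 (A0.trans A1)
    refine ⟨le_trans (mn_mono θ0 (by rw [hB]; positivity) ?_) K.c5, K.c5'.imp (le_trans ?_)
      (le_trans ?_)⟩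
    · rw [hB]; gcongr
    · gcongr
    · have := G.E1
      gcongr

end main

end Crest.Agent.T156.Alt.Lp86

end
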