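import Crest.Agent.T156.QCl_33

/-!
# Row 156, block Q on the class `Cl`: crude `L^p` bounds at every node (helper33)
-/

set_option autoImplicit false
set_option linter.unusedSectionVars false

noncomputable section

namespace Crest.Agent.T156.Alt.C33

open MeasureTheory Real Finset Filter Topology
open Crest.Agent.T157.E Crest.Agent.T157.Casc Crest.Agent.T157.SL Crest.Agent.T157.Pf
open Crest.Agent.T156.Cas Crest.Agent.T156.Cas.Lp12 Crest.Agent.T156.Alt.Md67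

variable {S : Sc} {M : Md} {m : ℕ} {a : ℝ}

theorem log_sq {r : ℕ} (hr : r ≠ 0) : ∃ Y : ℝ, ∀ (LL : ℕ) (lam : ℝ), Y ≤ lam →
    2 ^ (LL + 3) ≤ lam ^ r → ((LL : ℝ) + 2) ^ 2 ≤ lam := by
  obtain ⟨y, hy⟩ := eventually_atTop.1 ((tendsto_pow_const_div_const_pow_of_one_lt (2 * r)
    (one_lt_two (α := ℝ))).eventually_le_const one_pos)
  refine ⟨(y : ℝ) ^ 2, fun LL lam h1 h2 => ?_⟩
  rcases le_total y (LL + 2) with h | h
  · have e := hy _ h
    rw [div_le_one (by positivity), pow_mul] at e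
    push_cast at e
    refine (pow_le_pow_iff_left₀ (by positivity) (le_trans (by positivity) h1) hr).1
      (e.trans (le_trans ?_ h2))
    exact pow_le_pow_right₀ one_le_two (by omega)
  · refine le_trans (pow_le_pow_left₀ (by positivity) ?_ 2) h1
    exact_mod_cast h

theorem rP_nonneg (k : ℕ) (q : Pth (Cube m)) : 0 ≤ M.rP m a k q := by
  unfold Md.rP QCas98.rP Sy41.rr
  positivity

theorem iP_nonneg (k k' : ℕ) (q : Pth (Cube m)) : 0 ≤ M.iP m a k k' q := by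
  unfold Md.iP QCas98.iP
  positivity

theorem ep_rP (k : ℕ) : EP (M.rP m a k) := QCas98.ep_rP Link33.wt1 _

theorem mo_one (hm : 0 < m) (p k : ℕ) : M.Mo m a p (M.rP m a k) 1 :=
  Mo.bdd Link33.wt1 (ep_rP k) fun q => by
    rw [abs_of_nonneg (rP_nonneg k q)]
    exact Q33.rr_le Link33.wt1 _ (fun x => by rw [Q33.sl_cov hm, Q33.ov_self hm]) _

theorem mo_anti {p k k' : ℕ} {B : ℝ} (hk : k ≤ k') (H : M.Mo m a p (M.rP m a k') B) :
    M.Mo m a p (M.rP m a k) B := QCas98.mo_rP_mono Link33.wt1 (Nat.succ_le_succ hk) H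

/-- increments against overlaps -/
theorem mo_iP {p k k' : ℕ} {B B' : ℝ} (H : M.Mo m a p (M.rP m a k) B)
    (H' : M.Mo m a p (M.rP m a k') B') : M.Mo m a p (M.iP m a k k') (2 * B + 2 * B') := by
  refine ((H.const_mul' zero_le_two).add Link33.wt1 (H'.const_mul' zero_le_two)).of_le' Link33.wt1
    (QCas98.ep_iP Link33.wt1 _ _) fun q => ?_
  rw [abs_of_nonneg (iP_nonneg k k' q)]
  simp only [Md.iP, Md.rP, QCas98.iP, QCas98.rP, Sy41.rr, mul_sum, ← sum_add_distrib]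
  exact sum_le_sum fun i _ => by
    nlinarith [sq_nonneg (Sy41.mv (fun _ => 1) ((M.L m a).drop (k' + 1)) (Q33.sl m) (q (k' + 1)) i +
      Sy41.mv (fun _ => 1) ((M.L m a).drop (k + 1)) (Q33.sl m) (q (k + 1)) i)]

namespace Fn

variable (F : Fn S M m a)
include F

theorem fine' (hA : 2 ≤ S.A) {Y : ℝ} (hY : Y * S.C ≤ S.n) : Y * S.v ≤ M.z 0 := by
  have n1 := F.n1
  have v0 := F.v0
  have b1 : S.v * (S.n : ℝ) ^ 2 ≤ S.C :=
    (mul_le_mul_of_nonneg_left (pow_le_pow_right₀ n1 hA) v0.le).trans F.v2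
  have b2 : Y * S.v ≤ (S.n : ℝ)⁻¹ := by
    rcases le_total Y 0 with h | h
    · exact (mul_nonpos_of_nonpos_of_nonneg h v0.le).trans (by positivity)
    rw [← one_div, le_div_iff₀ (by positivity)]
    refine le_of_mul_le_mul_right ?_ (by positivity : (0 : ℝ) < S.n)
    nlinarith [mul_le_mul_of_nonneg_left b1 h]
  have b3 : (S.n : ℝ)⁻¹ ≤ (S.n : ℝ) ^ (-(1 : ℝ) / 6) := by
    rw [← rpow_neg_one]
    exact rpow_le_rpow_of_exponent_le n1 (by norm_num)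
  linarith [F.a1, F.a2, F.leg.z0]

theorem w3_anti {t T : ℝ} (ht : 0 < t) (h : t ≤ T) : S.w3 T ≤ S.w3 t := by
  have := F.ms_pos ht.le
  have := F.n1
  have := F.msm h
  have := ht.trans_le h
  have := F.F0
  unfold Sc.w3
  gcongr

theorem w3_le {t T : ℝ} (ht : 0 < t) (h : t ≤ T) (hw : S.w3 t ≤ t ^ 3) : S.w3 T ≤ T ^ 3 :=
  (F.w3_anti ht h).trans (hw.trans (pow_le_pow_left₀ ht.le h 3))

/-- a block of the level `T` above the node `k` -/
theorem exists_blk {T : ℝ} {k : ℕ} (hz : M.z k ≤ T) (hs : M.s S.jl ≤ T) (hw : S.w3 T ≤ T ^ 3)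
    (hT : 27 * S.C ^ 5 * T < 1) : ∃ b : ℕ, k ≤ b ∧ S.jl < b ∧ 3 * b < S.J ∧ 2 * T ≤ b * S.v ∧
      QB (27 * S.C ^ 4) S M T b (3 * b) := by
  have v0 := F.v0
  have C0 := F.C0
  have C1 := F.C1
  have i1 := F.i1
  have i2 := F.i2
  have T0 : 0 < T := (F.z_pos k).trans_le hz
  have C2 : S.C ≤ S.C ^ 2 := le_self_pow₀ C1 two_ne_zero
  have vT : S.v ≤ S.C ^ 2 * T :=
    ((le_mul_of_one_le_left v0.le C1).trans (F.fine.trans ((F.leg.zm (Nat.zero_le k)).trans hz))).trans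
      (le_mul_of_one_le_left T0.le (C1.trans C2))
  set b := ⌈2 * S.C ^ 2 * T / S.v⌉₊ with hb
  have b1 : 2 * S.C ^ 2 * T ≤ b * S.v := (div_le_iff₀ v0).1 (Nat.le_ceil _)
  have b2 : b * S.v ≤ 3 * S.C ^ 2 * T := by
    have := mul_le_mul_of_nonneg_right
      (Nat.ceil_lt_add_one (by positivity : 0 ≤ 2 * S.C ^ 2 * T / S.v)).le v0.le
    rw [add_mul, div_mul_cancel₀ _ v0.ne'] at this
    linarith
  have le_b : ∀ j : ℕ, j * S.v ≤ 2 * S.C ^ 2 * T → j ≤ b := fun j hj => by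
    exact_mod_cast le_of_mul_le_mul_right (hj.trans b1) v0
  have bl : S.jl + 1 ≤ b := le_b _ (by
    push_cast
    nlinarith [(F.s_mem (k := S.jl) (by omega)).1, mul_le_mul_of_nonneg_left hs C0.le,
      mul_le_mul_of_nonneg_right C2 T0.le])
  have bJ : 3 * b < S.J := by
    by_contra h
    have a0 : (S.J : ℝ) ≤ 3 * b := by exact_mod_cast not_lt.1 h
    have a1 : S.J * S.v ≤ 9 * S.C ^ 2 * T := by nlinarith [mul_le_mul_of_nonneg_right a0 v0.le]
    nlinarith [F.J_lo, mul_le_mul_of_nonneg_left a1 (by positivity : 0 ≤ 3 * S.C ^ 3)]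
  have kb : k ≤ b := by
    rcases lt_or_ge k S.j0 with h | h
    · omega
    have kJ : k < S.J := by
      by_contra h'
      have e1 := (F.z_top (k := k) (by omega)).trans (mul_le_mul_of_nonneg_left hz C0.le)
      have e2 : S.C ≤ S.C ^ 5 := le_self_pow₀ C1 (by norm_num)
      nlinarith [mul_le_mul_of_nonneg_right e2 T0.le]
    exact le_b _ ((F.z_lo h kJ).trans (mul_le_mul_of_nonneg_left hz (by positivity)))
  refine ⟨b, kb, bl, bJ, by nlinarith [mul_le_mul_of_nonneg_right (C1.trans C2) T0.le], T0,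
    by omega, by omega, by have := F.i3; omega, ?_, ?_, hw⟩
  · have e1 := (F.s_mem (k := b) (by omega)).1
    have e2 : T ≤ M.s b := by
      refine le_of_mul_le_mul_left ?_ C0
      nlinarith [mul_le_mul_of_nonneg_right C2 T0.le]
    exact e2.trans (le_mul_of_one_le_left (F.s_nonneg b) (by nlinarith [one_le_pow₀ (n := 4) C1]))
  · have e1 := F.z_hi (k := 3 * b) (by omega) bJ
    push_cast at e1
    nlinarith [mul_le_mul_of_nonneg_left b2 (by positivity : 0 ≤ 9 * S.C ^ 2)]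

end Fn

theorem QB.sub {K t : ℝ} {k0 k1 a0 a1 : ℕ} (H : Cl S M) (hK : 0 ≤ K) (B : QB K S M t k0 k1)
    (h0 : k0 ≤ a0) (h : a0 ≤ a1) (h1 : a1 ≤ k1) : QB K S M t a0 a1 :=
  ⟨B.t0, B.k0l.trans h0, h, h1.trans B.k1p,
    B.lo.trans (mul_le_mul_of_nonneg_left (H.sm h0) hK), (H.leg.zm h1).trans B.hi, B.wt⟩

/-- large size: the loss `lam` dominates the constants, `lam ^ r` the polynomial sizes -/
structure Bg (S : Sc) (M : Md) (m : ℕ) (a : ℝ) (r r' : ℕ) (X lam : ℝ) : Prop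
    extends Fn S M m a where
  hr : 27 * S.C ^ 4 ≤ 2 ^ r'
  hX : 2016 * (27 * S.C ^ 4) ^ 3 * S.C ^ 14 * 4 ^ r' ≤ X
  fin2 : 16 * (27 * S.C ^ 4) * (r + 3) * S.v ≤ M.z 0
  pol : 8 * S.C * (S.n : ℝ) ^ (S.A + 1) ≤ lam ^ r
  lg2 : ∀ LL : ℕ, 2 ^ (LL + 3) ≤ lam ^ r → ((LL : ℝ) + 2) ^ 2 ≤ lam
  big : 4 * (r + 3) ^ 2 * X ^ 5 ≤ lam

namespace Bg

variable {r r' : ℕ} {X lam : ℝ} (G : Bg S M m a r r' X lam)
include G

theorem K1 : 1 ≤ 27 * S.C ^ 4 := by nlinarith [one_le_pow₀ (n := 4) G.C1]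

theorem mn {c : ℝ} {i j : ℕ} (hc : c ≤ 2016) (hi : i ≤ 3) (hj : j ≤ 14) :
    c * (27 * S.C ^ 4) ^ i * S.C ^ j ≤ X :=
  (mon G.K1 G.C1 (one_le_pow₀ (by norm_num)) G.hX hc hi hj).2

theorem X1 : 1 ≤ X := by
  simpa using G.mn (c := 1) (i := 0) (j := 0) (by norm_num) (by norm_num) (by norm_num)

theorem Xl : X ^ 5 ≤ lam := by
  have := G.X1
  refine le_trans (le_mul_of_one_le_left (by positivity) ?_) G.big
  nlinarith [(Nat.cast_nonneg r : (0 : ℝ) ≤ r)]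

theorem Xl' : X ≤ lam := (le_self_pow₀ G.X1 (by norm_num)).trans G.Xl

theorem l1 : 1 ≤ lam := G.X1.trans G.Xl'

end Bg

/-- the middle node of a block above `k` -/
theorem mo_blk' (r i : ℕ) (X : ℝ) (hi : 1 ≤ i) (hr : r ≤ i) : ∃ Y : ℝ, ∀ (S : Sc) (M : Md) (m : ℕ)
    (a : ℝ) (r' : ℕ) (lam Λ₀ t T : ℝ) (k k0 : ℕ), Bg S M m a r r' X lam → Y ≤ lam →
    Crude Λ₀ S M m a t k0 → k0 ≤ max k S.jl → t ≤ T → M.z k ≤ T → M.s S.jl ≤ T → S.w3 T ≤ T ^ 3 → X * T < 1 →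
    ∃ b : ℕ, k ≤ b ∧ 3 * b < S.J ∧ QB (27 * S.C ^ 4) S M T b (3 * b) ∧
      M.Mo m a (2 ^ i) (M.rP m a (2 * b)) (lam ^ 6 * Λ₀ * T) := by
  obtain ⟨Y, -, H⟩ := QCas98.ub_out r i (X ^ 2) hi hr
  refine ⟨Y, fun S M m a r' lam Λ₀ t T k k0 G hY hc hk0 htT hz hs hw hT => ?_⟩
  have F := G.toFn
  have v0 := F.v0
  have C0 := F.C0
  have C1 := F.C1
  have n1 := F.n1
  have K1 := G.K1
  have X1 := G.X1
  have l1 := G.l1
  have L1 := hc.1
  have T0 : 0 < T := (F.z_pos k).trans_le hz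
  have T1 : T ≤ 1 := by nlinarith
  have w0 := F.w3_pos T0
  have r0 : (0 : ℝ) ≤ r := Nat.cast_nonneg r
  obtain ⟨b, kb, bl, bJ, bv, B⟩ := F.exists_blk hz hs hw (lt_of_le_of_lt (mul_le_mul_of_nonneg_right
    ((by ring : 27 * S.C ^ 5 = 1 * (27 * S.C ^ 4) ^ 1 * S.C ^ 1).trans_le
      (G.mn (by norm_num) (by norm_num) (by norm_num))) T0.le) hT)
  refine ⟨b, kb, bJ, B, ?_⟩
  set K := 27 * S.C ^ 4 with hK
  obtain ⟨LL, u1, u2⟩ := exists_nat_pow_near (x := T / (16 * K * (r + 3) * S.v)) (y := (2 : ℝ))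
    ((one_le_div (by positivity)).2 (G.fin2.trans ((F.leg.zm (Nat.zero_le k)).trans hz))) one_lt_two
  rw [le_div_iff₀ (by positivity)] at u1
  rw [div_lt_iff₀ (by positivity)] at u2
  set u := (2 : ℝ) ^ LL * (16 * K * S.v) with hu
  have u0 : 0 < u := by positivity
  have u3 : (r + 3) * u ≤ T := u1.trans_eq' (by rw [hu]; ring)
  have u4 : T ≤ 2 * (r + 3) * u := u2.le.trans_eq (by rw [hu]; ring)
  have u5 : u ≤ T := by nlinarith
  obtain ⟨t', j2, R⟩ := F.ric B K1 G.hr G.hX u5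
  have nA : (1 : ℝ) ≤ (S.n : ℝ) ^ S.A := one_le_pow₀ n1
  have nA' : (S.n : ℝ) ^ S.A ≤ (S.n : ℝ) ^ (S.A + 1) := pow_le_pow_right₀ n1 (Nat.le_succ _)
  have p0 : 8 ≤ S.v * lam ^ r := by
    have e1 := F.v1
    rw [div_le_iff₀ C0] at e1
    have e2 : 8 * S.C * (S.n : ℝ) ^ S.A ≤ lam ^ r := le_trans (by gcongr) G.pol
    nlinarith [mul_le_mul_of_nonneg_left e2 v0.le]
  have lr0 : 0 < lam ^ r := by positivity
  have vv : S.v ≤ 16 * K * S.v := le_mul_of_one_le_left v0.le (by linarith)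
  have p2 : (2 : ℝ) ^ (LL + 3) ≤ lam ^ r := by
    refine le_of_mul_le_mul_right ?_ v0
    have : (2 : ℝ) ^ LL * S.v ≤ u := mul_le_mul_of_nonneg_left vv (by positivity)
    rw [pow_add]
    nlinarith
  have P : QCas98.Pol r LL (3 * b + 1) (16 * K * S.v) lam := by
    refine ⟨by nlinarith [mul_le_mul_of_nonneg_right vv lr0.le], p2, ?_⟩
    have e1 : ((3 * b + 1 : ℕ) : ℝ) ≤ M.N := by
      exact_mod_cast (by have := F.i3; have := F.i4; omega : 3 * b + 1 ≤ M.N)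
    nlinarith [F.card, G.pol, mul_le_mul_of_nonneg_right C1 (zero_le_one.trans (nA.trans nA'))]
  have lg := G.lg2 LL p2
  have hl : lam * T ≤ lam ^ 3 * Λ₀ * T := by
    gcongr
    exact (le_self_pow₀ l1 (by norm_num)).trans (le_mul_of_one_le_right (by positivity) L1)
  have i1 := F.i1
  have b0 := B.k0l
  have U : QCas98.UB (fun _ => 1) (M.L m a) 0 (Q33.sl m) LL (b + 1) (3 * b + 1) (2 ^ LL) (T / X)
      (16 * K * S.v) (X * S.w3 T) (X ^ 2) lam (lam ^ 3 * Λ₀ * T) fun _ => 0 := by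
    refine ⟨by omega, by omega, Nat.one_le_two_pow, le_rfl, ?_, fun _ _ _ => ⟨le_rfl, by positivity⟩,
      le_rfl, zero_le_two, by rw [zero_mul]; positivity, fun j h0 h1 => ?_, fun j h0 h1 => ?_, ?_,
      Or.inr ?_⟩
    · push_cast
      exact u5.trans ((le_mul_of_one_le_left T0.le l1).trans hl)
    · obtain ⟨j, rfl⟩ : ∃ i, j = i + 1 := ⟨j - 1, by omega⟩
      rw [← rb_eq (Q33.sl_cov F.lg.m0), sub_zero, abs_of_nonneg (rb_nonneg F.lg.m0 j)]
      have e1 : max (M.z j) t ≤ lam ^ 3 * T := by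
        have e2 : K ≤ lam ^ 3 := by
          have := G.mn (c := 1) (i := 1) (j := 0) (by norm_num) (by norm_num) (by norm_num)
          simp only [one_mul, pow_one, pow_zero, mul_one] at this
          exact this.trans (G.Xl'.trans (le_self_pow₀ l1 (by norm_num)))
        exact max_le (((F.leg.zm (by omega)).trans B.hi).trans
          (mul_le_mul_of_nonneg_right e2 T0.le))
          (htT.trans (le_mul_of_one_le_left T0.le (one_le_pow₀ l1)))
      exact (hc.2 j (by omega) (by have := B.k1p; omega)).trans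
        ((mul_le_mul_of_nonneg_left e1 (by positivity)).trans_eq (by ring))
    · obtain ⟨j, rfl⟩ : ∃ i, j = i + 2 := ⟨j - 2, by have := F.i0; omega⟩
      rw [dm_succ, dz_succ F.leg]
      have e1 := (F.zs j (by omega) (by omega)).1
      rw [div_le_iff₀' C0] at e1
      have e2 := (G.mn (c := 16) (i := 1) (j := 1) (by norm_num) (by norm_num) (by norm_num)).trans
        (le_self_pow₀ X1 two_ne_zero)
      calc _ ≤ 16 * K * (S.C * (M.z (j + 1) - M.z j)) := by gcongr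
        _ = 16 * K ^ 1 * S.C ^ 1 * (M.z (j + 1) - M.z j) := by ring
        _ ≤ _ := mul_le_mul_of_nonneg_right e2 (sub_nonneg.2 (F.leg.zm j.le_succ))
    · push_cast
      have e1 : lam * (X * S.w3 T) / (T / X) ≤ lam * X ^ 2 * T ^ 2 := by
        rw [div_le_iff₀ (by positivity)]
        calc _ ≤ lam * (X * T ^ 3) := by gcongr
          _ = _ := by field_simp
      have e2 : X ^ 2 * (2 * (r + 3)) ≤ lam := by
        have : X ^ 2 ≤ X ^ 5 := pow_le_pow_right₀ X1 (by norm_num)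
        refine le_trans ?_ G.big
        rw [mul_comm]
        exact mul_le_mul (by nlinarith) this (by positivity) (by positivity)
      calc _ ≤ lam * (lam * X ^ 2 * T ^ 2) := mul_le_mul lg e1 (by positivity) (by positivity)
        _ = lam ^ 2 * T * (X ^ 2 * T) := by ring
        _ ≤ lam ^ 2 * T * (X ^ 2 * (2 * (r + 3) * u)) := by gcongr
        _ = lam ^ 2 * T * (X ^ 2 * (2 * (r + 3))) * u * 1 := by ring
        _ ≤ lam ^ 2 * T * lam * u * Λ₀ := by gcongr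
        _ = _ := by rw [hu]; ring
    · push_cast
      calc _ ≤ lam * (lam * X ^ 2 * (X * T ^ 3)) * X ^ 2 := by gcongr
        _ = lam ^ 2 * T * (X ^ 5 * T ^ 2) := by ring
        _ ≤ lam ^ 2 * T * (X ^ 5 * (2 * (r + 3) * u) ^ 2) := by gcongr
        _ = lam ^ 2 * T * (4 * (r + 3) ^ 2 * X ^ 5) * u ^ 2 * 1 := by ring
        _ ≤ lam ^ 2 * T * lam * u ^ 2 * Λ₀ := by gcongr; exact G.big
        _ = _ := by rw [hu]; ring
  have mg : (r + 3) * (8 * 2 ^ LL) ≤ b := by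
    have e1 : (((r + 3) * (8 * 2 ^ LL) : ℕ) : ℝ) * S.v ≤ (r + 3) * u := by
      push_cast
      rw [hu, mul_assoc]
      refine mul_le_mul_of_nonneg_left ?_ (by positivity)
      nlinarith [mul_le_mul_of_nonneg_left vv (by positivity : (0 : ℝ) ≤ 2 ^ LL),
        mul_le_mul_of_nonneg_right K1 (by positivity : (0 : ℝ) ≤ 2 ^ LL * S.v)]
    exact_mod_cast le_of_mul_le_mul_right (e1.trans (u3.trans (by linarith : T ≤ b * S.v))) v0
  have key := (H _ _ _ _ _ _ t' LL _ _ j2 _ (2 * b + 1) (2 * b + 1) _ _ _ lam _ _ (dat F.lg) R hY P U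
    (by omega) (by omega)).1.loc _ le_rfl le_rfl
  exact (key.congr fun q => (sub_zero _).symm).mono (le_of_eq (by ring))

theorem mo_blk (r i : ℕ) (X : ℝ) (hi : 1 ≤ i) (hr : r ≤ i) : ∃ Y : ℝ, ∀ (S : Sc) (M : Md) (m : ℕ)
    (a : ℝ) (r' : ℕ) (lam Λ₀ t T : ℝ) (k : ℕ), Bg S M m a r r' X lam → Y ≤ lam →
    Crude Λ₀ S M m a t S.jl → t ≤ T → M.z k ≤ T → M.s S.jl ≤ T → S.w3 T ≤ T ^ 3 → X * T < 1 →
    ∃ b : ℕ, k ≤ b ∧ 3 * b < S.J ∧ QB (27 * S.C ^ 4) S M T b (3 * b) ∧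
      M.Mo m a (2 ^ i) (M.rP m a (2 * b)) (lam ^ 6 * Λ₀ * T) :=
  (mo_blk' r i X hi hr).imp fun _ H S M m a r' lam Λ₀ t T k G hY hc =>
    H S M m a r' lam Λ₀ t T k _ G hY hc (le_max_right _ _)

/-- crude moments above `k0` from the crude location above `k0` -/
theorem mo_up (r i : ℕ) (X : ℝ) (hi : 1 ≤ i) (hr : r ≤ i) : ∃ Y : ℝ, ∀ (S : Sc) (M : Md) (m : ℕ)
    (a : ℝ) (r' : ℕ) (lam Λ₀ t : ℝ) (k0 : ℕ), Bg S M m a r r' X lam → Y ≤ lam →
    Crude Λ₀ S M m a t k0 → S.jl ≤ k0 → 0 < t → S.w3 t ≤ t ^ 3 → ∀ k, k0 ≤ k → k ≤ S.Jp →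
      M.Mo m a (2 ^ i) (M.rP m a k) (lam ^ 7 * Λ₀ * max (M.z k) t) := by
  obtain ⟨Y, H⟩ := mo_blk' r i X hi hr
  refine ⟨Y, fun S M m a r' lam Λ₀ t k0 G hY hc h0 t0 hw k hk hp => ?_⟩
  have F := G.toFn
  have l1 := G.l1
  have L1 := hc.1
  have c1 : 1 ≤ 2 * S.C ^ 2 := by nlinarith [one_le_pow₀ (n := 2) F.C1]
  have c2 : 2 * S.C ^ 2 ≤ lam := by
    have := G.mn (c := 2) (i := 0) (j := 2) (by norm_num) (by norm_num) (by norm_num)
    rw [pow_zero, mul_one] at this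
    exact this.trans G.Xl'
  have tT : t ≤ max (M.z k) t := le_max_right _ _
  have T0 := t0.trans_le tT
  have T1 := le_mul_of_one_le_left T0.le c1
  have e : lam ^ 6 * Λ₀ * (2 * S.C ^ 2 * max (M.z k) t) ≤ lam ^ 7 * Λ₀ * max (M.z k) t :=
    calc _ ≤ lam ^ 6 * Λ₀ * (lam * max (M.z k) t) := by gcongr
      _ = _ := by ring
  rcases le_or_gt 1 (X * (2 * S.C ^ 2 * max (M.z k) t)) with hT | hT
  · refine (mo_one F.lg.m0 _ k).mono (hT.trans (le_trans ?_ e))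
    exact mul_le_mul_of_nonneg_right ((G.Xl'.trans (le_self_pow₀ l1 (by norm_num))).trans
      (le_mul_of_one_le_right (by positivity) L1)) (T0.le.trans T1)
  · obtain ⟨b, kb, -, -, h⟩ := H S M m a r' lam Λ₀ t _ k k0 G hY hc (by omega) (tT.trans T1)
      ((le_max_left _ _).trans T1) ((F.sm (h0.trans hk)).trans ((F.s_le_z' (F.i1.trans (h0.trans hk))
        hp).trans (mul_le_mul_of_nonneg_left (le_max_left _ _) (by positivity))))
      (F.w3_le t0 (tT.trans T1) hw) hT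
    exact (mo_anti (by omega) h).mono e

section low
variable {r r' i : ℕ} {X lam Λ₀ t : ℝ} (G : Bg S M m a r r' X lam) (hc : Crude Λ₀ S M m a t S.jl)
  (t0 : 0 < t) (hs : M.s S.jl ≤ t) (hw : S.w3 t ≤ t ^ 3)
  (H : ∀ (T : ℝ) (k : ℕ), t ≤ T → M.z k ≤ T → M.s S.jl ≤ T → S.w3 T ≤ T ^ 3 → X * T < 1 →
    ∃ b : ℕ, k ≤ b ∧ 3 * b < S.J ∧ QB (27 * S.C ^ 4) S M T b (3 * b) ∧
      M.Mo m a (2 ^ i) (M.rP m a (2 * b)) (lam ^ 6 * Λ₀ * T))
include G hc t0 hs hw H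

theorem low_top {T : ℝ} (hT : 1 ≤ X * T) (ht : t ≤ T) : 1 ≤ lam ^ 6 * Λ₀ * T :=
  hT.trans (mul_le_mul_of_nonneg_right ((G.Xl'.trans (le_self_pow₀ G.l1 (by norm_num))).trans
    (le_mul_of_one_le_right (pow_nonneg (zero_le_one.trans G.l1) 6) hc.1)) (t0.le.trans ht))

/-- **crude moments of the path overlap** -/
theorem low_mo (k : ℕ) : M.Mo m a (2 ^ i) (M.rP m a k) (lam ^ 6 * Λ₀ * max (M.z k) t) := by
  rcases le_or_gt 1 (X * max (M.z k) t) with hT | hT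
  · exact (mo_one G.toFn.lg.m0 _ k).mono (low_top G hc t0 hs hw H hT (le_max_right _ _))
  · obtain ⟨b, kb, -, -, h⟩ := H _ k (le_max_right _ _) (le_max_left _ _)
      (hs.trans (le_max_right _ _)) (G.toFn.w3_le t0 (le_max_right _ _) hw) hT
    exact mo_anti (by omega) h

/-- **crude moments of the pair overlap** -/
theorem low_pair {p : ℕ} (hp : 2 * p ≤ 2 ^ i) (hl : 9 + 8 * LpR43.cK p * X ≤ lam) (k : ℕ) :
    M.E2 m a (fun R => R ^ (2 * p)) k ≤ (lam ^ 7 * Λ₀ * max (M.z k) t) ^ (2 * p) := by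
  have F := G.toFn
  have l1 := G.l1
  have X1 := G.X1
  have L1 := hc.1
  have K1 := G.K1
  set T := max (M.z k) t with hT
  have tT : t ≤ T := le_max_right _ _
  have T0 := t0.trans_le tT
  have top : 1 ≤ lam ^ 7 * Λ₀ * T ∨ p = 0 →
      M.E2 m a (fun R => R ^ (2 * p)) k ≤ (lam ^ 7 * Λ₀ * T) ^ (2 * p) := fun h => by
    refine (E2_le (c := 1) (fun R hR => ?_) k).trans ?_
    · rw [← (even_two_mul p).pow_abs]; exact pow_le_one₀ (abs_nonneg R) hR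
    · rcases h with h | rfl
      exacts [one_le_pow₀ h, by simp]
  rcases Nat.eq_zero_or_pos p with p0 | p0
  · exact top (Or.inr p0)
  rcases le_or_gt 1 (X * T) with h | h
  · refine top (Or.inl ((low_top G hc t0 hs hw H h tT).trans ?_))
    gcongr
    norm_num
  have wT := F.w3_le t0 tT hw
  obtain ⟨b, kb, bJ, B, hb⟩ := H T k tT (le_max_left _ _) (hs.trans tT) wT h
  set Λ := lam ^ 6 * Λ₀ with hΛ
  have Λ1 : 1 ≤ Λ := one_le_mul_of_one_le_of_one_le (one_le_pow₀ l1) L1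
  obtain ⟨k', u, θ, ρ, U, h1, h2⟩ := F.up (p := p)
    (QB.sub F.toCl (by positivity) B (by omega : b ≤ 2 * b) le_rfl (by omega)) K1 G.hr G.hX Λ1
    fun j _ _ => ((low_mo G hc t0 hs hw H j).lyap Link33.wt1 (by omega)).mono
      (mul_le_mul_of_nonneg_left (max_le_max le_rfl tT) (by positivity))
  have W := (F.win_dy (l := 0) (QB.sub F.toCl (by positivity) B le_rfl le_rfl (by omega)) K1 G.hr
    G.hX (by omega)).anti (Nat.succ_le_succ kb)
  rw [zero_add, pow_one, pow_one] at W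
  have hb' := hb.lyap Link33.wt1 hp
  have c1 := LpR43.one_le_cK p
  have key := QCas98.pair_up (q := 0) (dat F.lg) U le_rfl W W (zero_lt_one.trans_le c1)
    (le_self_pow₀ c1 (by omega)) (hb'.congr fun q => sub_zero _)
    (mo_iP (mo_anti (by omega : k ≤ 2 * b) hb') hb')
  simp only [Q33.sl_cov F.lg.m0, sub_zero] at key
  refine key.trans (pow_le_pow_left₀ ?_ ?_ _)
  · have : 0 ≤ ∑ l ∈ range k', √(θ (l + 1) * ρ (l + 1)) := sum_nonneg fun _ _ => sqrt_nonneg _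
    positivity
  have w0 := F.w3_pos T0
  have e0 : Λ * S.w3 T / T ≤ (Λ * T) ^ 2 := by
    rw [div_le_iff₀ T0]
    calc _ ≤ Λ ^ 2 * T ^ 3 := mul_le_mul (le_self_pow₀ Λ1 two_ne_zero) wT w0.le (by positivity)
      _ = _ := by ring
  have e1 : √(Λ * S.w3 T / T) ≤ Λ * T := sqrt_le_iff.2 ⟨by positivity, e0⟩
  have e2 : √(X * 4 * S.w3 T / (T ^ 2 * 8) * ρ 0) ≤ X * (Λ * T) := by
    refine sqrt_le_iff.2 ⟨by positivity, ?_⟩
    calc _ ≤ X * 4 * S.w3 T / (T ^ 2 * 8) * (2 * X * Λ * T) := by gcongr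
      _ = X ^ 2 * (Λ * S.w3 T / T) := by field_simp; ring
      _ ≤ X ^ 2 * (Λ * T) ^ 2 := by gcongr
      _ = _ := by ring
  have e3 := h2.trans (mul_le_mul_of_nonneg_left e1 (by positivity))
  calc _ ≤ Λ * T + 2 * (2 * (Λ * T) + 2 * (Λ * T)) +
        2 * LpR43.cK p * (2 * (X * (Λ * T)) + 2 * X * (Λ * T)) := by gcongr
    _ = (9 + 8 * LpR43.cK p * X) * (Λ * T) := by ring
    _ ≤ lam * (Λ * T) := by gcongr
    _ = _ := by rw [hΛ]; ring

end low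

/-- large sizes are `Bg` with the loss `n ^ η` -/
theorem ev_bg (C : ℝ) {A : ℕ} (hA : 2 ≤ A) {η : ℝ} (hη : 0 < η) : ∃ (r r' : ℕ) (X : ℝ), r ≠ 0 ∧
    ∀ Y : ℝ, ∀ᶠ n : ℕ in atTop, Y ≤ (n : ℝ) ^ η ∧ ∀ (S : Sc) (M : Md), S.C = C → S.A = A →
      S.n = n → Cl S M → ∀ m a, S.In m a → Bg S M m a r r' X ((n : ℝ) ^ η) := by
  obtain ⟨r', hr'⟩ := pow_unbounded_of_one_lt (27 * C ^ 4) (one_lt_two (α := ℝ))
  obtain ⟨r, hr⟩ := exists_nat_gt (((A : ℝ) + 2) / η)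
  have r0 : r ≠ 0 := by
    rintro rfl
    exact absurd hr (not_lt.2 (by rw [Nat.cast_zero]; positivity))
  obtain ⟨Y₀, hY⟩ := log_sq r0
  have ev : ∀ Y : ℝ, ∀ᶠ n : ℕ in atTop, Y ≤ (n : ℝ) ^ η := fun Y =>
    ((tendsto_rpow_atTop hη).comp tendsto_natCast_atTop_atTop).eventually_ge_atTop Y
  refine ⟨r, r', 2016 * (27 * C ^ 4) ^ 3 * C ^ 14 * 4 ^ r', r0, fun Y => ?_⟩
  filter_upwards [ev_fn C hA, ev Y, ev Y₀,
    ev (4 * (r + 3) ^ 2 * (2016 * (27 * C ^ 4) ^ 3 * C ^ 14 * 4 ^ r') ^ 5),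
    tendsto_natCast_atTop_atTop.eventually_ge_atTop (8 * C),
    tendsto_natCast_atTop_atTop.eventually_ge_atTop (16 * (27 * C ^ 4) * (r + 3) * C)]
    with n H h1 h2 h3 h4 h5
  refine ⟨h1, fun S M e1 e2 e3 h m a I => ?_⟩
  have F := H S M e1 e2 e3 h m a I
  subst e1 e2 e3
  refine ⟨F, hr'.le, le_rfl, F.fine' hA h5, ?_, fun LL => hY LL _ h2, h3⟩
  have n1 := F.n1
  calc _ ≤ (S.n : ℝ) * (S.n : ℝ) ^ (S.A + 1) := by gcongr
    _ = (S.n : ℝ) ^ ((S.A + 2 : ℕ) : ℝ) := by rw [rpow_natCast]; ring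
    _ ≤ _ := by
      rw [← rpow_mul_natCast (by positivity)]
      refine rpow_le_rpow_of_exponent_le n1 ?_
      rw [div_lt_iff₀' hη] at hr
      push_cast
      exact hr.le

theorem qLowS : QLowS := fun p C => by
  filter_upwards [eventually_ge_atTop 2] with A hA ε _ η hη
  obtain ⟨r, r', X, r0, H⟩ := ev_bg C hA (by positivity : 0 < η / 7)
  obtain ⟨Y, hY⟩ := mo_blk r (r + 2 * p) X (by omega) (by omega)
  filter_upwards [H (max Y (9 + 8 * LpR43.cK p * X))] with n ⟨h1, h2⟩ S M e1 e2 e3 h m a I Λ₀ t t0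
    hs hw hc k _
  have G := h2 S M e1 e2 e3 h m a I
  have hp : 2 * p ≤ 2 ^ (r + 2 * p) :=
    le_trans (by omega) (Nat.lt_two_pow_self (n := r + 2 * p)).le
  have e : (n : ℝ) ^ η = ((n : ℝ) ^ (η / 7)) ^ 7 := by
    rw [← rpow_mul_natCast (Nat.cast_nonneg n)]; norm_num
  have hb := fun T k => hY S M m a r' _ Λ₀ t T k G ((le_max_left _ _).trans h1) hc
  rw [e]
  refine ⟨((low_mo G hc t0 hs hw hb k).lyap Link33.wt1 (by omega)).mono ?_,
    low_pair G hc t0 hs hw hb hp ((le_max_right _ _).trans h1) k⟩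
  have := G.l1
  have := hc.1
  have : 0 ≤ max (M.z k) t := t0.le.trans (le_max_right _ _)
  gcongr
  norm_num

end Crest.Agent.T156.Alt.C33

end
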