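import Crest.Agent.T156.LP_62
import Crest.Agent.T156.QLow_33
import Crest.Agent.T156.ClReg_29

/-!
# Row 156: the moment kit from its blocks, glue `MomG` (helper17)
-/

set_option autoImplicit false

noncomputable section

namespace Crest.Agent.T156.Alt.R62

open Real Finset Filter
open Crest.Agent.T156.Cas Crest.Agent.T156.Cas.Lp12 Crest.Agent.T156.Alt.Md67

namespace M17

theorem sum_cover {T I : Finset ℕ} {B : ℕ → Finset ℕ} {f : ℕ → ℝ} {c : ℝ} (hf : ∀ k, 0 ≤ f k)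
    (h : ∀ k ∈ T, ∃ i ∈ I, k ∈ B i) (hc : ∀ i ∈ I, ∑ k ∈ B i, f k ≤ c) :
    ∑ k ∈ T, f k ≤ I.card * c := by
  have a1 : ∑ k ∈ T, f k ≤ ∑ k ∈ T, ∑ i ∈ I, if k ∈ B i then f k else 0 :=
    sum_le_sum fun k hk => by
      obtain ⟨i, hi, hk⟩ := h k hk
      refine le_trans (le_of_eq (if_pos hk).symm) (single_le_sum
        (f := fun i => if k ∈ B i then f k else 0) (fun j _ => ?_) hi)
      split_ifs
      exacts [hf k, le_rfl]
  rw [sum_comm] at a1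
  refine a1.trans ((sum_le_card_nsmul _ _ c fun i hi => ?_).trans_eq (nsmul_eq_mul _ _))
  rw [← sum_filter]
  exact (sum_le_sum_of_subset_of_nonneg (fun k hk => (mem_filter.1 hk).2) fun k _ _ => hf k).trans
    (hc i hi)

theorem sum_sub2 {T A B : Finset ℕ} {f : ℕ → ℝ} (hf : ∀ k, 0 ≤ f k) (h : T ⊆ A ∪ B) :
    ∑ k ∈ T, f k ≤ ∑ k ∈ A, f k + ∑ k ∈ B, f k :=
  (sum_le_sum_of_subset_of_nonneg h fun k _ _ => hf k).trans
    (sum_union_inter.symm.ge.trans' (le_add_of_nonneg_right (sum_nonneg fun k _ => hf k)))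

variable {S : Sc} {M : Md} {m p : ℕ} {a : ℝ}

theorem dz_lo (G : Lg M m a) {T : Finset ℕ} {x : ℝ} (hx : 0 ≤ x) (z0 : 0 ≤ M.z 0)
    (h : ∀ k ∈ T, 0 < k ∧ M.z k ≤ x) : ∑ k ∈ T, M.dz m a k ≤ x := by
  rcases T.eq_empty_or_nonempty with rfl | hT
  · simpa using hx
  refine (sum_le_sum_of_subset_of_nonneg (t := Ioc 0 (T.max' hT)) (fun k hk =>
    mem_Ioc.2 ⟨(h k hk).1, T.le_max' k hk⟩) fun k _ _ => G.dz_nonneg k).trans ?_
  rw [sum_dz G.toLeg (Nat.zero_le _)]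
  linarith [(h _ (T.max'_mem hT)).2]

theorem dz_hi (G : Lg M m a) {T : Finset ℕ} {x : ℝ} (hx : 0 ≤ x)
    (h : ∀ k ∈ T, 0 < k ∧ k ≤ M.N ∧ 1 - M.z (k - 1) ≤ x) : ∑ k ∈ T, M.dz m a k ≤ x := by
  rcases T.eq_empty_or_nonempty with rfl | hT
  · simpa using hx
  obtain ⟨h1, h2, h3⟩ := h _ (T.min'_mem hT)
  refine (sum_le_sum_of_subset_of_nonneg (t := Ioc (T.min' hT - 1) M.N) (fun k hk =>
    mem_Ioc.2 ⟨by have := T.min'_le k hk; omega, (h k hk).2.1⟩) fun k _ _ => G.dz_nonneg k).trans ?_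
  rw [sum_dz G.toLeg (by omega), G.zN]
  exact h3

/-- both moment bounds at the node `k` -/
def Ok (M : Md) (m : ℕ) (a : ℝ) (p k : ℕ) (g : ℝ) : Prop :=
  M.E2 m a (fun R => (R - M.q k) ^ (2 * p)) k ≤ g ^ (2 * p) ∧
    M.Mo m a p (fun x => M.rP m a k x - M.q k) g

theorem Ok.mono {k : ℕ} {g g' : ℝ} (h : Ok M m a p k g) (e : g ≤ g') : Ok M m a p k g' :=
  ⟨h.1.trans (pow_le_pow_left₀ h.2.nn e _), h.2.mono e⟩

/-- the exact norm -/
def ex (M : Md) (m : ℕ) (a : ℝ) (p k : ℕ) : ℝ :=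
  max (M.E2 m a (fun R => (R - M.q k) ^ (2 * p)) k ^ (((2 * p : ℕ) : ℝ)⁻¹))
    (nr (fun _ => 1) (M.L m a) 0 p fun x => M.rP m a k x - M.q k)

theorem E_nn (k : ℕ) : 0 ≤ M.E2 m a (fun R => (R - M.q k) ^ (2 * p)) k :=
  E2_nonneg (fun r _ => by rw [pow_mul]; positivity) k

theorem ok_ex (hp : p ≠ 0) (k : ℕ) : Ok M m a p k (ex M m a p k) :=
  ⟨(rpow_inv_natCast_pow (E_nn k) (by omega)).ge.trans
    (pow_le_pow_left₀ (rpow_nonneg (E_nn k) _) (le_max_left _ _) _),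
    (mo_nr hp ((C33.ep_rP k).sub (EP.const _))).mono (le_max_right _ _)⟩

theorem Ok.ex_le (hp : p ≠ 0) {k : ℕ} {g : ℝ} (h : Ok M m a p k g) : ex M m a p k ≤ g :=
  max_le ((pow_le_pow_iff_left₀ (rpow_nonneg (E_nn k) _) h.2.nn (by omega : 2 * p ≠ 0)).1
    ((rpow_inv_natCast_pow (E_nn k) (by omega)).trans_le h.1)) (h.2.nr_le hp)

/-- from the uncentred bounds -/
theorem ok_of (hp : p ≠ 0) {k : ℕ} {D : ℝ} (h0 : 0 ≤ M.q k) (h1 : M.q k ≤ D)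
    (h2 : M.Mo m a p (M.rP m a k) D) (h3 : M.E2 m a (fun R => R ^ (2 * p)) k ≤ D ^ (2 * p)) :
    Ok M m a p k (2 * D) := by
  constructor
  · have e : ∀ r : ℝ, (r - M.q k) ^ (2 * p) ≤ 2 ^ (2 * p - 1) * (r ^ (2 * p) + D ^ (2 * p)) :=
      fun r => by
        have ev : Even (2 * p) := even_two_mul p
        rw [← ev.pow_abs, ← ev.pow_abs r]
        exact (pow_le_pow_left₀ (abs_nonneg _) ((abs_sub _ _).trans (add_le_add_right
          ((abs_of_nonneg h0).trans_le h1) _)) _).trans (add_pow_le (abs_nonneg r) h2.nn _)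
    refine (E2_mono (fun r _ => e r) k).trans ?_
    rw [E2_mul, E2_add, E2_const, mul_pow]
    have : (2 : ℝ) ^ (2 * p) = 2 ^ (2 * p - 1) * 2 := by
      rw [← pow_succ]; congr 1; omega
    rw [this, mul_assoc]
    exact mul_le_mul_of_nonneg_left (by linarith) (by positivity)
  · refine ((h2.add Link33.wt1 (Mo.const Link33.wt1 (-M.q k))).congr
      fun _ => sub_eq_add_neg _ _).mono ?_
    rw [abs_neg, abs_of_nonneg h0]
    linarith

theorem ok_two (h : Cl S M) (hm : 0 < m) (hp : p ≠ 0) {k : ℕ} (hk : k ≤ M.N) : Ok M m a p k 2 := by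
  simpa using ok_of hp (h.q_nn hk) (Cl.q_le_one k) (C33.mo_one hm p k) (E2_le (fun r hr => by
    rw [one_pow, ← (even_two_mul p).pow_abs]
    exact pow_le_one₀ (abs_nonneg r) hr) k)

/-- the majorant -/
def GG (S : Sc) (M : Md) (m : ℕ) (a : ℝ) (p k : ℕ) : ℝ := min 2 (max S.v (ex M m a p k))

theorem GG_pos (h : Cl S M) (k : ℕ) : 0 < GG S M m a p k :=
  lt_min two_pos (h.v0.trans_le (le_max_left _ _))

theorem GG_ok (h : Cl S M) (hm : 0 < m) (hp : p ≠ 0) {k : ℕ} (hk : k ≤ M.N) :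
    Ok M m a p k (GG S M m a p k) :=
  (ok_ex hp k).mono (le_min ((ok_two h hm hp hk).ex_le hp) (le_max_right _ _))

theorem GG_le (hp : p ≠ 0) {k : ℕ} {g : ℝ} (h : Ok M m a p k g) : GG S M m a p k ≤ max S.v g :=
  (min_le_right _ _).trans (max_le_max le_rfl (h.ex_le hp))

theorem GG_sum (h : Cl S M) (G : Lg M m a) {Γ : ℕ → ℝ} (Γ0 : ∀ k, 0 < Γ k) {T : Finset ℕ}
    {g : ℕ → ℝ} (i : ℕ) (hT : ∀ k ∈ T, 0 < k ∧ 0 ≤ g k ∧ Γ k ≤ max S.v (g k)) :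
    ∑ k ∈ T, M.dz m a k * Γ k ^ i ≤ S.v ^ i + ∑ k ∈ T, M.dz m a k * g k ^ i := by
  have v0 := h.v0
  have a1 := dz_lo G zero_le_one (h.z_pos 0).le fun k hk => ⟨(hT k hk).1, h.leg.z1 k⟩
  refine le_trans (sum_le_sum fun k hk => mul_le_mul_of_nonneg_left
    (?_ : _ ≤ S.v ^ i + g k ^ i) (G.dz_nonneg k)) ?_
  · have g0 := (hT k hk).2.1
    refine (pow_le_pow_left₀ (Γ0 k).le (hT k hk).2.2 i).trans ?_
    rcases max_choice S.v (g k) with e | e <;> rw [e]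
    · exact le_add_of_nonneg_right (by positivity)
    · exact le_add_of_nonneg_left (by positivity)
  · simp only [mul_add, sum_add_distrib, ← sum_mul]
    exact add_le_add_left (mul_le_of_le_one_left (by positivity) a1) _

theorem sum_le_of (G : Lg M m a) {T : Finset ℕ} {g : ℕ → ℝ} {c x : ℝ} (hc : 0 ≤ c)
    (h : ∀ k ∈ T, g k ≤ c) (hx : ∑ k ∈ T, M.dz m a k ≤ x) : ∑ k ∈ T, M.dz m a k * g k ≤ x * c := by
  refine (sum_le_sum fun k hk => mul_le_mul_of_nonneg_left (h k hk) (G.dz_nonneg k)).trans ?_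
  rw [← sum_mul]
  exact mul_le_mul_of_nonneg_right hx hc

end M17

open M17

/-- the moment kit at a fixed size -/
theorem mk_of {S : Sc} {M : Md} {m p : ℕ} {a E lam l Φ : ℝ} {P : ℝ → ℝ} {l0 Λ₀ Λ₁ Pt Vt u1 V4 : ℝ}
    {Q : ℕ → ℝ → Prop} {Γ : ℕ → ℝ} (Γ0 : ∀ k, 0 < Γ k) (Γ2 : ∀ k, Γ k ≤ 2)
    (Γok : ∀ k ≤ M.N, Ok M m a p k (Γ k)) (Γle : ∀ {k g}, Q k g → 0 ≤ g ∧ Γ k ≤ max S.v g)
    (h : Cl S M) (I : S.In m a) (E1 : 1 ≤ E) (l1 : 1000 ≤ lam) (lC : S.C ≤ lam)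
    (cnt : ∀ i : ℕ, 2 ^ i ≤ S.C ^ 2 * M.N → (i : ℝ) ≤ lam ^ 3)
    (N : KN S M E l Φ P l0 Λ₀ Λ₁ Pt Vt u1 V4)
    (low : ∀ k ≤ M.N, ∀ D, M.q k ≤ D → lam * lam * max (M.z k) l ≤ D → Q k (2 * D))
    (blk : ∀ t, l0 ≤ t → t ≤ T0 S M → ∃ G : ℕ → ℝ, (∀ k, 0 < G k ∧ G k ≤ lam * l) ∧
      (∀ k ∈ sb S M t (2 * t), Q k (G k)) ∧
      ∑ k ∈ sb S M t (2 * t), M.dz m a k * G k ^ 2 ≤ lam * P t ∧
      ∑ k ∈ sb S M t (2 * t), M.dz m a k * ja M m a 0 k ≤ lam * S.w3 t * max t l ∧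
      ∑ k ∈ sb S M t (2 * t), M.dz m a k * ja M m a 2 k ≤ lam * S.w3 t * P t ∧
      ∑ k ∈ sb S M t (2 * t), M.dz m a k * ja M m a 4 k ≤ lam * S.w3 t * (P t * l ^ 2))
    (top : ∃ G : ℕ → ℝ, (∀ k, 0 < G k) ∧ (∀ k < S.J, G k ≤ lam * l) ∧
      (∀ k ∈ tz S M u1, Q k (G k)) ∧
      ∑ k ∈ tz S M u1, M.dz m a k * G k ^ 2 ≤ lam * Pt ∧
      ∑ k ∈ tz S M u1, M.dz m a k * G k ^ 4 ≤ lam * V4 ∧
      ∑ k ∈ tz S M u1, M.dz m a k * ja M m a 0 k ≤ lam * Λ₀ * S.w3 1 ∧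
      ∑ k ∈ tz S M u1, M.dz m a k * ja M m a 2 k ≤ lam * Λ₀ * S.w3 1 * Pt ∧
      ∑ k ∈ tz S M u1, M.dz m a k * ja M m a 4 k ≤ lam * Λ₀ * S.w3 1 * V4) :
    MK S M p (lam ^ 19) m a l Φ P l0 Λ₀ Pt u1 V4 Γ := by
  have G : Lg M m a := lg_cl h h.n1 I
  have C1 := h.C1
  have v0 := h.v0
  have i0 := h.i0
  have i1 := h.i1
  have i2 := h.i2
  have i3 := h.i3
  have i4 := h.i4
  have m1 : 1 ≤ lam := by linarith
  have lp : ∀ {i j : ℕ}, i ≤ j → lam ^ i ≤ lam ^ j := fun e => pow_le_pow_right₀ m1 e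
  have L19 : lam ≤ lam ^ 19 := le_self_pow₀ m1 (by norm_num)
  have s0 : 0 < M.s S.jl := h.s_pos (by omega)
  have l00 : 0 < l0 := by linarith [N.jl]
  have l0' : 0 < l := l00.trans_le N.l0l
  have ll1 : l ≤ 1 := by nlinarith [N.l1]
  have vP : S.v ≤ Pt := N.Ptw.2
  have vΦ : S.v ≤ Φ := vP.trans N.PtΦ
  have vl : S.v ≤ l := vΦ.trans (N.l3 ▸ pow_le_of_le_one l0'.le ll1 (by norm_num))
  have v1 : S.v ≤ 1 := vl.trans ll1
  have v2 : S.v ^ 2 ≤ S.v := pow_le_of_le_one v0.le v1 two_ne_zero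
  have TC : T0 S M ≤ S.C := by linarith [h.s_le_C i3, h.s_nn S.J, show T0 S M = M.s S.J / 16 from rfl]
  have vPt : ∀ t, t ≤ T0 S M → S.v ≤ P t := fun t ht => by
    rcases le_total t l with e | e
    · rw [N.Plo t (e.trans (le_mul_of_one_le_left l0'.le E1))]; exact vΦ
    · exact (N.Pw t e (ht.trans TC)).2
  have u0 : S.ue ≤ u1 / 8 := by linarith [N.ue]
  have u00 : 0 ≤ u1 := by linarith [h.last, h.leg.z1 (S.Jp - 1)]
  have V1 : Pt * l ^ 2 + u1 ≤ V4 := le_trans (by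
    rw [add_assoc]
    exact le_add_of_nonneg_left (sum_nonneg fun k _ =>
      mul_nonneg (sub_nonneg.2 (h.leg.zm (Nat.sub_le k 1))) (by positivity))) N.s4
  have Pl : 0 ≤ Pt * l ^ 2 := mul_nonneg (v0.le.trans vP) (sq_nonneg l)
  have v4 : S.v ^ 4 ≤ V4 := by
    calc S.v ^ 4 = S.v ^ 2 * S.v ^ 2 := by ring
      _ ≤ Pt * l ^ 2 := mul_le_mul (v2.trans vP) (by gcongr) (by positivity) (v0.le.trans vP)
      _ ≤ _ := by linarith
  have V0 : 0 ≤ V4 := le_trans (by positivity) v4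
  have g0 : ∀ i k, 0 ≤ M.dz m a k * Γ k ^ i := fun i k =>
    mul_nonneg (G.dz_nonneg k) (pow_nonneg (Γ0 k).le i)
  have zl : ∀ k, S.jl ≤ k → k < S.J → M.s k < l0 → M.z k ≤ 3 * lam * l := fun k k1 k2 k3 => by
    have := (h.z_s (i1.trans k1) k2).2
    nlinarith [N.l0l, mul_le_mul lC (show M.s k + 2 * S.v ≤ 3 * l by linarith [N.l0l])
      (by linarith [h.s_nn k]) (by linarith)]
  have ml : ∀ {x : ℝ}, x ≤ lam ^ 4 * l → max S.v x ≤ lam ^ 4 * l := fun hx =>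
    max_le (vl.trans (le_mul_of_one_le_left l0'.le (one_le_pow₀ m1))) hx
  have l14 : lam * l ≤ lam ^ 4 * l :=
    mul_le_mul_of_nonneg_right (le_self_pow₀ m1 (by norm_num)) l0'.le
  obtain ⟨Gt, -, t1, t2, t3, t4, t5, t6, t7⟩ := top
  have sl : ∀ k, S.jl ≤ k → k < S.J → Γ k ≤ lam ^ 4 * l := fun k k1 k2 => by
    rcases lt_or_ge (M.s k) l0 with e | e
    · have b1 : lam * lam * max (M.z k) l ≤ 3 * lam ^ 3 * l := by
        have : max (M.z k) l ≤ 3 * lam * l := max_le (zl k k1 k2 e) (by nlinarith)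
        nlinarith [mul_le_mul_of_nonneg_left this (by positivity : 0 ≤ lam * lam)]
      have b4 : l ≤ 3 * lam ^ 3 * l :=
        le_mul_of_one_le_left l0'.le (by linarith [one_le_pow₀ (n := 3) m1])
      refine (Γle (low k (by omega) _ ((h.q_le_s (by omega)).trans
        (e.le.trans (N.l0l.trans b4))) b1)).2.trans (ml ?_)
      nlinarith [mul_pos (pow_pos (by linarith : 0 < lam) 3) l0']
    have k3 : S.jl < k := lt_of_le_of_ne k1 fun e' => by subst e'; linarith [N.jl]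
    rcases le_total (M.s k) (T0 S M) with e' | e'
    · obtain ⟨g, b1, b2, -⟩ := blk _ e e'
      exact (Γle (b2 k (mem_filter.2 ⟨mem_Ioo.2 ⟨k3, k2⟩, le_rfl, by
        linarith [h.s_nn k]⟩))).2.trans (ml ((b1 k).2.trans l14))
    · exact (Γle (t2 k (mem_union_left _ (mem_filter.2 ⟨mem_Ioo.2 ⟨k3, k2⟩, e',
        h.s_le_C (by omega)⟩)))).2.trans (ml ((t1 k k2).trans l14))
  have b2 : ∀ t, l0 ≤ t → t ≤ T0 S M →
      ∑ k ∈ sb S M t (2 * t), M.dz m a k * Γ k ^ 2 ≤ 2 * lam * P t := fun t e e' => by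
    obtain ⟨g, -, b2, b3, -⟩ := blk t e e'
    have := GG_sum h G Γ0 (T := sb S M t (2 * t)) 2 fun k hk =>
      ⟨Nat.zero_lt_of_lt (mem_Ioo.1 (mem_filter.1 hk).1).1, Γle (b2 k hk)⟩
    linarith [vPt t e', le_mul_of_one_le_left (v0.le.trans (vPt t e')) m1]
  have fin : ∑ k ∈ Ico S.J M.N \ pl S M u1, M.dz m a k ≤ u1 := dz_hi G u00 fun k hk => by
    obtain ⟨k1, k2⟩ := mem_sdiff.1 hk
    obtain ⟨k3, k4⟩ := mem_Ico.1 k1
    refine ⟨by omega, k4.le, ?_⟩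
    rcases lt_or_ge k S.Jp with e | e
    · exact (not_le.1 fun e' => k2 (mem_filter.2 ⟨mem_Ico.2 ⟨k3, e⟩, e'⟩)).le
    · linarith [h.last, h.leg.zm (show S.Jp - 1 ≤ k - 1 by omega)]
  have tz0 : ∀ k ∈ tz S M u1, 0 < k := fun k hk => by
    rcases mem_union.1 hk with e | e
    · exact Nat.zero_lt_of_lt (mem_Ioo.1 (mem_filter.1 e).1).1
    · have := (mem_Ico.1 (mem_filter.1 e).1).1; omega
  have tt : ∀ i, ∑ k ∈ sb S M (T0 S M) S.C ∪ Ico S.J M.N, M.dz m a k * Γ k ^ i ≤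
      S.v ^ i + ∑ k ∈ tz S M u1, M.dz m a k * Gt k ^ i + u1 * 2 ^ i := fun i => by
    refine (sum_sub2 (A := tz S M u1) (B := Ico S.J M.N \ pl S M u1) (g0 i) fun k hk => ?_).trans
      (add_le_add (GG_sum h G Γ0 i fun k hk => ⟨tz0 k hk, Γle (t2 k hk)⟩)
        (sum_le_of G (by positivity) (fun k _ =>
          pow_le_pow_left₀ (Γ0 k).le (Γ2 k) i) fin))
    rcases mem_union.1 hk with e | e
    · exact mem_union_left _ (mem_union_left _ e)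
    · by_cases e' : k ∈ pl S M u1
      · exact mem_union_left _ (mem_union_right _ e')
      · exact mem_union_right _ (mem_sdiff.2 ⟨e, e'⟩)
  have T2 : ∑ k ∈ sb S M (T0 S M) S.C ∪ Ico S.J M.N, M.dz m a k * Γ k ^ 2 ≤
      2 * lam * Pt := by nlinarith [tt 2, N.u1P.2]
  have T4 : ∑ k ∈ sb S M (T0 S M) S.C ∪ Ico S.J M.N, M.dz m a k * Γ k ^ 4 ≤
      2 * lam * V4 := by nlinarith [tt 4]
  have Φ0 : 0 ≤ Φ := v0.le.trans vΦ
  have tot : ∑ k ∈ Ioo S.jl M.N, M.dz m a k * Γ k ^ 2 ≤ lam ^ 10 * Φ := by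
    set A := (Ioo S.jl S.J).filter fun k => M.s k < l0
    set B := (Ioo S.jl S.J).filter fun k => l0 ≤ M.s k ∧ M.s k ≤ T0 S M
    have a1 : ∑ k ∈ A, M.dz m a k * Γ k ^ 2 ≤ 3 * lam * l * (lam ^ 4 * l) ^ 2 :=
      sum_le_of G (by positivity) (fun k hk => by
        have := mem_Ioo.1 (mem_filter.1 hk).1
        exact pow_le_pow_left₀ (Γ0 k).le (sl k this.1.le this.2) 2)
        (dz_lo G (by positivity) (h.z_pos 0).le fun k hk => by
          have := mem_Ioo.1 (mem_filter.1 hk).1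
          exact ⟨by omega, zl k this.1.le this.2 (mem_filter.1 hk).2⟩)
    have a2 := sum_cover (T := B) (I := (range (⌊lam ^ 3⌋₊ + 1)).filter fun i => 2 ^ i * l0 ≤ T0 S M)
      (B := fun i => sb S M (2 ^ i * l0) (2 * (2 ^ i * l0))) (c := 2 * lam * Φ) (g0 2)
      (fun k hk => by
        obtain ⟨k1, k2, k3⟩ := mem_filter.1 hk
        obtain ⟨i, e1, e2⟩ := exists_nat_pow_near ((one_le_div l00).2 k2) one_lt_two
        rw [le_div_iff₀ l00] at e1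
        rw [div_lt_iff₀ l00, pow_succ'] at e2
        refine ⟨i, mem_filter.2 ⟨mem_range.2 (Nat.lt_succ_of_le (Nat.le_floor (cnt i ?_))),
          e1.trans k3⟩, mem_filter.2 ⟨k1, e1, by linarith⟩⟩
        have k4 := (mem_Ioo.1 k1).2
        have c1 := (h.s_bds k4.le).2
        have c2 := (h.s_bds h.jl_lt.le).1
        have c3 : (1 : ℝ) ≤ S.jl := by exact_mod_cast i0.trans i1
        have c4 : (k : ℝ) ≤ M.N := by exact_mod_cast (by omega : k ≤ M.N)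
        have c5 : 0 < S.v / S.C := by positivity
        have c6 : S.v / S.C ≤ l0 := by nlinarith [N.jl]
        refine le_of_mul_le_mul_right ?_ c5
        calc _ ≤ 2 ^ i * l0 := by gcongr
          _ ≤ M.N * (S.C * S.v) := e1.trans (c1.trans (by gcongr))
          _ = _ := by field_simp)
      fun i hi => (b2 _ (le_mul_of_one_le_left l00.le (one_le_pow₀ one_le_two))
        (mem_filter.1 hi).2).trans (mul_le_mul_of_nonneg_left (N.PΦ _) (by positivity))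
    have a3 : (((range (⌊lam ^ 3⌋₊ + 1)).filter fun i => 2 ^ i * l0 ≤ T0 S M).card : ℝ) ≤
        2 * lam ^ 3 := by
      have := card_filter_le (range (⌊lam ^ 3⌋₊ + 1)) fun i => 2 ^ i * l0 ≤ T0 S M
      rw [card_range] at this
      have b : ((⌊lam ^ 3⌋₊ + 1 : ℕ) : ℝ) ≤ 2 * lam ^ 3 := by
        push_cast; linarith [Nat.floor_le (show 0 ≤ lam ^ 3 by positivity), one_le_pow₀ (n := 3) m1]
      exact le_trans (by exact_mod_cast this) b
    have a4 := a2.trans (mul_le_mul_of_nonneg_right a3 (by positivity))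
    have a5 := T2.trans (mul_le_mul_of_nonneg_left N.PtΦ (by positivity))
    have a6 := (sum_sub2 (T := Ioo S.jl M.N) (A := A ∪ B) (B := sb S M (T0 S M) S.C ∪ Ico S.J M.N)
      (g0 2) fun k hk => by
        obtain ⟨k1, k2⟩ := mem_Ioo.1 hk
        rcases lt_or_ge k S.J with e | e
        · have k3 := mem_Ioo.2 ⟨k1, e⟩
          rcases lt_or_ge (M.s k) l0 with e1 | e1
          · exact mem_union_left _ (mem_union_left _ (mem_filter.2 ⟨k3, e1⟩))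
          rcases le_total (M.s k) (T0 S M) with e2 | e2
          · exact mem_union_left _ (mem_union_right _ (mem_filter.2 ⟨k3, e1, e2⟩))
          · exact mem_union_right _ (mem_union_left _
              (mem_filter.2 ⟨k3, e2, h.s_le_C (by omega)⟩))
        · exact mem_union_right _ (mem_union_right _ (mem_Ico.2 ⟨e, k2⟩))).trans
      (add_le_add (sum_sub2 (g0 2) subset_rfl) le_rfl)
    have e1 : 3 * lam * l * (lam ^ 4 * l) ^ 2 = 3 * (lam ^ 9 * Φ) := by rw [← N.l3]; ring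
    have e2 : lam ^ 4 * Φ ≤ lam ^ 9 * Φ := mul_le_mul_of_nonneg_right (lp (by norm_num)) Φ0
    have e3 : lam ^ 1 * Φ ≤ lam ^ 9 * Φ := mul_le_mul_of_nonneg_right (lp (by norm_num)) Φ0
    have e4 : 9 * (lam ^ 9 * Φ) ≤ lam * (lam ^ 9 * Φ) :=
      mul_le_mul_of_nonneg_right (by linarith) (by positivity)
    rw [e1] at a1
    linarith
  have L2 : 2 * lam ≤ lam ^ 19 := le_trans (by nlinarith) (lp (show 2 ≤ 19 by norm_num))
  have w0 : ∀ t, l0 ≤ t → 0 ≤ S.w3 t := fun t ht => by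
    have := h.ms_pos (l00.le.trans ht)
    have := h.F1
    have := l00.trans_le ht
    unfold Sc.w3
    positivity
  have w1 := w0 1 (N.l0l.trans ll1)
  have Λ0 : 0 ≤ Λ₀ := by linarith [N.L1.1, N.L1.2.1]
  have P0 := v0.le.trans vP
  refine ⟨Γ0, Γ2, fun k _ hk => (Γok k hk).1, fun k _ hk => (Γok k hk).2, fun k k1 k2 => (sl k k1 k2).trans
      (mul_le_mul_of_nonneg_right (lp (by norm_num)) l0'.le),
    tot.trans (mul_le_mul_of_nonneg_right (lp (by norm_num)) Φ0), ?_,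
    fun t e e' => (b2 t e e').trans (mul_le_mul_of_nonneg_right L2 (v0.le.trans (vPt t e'))),
    fun t e e' => ?_, fun t e e' => ?_, fun t e e' => ?_,
    T2.trans (mul_le_mul_of_nonneg_right L2 P0), T4.trans (mul_le_mul_of_nonneg_right L2 V0),
    t5.trans (by gcongr), t6.trans (by gcongr), t7.trans (by gcongr), by linarith⟩
  · have a1 : ∑ k ∈ Ioo S.jl S.J, M.dz m a k * Γ k ^ 4 ≤
        (lam ^ 4 * l) ^ 2 * (lam ^ 10 * Φ) := by
      refine le_trans ?_ (mul_le_mul_of_nonneg_left ((sum_le_sum_of_subset_of_nonneg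
        (Ioo_subset_Ioo_right h.J_lt.le) fun k _ _ => g0 2 k).trans tot) (by positivity))
      rw [mul_sum]
      refine sum_le_sum fun k hk => ?_
      have := pow_le_pow_left₀ (Γ0 k).le (sl k (mem_Ioo.1 hk).1.le (mem_Ioo.1 hk).2) 2
      nlinarith [mul_le_mul_of_nonneg_right this (g0 2 k)]
    have a2 := sum_sub2 (T := Ioo S.jl M.N) (A := Ioo S.jl S.J)
      (B := sb S M (T0 S M) S.C ∪ Ico S.J M.N) (g0 4) fun k hk => by
        obtain ⟨k1, k2⟩ := mem_Ioo.1 hk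
        rcases lt_or_ge k S.J with e | e
        · exact mem_union_left _ (mem_Ioo.2 ⟨k1, e⟩)
        · exact mem_union_right _ (mem_union_right _ (mem_Ico.2 ⟨e, k2⟩))
    have a3 : lam ^ 18 * (Φ * l ^ 2) ≤ lam ^ 19 * (Φ * l ^ 2) :=
      mul_le_mul_of_nonneg_right (lp (by norm_num)) (by positivity)
    linarith [mul_le_mul_of_nonneg_right L2 V0]
  · obtain ⟨g, -, -, -, b, -⟩ := blk t e e'
    have := w0 t e
    have : 0 ≤ max t l := l0'.le.trans (le_max_right _ _)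
    exact b.trans (by gcongr)
  · obtain ⟨g, -, -, -, -, b, -⟩ := blk t e e'
    have := w0 t e
    have := v0.le.trans (vPt t e')
    exact b.trans (by gcongr)
  · obtain ⟨g, -, -, -, -, -, b⟩ := blk t e e'
    have := w0 t e
    have := v0.le.trans (vPt t e')
    exact b.trans (by gcongr)

/-- the side facts of the glue at a fixed size -/
theorem side {C ε η K lam : ℝ} {A : ℕ} {S : Sc} {M : Md} {m : ℕ} {a l Φ : ℝ} {P : ℝ → ℝ}
    {l0 Λ₀ Λ₁ Pt Vt u1 V4 : ℝ} (hε : 0 < ε) (R : RgC C A (η / 19) K S) (h : Cl S M)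
    (hlam : lam = (S.n : ℝ) ^ (η / 19)) (N : KN S M ((S.n : ℝ) ^ ε) l Φ P l0 Λ₀ Λ₁ Pt Vt u1 V4)
    (L : LK S M m a Φ P l0 Λ₁ Pt Vt u1)
    (hK : ∀ l, M.s S.jl ≤ l → S.v ≤ l → (∀ k, S.J ≤ k → k ≤ S.Jp → M.s k = M.s S.J) →
      ∑ k ∈ Ioc S.jl S.Jp, lw M k * M.del m a k ^ 2 ≤ l ^ 3 →
      Crude K S M m a l S.jl ∧ ∀ k, S.jl ≤ k → k ≤ S.J → |M.del m a k| ≤ K * l) :
    (S.n : ℝ) ^ η = lam ^ 19 ∧ 1 ≤ (S.n : ℝ) ^ ε ∧ 0 < l ∧ M.s S.jl ≤ l ∧ S.w3 l ≤ l ^ 3 ∧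
      (∀ x, lam ≤ x → Crude x S M m a l S.jl) ∧
      ∀ i : ℕ, 2 ^ i ≤ S.C ^ 2 * M.N → (i : ℝ) ≤ lam ^ 3 := by
  have E1 : 1 ≤ (S.n : ℝ) ^ ε := one_le_rpow R.N1.le hε.le
  have m1 : 1 ≤ lam := hlam ▸ R.Λ1
  have s0 : 0 < M.s S.jl := h.s_pos (h.i0.trans h.i1)
  have sl : M.s S.jl ≤ l := by linarith [N.jl, N.l0l]
  have l0' : 0 < l := s0.trans_le sl
  have ll1 : l ≤ 1 := by nlinarith [N.l1]
  have vl : S.v ≤ l := (N.Ptw.2.trans N.PtΦ).trans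
    (N.l3 ▸ pow_le_of_le_one l0'.le ll1 (by norm_num))
  obtain ⟨⟨-, c⟩, -⟩ := hK l sl vl N.flat (L.tot.trans N.l3.ge)
  refine ⟨?_, E1, l0', sl, N.w0 l (by linarith [N.l0l, N.jl]) (ll1.trans h.C1),
    fun x hx => ⟨m1.trans hx, fun k k1 k2 => (c k k1 k2).trans (mul_le_mul_of_nonneg_right
      ((R.K_le.trans hlam.ge).trans hx) (l0'.le.trans (le_max_right _ _)))⟩, fun i hi => ?_⟩
  · rw [hlam, ← rpow_natCast, ← rpow_mul R.N0.le]; congr 1; push_cast; ring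
  have n0 := R.N0
  have cn : S.C ≤ S.n := by
    linarith [R.hC, R.C_log, h.C0, log_le_sub_one_of_pos n0]
  have a1 : (2 : ℝ) ^ i ≤ (S.n : ℝ) ^ (S.A + 3) := by
    calc _ ≤ S.C ^ 2 * M.N := hi
      _ ≤ (S.n : ℝ) ^ 2 * (S.n : ℝ) ^ (S.A + 1) := by have := h.C0; have := h.card; gcongr
      _ = _ := by ring
  have a2 := log_le_log (by positivity) a1
  rw [log_pow, log_pow, R.hA] at a2
  push_cast at a2
  have a3 : ((A : ℝ) + 3) * log S.n ≤ (lam + 3) * lam :=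
    mul_le_mul (by linarith [R.A_le]) (R.log_le.trans hlam.ge) (by linarith [R.log1]) (by linarith)
  have a4 : (i : ℝ) * (1 / 2) ≤ i * log 2 :=
    mul_le_mul_of_nonneg_left (by linarith [log_two_gt_d9]) (Nat.cast_nonneg i)
  have a5 : 1000 ≤ lam := hlam ▸ R.num_le
  nlinarith [mul_le_mul_of_nonneg_right a5 (sq_nonneg lam)]

theorem momG : MomG := fun hC hB hT p hp => by
  refine (((hB p hp).and (hT p hp)).and (C33.qLowS p)).glue fun C => ⟨0, fun A _ ε η hε hη => ?_⟩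
  obtain ⟨K, K1, hK⟩ := hC C
  refine ⟨ε, η / 19, K, hε, by positivity, fun S M m a R h I ⟨⟨b, t⟩, q⟩ l Φ P l0 Λ₀ Λ₁ Pt Vt u1 V4
    N L => ?_⟩
  obtain ⟨e19, E1, l0', sl, w, cr, cnt⟩ := side hε R h rfl N L (hK S M R.hC h m a I)
  have p0 : p ≠ 0 := by omega
  rw [e19]
  refine ⟨cr _ (le_self_pow₀ R.Λ1 (by norm_num)), _, mk_of (Q := Ok M m a p) (GG_pos h)
    (fun _ => min_le_left _ _) (fun k hk => GG_ok h (lg_cl h h.n1 I).m0 p0 hk)
    (fun H => ⟨H.2.nn, GG_le p0 H⟩) h I E1 R.num_le (R.C_le h) cnt N (fun k hk D d1 d2 => ?_)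
    (b l Φ P l0 Λ₀ Λ₁ Pt Vt u1 V4 N L) (t l Φ P l0 Λ₀ Λ₁ Pt Vt u1 V4 N L)⟩
  obtain ⟨b2, b3⟩ := q _ l l0' sl w (cr _ le_rfl) k hk
  exact ok_of p0 (h.q_nn hk) d1 (b2.mono d2) (b3.trans (pow_le_pow_left₀ b2.nn d2 _))

end Crest.Agent.T156.Alt.R62

end
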