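import Crest.Agent.T156.AltReg_29

/-!
# Row 156 (helper3): a calculus of exponent bounds
-/

set_option autoImplicit false

noncomputable section

namespace Crest.Agent.T156.Alt.Tr3

open Real

/-- `0 ≤ y ≤ n ^ a` -/
def U (n y a : ℝ) : Prop := 0 ≤ y ∧ y ≤ n ^ a
/-- `n ^ a ≤ y` -/
def D (n y a : ℝ) : Prop := n ^ a ≤ y
/-- the base and the unit of loss -/
structure B (n η : ℝ) : Prop where
  n1 : 1 < n
  num : 1000 ≤ n ^ η

variable {n η y z a b c : ℝ}

theorem B.of {β c0 C0 : ℝ} {A : ℕ} {c K : ℝ} {p : Pm} (H : Reg β c0 C0 A c η K p) : B p.n η :=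
  ⟨H.N1, H.num_le⟩

theorem U.min_l (h : U n y a) (hz : 0 ≤ z) : U n (min y z) a :=
  ⟨le_min h.1 hz, (min_le_left _ _).trans h.2⟩
theorem U.min_r (h : U n z a) (hy : 0 ≤ y) : U n (min y z) a :=
  ⟨le_min hy h.1, (min_le_right _ _).trans h.2⟩
theorem U.of_le (h : U n z a) (h0 : 0 ≤ y) (h1 : y ≤ z) : U n y a := ⟨h0, h1.trans h.2⟩
theorem U.max (h : U n y a) (g : U n z a) : U n (max y z) a :=
  ⟨le_max_of_le_left h.1, max_le h.2 g.2⟩
theorem D.min (h : D n y a) (g : D n z a) : D n (min y z) a := le_min h g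
theorem D.of_le (h : D n y a) (g : y ≤ z) : D n z a := le_trans h g

namespace B

variable (H : B n η)
include H

theorem n0 : 0 < n := by linarith [H.n1]
theorem η0 : 0 < η := by
  by_contra h
  linarith [rpow_le_one_of_one_le_of_nonpos H.n1.le (not_lt.1 h), H.num]
theorem rp (a : ℝ) : 0 < n ^ a := rpow_pos_of_pos H.n0 a
theorem up (a : ℝ) : U n (n ^ a) a := ⟨(H.rp a).le, le_rfl⟩
omit H in
theorem dp (a : ℝ) : D n (n ^ a) a := le_rfl
theorem ul (h : 0 < y) : U n y (logb n y) := ⟨h.le, (rpow_logb H.n0 H.n1.ne' h).ge⟩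
theorem dl (h : 0 < y) : D n y (logb n y) := (rpow_logb H.n0 H.n1.ne' h).le
theorem pos (h : D n y a) : 0 < y := (H.rp a).trans_le h
theorem mono (h : U n y a) (g : a ≤ b) : U n y b :=
  ⟨h.1, h.2.trans (rpow_le_rpow_of_exponent_le H.n1.le g)⟩
theorem dmono (h : D n y a) (g : b ≤ a) : D n y b :=
  (rpow_le_rpow_of_exponent_le H.n1.le g).trans h
theorem le (h : U n y a) (g : D n z b) (e : a ≤ b) : y ≤ z := (H.mono h e).2.trans g
theorem zero (a : ℝ) : U n 0 a := ⟨le_rfl, (H.rp a).le⟩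
omit H in
theorem one : U n 1 0 := ⟨zero_le_one, by rw [rpow_zero]⟩
omit H in
theorem done : D n 1 0 := by rw [D, rpow_zero]
theorem un : U n n 1 := ⟨H.n0.le, by rw [rpow_one]⟩
omit H in
theorem dn : D n n 1 := by rw [D, rpow_one]
theorem cst (h0 : 0 ≤ y) (h : y ≤ 1000) : U n y η := ⟨h0, h.trans H.num⟩
theorem mul (h : U n y a) (g : U n z b) : U n (y * z) (a + b) :=
  ⟨mul_nonneg h.1 g.1, by rw [rpow_add H.n0]; exact mul_le_mul h.2 g.2 g.1 (H.rp a).le⟩
theorem dmul (h : D n y a) (g : D n z b) : D n (y * z) (a + b) := by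
  rw [D, rpow_add H.n0]; exact mul_le_mul h g (H.rp b).le (H.pos h).le
theorem div (h : U n y a) (g : D n z b) : U n (y / z) (a - b) :=
  ⟨div_nonneg h.1 (H.pos g).le, by
    rw [rpow_sub H.n0]; exact div_le_div₀ (H.rp a).le h.2 (H.rp b) g⟩
theorem ddiv (h : D n y a) (g : U n z b) (z0 : 0 < z) : D n (y / z) (a - b) := by
  rw [D, rpow_sub H.n0]; exact div_le_div₀ (H.pos h).le h z0 g.2
theorem rpw (h : U n y a) (r : ℝ) (hr : 0 ≤ r := by norm_num) : U n (y ^ r) (r * a) :=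
  ⟨rpow_nonneg h.1 r, by rw [mul_comm, rpow_mul H.n0.le]; exact rpow_le_rpow h.1 h.2 hr⟩
theorem pow (h : U n y a) (k : ℕ) : U n (y ^ k) (k * a) := by
  have := H.rpw h k (Nat.cast_nonneg k)
  rwa [rpow_natCast] at this
theorem drpw (h : D n y a) (r : ℝ) (hr : 0 ≤ r := by norm_num) : D n (y ^ r) (r * a) := by
  rw [D, mul_comm, rpow_mul H.n0.le]; exact rpow_le_rpow (H.rp a).le h hr
theorem dpow (h : D n y a) (k : ℕ) : D n (y ^ k) (k * a) := by
  have := H.drpw h k (Nat.cast_nonneg k)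
  rwa [rpow_natCast] at this
theorem sqrt (h : U n y a) : U n √y (1 / 2 * a) := by rw [sqrt_eq_rpow]; exact H.rpw h _
theorem dsqrt (h : D n y a) : D n √y (1 / 2 * a) := by rw [sqrt_eq_rpow]; exact H.drpw h _

/-- a sum of pieces below `n ^ a` -/
theorem sm (k : ℝ) (h0 : 0 ≤ y) (h : y ≤ k * n ^ a) (hk : k ≤ 1000 := by norm_num) :
    U n y (a + η) :=
  ⟨h0, h.trans (by
    rw [rpow_add H.n0, mul_comm]
    exact mul_le_mul_of_nonneg_left (hk.trans H.num) (H.rp a).le)⟩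

theorem add (h : U n y a) (g : U n z b) (e1 : a + η ≤ c) (e2 : b + η ≤ c) : U n (y + z) c := by
  have a1 := H.mono h (show a ≤ c - η by linarith)
  have a2 := H.mono g (show b ≤ c - η by linarith)
  exact H.mono (H.sm (a := c - η) 2 (add_nonneg h.1 g.1) (by linarith [a1.2, a2.2])) (by linarith)

theorem add3 {x d : ℝ} (f : U n x d) (h : U n y a) (g : U n z b) (e0 : d + η ≤ c) (e1 : a + η ≤ c)
    (e2 : b + η ≤ c) : U n (x + y + z) c := by
  have a0 := H.mono f (show d ≤ c - η by linarith)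
  have a1 := H.mono h (show a ≤ c - η by linarith)
  have a2 := H.mono g (show b ≤ c - η by linarith)
  exact H.mono (H.sm (a := c - η) 3 (add_nonneg (add_nonneg f.1 h.1) g.1)
    (by linarith [a0.2, a1.2, a2.2])) (by linarith)

/-- a piece below the common level -/
theorem pc (h : U n y a) (e : a + η ≤ c) : 0 ≤ y ∧ y ≤ n ^ (c - η) :=
  H.mono h (by linarith)

/-- the sum of at most `k` pieces -/
theorem tot (k : ℝ) (h0 : 0 ≤ y) (h : y ≤ k * n ^ (c - η)) (hk : k ≤ 1000 := by norm_num) :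
    U n y c := H.mono (H.sm k h0 h hk) (by linarith)

end B

end Crest.Agent.T156.Alt.Tr3

end
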