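import Crest.Agent.T156.LPg_86
import Crest.Agent.T156.TrU_3

/-!
# Row 156 (helper3): the costs `Lp86.NC` in exponents
-/

set_option autoImplicit false

noncomputable section

namespace Crest.Agent.T156.Alt.Lq3

open Real Tr3 Lp86

/-- exponents of the data of the member: `t, a0, l, v, uu, g` for `θ, u0, la, V, U, Γ` -/
structure XD (n η C θ u0 la V U' Γ t a0 l v uu g : ℝ) : Prop where
  b : B n η
  C : U n C η
  θu : U n θ t
  θd : D n θ t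
  au : U n u0 a0
  lu : U n la l
  ld : D n la l
  vu : U n V v
  vd : D n V v
  uu' : U n U' uu
  ud : D n U' uu
  Γ : U n Γ g

/-- `q` = exponent of `Q` -/
def LQ (η l v uu ξ v2 q : ℝ) : Prop :=
  (3 / 2 * ξ - uu / 2 + 2 * η ≤ q ∧ v2 + 2 * η ≤ q) ∨
    (v2 - v + 2 * η ≤ q ∧ 3 / 2 * ξ - l + 2 * η ≤ q)

/-- `z` = exponent of the cubic shell bound, `λ` = exponent of `lM` -/
structure LZ (η a0 l v uu ξ v2 q ω μ lm z : ℝ) : Prop where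
  l1 : a0 + η ≤ lm
  l2 : v + η ≤ lm
  l3 : η ≤ lm ∨ (uu - μ) / 2 + η ≤ lm
  z1 : ω + lm + η ≤ z
  z2 : ω + 2 * ξ - l + 4 * η ≤ z
  z3 : ω + v2 + q + 3 * η ≤ z

section

variable {n η C θ u0 la V U' Γ t a0 l v uu g x ξ V2 v2 q w ω u μ lm z dm d : ℝ}
  (X : XD n η C θ u0 la V U' Γ t a0 l v uu g)
include X

theorem sq3 (hx : U n x ξ) : U n √(x ^ 3) (3 / 2 * ξ) :=
  X.b.mono (X.b.sqrt (X.b.pow hx 3)) (by push_cast; linarith)

theorem qq (hx : U n x ξ) (hV : U n V2 v2) (h : LQ η l v uu ξ v2 q) :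
    QQ la V U' x V2 (n ^ q) := by
  have H := X.b
  have c4 := H.cst (y := 4) (by norm_num) (by norm_num)
  refine h.imp (fun h => ?_) fun h => ?_
  · exact H.le (H.mul c4 (H.add (c := q - η) (H.div (sq3 X hx) (H.dsqrt X.ud)) hV
      (by linarith [h.1]) (by linarith [h.2]))) (B.dp q) (by linarith)
  · exact H.le (H.mul c4 (H.add (c := q - η) (H.div hV X.vd) (H.div (sq3 X hx) X.ld)
      (by linarith [h.1]) (by linarith [h.2]))) (B.dp q) (by linarith)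

theorem lM_u (hu : D n u μ) (h : LZ η a0 l v uu ξ v2 q ω μ lm z) : U n (lM u0 V U' u) lm := by
  have H := X.b
  have r := H.div (H.sqrt X.uu') (H.dsqrt hu)
  rcases h.l3 with e | e
  · exact H.add3 X.au X.vu (B.one.min_l r.1) h.l1 h.l2 (by linarith)
  · exact H.add3 X.au X.vu (r.min_r zero_le_one) h.l1 h.l2 (by linarith)

theorem zz (hx : U n x ξ) (hV : U n V2 v2) (hw : U n w ω) (hu : D n u μ)
    (h : LZ η a0 l v uu ξ v2 q ω μ lm z) :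
    w * (lM u0 V U' u + (64 * C * x ^ 2 / la + 2 * V2 * n ^ q)) ≤ n ^ z := by
  have H := X.b
  have c2 := H.cst (y := 2) (by norm_num) (by norm_num)
  have c64 := H.cst (y := 64) (by norm_num) (by norm_num)
  refine H.le (H.mul hw (H.add (c := z - ω) (lM_u X hu h) (H.add (c := z - ω - η)
    (H.div (H.mul (H.mul c64 X.C) (H.pow hx 2)) X.ld) (H.mul (H.mul c2 hV) (H.up q)) ?_ ?_)
    ?_ ?_)) (B.dp z) ?_
  all_goals
    push_cast
    linarith [h.z1, h.z2, h.z3]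

/-- exponent of `bD` -/
theorem bD_u (hw : U n w ω) (hd : D n dm d) (i : ℕ) {b : ℝ}
    (h1 : (i + 1) * (ω - d) + (ω - l) + 2 * η ≤ b)
    (h2 : i * ((ω - l + η) / 2) + (ω - l) + 2 * η ≤ b) : U n (bD w dm la i) b := by
  have H := X.b
  have r := H.div (H.mul (H.cst (y := 4) (by norm_num) (by norm_num)) hw) X.ld
  refine H.mono (H.mul (H.add (c := b - (ω - l + η)) (H.pow (H.div hw hd) (i + 1))
    (H.pow (H.sqrt r) i) ?_ ?_) r) ?_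
  all_goals
    push_cast
    linarith

theorem mn_u {e ε ν : ℝ} (he : U n e ε) (h : 3 / 2 * ε ≤ ν ∨ 2 * ε - t ≤ ν) :
    mn θ e ≤ n ^ ν := by
  have H := X.b
  rcases h with h | h
  · exact (min_le_left _ _).trans (H.le (H.rpw he _) (B.dp ν) h)
  · exact (min_le_right _ _).trans (H.le (H.div (H.pow he 2) X.θd) (B.dp ν) (by push_cast; linarith))

end

/-- **the lines of the costs**.  Exponents: `e ξ v2 ω μ d p2 L χ γ ι κ τ ε1 ν` of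
`E x V2 w u2 dm2 P2 Lg X2 G0 j ηc τ e1 N`; auxiliary `q lm z b α ε a m β δ` -/
structure EC (η e t a0 l v uu g ξ v2 ω μ d p2 L χ γ ι κ τ ε1 ν q lm z b α ε a m β δ : ℝ) : Prop where
  hq : LQ η l v uu ξ v2 q
  hz : LZ η a0 l v uu ξ v2 q ω μ lm z
  c1 : (2 * (ω - d) + (ω - l) + 2 * η ≤ b ∧ 3 / 2 * (ω - l) + 3 * η ≤ b ∧
      6 * L + z + 4 * η ≤ ν ∧ 6 * L + b + 4 * η ≤ ν) ∨
    (3 * (ω - d) + (ω - l) + 2 * η ≤ b ∧ 2 * (ω - l) + 3 * η ≤ b ∧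
      ω + 2 * η ≤ 3 * α ∧ ω + lm - μ + η ≤ 3 * α ∧ ω + 2 * ξ - d + 5 * η ≤ 3 * α ∧
      ω + 2 * v2 - d + 3 * η ≤ 3 * α ∧
      8 * L - t + α + z + 4 * η ≤ ν ∧ 8 * L - t + b + 4 * η ≤ ν)
  e1 : ε1 + η ≤ ε
  e2 : 2 * γ + η ≤ ε
  e3 : p2 + η ≤ ε
  e4 : χ + ξ + η ≤ ε
  e5 : χ + v2 + η ≤ ε
  c1' : 3 / 2 * ε ≤ ν ∨ 2 * ε - t ≤ ν
  c2 : g - t ≤ ν
  c3 : t + 3 * τ + η ≤ ν
  c3' : t + 2 * l + η ≤ ν
  c41 : 2 * μ + η ≤ ν
  c42 : μ + ε1 + η ≤ ν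
  c43 : μ + χ + η ≤ ν
  c44 : (μ + g) / 2 + η ≤ ν
  c45 : 3 / 2 * (μ + t) + η ≤ ν
  c8 : 3 / 2 * κ ≤ ν ∨ 2 * κ - t ≤ ν
  c91 : 3 / 4 * (ω + 3 * ξ) + η ≤ ν
  c92 : t + 9 * ι + η ≤ ν
  c93 : t + 9 * ξ + η ≤ ν
  a1 : t + η ≤ a
  a2 : ι + η ≤ a
  a3 : τ + η ≤ a
  m1 : a ≤ m ∨ ξ ≤ m
  b1 : χ + ξ + η ≤ β
  b2 : a + 2 * m + η ≤ β
  c5 : 3 / 2 * β ≤ ν ∨ 2 * β - t ≤ ν
  d1 : χ + η ≤ δ
  d2 : a + m + η ≤ δ
  c5' : 3 * δ ≤ ν ∨ e + δ ≤ t

/-- **`NC` from the lines** -/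
theorem nc_lg {n η C θ u0 la V U' Γ t a0 l v uu g E h x Vt V2 w u2 dm Λ P2 Lg X2 G0 j ηc τ e1 : ℝ}
    {e ξ v2 ω μ d p2 L χ γ ι κ τ' ε1 ν q lm z b α ε a m β δ : ℝ}
    (X : XD n η C θ u0 la V U' Γ t a0 l v uu g) (T : Ct n C u0 U' h x u2 dm Λ) (hv : V2 ≤ Vt)
    (hE : U n E e) (hx : U n x ξ) (hV : U n V2 v2) (hw : U n w ω) (hu : U n u2 μ) (hu' : D n u2 μ)
    (hd : D n dm d) (hΛ : U n Λ (2 * η)) (hP : U n P2 p2) (hL : U n Lg L) (hX : U n X2 χ)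
    (hG : U n G0 γ) (hj : U n j ι) (hc : U n ηc κ) (hτ : U n τ τ') (he : U n e1 ε1)
    (K : EC η e t a0 l v uu g ξ v2 ω μ d p2 L χ γ ι κ τ' ε1 ν q lm z b α ε a m β δ) :
    NC E n C θ u0 la V U' h Γ x Vt V2 (n ^ q) w u2 dm Λ (n ^ z) (n ^ α) P2 Lg X2 G0 j ηc τ e1
      (n ^ ε) (n ^ a) (n ^ m) (n ^ ν) := by
  have H := X.b
  have η0 := H.η0
  have cs : ∀ y : ℝ, 0 ≤ y → y ≤ 1000 → U n y η := fun y => H.cst
  have c2 := cs 2 (by norm_num) (by norm_num)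
  have hδ := H.add hX (H.mul (H.up a) (H.up m)) K.d1 K.d2
  refine ⟨T, ⟨hV.1, hv⟩, qq X hx hV K.hq, zz X hx hV hw hu' K.hz, K.c1.imp ?_ ?_, ?_,
    mn_u X (H.up ε) K.c1', H.le (H.div X.Γ X.θd) (B.dp ν) K.c2, ?_, ?_, mn_u X hc K.c8, ?_,
    add_nonneg hj.1 hτ.1, (H.add3 X.θu hj hτ K.a1 K.a2 K.a3).2, ?_,
    mn_u X (H.add (H.mul hX hx) (H.mul (H.up a) (H.pow (H.up m) 2)) K.b1
      (by push_cast; linarith [K.b2])) K.c5,
    K.c5'.imp (fun c => H.le (H.pow hδ 3) (B.dp ν) (by push_cast; linarith))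
      fun c => H.le (H.mul hE hδ) X.θd c⟩
  · rintro ⟨a1, a2, a3, a4⟩
    refine H.le (H.mul hΛ (H.mul (H.pow hL 6) (H.add (c := ν - 6 * L - 2 * η)
      (H.mul (cs 4 (by norm_num) (by norm_num)) (H.up z))
      (H.mul (cs 16 (by norm_num) (by norm_num)) (bD_u (b := b) X hw hd 1 ?_ ?_)) ?_ ?_)))
      (B.dp ν) ?_
    all_goals
      push_cast
      linarith
  · rintro ⟨a1, a2, a3, a4, a5, a6, a7, a8⟩
    refine ⟨(H.rp α).le, H.le (H.mul hw (H.add3 (c := 3 * α - ω) c2 (H.div (lM_u X hu' K.hz) hu')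
      (H.div (H.pow (H.add (c := (3 * α - ω + d - η) / 2) (H.mul c2 hx) hV ?_ ?_) 2) hd) ?_ ?_ ?_))
      (H.dpow (B.dp α) 3) ?_,
      H.le (H.mul hΛ (H.mul (H.div (H.pow hL 8) X.θd) (H.add (c := ν - 8 * L + t - 2 * η)
      (H.mul (cs 8 (by norm_num) (by norm_num)) (H.mul (H.up α) (H.up z)))
      (H.mul (cs 64 (by norm_num) (by norm_num)) (bD_u (b := b) X hw hd 2 ?_ ?_)) ?_ ?_)))
      (B.dp ν) ?_⟩
    all_goals
      push_cast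
      linarith
  · have p1 := H.pc he K.e1
    have p2 := H.pc (c := ε) (H.pow hG 2) (by push_cast; linarith [K.e2])
    have p3 := H.pc hP K.e3
    have p4 := H.pc (H.mul hX hx) K.e4
    have p5 := H.pc (H.mul hX hV) K.e5
    exact (H.tot 5 (by linarith) (by linarith)).2
  · have p1 := H.pc (c := ν) (H.mul X.θu (H.pow hτ 3)) (by push_cast; linarith [K.c3])
    have p2 := H.pc (c := ν) (H.mul X.θu (H.pow X.lu 2)) (by push_cast; linarith [K.c3'])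
    exact (H.tot 2 (by linarith) (by linarith)).2
  · have p1 := H.pc (c := ν) (H.pow hu 2) (by push_cast; linarith [K.c41])
    have p2 := H.pc (H.mul hu he) K.c42
    have p3 := H.pc (H.mul hu hX) K.c43
    have p4 := H.pc (c := ν) (H.mul hu (H.sqrt (H.div X.Γ hu'))) (by linarith [K.c44])
    have p5 := H.pc (H.rpw (H.mul hu X.θu) (3 / 2)) K.c45
    exact (H.tot 5 (by linarith) (by linarith)).2
  · have p1 := H.pc (c := ν) (H.rpw (H.mul hw (H.pow hx 3)) (3 / 4)) (by push_cast; exact K.c91)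
    have p2 := H.pc (c := ν) (H.mul X.θu (H.pow hj 9)) (by push_cast; exact K.c92)
    have p3 := H.pc (c := ν) (H.mul X.θu (H.pow (H.pow hx 3) 3)) (by push_cast; linarith [K.c93])
    exact (H.tot 3 (by linarith) (by linarith)).2
  · exact K.m1.elim (fun c => (min_le_left _ _).trans (H.le (H.up a) (B.dp m) c))
      fun c => (min_le_right _ _).trans (H.le hx (B.dp m) c)

end Crest.Agent.T156.Alt.Lq3

end
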