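import Crest.Agent.T156.LPq_3

/-!
# Row 156 (helper3): `Lp86.NS`, `Lp86.NA` in exponents
-/

set_option autoImplicit false

noncomputable section

namespace Crest.Agent.T156.Alt.Lq3

open Real Tr3 Lp86

/-- exact exponent -/
def T (n y a : ℝ) : Prop := U n y a ∧ D n y a

theorem tl {n η y : ℝ} (H : B n η) (h : 0 < y) : T n y (logb n y) := ⟨H.ul h, H.dl h⟩
theorem tp {n η : ℝ} (H : B n η) (a : ℝ) : T n (n ^ a) a := ⟨H.up a, B.dp a⟩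

theorem nc_mono {E n C θ u0 la V U' h Γ x Vt V2 Q2 w u2 dm2 Λ z2 aM P2 Lg X2 G0 j ηc τ e1 e A m N
    N' : ℝ} (K : NC E n C θ u0 la V U' h Γ x Vt V2 Q2 w u2 dm2 Λ z2 aM P2 Lg X2 G0 j ηc τ e1 e A m N)
    (g : N ≤ N') :
    NC E n C θ u0 la V U' h Γ x Vt V2 Q2 w u2 dm2 Λ z2 aM P2 Lg X2 G0 j ηc τ e1 e A m N' :=
  ⟨K.ct, K.v2, K.hQ, K.z1, K.c1.imp (·.trans g) fun a => ⟨a.1, a.2.1, a.2.2.trans g⟩, K.e2,
    K.c1'.trans g, K.c2.trans g, K.c3.trans g, K.c4.trans g, K.c8.trans g, K.c9.trans g, K.jτ, K.A1,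
    K.m1, K.c5.trans g, K.c5'.imp (·.trans g) id⟩

/-- `d` = exponent of `dm` at the cut `μ` -/
structure LD (η a0 uu μ d : ℝ) : Prop where
  d1 : d + η ≤ μ
  d2 : d + η ≤ (uu + μ) / 2
  d3 : d + η ≤ 2 * a0

theorem dm_d {n η u0 U' u a0 uu μ d : ℝ} (H : B n η) (h0 : D n u0 a0) (hU : D n U' uu)
    (hu : D n u μ) (h : LD η a0 uu μ d) : D n (min (u / 4) (min (√(U' * u) / 4) (u0 ^ 2 / 2))) d := by
  have c4 := H.cst (y := 4) (by norm_num) (by norm_num)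
  have c2 := H.cst (y := 2) (by norm_num) (by norm_num)
  exact (H.dmono (H.ddiv hu c4 (by norm_num)) (by linarith [h.d1])).min
    ((H.dmono (H.ddiv (H.dsqrt (H.dmul hU hu)) c4 (by norm_num)) (by linarith [h.d2])).min
      (H.dmono (H.ddiv (H.dpow h0 2) c2 (by norm_num)) (by push_cast; linarith [h.d3])))

/-- **the lines of the sizes**.  Exponents `ξ vt ω μ d lp p2 p3` of `x Vt w u1 dm L P2 P3`;
auxiliary `q` (of `Q`) and `r` (of `ρ`) -/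
structure ES (η a0 l v uu ξ vt ω μ d lp p2 p3 q r : ℝ) : Prop where
  hq : LQ η l v uu ξ vt q
  uU : μ ≤ uu
  L1 : 0 ≤ lp
  far : ω + η ≤ 3 * lp + μ
  s1 : ω + l + 6 * lp + 9 * η ≤ 3 / 2 * p2
  s2 : ω + 2 * ξ - l + 6 * lp + 10 * η ≤ 3 / 2 * p2
  s3 : ω + 3 / 2 * ξ + q + 6 * lp + 9 * η ≤ 3 / 2 * p2
  z1 : ω + a0 + 6 * lp + 6 * η ≤ p3
  z2 : ω + v + 6 * lp + 6 * η ≤ p3
  z3 : ω + 6 * lp + 6 * η ≤ p3 ∨ ω + (uu - μ) / 2 + 6 * lp + 6 * η ≤ p3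
  z4 : ω + 2 * ξ - l + 6 * lp + 8 * η ≤ p3
  z5 : ω + vt + q + 6 * lp + 7 * η ≤ p3
  r1 : ω + 9 / 2 * ξ - l + 5 * η ≤ 2 * r
  r2 : ω + 3 * ξ + q + 2 * η ≤ 2 * r
  a1 : μ + η ≤ p2
  a2 : 2 * ω - d - l + 4 * lp + 6 * η ≤ p2
  a3 : ω - l + 4 * lp + 6 * η ≤ p2
  a4 : r + 3 * η ≤ p2
  b1 : μ + η ≤ p3
  b2 : 3 * ω - 2 * d - l + 6 * lp + 6 * η ≤ p3
  b3 : 3 / 2 * (ω - l) + 6 * lp + 7 * η ≤ p3
  b4 : r + ξ + 3 * η ≤ p3
  b5 : r + vt + 3 * η ≤ p3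

/-- **`NS` from the lines** -/
theorem ns_lg {n η C θ u0 la V U' Γ t a0 l v uu g h x Vt w u dm Λ L : ℝ}
    {ξ vt ω μ d lp p2 p3 q r : ℝ}
    (X : XD n η C θ u0 la V U' Γ t a0 l v uu g) (c : Ct n C u0 U' h x u dm Λ)
    (hx : U n x ξ) (hV : U n Vt vt) (hw : U n w ω) (hu : T n u μ) (hd : D n dm d)
    (hΛ : U n Λ (2 * η)) (hL : T n L lp) (K : ES η a0 l v uu ξ vt ω μ d lp p2 p3 q r) :
    ∃ σ z, NS n C u0 la V U' h x Vt (n ^ q) w u dm Λ σ z (n ^ r) L (n ^ p2) (n ^ p3) := by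
  have H := X.b
  have η0 := H.η0
  have cs : ∀ y : ℝ, 0 ≤ y → y ≤ 1000 → U n y η := fun y => H.cst
  have c2 := cs 2 (by norm_num) (by norm_num)
  have c4 := cs 4 (by norm_num) (by norm_num)
  have s3 := sq3 X hx
  have Z : LZ η a0 l v uu ξ vt q ω μ (p3 - 6 * lp - 5 * η - ω) (p3 - 6 * lp - 4 * η) :=
    ⟨by linarith [K.z1], by linarith [K.z2], K.z3.imp (fun _ => by linarith) fun _ => by linarith,
      by linarith, by linarith [K.z4], by linarith [K.z5]⟩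
  refine ⟨n ^ ((p2 - 4 * lp - 4 * η) / 2), n ^ (p3 - 6 * lp - 4 * η), c, hV.1, qq X hx hV K.hq,
    H.le hu.1 X.ud K.uU, H.le B.one hL.2 K.L1,
    H.le (H.mul (cs 16 (by norm_num) (by norm_num)) hw) (H.dmul (H.dpow hL.2 3) hu.2)
      (by push_cast; linarith [K.far]), (H.rp _).le, ?_, zz X hx hV hw hu.2 Z, (H.rp _).le, ?_, ?_, ?_⟩
  · refine H.le (H.mul hw (H.add (c := 3 / 2 * (p2 - 4 * lp - 4 * η) - ω) (H.mul c2 X.lu)
      (H.add (c := 3 / 2 * (p2 - 4 * lp - 4 * η) - ω - η)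
      (H.div (H.mul (H.mul (cs 64 (by norm_num) (by norm_num)) X.C) (H.pow hx 2)) X.ld)
      (H.mul (H.mul c2 s3) (H.up q)) ?_ ?_) ?_ ?_)) (H.dpow (B.dp _) 3) ?_
    all_goals
      push_cast
      linarith [K.s1, K.s2, K.s3]
  · refine H.le (H.mul hw (H.add (c := 2 * r - ω)
      (H.div (H.mul (H.mul (cs 256 (by norm_num) (by norm_num)) (H.pow X.C 3)) (H.pow s3 3)) X.ld)
      (H.mul (H.mul c4 (H.pow hx 3)) (H.up q)) ?_ ?_)) (H.dpow (B.dp _) 2) ?_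
    all_goals
      push_cast
      linarith [K.r1, K.r2]
  · have p1 := H.pc hu.1 K.a1
    have p2' := H.pc (c := p2) (H.mul hΛ (H.mul (H.pow hL.1 4) (H.mul c2
      (H.pow (H.up ((p2 - 4 * lp - 4 * η) / 2)) 2)))) (by push_cast; linarith)
    have p3' := H.pc (c := p2) (H.mul hΛ (H.mul (H.pow hL.1 4) (H.mul c4
      (bD_u (b := p2 - 4 * lp - 4 * η) X hw hd 0 (by push_cast; linarith [K.a2])
        (by push_cast; linarith [K.a3]))))) (by push_cast; linarith)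
    have p4 := H.pc (c := p2) (H.mul hΛ (H.up r)) (by linarith [K.a4])
    exact (H.tot 4 (by linarith) (by linarith)).2
  · have p1 := H.pc hu.1 K.b1
    have p2' := H.pc (c := p3) (H.mul hΛ (H.mul (H.pow hL.1 6) (H.mul c4
      (H.up (p3 - 6 * lp - 4 * η))))) (by push_cast; linarith)
    have p3' := H.pc (c := p3) (H.mul hΛ (H.mul (H.pow hL.1 6)
      (H.mul (cs 16 (by norm_num) (by norm_num))
      (bD_u (b := p3 - 6 * lp - 4 * η) X hw hd 1 (by push_cast; linarith [K.b2])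
        (by push_cast; linarith [K.b3]))))) (by push_cast; linarith)
    have p4 := H.pc (c := p3) (H.mul hΛ (H.mul (H.up r) hx)) (by linarith [K.b4])
    have p5 := H.pc (c := p3) (H.mul hΛ (H.mul (H.up r) hV)) (by linarith [K.b5])
    exact (H.tot 5 (by linarith) (by linarith)).2

/-- **the other lines**.  Exponents `e t l ξ ω μ1 μ2 lp p2 p3 L lc χ2 χ3 γ ι κ τ` of
`E θ la x w u1 u2 L P2 P3 Lg Lc X2 X3 G0 j ηc τ` -/
structure EA (η e t l ξ ω μ1 μ2 lp p2 p3 L lc χ2 χ3 γ ι κ τ : ℝ) : Prop where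
  E1 : 0 ≤ e
  w1 : 0 ≤ ω + (1 + t)
  x1 : e + ξ ≤ 0
  u12 : μ1 ≤ μ2
  u2E : e + μ2 ≤ 0
  Ln : 3 * lp ≤ 1
  LL : lp ≤ L
  n2 : p2 ≤ χ2
  n3 : p3 ≤ χ3
  g1 : μ1 ≤ γ
  g2 : ω + 3 / 2 * ξ - l + 2 * η ≤ 2 * γ
  g2' : ω + 2 * η ≤ 2 * γ
  g3 : -(3 / 2) ≤ 2 * γ
  c1 : L ≤ lc
  c2 : lc ≤ 1
  k1 : 2 * lc + ω + η ≤ κ
  k2 : 2 / 3 * (2 * lc + ω) + t + η ≤ κ
  k3 : 2 / 3 * (2 * lc + ω) + ι + η ≤ κ
  k4 : 2 / 3 * (2 * lc + ω) + ξ + η ≤ κ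
  k5 : (lc + ω) / 2 + (2 * lc + ω) / 3 + η ≤ κ
  k6 : (lc + ω) / 2 + χ2 / 2 + η ≤ κ
  k7 : γ + (2 * lc + ω) / 3 + η ≤ κ
  k8 : γ + χ2 / 2 + η ≤ κ
  k9 : χ2 + (2 * lc + ω) / 3 + η ≤ κ
  k10 : 3 / 2 * χ2 + η ≤ κ
  k11 : χ3 + η ≤ κ
  k12 : -1 + η ≤ κ
  uc : e + 2 / 3 * (2 * lc + ω) ≤ t
  t1 : ξ - lc + η ≤ τ
  t2 : κ - t + η ≤ τ
  t3 : τ ≤ ξ
  j1 : e + ι + η ≤ 0
  j2 : e + τ + η ≤ 0
  tw : ω ≤ 3 * τ

/-- **`NA` from the lines** -/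
theorem na_lg {n η E θ la h x w u1 u2 L Lg Lc X2 X3 G0 j ηc τ : ℝ}
    {e t l ξ ω μ1 μ2 lp p2 p3 Lg' lc χ2 χ3 γ ι κ τ' : ℝ} (H : B n η)
    (hE : T n E e) (hθ : T n θ t) (hl : D n la l) (hh : U n h (-(3 / 2))) (hx : T n x ξ)
    (hw : T n w ω) (h1 : U n u1 μ1) (h2 : T n u2 μ2) (hL : U n L lp) (hg : T n Lg Lg')
    (hc : T n Lc lc) (hX : T n X2 χ2) (hY : T n X3 χ3) (hG : T n G0 γ) (hj : U n j ι)
    (hk : T n ηc κ) (hτ : T n τ τ') (K : EA η e t l ξ ω μ1 μ2 lp p2 p3 Lg' lc χ2 χ3 γ ι κ τ') :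
    NA E n θ la h x w u1 u2 L (n ^ p2) (n ^ p3) Lg Lc (n ^ ((2 * lc + ω) / 3)) X2 X3 G0 j ηc τ := by
  have η0 := H.η0
  have cs : ∀ y : ℝ, 0 ≤ y → y ≤ 1000 → U n y η := fun y => H.cst
  have u := H.up ((2 * lc + ω) / 3)
  have s3 : U n √(x ^ 3) (3 / 2 * ξ) := H.mono (H.sqrt (H.pow hx.1 3)) (by push_cast; linarith)
  have G2 := H.dpow hG.2 2
  refine ⟨H.le B.one hE.2 K.E1, H.le B.one (H.dmul hw.2 (H.dmul B.dn hθ.2)) K.w1,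
    H.le (H.mul hE.1 hx.1) B.done K.x1, H.le h1 h2.2 K.u12, H.le (H.mul hE.1 h2.1) B.done K.u2E,
    H.le (H.pow hL 3) B.dn (by push_cast; exact K.Ln), H.le hL hg.2 K.LL, H.le (H.up _) hX.2 K.n2,
    H.le (H.up _) hY.2 K.n3, H.le h1 hG.2 K.g1, ?_, H.le hh G2 (by push_cast; exact K.g3),
    ⟨H.le hg.1 hc.2 K.c1, H.le hc.1 B.dn K.c2⟩, u.1,
    H.le (H.mul (H.pow hc.1 2) hw.1) (H.dpow (B.dp _) 3) (by push_cast; linarith), hj.1, ?_,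
    H.le (H.mul hE.1 (H.pow u 2)) hθ.2 (by push_cast; linarith [K.uc]),
    H.le (H.add (H.div hx.1 hc.2) (H.div hk.1 hθ.2) K.t1 K.t2) hτ.2 le_rfl, H.le hτ.1 hx.2 K.t3,
    H.le (H.mul hE.1 (H.add (c := -e) hj hτ.1 (by linarith [K.j1]) (by linarith [K.j2]))) B.done
      (by linarith), H.le hw.1 (H.dpow hτ.2 3) (by push_cast; exact K.tw)⟩
  · refine H.le (H.mul hw.1 (H.add (c := 2 * γ - ω)
      (H.div (H.mul (cs 12 (by norm_num) (by norm_num)) s3) hl) (cs 4 (by norm_num) (by norm_num))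
      ?_ ?_)) G2 ?_
    all_goals
      push_cast
      linarith [K.g2, K.g2']
  · have a := H.sqrt (H.mul hc.1 hw.1)
    have b := H.sqrt hX.1
    have u2 := H.pow u 2
    have p1 := H.pc (c := κ) (H.pow u 3) (by push_cast; linarith [K.k1])
    have p2' := H.pc (c := κ) (H.mul u2 hθ.1) (by push_cast; linarith [K.k2])
    have p3' := H.pc (c := κ) (H.mul u2 hj) (by push_cast; linarith [K.k3])
    have p4 := H.pc (c := κ) (H.mul u2 hx.1) (by push_cast; linarith [K.k4])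
    have p5 := H.pc (c := κ) (H.mul a u) (by linarith [K.k5])
    have p6 := H.pc (c := κ) (H.mul a b) (by linarith [K.k6])
    have p7 := H.pc (c := κ) (H.mul hG.1 u) (by linarith [K.k7])
    have p8 := H.pc (c := κ) (H.mul hG.1 b) (by linarith [K.k8])
    have p9 := H.pc (c := κ) (H.mul hX.1 u) (by linarith [K.k9])
    have p10 := H.pc (c := κ) (H.mul hX.1 b) (by linarith [K.k10])
    have p11 := H.pc (c := κ) hY.1 K.k11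
    have p12 := H.pc (c := κ) (H.div B.one B.dn) (by linarith [K.k12])
    exact H.le (H.tot (c := κ) 12 (by linarith) (by linarith)) hk.2 le_rfl

end Crest.Agent.T156.Alt.Lq3

end
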