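import Crest.Agent.T156.LPu_3
import Crest.Agent.T156.LtD_29

/-!
# Row 156 (helper13): `Lp86.NS` on the numbers of `LtD_29`
-/

set_option autoImplicit false
set_option linter.unusedSectionVars false

noncomputable section

namespace Crest.Agent.T156.Alt.Lx13

open Real Tr3 Lq3 Lp86 Kn72

/-- the exponents of the data under `Need`; `X = lg xM`, `φ = lg PhN` -/
structure Dn (c η μ a v uu X φ : ℝ) : Prop where
  c0 : 0 < c
  c1 : c ≤ 1 / 2000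
  η0 : 0 < η
  η1 : 10000 * η ≤ c
  X0 : 0 ≤ X
  X1 : μ + 1 / 3 ≤ X
  X2 : X ≤ μ + 1 / 3 + 4 * c
  X3 : X ≤ 1 / 3 - 7 * c
  μ1 : μ ≤ -(7 * c)
  a1 : -(1 / 6) - c / 2 - X / 2 ≤ a
  a2 : a ≤ -(1 / 6) + 3 / 2 * c + η - X / 2
  v1 : -(1 / 6) + 3 / 4 * c ≤ v
  v2 : v ≤ -(1 / 6) + 3 * c
  u1 : -(1 / 2) - c / 4 - X ≤ uu
  u2 : uu ≤ -(1 / 2) + 4 * c - X
  φ1 : -(1 / 2) + c / 2 ≤ φ
  φ2 : 2 * a ≤ φ
  φ3 : φ ≤ -(1 / 9)

theorem Dn.ez {c η μ a v uu X φ ξ vt χ p3 : ℝ} (h : Dn c η μ a v uu X φ) (ξ1 : 2 * a ≤ 3 * ξ)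
    (ξ2 : 3 * ξ ≤ φ) (hv : vt ≤ c / 100 + (4 * c - 47 / 300) / 3 ∨ vt ≤ c / 100 - 1 / 6 + X / 2)
    (hχ : φ ≤ χ ∨ 2 / 3 * φ - 7 / 60 ≤ χ) (p1 : -(101 / 200) ≤ p3) (p2 : 3 / 2 * χ ≤ p3) :
    ∃ q r, EZ η μ a v uu ξ vt (-(51 / 100) - X) 0 χ p3 (-(51 / 100) - X - η) q r := by
  obtain ⟨c0, c1, η0, η1, X0, X1, X2, X3, μ1, a1, a2, v1, v2, u1, u2, φ1, φ2, φ3⟩ := h
  obtain ⟨q, q1, q2, q3⟩ : ∃ q, 3 / 2 * ξ - uu / 2 + 2 * η ≤ q ∧ vt + 2 * η ≤ q ∧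
      (q ≤ φ / 2 + 1 / 4 + c / 8 + X / 2 + 2 * η ∨ q ≤ vt + 2 * η) := by
    rcases le_total (3 / 2 * ξ - uu / 2) vt with e | e
    · exact ⟨_, by linarith, le_rfl, .inr le_rfl⟩
    · exact ⟨_, le_rfl, by linarith, .inl (by linarith)⟩
  obtain ⟨r, r1, r2, r3⟩ : ∃ r, -1 - μ + 9 / 2 * ξ - a + 5 * η ≤ 2 * r ∧
      -1 - μ + 3 * ξ + q + 2 * η ≤ 2 * r ∧
      (2 * r ≤ -1 - μ + 9 / 2 * ξ - a + 5 * η ∨ 2 * r ≤ -1 - μ + 3 * ξ + q + 2 * η) := by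
    rcases le_total (-1 - μ + 9 / 2 * ξ - a + 5 * η) (-1 - μ + 3 * ξ + q + 2 * η) with e | e
    · exact ⟨(-1 - μ + 3 * ξ + q + 2 * η) / 2, by linarith, by linarith, .inr (by linarith)⟩
    · exact ⟨(-1 - μ + 9 / 2 * ξ - a + 5 * η) / 2, by linarith, by linarith, .inl (by linarith)⟩
  have k : χ ≥ -(1 / 2) := by rcases hχ with e | e <;> linarith
  have w : vt ≤ -(1 / 20) + X / 2 := by rcases hv with e | e <;> linarith
  refine ⟨q, r, by linarith, by linarith, by linarith, ⟨by linarith, by linarith, by linarith⟩,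
    .inl ⟨q1, q2⟩, by linarith, le_rfl, by linarith, by linarith, ?_, ?_, by linarith, by linarith,
    .inl (by linarith), by linarith, ?_, r1, r2, by linarith, by linarith, ?_, ?_, by linarith,
    by linarith, by linarith, ?_, ?_⟩
  · rcases hχ with e | e <;> linarith
  · rcases hχ with e | e <;> rcases q3 with e | e <;> linarith
  · rcases hv with e | e <;> rcases q3 with e | e <;> linarith
  · rcases hχ with e | e <;> linarith
  · rcases hχ with e | e <;> rcases r3 with e | e <;> rcases q3 with e | e <;> linarith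
  · rcases hχ with e | e <;> rcases r3 with e | e <;> rcases q3 with e | e <;> linarith
  · rcases hv with e | e <;> rcases hχ with e | e <;> rcases r3 with e | e <;>
      rcases q3 with e | e <;> linarith

theorem ns_mono {n C u0 la V U h x Vt Q w u dm Λ s z ρ L P2 P3 P2' P3' : ℝ}
    (S : NS n C u0 la V U h x Vt Q w u dm Λ s z ρ L P2 P3) (a : P2 ≤ P2') (b : P3 ≤ P3') :
    NS n C u0 la V U h x Vt Q w u dm Λ s z ρ L P2' P3' :=
  ⟨S.ct, S.V0, S.hQ, S.uU, S.L1, S.far, S.σ0, S.σ1, S.z1, S.ρ0, S.ρ1, S.n2.trans a, S.n3.trans b⟩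

variable {β c0 C0 c0' C0' η' : ℝ} {A : ℕ} {c η K K' : ℝ} {p : Pm} {σ t x y : ℝ} {Q : Pl}
  (X : Nr44.Cx β c0 C0 A c η K' p σ t)
include X

theorem t_nc (e : ℝ) : T p.n (p.nc e) (e * c) := by
  rw [Pm.nc, X.H.hc]; exact tp (B.of X.H) _

theorem xM0 : 0 < p.xM t := one_pos.trans_le (le_max_left _ _)

theorem lg_xM : logb p.n (p.xM t) = max 0 (logb p.n (p.muG t) + 1 / 3) := by
  rw [Pm.xM, lg_max X.H.N1 one_pos (mul_pos X.θ0 (X.H.rp0 _)), logb_one,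
    logb_mul X.θ0.ne' (X.H.rp0 _).ne', X.H.lg_rp]

theorem need_lg (nd : p.Need t) : -(4 * c) ≤ logb p.n (p.muG t) + 1 / 3 := by
  have a := X.H.lg_mono (pow_pos X.H.κ0 4) nd
  rw [logb_mul X.θ0.ne' (X.H.rp0 _).ne', X.H.lg_rp, logb_pow, X.H.lg_κ] at a
  push_cast at a; linarith

theorem t_uL : T p.n (p.uL t) (-(51 / 100) - logb p.n (p.xM t)) := by
  have H := B.of X.H
  have a := tl H (xM0 X)
  rw [Pm.uL, neg_div]
  exact ⟨H.div (H.up _) a.2, H.ddiv (B.dp _) a.1 (xM0 X)⟩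

theorem la_Xlo : p.laG σ ^ 2 ≤ p.XloL σ t := by
  have H := B.of X.H
  refine le_min (X.la_Pt.trans (min_le_left _ _)) (H.le (H.pow (H.ul X.la0) 2)
    (H.ddiv (H.dmul (t_nc X _).2 (H.dmul (t_nc X _).2 (H.dpow (H.dmul (H.dl X.sM0) (H.dl X.la0)) 2)))
      (H.ul X.θ0) X.θ0) ?_)
  push_cast
  linarith [X.lg_sM.1, (X.H.lg_muG' X.Mt).2, X.H.c_pos]

theorem d_X2 : D p.n (p.X2L t)
    (min (logb p.n (p.PhN t)) (2 / 3 * logb p.n (p.PhN t) - 7 / 60)) := by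
  have H := B.of X.H
  refine H.dmono (H.dmul (t_nc X _).2 (D.min (a := min (logb p.n (p.PhN t))
    (2 / 3 * logb p.n (p.PhN t) - 7 / 60)) (H.dmono (H.dl X.Ph0) (min_le_left _ _))
    (H.dmono (H.dmul (H.dpow (H.drpw (H.dl X.Ph0) _) 2) ((B.dp _).of_le (le_max_right _ _)))
      ((min_le_right _ _).trans (le_of_eq (by push_cast; ring)))))) (by linarith [X.H.c_pos])

variable (G : GrD K c0' C0' η' p σ t Q) (nd : p.Need t)
include G nd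

theorem dn : Dn c η (logb p.n (p.muG t)) (logb p.n (p.laG σ)) (logb p.n (p.Vc (nu p σ)))
    (logb p.n (p.u2 (nu p σ))) (logb p.n (p.xM t)) (logb p.n (p.PhN t)) := by
  have L := lg_gst X G
  have n := need_lg X nd
  have c0 := X.H.c_pos
  have c1 := X.hc
  have η0 := X.H.η_pos
  have η1 := X.hη
  have b := X.H.lg_PhG_bds X.hy.hη X.hy.hε X.Mt X.E1 X.hy.E2
  have φ := X.lg_Ph
  have x0 := le_max_left 0 (logb p.n (p.muG t) + 1 / 3)
  have x1 := le_max_right 0 (logb p.n (p.muG t) + 1 / 3)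
  have x2 : max 0 (logb p.n (p.muG t) + 1 / 3) ≤ logb p.n (p.muG t) + 1 / 3 + 4 * c :=
    max_le (by linarith) (by linarith)
  have x3 : max 0 (logb p.n (p.muG t) + 1 / 3) ≤ 1 / 3 - 7 * c :=
    max_le (by linarith) (by linarith [L.μ1.2])
  have w : logb p.n (nu p σ) + 1 / 3 ≤ max 0 (logb p.n (p.muG t) + 1 / 3) := by
    rcases le_max_iff.1 L.ν2 with e | e <;> linarith
  have w' := L.ν1.1
  rw [← lg_xM X] at x0 x1 x2 x3 w
  refine ⟨c0, c1, η0, η1, x0, x1, x2, x3, L.μ1.2, ?_, ?_, ?_, ?_, ?_, ?_, by linarith [b.1],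
    by linarith [X.lg_laΦ], by linarith [b.2]⟩
  all_goals rcases L.pl with ⟨_, _, _, _⟩ | ⟨_, _, _, _⟩ <;> linarith

theorem u_VL : U p.n (p.VL σ t)
    (c / 100 + max ((4 * c - 47 / 300) / 3) (logb p.n (p.xM t) / 2 - 1 / 6)) := by
  have H := B.of X.H
  have d := dn X G nd
  have a := le_max_left ((4 * c - 47 / 300) / 3) (logb p.n (p.xM t) / 2 - 1 / 6)
  have b := le_max_right ((4 * c - 47 / 300) / 3) (logb p.n (p.xM t) / 2 - 1 / 6)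
  refine H.mono (H.mul (t_nc X _).1 (U.max (U.max
    (H.mono (H.rpw (H.div (tw X G).1 (t_uL X).2) _) (le_trans ?_ a))
    (H.mono (H.sqrt (H.ul X.θ0)) (le_trans ?_ b))) (U.max
    (H.mono (H.sqrt (H.ul X.Ph0)) (le_trans ?_ a)) (H.mono (H.ul X.Vc0) (le_trans ?_ a)))))
    (by linarith)
  all_goals linarith [d.X1, d.X2, d.φ3, d.v2, d.c0, d.c1]

/-- **the lines of the sizes** -/
theorem ezL (y0 : p.XloL σ t ≤ y) (y1 : y ≤ p.PhN t) (x0 : 0 < x) (hx : x ^ 3 = y) :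
    ∃ vt χ p3 d q r, U p.n (p.VL σ t) vt ∧ D p.n (p.X2L t) χ ∧ D p.n (p.X3L t) p3 ∧
      EZ η (logb p.n (p.muG t)) (logb p.n (p.laG σ)) (logb p.n (p.Vc (nu p σ)))
        (logb p.n (p.u2 (nu p σ))) (logb p.n x) vt (-(51 / 100) - logb p.n (p.xM t)) 0 χ p3
        d q r := by
  have H := B.of X.H
  have a := X.H.lg_mono (pow_pos X.la0 2) (((la_Xlo X).trans y0).trans_eq hx.symm)
  have b := X.H.lg_mono (pow_pos x0 3) (hx.trans_le y1)
  rw [logb_pow] at b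
  rw [logb_pow, logb_pow] at a
  push_cast at a b
  have e := d_X2 X
  have e0 := (H.pos e).le
  obtain ⟨q, r, Z⟩ := (dn X G nd).ez a b
    (vt := c / 100 + max ((4 * c - 47 / 300) / 3) (logb p.n (p.xM t) / 2 - 1 / 6))
    ((max_choice _ _).imp (fun h => by rw [h]) fun h => by rw [h]; linarith)
    ((min_choice _ _).imp (fun h => h.ge) fun h => h.ge) (le_max_left _ _) (le_max_right _ _)
  refine ⟨_, _, _, _, q, r, u_VL X G nd, e, ?_, Z⟩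
  rcases max_choice (-(101 / 200)) (3 / 2 * min (logb p.n (p.PhN t))
    (2 / 3 * logb p.n (p.PhN t) - 7 / 60)) with h | h <;> rw [h]
  · rw [← neg_div]
    exact (B.dp _).of_le (le_add_of_nonneg_right (rpow_nonneg e0 _))
  · exact (H.drpw e _).of_le (le_add_of_nonneg_left (H.rp _).le)

/-- **`NS` on `LtD_29`** -/
theorem nsL (y0 : p.XloL σ t ≤ y) (y1 : y ≤ p.PhN t) (x0 : 0 < x) (hx : x ^ 3 = y) :
    ∃ q dm s z ρ, NS p.n (8 * K ^ 2) (Plt13.u0 p (nu p σ)) (p.laG σ) (p.Vc (nu p σ)) (p.u2 (nu p σ))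
      (hh p) x (p.VL σ t) q (p.wL t) (p.uL t) dm (12 * log p.n) s z ρ 1 (p.X2L t) (p.X3L t) := by
  obtain ⟨vt, χ, p3, d, q, r, hV, h2, h3, Z⟩ := ezL X G nd y0 y1 x0 hx
  obtain ⟨dm, s, z, S⟩ := ns X G (tl (B.of X.H) x0) hV (t_uL X) ⟨B.one, B.done⟩ Z
  exact ⟨_, dm, s, z, _, ns_mono S h2 h3⟩

end Crest.Agent.T156.Alt.Lx13

end
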