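import Crest.Agent.T156.QLip_98

/-!
# Row 156, block Q on a cascade: windows `ρ`, independent tolerance `tl` (helper57)
-/

set_option autoImplicit false
set_option maxHeartbeats 400000
set_option linter.unusedVariables false

noncomputable section

namespace Crest.Agent.T156.Cas.G57

open MeasureTheory Real Finset
open Crest.Agent.T157.E Crest.Agent.T157.Casc Crest.Agent.T157.SL
open Crest.Agent.T156.Cas.Sy41 Crest.Agent.T156.Q57 Crest.Agent.T156.Cas.Lp12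
open Crest.Agent.T156.Q57.Blk24 (Nw Nw_v Nw_ge Nw_one Nw_two lip_near)
open QCas98

variable {Ω : Type} [Fintype Ω] {w : Ω → ℝ} {L : List (Lv Ω)} {h : Ω → ℝ} {l₀ : Lv Ω} {τ : ℕ → ℝ}

/-- a block with the clock `c`, windows `ρ` and tolerance `tl` -/
structure GB (w : Ω → ℝ) (L : List (Lv Ω)) (h : Ω → ℝ) (l₀ : Lv Ω) (LL j0 j1 : ℕ)
    (x v w3 K lam : ℝ) (c ρ tl : ℕ → ℝ) : Prop where
  j01 : 1 ≤ j0
  le : j0 ≤ j1
  c0 : 0 ≤ c j0
  clk : ∀ k, j0 ≤ k → k < j1 → c k ≤ c (k + 1) ∧ c (k + 1) ≤ c k + v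
  lip : ∀ k, j0 ≤ k → k < j1 → |ρ (k + 1) - ρ k| ≤ v / 16
  r16 : ∀ k, j0 ≤ k → k ≤ j1 → 16 * v ≤ ρ k
  ge : ∀ k, j0 ≤ k → k ≤ j1 → ρ k ≤ tl k
  loc : ∀ k, j0 ≤ k → k ≤ j1 → |rho w L l₀ h k - c k| ≤ tl k
  near : ∀ i k : ℕ, j0 ≤ i → i ≤ j1 → j0 ≤ k → k ≤ j1 → |(i : ℝ) - k| * v ≤ 4 * ρ k →
    tl i ≤ K * tl k
  back : ∀ i k n : ℕ, j0 ≤ i → k ≤ j1 → i + n ≤ k → n * v ≤ ρ k → tl i * n ≤ K * tl k * ((k : ℝ) - i)
  old : ∀ k n : ℕ, j0 ≤ k → k ≤ j1 → n ≤ 2 ^ LL → n * v ≤ ρ k → min (c k) 2 * n ≤ K * tl k * 2 ^ LL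
  T4 : ∀ k, j0 ≤ k → k ≤ j1 →
    ((LL : ℝ) + 2) ^ 2 * (lam * w3 / x) ≤ tl k * min (ρ k / 2) (2 ^ LL * v)
  T3 : ∀ k, j0 ≤ k → k ≤ j1 → 2 ≤ tl k ∨ ∀ y : ℕ, j0 < y → y < j1 → |(y : ℝ) - k| * v ≤ ρ k →
    ((LL : ℝ) + 2) ^ 2 * (lam * K * w3) * v ≤ dm L 0 y * (tl k * min (ρ k / 2) (2 ^ LL * v) ^ 2)

section gb
variable {LL j0 j1 j2 : ℕ} {x v w3 K lam : ℝ} {c ρ tl : ℕ → ℝ} {t' : ℕ → ℕ}

theorem GB.glip (B : GB w L h l₀ LL j0 j1 x v w3 K lam c ρ tl) (hv : 0 < v) (i j : ℕ) :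
    |cl j0 j1 ρ i - cl j0 j1 ρ j| ≤ |(i : ℝ) - j| * v / 16 := by
  rw [mul_div_assoc]
  exact cl_lip B.le (by positivity) B.lip i j

theorem GB.g16 (B : GB w L h l₀ LL j0 j1 x v w3 K lam c ρ tl) (j : ℕ) : 16 * v ≤ cl j0 j1 ρ j :=
  B.r16 _ (le_max_left _ _) (by have := B.le; omega)

theorem GB.gge (B : GB w L h l₀ LL j0 j1 x v w3 K lam c ρ tl) (j : ℕ) :
    cl j0 j1 ρ j ≤ cl j0 j1 tl j :=
  B.ge _ (le_max_left _ _) (by have := B.le; omega)

theorem GB.gnear (B : GB w L h l₀ LL j0 j1 x v w3 K lam c ρ tl) (hv : 0 < v) (i k : ℕ)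
    (hik : |(i : ℝ) - k| * v ≤ 4 * cl j0 j1 ρ k) : cl j0 j1 tl i ≤ K * cl j0 j1 tl k := by
  have le := B.le
  refine B.near _ _ (le_max_left _ _) (by omega) (le_max_left _ _) (by omega) (le_trans ?_ hik)
  refine mul_le_mul_of_nonneg_right ?_ hv.le
  push_cast
  rw [max_comm, max_comm (j0 : ℝ)]
  exact (abs_max_sub_max_le_abs _ _ _).trans ((abs_min_sub_min_le_max _ _ _ _).trans (by simp))

theorem GB.win (B : GB w L h l₀ LL j0 j1 x v w3 K lam c ρ tl) (D : Dat w L h l₀ τ)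
    (R : Ric L τ t' LL j0 j1 j2 x v w3 K) (hl : 0 < lam) {a0 a1 : ℕ} (h0 : j0 + 2 ^ LL < a0)
    (h1 : a1 + 2 ^ LL ≤ j1) :
    (sysC w L h l₀).Win LL v (lam * w3 / x) (lam * K * w3) K a0 a1 (Nw LL v (cl j0 j1 ρ))
      (cl j0 j1 tl) (fun j => min (cl j0 j1 c j) 2)
      fun j => ((LL : ℝ) + 2) ^ 2 * (lam * K * w3) * v /
        (tl j * min (ρ j / 2) (2 ^ LL * v) ^ 2) := by
  have hv := R.v0
  have x0 := R.x0
  have K1 := R.K1
  have w0 : 0 < w3 := by linarith [R.vw]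
  have le := B.le
  have hP : 0 < 2 ^ LL := Nat.two_pow_pos LL
  set σ := cl j0 j1 ρ with hσ
  have t16 : ∀ j, 16 * v ≤ σ j := B.g16
  have lip : ∀ i j : ℕ, |σ i - σ j| ≤ |(i : ℝ) - j| * v / 16 := B.glip hv
  have t0 : ∀ j, 0 ≤ σ j := fun j => by linarith [t16 j]
  have tL : ∀ j, σ j ≤ cl j0 j1 tl j := B.gge
  have Nv : ∀ j, Nw LL v σ j * v ≤ σ j := fun j => Nw_v hv (t0 j)
  have Nl : ∀ j, min (σ j / 2) (2 ^ LL * v) ≤ Nw LL v σ j * v := fun j =>
    Nw_ge hv (t16 j) ((min_le_left _ _).trans (by linarith [t0 j])) (min_le_right _ _)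
  have NU : ∀ j, Nw LL v σ j ≤ 2 ^ LL := fun j => min_le_right _ _
  have es : ∀ j, a0 ≤ j → j ≤ a1 → σ j = ρ j := fun j a b => cl_eq ρ (by omega) (by omega)
  have et : ∀ j, a0 ≤ j → j ≤ a1 → cl j0 j1 tl j = tl j := fun j a b =>
    cl_eq tl (by omega) (by omega)
  have ec : ∀ j, a0 ≤ j → j ≤ a1 → cl j0 j1 c j = c j := fun j a b => cl_eq c (by omega) (by omega)
  have st : ∀ i j : ℕ, i ≤ j → 0 ≤ cl j0 j1 c j - cl j0 j1 c i ∧
      cl j0 j1 c j - cl j0 j1 c i ≤ ((j : ℝ) - i) * v := fun i j hij => by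
    have := cl_steps le le_rfl hv.le (f := c)
      (fun k a b => ⟨by linarith [(B.clk k a b).1], by linarith [(B.clk k a b).2]⟩) hij
    rwa [mul_zero] at this
  have c0 : ∀ j, 0 ≤ cl j0 j1 c j := fun j => by
    have a := (st 0 j (Nat.zero_le j)).1
    have b : cl j0 j1 c 0 = c j0 := by simp [cl]
    linarith [B.c0]
  refine ⟨hv, K1, by positivity, by positivity, fun j => Nw_one hv (t16 j), NU,
    fun i j hij => ?_, fun j => ⟨le_min (c0 j) zero_le_two, min_le_right _ _⟩,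
    fun j => (Nv j).trans (tL j), fun j a b => ?_, fun i j _ _ _ _ h1 h2 => ?_,
    fun i j a b h1 _ => ?_, fun j a b => ?_, fun j a b => ?_, fun j a b => ?_⟩
  · obtain ⟨a, b⟩ := st i j hij
    have : 0 ≤ ((j : ℝ) - i) * v := a.trans b
    constructor
    · exact sub_nonneg.2 (min_le_min (by linarith) le_rfl)
    · rcases le_total (cl j0 j1 c i) 2 with e | e
      · rw [min_eq_left e]; linarith [min_le_left (cl j0 j1 c j) 2]
      · rw [min_eq_right e]; linarith [min_le_right (cl j0 j1 c j) 2]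
  · rw [sysC_r L h l₀ D.hw, ec j a b, et j a b]
    have k := abs_le.1 (B.loc j (by omega) (by omega))
    have r1 := Q33.rho_le D.hw L D.one h j
    rcases le_total (c j) 2 with e | e
    · rw [min_eq_left e]; exact abs_le.2 k
    · rw [min_eq_right e]; exact abs_le.2 ⟨by linarith [k.1], by linarith [k.1]⟩
  · have k := abs_le.1 (lip_near hv lip h1 h2)
    push_cast at k
    have := Nv j
    have := t0 j
    refine ⟨Nw_two hv (t0 i) (t16 j) (by linarith [k.2]),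
      Nw_two hv (t0 j) (t16 i) (by linarith [k.1]), B.gnear hv i j ?_⟩
    have a1 : (i : ℝ) ≤ j + 4 * Nw LL v σ j := by exact_mod_cast h1
    have a2 : (j : ℝ) ≤ i + 4 * Nw LL v σ j := by exact_mod_cast h2
    have := mul_le_mul_of_nonneg_right
      (abs_le.2 ⟨by linarith, by linarith⟩ : |(i : ℝ) - j| ≤ 4 * Nw LL v σ j) hv.le
    linarith
  · rw [et i a (by omega), et j (by omega) b]
    exact B.back i j _ (by omega) (by omega) h1 ((Nv j).trans (es j (by omega) b).le)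
  · rw [ec j a b, et j a b]
    exact B.old j _ (by omega) (by omega) (NU j) ((Nv j).trans (es j a b).le)
  · refine (B.T4 j (by omega) (by omega)).trans ?_
    rw [← es j a b, ← et j a b]
    exact mul_le_mul_of_nonneg_left (Nl j) ((t0 j).trans (tL j))
  · rw [et j a b]
    have r0 : 0 < ρ j := by linarith [t16 j, es j a b]
    have r1 : 0 < tl j := r0.trans_le (B.ge j (by omega) (by omega))
    have m0 : 0 < min (ρ j / 2) (2 ^ LL * v) := lt_min (by positivity) (by positivity)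
    refine (B.T3 j (by omega) (by omega)).imp id fun h3 => ⟨by positivity, fun y a' b' => ?_, ?_⟩
    · have j01 := B.j01
      have := R.j12.trans R.j2L
      have := NU j
      rw [sysC_dm w L h l₀ (by omega) (by omega), div_le_iff₀ (by positivity)]
      refine h3 y (by omega) (by omega) (le_trans ?_ ((Nv j).trans (es j a b).le))
      have a1 : (j : ℝ) ≤ y + Nw LL v σ j := by exact_mod_cast a'
      have a2 : (y : ℝ) ≤ j + Nw LL v σ j := by exact_mod_cast b'.le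
      exact mul_le_mul_of_nonneg_right (abs_le.2 ⟨by linarith, by linarith⟩) hv.le
    · have e1 := Nl j
      rw [es j a b] at e1
      have e2 := pow_le_pow_left₀ m0.le e1 2
      rw [div_mul_eq_mul_div, div_mul_eq_mul_div, le_div_iff₀ (by positivity)]
      have e3 : 0 ≤ ((LL : ℝ) + 2) ^ 2 * (lam * K * w3) * tl j := by positivity
      nlinarith [mul_le_mul_of_nonneg_left e2 e3]

end gb

/-- **(Q2) for windows `ρ` and a tolerance `tl`** -/
theorem gen_syn (r i : ℕ) (K : ℝ) (hi : 1 ≤ i) (hr : r ≤ i) : ∃ C : ℝ, 1 ≤ C ∧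
    ∀ (Ω : Type) [Fintype Ω] (w : Ω → ℝ) (L : List (Lv Ω)) (h : Ω → ℝ) (l₀ : Lv Ω) (τ : ℕ → ℝ)
      (t' : ℕ → ℕ) (LL j0 j1 j2 a0 a1 : ℕ) (x v w3 lam : ℝ) (c ρ tl : ℕ → ℝ),
      Dat w L h l₀ τ → Ric L τ t' LL j0 j1 j2 x v w3 K → C ≤ lam → Pol r LL j1 v lam →
      GB w L h l₀ LL j0 j1 x v w3 K lam c ρ tl →
      j0 + (r + 3) * (8 * 2 ^ LL) ≤ a0 → a1 + (r + 3) * (8 * 2 ^ LL) ≤ j1 → a0 ≤ a1 →
      Syn w L h l₀ (2 ^ i) a0 a1 v (2 * lam ^ 3) (lam ^ 4 * (((LL : ℝ) + 2) ^ 2 * (lam * K * w3)))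
        (Nw LL v (cl j0 j1 ρ)) (cl j0 j1 tl) c := by
  obtain ⟨C, C1, H⟩ := sync_cas r i K hi hr
  refine ⟨C, C1, ?_⟩
  intro Ω _ w L h l₀ τ t' LL j0 j1 j2 a0 a1 x v w3 lam c ρ tl D R hC P B h0 h1 h01
  have hP : 0 < 2 ^ LL := Nat.two_pow_pos LL
  have l1 : 1 ≤ lam := C1.trans hC
  have e : (r + 3) * (8 * 2 ^ LL) = (r + 2) * (8 * 2 ^ LL) + 8 * 2 ^ LL := by ring
  have S := H Ω w L h l₀ τ t' LL (j0 + 2 ^ LL + 1) (j1 - 2 ^ LL) j2 a0 a1 x v w3 lam _ _ _ _ D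
    (R.sub (by omega) (by omega)) hC ⟨P.v1, P.L1, le_trans (by
      have : ((j1 - 2 ^ LL : ℕ) : ℝ) ≤ j1 := by exact_mod_cast Nat.sub_le _ _
      linarith) P.j1⟩ (B.win D R (by linarith) (Nat.lt_succ_self _) (by omega)) (by omega) (by omega)
  have v0 := R.v0
  have t0 : ∀ j, 0 ≤ cl j0 j1 tl j := fun j => by linarith [B.g16 j, B.gge j]
  have l3 : 1 ≤ lam ^ 3 := one_le_pow₀ l1
  have k0 : ∀ j, 0 ≤ lam ^ 3 * cl j0 j1 tl j := fun j => by have := t0 j; positivity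
  refine ⟨fun j a b => ?_, S.ric, fun j j' a b a' b' =>
    (S.inc j j' a b a' b').mono (by linarith [k0 j])⟩
  have k1 := ((S.loc j a b).add D.hw (Mo.const D.hw (min (cl j0 j1 c j) 2 - c j))).congr
    (F := fun q => rP w L l₀ j q - c j) fun _ => by ring
  refine k1.mono ?_
  have k2 : |min (cl j0 j1 c j) 2 - c j| ≤ cl j0 j1 tl j := by
    rw [cl_eq c (by omega) (by omega), cl_eq tl (by omega) (by omega)]
    have k := abs_le.1 (B.loc j (by omega) (by omega))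
    have r1 := Q33.rho_le D.hw L D.one h j
    rcases le_total (c j) 2 with e | e
    · rw [min_eq_left e, sub_self, abs_zero]; linarith [k.1, k.2]
    · rw [min_eq_right e]; exact abs_le.2 ⟨by linarith [k.1], by linarith [k.1, k.2]⟩
  have k3 := le_mul_of_one_le_left (t0 j) l3
  linarith

section sums
variable {p a0 a1 LL : ℕ} {v A G K : ℝ} {σ T c : ℕ → ℝ}

theorem win_T (hv : 0 < v) (t16 : ∀ j, 16 * v ≤ σ j)
    (lip : ∀ i j : ℕ, |σ i - σ j| ≤ |(i : ℝ) - j| * v / 16)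
    (nr : ∀ i k : ℕ, |(i : ℝ) - k| * v ≤ 4 * σ k → T i ≤ K * T k) {j y : ℕ}
    (hy : y ∈ Ico j (j + Nw LL v σ j)) : T y ≤ K * T j ∧ T j ≤ K * T y ∧
      min (σ y) (2 ^ LL * v) ≤ 4 * (Nw LL v σ j * v) := by
  obtain ⟨e1, e2, e3⟩ := win_near hv t16 lip hy
  obtain ⟨a, b⟩ := mem_Ico.1 hy
  have t0 : 0 ≤ σ j := by linarith [t16 j]
  have a1 : (j : ℝ) ≤ y := by exact_mod_cast a
  have a2 : (y : ℝ) ≤ j + Nw LL v σ j := by exact_mod_cast b.le
  have a3 := mul_le_mul_of_nonneg_right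
    (abs_le.2 ⟨by linarith, by linarith⟩ : |(y : ℝ) - j| ≤ Nw LL v σ j) hv.le
  have a4 := Nw_v (L := LL) hv t0
  have a5 := Nw_ge (L := LL) hv (t16 j) (x := min (σ y) (2 ^ LL * v) / 4)
    (by linarith [min_le_left (σ y) (2 ^ LL * v)])
    (by linarith [min_le_right (σ y) (2 ^ LL * v), (by positivity : (0 : ℝ) ≤ 2 ^ LL * v)])
  exact ⟨nr y j (by linarith), nr j y (by rw [abs_sub_comm]; linarith), by linarith⟩

variable (S : Syn w L h l₀ p a0 a1 v A G (Nw LL v σ) T c) (D : Dat w L h l₀ τ)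
  (hv : 0 < v) (t16 : ∀ j, 16 * v ≤ σ j) (lip : ∀ i j : ℕ, |σ i - σ j| ≤ |(i : ℝ) - j| * v / 16)
  (ge : ∀ j, σ j ≤ T j) (nr : ∀ i k : ℕ, |(i : ℝ) - k| * v ≤ 4 * σ k → T i ≤ K * T k)
  (hp : 1 ≤ p) (hK : 1 ≤ K) (hG : 0 < G) {b0 b1 U : ℕ} {u Gm : ℕ → ℝ} (h0 : a0 ≤ b0)
  (hU : ∀ j, b0 ≤ j → j < b1 → Nw LL v σ j ≤ U) (u0 : ∀ y, 0 ≤ u y) (G0 : ∀ y, 0 ≤ Gm y)
  (maj : ∀ j, b0 ≤ j → j < b1 → ∀ y ∈ Ico j (j + Nw LL v σ j), ∀ y' ∈ Ico j (j + Nw LL v σ j),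
    u y ≤ Gm y')
include S D hv t16 lip ge nr hp hK hG h0 hU u0 G0 maj

omit S D hp hG h0 hU u0 G0 maj in
theorem ratio {j y : ℕ} (hy : y ∈ Ico j (j + Nw LL v σ j)) :
    T j / (Nw LL v σ j * v) ≤ 4 * K * (T y / min (σ y) (2 ^ LL * v)) := by
  obtain ⟨-, e2, e3⟩ := win_T hv t16 lip nr hy
  have m0 : 0 < min (σ y) (2 ^ LL * v) := lt_min (by linarith [t16 y]) (by positivity)
  have T0 : 0 ≤ T y := by linarith [t16 y, ge y]
  rw [← mul_div_assoc, div_le_div_iff₀ (by linarith) m0]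
  nlinarith [mul_le_mul e2 e3 m0.le (by positivity)]

/-- **(A)** weighted sums of `mᵀ A m` -/
theorem asum (h1 : b1 ≤ a1 + 1) :
    Mo w L h p (fun q => ∑ y ∈ Ico b0 b1, u y * aP w L l₀ y q)
      (4 * K * G * ∑ y ∈ Ico b0 (b1 + U), Gm y * (T y / min (σ y) (2 ^ LL * v))) := by
  have t0 : ∀ j, 0 < σ j := fun j => by linarith [t16 j]
  have T0 : ∀ j, 0 < T j := fun j => (t0 j).trans_le (ge j)
  refine mo_of_nb D.hw (EP.sum _ fun y _ => (ep_aP D.hw y).const_mul _) ?_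
  have key := Blk24.a_sum N89.nbS D.ok hp (Nw LL v σ) U b0 b1 u (ubw u (Nw LL v σ))
    (fun j => G * (T j / (Nw LL v σ j * v)))
    (fun y => 4 * K * G * (Gm y * (T y / min (σ y) (2 ^ LL * v)))) u0
    (fun y => by have := t0 y; have := T0 y; have := G0 y; positivity)
    (fun j a b => ⟨Nw_one hv (t16 j), hU j a b⟩)
    (fun j a b => by
      simp only [sysC_aa]
      exact nb_of_mo D.hw (S.ric j (by omega) (by omega)))
    fun j a b y hy => ⟨le_ubw u _ hy, by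
      have e1 := ubw_le (G0 y) fun y' hy' => maj j a b y' hy' y hy
      have e2 := ratio hv t16 lip ge nr hK hy
      have := T0 j
      calc _ ≤ Gm y * (G * (4 * K * (T y / min (σ y) (2 ^ LL * v)))) :=
            mul_le_mul e1 (mul_le_mul_of_nonneg_left e2 hG.le) (by positivity) (G0 y)
        _ = _ := by ring⟩
  simp only [sysC_aa] at key
  rw [mul_sum]
  exact key

/-- **(Q3)** the joint bound -/
theorem jsum (h1 : ∀ j, b0 ≤ j → j < b1 → j + Nw LL v σ j ≤ a1 + 1) (hA : 0 ≤ A) {lam : ℝ}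
    (hl : 1 ≤ lam) (hGl : 1 ≤ G * lam ^ p) {i : ℕ} (hi : i ≤ p) :
    ∑ y ∈ Ico b0 b1, u y * EE w L h (fun q => |rP w L l₀ y q - c y| ^ i * aP w L l₀ y q) ≤
      8 * K * G * (lam * A * K ^ 2) ^ i *
        ∑ y ∈ Ico b0 (b1 + U), Gm y * (T y ^ i * (T y / min (σ y) (2 ^ LL * v))) := by
  have t0 : ∀ j, 0 < σ j := fun j => by linarith [t16 j]
  have T0 : ∀ j, 0 < T j := fun j => (t0 j).trans_le (ge j)
  have N0 : ∀ j, (0 : ℝ) < Nw LL v σ j := fun j => by exact_mod_cast Nw_one hv (t16 j)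
  have key := Blk24.q3_sum N89.jointS D.ok hp hi (Nw LL v σ) U b0 b1 c (fun j => A * (K * T j))
    u (ubw u (Nw LL v σ)) (fun j => G * (T j / (Nw LL v σ j * v)))
    (fun y => 8 * K * G * (lam * A * K ^ 2) ^ i *
      (Gm y * (T y ^ i * (T y / min (σ y) (2 ^ LL * v))))) hl
    u0 (fun y => by have := t0 y; have := T0 y; have := G0 y; positivity)
    (fun j a b => ⟨Nw_one hv (t16 j), hU j a b⟩)
    (fun j a b => by
      have := T0 j
      have := N0 j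
      refine ⟨by positivity, hGl.trans (mul_le_mul_of_nonneg_right
        (le_mul_of_one_le_right hG.le ?_) (by positivity))⟩
      rw [le_div_iff₀ (by positivity), one_mul]
      exact (Nw_v hv (t0 j).le).trans (ge j))
    (fun j a b y hy => by
      have e := h1 j a b
      obtain ⟨a', b'⟩ := mem_Ico.1 hy
      exact nb_of_mo D.hw ((S.loc y (by omega) (by omega)).mono (mul_le_mul_of_nonneg_left
        (win_T hv t16 lip nr hy).1 hA)))
    (fun j a b => by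
      have e := h1 j a b
      have := Nw_one (L := LL) hv (t16 j)
      simp only [sysC_aa]
      exact nb_of_mo D.hw (S.ric j (by omega) (by omega)))
    fun j a b y hy => ⟨le_ubw u _ hy, by
      have e1 := ubw_le (G0 y) fun y' hy' => maj j a b y' hy' y hy
      have e0 := (win_T hv t16 lip nr hy).2.1
      have e2 := ratio hv t16 lip ge nr hK hy
      have := T0 j
      have := T0 y
      have := t0 y
      have e3 : (lam * (A * (K * T j))) ^ i ≤ (lam * A * K ^ 2 * T y) ^ i :=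
        pow_le_pow_left₀ (by positivity) (by
          nlinarith [mul_le_mul_of_nonneg_left e0 (show 0 ≤ lam * A * K by positivity)]) i
      calc _ ≤ Gm y * (2 * (lam * A * K ^ 2 * T y) ^ i *
              (G * (4 * K * (T y / min (σ y) (2 ^ LL * v))))) :=
            mul_le_mul e1 (mul_le_mul (by linarith) (mul_le_mul_of_nonneg_left e2 hG.le)
              (by positivity) (by positivity)) (by positivity) (G0 y)
        _ = _ := by rw [mul_pow _ (T y)]; ring⟩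
  rw [mul_sum]
  refine le_trans (le_of_eq (sum_congr rfl fun y _ => ?_)) key
  simp only [sysC_aa]
  rw [← QSys98.int_EE D.hw L h ((((ep_rP D.hw y).sub (EP.const _)).abs.pow i).mul (ep_aP D.hw y))]
  rfl

end sums

end Crest.Agent.T156.Cas.G57
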