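import Crest.Agent.T156.LtD_29
import Crest.Agent.T156.NRn_44
import Crest.Agent.T156.TrU_3
import Crest.Agent.T156.LPg_86

/-!
# Row 156 (helper85): the corner costs of `Lp86.NC` on the numbers of `LtD_29`
-/

set_option autoImplicit false
set_option linter.unusedSectionVars false

noncomputable section

namespace Crest.Agent.T156.Alt.Lc85

open Real Tr3 Lp86
open Crest.Agent.T156.Alt.Kn72 (nu)

/-- exponents of `θ, xM, PhN, la` in the range of (L) -/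
structure F (c η μ ω φ a : ℝ) : Prop where
  c0 : 0 < c
  c1 : c ≤ 1 / 2000
  η0 : 0 < η
  η1 : 10000 * η ≤ c
  μ0 : -(1 / 3) - 4 * c ≤ μ
  μ1 : μ ≤ -(7 * c) + η
  ω0 : 0 ≤ ω
  ω1 : μ + 1 / 3 ≤ ω
  ω2 : ω ≤ μ + 1 / 3 + 4 * c
  φ1 : φ ≤ -(71 / 250)
  a0 : -(1 / 3) - c - ω ≤ 2 * a
  a1 : 2 * a ≤ -(1 / 3) + 2 * c

variable {β c0 C0 : ℝ} {A : ℕ} {c η K : ℝ} {p : Pm} {σ t x y : ℝ}
  (X : Nr44.Cx β c0 C0 A c η K p σ t)
include X

theorem xM0 : 0 < p.xM t := one_pos.trans_le (le_max_left _ _)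

theorem facts (nd : p.Need t) : F c η (logb p.n (p.muG t)) (logb p.n (p.xM t)) (logb p.n (p.PhN t))
    (logb p.n (p.laG σ)) := by
  have H := X.H
  have x0 := mul_pos X.θ0 (H.rp0 ((1 : ℝ) / 3))
  have e : logb p.n (p.muG t * (p.n : ℝ) ^ ((1 : ℝ) / 3)) = logb p.n (p.muG t) + 1 / 3 := by
    rw [logb_mul X.θ0.ne' (H.rp0 _).ne', H.lg_rp]
  have n := H.lg_mono (pow_pos H.κ0 4) nd
  rw [e, logb_pow, H.lg_κ] at n
  push_cast at n
  have w : logb p.n (p.xM t) = max 0 (logb p.n (p.muG t) + 1 / 3) := by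
    rw [Pm.xM, lg_max H.N1 one_pos x0, logb_one, e]
  have c0 := H.c_pos; have c1 := X.hc; have h0 := H.η_pos; have h1 := X.hη
  have w0 : 0 ≤ logb p.n (p.xM t) := w ▸ le_max_left _ _
  have w1 : logb p.n (p.muG t) + 1 / 3 ≤ logb p.n (p.xM t) := w ▸ le_max_right _ _
  have v1 := X.lg_θν
  have v2 := H.lg_mono X.ν0 ((H.oct_mt X.o).1.trans (Pm.mt_le' _))
  rw [lg_max H.N1 X.θ0 (mul_pos H.κ0 (H.rp0 _)), logb_mul H.κ0.ne' (H.rp0 _).ne', H.lg_κ,
    H.lg_rp] at v2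
  refine ⟨c0, c1, h0, h1, by linarith, (H.lg_muG66 X.Mt).2.1, w0, w1,
    w ▸ max_le (by linarith) (by linarith), ?_, ?_, ?_⟩
  · obtain ⟨-, -, e0, e1, s0, s1, x0, x1, m0, m1, m2, up⟩ := Nr44.ex H X.hy
    rcases up with up | up | ⟨up, _, _⟩ | up | ⟨up, _⟩ | up | up | ⟨up, _, _⟩ | ⟨up, _⟩ | up |
      ⟨up, _⟩ <;> linarith
  · rcases X.lg_pl with ⟨_, _, _, _⟩ | ⟨_, _, _, _⟩ <;> rcases le_max_iff.1 v2 with b | b <;>
      linarith
  · rcases X.lg_pl with ⟨_, _, _, _⟩ | ⟨_, _, _, _⟩ <;> linarith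

theorem uc (e : ℝ) : U p.n (p.nc e) (e * c) := by
  rw [Pm.nc, X.H.hc]; exact (B.of X.H).up _
theorem dc (e : ℝ) : D p.n (p.nc e) (e * c) := by
  rw [Pm.nc, X.H.hc]; exact B.dp _
theorem uθ : U p.n (p.muG t) (logb p.n (p.muG t)) := (B.of X.H).ul X.θ0
theorem dθ : D p.n (p.muG t) (logb p.n (p.muG t)) := (B.of X.H).dl X.θ0
theorem uw : U p.n (p.wL t) (-1 - logb p.n (p.muG t)) :=
  (B.of X.H).mono ((B.of X.H).div B.one ((B.of X.H).dmul B.dn (dθ X))) (by linarith)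
theorem uLc : U p.n (p.LcL t) (c / 50 + logb p.n (p.xM t) / 4) :=
  (B.of X.H).mono ((B.of X.H).mul (uc X _) ((B.of X.H).rpw ((B.of X.H).ul (xM0 X)) _)) (by linarith)
theorem dLc : D p.n (p.LcL t) (c / 50 + logb p.n (p.xM t) / 4) :=
  (B.of X.H).dmono ((B.of X.H).dmul (dc X _) ((B.of X.H).drpw ((B.of X.H).dl (xM0 X)) _))
    (by linarith)

/-- the budget -/
theorem dBu : D p.n (p.BuL σ t) (21 / 40 * c + 2 * logb p.n (p.laG σ)) := by
  have H := B.of X.H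
  refine H.dmono (H.dmul (dc X _) (H.dpow (H.dmul (H.dl X.sM0) (H.dl X.la0)) 2)) ?_
  push_cast
  linarith [X.lg_sM.1]

variable (nd : p.Need t)
include nd

theorem uPh : U p.n (p.PhN t) (-(71 / 250)) := (B.of X.H).mono ((B.of X.H).ul X.Ph0) (facts X nd).φ1

theorem uuc : U p.n (p.ucL t) (-(11 / 50)) := by
  have H := B.of X.H
  obtain ⟨_, _, _, _, _, _, _, _, _, _, _, _⟩ := facts X nd
  exact H.mono (H.mul (H.rpw (uLc X) _) (H.rpw (uw X) _)) (by linarith)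

theorem uX2 : U p.n (p.X2L t) (-(283 / 1000)) := by
  have H := B.of X.H
  obtain ⟨_, _, _, _, _, _, _, _, _, _, _, _⟩ := facts X nd
  exact H.mono (H.mul (uc X _) ((uPh X nd).min_l (mul_nonneg (sq_nonneg _)
    (le_max_of_le_right (H.rp _).le)))) (by linarith)

theorem uX3 : U p.n (p.X3L t) (-(53 / 125)) := by
  have H := B.of X.H
  obtain ⟨_, _, _, _, _, _, _, _, _, _, _, _⟩ := facts X nd
  exact H.add (H.up _) (H.rpw (uX2 X nd) _) (by linarith) (by linarith)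

theorem uG0 : U p.n (p.G0L σ t) (-(141 / 500)) := by
  have H := B.of X.H
  obtain ⟨_, _, _, _, _, _, _, _, _, _, _, _⟩ := facts (σ := σ) X nd
  exact H.add3 (H.div (H.mul (uc X _) (H.up _)) (H.dsqrt (H.dl (xM0 X))))
    (H.mul (uc X _) (H.sqrt (H.div (H.mul (uw X) (H.sqrt (uPh X nd))) (H.dl X.la0))))
    (uX2 X nd) (by linarith) (by linarith) (by linarith)

theorem ul0 : U p.n (p.l0L t) (-(11 / 100)) := by
  have H := B.of X.H
  obtain ⟨_, _, _, _, _, _, _, _, _, _, _, _⟩ := facts X nd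
  have a := Nr44.lw1 X.H
  have b := Nr44.lw2 X.H X.Mt
  have d := (X.H.lg_muG66 X.Mt).2.2
  refine U.max (H.mono (H.mul (H.pow (uc X _) 2) (H.ul X.H.rj0)) ?_)
    (H.mono (H.mul (H.cst (y := 8) (by norm_num) (by norm_num))
      (U.max (a := -(3 / 25)) (H.mono (H.ul a.1) ?_) (H.mono (H.ul b.1) ?_))) (by linarith))
  · rw [X.H.lg_rj]; push_cast; linarith [X.H.lg_s.2]
  · rw [a.2]; linarith
  · rw [b.2]; linarith

theorem uj : U p.n (p.jL σ t) (-(7 / 50)) := by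
  have H := B.of X.H
  obtain ⟨_, _, _, _, _, _, _, _, _, _, _, _⟩ := facts (σ := σ) X nd
  refine H.add3 (H.sqrt (uPh X nd))
    (H.sqrt (H.mul (uc X _) (H.pow (H.mul (uθ X) (H.ul X.la0)) 2))) (H.pow (ul0 X nd) 2) ?_ ?_ ?_
  all_goals
    push_cast
    linarith

variable (x0 : 0 < x) (hx : x ^ 3 = y) (hy : y ≤ p.PhN t)
include x0 hx hy

omit X nd hy in
theorem y3 : y ^ ((1 : ℝ) / 3) = x := by
  rw [← hx, ← rpow_natCast, ← rpow_mul x0.le]; norm_num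

theorem lgx : 3 * logb p.n x ≤ -(71 / 250) := by
  have a := X.H.lg_mono (pow_pos x0 3) (hx.trans_le hy)
  rw [logb_pow] at a
  push_cast at a
  linarith [(facts X nd).φ1]

theorem uec : U p.n (p.ecL σ t y) (-(21 / 50)) := by
  have H := B.of X.H
  obtain ⟨_, _, _, _, _, _, _, _, _, _, _, _⟩ := facts (σ := σ) X nd
  have l := lgx X nd x0 hx hy
  have u := uuc X nd
  have p1 := H.pc (c := -(21 / 50)) (H.pow u 3) (by push_cast; linarith)
  have p2 := H.pc (c := -(21 / 50)) (H.mul (H.pow u 2) (H.add3 (c := η) (uθ X) (uj X nd) (H.ul x0)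
    (by linarith) (by linarith) (by linarith))) (by push_cast; linarith)
  have p3 := H.pc (c := -(21 / 50)) (H.mul (H.add3 (c := -(281 / 1000))
    (H.sqrt (H.mul (uLc X) (uw X))) (uG0 X nd) (uX2 X nd) (by linarith) (by linarith) (by linarith))
    (H.add (c := -(141 / 1000)) u (H.sqrt (uX2 X nd)) (by linarith) (by linarith))) (by linarith)
  have p4 := H.pc (c := -(21 / 50)) (uX3 X nd) (by linarith)
  have p5 := H.pc (c := -(21 / 50)) (H.div B.one B.dn) (by linarith)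
  rw [Pm.ecL, y3 x0 hx]
  exact H.tot 5 (by linarith) (by linarith)

/-- the three pieces of `tauL` -/
theorem uτ {b : ℝ} (h1 : logb p.n x - c / 50 - logb p.n (p.xM t) / 4 + η ≤ b)
    (h2 : -(21 / 50) - logb p.n (p.muG t) + η ≤ b) (h3 : (-1 - logb p.n (p.muG t)) / 3 + η ≤ b) :
    U p.n (p.tauL σ t y) b := by
  have H := B.of X.H
  rw [Pm.tauL, y3 x0 hx]
  exact H.add3 (H.div (H.ul x0) (dLc X)) (H.div (uec X nd x0 hx hy) (dθ X)) (H.rpw (uw X) _)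
    (by linarith) (by linarith) (by linarith)

/-- **the corner half of `NC`** for any `N` above the two terms of `NL` -/
theorem corner' {N : ℝ} (h1 : p.BuL σ t ≤ N) (h2 : p.nc (1 / 20) * p.muG t * y ^ ((4 : ℝ) / 3) ≤ N) :
    ∃ B m, p.muG t * (p.tauL σ t y ^ 3 + p.laG σ ^ 2) ≤ N ∧ mn (p.muG t) (p.ecL σ t y) ≤ N ∧
      (p.wL t * x ^ 3) ^ ((3 : ℝ) / 4) + p.muG t * (p.jL σ t ^ 9 + (x ^ 3) ^ 3) ≤ N ∧
      0 ≤ p.jL σ t + p.tauL σ t y ∧ p.muG t + p.jL σ t + p.tauL σ t y ≤ B ∧ min B x ≤ m ∧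
      mn (p.muG t) (p.X2L t * x + B * m ^ 2) ≤ N ∧
      ((p.X2L t + B * m) ^ 3 ≤ N ∨ p.EL * (p.X2L t + B * m) ≤ p.muG t) := by
  have H := B.of X.H
  obtain ⟨_, _, _, _, _, _, _, _, _, _, _, _⟩ := facts (σ := σ) X nd
  have l := lgx X nd x0 hx hy
  have d1 := (dBu X).of_le h1
  have N0 := H.pos d1
  have n1 := X.H.lg_mono (H.rp _) d1
  have d2 : D p.n N _ := (H.dmul (H.dmul (dc X _) (dθ X))
    (H.drpw (hx ▸ H.dpow (H.dl x0) 3) ((4 : ℝ) / 3))).of_le h2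
  have n2 := X.H.lg_mono (H.rp _) d2
  rw [X.H.lg_rp] at n1 n2
  push_cast at n2
  have dN := H.dl N0
  have ux := H.ul x0
  have θ := uθ X
  have j := uj X nd
  have χ := uX2 X nd
  have τ := @uτ _ _ _ _ _ _ _ _ _ _ _ _ X nd x0 hx hy
  generalize logb p.n N = ν at *
  have t1 := τ (b := (ν - logb p.n (p.muG t) - η) / 3) (by linarith) (by linarith) (by linarith)
  have t0 := τ (b := -(2 / 25) - logb p.n (p.xM t) / 4) (by linarith) (by linarith) (by linarith)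
  have c3 : p.muG t * (p.tauL σ t y ^ 3 + p.laG σ ^ 2) ≤ N :=
    H.le (H.mul θ (H.add (c := ν - logb p.n (p.muG t)) (H.pow t1 3) (H.pow (H.ul X.la0) 2)
      (by push_cast; linarith) (by push_cast; linarith))) dN (by linarith)
  have c8 : mn (p.muG t) (p.ecL σ t y) ≤ N := (min_le_right _ _).trans
    (H.le (H.div (H.pow (uec X nd x0 hx hy) 2) (dθ X)) dN (by push_cast; linarith))
  have c9 : (p.wL t * x ^ 3) ^ ((3 : ℝ) / 4) + p.muG t * (p.jL σ t ^ 9 + (x ^ 3) ^ 3) ≤ N :=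
    H.le (H.add (c := ν) (H.rpw (H.mul (uw X) (H.pow ux 3)) _) (H.mul θ (H.add (c := -(4 / 5))
      (H.pow j 9) (H.pow (H.pow ux 3) 3) (by push_cast; linarith) (by push_cast; linarith)))
      (by push_cast; linarith) (by linarith)) dN le_rfl
  have jt := add_nonneg j.1 t0.1
  rcases le_total (logb p.n (p.muG t)) (-(1 / 8)) with q | q
  · have b := H.add3 (c := 2 / 9 * (-(1 / 3) - c - logb p.n (p.xM t)) - η) θ j t0 (by linarith)
      (by linarith) (by linarith)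
    refine ⟨_, _, c3, c8, c9, jt, le_rfl, min_le_left _ _, (min_le_left _ _).trans
      (H.le (H.rpw (H.add (c := 2 / 3 * ν) (H.mul χ ux) (H.mul b (H.pow b 2)) ?_ ?_) _) dN ?_),
      .inl (H.le (H.pow (H.add (c := ν / 3) χ (H.mul b b) ?_ ?_) 3) dN ?_)⟩
    all_goals
      push_cast
      linarith
  · have b := H.add3 (c := logb p.n (p.muG t) + η) θ j t0 le_rfl (by linarith) (by linarith)
    refine ⟨_, _, c3, c8, c9, jt, le_rfl, min_le_right _ _, (min_le_right _ _).trans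
      (H.le (H.div (H.pow (H.add (c := (ν + logb p.n (p.muG t)) / 2) (H.mul χ ux)
        (H.mul b (H.pow ux 2)) ?_ ?_) 2) (dθ X)) dN ?_),
      .inr (H.le (H.mul (uc X _) (H.add (c := logb p.n (p.muG t) - c) χ (H.mul b ux) ?_ ?_))
        (dθ X) ?_)⟩
    all_goals
      push_cast
      linarith

/-- **the corner half of `NC` on `LtD`** -/
theorem corner : ∃ B m, p.muG t * (p.tauL σ t y ^ 3 + p.laG σ ^ 2) ≤ p.NL σ t y ∧
    mn (p.muG t) (p.ecL σ t y) ≤ p.NL σ t y ∧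
    (p.wL t * x ^ 3) ^ ((3 : ℝ) / 4) + p.muG t * (p.jL σ t ^ 9 + (x ^ 3) ^ 3) ≤ p.NL σ t y ∧
    0 ≤ p.jL σ t + p.tauL σ t y ∧ p.muG t + p.jL σ t + p.tauL σ t y ≤ B ∧ min B x ≤ m ∧
    mn (p.muG t) (p.X2L t * x + B * m ^ 2) ≤ p.NL σ t y ∧
    ((p.X2L t + B * m) ^ 3 ≤ p.NL σ t y ∨ p.EL * (p.X2L t + B * m) ≤ p.muG t) := by
  have y0 : 0 ≤ y := hx ▸ (pow_pos x0 3).le
  exact corner' X nd x0 hx hy (le_add_of_nonneg_right (mul_nonneg (mul_nonneg (uc X _).1 X.θ0.le)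
    (rpow_nonneg y0 _))) (le_add_of_nonneg_left ((B.of X.H).pos (dBu X)).le)

end Crest.Agent.T156.Alt.Lc85

end
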