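import Crest.Agent.T156.LPs_13
import Crest.Agent.T156.LtC_85
import Crest.Agent.T156.LPa_72

/-!
# Row 156 (helper13): `Lp86.NC` and `LP` on the numbers of `LtD_29`
-/

set_option autoImplicit false
set_option linter.unusedSectionVars false

noncomputable section

namespace Crest.Agent.T156.Alt.Lx13

open Real Tr3 Lq3 Lp86 Kn72 L69

theorem Dn.lz {c η μ a v uu X φ ξ vt : ℝ} (h : Dn c η μ a v uu X φ) (ξ2 : 3 * ξ ≤ φ)
    (φ4 : φ ≤ -(71 / 250))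
    (hv : vt ≤ c / 100 + (4 * c - 47 / 300) / 3 ∨ vt ≤ c / 100 - 1 / 6 + X / 2) :
    ∃ q, LQ η a v uu ξ vt q ∧
      LZ η (2 / 3 * a) a v uu ξ vt q (-1 - μ) (-(51 / 100) - X) η (2 * a - 5 * η) := by
  obtain ⟨c0, c1, η0, η1, X0, X1, X2, X3, μ1, a1, a2, v1, v2, u1, u2, φ1, φ2, φ3⟩ := h
  rcases le_total (3 / 2 * ξ - uu / 2) vt with e | e
  · refine ⟨vt + 2 * η, .inl ⟨by linarith, le_rfl⟩, by linarith, by linarith, .inl le_rfl,
      by linarith, by linarith, ?_⟩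
    rcases hv with e | e <;> linarith
  · refine ⟨3 / 2 * ξ - uu / 2 + 2 * η, .inl ⟨le_rfl, by linarith⟩, by linarith, by linarith,
      .inl le_rfl, by linarith, by linarith, ?_⟩
    rcases hv with e | e <;> linarith

theorem ex_hi {s c ε x μ φ z : ℝ} (h : Nr44.Ex s c ε x μ φ) (m : 9 / 100 ≤ μ + 1 / 3) (z0 : 0 ≤ z)
    (hz : s ≤ z ∨ -(2 * c) - μ ≤ z) : φ + c ≤ z - 1 / 3 := by
  obtain ⟨c0, c1, e0, e1, s0, s1, x0, x1, m0, m1, m2, up⟩ := h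
  rcases hz with hz | hz <;>
  rcases up with up | up | ⟨up, _, _⟩ | up | ⟨up, _⟩ | up | up | ⟨up, _, _⟩ | ⟨up, _⟩ | up |
    ⟨up, _⟩ <;> linarith

variable {β c0 C0 c0' C0' η' : ℝ} {A : ℕ} {c η K K' : ℝ} {p : Pm} {σ t x y : ℝ} {Q : Pl}
  (X : Nr44.Cx β c0 C0 A c η K' p σ t)
include X

theorem d_Bu : D p.n (p.BuL σ t)
    (21 / 40 * c + 2 * logb p.n (p.sM t) + 2 * logb p.n (p.laG σ)) := by
  have H := B.of X.H
  refine H.dmono (H.dmul (t_nc X _).2 (H.dpow (H.dmul (H.dl X.sM0) (H.dl X.la0)) 2)) ?_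
  push_cast
  linarith

theorem sM_lo : logb p.n p.s ≤ logb p.n (p.sM t) ∨
    -(2 * c) - logb p.n (p.muG t) ≤ logb p.n (p.sM t) := by
  have a := pow_pos X.H.κ0 2
  rw [Pm.sM]
  refine (min_choice _ _).imp (fun h => by rw [h]) fun h => ?_
  rw [h, logb_div a.ne' X.θ0.ne', logb_pow, X.H.lg_κ]
  push_cast
  linarith

theorem u_X2 : U p.n (p.X2L t) (c / 1000 + logb p.n (p.PhN t)) := by
  have H := B.of X.H
  exact H.mono (H.mul (t_nc X _).1 ((H.ul X.Ph0).min_l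
    (mul_nonneg (sq_nonneg _) (le_max_of_le_right (H.rp _).le)))) (by linarith)

variable (G : GrD K c0' C0' η' p σ t Q) (nd : p.Need t)
include G nd

/-- **`NC` on `LtD_29`** -/
theorem ncL' {N : ℝ} (h1 : p.BuL σ t ≤ N)
    (h2 : p.nc (1 / 20) * p.muG t * y ^ ((4 : ℝ) / 3) ≤ N) (y0 : p.laG σ ^ 2 ≤ y)
    (y1 : y ≤ p.PhN t) (x0 : 0 < x) (hx : x ^ 3 = y) :
    ∃ q dm z e B m, NC p.EL p.n (8 * K ^ 2) (p.muG t) (Plt13.u0 p (nu p σ)) (p.laG σ)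
      (p.Vc (nu p σ)) (p.u2 (nu p σ)) (hh p) (Gm p K σ t) x (p.VL σ t) (p.VL σ t) q (p.wL t) (p.uL t)
      dm (12 * log p.n) z 0 (p.X2L t) p.LgL (p.X2L t) (p.G0L σ t) (p.jL σ t) (p.ecL σ t y)
      (p.tauL σ t y) (p.X2L t) e B m N := by
  have H := B.of X.H
  have d := dn X G nd
  have Y := xd X G
  have f := (Lc85.facts (σ := σ) X nd).φ1
  have a := X.H.lg_mono (pow_pos X.la0 2) (y0.trans_eq hx.symm)
  have b := X.H.lg_mono (pow_pos x0 3) (hx.trans_le y1)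
  rw [logb_pow] at b
  rw [logb_pow, logb_pow] at a
  push_cast at a b
  have hV := u_VL X G nd
  have vt : c / 100 + max ((4 * c - 47 / 300) / 3) (logb p.n (p.xM t) / 2 - 1 / 6) ≤ 0 := by
    rcases max_choice ((4 * c - 47 / 300) / 3) (logb p.n (p.xM t) / 2 - 1 / 6) with h | h <;>
      rw [h] <;> linarith [d.c0, d.c1, d.X3]
  obtain ⟨q, q1, q2⟩ := d.lz b f
    (vt := c / 100 + max ((4 * c - 47 / 300) / 3) (logb p.n (p.xM t) / 2 - 1 / 6))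
    ((max_choice _ _).imp (fun h => by rw [h]) fun h => by rw [h]; linarith)
  obtain ⟨B', m, c3, c8, c9, jτ, A1, m1, c5, c5'⟩ := Lc85.corner' X nd x0 hx y1 h1 h2
  have dN := (d_Bu X).of_le h1
  have s0 := X.lg_sM.1
  have u := t_uL X
  have w := (tw X G).1
  have χ := u_X2 X
  have χ' := d_X2 X
  have χ0 := χ.1
  have tx := tl H x0
  obtain ⟨c0, c1, η0, η1, X0, X1, X2, X3, μ1, a1, a2, v1, v2, u1, u2, φ1, φ2, φ3⟩ := d
  have hd := dm_d (d := -(51 / 100) - logb p.n (p.xM t) - η) H (tu X G).2 Y.ud u.2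
    ⟨by linarith, by linarith, by linarith⟩
  have L : U p.n p.LgL (c / 50000) :=
    H.mono (H.pow (t_nc X _).1 2) (by push_cast; linarith)
  have cs : ∀ y : ℝ, 0 ≤ y → y ≤ 1000 → U p.n y η := fun y => H.cst
  have e5 := H.mul (cs 5 (by norm_num) (by norm_num)) χ
  refine ⟨_, _, _, 5 * p.X2L t, B', m, ct X G tx u.2 (by linarith) (by linarith) (by linarith),
    ⟨hV.1, le_rfl⟩, qq Y tx.1 hV q1, zz Y tx.1 hV w u.2 q2, .inl ?_, ?_, ?_,
    H.le (H.div Y.Γ Y.θd) dN (by linarith), c3, ?_, c8, c9, jτ, A1, m1, c5, c5'⟩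
  · refine H.le (H.mul (lam X) (H.mul (H.pow L 6) (H.add (c := 2 * logb p.n (p.laG σ) - 3 * η)
      (H.mul (cs 4 (by norm_num) (by norm_num)) (H.up _))
      (H.mul (cs 16 (by norm_num) (by norm_num))
        (bD_u (b := 2 * logb p.n (p.laG σ) - 5 * η) Y w hd 1 ?_ ?_)) ?_ ?_))) dN ?_
    all_goals
      push_cast
      linarith
  · have g : p.G0L σ t ^ 2 ≤ p.X2L t := H.le (H.pow (Lc85.uG0 (σ := σ) X nd) 2) χ'
      (le_min (by push_cast; linarith) (by push_cast; linarith))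
    have x1 : x ≤ 1 := H.le tx.1 B.done (by linarith)
    have v1 : p.VL σ t ≤ 1 := H.le hV B.done vt
    nlinarith
  · rcases le_total (9 / 100) (logb p.n (p.muG t) + 1 / 3) with m | m
    · have k := ex_hi (Nr44.ex X.H X.hy) m s0 (sM_lo X)
      have e : logb p.n (p.xM t) ≤ logb p.n (p.muG t) + 1 / 3 := by
        rw [lg_xM X]; exact max_le (by linarith) le_rfl
      exact (min_le_right _ _).trans (H.le (H.div (H.pow e5 2) Y.θd) dN (by push_cast; linarith))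
    · have e : logb p.n (p.xM t) ≤ 9 / 100 := by
        rw [lg_xM X]; exact max_le (by norm_num) m
      exact (min_le_left _ _).trans (H.le (H.rpw e5 _) dN (by linarith))
  · have p1 := H.pc (c := 2 * logb p.n (p.laG σ)) (H.pow u.1 2) (by push_cast; linarith)
    have p2 := H.pc (c := 2 * logb p.n (p.laG σ)) (H.mul u.1 χ) (by linarith)
    have p4 := H.pc (c := 2 * logb p.n (p.laG σ)) (H.mul u.1 (H.sqrt (H.div Y.Γ u.2))) (by linarith)
    have p5 := H.pc (c := 2 * logb p.n (p.laG σ)) (H.rpw (H.mul u.1 Y.θu) (3 / 2)) (by linarith)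
    exact H.le (H.tot (c := 2 * logb p.n (p.laG σ)) 5 (by linarith) (by linarith)) dN (by linarith)

/-- **`LP` on `LtD_29`** -/
theorem lpL (hA : 4 ≤ A) (P : p.PlX σ t Q) (y0 : p.XloL σ t ≤ y) (y1 : y ≤ p.PhN t) {N : ℝ}
    (h1 : p.BuL σ t ≤ N) (h2 : p.nc (1 / 20) * p.muG t * y ^ ((4 : ℝ) / 3) ≤ N) {φ : ℝ → ℝ}
    (φ0 : 0 ≤ φ 1) (φ1 : φ 1 ≤ p.X2L t) :
    LP p.EL (p.scG K σ t Q) (p.gst Q t) y (p.VL σ t) p.LgL 1 (p.X2L t) (p.X3L t) (p.G0L σ t) 0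
      (p.uL t) (p.uL t) (p.jL σ t) 0 (p.LcL t) (p.ecL σ t y) (p.tauL σ t y) φ N := by
  have l := (la_Xlo X).trans y0
  have yp := (pow_pos X.la0 2).trans_le l
  have x0 := rpow_pos_of_pos yp ((1 : ℝ) / 3)
  have hx : (y ^ ((1 : ℝ) / 3)) ^ 3 = y := by
    rw [← rpow_natCast, ← rpow_mul yp.le]; norm_num
  obtain ⟨_, _, _, _, _, S⟩ := nsL X G nd y0 y1 x0 hx
  obtain ⟨_, _, _, _, _, _, R⟩ := ncL' X G nd h1 h2 l y1 x0 hx
  have k := lp X.H hA X.o G P S (La72.naL X nd y0 y1 x0 hx le_rfl le_rfl) R φ0 φ1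
  rwa [hx, one_pow] at k

end Crest.Agent.T156.Alt.Lx13

end
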