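import Crest.Agent.T156.LPu_3

/-!
# Row 156 (helper3): the lines of `LP` for the table P
-/

set_option autoImplicit false

noncomputable section

namespace Crest.Agent.T156.Alt.Lq3

open Real

/-- `y ∈ [a, a + 1/1000]` -/
def Nr (y a : ℝ) : Prop := a ≤ y ∧ y ≤ a + 1 / 1000

theorem Nr.rfl {a : ℝ} : Nr a a := ⟨le_rfl, by linarith⟩
theorem Nr.of_eq {y a : ℝ} (h : y = a) : Nr y a := h ▸ Nr.rfl

/-- the two branches of the table P; `W = μ + 1/3` -/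
def PT (c μ S ξ χ2 χ3 γ b : ℝ) : Prop :=
  (3 * ξ = -(1 / 3) + c / 4 - 2 / 3 * (μ + 1 / 3) ∧
    Nr χ2 (2 * ξ - 12 / 100 - (μ + 1 / 3) / 6 + 3 / 1000) ∧
    Nr χ3 (-(505 / 1000) - (μ + 1 / 3) / 2) ∧
    Nr γ (-(1 / 3) + 9 / 10 * c - 2 / 5 * (μ + 1 / 3)) ∧
    b ≤ -(1 / 2) - (μ + 1 / 3) / 2) ∨
  (3 * ξ = 5 / 2 * S - 5 / 12 + c / 4 ∧ -(1 / 3) + c / 4 - 2 / 3 * (μ + 1 / 3) ≤ 3 * ξ ∧
    Nr χ2 (2 * ξ - 135 / 1000 + 41 / 100 * S + 1 / 1000) ∧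
    Nr χ3 (-(587 / 1000) + 257 / 100 * S) ∧
    Nr γ (-(383 / 1000) + 154 / 100 * S) ∧
    b ≤ -(586 / 1000) + 257 / 100 * S)

/-- a box and the correlated lines -/
structure BX (η ε μ a V U ξ χ2 χ3 γ b L ι N : ℝ) : Prop where
  h1 : 0 < η ∧ η ≤ 1 / 10 ^ 6
  h2 : 0 ≤ ε ∧ ε ≤ 1 / 10 ^ 5
  h3 : -(335 / 1000) ≤ μ ∧ μ ≤ -(22 / 100)
  h4 : -(23 / 100) ≤ a ∧ a ≤ -(165 / 1000)
  h5 : -(17 / 100) ≤ V ∧ V ≤ -(16 / 100)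
  h6 : -(62 / 100) ≤ U ∧ U ≤ -(49 / 100)
  h7 : -(13 / 100) ≤ ξ ∧ ξ ≤ -(94 / 1000)
  h8 : -(4 / 10) ≤ χ2 ∧ χ2 ≤ -(3 / 10)
  h9 : -(57 / 100) ≤ χ3 ∧ χ3 ≤ -(45 / 100)
  h10 : -(39 / 100) ≤ γ ∧ γ ≤ -(3 / 10)
  h11 : b ≤ -(45 / 100)
  h12 : η ≤ L ∧ L ≤ 2 / 100
  h13 : ι ≤ -(14 / 100)
  h14 : -(41 / 100) ≤ N
  c2 : 2 / 3 * a ≤ ξ
  z5 : 3 / 2 * ξ + 9 * η ≤ χ3 + μ + U / 2 + 21 / 20
  a4 : 9 / 4 * ξ + 5 * η ≤ χ2 + μ / 2 + U / 4 + 1 / 2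
  b1 : U + η ≤ χ3 + 1 / 100
  b2 : 8 * η ≤ χ3 + 3 * μ + 2 * U + a + 149 / 50
  b5 : 9 / 4 * ξ + 5 * η ≤ χ3 + μ / 2 + U / 4 + 11 / 20
  g2 : 3 / 2 * ξ + 2 * η ≤ 2 * γ + μ + a + 1
  g2' : 2 * η ≤ 2 * γ + μ + 1
  k8 : γ + χ2 / 2 + 2 * η ≤ μ + ξ
  k10 : 3 / 2 * χ2 + 2 * η ≤ μ + ξ
  k11 : χ3 + 2 * η ≤ μ + ξ
  c1 : 6 * L + 8 * η ≤ N + 3 * μ + 2 * U + a + 149 / 50

section box

variable {η ε μ a V U ξ χ2 χ3 γ b L ι N : ℝ} (h : BX η ε μ a V U ξ χ2 χ3 γ b L ι N)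
include h

theorem BX.ez : EZ η μ a V U ξ (-(1 / 20)) (U - 1 / 100) 0 χ2 χ3 (U - 1 / 100 - η)
    (3 / 2 * ξ - U / 2 + 2 * η) ((-1 - μ + 9 / 2 * ξ - U / 2 + 4 * η) / 2) := by
  obtain ⟨⟨_, _⟩, -, ⟨_, _⟩, ⟨_, _⟩, ⟨_, _⟩, ⟨_, _⟩, ⟨_, _⟩, ⟨_, _⟩, ⟨_, _⟩, -, -, -, -, -,
    _, _, _, _, _, _, -⟩ := h
  exact ⟨by linarith, by linarith, by linarith, ⟨by linarith, by linarith, by linarith⟩,
    ⟨.inl ⟨by linarith, by linarith⟩, by linarith, by linarith, by linarith, by linarith,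
      by linarith, by linarith, by linarith, by linarith, .inl (by linarith), by linarith,
      by linarith, by linarith, by linarith, by linarith, by linarith, by linarith, by linarith,
      by linarith, by linarith, by linarith, by linarith, by linarith⟩⟩

theorem BX.ea : EA η ε μ a ξ (-1 - μ) (U - 1 / 100) (U - 1 / 100) 0 χ2 χ3 L L χ2 χ3 γ ι
    (μ + ξ - η) ξ := by
  obtain ⟨⟨_, _⟩, ⟨_, _⟩, ⟨_, _⟩, -, -, ⟨_, _⟩, ⟨_, _⟩, ⟨_, _⟩, -, ⟨_, _⟩, -, ⟨_, _⟩, _, -,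
    -, -, -, -, -, -, _, _, _, _, _, -⟩ := h
  constructor <;> linarith

theorem BX.ec : EC η ε μ (2 / 3 * a) a V U (2 * μ + 2 * a + 3 * η) ξ (-(1 / 20)) (-1 - μ)
    (U - 1 / 100) (U - 1 / 100 - η) χ2 L χ2 γ ι (μ + ξ - η) ξ b N (3 / 2 * ξ - U / 2 + 2 * η) η
    (N - 6 * L - 4 * η) (N - 6 * L - 4 * η) 0 (2 / 3 * N) (ξ + η) ξ (2 / 3 * N) (N / 3) := by
  obtain ⟨⟨_, _⟩, -, ⟨_, _⟩, ⟨_, _⟩, ⟨_, _⟩, ⟨_, _⟩, ⟨_, _⟩, ⟨_, _⟩, -, ⟨_, _⟩, _, ⟨_, _⟩, _, _,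
    -, -, -, -, -, -, -, -, -, -, -, _⟩ := h
  exact ⟨.inl ⟨by linarith, by linarith⟩,
    ⟨by linarith, by linarith, .inl le_rfl, by linarith, by linarith, by linarith⟩,
    .inl ⟨by linarith, by linarith, by linarith, by linarith⟩, by linarith, by linarith,
    by linarith, by linarith, by linarith, .inl (by linarith), by linarith, by linarith,
    by linarith, by linarith, by linarith, by linarith, by linarith, by linarith,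
    .inl (by linarith), by linarith, by linarith, by linarith, by linarith, by linarith,
    by linarith, .inr le_rfl, by linarith, by linarith, .inl (by linarith), by linarith,
    by linarith, .inl (by linarith)⟩

theorem BX.el : ∃ p2 p3 d1 d2 q r lm z b' α ε' a' m β δ, EL η ε μ a V U ξ (-(1 / 20)) (U - 1 / 100)
    (U - 1 / 100) 0 L L χ2 χ3 γ ι (μ + ξ - η) ξ b N p2 p3 d1 d2 q r lm z b' α ε' a' m β δ :=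
  ⟨_, _, _, _, _, _, _, _, _, _, _, _, _, _, _, h.ez, h.ez.D1, h.ea, h.ec⟩

end box

/-- the plateau data without case distinction -/
theorem pl_bd {c η μ ν a V U u w C Γ : ℝ} (g : Lx13.Lg c η μ ν a V U u w C Γ) (η0 : 0 < η)
    (hη : 10000 * η ≤ c) (lo : -(1 / 3) - 23 / 40 * c ≤ μ) :
    (-(1 / 3) - 5 / 8 * c - μ / 2 ≤ a ∧ a ≤ -(1 / 3) - c / 2 - μ / 2 + η ∧
      a ≤ -(5 / 18) - c / 2 - μ / 3 + η) ∧ (-(1 / 6) + 3 / 4 * c ≤ V ∧ V ≤ -(1 / 6) + c) ∧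
      -(5 / 6) - c / 2 - μ ≤ U ∧ U ≤ -(5 / 6) - c / 4 - μ + η := by
  obtain ⟨-, ⟨n1, -⟩, n2, pl, -⟩ := g
  rw [max_eq_left (by linarith)] at n2
  rcases pl with ⟨p0, p1, p2, p3⟩ | ⟨p0, p1, p2, p3⟩ <;>
  exact ⟨⟨by linarith, by linarith, by linarith⟩, ⟨by linarith, by linarith⟩, by linarith,
    by linarith⟩

set_option maxHeartbeats 600000 in
/-- **the lines of `LP` for the table P** (`(bxP ..).el`) -/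
theorem bxP {c η ε μ ν a V U u w C Γ S B ξ χ2 χ3 γ b L ι N : ℝ}
    (g : Lx13.Lg c η μ ν a V U u w C Γ) (η0 : 0 < η) (hη : 10000 * η ≤ c) (hc : c ≤ 1 / 1000)
    (e0 : 0 ≤ ε) (e1 : ε ≤ c / 1000) (S0 : 0 ≤ S) (S1 : S ≤ 1 / 19)
    (lo : -(1 / 3) - 23 / 40 * c ≤ μ) (hi : μ ≤ -(4 / 15) + 4 / 5 * S - c / 4)
    (hB : B = 3 / 5 * c + 2 * S + 2 * a) (pt : 5 / 8 * c + 2 * S + 2 * a ≤ 3 * ξ)
    (t : PT c μ S ξ χ2 χ3 γ b) (L0 : η ≤ L) (L1 : L ≤ ξ - B / 3 + c / 10)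
    (hι : ι ≤ 3 / 2 * ξ + c / 10) (hN : B - c ≤ N) : BX η ε μ a V U ξ χ2 χ3 γ b L ι N := by
  obtain ⟨⟨a1, a2, a3⟩, ⟨v1, v2⟩, u1, u2⟩ := pl_bd g η0 hη lo
  clear g
  subst hB
  rcases t with ⟨t1, ⟨t2, t2'⟩, ⟨t3, t3'⟩, ⟨t4, t4'⟩, t5⟩ |
    ⟨t1, t1', ⟨t2, t2'⟩, ⟨t3, t3'⟩, ⟨t4, t4'⟩, t5⟩ <;>
  exact ⟨⟨η0, by linarith⟩, ⟨e0, by linarith⟩, ⟨by linarith, by linarith⟩,
    ⟨by linarith, by linarith⟩, ⟨by linarith, by linarith⟩, ⟨by linarith, by linarith⟩,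
    ⟨by linarith, by linarith⟩, ⟨by linarith, by linarith⟩, ⟨by linarith, by linarith⟩,
    ⟨by linarith, by linarith⟩, by linarith, ⟨L0, by linarith⟩, by linarith, by linarith,
    by linarith, by linarith, by linarith, by linarith, by linarith, by linarith, by linarith,
    by linarith, by linarith, by linarith, by linarith, by linarith⟩

end Crest.Agent.T156.Alt.Lq3

end
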