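import Crest.Agent.T156.LPv_3

/-!
# Row 156 (helper3): `LP` and `Jn` on the graded path inside the box `BX`
-/

set_option autoImplicit false

noncomputable section

namespace Crest.Agent.T156.Alt.Lq3

open Real Tr3 Lp86 Lx13 Plt13 L69 Kn72

theorem T.mul {n η y z a b : ℝ} (H : B n η) (h : T n y a) (g : T n z b) : T n (y * z) (a + b) :=
  ⟨H.mul h.1 g.1, H.dmul h.2 g.2⟩
theorem T.div {n η y z a b : ℝ} (H : B n η) (h : T n y a) (g : T n z b) : T n (y / z) (a - b) :=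
  ⟨H.div h.1 g.2, H.ddiv h.2 g.1 (H.pos g.2)⟩
theorem T.one {n : ℝ} : T n 1 0 := ⟨B.one, B.done⟩
theorem T.cast {n y a b : ℝ} (h : T n y a) (e : a = b) : T n y b := e ▸ h

variable {β c0 C0 c0' C0' η' : ℝ} {A : ℕ} {c η K K' : ℝ} {p : Pm} {σ t : ℝ} {Q : Pl}

/-- **`LP`, `Jn` in the box**: `Vt = n^{-1/20}`, `u1 = u2 = u1N n^{-1/100}`, `Lp = 1`, `Lc = Lg`,
`ηc = θ x / n^η`, `τ = x` -/
theorem lp_bx (X : Nr44.Cx β c0 C0 A c η K' p σ t) (G : GrD K c0' C0' η' p σ t Q) (hA : 4 ≤ A)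
    (P : p.PlX σ t Q) {E x Lg X2 X3 G0 j N ε ξ χ2 χ3 γ b L ι ν : ℝ} {φ : ℝ → ℝ}
    (hE : T p.n E ε) (hx : T p.n x ξ) (hg : T p.n Lg L) (hX : T p.n X2 χ2) (hY : T p.n X3 χ3)
    (hG : T p.n G0 γ) (hj : U p.n j ι) (hN : D p.n N ν) (hφ : U p.n (φ 1) b)
    (h : BX η ε (logb p.n (p.muG t)) (logb p.n (p.laG σ)) (logb p.n (p.Vc (nu p σ)))
      (logb p.n (p.u2 (nu p σ))) ξ χ2 χ3 γ b L ι ν) :
    LP E (p.scG K σ t Q) (p.gst Q t) (x ^ 3) ((p.n : ℝ) ^ (-(1 / 20 : ℝ))) Lg 1 X2 X3 G0 0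
      (p.u1N σ * (p.n : ℝ) ^ (-(1 / 100 : ℝ))) (p.u1N σ * (p.n : ℝ) ^ (-(1 / 100 : ℝ))) j 0 Lg
      (p.muG t * x / (p.n : ℝ) ^ η) x φ N ∧
    Jn (p.scG K σ t Q) (p.gst Q t) (x ^ 3) (p.u1N σ * (p.n : ℝ) ^ (-(1 / 100 : ℝ))) ∧
    Np (p.gst Q t) (p.scG K σ t Q) (x ^ 3) ((p.n : ℝ) ^ (-(1 / 20 : ℝ))) 0
      (p.u1N σ * (p.n : ℝ) ^ (-(1 / 100 : ℝ))) 1 2 ≤ (p.n : ℝ) ^ χ2 := by
  have H := B.of X.H
  have hu : T p.n (p.u1N σ * (p.n : ℝ) ^ (-(1 / 100 : ℝ))) (logb p.n (p.u2 (nu p σ)) - 1 / 100) :=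
    (T.mul H (tl H X.u0) (tp H _)).cast (sub_eq_add_neg _ _).symm
  obtain ⟨_, _, _, _, _, _, _, _, _, _, _, _, _, _, _, Z⟩ := h.el
  have a := lp_lg X G hA P hE hx (H.up _) hu hu T.one hg hg hX hY hG hj
    (T.div H (T.mul H (tl H X.θ0) hx) (tp H η)) hx hN hφ Z
  have s := sz_lg X G hA P hx (H.up _) hu T.one h.ez
  rw [one_pow] at a s
  exact ⟨a, s.1, s.2.2.1⟩

end Crest.Agent.T156.Alt.Lq3

end
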