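import Crest.Agent.T156.LtC_85
import Crest.Agent.T156.HyD_77
import Crest.Agent.T156.LPy_13

/-!
# Row 156 (helper86): the residual size at the top level on the numbers of `LtD_29`
-/

set_option autoImplicit false

noncomputable section

namespace Crest.Agent.T156.Alt.Lz86

open Real Tr3 Lc85
open Crest.Agent.T156.Alt.L69 (cr)

variable {β c0 C0 c0' C0' η' : ℝ} {A : ℕ} {c η K K' : ℝ} {p : Pm} {σ t : ℝ} {Q : Pl}
  (X : Nr44.Cx β c0 C0 A c η K' p σ t)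
include X

theorem lt1 (nd : p.Need t) : p.ltL t ≤ 1 := by
  have H := B.of X.H
  obtain ⟨_, _, _, _, _, _, _, _, _, _, _, _⟩ := facts X nd
  refine max_le (H.le (H.mul (uc X _) (H.rpw (uPh X nd) _)) B.done (by linarith)) ?_
  have k : p.κ ^ 10 ≤ 1 := pow_le_one₀ X.H.κ0.le
    (X.H.le_of_lg X.H.κ0 one_pos (by rw [X.H.lg_κ, logb_one]; linarith))
  linarith [min_le_right (p.yL t) (p.κ ^ 10)]

/-- **`η 1 ≤ n^{-21/50}`** -/
theorem eta1 (G : GrD K c0' C0' η' p σ t Q) (nd : p.Need t) :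
    U p.n (R77.etaL p σ t (p.scG K σ t Q) 1) (-(21 / 50)) := by
  have H := B.of X.H
  obtain ⟨_, _, _, _, _, _, _, _, _, _, _, _⟩ := facts (σ := σ) X nd
  have w := uw X
  have θ1 : p.muG t ≤ 1 := H.le (uθ X) B.done (by linarith)
  have c1 : cr (p.scG K σ t Q) 1 = 1 := by
    have e : (p.scG K σ t Q).F * (p.scG K σ t Q).ms 1 / 1 ^ 2 = p.muG t := by
      rw [one_pow, div_one, ← Lx13.θ_eq G]; exact one_mul _
    rw [cr, e]
    exact max_eq_left (rpow_le_one X.θ0.le θ1 (by norm_num))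
  have eW : Tn15.W (p.scG K σ t Q) 1 = p.wL t ^ ((1 : ℝ) / 3) := by
    rw [Tn15.W, c1, one_mul, Lx13.w_eq G]; rfl
  have eP : Tn15.P (p.scG K σ t Q) 1 = p.wL t := by
    rw [Tn15.P, eW, one_mul, Ps64.cube3 w.1]
  have en : ((p.scG K σ t Q).n : ℝ) = p.n := rfl
  have L : U p.n p.LgL (c / 50000) := H.mono (H.pow (uc X _) 2) (by push_cast; linarith)
  have W := H.rpw w ((1 : ℝ) / 3)
  have e8 := H.mul (H.cst (y := 8) (by norm_num) (by norm_num)) w
  rw [R77.etaL, Ln97.eta, max_eq_left (lt1 X nd), Ln97.e2, Tn15.e0, eW, eP, en]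
  refine H.add (a := -(211 / 500)) (b := -(1 / 2)) (H.add3 (H.add3 (c := -(4222 / 10000))
    (H.mul (H.pow L 6) (H.pow W 3)) (H.mul (H.pow L 4) (H.div (H.up _) B.done))
    (H.mul (H.add3 (c := -(2819 / 10000)) (H.sqrt (H.mul L w)) (uG0 X nd) (uX2 X nd) ?_ ?_ ?_)
      (H.add (c := -(1414 / 10000)) (H.mul (H.pow L 2) W) (H.sqrt (uX2 X nd)) ?_ ?_)) ?_ ?_ ?_)
    (uX3 X nd) (H.div B.one B.dn) ?_ ?_ ?_)
    (H.add e8 (H.mul (H.rpw e8 _) (H.rpw (H.mul (H.mul (H.cst (y := 2) (by norm_num)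
      (by norm_num)) W) (uPh X nd)) _)) ?_ ?_) ?_ ?_
  all_goals
    push_cast
    linarith

end Crest.Agent.T156.Alt.Lz86

end
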