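import Crest.Agent.T156.LPmE_17
import Crest.Agent.T156.LPb_78
import Crest.Agent.T156.LPt_57

/-!
# Row 156: moments from location, unconditional (helper17)
-/

namespace Crest.Agent.T156.Alt.R62

theorem momE : MomE := momE_of cruS blkE topBE

theorem momS : MomS := momG cruS blkS topBS

end Crest.Agent.T156.Alt.R62
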