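import Crest.Agent.T156.LT2p_38
import Crest.Agent.T156.LT2g_38
import Crest.Agent.T156.LT2x_52
import Crest.Agent.T156.NbU_44

/-!
# Row 156 (helper38): the exponents of the table `LtD_29` and `LT2.x4`
-/

set_option autoImplicit false
set_option linter.unusedSectionVars false

noncomputable section

namespace Crest.Agent.T156.Alt.Lt38

open Real Finset
open Crest.Agent.T156.Alt.L69 (GS dx L4 cB bs)
open Crest.Agent.T156.Alt.Ln97 (FX M12 eta)
open Crest.Agent.T156.Alt.Nr44 (Cx)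
open Crest.Agent.T156.Alt.Kn72 (nu)

theorem ex_f {s c x μ φ : ℝ} (h : Nr44.Ex s c (c / 1000) x μ φ) (m0 : -(1 / 3) - 4 * c ≤ μ)
    (hc : c ≤ 1 / 100000) : φ ≤ -(7 / 25) ∧
    (φ ≤ -(5 / 9) - 2 / 3 * μ + c / 100 ∨ φ ≤ 3 * s - 1 / 2 + c ∨
    2 * φ ≤ 5 * s - 19 / 18 - 2 / 3 * μ + c ∨
    (2 * φ ≤ 5 * s - 5 / 6 + c ∧ 2 * φ ≤ 25 / 4 * s - 25 / 24 - μ / 2 + c) ∨
    (2 * φ ≤ 5 * s - 5 / 6 + c ∧ 2 * φ ≤ 10 * s - 5 / 3 - 2 * μ + c)) := by
  obtain ⟨c0, c1, e0, e1, s0, s1, x0, x1, -, m1, m2, up⟩ := h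
  rcases up with u | u | ⟨u, _, _⟩ | u | ⟨u, _⟩ | u | u | ⟨u, _, _⟩ | ⟨u, _⟩ | u | ⟨u, _⟩
  · exact ⟨by linarith, .inl (by linarith)⟩
  · exact ⟨by linarith, .inr (.inl (by linarith))⟩
  · exact ⟨by linarith, .inl (by linarith)⟩
  · exact ⟨by linarith, .inr (.inl (by linarith))⟩
  · exact ⟨by linarith, .inl (by linarith)⟩
  · exact ⟨by linarith, .inr (.inr (.inl (by linarith)))⟩
  · exact ⟨by linarith, .inr (.inl (by linarith))⟩
  · exact ⟨by linarith, .inr (.inr (.inl (by linarith)))⟩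
  · exact ⟨by linarith, .inr (.inr (.inr (.inl ⟨by linarith, by linarith⟩)))⟩
  · exact ⟨by linarith, .inr (.inl (by linarith))⟩
  · exact ⟨by linarith, .inr (.inr (.inr (.inr ⟨by linarith, by linarith⟩)))⟩

variable {β c0 C0 c0' C0' η' : ℝ} {A : ℕ} {c η K K' : ℝ} {p : Pm} {σ t y : ℝ} {Q : Pl}
  (X : Cx β c0 C0 A c η K p σ t)
include X

theorem lg_add3 {a b d : ℝ} (a0 : 0 < a) (b0 : 0 < b) (d0 : 0 ≤ d) :
    logb p.n (a + b + d) ≤ logb p.n a + η ∨ logb p.n (a + b + d) ≤ logb p.n b + η ∨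
      0 < d ∧ logb p.n (a + b + d) ≤ logb p.n d + η := by
  have n3 := (X.H.lg_num (x := 3) (by norm_num) (by norm_num)).2
  have k : ∀ u, a ≤ u → b ≤ u → d ≤ u → logb p.n (a + b + d) ≤ logb p.n u + η := fun u h1 h2 h3 => by
    have := X.H.lg_mono (by positivity) (show a + b + d ≤ 3 * u by linarith)
    rw [logb_mul three_ne_zero (a0.trans_le h1).ne'] at this
    linarith
  rcases le_total a b with h | h
  · rcases le_total b d with h' | h'
    · exact .inr (.inr ⟨b0.trans_le h', k d (h.trans h') h' le_rfl⟩)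
    · exact .inr (.inl (k b h le_rfl h'))
  · rcases le_total a d with h' | h'
    · exact .inr (.inr ⟨a0.trans_le h', k d h' (h.trans h') le_rfl⟩)
    · exact .inl (k a le_rfl h h')

theorem lg_add2 {a b : ℝ} (a0 : 0 < a) (b0 : 0 < b) :
    logb p.n (a + b) ≤ logb p.n a + η ∨ logb p.n (a + b) ≤ logb p.n b + η := by
  have := lg_add3 X a0 b0 le_rfl
  rw [add_zero] at this
  exact this.imp id fun h => h.resolve_right fun e => lt_irrefl _ e.1

theorem xM0 : 0 < p.xM t := lt_max_of_lt_left one_pos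

theorem lg_xM : logb p.n (p.xM t) = max 0 (logb p.n (p.muG t) + 1 / 3) := by
  rw [Pm.xM, lg_max X.H.N1 one_pos X.lg_x.1, X.lg_x.2, logb_one]

theorem la_lo : -(1 / 6) - c / 2 - logb p.n (p.xM t) / 2 ≤ logb p.n (p.laG σ) := by
  have H := X.H
  have m := H.muG_pos X.Mσ
  have a := H.lg_mono m (H.oct_mu X.o).1
  have d : logb p.n (nu p σ) = _ := H.lg_mt m
  have z0 := le_max_left 0 (logb p.n (p.muG t) + 1 / 3)
  have z1 := le_max_right 0 (logb p.n (p.muG t) + 1 / 3)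
  have c0 := H.c_pos
  have e : logb p.n (nu p σ) + 1 / 3 ≤ max 0 (logb p.n (p.muG t) + 1 / 3) := by
    rw [d, ← le_sub_iff_add_le]
    exact (min_le_right _ _).trans (max_le (by linarith) (by linarith))
  rw [lg_xM X]
  rcases X.lg_pl with ⟨_, _, _⟩ | ⟨_, _, _⟩ <;> linarith

theorem lg_Bu : logb p.n (p.BuL σ t) =
    21 / 40 * c + 2 * logb p.n (p.sM t) + 2 * logb p.n (p.laG σ) := by
  have := X.la0; have := X.sM0; have := nc0 X (21 / 40)
  rw [Pm.BuL]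
  lg_norm
  rw [lg_nc X]; ring

theorem X30 : 0 < p.X3L t := add_pos (X.H.rp0 _) (rpow_pos_of_pos X.X20 _)

/-- **the exponents of the table** -/
theorem nb (hη : 1000000 * η ≤ c) (hc : c ≤ 1 / 100000) (nd : p.Need t) :
    Nb c η (logb p.n p.s) (logb p.n (p.muG t)) (logb p.n (p.xM t)) (logb p.n (p.sM t))
      (logb p.n (p.PhN t)) (logb p.n (p.X2L t)) (logb p.n (p.X3L t)) (logb p.n (p.G0L σ t))
      (logb p.n p.LgL) (logb p.n (p.BuL σ t)) := by
  have H := X.H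
  have m0 := X.need_iff.1 nd
  obtain ⟨f0, f1⟩ := ex_f (Nr44.ex H X.hy) m0 hc
  have c0 := H.c_pos
  have η0 := H.η_pos
  have e2 := X.lg_X2
  have la := la_lo X
  have := X.θ0; have := X.la0; have := X.Ph0; have := xM0 X; have := X.X20; have := H.N0
  have := nc0 X 5; have := nc0 X (1 / 100); have := E0 X
  refine ⟨c0, hc, η0.le, hη, H.lg_s.1, H.lg_s.2, m0, lg_θ X, ?_, X.lg_sM.1, ?_, f0, f1, ?_, ?_, ?_,
    ?_, ?_, by rw [lg_Bu X]; linarith⟩
  · rw [lg_xM X]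
    rcases le_total 0 (logb p.n (p.muG t) + 1 / 3) with h | h
    · rw [max_eq_right h]; exact .inl ⟨rfl, h⟩
    · rw [max_eq_left h]; exact .inr ⟨rfl, h⟩
  · have a := pow_pos H.κ0 2
    rw [Pm.sM, lg_min H.N1 H.s0 (div_pos a X.θ0), logb_div a.ne' X.θ0.ne', logb_pow, H.lg_κ,
      le_min_iff, le_min_iff]
    push_cast
    rcases le_total (logb p.n p.s) (2 * -c - logb p.n (p.muG t)) with h | h
    · exact .inl ⟨le_rfl, h⟩
    · exact .inr ⟨by linarith, by linarith⟩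
  · linarith [min_le_left (logb p.n (p.PhN t)) (2 / 3 * logb p.n (p.PhN t) +
      max (c / 100 + (logb p.n p.s + c / 13 - 1 / 6)) (-(7 / 60)))]
  · have e := min_le_right (logb p.n (p.PhN t)) (2 / 3 * logb p.n (p.PhN t) +
      max (c / 100 + (logb p.n p.s + c / 13 - 1 / 6)) (-(7 / 60)))
    rcases max_choice (c / 100 + (logb p.n p.s + c / 13 - 1 / 6)) (-(7 / 60)) with r | r <;>
      rw [r] at e e2
    · exact .inl (by linarith)
    · exact .inr (by linarith)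
  · refine (lg_add2 X (H.rp0 (-(101 : ℝ) / 200)) (rpow_pos_of_pos X.X20 ((3 : ℝ) / 2))).imp
      (fun h => ?_) fun h => ?_
    · rw [H.lg_rp] at h
      exact h.trans_eq (by ring)
    · rw [logb_rpow_eq_mul_logb_of_pos X.X20] at h
      exact h
  · have a : logb p.n (p.nc 5 * (p.n : ℝ) ^ (-(1 : ℝ) / 3) / √(p.xM t)) =
        5 * c - 1 / 3 - logb p.n (p.xM t) / 2 := by
      lg_norm; rw [lg_nc X, H.lg_n]; ring
    have b : logb p.n (p.nc (1 / 100) * √(p.wL t * √(p.PhN t) / p.laG σ)) = c / 100 +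
        (-1 - logb p.n (p.muG t) + logb p.n (p.PhN t) / 2 - logb p.n (p.laG σ)) / 2 := by
      rw [Pm.wL]; lg_norm; rw [lg_nc X, H.lg_n]; ring
    have w : 0 < p.wL t := by rw [Pm.wL]; positivity
    rcases lg_add3 X (a := p.nc 5 * (p.n : ℝ) ^ (-(1 : ℝ) / 3) / √(p.xM t))
      (b := p.nc (1 / 100) * √(p.wL t * √(p.PhN t) / p.laG σ)) (by positivity) (by positivity)
      X.X20.le with h | h | ⟨-, h⟩
    · exact .inl (h.trans_eq (by rw [a]))
    · exact .inr (.inl (h.trans (by rw [b]; linarith)))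
    · exact .inr (.inr h)
  · rw [Pm.LgL, logb_pow, lg_E X]; push_cast; ring

theorem lg_t1 : logb p.n p.t1L = -(3 / 100000 * c) := by
  have := E0 X
  rw [Pm.t1L]; lg_norm; rw [lg_E X]; ring

theorem t10 : 0 < p.t1L := by
  have := E0 X
  rw [Pm.t1L]; positivity

theorem ms_hi {r : ℝ} (r0 : 0 < r) (h : -(3 * c) ≤ logb p.n r) : p.msG t r = p.muG t :=
  X.H.msG_hi t (X.H.le_of_lg X.H.ye0 r0 (by rw [X.H.lg_ye]; exact h))

/-- **`LT2.x4`** -/
theorem x4 (hη : 1000000 * η ≤ c) (hc : c ≤ 1 / 100000) (nd : p.Need t) {b : ℝ}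
    (h : FX p.EL (p.scG K' σ t Q) (p.gst Q t) (p.l0L t) (p.ltL t) (p.lN t) (p.PhN t) p.LgL
      ((p.n : ℝ) ^ (-(2 : ℝ) / 3)) (p.X2L t) (p.X3L t) (p.G0L σ t)) :
    L4 (p.scG K' σ t Q) (p.PhN t ^ ((1 : ℝ) / 3)) (p.PhN t) (p.t1L / 2) b (p.X4L σ t) := by
  obtain ⟨-, -, k1, k2, -⟩ := (nb X hη hc nd).lo
  have c0 := X.H.c_pos
  have e : (p.scG K' σ t Q).ms p.t1L = p.muG t := ms_hi X (t10 X) (by rw [lg_t1 X]; linarith)
  refine Lt52.x4_lg' X.H h rfl rfl (t1a X hη) (Bu0 X) ?_ ?_ <;> rw [e, lg_t1 X, Pm.X4L]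
  · linarith
  · rw [lg_x X]; linarith

end Crest.Agent.T156.Alt.Lt38

end
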