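import Crest.Agent.T156.LtE_76

/-!
# Row 156 (helper38): the linear lines of `LT2.x4`, `LT2.en`, `LT2.pa` on the table `LtD_29`
-/

set_option autoImplicit false

namespace Crest.Agent.T156.Alt.Lt38

open Crest.Agent.T156.Alt.Ln97 (M12)
open Crest.Agent.T156.Alt.Lt76 (BL)

/-- exponents of `s, θ, xM, sM, X, X2, X3, G0, Lg`; `β` = exponent of the budget -/
structure Nb (c η s μ z sm φ χ2 χ3 γ L β : ℝ) : Prop where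
  c0 : 0 < c
  c1 : c ≤ 1 / 100000
  e0 : 0 ≤ η
  e1 : 1000000 * η ≤ c
  s0 : 0 ≤ s
  s1 : s ≤ 1 / 19
  m0 : -(1 / 3) - 4 * c ≤ μ
  m1 : μ ≤ -(7 * c)
  z0 : (z = μ + 1 / 3 ∧ 0 ≤ z) ∨ (z = 0 ∧ μ + 1 / 3 ≤ 0)
  sm0 : 0 ≤ sm
  sm1 : s ≤ sm ∨ -(2 * c) - μ ≤ sm
  f0 : φ ≤ -(7 / 25)
  f1 : φ ≤ -(5 / 9) - 2 / 3 * μ + c / 100 ∨ φ ≤ 3 * s - 1 / 2 + c ∨
    2 * φ ≤ 5 * s - 19 / 18 - 2 / 3 * μ + c ∨
    (2 * φ ≤ 5 * s - 5 / 6 + c ∧ 2 * φ ≤ 25 / 4 * s - 25 / 24 - μ / 2 + c) ∨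
    (2 * φ ≤ 5 * s - 5 / 6 + c ∧ 2 * φ ≤ 10 * s - 5 / 3 - 2 * μ + c)
  x2 : χ2 ≤ φ + c / 1000
  x2' : χ2 ≤ 2 / 3 * φ + s - 1 / 6 + c / 10 ∨ χ2 ≤ 2 / 3 * φ - 7 / 60 + c / 1000
  x3 : χ3 ≤ -(101 / 200) + η ∨ χ3 ≤ 3 / 2 * χ2 + η
  g0 : γ ≤ 5 * c - 1 / 3 - z / 2 + η ∨ γ ≤ c / 3 - 5 / 12 - μ / 2 + z / 4 + φ / 4 ∨ γ ≤ χ2 + η
  L0 : L = c / 50000
  b0 : -(1 / 3) - z - 19 / 40 * c + 2 * sm ≤ β

/-- a level `T` above the first thick level, `m` = exponent of the mass -/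
structure Lv (c η μ φ χ2 T m : ℝ) : Prop where
  t0 : φ / 3 ≤ T
  t1 : T ≤ η
  t2 : (-c + 2 * T ≤ m ∧ -(1 / 6) + 49 / 100 * c ≤ T ∧ χ2 / 2 + c / 2 ≤ T) ∨
    (μ + 3 / 2 * T + 4 * c ≤ m ∧ T ≤ -(3 * c) ∧ -(1 / 3) - c / 50 ≤ m ∧ χ2 ≤ m) ∨
    (-(11 * c) ≤ T ∧ μ - 15 * c ≤ m ∧ μ - 5 * c + T ≤ m)

variable {c η s μ z sm φ χ2 χ3 γ L β T m π : ℝ}

set_option hygiene false in
macro "nb38" : tactic => `(tactic| (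
  rcases z0 with ⟨z0, z1⟩ | ⟨z0, z1⟩ <;>
  first
  | linarith
  | (rcases sm1 with sm1 | sm1 <;>
    first
    | linarith
    | (rcases f1 with f1 | f1 | f1 | ⟨f1, f2⟩ | ⟨f1, f2⟩ <;>
      first
      | linarith
      | (rcases x2' with x2' | x2' <;> linarith)))))

set_option hygiene false in
macro "lv38" : tactic => `(tactic| (
  rcases t2 with ⟨t2, t3, t4⟩ | ⟨t2, t3, t4, t5⟩ | ⟨t2, t3, t4⟩ <;> nb38))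

/-- the residual at the top levels -/
theorem Nb.top (h : Nb c η s μ z sm φ χ2 χ3 γ L β) (t0 : -c ≤ T) :
    M12 η L (φ / 3) χ2 χ3 γ T μ (-(2 / 5)) := by
  obtain ⟨c0, c1, e0, e1, s0, s1, m0, m1, z0, sm0, sm1, f0, f1, x2, x2', x3, g0, L0, b0⟩ := h
  subst L0
  clear f1 x2' sm1
  have g : γ ≤ -(27 / 100) := by
    rcases z0 with ⟨z0, z1⟩ | ⟨z0, z1⟩ <;> rcases g0 with g0 | g0 | g0 <;> linarith
  have x : χ3 ≤ -(41 / 100) := by rcases x3 with x3 | x3 <;> linarith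
  exact ⟨by linarith, by linarith, by linarith, by linarith, by linarith, by linarith, by linarith,
    by linarith, by linarith, by linarith, by linarith, by linarith⟩

theorem Nb.lo (h : Nb c η s μ z sm φ χ2 χ3 γ L β) :
    -(2 / 3) ≤ β ∧ -(2 / 3) - 5 * c ≤ β + μ ∧ -(4 / 3) * (1 + μ) + c ≤ β ∧
      -3 * (1 + μ) + 7 * φ + 4 * c ≤ 6 * β ∧ 2 * φ + c / 100 ≤ β := by
  obtain ⟨c0, c1, e0, e1, s0, s1, m0, m1, z0, sm0, sm1, f0, f1, x2, x2', x3, g0, L0, b0⟩ := h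
  clear x3 g0
  refine ⟨?_, ?_, ?_, ?_, ?_⟩ <;> nb38

/-- `l³ X` -/
theorem Nb.l3 (h : Nb c η s μ z sm φ χ2 χ3 γ L β) {a e : ℝ}
    (he : e ≤ -(15 / 1000 * c) ∨ e ≤ c / 100 + χ2 + 1 / 3)
    (ha : a ≤ c / 3000 + φ / 3 ∨ a ≤ -(10 * c) ∧
      (a ≤ 2 / 3 * (e - 1 / 3 - μ - 4 * c) ∨ a ≤ (e - 1 / 3 + c) / 2)) :
    3 * a + φ ≤ β := by
  have k := h.lo.2.2.2.2
  obtain ⟨c0, c1, e0, e1, s0, s1, m0, m1, z0, sm0, sm1, f0, f1, x2, x2', x3, g0, L0, b0⟩ := h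
  clear x3 g0
  rcases ha with ha | ⟨ha, hb⟩
  · linarith
  rcases he with he | he <;> rcases hb with hb | hb <;> nb38

end Crest.Agent.T156.Alt.Lt38
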