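import Crest.Agent.T156.Cut_8
import Crest.Agent.T156.Sun_9

/-!
# Row 156, (L): the mass term of (MON) in label form, and (LIP) on the top plateau (helper36)

`docs/T156_36T.md`, sections 1 and 2.  Frame free.
-/

set_option autoImplicit false

noncomputable section

namespace Crest.Agent.T156.Lab36

open MeasureTheory Set intervalIntegral Finset
open Crest.Agent.T156.Cut8

/-- the step at `s` -/
def ix (s t : ℝ) : ℝ := if s ≤ t then 1 else 0

theorem ix_mono (s : ℝ) : Monotone (ix s) := fun t t' h => by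
  unfold ix; split_ifs with a b
  · exact le_rfl
  · exact absurd (a.trans h) b
  · exact zero_le_one
  · exact le_rfl

theorem ix_lb (T s : ℝ) : LB T (ix s) := .of_mono (ix_mono s)

theorem lb_sum {T : ℝ} {ι : Type*} (K : Finset ι) {f : ι → ℝ → ℝ} (h : ∀ k ∈ K, LB T (f k)) :
    LB T fun t => ∑ k ∈ K, f k t := by
  classical
  induction K using Finset.induction_on with
  | empty => simpa using LB.const (T := T) 0
  | insert a K ha ih =>
    simp only [Finset.sum_insert ha]
    exact (h a (Finset.mem_insert_self _ _)).add (ih fun k hk => h k (Finset.mem_insert_of_mem hk))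

/-- the projection on `[A, B]` -/
def cl (A B s : ℝ) : ℝ := max A (min B s)

theorem cl_mem {A B : ℝ} (h : A ≤ B) (s : ℝ) : A ≤ cl A B s ∧ cl A B s ≤ B :=
  ⟨le_max_left _ _, max_le h (min_le_left _ _)⟩

theorem cl_eq {A B s : ℝ} (h1 : A ≤ s) (h2 : s ≤ B) : cl A B s = s := by
  unfold cl; rw [min_eq_right h2, max_eq_right h1]

theorem cl_lip (A B s s' : ℝ) : |cl A B s - cl A B s'| ≤ |s - s'| := clamp_lip A B s s'

theorem cl_mono (A B : ℝ) : Monotone (cl A B) := clamp_mono A B

/-- integral against one step -/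
theorem int_ix {T A B : ℝ} {f : ℝ → ℝ} (lf : LB T f) (hA : 0 ≤ A) (hAB : A ≤ B) (hB : B ≤ T)
    (s : ℝ) : ∫ t in A..B, f t * ix s t = ∫ t in cl A B s..B, f t := by
  obtain ⟨c1, c2⟩ := cl_mem hAB s
  have mA : A ∈ Icc 0 T := ⟨hA, hAB.trans hB⟩
  have mB : B ∈ Icc 0 T := ⟨hA.trans hAB, hB⟩
  have mc : cl A B s ∈ Icc 0 T := ⟨hA.trans c1, c2.trans hB⟩
  rw [int_split (lf.mul (ix_lb T s)) mA mc mB, int_zero c1, zero_add]
  · refine integral_congr_Ioo_of_le c2 fun t ht => ?_
    have : s ≤ t := by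
      have h1 : min B s ≤ cl A B s := le_max_right _ _
      rcases le_total B s with h | h
      · rw [min_eq_left h] at h1; linarith [ht.1, ht.2]
      · rw [min_eq_right h] at h1; linarith [ht.1]
    simp [ix, this]
  · intro t t0 t1
    have : ¬ s ≤ t := by
      intro h
      have : cl A B s ≤ t := max_le t0.le ((min_le_right _ _).trans h)
      linarith
    simp [ix, this]

/-- integral against the difference of two steps -/
theorem int_ix_sub {T A B : ℝ} {f : ℝ → ℝ} (lf : LB T f) (hA : 0 ≤ A) (hAB : A ≤ B) (hB : B ≤ T)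
    (s s' : ℝ) : ∫ t in A..B, f t * (ix s t - ix s' t) = ∫ t in cl A B s..cl A B s', f t := by
  have mA : A ∈ Icc 0 T := ⟨hA, hAB.trans hB⟩
  have mB : B ∈ Icc 0 T := ⟨hA.trans hAB, hB⟩
  have mc : ∀ s, cl A B s ∈ Icc 0 T := fun s =>
    ⟨hA.trans (cl_mem hAB s).1, (cl_mem hAB s).2.trans hB⟩
  simp only [mul_sub]
  rw [integral_sub ((lf.mul (ix_lb T s)).ii mA mB) ((lf.mul (ix_lb T s')).ii mA mB),
    int_ix lf hA hAB hB, int_ix lf hA hAB hB, int_split lf (mc s) (mc s') mB]
  ring

/-- the polynomial `e u² / 2 + c u³ / 3` -/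
def pw (e c u : ℝ) : ℝ := e * u ^ 2 / 2 + c * u ^ 3 / 3

theorem pw_nn {e c u : ℝ} (he : 0 ≤ e) (hc : 0 ≤ c) (hu : 0 ≤ u) : 0 ≤ pw e c u := by
  unfold pw; positivity

theorem int_pw_up (e c s d : ℝ) : ∫ t in s..s + d, (e * (t - s) + c * (t - s) ^ 2) = pw e c d := by
  rw [integral_comp_sub_right (fun u => e * u + c * u ^ 2) s]
  simp only [sub_self, add_sub_cancel_left]
  rw [intervalIntegral.integral_add (by apply Continuous.intervalIntegrable; fun_prop)
    (by apply Continuous.intervalIntegrable; fun_prop), intervalIntegral.integral_const_mul,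
    intervalIntegral.integral_const_mul, integral_id, integral_pow]
  unfold pw; ring

theorem int_pw_dn (e c s d : ℝ) : ∫ t in s - d..s, (e * (s - t) + c * (s - t) ^ 2) = pw e c d := by
  rw [integral_comp_sub_left (fun u => e * u + c * u ^ 2) s]
  simp only [sub_self, sub_sub_cancel]
  rw [intervalIntegral.integral_add (by apply Continuous.intervalIntegrable; fun_prop)
    (by apply Continuous.intervalIntegrable; fun_prop), intervalIntegral.integral_const_mul,
    intervalIntegral.integral_const_mul, integral_id, integral_pow]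
  unfold pw; ring

/-- one node, both times inside `[0, T]`: `M` grows at least like `e u + c u²` away from `sh` -/
theorem one_in {T : ℝ} {M : ℝ → ℝ} (lM : LB T M) {sb sh e c : ℝ} (hb : sb ∈ Icc 0 T)
    (hh : sh ∈ Icc 0 T)
    (up : ∀ t, sh < t → t < sb → e * (t - sh) + c * (t - sh) ^ 2 ≤ M t - M sh)
    (dn : ∀ t, sb < t → t < sh → e * (sh - t) + c * (sh - t) ^ 2 ≤ M sh - M t) :
    pw e c |sb - sh| ≤ ∫ t in sb..sh, (M sh - M t) := by
  rcases le_total sb sh with h | h
  · rw [abs_of_nonpos (by linarith), ← int_pw_dn e c sh, show sh - -(sb - sh) = sb by ring]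
    exact int_mono (T := T) (.of_cont (by fun_prop)) ((LB.const _).sub lM) hb.1 h hh.2 dn
  · rw [abs_of_nonneg (by linarith), ← int_pw_up e c sh, show sh + (sb - sh) = sb by ring,
      integral_symm sh sb, ← intervalIntegral.integral_neg]
    refine int_mono (T := T) (.of_cont (by fun_prop)) ?_ hh.1 h hb.2 fun t a b => by
      have := up t a b; linarith
    simpa using lM.sub (LB.const (M sh))

/-- one node, any position: the term is nonnegative for a monotone `M` -/
theorem one_nn {T A B : ℝ} {M : ℝ → ℝ} (lM : LB T M) (hA : 0 ≤ A) (hAB : A ≤ B) (hB : B ≤ T)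
    {sb sh m : ℝ} (up : ∀ t, A < t → t < B → sh ≤ t → m ≤ M t)
    (dn : ∀ t, A < t → t < B → t ≤ sh → M t ≤ m) :
    0 ≤ ∫ t in cl A B sb..cl A B sh, (m - M t) := by
  obtain ⟨b1, b2⟩ := cl_mem hAB sb
  obtain ⟨h1, h2⟩ := cl_mem hAB sh
  rcases le_total (cl A B sb) (cl A B sh) with h | h
  · have := int_mono (T := T) (LB.const 0) ((LB.const m).sub lM) (hA.trans b1) h (h2.trans hB)
      fun t a b => sub_nonneg.2 (dn t (by linarith) (by linarith) (by
        by_contra hc
        have : cl A B sh ≤ t := max_le (by linarith) ((min_le_right _ _).trans (not_le.1 hc).le)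
        linarith))
    simpa using this
  · rw [integral_symm, ← intervalIntegral.integral_neg]
    have l2 : LB T fun t => -(m - M t) := by simpa using lM.sub (LB.const m)
    have := int_mono (T := T) (LB.const 0) l2 (hA.trans h1) h (b2.trans hB)
      fun t a b => by
        have : sh ≤ t := by
          have h1 : min B sh ≤ cl A B sh := le_max_right _ _
          rcases le_total B sh with h | h
          · rw [min_eq_left h] at h1; linarith
          · rw [min_eq_right h] at h1; linarith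
        have := up t (by linarith) (by linarith) this
        linarith
    simpa using this

variable {ι : Type*}

/-- the difference of two step profiles with the same labels -/
def dzS (K : Finset ι) (dm sb sh : ι → ℝ) (t : ℝ) : ℝ := ∑ k ∈ K, dm k * (ix (sb k) t - ix (sh k) t)

theorem dzS_lb (T : ℝ) (K : Finset ι) (dm sb sh : ι → ℝ) : LB T (dzS K dm sb sh) :=
  lb_sum K fun _ _ => (LB.const _).mul ((ix_lb T _).sub (ix_lb T _))

/-- Fubini on the region between the two graphs -/
theorem int_dzS {T A B : ℝ} (hA : 0 ≤ A) (hAB : A ≤ B) (hB : B ≤ T) (K : Finset ι)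
    (dm sb sh : ι → ℝ) {f : ι → ℝ → ℝ} (lf : ∀ k ∈ K, LB T (f k)) :
    ∫ t in A..B, ∑ k ∈ K, dm k * (f k t * (ix (sb k) t - ix (sh k) t)) =
      ∑ k ∈ K, dm k * ∫ t in cl A B (sb k)..cl A B (sh k), f k t := by
  have mA : A ∈ Icc 0 T := ⟨hA, hAB.trans hB⟩
  have mB : B ∈ Icc 0 T := ⟨hA.trans hAB, hB⟩
  rw [intervalIntegral.integral_finsetSum fun k hk =>
    ((LB.const (dm k)).mul ((lf k hk).mul ((ix_lb T _).sub (ix_lb T _)))).ii mA mB]
  refine Finset.sum_congr rfl fun k hk => ?_
  rw [intervalIntegral.integral_const_mul, int_ix_sub (lf k hk) hA hAB hB]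

theorem int_dzS_one {T A B : ℝ} (hA : 0 ≤ A) (hAB : A ≤ B) (hB : B ≤ T) (K : Finset ι)
    (dm sb sh : ι → ℝ) :
    ∫ t in A..B, dzS K dm sb sh t = ∑ k ∈ K, dm k * (cl A B (sh k) - cl A B (sb k)) := by
  have := int_dzS hA hAB hB K dm sb sh (f := fun _ _ => 1) fun _ _ => LB.const 1
  simpa [dzS] using this

/-- `∫ g |dz| ≤ ∑ dm g_k |D_k|` when `g ≤ g_k` between the two times of the node `k` -/
theorem int_abs_le {T A B : ℝ} (hA : 0 ≤ A) (hAB : A ≤ B) (hB : B ≤ T) (K : Finset ι)
    {dm sb sh γ : ι → ℝ} (hdm : ∀ k ∈ K, 0 ≤ dm k) (hγ : ∀ k ∈ K, 0 ≤ γ k) {g : ℝ → ℝ}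
    (lg : LB T g)
    (hg : ∀ t, A < t → t < B → ∀ k ∈ K, (sb k ≤ t ∧ t < sh k) ∨ (sh k ≤ t ∧ t < sb k) →
      |g t| ≤ γ k) :
    ∫ t in A..B, |g t| * |dzS K dm sb sh t| ≤
      ∑ k ∈ K, dm k * (γ k * |cl A B (sb k) - cl A B (sh k)|) := by
  have key := int_dzS hA hAB hB K dm (fun k => min (sb k) (sh k)) (fun k => max (sb k) (sh k))
    (f := fun k _ => γ k) fun _ _ => LB.const _
  have e : ∀ k ∈ K, dm k * ∫ _ in cl A B (min (sb k) (sh k))..cl A B (max (sb k) (sh k)), γ k =
      dm k * (γ k * |cl A B (sb k) - cl A B (sh k)|) := fun k _ => by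
    rw [intervalIntegral.integral_const, smul_eq_mul]
    rcases le_total (sb k) (sh k) with h | h
    · rw [min_eq_left h, max_eq_right h, abs_of_nonpos (sub_nonpos.2 (cl_mono A B h))]; ring
    · rw [min_eq_right h, max_eq_left h, abs_of_nonneg (sub_nonneg.2 (cl_mono A B h))]; ring
  rw [← Finset.sum_congr rfl e, ← key]
  refine int_mono (lg.abs.mul (dzS_lb T K dm sb sh).abs)
    (lb_sum K fun k _ => (LB.const _).mul ((LB.const _).mul ((ix_lb T _).sub (ix_lb T _))))
    hA hAB hB fun t t0 t1 => ?_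
  refine (mul_le_mul_of_nonneg_left (Finset.abs_sum_le_sum_abs _ _) (abs_nonneg _)).trans ?_
  rw [Finset.mul_sum]
  refine Finset.sum_le_sum fun k hk => ?_
  rw [abs_mul, abs_of_nonneg (hdm k hk), mul_left_comm]
  refine mul_le_mul_of_nonneg_left ?_ (hdm k hk)
  have h1 := hg t t0 t1 k hk
  have h2 := hγ k hk
  unfold ix
  by_cases a : sb k ≤ t <;> by_cases b : sh k ≤ t
  · simp [a, b]
  · have := h1 (.inl ⟨a, not_le.1 b⟩); simp [a, b, this]
  · have := h1 (.inr ⟨b, not_le.1 a⟩); simp [a, b, this]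
  · simp [a, b]

/-- **pointwise form**: `F` lies on the right side of `f k` for the labels between the graphs -/
theorem pt_lower (K : Finset ι) {dm sb sh f : ι → ℝ} (hdm : ∀ k ∈ K, 0 ≤ dm k) {F t : ℝ}
    (hp : ∀ k ∈ K, sb k ≤ t → t < sh k → f k ≤ F) (hn : ∀ k ∈ K, sh k ≤ t → t < sb k → F ≤ f k) :
    ∑ k ∈ K, dm k * (f k * (ix (sb k) t - ix (sh k) t)) ≤ F * dzS K dm sb sh t := by
  unfold dzS
  rw [Finset.mul_sum]
  refine Finset.sum_le_sum fun k hk => ?_
  rw [mul_left_comm F]
  refine mul_le_mul_of_nonneg_left ?_ (hdm k hk)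
  unfold ix
  by_cases a : sb k ≤ t <;> by_cases b : sh k ≤ t
  · simp [a, b]
  · have := hp k hk a (not_le.1 b); simpa [a, b] using this
  · have := hn k hk b (not_le.1 a); simpa [a, b] using this
  · simp [a, b]

/-- **(MON') mass term in label form.**  `hb t` is the mark of the current label of the first
profile, `h k = M (sh k) + G k` the mark of the node `k`.  Nodes of `K'` have both times in
`[A, B]`. -/
theorem lab_lower {T A B : ℝ} (hA : 0 ≤ A) (hAB : A ≤ B) (hB : B ≤ T) {K K' : Finset ι}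
    (hK : K' ⊆ K) {dm sb sh m G e c : ι → ℝ} (hdm : ∀ k ∈ K, 0 ≤ dm k) {hb M : ℝ → ℝ}
    (lh : LB T hb) (lM : LB T M)
    (hp : ∀ t, A < t → t < B → ∀ k ∈ K, sb k ≤ t → t < sh k → m k + G k ≤ hb t)
    (hn : ∀ t, A < t → t < B → ∀ k ∈ K, sh k ≤ t → t < sb k → hb t ≤ m k + G k)
    (mu : ∀ k ∈ K, ∀ t, A < t → t < B → sh k ≤ t → m k ≤ M t)
    (md : ∀ k ∈ K, ∀ t, A < t → t < B → t ≤ sh k → M t ≤ m k)
    (hin : ∀ k ∈ K', sb k ∈ Icc A B ∧ sh k ∈ Icc A B ∧ m k = M (sh k))
    (up : ∀ k ∈ K', ∀ t, sh k < t → t < sb k → e k * (t - sh k) + c k * (t - sh k) ^ 2 ≤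
      M t - M (sh k))
    (dn : ∀ k ∈ K', ∀ t, sb k < t → t < sh k → e k * (sh k - t) + c k * (sh k - t) ^ 2 ≤
      M (sh k) - M t) :
    ∑ k ∈ K', dm k * pw (e k) (c k) |sb k - sh k| -
        ∑ k ∈ K, dm k * (|G k| * |cl A B (sb k) - cl A B (sh k)|) ≤
      ∫ t in A..B, (hb t - M t) * dzS K dm sb sh t := by
  classical
  have lf : ∀ k ∈ K, LB T fun t => m k + G k - M t := fun k _ => (LB.const _).sub lM
  have h1 := int_mono (lb_sum K fun k hk => (LB.const (dm k)).mul ((lf k hk).mul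
      ((ix_lb T (sb k)).sub (ix_lb T (sh k))))) ((lh.sub lM).mul (dzS_lb T K dm sb sh)) hA hAB hB
    fun t t0 t1 => pt_lower K hdm (f := fun k => m k + G k - M t) (F := hb t - M t)
      (fun k hk a b => by have := hp t t0 t1 k hk a b; linarith)
      (fun k hk a b => by have := hn t t0 t1 k hk a b; linarith)
  rw [int_dzS hA hAB hB K dm sb sh lf] at h1
  refine le_trans ?_ h1
  have mc : ∀ s, cl A B s ∈ Icc 0 T := fun s =>
    ⟨hA.trans (cl_mem hAB s).1, (cl_mem hAB s).2.trans hB⟩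
  have sp : ∀ k ∈ K, ∫ t in cl A B (sb k)..cl A B (sh k), (m k + G k - M t) =
      (∫ t in cl A B (sb k)..cl A B (sh k), (m k - M t)) + G k * (cl A B (sh k) - cl A B (sb k)) :=
    fun k _ => by
      rw [show (fun t => m k + G k - M t) = fun t => (m k - M t) + G k by funext t; ring,
        integral_add (((LB.const _).sub lM).ii (mc _) (mc _)) ((LB.const _).ii (mc _) (mc _)),
        intervalIntegral.integral_const, smul_eq_mul, mul_comm]
  have e1 : ∑ k ∈ K', dm k * pw (e k) (c k) |sb k - sh k| ≤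
      ∑ k ∈ K, dm k * ∫ t in cl A B (sb k)..cl A B (sh k), (m k - M t) := by
    refine le_trans (Finset.sum_le_sum fun k hk => ?_) (Finset.sum_le_sum_of_subset_of_nonneg hK
      fun k hk _ => mul_nonneg (hdm k hk) (one_nn lM hA hAB hB (mu k hk) (md k hk)))
    obtain ⟨a, b, d⟩ := hin k hk
    refine mul_le_mul_of_nonneg_left ?_ (hdm k (hK hk))
    rw [cl_eq a.1 a.2, cl_eq b.1 b.2, d]
    exact one_in lM ⟨hA.trans a.1, a.2.trans hB⟩ ⟨hA.trans b.1, b.2.trans hB⟩ (up k hk) (dn k hk)
  have e0 : ∑ k ∈ K, dm k * ∫ t in cl A B (sb k)..cl A B (sh k), (m k + G k - M t) =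
      (∑ k ∈ K, dm k * ∫ t in cl A B (sb k)..cl A B (sh k), (m k - M t)) +
        ∑ k ∈ K, dm k * (G k * (cl A B (sh k) - cl A B (sb k))) := by
    rw [← Finset.sum_add_distrib]
    exact Finset.sum_congr rfl fun k hk => by rw [sp k hk, mul_add]
  rw [e0]
  have e2 : -∑ k ∈ K, dm k * (|G k| * |cl A B (sb k) - cl A B (sh k)|) ≤
      ∑ k ∈ K, dm k * (G k * (cl A B (sh k) - cl A B (sb k))) := by
    rw [← Finset.sum_neg_distrib]
    refine Finset.sum_le_sum fun k hk => ?_
    rw [← mul_neg]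
    refine mul_le_mul_of_nonneg_left ?_ (hdm k hk)
    rw [abs_sub_comm, ← abs_mul]
    exact neg_abs_le _
  linarith

/-! ### (LIP) on the plateau -/

/-- fourth moment on a plateau: `δ ≤ d` and `U² δ³ ≤ E`, `U` the label distance -/
theorem plat4 {U δ : ℕ → ℝ} {p q : ℕ} (hpq : p ≤ q) {d E : ℝ} (hd : 0 < d) (hE : 0 ≤ E)
    (hU0 : 0 ≤ U p) (hU : ∀ k, p ≤ k → k < q → U k ≤ U (k + 1))
    (hδ : ∀ k, p ≤ k → k < q → 0 ≤ δ k ∧ δ k ≤ d)
    (h : ∀ k, p ≤ k → k < q → U (k + 1) ^ 2 * δ k ^ 3 ≤ E) :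
    ∑ k ∈ Finset.Ico p q, (U (k + 1) - U k) * δ k ^ 4 ≤ d ^ 5 + E := by
  have key : ∀ n, p ≤ n → n ≤ q → ∑ k ∈ Finset.Ico p n, (U (k + 1) - U k) * δ k ^ 4 ≤
      d ^ 4 * (min (U n) d - min (U p) d) + d * E * (1 / max (U p) d - 1 / max (U n) d) := by
    intro n hn
    induction n, hn using Nat.le_induction with
    | base => intro _; simp
    | succ n hn ih =>
      intro hq
      rw [Finset.sum_Ico_succ_top hn]
      have i1 := ih (by omega)
      obtain ⟨a, b⟩ := hδ n hn (by omega)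
      have hu := hU n hn (by omega)
      have hh := h n hn (by omega)
      have s1 : U (n + 1) - U n = (min (U (n + 1)) d - min (U n) d) +
          (max (U (n + 1)) d - max (U n) d) := by
        have := min_add_max (U (n + 1)) d
        have := min_add_max (U n) d
        linarith
      have s2 : 0 ≤ min (U (n + 1)) d - min (U n) d := sub_nonneg.2 (min_le_min hu le_rfl)
      have s3 : (min (U (n + 1)) d - min (U n) d) * δ n ^ 4 ≤
          d ^ 4 * (min (U (n + 1)) d - min (U n) d) := by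
        rw [mul_comm]; exact mul_le_mul_of_nonneg_right (pow_le_pow_left₀ a b 4) s2
      have v0 : 0 < max (U n) d := lt_max_of_lt_right hd
      have s4 : (max (U (n + 1)) d - max (U n) d) * δ n ^ 4 ≤
          d * E * (1 / max (U n) d - 1 / max (U (n + 1)) d) := by
        rcases le_total (U (n + 1)) d with c | c
        · rw [max_eq_right c, max_eq_right (hu.trans c)]; simp
        · rw [max_eq_left c]
          have v1 : max (U n) d ≤ U (n + 1) := max_le hu c
          have v2 : 0 < U (n + 1) := hd.trans_le c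
          set V := max (U n) d
          set W := U (n + 1)
          have e : d * E * (1 / V - 1 / W) = (W - V) * (d * E / (V * W)) := by field_simp
          rw [e]
          refine mul_le_mul_of_nonneg_left ?_ (by linarith)
          rw [le_div_iff₀ (by positivity)]
          have t1 : δ n ^ 4 * (V * W) ≤ δ n ^ 4 * (W * W) :=
            mul_le_mul_of_nonneg_left (mul_le_mul_of_nonneg_right v1 v2.le) (by positivity)
          have t2 : δ n * (W ^ 2 * δ n ^ 3) ≤ d * E :=
            mul_le_mul b hh (by positivity) hd.le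
          nlinarith
      rw [s1, add_mul]
      nlinarith
  have k := key q hpq le_rfl
  have a1 : min (U q) d - min (U p) d ≤ d := by
    have := min_le_right (U q) d
    have := le_min hU0 hd.le
    linarith
  have a2 : 1 / max (U p) d - 1 / max (U q) d ≤ 1 / d := by
    have := one_div_le_one_div_of_le hd (le_max_right (U p) d)
    have : 0 ≤ 1 / max (U q) d := by have := lt_max_of_lt_right (b := U q) hd; positivity
    linarith
  have a3 := mul_le_mul_of_nonneg_left a1 (by positivity : 0 ≤ d ^ 4)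
  have a4 := mul_le_mul_of_nonneg_left a2 (by positivity : 0 ≤ d * E)
  have a5 : d * E * (1 / d) = E := by field_simp
  nlinarith

variable {T : ℝ} {zh zb : ℝ → ℝ}

theorem jf_sub (lz : LB T fun t => zb t - zh t) {s t : ℝ} (hs : s ∈ Icc 0 T) (ht : t ∈ Icc 0 T) :
    Jf T zh zb s - Jf T zh zb t = ∫ u in s..t, (zb u - zh u) := by
  have mT : T ∈ Icc 0 T := ⟨hs.1.trans hs.2, le_rfl⟩
  have := int_split lz hs ht mT
  unfold Jf; linarith

theorem jf_cont (lz : LB T fun t => zb t - zh t) (hT : 0 ≤ T) :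
    ContinuousOn (Jf T zh zb) (Icc 0 T) := by
  have m0 : (0 : ℝ) ∈ Icc 0 T := ⟨le_rfl, hT⟩
  have h1 := intervalIntegral.continuousOn_primitive_interval' (lz.ii m0 ⟨hT, le_rfl⟩) left_mem_uIcc
  rw [uIcc_of_le hT] at h1
  refine (continuousOn_const.sub h1 :
    ContinuousOn (fun s => Jf T zh zb 0 - ∫ u in (0 : ℝ)..s, (zb u - zh u)) _).congr fun s hs => ?_
  have := jf_sub lz m0 hs
  show Jf T zh zb s = Jf T zh zb 0 - ∫ u in (0 : ℝ)..s, (zb u - zh u)
  linarith

/-- a gap of at least `κ` on a length `ℓ` -/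
theorem gap_pos (lz : LB T fun t => zb t - zh t) {u ℓ κ : ℝ} (hu : 0 ≤ u) (hℓ : 0 ≤ ℓ)
    (hT : u + ℓ ≤ T) (hκ : 0 ≤ κ) (h : ∀ t, u < t → t < u + ℓ → κ ≤ zb t - zh t) :
    κ ^ 2 * ℓ ^ 3 / 64 ≤ ∫ s in u..u + ℓ, Jf T zh zb s ^ 2 := by
  refine Sun9.slope_sq hℓ hκ ((jf_cont lz (by linarith)).mono (Icc_subset_Icc hu hT))
    fun s t h1 h2 h3 => ?_
  rw [jf_sub lz ⟨by linarith, by linarith⟩ ⟨by linarith, by linarith⟩]
  have := int_mono (LB.const κ) lz (by linarith) h2 (by linarith)
    fun y a b => h y (by linarith) (by linarith)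
  rw [intervalIntegral.integral_const, smul_eq_mul] at this
  linarith

theorem gap_neg (lz : LB T fun t => zb t - zh t) {u ℓ κ : ℝ} (hu : 0 ≤ u) (hℓ : 0 ≤ ℓ)
    (hT : u + ℓ ≤ T) (hκ : 0 ≤ κ) (h : ∀ t, u < t → t < u + ℓ → zb t - zh t ≤ -κ) :
    κ ^ 2 * ℓ ^ 3 / 64 ≤ ∫ s in u..u + ℓ, Jf T zh zb s ^ 2 := by
  have := Sun9.slope_sq (f := fun s => -Jf T zh zb s) hℓ hκ
    ((jf_cont lz (by linarith)).mono (Icc_subset_Icc hu hT)).neg fun s t h1 h2 h3 => by
      have e := jf_sub lz (s := s) (t := t) ⟨by linarith, by linarith⟩ ⟨by linarith, by linarith⟩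
      have := int_mono lz (LB.const (-κ)) (by linarith) h2 (by linarith)
        fun y a b => h y (by linarith) (by linarith)
      rw [intervalIntegral.integral_const, smul_eq_mul] at this
      linarith
  simpa using this

/-- `|J'| ≤ 1` gives `sup |J|³ ≤ 24 ∫ J²` as soon as there is room `|J s| / 2` on one side -/
theorem sup_cube (lz : LB T fun t => zb t - zh t) (h1 : ∀ t, 0 < t → t < T → |zb t - zh t| ≤ 1)
    {A B s : ℝ} (hA : 0 ≤ A) (hB : B ≤ T) (hs : A ≤ s) (hsB : s ≤ B)
    (hr : A ≤ s - |Jf T zh zb s| / 2 ∨ s + |Jf T zh zb s| / 2 ≤ B) :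
    |Jf T zh zb s| ^ 3 ≤ 8 * ∫ t in A..B, Jf T zh zb t ^ 2 := by
  set j := |Jf T zh zb s| with hj
  have j0 : 0 ≤ j := abs_nonneg _
  have lJ : LB T fun t => Jf T zh zb t ^ 2 := (LB.of_cont (jf_cont lz (by linarith))).sq
  have lip : ∀ x y, 0 ≤ x → x ≤ y → y ≤ T → |Jf T zh zb x - Jf T zh zb y| ≤ y - x := by
    intro x y a b c
    rw [jf_sub lz ⟨a, by linarith⟩ ⟨by linarith, c⟩]
    refine (abs_integral_le_integral_abs b).trans ?_
    simpa using int_le_const lz.abs (K := 1) a b c fun t t0 t1 => h1 t (by linarith) (by linarith)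
  have main : ∀ x y, A ≤ x → y = x + j / 2 → y ≤ B → (∀ t, x < t → t < y → |t - s| ≤ j / 2) →
      j ^ 3 ≤ 8 * ∫ t in A..B, Jf T zh zb t ^ 2 := by
    intro x y a b c d
    have xy : x ≤ y := by linarith
    have m1 := int_mono (LB.const ((j / 2) ^ 2)) lJ (hA.trans a) xy (c.trans hB) fun t t0 t1 => by
      have e : |Jf T zh zb s - Jf T zh zb t| ≤ j / 2 := by
        rcases le_total s t with o | o
        · exact (lip s t (by linarith) o (by linarith)).trans ((le_abs_self _).trans (d t t0 t1))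
        · rw [abs_sub_comm]
          refine (lip t s (by linarith) o (by linarith)).trans ?_
          have := d t t0 t1
          rw [abs_sub_comm] at this
          exact (le_abs_self _).trans this
      have : j / 2 ≤ |Jf T zh zb t| := by
        have := abs_sub_abs_le_abs_sub (Jf T zh zb s) (Jf T zh zb t); linarith
      rw [← sq_abs (Jf T zh zb t)]
      exact pow_le_pow_left₀ (by positivity) this 2
    have m2 := int_sub_le lJ hA a xy c hB fun _ _ _ => sq_nonneg _
    rw [intervalIntegral.integral_const, smul_eq_mul, b] at m1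
    rw [b] at m2
    nlinarith
  rcases hr with h | h
  · exact main (s - j / 2) s h (by ring) hsB fun t a b => abs_le.2 ⟨by linarith, by linarith⟩
  · exact main s (s + j / 2) hs rfl h fun t a b => abs_le.2 ⟨by linarith, by linarith⟩

end Crest.Agent.T156.Lab36

end
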