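import Crest.Agent.T156.Lp_12

/-!
# Row 156 (helper2): moments of the increment of `m` through ONE thin slice, every exponent

`slice_mom`, `CE_last`, `EE_last`: if the level has diagonal covariance `≤ c`, `2 |Ω| ≤ e^D` and
`c (D+5)² ≤ 1/36`, then `E |m_{j+1} - m_j|^{2k} ≤ (48 Λ c (D+5+2k)²)^k` for all `k`.
-/

set_option autoImplicit false
set_option linter.unusedSectionVars false

noncomputable section

namespace Crest.Agent.T156.Cas.Last2

open MeasureTheory Real Set Filter Topology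
open Crest.Agent.T157.E Crest.Agent.T157.Casc Crest.Agent.T157.SL
open Crest.Agent.T156.Cas.Sy41 Crest.Agent.T156.Cas.Lp12

variable {Ω : Type} [Fintype Ω] {w : Ω → ℝ}

theorem ne_of_wt (hw : Wt w) : Nonempty Ω := by
  by_contra h
  rw [not_nonempty_iff] at h
  have := sum_P hw [] 0
  simp at this

theorem lg_norm (z : Ω → ℝ) : Lg fun z' : Ω → ℝ => ‖z' - z‖ :=
  Lg.of (by fun_prop) ‖z‖ 1 fun z' => by
    rw [abs_norm, one_mul, add_comm]; exact norm_sub_le z' z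

theorem int_fld {Φ : ℝ → ℝ} (l : Lv Ω) (h : Eg fun z' : Ω → ℝ => Φ ‖z' - 0‖) :
    Integrable (fun g => Φ ‖l.fld g‖) (gv l.ι) := by simpa using h.int l 0

theorem exp_norm_le [Nonempty Ω] (u : Ω → ℝ) {t : ℝ} (ht : 0 ≤ t) :
    exp (t * ‖u‖) ≤ ∑ x, (exp (t * u x) + exp (-t * u x)) := by
  obtain ⟨x, hx⟩ := Finite.exists_max fun x => |u x|
  have h1 : ‖u‖ ≤ |u x| := (pi_norm_le_iff_of_nonneg (abs_nonneg _)).2 fun y => hx y
  refine le_trans ?_ (Finset.single_le_sum (f := fun x => exp (t * u x) + exp (-t * u x))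
    (fun _ _ => by positivity) (Finset.mem_univ x))
  refine (exp_le_exp.2 (mul_le_mul_of_nonneg_left h1 ht)).trans ?_
  rcases abs_cases (u x) with ⟨e, -⟩ | ⟨e, -⟩ <;> rw [e]
  · linarith [exp_pos (-t * u x)]
  · rw [show t * -u x = -t * u x by ring]; linarith [exp_pos (t * u x)]

theorem int_exp_mul (l : Lv Ω) (t : ℝ) (x : Ω) :
    ∫ g, exp (t * l.fld g x) ∂gv l.ι = exp (t ^ 2 * l.cov x x / 2) := by
  have := C.int_exp_lin fun i => t * l.A x i
  simp only [Lv.fld, Lv.cov, Finset.mul_sum, ← mul_assoc]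
  rw [this]
  congr 2
  exact Finset.sum_congr rfl fun i _ => by ring

theorem integ_exp_mul (l : Lv Ω) (t : ℝ) (x : Ω) :
    Integrable (fun g => exp (t * l.fld g x)) (gv l.ι) :=
  Integrable.of_integral_ne_zero (by rw [int_exp_mul]; exact (exp_pos _).ne')

theorem int_exp_norm [Nonempty Ω] (l : Lv Ω) {c D : ℝ} (hc : ∀ x, l.cov x x ≤ c)
    (hD : 2 * (Fintype.card Ω : ℝ) ≤ exp D) {t : ℝ} (ht : 0 ≤ t) :
    ∫ g, exp (t * ‖l.fld g‖) ∂gv l.ι ≤ exp (D + t ^ 2 * c / 2) := by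
  have i1 : ∀ x, Integrable (fun g => exp (t * l.fld g x) + exp (-t * l.fld g x)) (gv l.ι) :=
    fun x => (integ_exp_mul l t x).add (integ_exp_mul l (-t) x)
  refine (integral_mono (int_fld (Φ := fun s => exp (t * s)) l ((lg_norm 0).exp t))
    (integrable_finsetSum _ fun x _ => i1 x) fun g => exp_norm_le (l.fld g) ht).trans ?_
  rw [integral_finsetSum _ fun x _ => i1 x]
  have h2 : ∀ x, ∫ g, (exp (t * l.fld g x) + exp (-t * l.fld g x)) ∂gv l.ι ≤
      2 * exp (t ^ 2 * c / 2) := fun x => by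
    rw [integral_add (integ_exp_mul l t x) (integ_exp_mul l (-t) x), int_exp_mul, int_exp_mul,
      neg_sq, ← two_mul]
    have := hc x
    gcongr
  refine (Finset.sum_le_sum fun x _ => h2 x).trans ?_
  rw [Finset.sum_const, Finset.card_univ, nsmul_eq_mul, exp_add, ← mul_assoc, mul_comm _ 2]
  gcongr

theorem D_nonneg [Nonempty Ω] {D : ℝ} (hD : 2 * (Fintype.card Ω : ℝ) ≤ exp D) : 0 ≤ D := by
  have : (1 : ℝ) ≤ Fintype.card Ω := by exact_mod_cast Fintype.card_pos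
  exact one_le_exp_iff.1 (by linarith)

theorem pt_bound {r E S : ℝ} (hr : 0 < r) (hE : 0 ≤ E) (hS : 0 ≤ S) (j : ℕ) :
    S ^ j * exp S ≤ (r * E) ^ j * exp (r * E) +
      j.factorial * r ^ j * exp (-E) * exp ((2 / r + 1) * S) := by
  rcases le_total S (r * E) with h | h
  · have : S ^ j * exp S ≤ (r * E) ^ j * exp (r * E) := by gcongr
    exact this.trans (le_add_of_nonneg_right (by positivity))
  · refine le_trans ?_ (le_add_of_nonneg_left (by positivity))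
    have h1 := Real.pow_div_factorial_le_exp (S / r) (by positivity) j
    have p : (0 : ℝ) < j.factorial := by positivity
    rw [div_le_iff₀ p, div_pow, div_le_iff₀ (by positivity)] at h1
    have h2 : E ≤ S / r := by rw [le_div_iff₀ hr]; linarith
    have h3 : exp (S / r) * exp S ≤ exp (-E) * exp ((2 / r + 1) * S) := by
      rw [← exp_add, ← exp_add, exp_le_exp]
      have : (2 / r + 1) * S = 2 * (S / r) + S := by ring
      linarith
    calc S ^ j * exp S ≤ exp (S / r) * j.factorial * r ^ j * exp S := by gcongr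
      _ = j.factorial * r ^ j * (exp (S / r) * exp S) := by ring
      _ ≤ j.factorial * r ^ j * (exp (-E) * exp ((2 / r + 1) * S)) := by gcongr
      _ = _ := by ring

theorem sqrt_small {c D : ℝ} (hc0 : 0 < c) (hD : 0 ≤ D) (hs : c * (D + 5) ^ 2 ≤ 1 / 36) :
    √c * (D + 5) ≤ 1 / 6 := by
  refine (pow_le_pow_iff_left₀ (by positivity) (by norm_num) two_ne_zero).1 ?_
  rw [mul_pow, sq_sqrt hc0.le]
  linarith

theorem eg_pe (z : Ω → ℝ) (j : ℕ) : Eg fun z' : Ω → ℝ => ‖z' - z‖ ^ j * exp ‖z' - z‖ := by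
  simpa using ((lg_norm z).eg.pow j).mul ((lg_norm z).exp 1)

theorem int_pow_exp [Nonempty Ω] (l : Lv Ω) {c D : ℝ} (hc : ∀ x, l.cov x x ≤ c) (hc0 : 0 < c)
    (hD : 2 * (Fintype.card Ω : ℝ) ≤ exp D) (hs : c * (D + 5) ^ 2 ≤ 1 / 36) (j : ℕ) :
    ∫ g, ‖l.fld g‖ ^ j * exp ‖l.fld g‖ ∂gv l.ι ≤ √c ^ j * (2 * (D + 5) ^ j + j.factorial) := by
  have D0 := D_nonneg hD
  have r0 := sqrt_pos.2 hc0
  have r1 := sqrt_small hc0 D0 hs
  have i2 := int_fld (Φ := fun s => exp ((2 / √c + 1) * s)) l ((lg_norm 0).exp _)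
  refine (integral_mono (int_fld (Φ := fun s => s ^ j * exp s) l (eg_pe 0 j))
    ((integrable_const _).add (i2.const_mul _)) fun g =>
      pt_bound r0 (by linarith : 0 ≤ D + 5) (norm_nonneg _) j).trans ?_
  simp only [Pi.add_apply]
  rw [integral_add (integrable_const _) (i2.const_mul _), integral_const, probReal_univ, one_smul,
    integral_const_mul]
  have h1 := int_exp_norm l hc hD (t := 2 / √c + 1) (by positivity)
  have h2 : (2 / √c + 1) ^ 2 * c ≤ 10 := by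
    have e : (2 / √c + 1) ^ 2 * c = (2 + √c) ^ 2 := by
      conv_lhs => rw [← sq_sqrt hc0.le]
      rw [sqrt_sq r0.le]
      field_simp
    rw [e]
    nlinarith [mul_nonneg r0.le D0]
  have h3 : exp (-(D + 5)) * ∫ g, exp ((2 / √c + 1) * ‖l.fld g‖) ∂gv l.ι ≤ 1 := by
    refine (mul_le_mul_of_nonneg_left h1 (exp_pos _).le).trans ?_
    rw [← exp_add]
    exact exp_le_one_iff.2 (by linarith)
  have h4 : exp (√c * (D + 5)) ≤ 2 := by
    rw [← exp_log (show (0 : ℝ) < 2 by norm_num), exp_le_exp]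
    linarith [Real.log_two_gt_d9]
  have h5 : (√c * (D + 5)) ^ j * exp (√c * (D + 5)) ≤ (√c * (D + 5)) ^ j * 2 := by gcongr
  have h6 := mul_le_mul_of_nonneg_left h3 (show 0 ≤ (j.factorial : ℝ) * √c ^ j by positivity)
  rw [mul_pow] at h5 ⊢
  nlinarith

/-- moments of the displacement of the state under the tilted law -/
theorem tE_norm_pow (hw : Wt w) (l : Lv Ω) (L : List (Lv Ω)) (hm : 0 ≤ l.m) (hm1 : l.m ≤ 1)
    {c D : ℝ} (hc : ∀ x, l.cov x x ≤ c) (hc0 : 0 < c) (hD : 2 * (Fintype.card Ω : ℝ) ≤ exp D)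
    (hs : c * (D + 5) ^ 2 ≤ 1 / 36) (j : ℕ) (z : Ω → ℝ) :
    tE l (X w L) (fun z' => ‖z' - z‖ ^ j) z ≤ 6 * (√c * (D + 5 + j)) ^ j := by
  have := ne_of_wt hw
  have D0 := D_nonneg hD
  have r0 := sqrt_pos.2 hc0
  have r1 := sqrt_small hc0 D0 hs
  have hX := lg_X hw L
  have key : ∀ g, |l.m * X w L (z + l.fld g) - l.m * X w L z| ≤ ‖l.fld g‖ := fun g => by
    have := abs_X_sub_le hw L (z := z) (z' := z + l.fld g) (c := ‖l.fld g‖) fun x _ => by
      simpa using norm_le_pi_norm (l.fld g) x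
    rw [← mul_sub, abs_mul, abs_of_nonneg hm]
    exact (mul_le_of_le_one_left (abs_nonneg _) hm1).trans this
  have ip := fun j => int_fld (Φ := fun s => s ^ j * exp s) l (eg_pe 0 j)
  set E := exp (l.m * X w L z) with hE
  have E0 : 0 < E := exp_pos _
  have hN : ∫ g, exp (l.m * X w L (z + l.fld g)) * ‖z + l.fld g - z‖ ^ j ∂gv l.ι ≤
      E * (√c ^ j * (2 * (D + 5) ^ j + j.factorial)) := by
    refine le_trans (integral_mono (hX.int ((lg_norm z).eg.pow j) l z) ((ip j).const_mul E)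
      fun g => ?_) ?_
    · simp only [add_sub_cancel_left]
      rw [mul_comm (_ ^ j), ← mul_assoc, hE, ← exp_add]
      gcongr
      linarith [(abs_le.1 (key g)).2]
    · rw [integral_const_mul]
      exact mul_le_mul_of_nonneg_left (int_pow_exp l hc hc0 hD hs j) E0.le
  have hZ : E * (1 / 2) ≤ ∫ g, exp (l.m * X w L (z + l.fld g)) ∂gv l.ι := by
    refine le_trans ?_ (integral_mono (((integrable_const (1 : ℝ)).sub (ip 1)).const_mul E)
      ((hX.exp l.m).int l z) fun g => ?_)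
    · simp only [Pi.sub_apply]
      rw [integral_const_mul, integral_sub (integrable_const _) (ip 1), integral_const,
        probReal_univ, one_smul]
      have := int_pow_exp l hc hc0 hD hs 1
      refine mul_le_mul_of_nonneg_left ?_ E0.le
      simp only [pow_one, Nat.factorial_one, Nat.cast_one] at this ⊢
      nlinarith [mul_nonneg r0.le D0]
    · simp only [Pi.sub_apply, pow_one]
      have h1 : 1 - ‖l.fld g‖ * exp ‖l.fld g‖ ≤ exp (-‖l.fld g‖) := by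
        have := add_one_le_exp (-‖l.fld g‖)
        have h2 := one_le_exp (norm_nonneg (l.fld g))
        nlinarith [norm_nonneg (l.fld g)]
      refine (mul_le_mul_of_nonneg_left h1 E0.le).trans ?_
      rw [hE, ← exp_add, exp_le_exp]
      linarith [(abs_le.1 (key g)).1]
  have hb : √c ^ j * (2 * (D + 5) ^ j + j.factorial) ≤ 3 * (√c * (D + 5 + j)) ^ j := by
    have h1 : (D + 5) ^ j ≤ (D + 5 + j) ^ j :=
      pow_le_pow_left₀ (by linarith) (le_add_of_nonneg_right (Nat.cast_nonneg j)) j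
    have h2 : (j.factorial : ℝ) ≤ (D + 5 + j) ^ j := by
      have : (j.factorial : ℝ) ≤ (j : ℝ) ^ j := by exact_mod_cast Nat.factorial_le_pow j
      refine this.trans ?_
      gcongr; linarith
    rw [mul_pow]
    nlinarith [pow_pos r0 j]
  rw [tE, div_le_iff₀ (hX.Z_pos l z)]
  have p : 0 ≤ (√c * (D + 5 + j)) ^ j := by positivity
  calc _ ≤ E * (3 * (√c * (D + 5 + j)) ^ j) := hN.trans (mul_le_mul_of_nonneg_left hb E0.le)
    _ = 6 * (√c * (D + 5 + j)) ^ j * (E * (1 / 2)) := by ring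
    _ ≤ _ := by gcongr

/-- the node mean is Lipschitz in the state -/
theorem Pf_lip (hw : Wt w) {L : List (Lv Ω)} (hL : Mono 0 L) {f : Ω → ℝ} {B : ℝ}
    (hf : ∀ x, f x ^ 2 ≤ B) (z z' : Ω → ℝ) : (Pf w L z' f - Pf w L z f) ^ 2 ≤ B * ‖z' - z‖ ^ 2 := by
  have hH : ∀ (y u : Ω → ℝ) (b : ℝ), (∀ x, u x ^ 2 ≤ b) → Hb w L y u u ≤ b := fun y u b hu => by
    refine (Hess87.sandwich hw u L 0 y hL).2.trans ?_
    have := sum_P_le hw L y (f := fun x => u x * u x) (c := b) fun x _ => by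
      simpa only [sq] using hu x
    unfold Cb
    unfold Pf at *
    nlinarith [mul_self_nonneg (∑ x, P w L y x * u x)]
  obtain ⟨s, -, e⟩ := (Ric63.gr_Pf hw L f).exists_sub z (z' - z)
  rw [add_sub_cancel] at e
  have e2 : Pf w L z' f - Pf w L z f = Hb w L (z + s • (z' - z)) f (z' - z) := by
    rw [e, Hb, Finset.sum_comm]
    refine Finset.sum_congr rfl fun y _ => ?_
    rw [Finset.sum_mul]
    exact Finset.sum_congr rfl fun x _ => by ring
  have nn := hL.nn le_rfl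
  rw [e2]
  refine (Hess87.Hb_cs hw L _ f (z' - z) nn).trans ?_
  refine mul_le_mul (hH _ f B hf) (hH _ _ _ fun x => ?_) (Hess87.Hb_nonneg hw _ L _ nn) ?_
  · rw [← sq_abs]
    exact pow_le_pow_left₀ (abs_nonneg _) (norm_le_pi_norm (z' - z) x) 2
  · obtain ⟨x⟩ := ne_of_wt hw
    exact (sq_nonneg _).trans (hf x)

theorem mv_lip (hw : Wt w) {L : List (Lv Ω)} (hL : Mono 0 L) (l₀ : Lv Ω) {Λ : ℝ} (hΛ0 : 0 ≤ Λ)
    (hΛ : ∀ x v, l₀.fld v x ^ 2 ≤ Λ * ∑ i, v i ^ 2) (z z' : Ω → ℝ) :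
    ∑ i, (mv w L l₀ z' i - mv w L l₀ z i) ^ 2 ≤ Λ * ‖z' - z‖ ^ 2 := by
  set v : l₀.ι → ℝ := fun i => mv w L l₀ z' i - mv w L l₀ z i with hv
  have h1 := Pf_lip hw hL (f := l₀.fld v) (fun x => hΛ x v) z z'
  have e : Pf w L z' (l₀.fld v) - Pf w L z (l₀.fld v) = ∑ i, v i ^ 2 := by
    rw [Pf_fld, Pf_fld, ← Finset.sum_sub_distrib]
    exact Finset.sum_congr rfl fun i _ => by simp only [hv]; ring
  rw [e] at h1
  have s0 : 0 ≤ ∑ i, v i ^ 2 := Finset.sum_nonneg fun _ _ => sq_nonneg _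
  rcases s0.eq_or_lt with s1 | s1
  · rw [← s1]; positivity
  · refine le_of_mul_le_mul_left ?_ s1
    nlinarith

/-- **one slice, every moment** -/
theorem slice_mom (hw : Wt w) (l : Lv Ω) {L : List (Lv Ω)} (hL : Mono 0 (l :: L)) (l₀ : Lv Ω)
    {Λ c D : ℝ} (hΛ0 : 0 ≤ Λ) (hΛ : ∀ x v, l₀.fld v x ^ 2 ≤ Λ * ∑ i, v i ^ 2)
    (hc : ∀ x, l.cov x x ≤ c) (hc0 : 0 < c) (hD : 2 * (Fintype.card Ω : ℝ) ≤ exp D)
    (hs : c * (D + 5) ^ 2 ≤ 1 / 36) (k : ℕ) (z : Ω → ℝ) :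
    tE l (X w L) (fun z' => (∑ i, (mv w L l₀ z' i - mv w (l :: L) l₀ z i) ^ 2) ^ k) z ≤
      (48 * Λ * (c * (D + 5 + 2 * k) ^ 2)) ^ k := by
  have := ne_of_wt hw
  have hX := lg_X hw L
  rcases Nat.eq_zero_or_pos k with rfl | hk
  · simp only [pow_zero, tE_const hX, le_refl]
  have D0 := D_nonneg hD
  have hL' : Mono 0 L := mono_le hL.1 hL.2
  have hm1 : l.m ≤ 1 := Hess87.mono_le_one hL.2
  set q := c * (D + 5 + 2 * k) ^ 2 with hq
  have q0 : 0 ≤ q := by positivity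
  have k1 : (1 : ℝ) ≤ k := by exact_mod_cast hk
  have T1 : tE l (X w L) (fun z' => ‖z' - z‖ ^ 2) z ≤ 6 * q := by
    refine (tE_norm_pow hw l L hL.1 hm1 hc hc0 hD hs 2 z).trans ?_
    rw [mul_pow, sq_sqrt hc0.le, hq]
    gcongr
    push_cast; linarith
  have Tk : tE l (X w L) (fun z' => (‖z' - z‖ ^ 2) ^ k) z ≤ 6 * q ^ k := by
    simp only [← pow_mul]
    refine (tE_norm_pow hw l L hL.1 hm1 hc hc0 hD hs (2 * k) z).trans_eq ?_
    rw [pow_mul, mul_pow, sq_sqrt hc0.le, hq]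
    push_cast; rfl
  have em := fun i => (eg_mv hw L l₀ i).sub (Eg.const (mv w L l₀ z i))
  have en := (lg_norm z).eg.pow 2
  have h0 : ∑ i, (mv w L l₀ z i - mv w (l :: L) l₀ z i) ^ 2 ≤ Λ * (6 * q) := by
    have h1 : ∀ i, (mv w L l₀ z i - mv w (l :: L) l₀ z i) ^ 2 ≤
        tE l (X w L) (fun z' => (mv w L l₀ z' i - mv w L l₀ z i) ^ 2) z := fun i => by
      have h2 := Hess87.sq_tE_le hX (em i) l z
      rw [tE_sub hX (eg_mv hw L l₀ i) (Eg.const _), tE_const hX] at h2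
      have h3 : mv w (l :: L) l₀ z i = tE l (X w L) (fun z' => mv w L l₀ z' i) z :=
        Hess87.Pf_cons hw l L z _
      simp only [sq]
      rw [h3]
      linarith
    refine (Finset.sum_le_sum fun i _ => h1 i).trans ?_
    rw [← tE_sum hX _ fun i _ => (em i).pow 2]
    refine (tE_mono hX (Eg.sum _ fun i _ => (em i).pow 2) (en.const_mul Λ)
      (fun z' => mv_lip hw hL' l₀ hΛ0 hΛ z z') l z).trans ?_
    rw [tE_const_mul]
    gcongr
  have h1 : ∀ z', (∑ i, (mv w L l₀ z' i - mv w (l :: L) l₀ z i) ^ 2) ^ k ≤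
      (4 * Λ) ^ k * (‖z' - z‖ ^ 2) ^ k + (24 * Λ * q) ^ k := fun z' => by
    have h2 : ∑ i, (mv w L l₀ z' i - mv w (l :: L) l₀ z i) ^ 2 ≤
        2 * (Λ * ‖z' - z‖ ^ 2) + 2 * (Λ * (6 * q)) := by
      have h3 := mv_lip hw hL' l₀ hΛ0 hΛ z z'
      have h4 : ∑ i, (mv w L l₀ z' i - mv w (l :: L) l₀ z i) ^ 2 ≤
          2 * ∑ i, (mv w L l₀ z' i - mv w L l₀ z i) ^ 2 +
            2 * ∑ i, (mv w L l₀ z i - mv w (l :: L) l₀ z i) ^ 2 := by
        rw [Finset.mul_sum, Finset.mul_sum, ← Finset.sum_add_distrib]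
        exact Finset.sum_le_sum fun i _ => by
          nlinarith [sq_nonneg (mv w L l₀ z' i - 2 * mv w L l₀ z i + mv w (l :: L) l₀ z i)]
      linarith
    have s0 : 0 ≤ ∑ i, (mv w L l₀ z' i - mv w (l :: L) l₀ z i) ^ 2 :=
      Finset.sum_nonneg fun _ _ => sq_nonneg _
    rw [← mul_pow]
    have a0 : 0 ≤ Λ * ‖z' - z‖ ^ 2 := by positivity
    have b0 : 0 ≤ Λ * q := by positivity
    rcases le_total (Λ * ‖z' - z‖ ^ 2) (Λ * (6 * q)) with h | h
    · exact (pow_le_pow_left₀ s0 (by linarith) k).trans (le_add_of_nonneg_left (by positivity))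
    · exact (pow_le_pow_left₀ s0 (by linarith) k).trans (le_add_of_nonneg_right (by positivity))
  have e1 : Eg fun z' => (∑ i, (mv w L l₀ z' i - mv w (l :: L) l₀ z i) ^ 2) ^ k :=
    (Eg.sum _ fun i _ => ((eg_mv hw L l₀ i).sub (Eg.const _)).pow 2).pow k
  refine (tE_mono hX e1 (((en.pow k).const_mul _).add (Eg.const _)) h1 l z).trans ?_
  rw [tE_add hX ((en.pow k).const_mul _) (Eg.const _), tE_const_mul, tE_const hX]
  have h6 : (6 : ℝ) ≤ 6 ^ k := le_self_pow₀ (by norm_num) hk.ne'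
  have h2 : (2 : ℝ) ≤ 2 ^ k := le_self_pow₀ (by norm_num) hk.ne'
  have p : 0 ≤ (24 * Λ * q) ^ k := by positivity
  calc _ ≤ (4 * Λ) ^ k * (6 ^ k * q ^ k) + (24 * Λ * q) ^ k := by
        gcongr
        exact Tk.trans (by gcongr)
    _ = 2 * (24 * Λ * q) ^ k := by rw [← mul_pow, ← mul_pow]; ring_nf
    _ ≤ 2 ^ k * (24 * Λ * q) ^ k := by gcongr
    _ = _ := by rw [← mul_pow]; ring_nf

/-- the squared increment of `m` through the level `j` -/
def last (w : Ω → ℝ) (L : List (Lv Ω)) (l₀ : Lv Ω) (j : ℕ) (p : Pth Ω) : ℝ :=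
  ∑ i, (mv w (L.drop (j + 1)) l₀ (p (j + 1)) i - mv w (L.drop j) l₀ (p j) i) ^ 2

theorem last_nonneg (L : List (Lv Ω)) (l₀ : Lv Ω) (j : ℕ) (p : Pth Ω) : 0 ≤ last w L l₀ j p :=
  Finset.sum_nonneg fun _ _ => sq_nonneg _

theorem ep_last (hw : Wt w) (L : List (Lv Ω)) (l₀ : Lv Ω) (j : ℕ) : EP (last w L l₀ j) :=
  EP.sum _ fun i _ => ((EP.state (eg_mv hw _ l₀ i) (j + 1)).sub (EP.state (eg_mv hw _ l₀ i) j)).pow 2

theorem CE_last (hw : Wt w) {L : List (Lv Ω)} (hL : Mono 0 L) (l₀ : Lv Ω)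
    {Λ c D : ℝ} (hΛ0 : 0 ≤ Λ) (hΛ : ∀ x v, l₀.fld v x ^ 2 ≤ Λ * ∑ i, v i ^ 2) {j : ℕ}
    (hc : ∀ hj : j < L.length, ∀ x, L[j].cov x x ≤ c) (hc0 : 0 < c)
    (hD : 2 * (Fintype.card Ω : ℝ) ≤ exp D) (hs : c * (D + 5) ^ 2 ≤ 1 / 36) (k : ℕ) (p : Pth Ω) :
    CE w L j (fun q => last w L l₀ j q ^ k) p ≤ (48 * Λ * (c * (D + 5 + 2 * k) ^ 2)) ^ k := by
  have e := CE_node hw L (Nat.le_succ j) (Ad.state (le_refl j) fun z => z)
    (fun z z' => (∑ i, (mv w (L.drop (j + 1)) l₀ z' i - mv w (L.drop j) l₀ z i) ^ 2) ^ k) p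
  refine e.trans_le ?_
  rw [Nat.succ_sub (le_refl j), Nat.sub_self]
  rcases lt_or_ge j L.length with hj | hj
  · have hm := mono_drop j hL
    rw [List.drop_eq_getElem_cons hj] at hm ⊢
    rw [node_cons, node_zero]
    exact slice_mom hw _ hm l₀ hΛ0 hΛ (hc hj) hc0 hD hs k _
  · rw [List.drop_eq_nil_of_le hj, List.drop_eq_nil_of_le (hj.trans (Nat.le_succ j)), node_nil]
    simp only [sub_self]
    refine pow_le_pow_left₀ (by positivity) ?_ k
    rw [Finset.sum_eq_zero fun _ _ => by norm_num]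
    positivity

/-- **`last` is negligible in every `L^k`** -/
theorem EE_last (hw : Wt w) {L : List (Lv Ω)} (hL : Mono 0 L) (l₀ : Lv Ω)
    {Λ c D : ℝ} (hΛ0 : 0 ≤ Λ) (hΛ : ∀ x v, l₀.fld v x ^ 2 ≤ Λ * ∑ i, v i ^ 2) {j : ℕ}
    (hc : ∀ hj : j < L.length, ∀ x, L[j].cov x x ≤ c) (hc0 : 0 < c)
    (hD : 2 * (Fintype.card Ω : ℝ) ≤ exp D) (hs : c * (D + 5) ^ 2 ≤ 1 / 36) (k : ℕ) (h : Ω → ℝ) :
    EE w L h (fun q => last w L l₀ j q ^ k) ≤ (48 * Λ * (c * (D + 5 + 2 * k) ^ 2)) ^ k := by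
  have := EE_le_CE hw L h j ((ep_last hw L l₀ j).pow k) (EP.const _)
    (CE_last hw hL l₀ hΛ0 hΛ hc hc0 hD hs k)
  rwa [EE_const hw] at this

end Crest.Agent.T156.Cas.Last2

end
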