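import Crest.Agent.T156.HsL_23
import Crest.Agent.T156.CaRic_63

/-!
# Row 156: superconcentration under a log-concave tilt (60's LCS; helper23)

Under the law `∝ exp (-U) γ` write the noise as `a.fld G + b.fld G'`.  `tE b (-U) φ` is the
conditional expectation of `φ` given `a.fld G`, and `Kern (-U) a b φ ψ 0 = E φ(W) ψ(W')` for two
futures `W, W'` split after `a`.  `lcs` bounds the variance of `f` by these kernels of `∇ f` along
an increasing family of `b`; `lcs_dg` is the diagonal case `b = √σ`.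
-/

set_option autoImplicit false
set_option linter.unusedSectionVars false

noncomputable section

namespace Crest.Agent.T156.Cas

open MeasureTheory Real Set
open Crest.Agent.T157.E Crest.Agent.T157.Casc Crest.Agent.T157.SL
open Hs23

/-- `k` is the sum of the independent levels `l`, `l'` (all of exponent one) -/
structure Spl {Ω : Type} (k l l' : Lv Ω) : Prop where
  m : k.m = 1
  m1 : l.m = 1
  m2 : l'.m = 1
  cov : ∀ x y, k.cov x y = l.cov x y + l'.cov x y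

/-- two futures split after the level `a` -/
def Kern {Ω : Type} (F : (Ω → ℝ) → ℝ) (a b : Lv Ω) (φ ψ : (Ω → ℝ) → ℝ) (z : Ω → ℝ) : ℝ :=
  tE a (step b F) (fun y => tE b F φ y * tE b F ψ y) z

open Classical in
/-- independent noise of variance `v x` on the coordinate `x` -/
def dg {ι : Type} [Fintype ι] (v : ι → ℝ) : Lv ι := ⟨ι, fun x i => if x = i then √(v x) else 0, 1⟩

namespace Lcs23

section gen
variable {Ω : Type} [Fintype Ω] {F Φ φ ψ : (Ω → ℝ) → ℝ} {k l l' a a' b b' d : Lv Ω}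

theorem tE_one (hm : l.m = 1) (F Φ : (Ω → ℝ) → ℝ) (z : Ω → ℝ) : tE l F Φ z =
    (∫ g, exp (F (z + l.fld g)) * Φ (z + l.fld g) ∂gv l.ι) / ∫ g, exp (F (z + l.fld g)) ∂gv l.ι := by
  simp only [tE, hm, one_mul]

theorem tE_lE (hm : l.m = 1) (F Φ : (Ω → ℝ) → ℝ) (z : Ω → ℝ) :
    tE l F Φ z = lE (fun g => -F (z + l.fld g)) fun g => Φ (z + l.fld g) := by
  simp only [tE_one hm, lE, neg_neg]

theorem Z_one (hm : l.m = 1) (hF : Lg F) (z : Ω → ℝ) :
    0 < ∫ g, exp (F (z + l.fld g)) ∂gv l.ι := by simpa [hm] using hF.Z_pos l z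

theorem exp_step (hm : l.m = 1) (hF : Lg F) (z : Ω → ℝ) :
    exp (step l F z) = ∫ g, exp (F (z + l.fld g)) ∂gv l.ι := by
  simp [step, hm, exp_log (Z_one hm hF z)]

theorem int_spl (H : Spl k l l') (h : Eg Φ) (z : Ω → ℝ) :
    ∫ g, ∫ g', Φ (z + l.fld g + l'.fld g') ∂gv l'.ι ∂gv l.ι = ∫ g, Φ (z + k.fld g) ∂gv k.ι := by
  rw [← C.int_addLv l l' z (h.int _ z)]
  exact C.int_fld_eq (by funext x y; rw [C.addLv_cov, H.cov]) (G := fun f => Φ (z + f))
    (h.cont.measurable.comp (measurable_const_add z))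

theorem step_spl (H : Spl k l l') (hF : Lg F) : step l (step l' F) = step k F := by
  funext z
  apply exp_injective
  rw [exp_step H.m1 (hF.step l'), exp_step H.m hF, ← int_spl H (Pe.eg_exp hF)]
  simp only [exp_step H.m2 hF]

theorem tE_spl (H : Spl k l l') (hF : Lg F) (h : Eg Φ) (z : Ω → ℝ) :
    tE l (step l' F) (tE l' F Φ) z = tE k F Φ z := by
  rw [tE_one H.m1, tE_one H.m, ← int_spl H (Pe.eg_exp hF), ← int_spl H ((Pe.eg_exp hF).mul h)]
  simp only [exp_step H.m2 hF, tE_one H.m2, mul_div_cancel₀ _ (Z_one H.m2 hF _).ne']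

theorem two_cov (hm : l.m = 1) (hF : Lg F) (h : Eg φ) (h' : Eg ψ) {t : ℝ} (ht : 0 < t)
    (z : Ω → ℝ) : 2 * (tE l F (fun y => φ y * ψ y) z - tE l F φ z * tE l F ψ z) ≤
      t * (tE l F (fun y => φ y * φ y) z - tE l F φ z * tE l F φ z) +
        (tE l F (fun y => ψ y * ψ y) z - tE l F ψ z * tE l F ψ z) / t := by
  simp only [tE_lE hm]
  exact two_lC_le (Pe.lg_neg (Ric63.lg_fld hF l z)) (Ric63.eg_fld h l z) (Ric63.eg_fld h' l z) ht

theorem sq_le (hm : l.m = 1) (hF : Lg F) (h : Eg φ) (z : Ω → ℝ) :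
    tE l F φ z * tE l F φ z ≤ tE l F (fun y => φ y * φ y) z := by
  simp only [tE_lE hm]
  exact sub_nonneg.1 (lC_nonneg (Pe.lg_neg (Ric63.lg_fld hF l z)) (Ric63.eg_fld h l z))

theorem tE_nil (hF : Lg F) (h0 : ∀ x, l.cov x x = 0) (Φ : (Ω → ℝ) → ℝ) : tE l F Φ = Φ := by
  funext z
  have e : ∀ g, l.fld g = 0 := fun g => funext fun x => Finset.sum_eq_zero fun i _ => by
    rw [mul_self_eq_zero.1 ((Finset.sum_eq_zero_iff_of_nonneg fun i _ =>
      mul_self_nonneg (l.A x i)).1 (h0 x) i (Finset.mem_univ _)), zero_mul]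
  rw [tE_congr l F z (Φ' := fun _ => Φ z) fun g => by rw [e, add_zero], tE_const hF]

theorem kern_nonneg (F : (Ω → ℝ) → ℝ) (a b : Lv Ω) (φ : (Ω → ℝ) → ℝ) (z : Ω → ℝ) :
    0 ≤ Kern F a b φ φ z := tE_nonneg _ _ (fun _ => mul_self_nonneg _) z

theorem kern_le (H : Spl k a b) (hF : Lg F) (h : Eg φ) (z : Ω → ℝ) :
    Kern F a b φ φ z ≤ tE k F (fun y => φ y * φ y) z := by
  rw [← tE_spl H hF (h.mul h)]
  exact tE_mono (hF.step b) ((h.tE hF b).mul (h.tE hF b)) ((h.mul h).tE hF b)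
    (fun y => sq_le H.m2 hF h y) a z

theorem kern_nil (H : Spl k a b) (hF : Lg F) (h : Eg φ) (h' : Eg ψ) (h0 : ∀ x, b.cov x x = 0)
    (z : Ω → ℝ) : Kern F a b φ ψ z = tE k F (fun y => φ y * ψ y) z := by
  rw [← tE_spl H hF (h.mul h'), Kern]
  simp only [tE_nil hF h0]

theorem two_kern (hF : Lg F) (h : Eg φ) (h' : Eg ψ) (a b : Lv Ω) (z : Ω → ℝ) :
    2 * Kern F a b φ ψ z ≤ Kern F a b φ φ z + Kern F a b ψ ψ z := by
  have e := h.tE hF b
  have e' := h'.tE hF b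
  rw [Kern, Kern, Kern, ← tE_const_mul, ← tE_add (hF.step b) (e.mul e) (e'.mul e')]
  exact tE_mono (hF.step b) ((e.mul e').const_mul _) ((e.mul e).add (e'.mul e'))
    (fun y => by nlinarith [sq_nonneg (tE b F φ y - tE b F ψ y)]) a z

/-- moving the splitting point; `D` bounds the conditional variance of `ψ` -/
theorem kern_step (H : Spl k a' b') (Ha : Spl a a' d) (Hb : Spl b' d b) (hF : Lg F) (h : Eg φ)
    (h' : Eg ψ) {D : (Ω → ℝ) → ℝ} (hD : Eg D)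
    (hP : ∀ y, tE b' F (fun y => ψ y * ψ y) y - tE b' F ψ y * tE b' F ψ y ≤ tE b' F D y)
    {t : ℝ} (ht : 0 < t) (z : Ω → ℝ) :
    2 * (Kern F a b φ ψ z - Kern F a' b' φ ψ z) ≤
      t * (Kern F a b φ φ z - Kern F a' b' φ φ z) + tE k F D z / t := by
  have e := h.tE hF b
  have e' := h'.tE hF b
  have f := h.tE hF b'
  have f' := h'.tE hF b'
  have G := hF.step b
  have G' := hF.step b'
  simp only [Kern]
  rw [← tE_spl Ha G (e.mul e'), ← tE_spl Ha G (e.mul e), step_spl Hb hF, ← tE_spl H hF hD,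
    ← tE_sub G' ((e.mul e').tE G d) (f.mul f'), ← tE_sub G' ((e.mul e).tE G d) (f.mul f),
    ← tE_const_mul, ← tE_const_mul, div_eq_mul_inv, ← tE_mul_const,
    ← tE_add G' ((((e.mul e).tE G d).sub (f.mul f)).const_mul _) ((hD.tE hF b').mul_const _)]
  refine tE_mono G' ((((e.mul e').tE G d).sub (f.mul f')).const_mul _)
    (((((e.mul e).tE G d).sub (f.mul f)).const_mul _).add ((hD.tE hF b').mul_const _))
    (fun y => ?_) a' z
  have h1 := two_cov Hb.m1 G e e' ht y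
  have h2 := tE_mono G (e'.mul e') ((h'.mul h').tE hF b) (fun y => sq_le Hb.m2 hF h' y) d y
  rw [tE_spl Hb hF h, tE_spl Hb hF h'] at h1
  rw [tE_spl Hb hF (h'.mul h')] at h2
  refine h1.trans (add_le_add le_rfl ?_)
  rw [← div_eq_mul_inv]
  exact div_le_div_of_nonneg_right (by linarith [hP y]) ht.le

variable {U : (Ω → ℝ) → ℝ} {U₁ ψ₁ : Ω → (Ω → ℝ) → ℝ} {U₂ : Ω → Ω → (Ω → ℝ) → ℝ}

theorem c2u_fld (hU : C2U U U₁ U₂) (l : Lv Ω) (z : Ω → ℝ) :
    C2U (fun g => U (z + l.fld g)) (fun i g => ∑ y, U₁ y (z + l.fld g) * l.A y i)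
      fun i j g => ∑ y, (∑ x, U₂ y x (z + l.fld g) * l.A x j) * l.A y i := by
  obtain ⟨C, hC⟩ := hU.bd
  refine ⟨Ric63.lg_fld hU.lg l z, Ric63.gr_fld hU.g1 l z, fun i => ?_,
    ∑ p : l.ι × l.ι, ∑ y, (∑ x, |C| * |l.A x p.2|) * |l.A y p.1|, fun i j g => ?_⟩
  · have := Gr.sum Finset.univ fun y _ => (Ric63.gr_fld (hU.g2 y) l z).const_mul (l.A y i)
    simpa only [mul_comm (l.A _ i)] using this
  · refine le_trans ?_ (Finset.single_le_sum
      (f := fun p : l.ι × l.ι => ∑ y, (∑ x, |C| * |l.A x p.2|) * |l.A y p.1|)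
      (fun p _ => by positivity) (Finset.mem_univ (i, j)))
    refine (Finset.abs_sum_le_sum_abs _ _).trans (Finset.sum_le_sum fun y _ => ?_)
    rw [abs_mul]
    refine mul_le_mul_of_nonneg_right ((Finset.abs_sum_le_sum_abs _ _).trans
      (Finset.sum_le_sum fun x _ => ?_)) (abs_nonneg _)
    rw [abs_mul]
    exact mul_le_mul_of_nonneg_right ((hC _ _ _).trans (le_abs_self _)) (abs_nonneg _)

theorem conv_fld (hc : ConvexOn ℝ univ U) (l : Lv Ω) (z : Ω → ℝ) :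
    ConvexOn ℝ univ fun g => U (z + l.fld g) :=
  ⟨convex_univ, fun g _ g' _ p q hp hq hpq => by
    have := hc.2 (mem_univ (z + l.fld g)) (mem_univ (z + l.fld g')) hp hq hpq
    have e : p • (z + l.fld g) + q • (z + l.fld g') = z + l.fld (p • g + q • g') := by
      funext x
      simp only [Pi.add_apply, Pi.smul_apply, smul_eq_mul, Lv.fld, mul_add, Finset.sum_add_distrib,
        mul_left_comm _ p, mul_left_comm _ q, ← Finset.mul_sum]
      linear_combination (z x) * hpq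
    rwa [e] at this⟩

/-- conditional Poincaré inequality -/
theorem poinc_tE (hU : C2U U U₁ U₂) (hc : ConvexOn ℝ univ U) (hm : l.m = 1) (h : Gr ψ ψ₁) {s : ℝ}
    (hs : ∀ p : Ω → ℝ, ∑ i, (∑ y, p y * l.A y i) ^ 2 ≤ s * ∑ y, p y ^ 2) (z : Ω → ℝ) :
    tE l (fun y => -U y) (fun y => ψ y * ψ y) z -
      tE l (fun y => -U y) ψ z * tE l (fun y => -U y) ψ z ≤
      tE l (fun y => -U y) (fun y => s * ∑ i, ψ₁ i y ^ 2) z := by
  simp only [tE_lE hm, neg_neg]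
  have g := Ric63.gr_fld h l z
  exact (poinc (c2u_fld hU l z) (conv_fld hc l z) g).trans (lE_mono (Ric63.lg_fld hU.lg l z)
    (Eg.sum _ fun i _ => (g.eg' i).pow 2) (Ric63.eg_fld
      ((Eg.sum _ fun i _ => (h.eg' i).pow 2).const_mul s) l z) fun g => hs _)

end gen

variable {ι : Type} [Fintype ι]

theorem dg_fld (v g : ι → ℝ) : (dg v).fld g = fun x => √(v x) * g x := by
  funext x
  simp only [Lv.fld, dg, ite_mul, zero_mul]
  rw [Finset.sum_eq_single x]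
  · simp
  · intro b _ hb; simp [hb.symm]
  · simp

open Classical in
theorem dg_cov {v : ι → ℝ} (hv : ∀ x, 0 ≤ v x) (x y : ι) :
    (dg v).cov x y = if x = y then v x else 0 := by
  have := congrFun (dg_fld v ((dg v).A y)) x
  refine this.trans ?_
  by_cases h : x = y
  · subst h; simp [dg, mul_self_sqrt (hv x)]
  · simp [dg, h, Ne.symm h]

theorem spl_dg {v v₁ v₂ : ι → ℝ} (h1 : ∀ x, 0 ≤ v₁ x) (h2 : ∀ x, 0 ≤ v₂ x)
    (h : ∀ x, v x = v₁ x + v₂ x) : Spl (dg v) (dg v₁) (dg v₂) :=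
  ⟨rfl, rfl, rfl, fun x y => by
    rw [dg_cov fun x => (h x).symm ▸ add_nonneg (h1 x) (h2 x), dg_cov h1, dg_cov h2]
    split_ifs <;> simp [h]⟩

theorem tE_id (U Φ : (ι → ℝ) → ℝ) : tE (dg fun _ => 1) (fun y => -U y) Φ 0 = lE U Φ := by
  rw [tE_lE rfl]
  have e : ∀ g : (dg fun _ : ι => (1 : ℝ)).ι → ℝ, 0 + (dg fun _ : ι => (1 : ℝ)).fld g = g :=
    fun g => by rw [zero_add]; exact (dg_fld _ g).trans (by simp)
  simp only [e, neg_neg]
  rfl

theorem dg_op {v : ι → ℝ} {s : ℝ} (h0 : ∀ x, 0 ≤ v x) (hs : ∀ x, v x ≤ s) (p : ι → ℝ) :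
    ∑ i, (∑ y, p y * (dg v).A y i) ^ 2 ≤ s * ∑ y, p y ^ 2 := by
  rw [Finset.mul_sum]
  refine Finset.sum_le_sum fun (i : ι) _ => ?_
  have e : ∑ y, p y * (dg v).A y i = p i * √(v i) := by
    rw [Finset.sum_eq_single i]
    · simp [dg]
    · intro b _ hb; simp [dg, hb]
    · simp
  rw [e, mul_pow, sq_sqrt (h0 i), mul_comm]
  exact mul_le_mul_of_nonneg_right (hs i) (sq_nonneg _)

end Lcs23

open Lcs23

variable {ι : Type} [Fintype ι] {U f : (ι → ℝ) → ℝ} {U₁ f₁ : ι → (ι → ℝ) → ℝ}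
  {U₂ : ι → ι → (ι → ℝ) → ℝ}

/-- `∑_e E ∂_e f (W) ∂_e f (W')`, two futures split after `a` -/
def KK (U : (ι → ℝ) → ℝ) (f₁ : ι → (ι → ℝ) → ℝ) (a b : Lv ι) : ℝ :=
  ∑ e, Kern (fun y => -U y) a b (f₁ e) (f₁ e) 0

theorem KK_nonneg (U : (ι → ℝ) → ℝ) (f₁ : ι → (ι → ℝ) → ℝ) (a b : Lv ι) : 0 ≤ KK U f₁ a b :=
  Finset.sum_nonneg fun _ _ => kern_nonneg _ _ _ _ _

/-- **LCS**, general Gaussian splittings `1 = a_j + b_j`, `0 = b_0 ≤ b_1 ≤ …`, `b_{j+1} ≤ s_j` -/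
theorem lcs (hU : C2U U U₁ U₂) (hc : ConvexOn ℝ univ U) (hf : Gr f f₁) (a b d : ℕ → Lv ι) (J : ℕ)
    (s t : ℕ → ℝ) (hab : ∀ j ≤ J, Spl (dg fun _ => 1) (a j) (b j))
    (hb : ∀ j < J, Spl (b (j + 1)) (d j) (b j)) (h0 : ∀ x, (b 0).cov x x = 0)
    (hs : ∀ j < J, ∀ p : ι → ℝ, ∑ i, (∑ y, p y * (b (j + 1)).A y i) ^ 2 ≤ s j * ∑ y, p y ^ 2)
    (ht : ∀ j < J, 0 < t j) (hst : ∑ j ∈ Finset.range J, s j / t j ≤ 1) :
    lC U f f ≤ ∑ j ∈ Finset.range J, t j * (KK U f₁ (a j) (b j) - KK U f₁ (a (j + 1)) (b (j + 1))) +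
      KK U f₁ (a J) (b J) := by
  have hF := Pe.lg_neg hU.lg
  refine hsL hU hf fun u u₁ hu => ?_
  have eD : ∀ e, Eg fun y => ∑ i, u₁ e i y ^ 2 := fun e => Eg.sum _ fun i _ => ((hu e).eg' i).pow 2
  have key : ∀ e, 2 * lE U (fun g => f₁ e g * u e g) ≤
      lE U (fun g => ∑ i, u₁ e i g ^ 2) + lE U (fun g => u e g ^ 2) +
      (∑ j ∈ Finset.range J, t j * (Kern (fun y => -U y) (a j) (b j) (f₁ e) (f₁ e) 0 -
        Kern (fun y => -U y) (a (j + 1)) (b (j + 1)) (f₁ e) (f₁ e) 0) +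
        Kern (fun y => -U y) (a J) (b J) (f₁ e) (f₁ e) 0) := fun e => by
    have h1 := kern_nil (hab 0 (Nat.zero_le _)) hF (hf.eg' e) (hu e).eg h0 0
    have h2 := Finset.sum_range_sub' (fun j => Kern (fun y => -U y) (a j) (b j) (f₁ e) (u e) 0) J
    have h3 := two_kern hF (hf.eg' e) (hu e).eg (a J) (b J) 0
    have h4 := kern_le (hab J le_rfl) hF (hu e).eg 0
    have h5 := Finset.sum_le_sum (s := Finset.range J) fun j hj =>
      have hj' := Finset.mem_range.1 hj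
      kern_step (a := a j) (hab (j + 1) hj') ⟨(hab j hj'.le).m1, (hab _ hj').m1, (hb j hj').m1,
        fun x y => by linarith [(hab j hj'.le).cov x y, (hab _ hj').cov x y, (hb j hj').cov x y]⟩
        (hb j hj') hF (hf.eg' e) (hu e).eg ((eD e).const_mul (s j))
        (poinc_tE hU hc (hb j hj').m (hu e) (hs j hj')) (ht j hj') 0
    have h6 := mul_le_mul_of_nonneg_right hst
      (lE_nonneg U (Φ := fun g => ∑ i, u₁ e i g ^ 2) fun _ => by positivity)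
    rw [tE_id] at h1 h4
    simp only [tE_id, lE_cmul, Finset.sum_add_distrib, mul_div_right_comm, ← Finset.sum_mul,
      ← Finset.mul_sum] at h5
    simp only [← sq] at h4
    linarith
  have e2 : Eg fun g => ∑ i, ∑ j, U₂ i j g * u i g * u j g := Eg.sum _ fun i _ =>
    Eg.sum _ fun j _ => (((hU.g2 i).eg' j).mul (hu i).eg).mul (hu j).eg
  have e3 : Eg fun g => ∑ i, u i g ^ 2 := Eg.sum _ fun i _ => (hu i).eg.pow 2
  have h7 := Finset.sum_le_sum (s := Finset.univ) fun e _ => key e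
  have h8 := lE_nonneg U fun g => psd hc hU.g1 hU.g2 g fun i => u i g
  rw [lE_add hU.lg (Eg.sum _ fun e _ => eD e) (e3.add e2), lE_add hU.lg e3 e2,
    lE_sum hU.lg _ fun e _ => eD e, lE_sum hU.lg _ fun e _ => (hu e).eg.pow 2,
    lE_sum hU.lg _ fun e _ => (hf.eg' e).mul (hu e).eg]
  simp only [Finset.sum_add_distrib, ← Finset.mul_sum] at h7
  rw [Finset.sum_comm] at h7
  simp only [← Finset.mul_sum, Finset.sum_sub_distrib] at h7
  simp only [KK]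
  linarith

/-- two futures split at time `1 - σ` (coordinatewise) -/
def KD (U : (ι → ℝ) → ℝ) (f₁ : ι → (ι → ℝ) → ℝ) (σ : ι → ℝ) : ℝ :=
  KK U f₁ (dg fun x => 1 - σ x) (dg σ)

/-- **LCS**, coordinatewise times `0 = σ_0 ≤ σ_1 ≤ … ≤ σ_J ≤ 1`, `σ_{j+1} ≤ s_j` -/
theorem lcs_dg (hU : C2U U U₁ U₂) (hc : ConvexOn ℝ univ U) (hf : Gr f f₁) (σ : ℕ → ι → ℝ) (J : ℕ)
    (s t : ℕ → ℝ) (h0 : ∀ x, σ 0 x = 0) (h1 : ∀ j ≤ J, ∀ x, 0 ≤ σ j x ∧ σ j x ≤ 1)
    (hm : ∀ j < J, ∀ x, σ j x ≤ σ (j + 1) x) (hs : ∀ j < J, ∀ x, σ (j + 1) x ≤ s j)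
    (ht : ∀ j < J, 0 < t j) (hst : ∑ j ∈ Finset.range J, s j / t j ≤ 1) :
    lC U f f ≤ ∑ j ∈ Finset.range J, t j * (KD U f₁ (σ j) - KD U f₁ (σ (j + 1))) + KD U f₁ (σ J) :=
  lcs hU hc hf (fun j => dg fun x => 1 - σ j x) (fun j => dg (σ j))
    (fun j => dg fun x => σ (j + 1) x - σ j x) J s t
    (fun j hj => spl_dg (fun x => sub_nonneg.2 (h1 j hj x).2) (fun x => (h1 j hj x).1)
      fun x => by ring)
    (fun j hj => spl_dg (fun x => sub_nonneg.2 (hm j hj x)) (fun x => (h1 j hj.le x).1)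
      fun x => by ring)
    (fun x => by rw [dg_cov fun x => (h1 0 (Nat.zero_le _) x).1, if_pos rfl, h0])
    (fun j hj => dg_op (fun x => (h1 _ hj x).1) (hs j hj)) ht hst

/-- the form `Var f ≤ J ∑ s_j k_j² + k_J²` (dyadic `s_j`: `J ~ log n`) -/
theorem lcs_sum (hU : C2U U U₁ U₂) (hc : ConvexOn ℝ univ U) (hf : Gr f f₁) (σ : ℕ → ι → ℝ) (J : ℕ)
    (s : ℕ → ℝ) (h0 : ∀ x, σ 0 x = 0) (h1 : ∀ j ≤ J, ∀ x, 0 ≤ σ j x ∧ σ j x ≤ 1)
    (hm : ∀ j < J, ∀ x, σ j x ≤ σ (j + 1) x) (hs : ∀ j < J, ∀ x, σ (j + 1) x ≤ s j)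
    (hp : ∀ j < J, 0 < s j) :
    lC U f f ≤ J * ∑ j ∈ Finset.range J, s j * KD U f₁ (σ j) + KD U f₁ (σ J) := by
  refine (lcs_dg hU hc hf σ J s (fun j => J * s j) h0 h1 hm hs
    (fun j hj => mul_pos (Nat.cast_pos.2 (Nat.zero_lt_of_lt hj)) (hp j hj)) ?_).trans
    (add_le_add ?_ le_rfl)
  · rw [Finset.sum_congr rfl fun j hj => show s j / (J * s j) = (J : ℝ)⁻¹ by
      have := (hp j (Finset.mem_range.1 hj)).ne'
      rw [mul_comm, ← div_div, div_self this, one_div]]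
    simp [mul_inv_le_one]
  · rw [Finset.mul_sum]
    refine Finset.sum_le_sum fun j hj => ?_
    rw [← mul_assoc]
    exact mul_le_mul_of_nonneg_left (sub_le_self _ (KK_nonneg _ _ _ _))
      (mul_nonneg (Nat.cast_nonneg _) (hp j (Finset.mem_range.1 hj)).le)

end Crest.Agent.T156.Cas

end
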