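import Crest.Agent.T156.PCmp_3

/-!
Row 156 (helper5): leaf L-g of docs/T156_69.md.  A lower bound of the tilt at a small time from
one-sided criticality and the mean equation (crude upper bound of the overlap), list frame.
-/

set_option autoImplicit false

namespace Crest.Agent.T156.Pp.Lg5

open MeasureTheory Set
open Crest.Agent.R164.GC Crest.Agent.R339.B Crest.Agent.R339.Var Crest.Agent.T157.Pf
open Crest.Agent.T156.Pr (Ok)
open Crest.Agent.T156.Pp.Ode3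

noncomputable section

variable {l : List (ℝ × ℝ)}

theorem chi_ge (h : Ok l) : Real.exp (-TT l) ≤ Pr.chi l := by
  have a := AP.of_ok h
  have h1 := lo2_PhiL h.1 0
  have h2 := D0_zero h.1
  rw [Dn_zero] at h2
  rw [h2] at h1
  unfold Pr.chi Pr.Dk
  rw [PhiT_zero a.nn, Dn_one]
  simpa using h1

theorem k4_le (h : Ok l) : Pr.k4 l ≤ -(2 * Real.exp (-(5 * TT l))) := by
  have a := AP.of_ok h
  have h1 := Hop.d4 (PhiL_inv one_pos h.1) (hop_PhiL h.1)
  have h2 := chi_ge h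
  unfold Pr.chi Pr.Dk at h2
  rw [PhiT_zero a.nn, Dn_one] at h2
  unfold Pr.k4 Pr.Dk
  rw [PhiT_zero a.nn, Dn_three]
  refine h1.trans (neg_le_neg ?_)
  have h3 := pow_le_pow_left₀ (Real.exp_pos _).le h2 2
  rw [← Real.exp_nat_mul] at h3
  rw [show -(5 * TT l) = -(3 * TT l) + (2 : ℕ) * -TT l by push_cast; ring, Real.exp_add, ← mul_assoc]
  exact mul_le_mul_of_nonneg_left h3 (by positivity)

theorem k4_sq_ge (h : Ok l) {T0 : ℝ} (hT : TT l ≤ T0) : 4 * Real.exp (-(10 * T0)) ≤ Pr.k4 l ^ 2 := by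
  have h1 := k4_le h
  have h2 : Real.exp (-(5 * T0)) ≤ Real.exp (-(5 * TT l)) := Real.exp_le_exp.2 (by linarith)
  have h3 := Real.exp_pos (-(5 * T0))
  have e : Real.exp (-(10 * T0)) = Real.exp (-(5 * T0)) ^ 2 := by
    rw [← Real.exp_nat_mul]; congr 1; push_cast; ring
  rw [e]
  nlinarith

/-- `N(t) ≥ c t` for small `t` -/
theorem NN_ge (T0 : ℝ) : ∃ c t0 : ℝ, 0 < c ∧ 0 < t0 ∧ ∀ l, Ok l → TT l ≤ T0 →
    ∀ t ∈ Icc 0 (TT l), t ≤ t0 → c * t ≤ Pr.NN l t := by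
  obtain ⟨C, hC, H⟩ := N4_lip T0
  set c := 2 * Real.exp (-(10 * T0)) with hc
  have c0 : 0 < c := by positivity
  refine ⟨c, c / (C + 24), c0, by positivity, fun l h hT t ht h0 => ?_⟩
  have a := AP.of_ok h
  have k := k4_sq_ge h hT
  rw [kk_eq a] at k
  have := le_of_rder (f := fun r => c * r - Nm l r) ht.1
    ((continuousOn_const.mul continuousOn_id).sub ((Nm_cont a).mono (Icc_subset_Icc le_rfl ht.2)))
    (fun r hr => ((hasDerivWithinAt_id r _).const_mul c).sub (Nm_rder a hr.1 (hr.2.trans_le ht.2)))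
    (fun r hr => by
      have m : r ∈ Icc 0 (TT l) := ⟨hr.1, hr.2.le.trans ht.2⟩
      have b1 := (abs_le.1 (H l a hT 0 ⟨le_rfl, a.TT_nn⟩ r m)).1
      rw [N4_zero a, sub_zero, abs_of_nonneg hr.1] at b1
      have b2 := Bm_le a m
      have b3 := mul_le_of_le_one_left (Bm_nonneg h.1 r) (lvr_le_one h.1 r)
      have b4 : (C + 24) * r ≤ c := by
        rw [mul_comm, ← le_div_iff₀ (by linarith)]
        exact hr.2.le.trans h0
      nlinarith)
  rw [Nm_zero a] at this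
  rw [NN_eq]
  linarith

/-- increments of `G` from below and in absolute value, when the tilt is `≤ z` before `s` -/
theorem GG_inc (T0 : ℝ) : ∃ c t0 : ℝ, 0 < c ∧ 0 < t0 ∧ ∀ l, Ok l → TT l ≤ T0 →
    ∀ s ∈ Icc 0 (TT l), ∀ z : ℝ, (∀ r, 0 ≤ r → r < s → lvr 1 l r ≤ z) → ∀ r ∈ Icc 0 s,
      (s ≤ t0 → c / 2 * (s ^ 2 - r ^ 2) - 2 * z * (s - r) ≤ Pr.GG l s - Pr.GG l r) ∧
      -(2 * z * (s - r)) ≤ Pr.GG l s - Pr.GG l r ∧ Pr.GG l s - Pr.GG l r ≤ 2 * (s ^ 2 - r ^ 2) := by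
  obtain ⟨c, t0, c0, t00, H⟩ := NN_ge T0
  refine ⟨c, t0, c0, t00, fun l h hT s hs z hz r hr => ?_⟩
  have a := AP.of_ok h
  have cG := (Gp_cont a).mono (Icc_subset_Icc hr.1 hs.2)
  have dG : ∀ u ∈ Ico r s, HasDerivWithinAt (Gp l) (Nm l u - 2 * lvr 1 l u * Am l u) (Ici u) u :=
    fun u hu => Gp_rder a (hr.1.trans hu.1) (hu.2.trans_le hs.2)
  have zA : ∀ u ∈ Ico r s, 0 ≤ lvr 1 l u * Am l u ∧ lvr 1 l u * Am l u ≤ z := fun u hu =>
    ⟨mul_nonneg (lvr_pos h.1 u).le (Am_nonneg h.1 u),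
      (mul_le_of_le_one_right (lvr_pos h.1 u).le (Am_le_one h.1 u)).trans
        (hz u (hr.1.trans hu.1) hu.2)⟩
  have key : ∀ k : ℝ, (∀ u ∈ Ico r s, k * u ≤ Nm l u) →
      k / 2 * (s ^ 2 - r ^ 2) - 2 * z * (s - r) ≤ Gp l s - Gp l r := fun k hk => by
    have := le_of_rder (f := fun u => k / 2 * u ^ 2 - 2 * z * u - Gp l u) hr.2
      (ContinuousOn.sub (by fun_prop) cG)
      (fun u hu => ((((hasDerivWithinAt_id u _).pow 2).const_mul (k / 2)).sub
        ((hasDerivWithinAt_id u _).const_mul (2 * z))).sub (dG u hu))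
      (fun u hu => by
        have := hk u hu
        have := (zA u hu).2
        simp only [id]
        push_cast
        linarith)
    linarith
  rw [GG_eq]
  refine ⟨fun h0 => key c fun u hu => H l h hT u ⟨hr.1.trans hu.1, hu.2.le.trans hs.2⟩
    (hu.2.le.trans h0), by simpa using key 0 fun u _ => by simpa using Nm_nonneg l u, ?_⟩
  have := le_of_rder (f := fun u => Gp l u - 2 * u ^ 2) hr.2
    (ContinuousOn.sub cG (by fun_prop))
    (fun u hu => (dG u hu).sub (((hasDerivWithinAt_id u _).pow 2).const_mul 2))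
    (fun u hu => by
      have := Nm_le a ⟨hr.1.trans hu.1, hu.2.le.trans hs.2⟩
      have := (zA u hu).1
      simp only [id]
      push_cast
      linarith)
  linarith

/-- **L-g**: `c s³ - z s² ≤ s G(s) - Γ(s)` -/
theorem lg (T0 : ℝ) : ∃ c t0 : ℝ, 0 < c ∧ 0 < t0 ∧ ∀ l, Ok l → TT l ≤ T0 →
    ∀ s ∈ Icc 0 (TT l), s ≤ t0 → ∀ z : ℝ, (∀ r, 0 ≤ r → r < s → lvr 1 l r ≤ z) →
      c * s ^ 3 - z * s ^ 2 ≤ s * Pr.GG l s - Pr.Gam l s := by
  obtain ⟨c, t0, c0, t00, H⟩ := GG_inc T0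
  refine ⟨c / 3, t0, by positivity, t00, fun l h hT s hs h0 z hz => ?_⟩
  have a := AP.of_ok h
  have := le_of_rder (f := fun r => Gam l r - Gp l s * r + c / 2 * (s ^ 2 * r - r ^ 3 / 3) -
      2 * z * (s * r - r ^ 2 / 2)) hs.1
    (ContinuousOn.sub (ContinuousOn.add (ContinuousOn.sub
      ((Gam_cont a).mono (Icc_subset_Icc le_rfl hs.2)) (by fun_prop)) (by fun_prop)) (by fun_prop))
    (fun r hr => (((Gam_rder a hr.1 (hr.2.trans_le hs.2)).sub
      ((hasDerivWithinAt_id r _).const_mul (Gp l s))).add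
      ((((hasDerivWithinAt_id r _).const_mul (s ^ 2)).sub
        (((hasDerivWithinAt_id r _).pow 3).div_const 3)).const_mul (c / 2))).sub
      ((((hasDerivWithinAt_id r _).const_mul s).sub
        (((hasDerivWithinAt_id r _).pow 2).div_const 2)).const_mul (2 * z)))
    (fun r hr => by
      have := (H l h hT s hs z hz r ⟨hr.1, hr.2.le⟩).1 h0
      rw [GG_eq] at this
      simp only [id]
      push_cast
      linarith)
  rw [Gam_zero a] at this
  rw [GG_eq, Gam_eq]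
  nlinarith

theorem cube_le {c s z g e : ℝ} (hc : 0 < c) (hs : 0 ≤ s) (hz : 0 ≤ z) (hg : 0 ≤ g) (he : 0 ≤ e)
    (h : c * s ^ 3 ≤ z * s ^ 2 + g ^ 2 * s + e ^ 3) :
    s ≤ (3 / c + 1) * (z + g + e) := by
  by_contra hn
  have hn := not_le.1 hn
  set K := 3 / c + 1 with hK
  have K0 : 0 < 3 / c := by positivity
  have K1 : 1 ≤ K := by linarith
  have cK : 3 ≤ c * K := by
    rw [hK, mul_add, mul_div_cancel₀ _ hc.ne']
    linarith
  have s0 : 0 < s := lt_of_le_of_lt (by positivity) hn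
  have a1 : K * z ≤ s := by nlinarith
  have a2 : K * g ≤ s := by nlinarith
  have a3 : K * e ≤ s := by nlinarith
  have g1 : g ≤ s := by nlinarith
  have e1 : e ≤ s := by nlinarith
  have b1 : K * (z * s ^ 2) ≤ s ^ 3 := by nlinarith [mul_le_mul_of_nonneg_right a1 (sq_nonneg s)]
  have b2 : K * (g ^ 2 * s) ≤ s ^ 3 := by
    have := mul_le_mul a2 g1 hg hs
    nlinarith [mul_le_mul_of_nonneg_right this hs]
  have b3 : K * e ^ 3 ≤ s ^ 3 := by
    have := mul_le_mul a3 (mul_le_mul e1 e1 he hs) (mul_nonneg he he) hs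
    nlinarith
  have b4 : K * (z + g + e) < s := hn
  have s3 : 0 < s ^ 3 := by positivity
  have b5 : K * (c * s ^ 3) ≤ K * (z * s ^ 2 + g ^ 2 * s + e ^ 3) :=
    mul_le_mul_of_nonneg_left h (by linarith)
  have b6 : K * (z * s ^ 2 + g ^ 2 * s + e ^ 3) ≤ K * (z + g + e) * s ^ 2 := by
    have c1 : g ^ 2 * s ≤ g * s ^ 2 := by nlinarith [mul_le_mul_of_nonneg_left g1 (mul_nonneg hg hs)]
    have c2 : e ^ 3 ≤ e * s ^ 2 := by
      nlinarith [mul_le_mul_of_nonneg_left (mul_le_mul e1 e1 he hs) he]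
    rw [mul_assoc]
    exact mul_le_mul_of_nonneg_left (by nlinarith) (by linarith)
  have b7 : K * (z + g + e) * s ^ 2 < s * s ^ 2 := mul_lt_mul_of_pos_right b4 (by positivity)
  nlinarith [mul_le_mul_of_nonneg_right cK s3.le]

/-- **(L0) at one node**: Plefka `b G(s) ≤ 1 + g²`, mean equation `s - b Γ(s) ≤ e³`
(`e³ ≥` mark + residual), tilt `≤ z` before `s` give `s ≤ C (z + g + e)` -/
theorem l0 (T0 b0 : ℝ) (hb0 : 0 < b0) : ∃ C t0 : ℝ, 1 ≤ C ∧ 0 < t0 ∧ ∀ l, Ok l → TT l ≤ T0 →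
    ∀ s ∈ Icc 0 (TT l), s ≤ t0 → ∀ b z g e : ℝ, b0 ≤ b → 0 ≤ z → 0 ≤ g → 0 ≤ e →
      (∀ r, 0 ≤ r → r < s → lvr 1 l r ≤ z) → b * Pr.GG l s ≤ 1 + g ^ 2 →
      s - b * Pr.Gam l s ≤ e ^ 3 → s ≤ C * ((b + 1) * z + g + e) := by
  obtain ⟨c, t0, c0, t00, H⟩ := lg T0
  have p : 0 < 3 / (b0 * c) := by positivity
  refine ⟨3 / (b0 * c) + 1, t0, by linarith, t00, fun l h hT s hs h0 b z g e hb hz hg he h1 h2 h3 => ?_⟩
  have b1 : 0 < b := hb0.trans_le hb
  refine cube_le (by positivity) hs.1 (by positivity) hg he ?_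
  have a1 := mul_le_mul_of_nonneg_left (H l h hT s hs h0 z h1) b1.le
  have a2 := mul_le_mul_of_nonneg_left h2 hs.1
  have a3 : b0 * (c * s ^ 3) ≤ b * (c * s ^ 3) :=
    mul_le_mul_of_nonneg_right hb (mul_nonneg c0.le (pow_nonneg hs.1 3))
  have a4 : 0 ≤ z * s ^ 2 := by positivity
  nlinarith

/-- root zone: the replicon coefficient and the residual below `s` -/
theorem root_zone (h : Ok l) {s b z m ε : ℝ} (hs : s ∈ Icc 0 (TT l)) (hb : 0 ≤ b) (hz0 : 0 ≤ z)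
    (hz : ∀ r, 0 ≤ r → r < s → lvr 1 l r ≤ z) (hm : |s - b * Pr.Gam l s| ≤ ε)
    (hε : ε ≤ m * s) (s0 : 0 < s) : ∀ r ∈ Icc 0 s,
      |1 - b * Pr.GG l r| ≤ m + 2 * b * (s + z) * s ∧
      |r - b * Pr.Gam l r| ≤ (m + 2 * b * (s + z) * s) * r := by
  obtain ⟨c, t0, -, -, H⟩ := GG_inc (TT l)
  have a := AP.of_ok h
  have osc : ∀ r ∈ Icc 0 s, ∀ u ∈ Icc 0 s, |Gp l u - Gp l r| ≤ 2 * (s + z) * s := by
    have one : ∀ r ∈ Icc 0 s, ∀ u ∈ Icc 0 s, r ≤ u → |Gp l u - Gp l r| ≤ 2 * (s + z) * s :=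
      fun r hr u hu hru => by
        obtain ⟨-, b1, b2⟩ := H l h le_rfl u ⟨hu.1, hu.2.trans hs.2⟩ z
          (fun v h1 h2 => hz v h1 (h2.trans_le hu.2)) r ⟨hr.1, hru⟩
        rw [GG_eq] at b1 b2
        have c1 : z * (u - r) ≤ z * s := mul_le_mul_of_nonneg_left (by linarith [hr.1, hu.2]) hz0
        have c2 : u ^ 2 ≤ s ^ 2 := pow_le_pow_left₀ hu.1 hu.2 2
        rw [abs_le]
        constructor <;> nlinarith [sq_nonneg r, sq_nonneg s, mul_nonneg hz0 s0.le]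
    intro r hr u hu
    rcases le_total r u with h1 | h1
    · exact one r hr u hu h1
    · rw [abs_sub_comm]; exact one u hu r hr h1
  have lin : ∀ t ∈ Icc 0 s, ∀ k K : ℝ, (∀ u ∈ Icc 0 s, |Gp l u - k| ≤ K) →
      |Gam l t - k * t| ≤ K * t := fun t ht k K hK => by
    have cG := (Gam_cont a).mono (Icc_subset_Icc le_rfl (ht.2.trans hs.2))
    have dG : ∀ u ∈ Ico 0 t, HasDerivWithinAt (Gam l) (Gp l u) (Ici u) u :=
      fun u hu => Gam_rder a hu.1 (hu.2.trans_le (ht.2.trans hs.2))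
    have u1 := le_of_rder (f := fun u => Gam l u - (k + K) * u) ht.1
      (ContinuousOn.sub cG (by fun_prop))
      (fun u hu => (dG u hu).sub ((hasDerivWithinAt_id u _).const_mul (k + K)))
      (fun u hu => by linarith [(abs_le.1 (hK u ⟨hu.1, hu.2.le.trans ht.2⟩)).2])
    have u2 := le_of_rder (f := fun u => (k - K) * u - Gam l u) ht.1
      (ContinuousOn.sub (by fun_prop) cG)
      (fun u hu => ((hasDerivWithinAt_id u _).const_mul (k - K)).sub (dG u hu))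
      (fun u hu => by linarith [(abs_le.1 (hK u ⟨hu.1, hu.2.le.trans ht.2⟩)).1])
    rw [Gam_zero a] at u1 u2
    rw [abs_le]
    constructor <;> linarith
  rw [GG_eq, Gam_eq] at *
  have mu : ∀ r ∈ Icc 0 s, |1 - b * Gp l r| ≤ m + 2 * b * (s + z) * s := fun r hr => by
    have a1 := abs_le.1 (lin s ⟨s0.le, le_rfl⟩ (Gp l r) _ fun u hu => osc r hr u hu)
    have a2 := abs_le.1 (hm.trans hε)
    have a3 := mul_le_mul_of_nonneg_left a1.1 hb
    have a4 := mul_le_mul_of_nonneg_left a1.2 hb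
    rw [abs_le]
    constructor
    · refine le_of_mul_le_mul_right ?_ s0
      nlinarith
    · refine le_of_mul_le_mul_right ?_ s0
      nlinarith
  intro r hr
  refine ⟨mu r hr, ?_⟩
  have cG := (Gam_cont a).mono (Icc_subset_Icc le_rfl (hr.2.trans hs.2))
  have dG : ∀ u ∈ Ico 0 r, HasDerivWithinAt (Gam l) (Gp l u) (Ici u) u :=
    fun u hu => Gam_rder a hu.1 (hu.2.trans_le (hr.2.trans hs.2))
  set K := m + 2 * b * (s + z) * s with hK
  have u1 := le_of_rder (f := fun u => u - b * Gam l u - K * u) hr.1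
    (ContinuousOn.sub (ContinuousOn.sub continuousOn_id (continuousOn_const.mul cG)) (by fun_prop))
    (fun u hu => ((hasDerivWithinAt_id u _).sub ((dG u hu).const_mul b)).sub
      ((hasDerivWithinAt_id u _).const_mul K))
    (fun u hu => by linarith [(abs_le.1 (mu u ⟨hu.1, hu.2.le.trans hr.2⟩)).2])
  have u2 := le_of_rder (f := fun u => b * Gam l u - u - K * u) hr.1
    (ContinuousOn.sub (ContinuousOn.sub (continuousOn_const.mul cG) continuousOn_id) (by fun_prop))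
    (fun u hu => (((dG u hu).const_mul b).sub (hasDerivWithinAt_id u _)).sub
      ((hasDerivWithinAt_id u _).const_mul K))
    (fun u hu => by linarith [(abs_le.1 (mu u ⟨hu.1, hu.2.le.trans hr.2⟩)).1])
  rw [Gam_zero a] at u1 u2
  rw [abs_le]
  constructor <;> linarith

end

end Crest.Agent.T156.Pp.Lg5
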