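import Crest.Agent.T156.Lift_72
import Crest.Agent.T156.ChainQ_26

/-!
# Row 156: finite lifts on the cube, `Q`-form (helper72)
-/

set_option autoImplicit false
set_option linter.unusedSectionVars false

noncomputable section

namespace Crest.Agent.T156.Cas.Lift72

open MeasureTheory Real Set Filter Topology
open Crest.Agent.T157.E Crest.Agent.T157.Casc Crest.Agent.T157.SL
open Trf

section
variable {Ω : Type} [Fintype Ω] {w : Ω → ℝ}

/-- a summand `k` of the root level `l = l₁ + k` is lifted to the tilt `β` -/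
theorem lift_split (hw : Wt w) {l l₁ k : Lv Ω} {N : List (Lv Ω)} {h : Ω → ℝ}
    {T : Set (Equiv.Perm Ω)} {x₀ : Ω} {a a' x β W S : ℝ} {J : ℕ}
    (hc : ∀ y y', l.cov y y' = l₁.cov y y' + k.cov y y')
    (hT : ∀ σ ∈ T, Sym w (l₁ :: k :: N) h σ) (htr : ∀ y, w y ≠ 0 → ∃ σ ∈ T, σ x₀ = y)
    (ha : 0 < a) (haa : a ≤ a') (hx : a' < x) (hxβ : x ≤ β)
    (hJ : β - a' ≤ 2 ^ J * (x - a')) (hN : Mono β N)
    (hW : ∀ t ∈ Icc x β, Wd w l₁ (rt k t :: N) h a a' ≤ W)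
    (hS : ∀ s ∈ Icc a a', pi2 w (rt l₁ s :: rt k β :: N) 2 k.cov h ≤ 2 * S) :
    |X w (rt l₁ a' :: rt k β :: N) h - X w (rt l₁ a :: rt k β :: N) h -
      (X w (rt l a' :: N) h - X w (rt l a :: N) h)| ≤ x * S + J * √(6 * (a' - a) * W * S) := by
  have k1 := lift_one hw (l := l₁) (k := k) (M := []) (N := N) (h := h) (T := T)
    (x₀ := x₀) (W := W) (S := S) hT htr ha haa hx hxβ hJ ⟨hx.le, Trf.mono_le hN hxβ⟩ hN hW hS
  have key : ∀ s ∈ Icc a a', X w (rt l s :: N) h ≤ X w (rt l₁ s :: rt k x :: N) h ∧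
      X w (rt l₁ s :: rt k x :: N) h - X w (rt l s :: N) h ≤ x * S := by
    intro s hs
    have s0 : 0 < s := ha.trans_le hs.1
    have sx : s ≤ x := hs.2.trans hx.le
    have e : X w (rt l s :: N) = X w (rt l₁ s :: rt k s :: N) :=
      C.X_split hw (l := rt l s) (l1 := rt l₁ s) (l2 := rt k s) rfl rfl hc N
    have b := slope_le hw (α := s) (β := β) s0 (M := [rt l₁ s]) (L := one k N)
      (fun k hk => by rw [List.mem_singleton.1 hk]; exact s0.le) (fun p hp => by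
        rcases List.mem_cons.1 hp with rfl | hp
        · exact ⟨le_rfl, zero_le_one, by simpa using s0⟩
        · obtain ⟨j, hj, rfl⟩ := List.mem_map.1 hp
          have := (Ann56.mono_mem hN j hj).1
          exact ⟨by linarith, le_rfl, by simp; linarith⟩) h (t := s) (t' := x)
      ⟨le_rfl, sx.trans hxβ⟩ ⟨sx, hxβ⟩ sx
    rw [Es_one, tl_one, tl_one] at b
    have p0 := Kkt28.pi2_cov_nonneg (w := w) (rt l₁ s :: rt k β :: N) 2 k h
    have p1 := hS s hs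
    rw [e]
    refine ⟨b.1, b.2.trans ?_⟩
    show pi2 w (rt l₁ s :: rt k β :: N) 2 k.cov h / 2 * (x - s) ≤ x * S
    nlinarith
  have k2 := key a ⟨le_rfl, haa⟩
  have k3 := key a' ⟨haa, le_rfl⟩
  have k4 := abs_le.1 k1
  simp only [List.nil_append, List.cons_append] at k4
  rw [abs_le]
  constructor <;> linarith [k2.1, k2.2, k3.1, k3.2, k4.1, k4.2]

theorem sqrt_Q {a a' Q S : ℝ} (haa : a < a') (hQ : 0 ≤ Q) :
    √(6 * (a' - a) * (Q ^ 2 / (a' - a)) * S) = Q * √(6 * S) := by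
  have : a' - a ≠ 0 := (sub_pos.2 haa).ne'
  rw [show 6 * (a' - a) * (Q ^ 2 / (a' - a)) * S = Q ^ 2 * (6 * S) by field_simp,
    sqrt_mul (sq_nonneg Q), sqrt_sq hQ]

end

open Chain26 Flow26

variable {n : ℕ}

/-- **several levels move up together, cube, `Q`-form** -/
theorem liftQ {l : Lv (Cube n)} {M : List (Lv (Cube n))} {L : List (Lv (Cube n) × ℝ)}
    {a a' α β Q S : ℝ} {J : ℕ} (hO : ∀ k ∈ l :: M ++ L.map Prod.fst, OvLv k)
    (ha : 0 < a) (haa : a ≤ a') (hα : a' < α) (hαβ : α ≤ β) (hJ : β - a' ≤ 2 ^ J * (α - a'))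
    (hL : ∀ p ∈ L, 0 ≤ p.1.m ∧ 0 ≤ p.2 ∧ 0 < p.1.m + α * p.2)
    (hm : ∀ t ∈ Icc α β, Mono a' (M ++ tl L t)) (hy : ∀ t ∈ Icc α β, t ≤ ex (tl L t) 0)
    (hQ0 : 0 ≤ Q)
    (hQ : ∀ t ∈ Icc α β, (a' - a) * Wd (fun _ => 1) l (M ++ tl L t) 0 a a' ≤ Q ^ 2)
    (hS : ∀ s ∈ Icc a a', Es (fun _ => 1) (rt l s :: M) L β 0 ≤ S) :
    Cl a a' (J * Q * √(6 * S)) (Vv l (M ++ tl L β)) (Vv l (M ++ tl L α)) := by
  rcases haa.eq_or_lt with rfl | hlt
  · simp only [Cl, sub_self, abs_zero]; positivity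
  have := lift Link33.wt1 (l := l) (M := M) (L := L) (h := 0) (x₀ := fun _ => true)
    (W := Q ^ 2 / (a' - a)) (S := S) (sym_act₀ hO) (fun y _ => TS_trans _ y) ha haa hα hαβ hJ hL
    hm hy (fun t ht => by rw [le_div_iff₀ (sub_pos.2 hlt), mul_comm]; exact hQ t ht) hS
  rw [sqrt_Q hlt hQ0, ← mul_assoc] at this
  exact this

/-- **one level `k` moves from the tilt `α` to the tilt `β`, cube, `Q`-form** -/
theorem liftQ_one {l k : Lv (Cube n)} {M N : List (Lv (Cube n))} {a a' α β Q S : ℝ} {J : ℕ}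
    (hO : ∀ j ∈ l :: M ++ k :: N, OvLv j)
    (ha : 0 < a) (haa : a ≤ a') (hα : a' < α) (hαβ : α ≤ β) (hJ : β - a' ≤ 2 ^ J * (α - a'))
    (hM : Mono a' (M ++ rt k α :: N)) (hN : Mono β N) (hQ0 : 0 ≤ Q)
    (hQ : ∀ t ∈ Icc α β, (a' - a) * Wd (fun _ => 1) l (M ++ rt k t :: N) 0 a a' ≤ Q ^ 2)
    (hS : ∀ s ∈ Icc a a',
      pi2 (fun _ => 1) (rt l s :: M ++ rt k β :: N) (M.length + 2) k.cov 0 ≤ 2 * S) :
    Cl a a' (J * Q * √(6 * S)) (Vv l (M ++ rt k β :: N)) (Vv l (M ++ rt k α :: N)) := by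
  rcases haa.eq_or_lt with rfl | hlt
  · simp only [Cl, sub_self, abs_zero]; positivity
  have := lift_one Link33.wt1 (l := l) (k := k) (M := M) (N := N) (h := 0) (x₀ := fun _ => true)
    (W := Q ^ 2 / (a' - a)) (S := S) (sym_act₀ hO) (fun y _ => TS_trans _ y) ha haa hα hαβ hJ hM
    hN (fun t ht => by rw [le_div_iff₀ (sub_pos.2 hlt), mul_comm]; exact hQ t ht) hS
  rw [sqrt_Q hlt hQ0, ← mul_assoc] at this
  exact this

/-- **a slice `δ` of the SK root is lifted to the tilt `y`, `Q`-form**; `ρ ≥ E R²` for the pairs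
split just above the lifted slice, in the END model -/
theorem liftQ_wl (hn : 0 < n) (b : ℝ) {d δ : ℝ} (hd : 0 ≤ d) (hδ : 0 ≤ δ) (m m' : ℝ)
    {N : List (Lv (Cube n))} {a a' x y Q ρ : ℝ} {J : ℕ} (hO : ∀ j ∈ N, OvLv j)
    (ha : 0 < a) (haa : a ≤ a') (hx : a' < x) (hxy : x ≤ y) (hJ : y - a' ≤ 2 ^ J * (x - a'))
    (hN : Mono y N) (hQ0 : 0 ≤ Q)
    (hQ : ∀ t ∈ Icc x y,
      (a' - a) * Wd (fun _ => 1) (wl n b d m) (wl n b δ t :: N) 0 a a' ≤ Q ^ 2)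
    (hρ : ∀ s ∈ Icc a a', pi2 (fun _ => 1) (wl n b d s :: wl n b δ y :: N) 2
      (fun u v => T157.G1.ov u v ^ 2) 0 ≤ ρ) :
    Cl a a' (x * (δ * b ^ 2 * n * ρ / 4) + J * Q * √(6 * (δ * b ^ 2 * n * ρ / 4)))
      (Vv (wl n b d m) (wl n b δ y :: N)) (Vv (wl n b (d + δ) m') N) := by
  have hcov : (wl n b δ 0).cov = fun u v => δ * (b ^ 2 * n / 2) * T157.G1.ov u v ^ 2 := by
    funext u v; rw [Link33.cov_wl n b δ 0 u v hn hδ]; ring
  have hS : ∀ s ∈ Icc a a', pi2 (fun _ => 1) (rt (wl n b d m) s :: rt (wl n b δ 0) y :: N) 2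
      (wl n b δ 0).cov 0 ≤ 2 * (δ * b ^ 2 * n * ρ / 4) := fun s hs => by
    rw [hcov, pi2_const_mul]
    have := mul_le_mul_of_nonneg_left (hρ s hs) (show 0 ≤ δ * (b ^ 2 * n / 2) by positivity)
    exact this.trans_eq (by ring)
  rcases haa.eq_or_lt with rfl | hlt
  · have p0 := (Kkt28.pi2_cov_nonneg (w := fun _ => 1)
      (rt (wl n b d m) a :: rt (wl n b δ 0) y :: N) 2 (wl n b δ 0) 0).trans (hS a ⟨le_rfl, le_rfl⟩)
    have : 0 ≤ x * (δ * b ^ 2 * n * ρ / 4) := mul_nonneg (ha.trans hx).le (by linarith)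
    simp only [Cl, sub_self, abs_zero]; positivity
  have := lift_split Link33.wt1 (l := wl n b (d + δ) m') (l₁ := wl n b d m) (k := wl n b δ 0)
    (N := N) (h := 0) (x₀ := fun _ => true) (W := Q ^ 2 / (a' - a))
    (S := δ * b ^ 2 * n * ρ / 4) (fun u v => by
      rw [Link33.cov_wl n b _ _ u v hn hd, Link33.cov_wl n b _ _ u v hn hδ,
        Link33.cov_wl n b _ _ u v hn (add_nonneg hd hδ)]; ring)
    (sym_act₀ fun j hj => by
      rcases List.mem_cons.1 hj with rfl | hj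
      · exact ovLv_wl _ _ _ _
      rcases List.mem_cons.1 hj with rfl | hj
      · exact ovLv_wl _ _ _ _
      · exact hO j hj)
    (fun y _ => TS_trans _ y) ha haa hx hxy hJ hN
    (fun t ht => by rw [le_div_iff₀ (sub_pos.2 hlt), mul_comm]; exact hQ t ht) hS
  rw [sqrt_Q hlt hQ0, ← mul_assoc] at this
  exact this

end Crest.Agent.T156.Cas.Lift72

end
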