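import Crest.Agent.T156.Ann_56
import Crest.Agent.T156.CaKkt_28
import Crest.Agent.T156.Ent_68

/-!
# Row 156: finite lifts of tilts, with the slope read in the END model (helper72)
-/

set_option autoImplicit false
set_option linter.unusedSectionVars false

noncomputable section

namespace Crest.Agent.T156.Cas.Lift72

open MeasureTheory Real Set Filter Topology
open Crest.Agent.T157.E Crest.Agent.T157.Casc Crest.Agent.T157.SL
open Trf

variable {Ω : Type} [Fintype Ω] {w : Ω → ℝ}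

theorem lg_cmul {F : (Ω → ℝ) → ℝ} (hF : Lg F) (c : ℝ) : Lg fun z => c * F z := by
  obtain ⟨C, d, -, -, h⟩ := hF.bd
  refine Lg.of (continuous_const.mul hF.eg.cont) (|c| * C) (|c| * d) fun z => ?_
  have := mul_le_mul_of_nonneg_left (h (0, z) trivial) (abs_nonneg c)
  rw [abs_mul]
  simp only at this
  linarith

/-- one step with a lower tilt and another terminal value -/
theorem step_low {F G : (Ω → ℝ) → ℝ} (hF : Lg F) (hG : Lg G) (l : Lv Ω) {m : ℝ} (h0 : 0 < m)
    (hm : m ≤ l.m) (z : Ω → ℝ) :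
    step l F z - step (rt l m) G z ≤
      (l.m - m) / m * (tE l F F z - step l F z) + tE l F (fun z => F z - G z) z := by
  have hl : 0 < l.m := h0.trans_le hm
  have key := step_ge (l := rt l m) (lg_cmul hF (l.m / m)) hG h0.le z
  have e0 : ∀ u : ℝ, m * (l.m / m * u) = l.m * u := fun u => by field_simp
  have e1 : step (rt l m) (fun z => l.m / m * F z) z = l.m / m * step l F z := by
    simp only [step, h0.ne', hl.ne', if_false, e0]
    field_simp
    rfl
  have e2 : ∀ Φ : (Ω → ℝ) → ℝ, tE (rt l m) (fun z => l.m / m * F z) Φ z = tE l F Φ z := fun Φ => by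
    simp only [tE, e0]
    rfl
  rw [e1, e2, tE_sub hF hG.eg (hF.eg.const_mul _), tE_const_mul] at key
  rw [tE_sub hF hF.eg hG.eg]
  have e3 : (l.m - m) / m = l.m / m - 1 := by field_simp
  rw [e3]
  linarith

/-- the jump of the value across one level is at most half the tilt times the overlap after it -/
theorem jump_le (hw : Wt w) (l : Lv Ω) (L : List (Lv Ω)) (hl : 0 ≤ l.m) (z : Ω → ℝ) :
    tE l (X w L) (X w L) z - step l (X w L) z ≤ l.m / 2 * pi2 w (l :: L) 1 l.cov z := by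
  have a := Gir68.jump hw [] L l z
  have b := (Kkt28.int_inside hw l l [] L l.m z).2
  simp only [List.nil_append, List.length_nil, zero_add, node_zero] at a b
  have e : node w (l :: L) 1 (X w L) z = tE l (X w L) (X w L) z := by
    rw [node_cons, node_zero]
  rw [e] at a
  exact (le_of_eq a).trans (mul_le_mul_of_nonneg_left b (by linarith))

/-- the slope at the end of the move: `∑ rate * overlap / 2`, read in the END model -/
def Es (w : Ω → ℝ) (M : List (Lv Ω)) (L : List (Lv Ω × ℝ)) (β : ℝ) (h : Ω → ℝ) : ℝ :=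
  ∑ k : Fin L.length, L[k].2 / 2 * pi2 w (M ++ tl L β) (M.length + k + 1) L[k].1.cov h

theorem eg_Es (hw : Wt w) (M : List (Lv Ω)) (L : List (Lv Ω × ℝ)) (β : ℝ) : Eg (Es w M L β) := by
  unfold Es
  exact Eg.sum _ fun k _ => (eg_pi2 hw _ _ _).const_mul _

theorem Es_nonneg (M : List (Lv Ω)) {L : List (Lv Ω × ℝ)} (hL : ∀ p ∈ L, 0 ≤ p.2) (β : ℝ)
    (h : Ω → ℝ) : 0 ≤ Es w M L β h :=
  Finset.sum_nonneg fun k _ => mul_nonneg (div_nonneg (hL _ (List.getElem_mem _)) zero_le_two)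
    (Kkt28.pi2_cov_nonneg _ _ _ _)

theorem Es_cons (hw : Wt w) (l : Lv Ω) (M : List (Lv Ω)) (L : List (Lv Ω × ℝ)) (β : ℝ)
    (h : Ω → ℝ) : Es w (l :: M) L β h = tE l (X w (M ++ tl L β)) (Es w M L β) h := by
  unfold Es
  rw [tE_sum (lg_X hw _) _ fun k _ => (eg_pi2 hw _ _ _).const_mul _]
  refine Finset.sum_congr rfl fun k _ => ?_
  rw [tE_const_mul, List.cons_append, List.length_cons,
    show M.length + 1 + (k : ℕ) + 1 = (M.length + k + 1) + 1 by ring, pi2_cons]

theorem tl_cons (p : Lv Ω × ℝ) (L : List (Lv Ω × ℝ)) (t : ℝ) :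
    tl (p :: L) t = rt p.1 (p.1.m + t * p.2) :: tl L t := rfl

theorem Es_nil_cons (hw : Wt w) (p : Lv Ω × ℝ) (L : List (Lv Ω × ℝ)) (β : ℝ) (h : Ω → ℝ) :
    Es w [] (p :: L) β h = p.2 / 2 * pi2 w (tl (p :: L) β) 1 p.1.cov h +
      tE (rt p.1 (p.1.m + β * p.2)) (X w (tl L β)) (Es w [] L β) h := by
  have e := Es_cons hw (rt p.1 (p.1.m + β * p.2)) [] L β h
  rw [List.nil_append] at e
  rw [← e]
  unfold Es
  simp only [List.length_cons, Fin.sum_univ_succ, List.nil_append, List.length_nil, zero_add,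
    Fin.val_zero, Fin.val_succ, Fin.getElem_fin, List.getElem_cons_zero, List.getElem_cons_succ,
    tl_cons, List.cons_append]
  congr 1
  refine Finset.sum_congr rfl fun k _ => ?_
  rw [add_comm 1 (k : ℕ)]

theorem tl_end₀ (hw : Wt w) {t β : ℝ} (ht : 0 < t) (htβ : t ≤ β) :
    ∀ L : List (Lv Ω × ℝ), (∀ p ∈ L, 0 ≤ p.1.m ∧ 0 ≤ p.2 ∧ 0 < p.1.m + t * p.2) → ∀ h,
      X w (tl L β) h - X w (tl L t) h ≤ (β - t) * (β / t) * Es w [] L β h
  | [], _, h => by simp [tl, Es]
  | p :: L, hL, h => by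
    obtain ⟨p1, p2, p3⟩ := hL p (by simp)
    have ih := tl_end₀ hw ht htβ L fun q hq => hL q (List.mem_cons_of_mem _ hq)
    have hle : p.1.m + t * p.2 ≤ p.1.m + β * p.2 := by nlinarith
    have a := step_low (lg_X hw (tl L β)) (lg_X hw (tl L t)) (rt p.1 (p.1.m + β * p.2)) p3 hle h
    have b := jump_le hw (rt p.1 (p.1.m + β * p.2)) (tl L β) (p3.le.trans hle) h
    have c := tE_mono (lg_X hw (tl L β)) ((lg_X hw (tl L β)).eg.sub (lg_X hw (tl L t)).eg)
      ((eg_Es hw [] L β).const_mul ((β - t) * (β / t))) ih (rt p.1 (p.1.m + β * p.2)) h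
    rw [tE_const_mul] at c
    rw [Es_nil_cons hw, tl_cons, tl_cons]
    set Q := pi2 w (rt p.1 (p.1.m + β * p.2) :: tl L β) 1 p.1.cov h with hQ
    have Q0 : 0 ≤ Q := Kkt28.pi2_cov_nonneg _ _ _ _
    have b' : tE (rt p.1 (p.1.m + β * p.2)) (X w (tl L β)) (X w (tl L β)) h -
        step (rt p.1 (p.1.m + β * p.2)) (X w (tl L β)) h ≤ (p.1.m + β * p.2) / 2 * Q := b
    have c0 : 0 ≤ (p.1.m + β * p.2 - (p.1.m + t * p.2)) / (p.1.m + t * p.2) :=
      div_nonneg (sub_nonneg.2 hle) p3.le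
    have d := mul_le_mul_of_nonneg_left b' c0
    have e : (p.1.m + β * p.2 - (p.1.m + t * p.2)) / (p.1.m + t * p.2) *
        ((p.1.m + β * p.2) / 2 * Q) ≤ (β - t) * (β / t) * (p.2 / 2 * Q) := by
      have r : (p.1.m + β * p.2) / (p.1.m + t * p.2) ≤ β / t := by
        rw [div_le_div_iff₀ p3 ht]; nlinarith
      have := mul_le_mul_of_nonneg_left r
        (show 0 ≤ (β - t) * (p.2 / 2 * Q) from mul_nonneg (sub_nonneg.2 htβ) (by positivity))
      refine le_of_eq_of_le ?_ (this.trans_eq (by ring))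
      field_simp
      ring
    show step (rt p.1 (p.1.m + β * p.2)) (X w (tl L β)) h -
      step (rt p.1 (p.1.m + t * p.2)) (X w (tl L t)) h ≤ _
    have a' : step (rt p.1 (p.1.m + β * p.2)) (X w (tl L β)) h -
        step (rt p.1 (p.1.m + t * p.2)) (X w (tl L t)) h ≤
        (p.1.m + β * p.2 - (p.1.m + t * p.2)) / (p.1.m + t * p.2) *
          (tE (rt p.1 (p.1.m + β * p.2)) (X w (tl L β)) (X w (tl L β)) h -
            step (rt p.1 (p.1.m + β * p.2)) (X w (tl L β)) h) +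
        tE (rt p.1 (p.1.m + β * p.2)) (X w (tl L β))
          (fun z => X w (tl L β) z - X w (tl L t) z) h := a
    rw [mul_add]
    linarith

/-- the value drops at most by the end slope (times `β / t`) -/
theorem tl_end (hw : Wt w) {t β : ℝ} (ht : 0 < t) (htβ : t ≤ β) {L : List (Lv Ω × ℝ)}
    (hL : ∀ p ∈ L, 0 ≤ p.1.m ∧ 0 ≤ p.2 ∧ 0 < p.1.m + t * p.2) :
    ∀ M : List (Lv Ω), (∀ l ∈ M, 0 ≤ l.m) → ∀ h,
      X w (M ++ tl L β) h - X w (M ++ tl L t) h ≤ (β - t) * (β / t) * Es w M L β h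
  | [], _, h => tl_end₀ hw ht htβ L hL h
  | l :: M, hM, h => by
    have ih := tl_end hw ht htβ hL M fun k hk => hM k (List.mem_cons_of_mem _ hk)
    have a := step_ge (l := l) (lg_X hw (M ++ tl L β)) (lg_X hw (M ++ tl L t)) (hM l (by simp)) h
    have c := tE_mono (lg_X hw (M ++ tl L β))
      ((lg_X hw (M ++ tl L β)).eg.sub (lg_X hw (M ++ tl L t)).eg)
      ((eg_Es hw M L β).const_mul ((β - t) * (β / t))) ih l h
    rw [tE_const_mul, tE_sub (lg_X hw _) (lg_X hw _).eg (lg_X hw _).eg] at c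
    rw [tE_sub (lg_X hw _) (lg_X hw _).eg (lg_X hw _).eg] at a
    rw [Es_cons hw]
    show step l (X w (M ++ tl L β)) h - step l (X w (M ++ tl L t)) h ≤ _
    linarith

theorem tl_pre (M : List (Lv Ω)) (L : List (Lv Ω × ℝ)) (t : ℝ) :
    tl (M.map (fun l => (l, (0 : ℝ))) ++ L) t = M ++ tl L t := by
  simp only [tl, List.map_append, List.map_map]
  congr 1
  conv_rhs => rw [← List.map_id M]
  exact List.map_congr_left fun l _ => by simp

/-- **all slopes of an upward move lie between `0` and the end slope** -/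
theorem slope_le (hw : Wt w) {α β : ℝ} (hα : 0 < α) {M : List (Lv Ω)} {L : List (Lv Ω × ℝ)}
    (hM : ∀ l ∈ M, 0 ≤ l.m) (hL : ∀ p ∈ L, 0 ≤ p.1.m ∧ 0 ≤ p.2 ∧ 0 < p.1.m + α * p.2)
    (h : Ω → ℝ) {t t' : ℝ} (ht : t ∈ Icc α β) (ht' : t' ∈ Icc α β) (htt : t ≤ t') :
    X w (M ++ tl L t) h ≤ X w (M ++ tl L t') h ∧
      X w (M ++ tl L t') h - X w (M ++ tl L t) h ≤ Es w M L β h * (t' - t) := by
  classical
  constructor
  · have b := fun z => (tl_sub hw (c := fun p => ∑ x, |p.1.cov x x|) htt L (fun p _ x =>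
      (le_abs_self _).trans (Finset.single_le_sum (f := fun x => |p.1.cov x x|)
        (fun _ _ => abs_nonneg _) (Finset.mem_univ x))) z).1
    have e1 : (L.map fun p => min p.2 0 * ∑ x, |p.1.cov x x|).sum = 0 :=
      List.sum_eq_zero fun r hr' => by
        obtain ⟨p, hp, rfl⟩ := List.mem_map.1 hr'
        simp only [min_eq_right (hL p hp).2.1, zero_mul]
    have := C.X_append_le hw hw (M := tl L t) (M' := tl L t') (c := 0)
      (fun z => by have := b z; rw [e1] at this; linarith) M h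
    linarith
  rcases htt.eq_or_lt with rfl | hlt
  · simp
  have cj := tiltStmt Ω w hw (M.map (fun l => (l, (0 : ℝ))) ++ L) α β fun p hp u hu => by
    rcases List.mem_append.1 hp with hp | hp
    · obtain ⟨l, hl, rfl⟩ := List.mem_map.1 hp
      simpa using hM l hl
    · have := hL p hp
      nlinarith [this.1, this.2.1, hu.1]
  have cv : ConvexOn ℝ (Icc α β) fun u => X w (M ++ tl L u) h :=
    ⟨convex_Icc _ _, fun u hu u' hu' a b ha hb hab => by
      have := cj.2 (x := (h, u)) (y := (h, u')) ⟨trivial, hu⟩ ⟨trivial, hu'⟩ ha hb hab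
      simpa [← add_smul, hab, tl_pre] using this⟩
  have hβ : t < β := hlt.trans_le ht'.2
  have mβ : β ∈ Icc α β := ⟨ht.1.trans ht.2, le_rfl⟩
  have s1 := cv.secant_mono ht ht' mβ hlt.ne' hβ.ne' ht'.2
  rw [← div_le_iff₀ (sub_pos.2 hlt)]
  refine s1.trans ?_
  have lim : Tendsto (fun u : ℝ => β / u * Es w M L β h) (𝓝[<] β) (𝓝 (Es w M L β h)) := by
    have hb : β ≠ 0 := (hα.trans_le mβ.1).ne'
    have : ContinuousAt (fun u : ℝ => β / u * Es w M L β h) β :=
      (continuousAt_const.div continuousAt_id hb).mul continuousAt_const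
    have h2 := this.tendsto.mono_left (nhdsWithin_le_nhds (s := Iio β))
    simpa [hb] using h2
  refine ge_of_tendsto lim ?_
  filter_upwards [Ioo_mem_nhdsLT hβ] with u hu
  have mu : u ∈ Icc α β := ⟨ht.1.trans hu.1.le, hu.2.le⟩
  have s2 := cv.secant_mono mβ ht mu hβ.ne hu.2.ne hu.1.le
  have sw : ∀ p q u v : ℝ, (p - q) / (u - v) = (q - p) / (v - u) := fun p q u v => by
    rw [← neg_sub q p, ← neg_sub v u, neg_div_neg_eq]
  rw [sw, sw _ _ u] at s2
  refine s2.trans ?_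
  have u0 : 0 < u := hα.trans_le mu.1
  have e := tl_end hw u0 hu.2.le (L := L) (fun p hp => ⟨(hL p hp).1, (hL p hp).2.1, by
    nlinarith [(hL p hp).2.1, (hL p hp).2.2, mu.1]⟩) M hM h
  rw [div_le_iff₀ (sub_pos.2 hu.2)]
  linarith

/-- **finite lift**: levels move up along `tl L t`, `t ∈ [α, β]`; the slope is read at `β` -/
theorem lift (hw : Wt w) {l : Lv Ω} {M : List (Lv Ω)} {L : List (Lv Ω × ℝ)} {h : Ω → ℝ}
    {T : Set (Equiv.Perm Ω)} {x₀ : Ω} {a a' α β W S : ℝ} {J : ℕ}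
    (hT : ∀ τ ∈ T, Sym w (l :: M ++ L.map Prod.fst) h τ) (htr : ∀ y, w y ≠ 0 → ∃ τ ∈ T, τ x₀ = y)
    (ha : 0 < a) (haa : a ≤ a') (hα : a' < α) (hαβ : α ≤ β) (hJ : β - a' ≤ 2 ^ J * (α - a'))
    (hL : ∀ p ∈ L, 0 ≤ p.1.m ∧ 0 ≤ p.2 ∧ 0 < p.1.m + α * p.2)
    (hm : ∀ t ∈ Icc α β, Mono a' (M ++ tl L t)) (hy : ∀ t ∈ Icc α β, t ≤ ex (tl L t) 0)
    (hW : ∀ t ∈ Icc α β, Wd w l (M ++ tl L t) h a a' ≤ W)
    (hS : ∀ s ∈ Icc a a', Es w (rt l s :: M) L β h ≤ S) :
    |X w (rt l a' :: M ++ tl L β) h - X w (rt l a :: M ++ tl L β) h -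
      (X w (rt l a' :: M ++ tl L α) h - X w (rt l a :: M ++ tl L α) h)| ≤
      J * √(6 * (a' - a) * W * S) := by
  classical
  have hα0 : 0 < α := (ha.trans_le haa).trans hα
  have mα : α ∈ Icc α β := ⟨le_rfl, hαβ⟩
  have hM : ∀ k ∈ M, 0 ≤ k.m := fun k hk => (ha.le.trans haa).trans
    (Ann56.mono_mem (hm α mα) k (List.mem_append_left _ hk)).1
  have H : Fam w l M (tl L) h T x₀ α β := fam_tl hw (fun p hp t ht => by
    nlinarith [(hL p hp).1, (hL p hp).2.1, ht.1]) hT htr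
  set c : Lv Ω × ℝ → ℝ := fun p => ∑ x, |p.1.cov x x| with hc
  have hcc : ∀ p ∈ L, ∀ x, p.1.cov x x ≤ c p := fun p _ x => (le_abs_self _).trans
    (Finset.single_le_sum (f := fun x => |p.1.cov x x|) (fun _ _ => abs_nonneg _)
      (Finset.mem_univ x))
  set K := |(L.map fun p => min p.2 0 * c p).sum| + |(L.map fun p => max p.2 0 * c p).sum| with hK
  have sl : ∀ t t', t ≤ t' → ∀ z, |X w (tl L t') z - X w (tl L t) z| ≤ K * (t' - t) :=
    fun t t' h1 z => by
      have b := tl_sub hw (c := c) h1 L hcc z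
      have d := sub_nonneg.2 h1
      have i1 := mul_le_mul_of_nonneg_left (neg_abs_le (L.map fun p => min p.2 0 * c p).sum) d
      have i2 := mul_le_mul_of_nonneg_left (le_abs_self (L.map fun p => max p.2 0 * c p).sum) d
      have i3 := mul_nonneg d (abs_nonneg (L.map fun p => min p.2 0 * c p).sum)
      have i4 := mul_nonneg d (abs_nonneg (L.map fun p => max p.2 0 * c p).sum)
      rw [abs_le, hK]
      constructor <;> nlinarith [b.1, b.2]
  have hS0 : 0 ≤ S := (Es_nonneg _ (fun p hp => (hL p hp).2.1) β h).trans (hS a ⟨le_rfl, haa⟩)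
  have key := H.transfer_dyadic (a := a) (a' := a') (K := K) (W := W) (S := S) (lo := fun _ => 0)
    (J := J) ha haa hα hαβ hJ ((Wd_nonneg hw l _ h haa).trans (hW α mα)) hS0 hm hy
    (fun t _ t' _ z => by
      rcases le_total t t' with h1 | h1
      · rw [abs_sub_comm, abs_sub_comm t, abs_of_nonneg (sub_nonneg.2 h1)]
        exact sl t t' h1 z
      · rw [abs_of_nonneg (sub_nonneg.2 h1)]
        exact sl t' t h1 z)
    hW
    (fun s hs t ht t' ht' h1 => by
      have b := slope_le hw hα0 (M := rt l s :: M) (fun k hk => by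
        rcases List.mem_cons.1 hk with rfl | hk
        · exact ha.le.trans hs.1
        · exact hM k hk) hL h ht ht' h1
      have := mul_le_mul_of_nonneg_right (hS s hs) (sub_nonneg.2 h1)
      constructor <;> linarith [b.1, b.2])
  refine le_of_eq_of_le (congrArg _ ?_) key
  ring

/-- the family of one moving level above fixed levels -/
def one (k : Lv Ω) (N : List (Lv Ω)) : List (Lv Ω × ℝ) :=
  (rt k 0, 1) :: N.map fun l => (l, (0 : ℝ))

theorem tl_one (k : Lv Ω) (N : List (Lv Ω)) (t : ℝ) : tl (one k N) t = rt k t :: N := by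
  have := tl_pre N [] t
  simp only [List.append_nil, tl, List.map_nil] at this
  simp only [one, tl, List.map_cons, this]
  simp

theorem Es_one (M : List (Lv Ω)) (k : Lv Ω) (N : List (Lv Ω)) (β : ℝ) (h : Ω → ℝ) :
    Es w M (one k N) β h = pi2 w (M ++ rt k β :: N) (M.length + 1) k.cov h / 2 := by
  unfold Es
  rw [tl_one]
  have e : ∀ f : Fin (one k N).length → ℝ, ∑ i, f i =
      f ⟨0, by simp [one]⟩ + ∑ i : Fin (N.map fun l => (l, (0 : ℝ))).length,
        f ⟨i + 1, by have := i.2; simp only [one, List.length_cons]; omega⟩ := fun f =>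
    Fin.sum_univ_succ (n := (N.map fun l => (l, (0 : ℝ))).length) f
  rw [e, Finset.sum_eq_zero fun i _ => ?_]
  · show 1 / 2 * pi2 w (M ++ rt k β :: N) (M.length + 1) k.cov h + 0 = _
    ring
  · simp [one]

/-- **lift of one level** `k` from the tilt `α` to the tilt `β` -/
theorem lift_one (hw : Wt w) {l k : Lv Ω} {M N : List (Lv Ω)} {h : Ω → ℝ}
    {T : Set (Equiv.Perm Ω)} {x₀ : Ω} {a a' α β W S : ℝ} {J : ℕ}
    (hT : ∀ τ ∈ T, Sym w (l :: M ++ k :: N) h τ) (htr : ∀ y, w y ≠ 0 → ∃ τ ∈ T, τ x₀ = y)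
    (ha : 0 < a) (haa : a ≤ a') (hα : a' < α) (hαβ : α ≤ β) (hJ : β - a' ≤ 2 ^ J * (α - a'))
    (hM : Mono a' (M ++ rt k α :: N)) (hN : Mono β N)
    (hW : ∀ t ∈ Icc α β, Wd w l (M ++ rt k t :: N) h a a' ≤ W)
    (hS : ∀ s ∈ Icc a a', pi2 w (rt l s :: M ++ rt k β :: N) (M.length + 2) k.cov h ≤ 2 * S) :
    |X w (rt l a' :: M ++ rt k β :: N) h - X w (rt l a :: M ++ rt k β :: N) h -
      (X w (rt l a' :: M ++ rt k α :: N) h - X w (rt l a :: M ++ rt k α :: N) h)| ≤
      J * √(6 * (a' - a) * W * S) := by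
  have hα0 : 0 < α := (ha.trans_le haa).trans hα
  have mono : ∀ t ∈ Icc α β, ∀ (M : List (Lv Ω)) (m0 : ℝ), Mono m0 (M ++ rt k α :: N) →
      Mono m0 (M ++ rt k t :: N) := fun t ht M => by
    induction M with
    | nil => exact fun m0 h => ⟨h.1.trans ht.1, mono_le hN ht.2⟩
    | cons j M ih => exact fun m0 h => ⟨h.1, ih _ h.2⟩
  have := lift hw (l := l) (M := M) (L := one k N) (h := h) (T := T) (x₀ := x₀) (W := W) (S := S)
    (fun τ hτ => ⟨(hT τ hτ).w, (hT τ hτ).h, fun j hj => by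
      rcases List.mem_append.1 hj with hj | hj
      · exact (hT τ hτ).cov j (List.mem_append_left _ hj)
      · obtain ⟨p, hp, rfl⟩ := List.mem_map.1 hj
        rcases List.mem_cons.1 hp with rfl | hp
        · exact (hT τ hτ).cov k (by simp)
        · obtain ⟨j, hj', rfl⟩ := List.mem_map.1 hp
          exact (hT τ hτ).cov j (List.mem_append_right _ (List.mem_cons_of_mem _ hj'))⟩)
    htr ha haa hα hαβ hJ (fun p hp => by
      rcases List.mem_cons.1 hp with rfl | hp
      · exact ⟨le_rfl, zero_le_one, by simpa using hα0⟩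
      · obtain ⟨j, hj, rfl⟩ := List.mem_map.1 hp
        have := (Ann56.mono_mem hN j hj).1
        exact ⟨by linarith, le_rfl, by simp; linarith⟩)
    (fun t ht => by rw [tl_one]; exact mono t ht M _ hM)
    (fun t _ => by rw [tl_one]; exact le_rfl)
    (fun t ht => by rw [tl_one]; exact hW t ht)
    (fun s hs => by
      rw [Es_one]
      have := hS s hs
      simp only [List.length_cons, List.cons_append] at this ⊢
      linarith)
  simpa only [tl_one] using this

/-- **a slice of the root level is lifted to the tilt `β`**: absolute cost up to the tilt `x`,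
transfer cost above -/
theorem lift_slice (hw : Wt w) {l : Lv Ω} {N : List (Lv Ω)} {h : Ω → ℝ}
    {T : Set (Equiv.Perm Ω)} {x₀ : Ω} {a a' x β τ W S : ℝ} {J : ℕ} (m : ℝ)
    (hT : ∀ σ ∈ T, Sym w (l :: N) h σ) (htr : ∀ y, w y ≠ 0 → ∃ σ ∈ T, σ x₀ = y)
    (h0 : 0 ≤ τ) (h1 : τ ≤ 1) (ha : 0 < a) (haa : a ≤ a') (hx : a' < x) (hxβ : x ≤ β)
    (hJ : β - a' ≤ 2 ^ J * (x - a')) (hN : Mono β N)
    (hW : ∀ t ∈ Icc x β, Wd w (lv l (1 - τ) m) (lv l τ t :: N) h a a' ≤ W)
    (hS : ∀ s ∈ Icc a a', τ * pi2 w (lv l (1 - τ) s :: lv l τ β :: N) 2 l.cov h ≤ 2 * S) :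
    |X w (lv l (1 - τ) a' :: lv l τ β :: N) h - X w (lv l (1 - τ) a :: lv l τ β :: N) h -
      (X w (rt l a' :: N) h - X w (rt l a :: N) h)| ≤ x * S + J * √(6 * (a' - a) * W * S) := by
  have hcov : (lv l τ 0).cov = fun y y' => τ * l.cov y y' := by
    funext y y'; exact Gir68.lv_cov l h0 0 y y'
  have hS' : ∀ s ∈ Icc a a', pi2 w (lv l (1 - τ) s :: lv l τ β :: N) 2 (lv l τ 0).cov h ≤ 2 * S :=
    fun s hs => by rw [hcov, pi2_const_mul]; exact hS s hs
  have k1 := lift_one hw (l := lv l (1 - τ) m) (k := lv l τ 0) (M := []) (N := N) (h := h) (T := T)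
    (x₀ := x₀) (W := W) (S := S) (fun σ hσ => ⟨(hT σ hσ).w, (hT σ hσ).h, fun j hj y y' => by
      simp only [List.nil_append, List.cons_append, List.mem_cons] at hj
      rcases hj with rfl | rfl | hj
      · rw [Gir68.lv_cov l (sub_nonneg.2 h1), Gir68.lv_cov l (sub_nonneg.2 h1),
          (hT σ hσ).cov l (by simp)]
      · rw [Gir68.lv_cov l h0, Gir68.lv_cov l h0, (hT σ hσ).cov l (by simp)]
      · exact (hT σ hσ).cov j (by simp [hj]) y y'⟩)
    htr ha haa hx hxβ hJ ⟨hx.le, mono_le hN hxβ⟩ hN hW hS'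
  have key : ∀ s ∈ Icc a a', X w (rt l s :: N) h ≤ X w (lv l (1 - τ) s :: lv l τ x :: N) h ∧
      X w (lv l (1 - τ) s :: lv l τ x :: N) h - X w (rt l s :: N) h ≤ x * S := by
    intro s hs
    have s0 : 0 < s := ha.trans_le hs.1
    have sx : s ≤ x := hs.2.trans hx.le
    have e : X w (rt l s :: N) = X w (lv l (1 - τ) s :: lv l τ s :: N) :=
      C.X_split hw (l := rt l s) (l1 := lv l (1 - τ) s) (l2 := lv l τ s) rfl rfl
        (fun y y' => by
        show l.cov y y' = (lv l (1 - τ) s).cov y y' + (lv l τ s).cov y y'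
        rw [Gir68.lv_cov l h0, Gir68.lv_cov l (sub_nonneg.2 h1)]; ring) N
    have b := slope_le hw (α := s) (β := β) s0 (M := [lv l (1 - τ) s]) (L := one (lv l τ 0) N)
      (fun k hk => by rw [List.mem_singleton.1 hk]; exact s0.le) (fun p hp => by
        rcases List.mem_cons.1 hp with rfl | hp
        · exact ⟨le_rfl, zero_le_one, by simpa using s0⟩
        · obtain ⟨j, hj, rfl⟩ := List.mem_map.1 hp
          have := (Ann56.mono_mem hN j hj).1
          exact ⟨by linarith, le_rfl, by simp; linarith⟩) h (t := s) (t' := x)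
      ⟨le_rfl, sx.trans hxβ⟩ ⟨sx, hxβ⟩ sx
    rw [Es_one, tl_one, tl_one] at b
    have p0 := Kkt28.pi2_cov_nonneg (w := w) (lv l (1 - τ) s :: lv l τ β :: N) 2 (lv l τ 0) h
    have p1 := hS' s hs
    rw [e]
    refine ⟨b.1, b.2.trans ?_⟩
    show pi2 w (lv l (1 - τ) s :: lv l τ β :: N) 2 (lv l τ 0).cov h / 2 * (x - s) ≤ x * S
    nlinarith
  have k2 := key a ⟨le_rfl, haa⟩
  have k3 := key a' ⟨haa, le_rfl⟩
  have k4 := abs_le.1 k1
  simp only [List.nil_append, List.cons_append] at k4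
  have q1 : X w (rt (lv l (1 - τ) m) a' :: rt (lv l τ 0) β :: N) h =
    X w (lv l (1 - τ) a' :: lv l τ β :: N) h := rfl
  have q2 : X w (rt (lv l (1 - τ) m) a :: rt (lv l τ 0) β :: N) h =
    X w (lv l (1 - τ) a :: lv l τ β :: N) h := rfl
  have q3 : X w (rt (lv l (1 - τ) m) a' :: rt (lv l τ 0) x :: N) h =
    X w (lv l (1 - τ) a' :: lv l τ x :: N) h := rfl
  have q4 : X w (rt (lv l (1 - τ) m) a :: rt (lv l τ 0) x :: N) h =
    X w (lv l (1 - τ) a :: lv l τ x :: N) h := rfl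
  rw [q1, q2, q3, q4] at k4
  rw [abs_le]
  constructor <;> linarith [k2.1, k2.2, k3.1, k3.2, k4.1, k4.2]

end Crest.Agent.T156.Cas.Lift72

end
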