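import Crest.Agent.T156.Mov_21
import Crest.Agent.T156.CaItp_16
import Crest.Agent.T156.CaLaw_45

/-!
# Row 156: linear covariance paths and the `B` term (helper23)

`LP`: a bulk level `l` glued with `√t k₁` and `√(1-t) k₀`, covariance `l + t k₁ + (1-t) k₀`.
`lin_der`, `lin_ftc`: the value along the path; `lin_TE_der`, `lin_cmp`: the law of the leaves.
`bT`: the `B` term (constant kernels switched off).
-/

set_option autoImplicit false
set_option linter.unusedSectionVars false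

noncomputable section

namespace Crest.Agent.T156.Cas

open MeasureTheory Real Set Filter Topology
open Crest.Agent.T157.E Crest.Agent.T157.Casc Crest.Agent.T157.SL

/-- bulk level (it carries the tilt), kernel switched on, kernel switched off -/
structure LP (Ω : Type) where
  l : Lv Ω
  k₁ : Lv Ω
  k₀ : Lv Ω

variable {Ω : Type}

/-- the glued level with its derivative -/
def LP.tl (p : LP Ω) : TL Ω :=
  ⟨p.l.ι ⊕ p.k₁.ι ⊕ p.k₀.ι,
    fun t x => Sum.elim (p.l.A x)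
      (Sum.elim (fun i => √t * p.k₁.A x i) fun i => √(1 - t) * p.k₀.A x i),
    fun t x => Sum.elim (fun _ => 0) (Sum.elim (fun i => 1 / (2 * √t) * p.k₁.A x i)
      fun i => -1 / (2 * √(1 - t)) * p.k₀.A x i), p.l.m⟩

/-- the cascade at time `t` -/
def lpt (L : List (LP Ω)) (t : ℝ) : List (Lv Ω) := atL (L.map LP.tl) t

/-- derivative of the accumulated covariance -/
def Dk (L : List (LP Ω)) (j : ℕ) (x y : Ω) : ℝ :=
  ((L.take j).map fun p => p.k₁.cov x y - p.k₀.cov x y).sum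

/-- the bulk -/
def lpB (L : List (LP Ω)) : List (Lv Ω) := L.map LP.l

/-- the `B` term: kernels `k` switched on, constant kernels `v` switched off -/
def bT (T : List (Lv Ω × Lv Ω × ℝ)) : List (LP Ω) :=
  T.map fun p => ⟨p.1, p.2.1, cLv Ω p.2.2 0⟩

namespace Lin23

theorem c1 (p : LP Ω) : p.tl.C1 (Ioo 0 1) := by
  refine ⟨fun t ht x i => ?_, fun x i => ?_⟩
  · rcases i with i | i | i
    · exact hasDerivAt_const _ _
    · exact (hasDerivAt_sqrt ht.1.ne').mul_const _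
    · exact (((hasDerivAt_id t).const_sub 1).sqrt (sub_pos.2 ht.2).ne').mul_const _
  · rcases i with i | i | i
    · exact continuousOn_const
    · exact (continuousOn_const.div (by fun_prop) fun t ht => by
        have := sqrt_pos.2 ht.1; positivity).mul continuousOn_const
    · exact (continuousOn_const.div (by fun_prop) fun t ht => by
        have := sqrt_pos.2 (sub_pos.2 ht.2); positivity).mul continuousOn_const

theorem cont (p : LP Ω) (x : Ω) (i : p.tl.ι) : Continuous fun t => p.tl.A t x i := by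
  rcases i with i | i | i
  · exact continuous_const
  · exact continuous_sqrt.mul continuous_const
  · exact (continuous_const.sub continuous_id).sqrt.mul continuous_const

theorem c1L (L : List (LP Ω)) : ∀ k ∈ L.map LP.tl, k.C1 (Ioo 0 1) := fun k hk => by
  obtain ⟨p, -, rfl⟩ := List.mem_map.1 hk
  exact c1 p

theorem cov_at (p : LP Ω) {t : ℝ} (ht : t ∈ Icc (0 : ℝ) 1) (x y : Ω) :
    (p.tl.at t).cov x y = p.l.cov x y + t * p.k₁.cov x y + (1 - t) * p.k₀.cov x y := by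
  show ∑ i : p.l.ι ⊕ p.k₁.ι ⊕ p.k₀.ι, p.tl.A t x i * p.tl.A t y i = _
  simp only [Fintype.sum_sum_type, LP.tl, Sum.elim_inl, Sum.elim_inr, Lv.cov, Finset.mul_sum,
    mul_mul_mul_comm (√_), mul_self_sqrt ht.1, mul_self_sqrt (sub_nonneg.2 ht.2), add_assoc]

theorem S_at (p : LP Ω) {t : ℝ} (ht : t ∈ Ioo (0 : ℝ) 1) (x y : Ω) :
    p.tl.S t x y = 1 / 2 * (p.k₁.cov x y - p.k₀.cov x y) := by
  show ∑ i : p.l.ι ⊕ p.k₁.ι ⊕ p.k₀.ι, p.tl.A' t x i * p.tl.A t y i = _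
  have h1 := (sqrt_pos.2 ht.1).ne'
  have h2 := (sqrt_pos.2 (sub_pos.2 ht.2)).ne'
  simp only [Fintype.sum_sum_type, LP.tl, Sum.elim_inl, Sum.elim_inr, Lv.cov, zero_mul,
    Finset.sum_const_zero, zero_add]
  rw [mul_sub, Finset.mul_sum, Finset.mul_sum, sub_eq_add_neg (Finset.sum _ _),
    ← Finset.sum_neg_distrib]
  congr 1 <;> refine Finset.sum_congr rfl fun i _ => ?_ <;> field_simp

theorem Dk_zero (L : List (LP Ω)) (x y : Ω) : Dk L 0 x y = 0 := by simp [Dk]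

theorem Dk_nil (j : ℕ) (x y : Ω) : Dk ([] : List (LP Ω)) j x y = 0 := by simp [Dk]

theorem Dk_cons (p : LP Ω) (L : List (LP Ω)) (j : ℕ) (x y : Ω) :
    Dk (p :: L) (j + 1) x y = p.k₁.cov x y - p.k₀.cov x y + Dk L j x y := by simp [Dk]

theorem cov_symm (l : Lv Ω) (x y : Ω) : l.cov x y = l.cov y x :=
  Finset.sum_congr rfl fun _ _ => mul_comm _ _

theorem Dk_symm (L : List (LP Ω)) (j : ℕ) (x y : Ω) : Dk L j x y = Dk L j y x := by
  simp only [Dk, cov_symm _ x y]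

theorem Dk_eq (L : List (LP Ω)) (j : ℕ) (x y : Ω) :
    Dk L j x y = cacc (L.map LP.k₁) j x y - cacc (L.map LP.k₀) j x y := by
  induction L generalizing j with
  | nil => simp [Dk, cacc]
  | cons p L ih =>
    cases j with
    | zero => simp [Dk, cacc]
    | succ j =>
      rw [Dk_cons, ih, List.map_cons, List.map_cons, Sd.cacc_cons, Sd.cacc_cons]
      ring

theorem Sacc_eq {t : ℝ} (ht : t ∈ Ioo (0 : ℝ) 1) (x y : Ω) : ∀ (L : List (LP Ω)) (j : ℕ),
    Sacc (L.map LP.tl) t j x y = 1 / 2 * Dk L j x y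
  | [], j => by simp [Sacc, Dk]
  | _ :: _, 0 => by simp [Sacc, Dk]
  | p :: L, j + 1 => by
    have e1 : Sacc ((p :: L).map LP.tl) t (j + 1) x y =
        p.tl.S t x y + Sacc (L.map LP.tl) t j x y := by simp [Sacc]
    rw [e1, Sacc_eq ht x y L j, Dk_cons, S_at p ht]
    ring

theorem lpt_cons (p : LP Ω) (L : List (LP Ω)) (t : ℝ) : lpt (p :: L) t = p.tl.at t :: lpt L t := rfl

theorem lpt_length (L : List (LP Ω)) (t : ℝ) : (lpt L t).length = L.length := by simp [lpt, atL]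

theorem ex_lpt (L : List (LP Ω)) (t : ℝ) (j : ℕ) : ex (lpt L t) j = ex (lpB L) j := by
  simp only [ex, lpt, atL, lpB, List.getElem?_map]
  cases L[j]? <;> rfl

theorem dm_lpt (L : List (LP Ω)) (t m0 : ℝ) (j : ℕ) : dm (lpt L t) m0 j = dm (lpB L) m0 j := by
  cases j <;> simp only [dm, exP, ex_lpt]

theorem mono_lpt (t : ℝ) : ∀ (L : List (LP Ω)) (m0 : ℝ), Mono m0 (lpt L t) ↔ Mono m0 (lpB L)
  | [], _ => Iff.rfl
  | p :: L, _ => and_congr Iff.rfl (mono_lpt t L p.l.m)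

theorem cacc_lpt {t : ℝ} (ht : t ∈ Icc (0 : ℝ) 1) (x y : Ω) : ∀ (L : List (LP Ω)) (j : ℕ),
    cacc (lpt L t) j x y = cacc (lpB L) j x y + cacc (L.map LP.k₀) j x y + t * Dk L j x y
  | [], j => by simp [lpt, atL, lpB, cacc, Dk]
  | _ :: _, 0 => by simp [cacc, Dk]
  | p :: L, j + 1 => by
    rw [lpt_cons, lpB, List.map_cons, List.map_cons, Sd.cacc_cons, Sd.cacc_cons, Sd.cacc_cons,
      cacc_lpt ht x y L j, Dk_cons, cov_at p ht, lpB]
    ring

/-- any realisation of the covariance `l + t k₁ + (1-t) k₀` -/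
theorem same_lpt {t : ℝ} (ht : t ∈ Icc (0 : ℝ) 1) {L : List (LP Ω)} {M : List (Lv Ω)}
    (H : List.Forall₂ (fun (p : LP Ω) (l : Lv Ω) => l.m = p.l.m ∧ ∀ x y,
      l.cov x y = p.l.cov x y + t * p.k₁.cov x y + (1 - t) * p.k₀.cov x y) L M) :
    List.Forall₂ C.Same (lpt L t) M := by
  induction H with
  | nil => exact .nil
  | cons h _ ih => exact .cons ⟨h.1.symm, by funext x y; rw [cov_at _ ht, h.2]⟩ ih

variable [Fintype Ω] {w : Ω → ℝ}

theorem okCL (L : List (LP Ω)) {K : Set ℝ} (hK : IsCompact K) : ∀ k ∈ L.map LP.tl, k.OkC K :=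
  fun k hk => by
    obtain ⟨p, -, rfl⟩ := List.mem_map.1 hk
    exact TL.okC_of_compact hK fun x i => (cont p x i).continuousOn

/-! ### a bound for the score -/

theorem abs_tX_le (hw : Wt w) (s : Sh) (L : List (Lv Ω)) (h : Ω → ℝ)
    {G G' : (NT s L → ℝ) → (s.Lf → Ω) → ℝ} (hG : ∀ x, Eg fun g => G' g x)
    (e : ∀ g x, |G g x| ≤ G' g x) : |tX w s L h G| ≤ tX w s L h G' := by
  rw [tX, ← Real.norm_eq_abs]
  refine norm_integral_le_of_norm_le (Tr.eg_int (Tr.eg_sumT hw s L h hG)) (.of_forall fun g => ?_)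
  refine (Finset.abs_sum_le_sum_abs _ _).trans (Finset.sum_le_sum fun x _ => ?_)
  rw [abs_mul, abs_of_nonneg (Tr.denT_nonneg hw s L h g x)]
  exact mul_le_mul_of_nonneg_left (e g x) (Tr.denT_nonneg hw s L h g x)

theorem abs_Pf_le (hw : Wt w) (L : List (Lv Ω)) (z : Ω → ℝ) {f : Ω → ℝ} {κ : ℝ}
    (hf : ∀ y, |f y| ≤ κ) : |Pf w L z f| ≤ κ := by
  refine (Finset.abs_sum_le_sum_abs _ _).trans ((Finset.sum_le_sum (g := fun y => P w L z y * κ)
    fun y _ => ?_).trans_eq (by rw [← Finset.sum_mul, sum_P hw, one_mul]))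
  rw [abs_mul, abs_of_nonneg (P_nonneg hw L z y)]
  exact mul_le_mul_of_nonneg_left (hf y) (P_nonneg hw L z y)

theorem mono_weak : ∀ {L : List (Lv Ω)} {m m' : ℝ}, m' ≤ m → Mono m L → Mono m' L
  | [], _, _, h, h' => h.trans h'
  | _ :: _, _, _, h, h' => ⟨h.trans h'.1, h'.2⟩

theorem mono_drop : ∀ (j : ℕ) {L : List (Lv Ω)}, Mono 0 L → Mono 0 (L.drop j)
  | 0, _, h => h
  | _ + 1, [], h => h
  | j + 1, _ :: _, h => mono_drop j (mono_weak h.1 h.2)

theorem ex_nonneg {L : List (Lv Ω)} (h : Mono 0 L) : 0 ≤ ex L 0 := by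
  simpa [dm, exP] using dm_nonneg h 0

theorem abs_pair_le (hw : Wt w) {L : List (Lv Ω)} (hL : Mono 0 L) (z : Ω → ℝ)
    {K : ℕ → Ω → Ω → ℝ} {κ : ℝ} (hK : ∀ j y y', |K j y y'| ≤ κ) : |pair w L 0 K z| ≤ κ := by
  have h1 := pair_mono hw hL (K := K) (K' := fun _ _ _ => κ) (fun j _ y y' => (abs_le.1 (hK j y y')).2) z
  have h2 := pair_mono hw hL (K := fun _ _ _ => -κ) (K' := K)
    (fun j _ y y' => (abs_le.1 (hK j y y')).1) z
  rw [pair_const hw, ← Finset.sum_mul, sum_dm, ex_length] at h1 h2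
  exact abs_le.2 ⟨by linarith, by linarith⟩

theorem abs_cf_le (s : Sh) {L : List (Lv Ω)} (hL : Mono 0 L) {G : s.Lf → ℕ → ℝ} {κ : ℝ}
    (hG : ∀ a j, |G a j| ≤ κ) :
    |∑ a, ∑ j ∈ Finset.range (L.length + 1), cf s L a j * G a j| ≤
      (Fintype.card s.Lf - s.br * ex L 0) * κ := by
  rw [← sum_cf, Finset.sum_mul]
  refine (Finset.abs_sum_le_sum_abs _ _).trans (Finset.sum_le_sum fun a _ => ?_)
  rw [Finset.sum_mul]
  refine (Finset.abs_sum_le_sum_abs _ _).trans (Finset.sum_le_sum fun j _ => ?_)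
  rw [abs_mul, abs_of_nonneg (cf_nonneg s L 0 le_rfl hL a j)]
  exact mul_le_mul_of_nonneg_left (hG a j) (cf_nonneg s L 0 le_rfl hL a j)

theorem abs_DP_le (hw : Wt w) (s : Sh) {L : List (Lv Ω)} (hL : Mono 0 L) (x : s.Lf → Ω)
    (p : Pa s.Lf Ω) {q : Pa s.Lf Ω} {κ : ℝ} (hq : ∀ a j y, |q a j y| ≤ κ) :
    |DP w s L x p q| ≤ 2 * Fintype.card s.Lf * κ := by
  have h1 := abs_cf_le s hL fun a j => abs_Pf_le hw (L.drop j) (p a j) (hq a j)
  have h2 : |∑ a, q a L.length (x a)| ≤ Fintype.card s.Lf * κ :=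
    (Finset.abs_sum_le_sum_abs _ _).trans ((Finset.sum_le_sum fun a _ => hq a _ _).trans_eq (by simp))
  have h3 := (abs_nonneg _).trans (hq s.fst 0 (x s.fst))
  have h4 := mul_nonneg (mul_nonneg (Nat.cast_nonneg s.br) (ex_nonneg hL)) h3
  exact (abs_sub _ _).trans (by linarith)

theorem abs_ND_le (hw : Wt w) {L : List (Lv Ω)} (hL : Mono 0 L) {S : ℕ → Ω → Ω → ℝ} {κ : ℝ}
    (hS : ∀ j y y', |S j y y'| ≤ κ) (j : ℕ) (z : Ω → ℝ) : |ND w L S j z| ≤ 2 * κ := by
  have h1 := abs_Pf_le hw (L.drop j) z fun y => hS L.length y y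
  have h2 := abs_pair_le hw (mono_drop j hL) z fun k => hS (j + k)
  exact (abs_sub _ _).trans (by linarith)

theorem abs_Th_le (hw : Wt w) (s : Sh) {L : List (Lv Ω)} (hL : Mono 0 L) {S : ℕ → Ω → Ω → ℝ}
    {κ : ℝ} (hS : ∀ j y y', |S j y y'| ≤ κ) (h : Ω → ℝ) (x : s.Lf → Ω) (p : Pa s.Lf Ω) :
    |Th w s L S h x p| ≤ (4 * Fintype.card s.Lf ^ 2 + 2 * Fintype.card s.Lf) * κ := by
  have h1 : |DD w s L x p fun a j y b k y' => S (s.shr a b (min j k)) y y'| ≤ _ :=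
    abs_DP_le hw s hL x p fun a j y => abs_DP_le hw s hL x p fun b k y' => hS _ y y'
  have h2 := abs_cf_le s hL fun a j => abs_ND_le hw hL hS j (p a j)
  have h3 := mul_le_mul_of_nonneg_left (abs_ND_le hw hL hS 0 h)
    (mul_nonneg (Nat.cast_nonneg s.br) (ex_nonneg hL))
  rw [← abs_of_nonneg (mul_nonneg (Nat.cast_nonneg s.br) (ex_nonneg hL)), ← abs_mul,
    abs_of_nonneg (mul_nonneg (Nat.cast_nonneg s.br) (ex_nonneg hL))] at h3
  refine (abs_sub _ _).trans ((add_le_add (abs_sub _ _) le_rfl).trans ?_)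
  linarith

/-- two-sided Gronwall inequality on `[0, 1]` -/
theorem gron {f f' : ℝ → ℝ} {c : ℝ} (hc : ContinuousOn f (Icc 0 1))
    (hd : ∀ t ∈ Ioo (0 : ℝ) 1, HasDerivAt f (f' t) t) (hb : ∀ t ∈ Ioo (0 : ℝ) 1, |f' t| ≤ c * f t)
    {t u : ℝ} (ht : t ∈ Icc (0 : ℝ) 1) (hu : u ∈ Icc (0 : ℝ) 1) : f t ≤ exp (c * |t - u|) * f u := by
  have key : ∀ ε : ℝ, (∀ t ∈ Ioo (0 : ℝ) 1, 0 ≤ ε * f' t + c * f t) → ε = 1 ∨ ε = -1 →
      MonotoneOn (fun t => ε * (f t * exp (ε * c * t))) (Icc 0 1) := fun ε h he => by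
    have d : ∀ t ∈ Ioo (0 : ℝ) 1, HasDerivAt (fun t => ε * (f t * exp (ε * c * t)))
        (ε * (f' t * exp (ε * c * t) + f t * (exp (ε * c * t) * (ε * c * 1)))) t := fun t ht =>
      ((hd t ht).mul ((hasDerivAt_id t).const_mul _).exp).const_mul _
    refine monotoneOn_of_deriv_nonneg (convex_Icc 0 1)
      (continuousOn_const.mul (hc.mul (by fun_prop)))
      (fun t ht => (d t (by simpa using ht)).differentiableAt.differentiableWithinAt) fun t ht => ?_
    rw [interior_Icc] at ht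
    rw [(d t ht).deriv]
    have := mul_nonneg (h t ht) (exp_pos (ε * c * t)).le
    rcases he with rfl | rfl <;> linarith
  rcases le_total t u with h | h
  · have := key 1 (fun t ht => by linarith [(abs_le.1 (hb t ht)).1]) (.inl rfl) ht hu h
    rw [abs_of_nonpos (sub_nonpos.2 h), neg_sub, mul_sub, exp_sub, div_mul_eq_mul_div,
      le_div_iff₀ (exp_pos _)]
    simp only [one_mul] at this
    linarith
  · have := key (-1) (fun t ht => by linarith [(abs_le.1 (hb t ht)).2]) (.inr rfl) hu ht h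
    rw [abs_of_nonneg (sub_nonneg.2 h), mul_sub, sub_eq_neg_add, ← sub_neg_eq_add, exp_sub,
      div_mul_eq_mul_div, le_div_iff₀ (exp_pos _)]
    simp only [neg_mul, one_mul] at this
    linarith

/-! ### the `B` term -/

theorem lpB_bT (T : List (Lv Ω × Lv Ω × ℝ)) : lpB (bT T) = T.map Prod.fst := by
  simp [lpB, bT, Function.comp_def]

theorem Dk_bT {T : List (Lv Ω × Lv Ω × ℝ)} (hT : ∀ p ∈ T, 0 ≤ p.2.2) (j : ℕ) (x y : Ω) :
    Dk (bT T) j x y = cacc (T.map fun p => p.2.1) j x y - ((T.take j).map fun p => p.2.2).sum := by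
  induction T generalizing j with
  | nil => simp [bT, Dk, cacc]
  | cons p T ih =>
    cases j with
    | zero => simp [Dk, cacc]
    | succ j =>
      rw [bT, List.map_cons, Dk_cons, ← bT, ih fun q hq => hT q (List.mem_cons_of_mem p hq),
        List.map_cons, Sd.cacc_cons, Law.cLv_cov (hT p (by simp)), List.take_succ_cons,
        List.map_cons, List.sum_cons]
      ring

theorem sameC_bT {T : List (Lv Ω × Lv Ω × ℝ)} (hT : ∀ p ∈ T, 0 ≤ p.2.2) :
    List.Forall₂ (fun l l' => ∃ c, SameC c l l') (lpt (bT T) 0) (T.map Prod.fst) := by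
  induction T with
  | nil => exact .nil
  | cons p T ih =>
    refine .cons ⟨p.2.2, rfl, fun x y => ?_⟩ (ih fun q hq => hT q (List.mem_cons_of_mem p hq))
    rw [cov_at _ ⟨le_rfl, zero_le_one⟩, Law.cLv_cov (hT p (by simp))]
    ring

end Lin23

open Lin23

variable [Fintype Ω] {w : Ω → ℝ}

/-- derivative of the value along the path -/
def lD (w : Ω → ℝ) (L : List (LP Ω)) (h : Ω → ℝ) (t : ℝ) : ℝ :=
  (Pf w (lpt L t) h (fun x => Dk L L.length x x) -
    ∑ j ∈ Finset.range (L.length + 1), dm (lpB L) 0 j * pi2 w (lpt L t) j (Dk L j) h) / 2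

theorem lin_der (hw : Wt w) (L : List (LP Ω)) {t : ℝ} (ht : t ∈ Ioo (0 : ℝ) 1) (h : Ω → ℝ) :
    HasDerivAt (fun t => X w (lpt L t) h) (lD w L h t) t := by
  have hd := hasDerivAt_X hw isOpen_Ioo (c1L L) ht (b := fun _ => h) (b' := 0)
    fun x => hasDerivAt_const t (h x)
  refine hd.congr_deriv ?_
  have hS : ∀ j, Sacc (L.map LP.tl) t j = fun x y => 1 / 2 * Dk L j x y := fun j => by
    ext x y; exact Sacc_eq ht x y L j
  rw [DX, pair_eq_sum hw, ← lpt, lpt_length, List.length_map, lD, sub_div, Pf, Finset.sum_div,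
    Finset.sum_div]
  congr 1
  · refine Finset.sum_congr rfl fun x _ => ?_
    rw [hS]
    simp only [Pi.zero_apply, zero_add]
    ring
  · refine Finset.sum_congr rfl fun j _ => ?_
    rw [hS, pi2_const_mul, dm_lpt]
    ring

theorem lin_cont (hw : Wt w) (L : List (LP Ω)) (h : Ω → ℝ) :
    ContinuousOn (fun t => X w (lpt L t) h) (Icc 0 1) :=
  continuousOn_X hw (okCL L isCompact_Icc) (b := fun _ => h) fun _ => continuousOn_const

theorem lin_cont_pi2 (hw : Wt w) (L : List (LP Ω)) (j : ℕ) (Q : Ω → Ω → ℝ) (h : Ω → ℝ) :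
    ContinuousOn (fun t => pi2 w (lpt L t) j Q h) (Icc 0 1) :=
  (Var6.eg_pi2P hw Q _ (okCL L isCompact_Icc) j).cont.comp
    (f := fun ρ : ℝ => ((ρ, h) : Pt Ω)) (by fun_prop) fun _ ht => ⟨ht, trivial⟩

open Classical in
theorem lin_cont_P (hw : Wt w) (L : List (LP Ω)) (h : Ω → ℝ) (x : Ω) :
    ContinuousOn (fun t => P w (lpt L t) h x) (Icc 0 1) :=
  (eg_PP hw (okCL L isCompact_Icc) x).cont.comp
    (f := fun ρ : ℝ => ((ρ, h) : Pt Ω)) (by fun_prop) fun _ ht => ⟨ht, trivial⟩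

theorem lD_cont (hw : Wt w) (L : List (LP Ω)) (h : Ω → ℝ) : ContinuousOn (lD w L h) (Icc 0 1) :=
  ((continuousOn_finsetSum _ fun x _ => (lin_cont_P hw L h x).mul continuousOn_const).sub
    (continuousOn_finsetSum _ fun j _ => continuousOn_const.mul (lin_cont_pi2 hw L j _ h))).div_const 2

theorem lin_ftc (hw : Wt w) (L : List (LP Ω)) (h : Ω → ℝ) {t : ℝ} (ht : t ∈ Icc (0 : ℝ) 1) :
    X w (lpt L t) h - X w (lpt L 0) h = ∫ s in (0 : ℝ)..t, lD w L h s := by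
  have hs : Icc 0 t ⊆ Icc (0 : ℝ) 1 := Icc_subset_Icc_right ht.2
  refine (intervalIntegral.integral_eq_sub_of_hasDerivAt_of_le ht.1 ((lin_cont hw L h).mono hs)
    (fun s hs' => lin_der hw L ⟨hs'.1, hs'.2.trans_le ht.2⟩ h) ?_).symm
  exact (((lD_cont hw L h).mono hs).mono (uIcc_of_le ht.1).le).intervalIntegrable

/-- derivative of the law of the leaves along the path -/
theorem lin_TE_der (hw : Wt w) (s : Sh) (L : List (LP Ω)) (h : Ω → ℝ) (F : (s.Lf → Ω) → ℝ) {t : ℝ}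
    (ht : t ∈ Ioo (0 : ℝ) 1) : HasDerivAt (fun t => TE w s (lpt L t) h F)
      (tX w s (lpt L t) h fun g x => F x *
        Th w s (lpt L t) (fun j y y' => 1 / 2 * Dk L j y y') h x (stT s (lpt L t) h g)) t := by
  have := hasDerivAt_tX_atL hw isOpen_Ioo s (c1L L) h F ht
  rwa [show Sacc (L.map LP.tl) t = fun j y y' => 1 / 2 * Dk L j y y' from by
    funext j y y'; exact Sacc_eq ht y y' L j] at this

theorem lin_TE_cont (hw : Wt w) (s : Sh) (L : List (LP Ω)) (h : Ω → ℝ) (F : (s.Lf → Ω) → ℝ) :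
    ContinuousOn (fun t => TE w s (lpt L t) h F) (Icc 0 1) :=
  continuousOn_tX_atL hw s (okCL L isCompact_Icc) h F

/-- **comparison** of the laws of the leaves at two times (bounded density) -/
theorem lin_cmp (hw : Wt w) (s : Sh) {L : List (LP Ω)} (hL : Mono 0 (lpB L)) {κ : ℝ}
    (hκ : ∀ j y y', |Dk L j y y'| ≤ κ) (h : Ω → ℝ) {F : (s.Lf → Ω) → ℝ} (hF : ∀ x, 0 ≤ F x)
    {t u : ℝ} (ht : t ∈ Icc (0 : ℝ) 1) (hu : u ∈ Icc (0 : ℝ) 1) :
    TE w s (lpt L t) h F ≤ exp ((2 * Fintype.card s.Lf ^ 2 + Fintype.card s.Lf) * κ * |t - u|) *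
      TE w s (lpt L u) h F := by
  refine gron (lin_TE_cont hw s L h F) (fun t ht => lin_TE_der hw s L h F ht) (fun t _ => ?_) ht hu
  rw [TE, ← Sd.tX_const_mul]
  refine abs_tX_le hw s _ h (fun x => Eg.const _) fun g x => ?_
  have := abs_Th_le hw s ((mono_lpt t L 0).2 hL) (S := fun j y y' => 1 / 2 * Dk L j y y')
    (κ := 1 / 2 * κ) (fun j y y' => by
      rw [abs_mul, abs_of_pos one_half_pos]
      exact mul_le_mul_of_nonneg_left (hκ j y y') one_half_pos.le) h x (stT s (lpt L t) h g)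
  rw [abs_mul, abs_of_nonneg (hF x), mul_comm]
  exact mul_le_mul_of_nonneg_right (this.trans_eq (by ring)) (hF x)

/-- the `B` term at `t = 0`: value -/
theorem bT_X0 (hw : Wt w) {T : List (Lv Ω × Lv Ω × ℝ)} (hT : ∀ p ∈ T, 0 ≤ p.2.2) (h : Ω → ℝ) :
    X w (lpt (bT T) 0) h = X w (T.map Prod.fst) h + (T.map fun p => p.1.m * p.2.2 / 2).sum := by
  have := Law.X_sameC hw (T.map fun p =>
    ((LP.tl ⟨p.1, p.2.1, cLv Ω p.2.2 0⟩).at 0, p.1, p.2.2)) (fun q hq => by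
      obtain ⟨p, hp, rfl⟩ := List.mem_map.1 hq
      refine ⟨rfl, fun x y => ?_⟩
      rw [cov_at _ ⟨le_rfl, zero_le_one⟩, Law.cLv_cov (hT p hp)]
      ring) h
  simp only [List.map_map, Function.comp_def] at this
  simp only [List.map_map, Function.comp_def, lpt, atL, bT]
  exact this

/-- the `B` term at `t = 0`: laws -/
theorem bT_TE0 (hw : Wt w) {T : List (Lv Ω × Lv Ω × ℝ)} (hT : ∀ p ∈ T, 0 ≤ p.2.2) (s : Sh)
    (F : (s.Lf → Ω) → ℝ) (h : Ω → ℝ) : TE w s (lpt (bT T) 0) h F = TE w s (T.map Prod.fst) h F :=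
  Law.TE_sameC hw s (sameC_bT hT) F h

theorem bT_pi0 (hw : Wt w) {T : List (Lv Ω × Lv Ω × ℝ)} (hT : ∀ p ∈ T, 0 ≤ p.2.2) (j : ℕ)
    (K : Ω → Ω → ℝ) : pi2 w (lpt (bT T) 0) j K = pi2 w (T.map Prod.fst) j K :=
  Law.pi2_sameC hw (sameC_bT hT) j K

theorem bT_P0 (hw : Wt w) {T : List (Lv Ω × Lv Ω × ℝ)} (hT : ∀ p ∈ T, 0 ≤ p.2.2) :
    P w (lpt (bT T) 0) = P w (T.map Prod.fst) := Law.P_sameC hw (sameC_bT hT)

/-- the `B` term at `t = 1`: any realisation of `l + k` -/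
theorem bT_same1 {T : List (Lv Ω × Lv Ω × ℝ)} {M : List (Lv Ω)}
    (H : List.Forall₂ (fun (p : Lv Ω × Lv Ω × ℝ) (l : Lv Ω) => l.m = p.1.m ∧ ∀ x y,
      l.cov x y = p.1.cov x y + p.2.1.cov x y) T M) : List.Forall₂ C.Same (lpt (bT T) 1) M :=
  same_lpt ⟨zero_le_one, le_rfl⟩ (List.forall₂_map_left_iff.2
    (H.imp fun _ _ h => ⟨h.1, fun x y => by rw [h.2]; ring⟩))

end Crest.Agent.T156.Cas

end
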