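import Crest.Agent.T156.HyB_4

/-!
# Row 156 (helper17): the table of the `LO` pass for `lg θ ≥ -1/6`, linear lines
-/

set_option autoImplicit false
set_option maxHeartbeats 4000000

noncomputable section

namespace Crest.Agent.T156.Alt.Lo17

open Crest.Agent.T156.Alt.Hl4 Crest.Agent.T156.Alt.Ln97

def xi (μ S : ℝ) : ℝ := -(313 / 2000) - 11 / 200 * μ + 103 / 125 * S
def a0 (S : ℝ) : ℝ := -(3 / 20) + 71 / 100 * S
def a1 (μ S : ℝ) : ℝ := -(123 / 1000) - 13 / 200 * μ + S / 4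
def x2 (μ S : ℝ) : ℝ := -(433 / 1000) - 13 / 125 * μ + 371 / 200 * S
def x3 (μ : ℝ) : ℝ := -(53 / 100) - μ / 10
def ga (μ S : ℝ) : ℝ := -(341 / 1000) - 13 / 125 * μ + 11 / 100 * S
def io (μ S : ℝ) : ℝ := -(29 / 125) - 33 / 400 * μ + 309 / 250 * S
def t1 (μ S : ℝ) : ℝ := -(233 / 2000) - 33 / 800 * μ + 309 / 500 * S
def uL (μ : ℝ) : ℝ := -(51 / 100) - 1 / 3 - μ

/-- the range: `μ S` = exponents of `θ s` -/
structure Rg (c η e μ S : ℝ) : Prop where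
  c1 : c ≤ 1 / 100000
  η0 : 0 < η
  η1 : 100 * η ≤ e
  e1 : 100000 * e = c
  μ0 : -(1 / 6) ≤ μ
  μ1 : μ ≤ -(7 * c)
  S0 : 0 ≤ S
  S1 : S ≤ 1 / 19

/-- `al y w` = exponents of `la`, of the a priori top energy, of the next one -/
structure Tp (c η μ S al y w : ℝ) : Prop where
  l0 : -(1 / 3) - c / 2 - μ / 2 ≤ al
  l1 : al ≤ -(1 / 3) - c / 2 - μ / 2 + η
  w0 : 3 / 5 * c + 2 * al ≤ w
  w1 : w ≤ y
  w2 : y - c / 50 ≤ w
  y1 : y ≤ 3 * xi μ S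
  w3 : (S ≤ -μ ∧ -(2 / 3) - μ + 2 * S - c ≤ w) ∨ (-μ - 2 * c ≤ S ∧ -(2 / 3) - 3 * μ - 5 * c ≤ w)

variable {c η e μ S al v uu y w : ℝ} (R : Rg c η e μ S)
include R

theorem lnL : LnL c η μ (S + c / 7 - 1 / 6) e (a0 S) (a1 μ S) (xi μ S) (3 * e) (x2 μ S) (x3 μ)
    (ga μ S) := by
  obtain ⟨c1, η0, η1, e1, μ0, μ1, S0, S1⟩ := R
  unfold a0 a1 xi x2 x3 ga
  refine ⟨⟨by linarith, by linarith⟩, by linarith, by linarith, fun m0 m h0 h => ?_,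
    fun T Y m T0 T1 hY h => ?_, fun T Y m T0 T1 hY h => ?_, fun m h => ?_, fun m h => ?_⟩
  · refine ⟨?_, by linarith, by linarith, by linarith, by linarith, by linarith, ?_, ?_,
      ⟨by linarith, by linarith⟩, ⟨by linarith, by linarith⟩, ⟨by linarith, by linarith⟩, ?_⟩
    · rcases h0.lo with ⟨a, b | b⟩ | ⟨a, b⟩ <;> linarith
    all_goals rcases h.lo with ⟨a, b | b⟩ | ⟨a, b⟩ <;> linarith
  · rcases h.lo with ⟨a, b | b⟩ | ⟨a, b⟩ <;> rcases hY with d | d <;>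
      exact ⟨.inr ⟨by linarith, by linarith⟩, .inr ⟨by linarith, by linarith⟩⟩
  · rcases h.lo with ⟨a, b | b⟩ | ⟨a, b⟩ <;> rcases hY with d | d <;> linarith
  · rcases h.lo with ⟨a, b | b⟩ | ⟨a, b⟩ <;> linarith
  · rcases h.lo with ⟨a, b | b⟩ | ⟨a, b⟩ <;> constructor <;> linarith

theorem e1L : M12 η (3 * e) (xi μ S) (x2 μ S) (x3 μ) (ga μ S) 0 μ (-(9 / 20) - η) := by
  obtain ⟨c1, η0, η1, e1, μ0, μ1, S0, S1⟩ := R
  unfold xi x2 x3 ga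
  constructor <;> linarith

variable (P : Tp c η μ S al y w)
include P

theorem flL : Hy43.FL η e (a0 S) (3 * xi μ S) (3 * (y / 3)) (io μ S) (3 * e) (2 / 5 * μ - e) μ
    al := by
  obtain ⟨c1, η0, η1, e1, μ0, μ1, S0, S1⟩ := R
  obtain ⟨l0, l1, w0, w1, w2, y1, -⟩ := P
  unfold a0 xi io at *
  constructor <;> linarith

theorem ltL : LtL c η μ al (S + c / 7 - 1 / 6) e (a0 S) (a1 μ S) (xi μ S) (3 * e) (x2 μ S) (x3 μ)
    (-(27 / 40)) (ga μ S) (μ + w - 2 * η) 0 (t1 μ S) (2 / 5 * μ) (2 / 5 * μ - e) (μ + w - η)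
    ((μ + w - η - t1 μ S) / 2) := by
  obtain ⟨c1, η0, η1, e1, μ0, μ1, S0, S1⟩ := R
  obtain ⟨l0, l1, w0, w1, w2, y1, w3⟩ := P
  unfold a0 a1 xi x2 x3 ga t1 at *
  refine ⟨by linarith, by linarith, by linarith, by linarith, by linarith, .inl (by linarith),
    fun m h => ?_, fun T m T0 T1 h => ?_, fun T m T0 T1 h => ?_⟩
  · rcases w3 with ⟨d, f⟩ | ⟨d, f⟩ <;> rcases h.lo with ⟨a, b | b⟩ | ⟨a, b⟩ <;>
      refine ⟨?_, by linarith [h.u1, h.u2], by linarith⟩ <;> constructor <;> linarith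
  · rcases w3 with ⟨d, f⟩ | ⟨d, f⟩ <;> rcases h.lo with ⟨a, b | b⟩ | ⟨a, b⟩ <;> constructor <;>
      linarith
  · rcases w3 with ⟨d, f⟩ | ⟨d, f⟩ <;> rcases h.lo with ⟨a, b | b⟩ | ⟨a, b⟩ <;>
      refine ⟨?_, .inl (by linarith), by linarith, by linarith⟩ <;> constructor <;> linarith

theorem elL (hv : v = -(1 / 6) + 3 * c / 4) (u0 : -(5 / 6) - c / 4 - μ ≤ uu)
    (u1 : uu ≤ -(5 / 6) - c / 4 - μ + η) :
    Lq3.EL η e μ al v uu (y / 3) (31 / 100 * μ) (uL μ) (uL μ) 0 (3 * e) (y / 3 - 2 / 3 * al + η)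
      (x2 μ S) (x3 μ) (ga μ S) (io μ S) (-(9 / 20)) (2 / 3 * al) (-(9 / 20)) (μ + w - 2 * η)
      (-(23 / 40) - 41 / 100 * μ) (x3 μ) (uL μ - η) (uL μ - η) (21 / 125 + 31 / 100 * μ)
      (-(29 / 50) - 41 / 100 * μ) η (-(3 / 4)) (-(4 / 5)) 0 (μ + w / 2 - η)
      (μ - xi μ S / 2 - 1 / 1000) (y / 3) (μ + w / 2 - η) (μ - e) := by
  obtain ⟨c1, η0, η1, e1, μ0, μ1, S0, S1⟩ := R
  obtain ⟨l0, l1, w0, w1, w2, y1, w3⟩ := P
  subst hv
  unfold xi x2 x3 ga io uL at *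
  have D : Lq3.LD η (2 / 3 * al) uu (-(51 / 100) - 1 / 3 - μ) (-(51 / 100) - 1 / 3 - μ - η) := by
    constructor <;> linarith
  have q : Lq3.LQ η al (-(1 / 6) + 3 * c / 4) uu (y / 3) (31 / 100 * μ) (21 / 125 + 31 / 100 * μ) :=
    .inr ⟨by linarith, by linarith⟩
  refine ⟨⟨by linarith, by linarith, by linarith, D, ?_⟩, D, ?_, ?_⟩
  · constructor <;> first | exact q | linarith | exact .inl (by linarith)
  · constructor <;> linarith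
  · rcases w3 with ⟨d, f⟩ | ⟨d, f⟩ <;> constructor <;> first
      | exact q | linarith | exact .inr (by linarith)
      | exact .inl ⟨by linarith, by linarith, by linarith, by linarith⟩
      | exact ⟨by linarith, by linarith, .inl le_rfl, by linarith, by linarith, by linarith⟩

/-- **all the lines** -/
theorem hyL (hv : v = -(1 / 6) + 3 * c / 4) (u0 : -(5 / 6) - c / 4 - μ ≤ uu)
    (u1 : uu ≤ -(5 / 6) - c / 4 - μ + η) :
    HyL c η μ al (S + c / 7 - 1 / 6) v uu e (a0 S) (a1 μ S) (xi μ S) (3 * e) (x2 μ S) (x3 μ)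
      (-(27 / 40)) (ga μ S) (μ + w - 2 * η) 0 (t1 μ S) (2 / 5 * μ) (2 / 5 * μ - e) (μ + w - η)
      ((μ + w - η - t1 μ S) / 2) (y / 3) (31 / 100 * μ) (uL μ) (uL μ) 0 (y / 3 - 2 / 3 * al + η)
      (io μ S) (-(9 / 20)) (2 / 3 * al) (-(9 / 20)) :=
  ⟨ltL R P, flL R P, e1L R, ⟨_, _, _, _, _, _, _, _, _, _, _, _, _, _, _, elL R P hv u0 u1⟩⟩

end Crest.Agent.T156.Alt.Lo17

end
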