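import Crest.Agent.T156.LInt_31

/-!
# Row 156, block (L): from the global energy to the location `LO` (helper63)
-/

set_option autoImplicit false

noncomputable section

namespace Crest.Agent.T156.Alt.L31

open MeasureTheory Set Real
open Crest.Agent.R164.GC Crest.Agent.R339.B Crest.Agent.R339.Var Crest.Agent.T157.Pf
open Crest.Agent.T156.Cut8
open Crest.Agent.T156.Alt.Mp9 Crest.Agent.T156.Alt.L69 Crest.Agent.T156.Alt.C74
open Crest.Agent.T156.Alt.L25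

variable {S : Sc} {M : Md} {m : ℕ} {a T B s u u1 En K K' E E' N Z lam : ℝ} {p : Pa}

/-- `lo_T` from the root with two losses -/
theorem lo_T2 (A : At S M m a T) (hC : S.C ≤ B) (hT : T ≤ B) (hθ : S.θ ≤ 1) (K1 : 1 ≤ K)
    (K2 : 1 ≤ K') {l : ℝ} (l0 : 0 < l) (jl : 2 * M.s S.jl ≤ l) (hv : 4 * S.v ≤ l) (ls : l ≤ 2 * s)
    (sJ : s ≤ M.s S.J) (zs : ∀ t < s, lvr 1 (lb M S m a T) t ≤ M.z (S.J - 1))
    (q : QT S M m a T s u K E N Z) (hu : u ≤ K * u1) (u0 : 0 ≤ u) (u10 : 0 ≤ u1)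
    (en : ∫ t in (0 : ℝ)..T, JJ M S m a T t ^ 2 ≤ K' * En)
    (mass : ∫ t in l / 2..s, mf S t * uu M S m a T t ^ 2 ≤ K' * En) (hE : E ≤ K' * En)
    (hZ : Z ≤ K' * En) (hN : N ≤ K' * En) (hW : W0 S l ≤ En)
    (γ3 : (M.s S.Jp - M.s S.J) ^ 3 ≤ En) (v4 : S.v ≤ 1 / (S.n : ℝ) ^ 4) :
    LO (10 ^ 8 * B ^ 12 * (3 * (K * K'))) S M m a l u1 En := by
  have K0 : 0 ≤ K := by linarith
  have m0 := A.cl.ms_pos l0.le
  have w1 : 0 < l ^ 5 := by positivity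
  have w2 : 0 ≤ S.ms l * l ^ 3 := by positivity
  unfold W0 at hW
  have En0 : 0 < En := by linarith
  have kk : K' ≤ K * K' := le_mul_of_one_le_left (by linarith) K1
  have kk' : K ≤ K * K' := le_mul_of_one_le_right K0 K2
  have x0 : 0 ≤ K' * En := by positivity
  have x1 : K' * En ≤ 3 * (K * K') * En := mul_le_mul_of_nonneg_right (by linarith) En0.le
  have x2 : K * (3 * (K' * En)) = 3 * (K * K') * En := by ring
  have x3 : En ≤ K' * En := le_mul_of_one_le_left En0.le K2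
  have B0 : 0 ≤ B := by linarith [A.cl.C1]
  have j0 := A.cl.s_nn S.jl
  have C1 := A.cl.C1
  refine lo_scale A.cl (En := 3 * (K * K') * En) (u1 := u) (K := 3 * (K * K'))
    (lo_of A hC hT hθ (by linarith) u0 fun h => ?_) l0.le (by positivity) (by linarith) le_rfl
    (by positivity) le_rfl En0.le (hu.trans (mul_le_mul_of_nonneg_right (by linarith) u10)) u10
  obtain ⟨Q, q1, q2, q3, q4, q5, q6⟩ := q
  have y1 : K * (Z + N) ≤ 3 * (K * K') * En :=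
    (mul_le_mul_of_nonneg_left (by linarith) K0).trans x2.le
  have r0 : S.C * S.v - uu M S m a T 0 ≤ S.C ^ 2 * (l / 2 - 0) := by
    have u2 := A.cl.lv0
    rw [← A.lvh' le_rfl] at u2
    have u3 := Pp.Ode3.lvr_pos A.okb.1.1 (l := lb M S m a T) 0
    have u4 := mul_le_mul_of_nonneg_left hv (show 0 ≤ S.C by linarith)
    have u5 : S.C * l ≤ S.C ^ 2 * l := mul_le_mul_of_nonneg_right (by nlinarith) l0.le
    unfold uu; linarith
  have l3 : mf S l * l ^ 3 ≤ S.ms l * l ^ 3 :=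
    mul_le_mul_of_nonneg_right (div_le_self m0.le A.cl.F1) (by positivity)
  exact ⟨0, l / 2, s, Q, l, le_rfl, by linarith, by linarith,
    by linarith [A.cl.sm A.cl.i1], by linarith, by linarith, sJ, q1, q2, en.trans x1,
    fun t h0 h1 => room_of A le_rfl (by linarith) r0 h0 h1, mass.trans x1, l0.le,
    fun k _ hk => .inr (.inl (by linarith)), by linarith, by linarith, q4.trans y1, q5.trans y1,
    q6.trans ((mul_le_mul_of_nonneg_left (by linarith) K0).trans x2.le), zs, q3, by linarith,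
    by positivity, h, v4⟩

/-- the mass from the root data -/
theorem mass63 (A : At S M m a T) {A0 D x : ℝ} (lH : LB T (HH M S m a T)) (hA : 0 ≤ A0)
    (As : A0 ≤ s) (sT : s ≤ T) (D1 : lvr 1 (lb M S m a T) A0 ≤ D) (D2 : lvr 1 (lh M T) A0 ≤ D)
    (ms : ∀ t, A0 < t → t < s → mm M S m a t * uu M S m a T t ^ 2 ≤ HH M S m a T t * uu M S m a T t)
    (x0 : 0 ≤ x) (xs : x ≤ s) : ∫ t in x..s, mf S t * uu M S m a T t ^ 2 ≤
      mf S A0 * D ^ 2 * A0 + 384 * S.C ^ 5 * ∫ t in A0..s, HH M S m a T t * uu M S m a T t := by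
  have lu : LB T (uu M S m a T) := A.LB_u
  have lf := (LB.of_mono (T := T) (mf_mono A)).mul lu.sq
  have p1 := int_sub_le lf le_rfl x0 xs le_rfl sT fun t h _ =>
    mul_nonneg (mf_pos' A.cl h.le).le (sq_nonneg _)
  rw [int_split lf (a := 0) (b := A0) (c := s) ⟨le_rfl, by linarith⟩ ⟨hA, by linarith⟩
    ⟨by linarith, sT⟩] at p1
  have p2 := int_le_const lf (K := mf S A0 * D ^ 2) le_rfl hA (by linarith) fun t t1 t2 => by
    refine mul_le_mul (mf_mono A t2.le) (sq_le_sq' ?_ ?_) (sq_nonneg _) (mf_pos' A.cl hA).le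
    · have := Sc48.lvr_mono A.okh.1.1 t2.le
      have := Pp.Ode3.lvr_pos A.okb.1.1 (l := lb M S m a T) t
      unfold uu; linarith
    · have := Sc48.lvr_mono A.okb.1.1 t2.le
      have := Pp.Ode3.lvr_pos A.okh.1.1 (l := lh M T) t
      unfold uu; linarith
  have p3 := mass_mm A hA As sT (int_mono (A.LB_mm.mul lu.sq) (lH.mul lu) hA As sT ms)
  linarith

namespace Hx

variable (H : Hx E lam S M m a p) (h : Cl S M)
include H h

theorem u20 : 0 ≤ p.u2 := by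
  linarith [H.lp.u1a, H.lp.u1b.1, h.last, h.leg.z1 (S.Jp - 1)]

omit H in
theorem cB0 (η : ℝ → ℝ) (t t' : ℝ) : 0 ≤ cB M S η t t' :=
  Finset.sum_nonneg fun k _ => mul_nonneg (L25.dx_nn h k) (add_nonneg
    (mul_nonneg (zero_le_one.trans (le_max_left _ _))
      (div_nonneg (sq_nonneg _) (L25.mf_pos' h (h.s_nn k)).le))
    (le_min (by positivity) (div_nonneg (sq_nonneg _) (L25.mf_pos' h (h.s_nn k)).le)))

omit h in
theorem η0 {t : ℝ} (ht : 0 < t) : 0 ≤ p.η t := by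
  have a1 := H.ln.η2 (t / 2) (by linarith)
  have a2 := H.ln.ηa (show t / 2 ≤ t by linarith)
  rw [show 2 * (t / 2) = t by ring] at a1
  linarith

theorem E1 : 1 ≤ E := (one_le_pow₀ h.F1).trans H.F40

theorem l00 : 0 < p.l0 := by
  have a1 := h.ss 0 (by have := h.i2; omega)
  have a2 := h.sm (h.i0.trans h.i1)
  have a3 : 0 < S.v / S.C := div_pos (v_pos h) (by linarith [h.C1])
  rw [h.s0] at a1
  have a4 : 0 < M.s S.jl := by simp only [zero_add] at a1; linarith [a1.1]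
  exact (mul_pos (by linarith [H.E1 h]) a4).trans_le H.ln.l0s

theorem lp0 : 0 < p.l := (H.l00 h).trans_le H.ln.l0l

theorem l_one : p.l ≤ 1 := (le_mul_of_one_le_left (H.lp0 h).le (H.E1 h)).trans H.ln.l1

theorem X20 : 0 ≤ p.X2 := (mul_nonneg (H.l00 h).le (sq_nonneg _)).trans H.ln.x2a

theorem γ0 : 0 ≤ p.γ := (sub_nonneg.2 (h.sm h.i3)).trans H.lp.γ0

theorem γN : p.γ ^ 3 ≤ p.N := by
  have g0 := H.γ0 h
  have g1 : p.γ ≤ 1 := (le_mul_of_one_le_left g0 (H.E1 h)).trans H.lp.γ1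
  have := H.η0 one_pos
  have := H.X20 h
  have := H.u20 h
  have := h.θ0
  have q : p.γ ^ 3 ≤ p.γ ^ ((15 : ℝ) / 7) := by
    rw [← rpow_natCast]
    exact rpow_le_rpow_of_exponent_ge' g0 g1 (by norm_num) (by norm_num)
  exact q.trans (le_trans (le_add_of_nonneg_left (by positivity)) H.lc.c4)

theorem N0 : 0 ≤ p.N := (pow_nonneg (H.γ0 h) 3).trans (H.γN h)

theorem E_n : E ≤ S.n :=
  ((le_mul_of_one_le_right (by linarith [H.E1 h]) (one_le_pow₀ h.F1)).trans H.ln.Lg0).trans H.ln.Lg1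

theorem n_l : 1 / (S.n : ℝ) ≤ S.ms p.l * p.l ^ 4 := by
  have l0 := H.l00 h
  have m0 := h.ms_pos l0.le
  have n0 : (0 : ℝ) < S.n := by linarith [H.E1 h, H.E_n h]
  have w := H.ln.l0w
  unfold Sc.w3 at w
  rw [div_le_iff₀ (by positivity)] at w
  refine le_trans ?_ (mul_le_mul (h.msm H.ln.l0l) (pow_le_pow_left₀ l0.le H.ln.l0l 4)
    (by positivity) (h.ms_pos (H.lp0 h).le).le)
  rw [div_le_iff₀ n0]
  linarith [h.F1]

theorem n3 : 1 / (S.n : ℝ) ^ 3 ≤ S.ms p.l * p.l ^ 3 := by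
  have l0 := H.lp0 h
  have n1 : (1 : ℝ) ≤ S.n := (H.E1 h).trans (H.E_n h)
  refine (one_div_le_one_div_of_le (by linarith) (le_self_pow₀ n1 three_ne_zero)).trans
    ((H.n_l h).trans (mul_le_mul_of_nonneg_left ?_ (h.ms_pos l0.le).le))
  exact pow_le_pow_of_le_one l0.le (H.l_one h) (by norm_num)

/-- the global energy -/
def Eg (S : Sc) (M : Md) (p : Pa) (X4 : ℝ) : ℝ :=
  p.l ^ 5 + S.ms p.l * p.l ^ 3 + cB M S p.η p.l S.C + p.X2 ^ 2 + X4 + p.N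

theorem Nn_le (X4 : ℝ) : Nn S M p X4 p.l ≤ Eg S M p X4 := by
  unfold Nn Eg
  linarith [H.n3 h, pow_pos (H.lp0 h) 5]

theorem W0_le {X4 : ℝ} (_x4 : 0 ≤ X4) : W0 S p.l + p.X2 ^ 2 + X4 + p.N ≤ Eg S M p X4 ∧
    0 < W0 S p.l := by
  have l0 := H.lp0 h
  have := h.ms_pos l0.le
  unfold W0 Eg
  exact ⟨by linarith [cB0 h p.η p.l S.C], by positivity⟩

theorem v_l (E2 : 2 ≤ E) (hθ : S.θ ≤ 1) (v4 : S.v ≤ 1 / (S.n : ℝ) ^ 4) : 4 * S.v ≤ p.l := by
  have l0 := H.lp0 h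
  have n2 : (2 : ℝ) ≤ S.n := E2.trans (H.E_n h)
  have a1 : S.ms p.l * p.l ^ 4 ≤ 1 * p.l ^ 1 := mul_le_mul ((h.ms1 _).trans hθ)
    (pow_le_pow_of_le_one l0.le (H.l_one h) (by norm_num)) (by positivity) zero_le_one
  have a2 : 4 * (1 / (S.n : ℝ) ^ 4) ≤ 1 / S.n := by
    rw [mul_one_div, div_le_div_iff₀ (by positivity) (by positivity)]
    nlinarith [pow_le_pow_left₀ zero_le_two n2 3]
  linarith [H.n_l h]

end Hx

/-- **the output of (TL1x)** from the global energy -/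
theorem lo63 (H : Hx E lam S M m a p) (A : At S M m a (2 * S.C)) (E2 : 2 ≤ E) (hθ : S.θ ≤ 1)
    (v4 : S.v ≤ 1 / (S.n : ℝ) ^ 4) {X4 A0 D : ℝ} (x4 : 0 ≤ X4) {v : ℕ} (jv : S.jl ≤ v)
    (vJ : v < S.J) (sJ : sb M m a (v + 1) ≤ M.s S.J) (ls : p.l ≤ 2 * sb M m a (v + 1))
    (lH : LB (2 * S.C) (HH M S m a (2 * S.C))) (hA : 0 ≤ A0) (As : A0 ≤ sb M m a (v + 1))
    (D1 : lvr 1 (lb M S m a (2 * S.C)) A0 ≤ D) (D2 : lvr 1 (lh M (2 * S.C)) A0 ≤ D)
    (ms : ∀ t, A0 < t → t < sb M m a (v + 1) → mm M S m a t * uu M S m a (2 * S.C) t ^ 2 ≤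
      HH M S m a (2 * S.C) t * uu M S m a (2 * S.C) t) (K1 : 1 ≤ K) (K2 : 1 ≤ K')
    (q : QT S M m a (2 * S.C) (sb M m a (v + 1)) (K * p.u2) (K * S.F) E'
      (S.F ^ 10 * Nn S M p X4 p.l) Z)
    (en : ∫ t in (0 : ℝ)..2 * S.C, JJ M S m a (2 * S.C) t ^ 2 ≤ K' * S.F ^ 11 * Hx.Eg S M p X4)
    (hH : ∫ t in A0..sb M m a (v + 1), HH M S m a (2 * S.C) t * uu M S m a (2 * S.C) t ≤
      K' * S.F ^ 11 * Hx.Eg S M p X4)
    (hD : mf S A0 * D ^ 2 * A0 ≤ K' * S.F ^ 11 * Hx.Eg S M p X4)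
    (hE : E' ≤ K' * S.F ^ 11 * Hx.Eg S M p X4) (hZ : Z ≤ K' * S.F ^ 11 * Hx.Eg S M p X4)
    {Λ : ℝ} (hΛ : 10 ^ 15 * S.C ^ 17 * (K * K') ≤ Λ) :
    LO (Λ * S.F ^ 12) S M m a p.l p.u2 (Hx.Eg S M p X4) := by
  have h := A.cl
  have C1 := h.C1
  have F1 := h.F1
  have l0 := H.lp0 h
  obtain ⟨w1, w0⟩ := H.W0_le h x4
  have N0 := H.N0 h
  have g0 : 0 ≤ Hx.Eg S M p X4 := by linarith [sq_nonneg p.X2]
  have u0 := H.u20 h
  have c5 : 1 ≤ S.C ^ 5 := one_le_pow₀ C1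
  have f11 : 1 ≤ S.F ^ 11 := one_le_pow₀ F1
  have k1 : 1 ≤ K' * S.F ^ 11 := one_le_mul_of_one_le_of_one_le K2 f11
  have y0 : 0 ≤ K' * S.F ^ 11 * Hx.Eg S M p X4 := by positivity
  have up : K' * S.F ^ 11 * Hx.Eg S M p X4 ≤ 385 * S.C ^ 5 * (K' * S.F ^ 11) * Hx.Eg S M p X4 := by
    nlinarith
  have sT : sb M m a (v + 1) ≤ 2 * S.C := sJ.trans A.sJ_T
  have mq := mass63 A lH hA As sT D1 D2 ms (x := p.l / 2) (by linarith) (by linarith)
  have nn : S.F ^ 10 * Nn S M p X4 p.l ≤ K' * S.F ^ 11 * Hx.Eg S M p X4 :=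
    (mul_le_mul_of_nonneg_left (H.Nn_le h X4) (by positivity)).trans
      (mul_le_mul_of_nonneg_right ((pow_le_pow_right₀ F1 (by norm_num)).trans
        (le_mul_of_one_le_left (by positivity) K2)) g0)
  have jl : 2 * M.s S.jl ≤ p.l := ((mul_le_mul_of_nonneg_right E2 (h.s_nn _)).trans
    H.ln.l0s).trans H.ln.l0l
  have γ3 : (M.s S.Jp - M.s S.J) ^ 3 ≤ Hx.Eg S M p X4 := by
    linarith [pow_le_pow_left₀ (sub_nonneg.2 (h.sm h.i3)) H.lp.γ0 3, H.γN h, sq_nonneg p.X2]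
  have r := lo_T2 (K' := 385 * S.C ^ 5 * (K' * S.F ^ 11)) (B := 2 * S.C) A (by linarith) le_rfl hθ
    (one_le_mul_of_one_le_of_one_le K1 F1) (by nlinarith) l0 jl (H.v_l h E2 hθ v4) ls sJ
    (fun t ht => zs_of A jv vJ ht) q (mul_le_mul_of_nonneg_right
      (le_mul_of_one_le_right (by linarith) F1) u0) (by positivity) u0 (en.trans up)
    (mq.trans (by nlinarith [mul_le_mul_of_nonneg_left hH (show 0 ≤ 384 * S.C ^ 5 by positivity)]))
    (hE.trans up) (hZ.trans up) (nn.trans up) (by linarith [sq_nonneg p.X2]) γ3 v4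
  refine lo_scale h r l0.le (by positivity) le_rfl ?_ g0 (by linarith) g0 (by linarith) u0
  have := mul_le_mul_of_nonneg_right hΛ (show 0 ≤ S.F ^ 12 by positivity)
  have : 0 ≤ S.C ^ 17 * (K * K') * S.F ^ 12 := by positivity
  nlinarith

end Crest.Agent.T156.Alt.L31

end
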