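import Crest.Agent.T156.LtD_29
import Crest.Agent.T156.NRn_44

/-!
# Row 156 (helper58): the sizes `PhN`, `VL`, `uL` in the regime `lg θ ≥ -1/6`
-/

set_option autoImplicit false

noncomputable section

namespace Crest.Agent.T156.Alt.Lo58

open Real

theorem ex_up {s c ε x μ φ : ℝ} (h : Nr44.Ex s c ε x μ φ) (hc : c ≤ 1 / 2000) (hμ : -(1 / 6) ≤ μ) :
    φ ≤ -47 / 100 - 33 / 200 * μ + 247 / 100 * s := by
  obtain ⟨c0, c1, e0, e1, s0, s1, x0, x1, m0, m1, m2, up⟩ := h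
  rcases up with up | up | ⟨up, _, _⟩ | up | ⟨up, _⟩ | up | up | ⟨up, _, _⟩ | ⟨_, up⟩ | up |
    ⟨_, up⟩ <;> linarith

variable {β c0 C0 : ℝ} {A : ℕ} {c η K : ℝ} {p : Pm} {σ t : ℝ} (X : Nr44.Cx β c0 C0 A c η K p σ t)
  (h : -(1 / 6) ≤ logb p.n (p.muG t))
include X h

/-- the exponent of the energy -/
theorem ph : logb p.n (p.PhN t) ≤
    -47 / 100 - 33 / 200 * logb p.n (p.muG t) + 247 / 100 * logb p.n p.s :=
  ex_up (Nr44.ex X.H X.hy) X.hc h

theorem xM : p.xM t = p.muG t * (p.n : ℝ) ^ ((1 : ℝ) / 3) := by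
  have := X.θ0; have := X.H.N0
  refine max_eq_right (X.H.le_of_lg one_pos (by positivity) ?_)
  rw [logb_one, logb_mul X.θ0.ne' (X.H.rp0 _).ne', X.H.lg_rp]; linarith

theorem uL0 : 0 < p.uL t := by
  rw [Pm.uL, xM X h]; exact div_pos (X.H.rp0 _) (mul_pos X.θ0 (X.H.rp0 _))

/-- the exponent of the cut -/
theorem lg_uL : logb p.n (p.uL t) = -51 / 100 - 1 / 3 - logb p.n (p.muG t) := by
  rw [Pm.uL, xM X h, logb_div (X.H.rp0 _).ne' (mul_pos X.θ0 (X.H.rp0 _)).ne',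
    logb_mul X.θ0.ne' (X.H.rp0 _).ne', X.H.lg_rp, X.H.lg_rp]; ring

/-- the exponent of `Vc` -/
theorem lg_Vc : logb p.n (p.Vc (p.mt (p.muG σ))) = -(1 / 6) + 3 * c / 4 := by
  have a := X.lg_θν; have := X.hη; have := X.hc
  rcases X.lg_pl with ⟨_, _, b, _⟩ | ⟨_, _, _, _⟩
  · exact b
  · linarith

/-- the sup bound on the plateau -/
theorem VL_le : p.VL σ t ≤ p.muG t ^ ((31 : ℝ) / 100) := by
  have H := X.H
  have θ0 := X.θ0; have N0 := H.N0; have u0 := uL0 X h; have P0 := X.Ph0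
  have V0 : 0 < p.Vc (p.mt (p.muG σ)) := X.Vc0
  have m1 := (H.lg_muG66 X.Mt).2.1
  have := X.hη; have := X.hc; have := H.c_pos; have s1 := H.lg_s.2
  have k : ∀ y, 0 < y → c / 100 + logb p.n y ≤ 31 / 100 * logb p.n (p.muG t) →
      y ≤ p.muG t ^ ((31 : ℝ) / 100) / p.nc (1 / 100) := fun y y0 hy => by
    refine H.le_of_lg y0 (div_pos (by positivity) (H.rp0 _)) ?_
    rw [Pm.nc, logb_div (by positivity) (H.rp0 _).ne', H.lg_rp, logb_rpow_eq_mul_logb_of_pos θ0, H.hc]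
    linarith
  have w0 : 0 < p.wL t := by rw [Pm.wL]; positivity
  have lw : logb p.n (p.wL t) = -1 - logb p.n (p.muG t) := by
    rw [Pm.wL, logb_div one_ne_zero (by positivity), logb_one, logb_mul N0.ne' θ0.ne', H.lg_n]; ring
  rw [Pm.VL, ← le_div_iff₀' (show 0 < p.nc (1 / 100) from H.rp0 _)]
  refine max_le (max_le (k _ (by positivity) ?_) (k _ (by positivity) ?_))
    (max_le (k _ (by positivity) ?_) (k _ V0 ?_))
  · rw [logb_rpow_eq_mul_logb_of_pos (by positivity), logb_div w0.ne' u0.ne', lw, lg_uL X h]; linarith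
  · rw [sqrt_eq_rpow, logb_rpow_eq_mul_logb_of_pos θ0]; linarith
  · rw [sqrt_eq_rpow, logb_rpow_eq_mul_logb_of_pos P0]; linarith [ph X h]
  · rw [lg_Vc X h]; linarith

/-- **the three facts** -/
theorem lox : logb p.n (p.PhN t) ≤
      -47 / 100 - 33 / 200 * logb p.n (p.muG t) + 247 / 100 * logb p.n p.s ∧
    p.VL σ t ≤ p.muG t ^ ((31 : ℝ) / 100) ∧
    logb p.n (p.uL t) = -51 / 100 - 1 / 3 - logb p.n (p.muG t) :=
  ⟨ph X h, VL_le X h, lg_uL X h⟩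

end Crest.Agent.T156.Alt.Lo58

end
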