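import Crest.Agent.T156.Loc_82

/-!
# Row 156 (helper82): localisation, the instance with the sums `M`, `S`
-/

set_option autoImplicit false

namespace Crest.Agent.T156.Loc

open Real Asymptotics Filter Topology Finset

theorem der_pos (y : ℝ) : HasDerivAt (fun y : ℝ => max y 0 ^ 2 / 2) (max y 0) y := by
  rw [hasDerivAt_iff_isLittleO]
  have h1 : (fun y' : ℝ => max y' 0 ^ 2 / 2 - max y 0 ^ 2 / 2 - (y' - y) • max y 0) =O[𝓝 y]
      fun y' => ‖y' - y‖ ^ 2 := by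
    refine IsBigO.of_bound 1 (Eventually.of_forall fun y' => ?_)
    rw [Real.norm_eq_abs, Real.norm_eq_abs, Real.norm_eq_abs, one_mul, sq_abs,
      abs_of_nonneg (sq_nonneg (y' - y)),
      smul_eq_mul, abs_le]
    rcases le_total y 0 with h | h <;> rcases le_total y' 0 with h' | h' <;>
      simp only [max_eq_left, max_eq_right, h, h'] <;> constructor <;>
      nlinarith [sq_nonneg (y' - y), sq_nonneg y, sq_nonneg y', mul_self_nonneg (y + y')]
  exact h1.trans_isLittleO (isLittleO_pow_sub_sub y (show 1 < 2 by norm_num))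

/-- the potential `W` -/
noncomputable def Wf (K : ℕ) (x r : ℕ → ℝ) (θ T0 N0 : ℝ) (p : ℝ) : ℝ :=
  T0 - N0 * p + x 0 * p ^ 2 / 2 - θ * p ^ 3 / 6 +
    ∑ j ∈ range K, (x (j + 1) - x j) * (max (p - r j) 0 ^ 2 / 2)

/-- its derivative -/
noncomputable def Wd (K : ℕ) (x r : ℕ → ℝ) (θ N0 : ℝ) (p : ℝ) : ℝ :=
  -N0 + x 0 * p - θ * p ^ 2 / 2 + ∑ j ∈ range K, (x (j + 1) - x j) * max (p - r j) 0

theorem sys_W {K : ℕ} {x r : ℕ → ℝ} (θ T0 N0 : ℝ) (mx : ∀ i < K, x i ≤ x (i + 1))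
    (mr : ∀ i < K, r i ≤ r (i + 1)) : Sys K x r θ (Wf K x r θ T0 N0) (Wd K x r θ N0) := by
  have tel : ∀ i, ∑ j ∈ range i, (x (j + 1) - x j) = x i - x 0 := fun i => sum_range_sub x i
  refine ⟨fun p => ?_, mx, mr, fun i a s s' b c => ?_, fun i a s s' b c => ?_⟩
  · have h1 : HasDerivAt (fun p => ∑ j ∈ range K, (x (j + 1) - x j) * (max (p - r j) 0 ^ 2 / 2))
        (∑ j ∈ range K, (x (j + 1) - x j) * max (p - r j) 0) p := by
      refine HasDerivAt.fun_sum fun j _ => HasDerivAt.const_mul _ ?_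
      have : HasDerivAt (fun p => max (p - r j) 0 ^ 2 / 2) (max (p - r j) 0 * 1) p :=
        HasDerivAt.comp p (h₂ := fun y : ℝ => max y 0 ^ 2 / 2) (h := fun p => p - r j)
          (der_pos (p - r j)) ((hasDerivAt_id p).sub_const (r j))
      simpa using this
    have h2 : HasDerivAt (Wf K x r θ T0 N0) _ p :=
      (((((hasDerivAt_id p).const_mul N0).const_sub T0).add
        (((hasDerivAt_pow 2 p).const_mul (x 0)).div_const 2)).sub
        (((hasDerivAt_pow 3 p).const_mul θ).div_const 6)).add h1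
    refine h2.congr_deriv ?_
    rw [show (2 - 1 : ℕ) = 1 from rfl, show (3 - 1 : ℕ) = 2 from rfl]
    simp only [Wd]; push_cast; ring
  · have h1 : ∑ j ∈ range i, (x (j + 1) - x j) * (s' - s) ≤
        ∑ j ∈ range K, (x (j + 1) - x j) * (max (s' - r j) 0 - max (s - r j) 0) := by
      refine le_trans (sum_le_sum fun j hj => ?_)
        (sum_le_sum_of_subset_of_nonneg (range_subset_range.2 a) fun j hj _ => ?_)
      · have hj := mem_range.1 hj
        have : r j ≤ r i := mono_of_succ mr hj.le a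
        rw [max_eq_left (by linarith), max_eq_left (by linarith)]
        exact le_of_eq (by ring)
      · exact mul_nonneg (sub_nonneg.2 (mx j (mem_range.1 hj)))
          (sub_nonneg.2 (max_le_max (by linarith) le_rfl))
    rw [← sum_mul, tel] at h1
    simp only [mul_sub, sum_sub_distrib] at h1
    simp only [Wd]
    linarith
  · have h1 : ∑ j ∈ range K, (x (j + 1) - x j) * (max (s' - r j) 0 - max (s - r j) 0) ≤
        ∑ j ∈ range i, (x (j + 1) - x j) * (s' - s) := by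
      rw [← sum_range_add_sum_Ico _ a]
      have z : ∑ j ∈ Finset.Ico i K, (x (j + 1) - x j) * (max (s' - r j) 0 - max (s - r j) 0) = 0 :=
        sum_eq_zero fun j hj => by
          have hj := Finset.mem_Ico.1 hj
          have : r i ≤ r j := mono_of_succ mr hj.1 hj.2.le
          rw [max_eq_right (by linarith), max_eq_right (by linarith)]; ring
      rw [z, add_zero]
      refine sum_le_sum fun j hj => mul_le_mul_of_nonneg_left ?_
        (sub_nonneg.2 (mx j (lt_of_lt_of_le (mem_range.1 hj) a)))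
      have : max (s' - r j) 0 ≤ max (s - r j) 0 + (s' - s) :=
        max_le (by linarith [le_max_left (s - r j) 0]) (by linarith [le_max_right (s - r j) 0])
      linarith
    rw [← sum_mul, tel] at h1
    simp only [mul_sub, sum_sub_distrib] at h1
    simp only [Wd]
    linarith

theorem sum_cut {K i : ℕ} {r : ℕ → ℝ} (mr : ∀ i < K, r i ≤ r (i + 1)) (a : i ≤ K) (c : ℕ → ℝ)
    (f : ℝ → ℝ) (f0 : f 0 = 0) :
    ∑ j ∈ range K, c j * f (max (r i - r j) 0) = ∑ j ∈ range i, c j * f (r i - r j) := by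
  rw [← sum_range_add_sum_Ico _ a]
  have z : ∑ j ∈ Finset.Ico i K, c j * f (max (r i - r j) 0) = 0 := sum_eq_zero fun j hj => by
    have hj := Finset.mem_Ico.1 hj
    have : r i ≤ r j := mono_of_succ mr hj.1 hj.2.le
    rw [max_eq_right (by linarith), f0, mul_zero]
  rw [z, add_zero]
  refine sum_congr rfl fun j hj => ?_
  have : r j ≤ r i := mono_of_succ mr (mem_range.1 hj).le a
  rw [max_eq_left (by linarith)]

/-- values at the nodes -/
theorem W_node {K : ℕ} {x r N T : ℕ → ℝ} (θ : ℝ) (mr : ∀ i < K, r i ≤ r (i + 1))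
    (hN : ∀ i < K, N (i + 1) = N i + (x (i + 1) - x i) * r i)
    (hT : ∀ i < K, T (i + 1) = T i + (x (i + 1) - x i) * r i ^ 2 / 2) {i : ℕ} (a : i ≤ K) :
    Wf K x r θ (T 0) (N 0) (r i) = T i - N i * r i + x i * r i ^ 2 / 2 - θ * r i ^ 3 / 6 ∧
    Wd K x r θ (N 0) (r i) = -N i + x i * r i - θ * r i ^ 2 / 2 := by
  have key : ∀ k ≤ K, ∀ p : ℝ,
      (T 0 - N 0 * p + x 0 * p ^ 2 / 2 + ∑ j ∈ range k, (x (j + 1) - x j) * ((p - r j) ^ 2 / 2) =
        T k - N k * p + x k * p ^ 2 / 2) ∧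
      -N 0 + x 0 * p + ∑ j ∈ range k, (x (j + 1) - x j) * (p - r j) = -N k + x k * p := by
    intro k
    induction k with
    | zero => intro _ p; simp
    | succ k ih =>
      intro hk p
      obtain ⟨h1, h2⟩ := ih (by omega) p
      rw [sum_range_succ, sum_range_succ, hN k hk, hT k hk]
      constructor <;> linarith
  obtain ⟨h1, h2⟩ := key i a (r i)
  have e1 := sum_cut mr a (fun j => x (j + 1) - x j) (fun y => y ^ 2 / 2) (by norm_num)
  have e2 := sum_cut mr a (fun j => x (j + 1) - x j) (fun y => y) rfl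
  simp only [Wf, Wd]
  constructor <;> linarith

/-- the slope of the scale-invariant branch -/
theorem exists_slope {u κ : ℝ} (hu : 0 < u) (hκ : 0 ≤ κ) (h : 216 * κ * u ^ 2 ≤ 1) :
    ∃ β ∈ Set.Icc (3 * u) (6 * u), 3 * κ * β ^ 3 = β - 3 * u := by
  have hc : ContinuousOn (fun β : ℝ => β - 3 * u - 3 * κ * β ^ 3) (Set.Icc (3 * u) (6 * u)) := by
    fun_prop
  obtain ⟨β, hβ, e⟩ := intermediate_value_Icc (by linarith) hc
    (show (0 : ℝ) ∈ Set.Icc _ _ from ⟨by nlinarith [mul_nonneg hκ (pow_pos hu 3).le], by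
      nlinarith [mul_le_mul_of_nonneg_left h hu.le]⟩)
  exact ⟨β, hβ, by linarith⟩

/-- no large gap, for any field profile with label density `≥ d` -/
theorem gap {K : ℕ} {x q M S h : ℕ → ℝ} {u d ε η : ℝ} (hu : 0 < u) (hd : 0 < d) (hε : 0 ≤ ε)
    (mx : ∀ i < K, x i ≤ x (i + 1)) (mq : ∀ i < K, q i ≤ q (i + 1))
    (hM : ∀ i < K, M (i + 1) = M i + (x (i + 1) - x i) * q i)
    (hS : ∀ i < K, S (i + 1) = S i + (x (i + 1) - x i) * q i ^ 2)
    (hη : ∀ i < K, x (i + 1) - x i ≤ η)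
    (hE : ∀ i ≤ K, |2 * q i * M i + u * q i ^ 3 - x i * q i ^ 2 - S i + h i| ≤ ε)
    (hh : ∀ i j, i ≤ j → j ≤ K → d * (x j - x i) ≤ h j - h i) {i : ℕ} (hi : i < K)
    (hs : h (i + 1) - h i ≤ ε) (r0 : x 0 + 2 * ε / d < x i) (r1 : x (i + 1) + 2 * ε / d < x K) :
    3 * u * (q (i + 1) - q i) < 4 * ε / d + 4 * η ∨ u * (q (i + 1) - q i) ^ 3 ≤ 12 * ε := by
  have e : 2 * (ε / 2) / (d / 2) = 2 * ε / d := by field_simp
  have := gapB (sys_W (3 * u) (S 0 / 2) (M 0) mx mq) (h := fun i => h i / 2) (d := d / 2)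
    (ε := ε / 2) (by linarith) (by linarith) (by linarith) hη
    (fun i a => by
      have := (W_node (T := fun i => S i / 2) (N := M) (3 * u) mq hM
        (fun i a => by rw [hS i a]; ring) a).1
      rw [this]
      have q1 := abs_le.1 (hE i a)
      exact abs_le.2 ⟨by linarith [q1.2], by linarith [q1.1]⟩)
    (fun i j a b => by linarith [hh i j a b]) hi (by linarith) (by rwa [e]) (by rwa [e])
  have e' : 4 * (ε / 2) / (d / 2) = 4 * ε / d := by field_simp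
  rw [e'] at this
  rcases this with h | h
  · exact Or.inl h
  · exact Or.inr (by linarith)

/-- **LOC**.  E1 with marks `κ x³` on a window pins `q` to the line `x = β q` and the mass
`μ = 2 x q - 2 M - 3 u q²` to `3 κ β³ q²`.  Here `k = κ β²/2`, `e = ε β²/2` are the normalised
constants, `σ² = 3 k lo²`, `d' = 3 k hi²`. -/
theorem loc {K : ℕ} {x q M S : ℕ → ℝ} {u κ β ε k e η lo hi σ d' Γ l m : ℝ} (hβ : 0 < β)
    (hβu : 3 * κ * β ^ 3 = β - 3 * u) (hk : k = κ * β ^ 2 / 2) (he : e = ε * β ^ 2 / 2)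
    (mx : ∀ i < K, x i ≤ x (i + 1)) (mq : ∀ i < K, q i ≤ q (i + 1))
    (hM : ∀ i < K, M (i + 1) = M i + (x (i + 1) - x i) * q i)
    (hS : ∀ i < K, S (i + 1) = S i + (x (i + 1) - x i) * q i ^ 2)
    (hE : ∀ i ≤ K, |2 * q i * M i + u * q i ^ 3 - x i * q i ^ 2 - S i + κ * x i ^ 3| ≤ ε)
    (hκ : 0 < k) (hκ1 : 12 * k ≤ 1) (hε : 0 < e) (hlo : 0 < lo)
    (hσ : 0 < σ) (hσd : σ ^ 2 = 3 * k * lo ^ 2) (hd' : d' = 3 * k * hi ^ 2)
    (hx : ∀ i ≤ K, x i ∈ Set.Icc lo hi) (hr : ∀ i ≤ K, β * q i ∈ Set.Icc lo hi)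
    (hη : ∀ i < K, x (i + 1) - x i ≤ η) (hηε : d' * η ≤ e)
    (hΓ1 : 16 * e ≤ σ ^ 2 * Γ) (hΓ2 : 144 * e ≤ Γ ^ 3) (hΓ3 : 100 * d' * Γ ≤ σ ^ 3)
    (hl : 0 < l) (hl1 : 6 * d' * l ^ 2 ≤ 1) (hm : σ ≤ m)
    (htail : 2 * (e + d' * hi) * exp (-(l * m)) ≤ e) {i0 i1 : ℕ} (h01 : i0 < i1) (h1K : i1 ≤ K)
    (r0 : x 0 + 2 * e / σ ^ 2 < x i0) (r1 : x i1 + 2 * e / σ ^ 2 < x K) :
    ∀ i ≤ K, β * q i ∈ Set.Icc (β * q i0 + 6 * m) (β * q i1 - 6 * m) →
      |x i - β * q i| ≤ 21 * e * d' / σ ^ 4 ∧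
      β / 2 * |2 * x i * q i - 2 * M i - 3 * u * q i ^ 2 - 3 * κ * β ^ 3 * q i ^ 2| ≤
        73 * e * d' / σ ^ 3 := by
  have mr : ∀ i < K, β * q i ≤ β * q (i + 1) := fun i a => mul_le_mul_of_nonneg_left (mq i a) hβ.le
  have hθ : (1 - 6 * k) * β = 3 * u := by rw [hk]; linarith
  have Wn := fun i (a : i ≤ K) => W_node (x := x) (r := fun i => β * q i)
    (T := fun i => β ^ 2 * S i / 2) (N := fun i => β * M i) (1 - 6 * k) mr
    (fun i a => by simp only [hM i a]; ring) (fun i a => by simp only [hS i a]; ring) a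
  intro i a hri
  obtain ⟨A, B⟩ := locN (r := fun i => β * q i)
    (sys_W (1 - 6 * k) (β ^ 2 * S 0 / 2) (β * M 0) mx mr) hκ hκ1 hε hlo hσ hσd hd' hx hr hη hηε
    (fun i a => by
      rw [(Wn i a).1]
      have e1 : β ^ 2 * S i / 2 - β * M i * (β * q i) + x i * (β * q i) ^ 2 / 2 -
          (1 - 6 * k) * (β * q i) ^ 3 / 6 - k * x i ^ 3 = -(β ^ 2 / 2) *
          (2 * q i * M i + u * q i ^ 3 - x i * q i ^ 2 - S i + κ * x i ^ 3) := by
        have : (1 - 6 * k) * (β * q i) ^ 3 = (1 - 6 * k) * β * (β ^ 2 * q i ^ 3) := by ring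
        rw [this, hθ, hk]; ring
      rw [e1, abs_mul, abs_neg, abs_of_pos (by positivity), he]
      have := mul_le_mul_of_nonneg_left (hE i a) (show 0 ≤ β ^ 2 / 2 by positivity)
      linarith)
    hΓ1 hΓ2 hΓ3 hl hl1 hm htail h01 h1K r0 r1 i a hri
  refine ⟨A, le_trans (le_of_eq ?_) B⟩
  rw [(Wn i a).2]
  have e1 : -(β * M i) + x i * (β * q i) - (1 - 6 * k) * (β * q i) ^ 2 / 2 - 3 * k * (β * q i) ^ 2 =
      β / 2 * (2 * x i * q i - 2 * M i - 3 * u * q i ^ 2 - 3 * κ * β ^ 3 * q i ^ 2) := by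
    have : (1 - 6 * k) * (β * q i) ^ 2 = (1 - 6 * k) * β * (β * q i ^ 2) := by ring
    rw [this, hθ, hk]; ring
  rw [e1, abs_mul, abs_of_pos (by positivity : 0 < β / 2)]

end Crest.Agent.T156.Loc
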