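import Crest.Agent.T156.Rig_63

/-!
# Row 156, block (L): local rigidity from good times, thick regime (helper69)

Frame free.  `W` is piecewise `C²`, `W'' = 2 β u + O(p₀)`; at the ends of the gaps `gp s s'`
(consecutive good times) `W = m u + O(err)`, `m ∈ [d, D]`.

* `Tk.up`, `Tk.pass`: maximum principle with an exponential barrier.
* `Tk.label`, `Tk.slope`, `Tk.short`: labels, Landau, short gaps.
* `Tk.thick`: the two passes.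
-/

set_option autoImplicit false

namespace Crest.Agent.T156.Rig

open Set Real

/-- the data on the window `[a, b]` -/
structure Tk (S : Finset ℝ) (a b : ℝ) (W ω ν u : ℝ → ℝ) (gp : ℝ → ℝ → Prop)
    (b₀ b₁ p₀ d D err C₁ δ : ℝ) : Prop where
  pc : PC2 S a b W ω ν
  b0 : 0 ≤ b₀
  b1 : 0 ≤ b₁
  p0 : 0 ≤ p₀
  d0 : 0 < d
  dD : d ≤ D
  C0 : 0 ≤ C₁
  δ0 : 0 ≤ δ
  rel : ∀ t ∈ Ioo a b, t ∉ S → ∃ β, b₀ ≤ β ∧ β ≤ b₁ ∧ |ν t - 2 * β * u t| ≤ p₀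
  cov : ∀ t ∈ Icc a b, ∃ s s', gp s s' ∧ a ≤ s ∧ s ≤ t ∧ t ≤ s' ∧ s' ≤ b
  eL : ∀ s s', gp s s' → a ≤ s → s ≤ s' → s' ≤ b → ∃ m, d ≤ m ∧ m ≤ D ∧ |W s - m * u s| ≤ err
  eR : ∀ s s', gp s s' → a ≤ s → s ≤ s' → s' ≤ b → ∃ m, d ≤ m ∧ m ≤ D ∧ |W s' - m * u s'| ≤ err
  osc : ∀ s s', gp s s' → a ≤ s → s ≤ s' → s' ≤ b → ∀ t ∈ Icc s s', ∀ t' ∈ Icc s s',
    |u t - u t'| ≤ C₁ * (s' - s) + δ

/-- the gaps meeting `[a', b']` have length at most `Γ` -/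
def Sh (a b : ℝ) (gp : ℝ → ℝ → Prop) (a' b' Γ : ℝ) : Prop :=
  ∀ s s', gp s s' → a ≤ s → s ≤ s' → s' ≤ b → s ≤ b' → a' ≤ s' → s' - s ≤ Γ

/-- the error of one pass -/
noncomputable def eP (b₁ p₀ D err C₁ δ Γ : ℝ) : ℝ :=
  err + D * (C₁ * Γ + δ) + Γ ^ 2 / 8 * (4 * b₁ * (C₁ * Γ + δ) + p₀)

namespace Tk

variable {S : Finset ℝ} {a b : ℝ} {W ω ν u : ℝ → ℝ} {gp : ℝ → ℝ → Prop}
  {b₀ b₁ p₀ d D err C₁ δ : ℝ}

theorem neg (h : Tk S a b W ω ν u gp b₀ b₁ p₀ d D err C₁ δ) :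
    Tk S a b (fun t => -W t) (fun t => -ω t) (fun t => -ν t) (fun t => -u t) gp
      b₀ b₁ p₀ d D err C₁ δ where
  pc := h.pc.neg
  b0 := h.b0
  b1 := h.b1
  p0 := h.p0
  d0 := h.d0
  dD := h.dD
  C0 := h.C0
  δ0 := h.δ0
  rel t ht hS := by
    obtain ⟨β, h1, h2, h3⟩ := h.rel t ht hS
    refine ⟨β, h1, h2, ?_⟩
    rw [← abs_neg]; convert h3 using 2; ring
  cov := h.cov
  eL s s' hg h1 h2 h3 := by
    obtain ⟨m, m1, m2, m3⟩ := h.eL s s' hg h1 h2 h3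
    refine ⟨m, m1, m2, ?_⟩
    rw [← abs_neg]; convert m3 using 2; ring
  eR s s' hg h1 h2 h3 := by
    obtain ⟨m, m1, m2, m3⟩ := h.eR s s' hg h1 h2 h3
    refine ⟨m, m1, m2, ?_⟩
    rw [← abs_neg]; convert m3 using 2; ring
  osc s s' hg h1 h2 h3 t ht t' ht' := by
    rw [← abs_neg]; convert h.osc s s' hg h1 h2 h3 t ht t' ht' using 2; ring

private theorem end_le {w m v y o : ℝ} (hd : 0 < d) (m1 : d ≤ m) (m2 : m ≤ D)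
    (h : |w - m * v| ≤ err) (hv : v ≤ y + o) :
    w ≤ err + (if 0 ≤ y + o then D * (y + o) else d * (y + o)) := by
  have h1 := (abs_le.1 h).2
  have h2 : m * v ≤ m * (y + o) := mul_le_mul_of_nonneg_left hv (by linarith)
  split_ifs with hc
  · nlinarith [mul_le_mul_of_nonneg_right m2 hc]
  · push Not at hc
    nlinarith [mul_le_mul_of_nonneg_right m1 (show 0 ≤ -(y + o) by linarith)]

/-- pointwise upper bound inside the gaps -/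
theorem up (h : Tk S a b W ω ν u gp b₀ b₁ p₀ d D err C₁ δ) {a' b' Γ : ℝ} (ha : a ≤ a')
    (hb : b' ≤ b) (hs : Sh a b gp a' b' Γ) (hΓ : b₁ * Γ ^ 2 ≤ 4 * d) {t : ℝ} (ht : t ∈ Icc a' b') :
    W t ≤ eP b₁ p₀ D err C₁ δ Γ + D * max (u t) 0 := by
  obtain ⟨s, s', hg, h1, h2, h3, h4⟩ := h.cov t ⟨ha.trans ht.1, ht.2.trans hb⟩
  have hss : s ≤ s' := h2.trans h3
  have hl := hs s s' hg h1 hss h4 (h2.trans ht.2) (ht.1.trans h3)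
  have hΓ0 : 0 ≤ Γ := (sub_nonneg.2 hss).trans hl
  set o := C₁ * Γ + δ with ho
  have ho0 : 0 ≤ o := by have := h.C0; have := h.δ0; positivity
  have hosc : ∀ r ∈ Icc s s', |u r - u t| ≤ o := fun r hr =>
    (h.osc s s' hg h1 hss h4 r hr t ⟨h2, h3⟩).trans (by
      have := mul_le_mul_of_nonneg_left hl h.C0; linarith)
  obtain ⟨m, m1, m2, m3⟩ := h.eL s s' hg h1 hss h4
  obtain ⟨m', n1, n2, n3⟩ := h.eR s s' hg h1 hss h4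
  have e1 := end_le (y := u t) (o := o) h.d0 m1 m2 m3
    (by linarith [(abs_le.1 (hosc s ⟨le_rfl, hss⟩)).2])
  have e2 := end_le (y := u t) (o := o) h.d0 n1 n2 n3
    (by linarith [(abs_le.1 (hosc s' ⟨hss, le_rfl⟩)).2])
  have hA : 0 ≤ 2 * b₁ * max (o - u t) 0 + p₀ := by
    have := h.b1; have := h.p0; have := le_max_right (o - u t) 0; positivity
  have hc := (h.pc.mono h1 h4 (Finset.Subset.refl S)).chord hA e1 e2 (fun r hr hS => by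
    obtain ⟨β, β1, β2, β3⟩ := h.rel r ⟨h1.trans_lt hr.1, hr.2.trans_le h4⟩ hS
    have hβ : 0 ≤ β := h.b0.trans β1
    have h5 := (abs_le.1 β3).1
    have h6 := (abs_le.1 (hosc r (Ioo_subset_Icc_self hr))).1
    have h7 : -u r ≤ max (o - u t) 0 := (by linarith : -u r ≤ o - u t).trans (le_max_left _ _)
    have h8 : β * -u r ≤ b₁ * max (o - u t) 0 :=
      (mul_le_mul_of_nonneg_left h7 hβ).trans
        (mul_le_mul_of_nonneg_right β2 (le_max_right _ _))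
    linarith) t ⟨h2, h3⟩
  have hsq : (s' - s) ^ 2 ≤ Γ ^ 2 := pow_le_pow_left₀ (sub_nonneg.2 hss) hl 2
  have hc2 : (s' - s) ^ 2 / 8 * (2 * b₁ * max (o - u t) 0 + p₀) ≤
      Γ ^ 2 / 8 * (2 * b₁ * max (o - u t) 0 + p₀) := by gcongr
  have hD : 0 ≤ D := h.d0.le.trans h.dD
  have hG : 0 ≤ Γ ^ 2 / 8 := by positivity
  have hb1 := h.b1
  unfold eP
  rw [← ho]
  split_ifs at hc with hy
  · have h9 : max (o - u t) 0 ≤ 2 * o := max_le (by linarith) (by linarith)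
    have h10 : Γ ^ 2 / 8 * (2 * b₁ * max (o - u t) 0 + p₀) ≤ Γ ^ 2 / 8 * (4 * b₁ * o + p₀) := by
      apply mul_le_mul_of_nonneg_left _ hG
      nlinarith
    have h11 : D * u t ≤ D * max (u t) 0 := mul_le_mul_of_nonneg_left (le_max_left _ _) hD
    linarith
  · push Not at hy
    rw [max_eq_left (by linarith : (0:ℝ) ≤ o - u t)] at hc hc2
    have h11 : 0 ≤ D * max (u t) 0 := mul_nonneg hD (le_max_right _ _)
    have h12 : 0 ≤ D * o := mul_nonneg hD ho0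
    have h13 : 0 ≤ (4 * d - b₁ * Γ ^ 2) * -(u t + o) := mul_nonneg (by linarith) (by linarith)
    nlinarith

/-- crude two-sided bound -/
theorem abs_W (h : Tk S a b W ω ν u gp b₀ b₁ p₀ d D err C₁ δ) {a' b' Γ R : ℝ} (ha : a ≤ a')
    (hb : b' ≤ b) (hs : Sh a b gp a' b' Γ) (hΓ : b₁ * Γ ^ 2 ≤ 4 * d) {t : ℝ} (ht : t ∈ Icc a' b')
    (hR : |u t| ≤ R) : |W t| ≤ eP b₁ p₀ D err C₁ δ Γ + D * R := by
  have hD : 0 ≤ D := h.d0.le.trans h.dD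
  have h1 := h.up ha hb hs hΓ ht
  have h2 := h.neg.up ha hb hs hΓ ht
  have hR0 : 0 ≤ R := (abs_nonneg _).trans hR
  have h3 : D * max (u t) 0 ≤ D * R :=
    mul_le_mul_of_nonneg_left (max_le (abs_le.1 hR).2 hR0) hD
  have h4 : D * max (-u t) 0 ≤ D * R :=
    mul_le_mul_of_nonneg_left (max_le (by linarith [(abs_le.1 hR).1]) hR0) hD
  exact abs_le.2 ⟨by linarith, by linarith⟩

private theorem pass_up (h : Tk S a b W ω ν u gp b₀ b₁ p₀ d D err C₁ δ) {a' b' Γ κ q₀ B : ℝ}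
    (ha : a ≤ a') (hb : b' ≤ b) (hs : Sh a b gp a' b' Γ) (hΓ : b₁ * Γ ^ 2 ≤ 4 * d)
    (hκ : κ ^ 2 * D ≤ 2 * b₀) (hq : p₀ ≤ κ ^ 2 * q₀) (hq₀ : 0 ≤ q₀) (hB : 0 ≤ B)
    (h1 : W a' ≤ eP b₁ p₀ D err C₁ δ Γ + q₀ + B) (h2 : W b' ≤ eP b₁ p₀ D err C₁ δ Γ + q₀ + B) :
    ∀ t ∈ Icc a' b', W t ≤ eP b₁ p₀ D err C₁ δ Γ + q₀ +
      B * (exp (-(κ * (b' - t))) + exp (-(κ * (t - a')))) := by
  refine (h.pc.mono ha hb (Finset.Subset.refl S)).barrier hB h1 h2 fun t ht hS hW => ?_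
  have hu := h.up ha hb hs hΓ (Ioo_subset_Icc_self ht)
  obtain ⟨β, β1, -, β3⟩ := h.rel t ⟨ha.trans_lt ht.1, ht.2.trans_le hb⟩ hS
  have hD : 0 ≤ D := h.d0.le.trans h.dD
  have hpos : 0 < u t := by
    by_contra hn
    rw [max_eq_right (not_lt.1 hn)] at hu
    linarith
  rw [max_eq_left hpos.le] at hu
  have h5 := (abs_le.1 β3).1
  have h6 : κ ^ 2 * (W t - eP b₁ p₀ D err C₁ δ Γ) ≤ κ ^ 2 * (D * u t) :=
    mul_le_mul_of_nonneg_left (by linarith) (sq_nonneg κ)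
  have h7 : κ ^ 2 * D * u t ≤ 2 * b₀ * u t := mul_le_mul_of_nonneg_right hκ hpos.le
  have h8 : b₀ * u t ≤ β * u t := mul_le_mul_of_nonneg_right β1 hpos.le
  nlinarith

/-- **one pass**: at distance `ℓ` inside `[a', b']` -/
theorem pass (h : Tk S a b W ω ν u gp b₀ b₁ p₀ d D err C₁ δ) {a' b' Γ κ q₀ B ℓ : ℝ}
    (ha : a ≤ a') (hb : b' ≤ b) (hs : Sh a b gp a' b' Γ) (hΓ : b₁ * Γ ^ 2 ≤ 4 * d)
    (hκ0 : 0 ≤ κ) (hκ : κ ^ 2 * D ≤ 2 * b₀) (hq : p₀ ≤ κ ^ 2 * q₀) (hq₀ : 0 ≤ q₀) (hB : 0 ≤ B)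
    (h1 : |W a'| ≤ eP b₁ p₀ D err C₁ δ Γ + q₀ + B) (h2 : |W b'| ≤ eP b₁ p₀ D err C₁ δ Γ + q₀ + B)
    (hℓ : 0 ≤ ℓ) {t : ℝ} (ht : t ∈ Icc (a' + ℓ) (b' - ℓ)) :
    |W t| ≤ eP b₁ p₀ D err C₁ δ Γ + q₀ + 2 * B * exp (-(κ * ℓ)) := by
  have ht' : t ∈ Icc a' b' := ⟨by linarith [ht.1], by linarith [ht.2]⟩
  have u1 := h.pass_up ha hb hs hΓ hκ hq hq₀ hB (abs_le.1 h1).2 (abs_le.1 h2).2 t ht'
  have u2 := h.neg.pass_up ha hb hs hΓ hκ hq hq₀ hB (by linarith [(abs_le.1 h1).1])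
    (by linarith [(abs_le.1 h2).1]) t ht'
  have e1 : exp (-(κ * (b' - t))) ≤ exp (-(κ * ℓ)) :=
    exp_le_exp.2 (neg_le_neg (mul_le_mul_of_nonneg_left (by linarith [ht.2]) hκ0))
  have e2 : exp (-(κ * (t - a'))) ≤ exp (-(κ * ℓ)) :=
    exp_le_exp.2 (neg_le_neg (mul_le_mul_of_nonneg_left (by linarith [ht.1]) hκ0))
  have e3 : B * (exp (-(κ * (b' - t))) + exp (-(κ * (t - a')))) ≤ 2 * B * exp (-(κ * ℓ)) := by
    nlinarith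
  exact abs_le.2 ⟨by linarith, by linarith⟩

/-- **labels** from the potential -/
theorem label (h : Tk S a b W ω ν u gp b₀ b₁ p₀ d D err C₁ δ) {a' b' Γ B : ℝ}
    (ha : a ≤ a') (hb : b' ≤ b) (hΓ : 0 ≤ Γ) (hs : Sh a b gp a' b' Γ)
    (hW : ∀ t ∈ Icc a' b', |W t| ≤ B) {t : ℝ} (ht : t ∈ Icc (a' + Γ) b') :
    |u t| ≤ C₁ * Γ + δ + (B + err) / d := by
  have ht1 : a' ≤ t := by linarith [ht.1]
  obtain ⟨s, s', hg, h1, h2, h3, h4⟩ := h.cov t ⟨ha.trans ht1, ht.2.trans hb⟩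
  have hss : s ≤ s' := h2.trans h3
  have hl := hs s s' hg h1 hss h4 (h2.trans ht.2) (ht1.trans h3)
  have ho := h.osc s s' hg h1 hss h4 t ⟨h2, h3⟩ s ⟨le_rfl, hss⟩
  have ho' := mul_le_mul_of_nonneg_left hl h.C0
  obtain ⟨m, m1, -, m3⟩ := h.eL s s' hg h1 hss h4
  have hw := hW s ⟨by linarith [ht.1], h2.trans ht.2⟩
  have hm : |m * u s| ≤ B + err := by
    have : m * u s = W s - (W s - m * u s) := by ring
    rw [this]; exact (abs_sub _ _).trans (add_le_add hw m3)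
  rw [abs_mul, abs_of_nonneg (h.d0.le.trans m1)] at hm
  have hus : |u s| ≤ (B + err) / d := by
    rw [le_div_iff₀ h.d0]
    nlinarith [mul_le_mul_of_nonneg_right m1 (abs_nonneg (u s))]
  have : |u t| ≤ |u t - u s| + |u s| := by
    simpa using abs_add_le (u t - u s) (u s)
  linarith

/-- **Landau**: the slope from the potential and the labels -/
theorem slope (h : Tk S a b W ω ν u gp b₀ b₁ p₀ d D err C₁ δ) {a' b' B U η : ℝ}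
    (ha : a ≤ a') (hb : b' ≤ b) (hη : 0 < η) (hW : ∀ t ∈ Icc a' b', |W t| ≤ B)
    (hu : ∀ t ∈ Icc a' b', |u t| ≤ U) {t : ℝ} (ht : t ∈ Icc a' (b' - η)) :
    |ω t| ≤ 2 * B / η + (2 * b₁ * U + p₀) * η / 2 := by
  have h1 : t + η ≤ b' := by linarith [ht.2]
  have := ((h.pc.mono (ha.trans ht.1) (h1.trans hb) (Finset.Subset.refl S)).landau
    (A := 2 * b₁ * U + p₀) (by linarith) (hW t ⟨ht.1, by linarith⟩)
    (hW (t + η) ⟨by linarith [ht.1], h1⟩) fun r hr hS => by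
      have hr' : r ∈ Icc a' b' := ⟨ht.1.trans hr.1.le, hr.2.le.trans h1⟩
      obtain ⟨β, β1, β2, β3⟩ := h.rel r ⟨(ha.trans ht.1).trans_lt hr.1,
        hr.2.trans_le (h1.trans hb)⟩ hS
      have hβ : 0 ≤ β := h.b0.trans β1
      have h2 : |2 * β * u r| ≤ 2 * b₁ * U := by
        rw [abs_mul, abs_of_nonneg (by positivity : 0 ≤ 2 * β)]
        exact mul_le_mul (by linarith) (hu r hr') (abs_nonneg _) (by linarith [h.b1])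
      have h3 : |ν r| ≤ |ν r - 2 * β * u r| + |2 * β * u r| := by
        simpa using abs_add_le (ν r - 2 * β * u r) (2 * β * u r)
      linarith).1
  rwa [add_sub_cancel_left] at this

/-- **short gaps** from the slope and the mass -/
theorem short (h : Tk S a b W ω ν u gp b₀ b₁ p₀ d D err C₁ δ) {a' b' Γ Ω e₂ μ₁ : ℝ}
    (hs : Sh a b gp a b Γ) (hω : ∀ t ∈ Icc a' b', |ω t| ≤ Ω) (hμ : 0 < μ₁) (hΩ : 2 * Ω ≤ μ₁)
    (hlen : ∀ s s', gp s s' → a ≤ s → s ≤ s' → s' ≤ b → W s' - W s ≤ e₂ - μ₁ * (s' - s)) :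
    Sh a b gp (a' + Γ) (b' - Γ) (min Γ (2 * e₂ / μ₁)) := by
  intro s s' hg h1 h2 h3 h4 h5
  have hl := hs s s' hg h1 h2 h3 (h2.trans h3) (h1.trans h2)
  refine le_min hl ?_
  have hp : PC2 S s s' (fun t => W t - (-Ω) * t) (fun t => ω t - (-Ω)) fun t => ν t - 0 :=
    (h.pc.mono h1 h3 (Finset.Subset.refl S)).sub (PC2.of_smooth S s s'
      (fun t => ((hasDerivAt_id' t).const_mul (-Ω)).congr_deriv (mul_one _))
      fun t => hasDerivAt_const t _)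
  have hm := hp.W_le le_rfl h2 le_rfl fun r hr _ => by
    have := (abs_le.1 (hω r ⟨by linarith [hr.1], by linarith [hr.2]⟩)).1
    show 0 ≤ ω r - -Ω
    linarith
  have h6 := hlen s s' hg h1 h2 h3
  have h7 : 0 ≤ (μ₁ - 2 * Ω) * (s' - s) := mul_nonneg (by linarith) (by linarith)
  rw [le_div_iff₀ hμ]
  nlinarith

/-- **thick regime, two passes** -/
theorem thick (h : Tk S a b W ω ν u gp b₀ b₁ p₀ d D err C₁ δ)
    {Γ R κ q₀ ℓ η e₂ μ₁ B₁ U₁ : ℝ} (hΓ0 : 0 ≤ Γ) (hs : Sh a b gp a b Γ)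
    (hΓ : b₁ * Γ ^ 2 ≤ 4 * d) (hR : ∀ t ∈ Icc a b, |u t| ≤ R)
    (hκ0 : 0 ≤ κ) (hκ : κ ^ 2 * D ≤ 2 * b₀) (hq : p₀ ≤ κ ^ 2 * q₀) (hq₀ : 0 ≤ q₀) (hℓ : 0 ≤ ℓ)
    (hη : 0 < η) (hμ : 0 < μ₁) (he : 0 ≤ err) (he₂ : 0 ≤ e₂)
    (hlen : ∀ s s', gp s s' → a ≤ s → s ≤ s' → s' ≤ b → W s' - W s ≤ e₂ - μ₁ * (s' - s))
    (hB₁ : eP b₁ p₀ D err C₁ δ Γ + q₀ + 2 * (D * R) * exp (-(κ * ℓ)) ≤ B₁)
    (hU₁ : C₁ * Γ + δ + (B₁ + err) / d ≤ U₁)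
    (hΩ : 2 * (2 * B₁ / η + (2 * b₁ * U₁ + p₀) * η / 2) ≤ μ₁)
    {t : ℝ} (ht : t ∈ Icc (a + 2 * ℓ + 3 * Γ) (b - 2 * ℓ - Γ - η)) :
    |W t| ≤ eP b₁ p₀ D err C₁ δ (min Γ (2 * e₂ / μ₁)) + q₀ + 2 * B₁ * exp (-(κ * ℓ)) ∧
    |u t| ≤ C₁ * min Γ (2 * e₂ / μ₁) + δ +
      (eP b₁ p₀ D err C₁ δ (min Γ (2 * e₂ / μ₁)) + q₀ + 2 * B₁ * exp (-(κ * ℓ)) + err) / d := by
  have hab : a ≤ b := by linarith [ht.1, ht.2]
  have hD : 0 ≤ D := h.d0.le.trans h.dD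
  have hR0 : 0 ≤ R := (abs_nonneg _).trans (hR a ⟨le_rfl, hab⟩)
  have c1 := h.abs_W le_rfl le_rfl hs hΓ ⟨le_rfl, hab⟩ (hR a ⟨le_rfl, hab⟩)
  have c2 := h.abs_W le_rfl le_rfl hs hΓ ⟨hab, le_rfl⟩ (hR b ⟨hab, le_rfl⟩)
  have w1 : ∀ r ∈ Icc (a + ℓ) (b - ℓ), |W r| ≤ B₁ := fun r hr =>
    (h.pass le_rfl le_rfl hs hΓ hκ0 hκ hq hq₀ (mul_nonneg hD hR0) (by linarith) (by linarith)
      hℓ hr).trans hB₁
  have s1 : Sh a b gp (a + ℓ) (b - ℓ) Γ := fun s s' hg h1 h2 h3 _ _ =>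
    hs s s' hg h1 h2 h3 (h2.trans h3) (h1.trans h2)
  have u1 : ∀ r ∈ Icc (a + ℓ + Γ) (b - ℓ), |u r| ≤ U₁ := fun r hr =>
    (h.label (by linarith) (by linarith) hΓ0 s1 w1 hr).trans hU₁
  have o1 : ∀ r ∈ Icc (a + ℓ + Γ) (b - ℓ - η), |ω r| ≤ 2 * B₁ / η + (2 * b₁ * U₁ + p₀) * η / 2 :=
    fun r hr => h.slope (by linarith) (by linarith) hη
      (fun x hx => w1 x ⟨by linarith [hx.1], hx.2⟩) u1 hr
  have s2 := h.short hs o1 hμ hΩ hlen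
  set Γ' := min Γ (2 * e₂ / μ₁) with hΓ'
  have g0 : 0 ≤ Γ' := le_min hΓ0 (by positivity)
  have g1 : Γ' ≤ Γ := min_le_left _ _
  have g2 : b₁ * Γ' ^ 2 ≤ 4 * d :=
    (mul_le_mul_of_nonneg_left (pow_le_pow_left₀ g0 g1 2) h.b1).trans hΓ
  have hB0 : 0 ≤ B₁ := (abs_nonneg _).trans (w1 (a + ℓ) ⟨le_rfl, by linarith [ht.1, ht.2]⟩)
  have hE : 0 ≤ eP b₁ p₀ D err C₁ δ Γ' := by
    have := h.b1; have := h.p0; have := h.C0; have := h.δ0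
    unfold eP; positivity
  have w2 : ∀ r ∈ Icc (a + ℓ + Γ + Γ + ℓ) (b - ℓ - η - Γ - ℓ),
      |W r| ≤ eP b₁ p₀ D err C₁ δ Γ' + q₀ + 2 * B₁ * exp (-(κ * ℓ)) := fun r hr =>
    h.pass (by linarith) (by linarith) s2 g2 hκ0 hκ hq hq₀ hB0
      ((w1 _ ⟨by linarith, by linarith [ht.1, ht.2]⟩).trans (by linarith))
      ((w1 _ ⟨by linarith [ht.1, ht.2], by linarith⟩).trans (by linarith)) hℓ hr
  have s3 : Sh a b gp (a + ℓ + Γ + Γ + ℓ) (b - ℓ - η - Γ - ℓ) Γ' := fun s s' hg h1 h2 h3 h4 h5 =>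
    s2 s s' hg h1 h2 h3 (by linarith) (by linarith)
  exact ⟨w2 t ⟨by linarith [ht.1], by linarith [ht.2]⟩,
    h.label (by linarith) (by linarith) g0 s3 w2 ⟨by linarith [ht.1], by linarith [ht.2]⟩⟩

end Tk

end Crest.Agent.T156.Rig
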