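import Crest.Agent.T156.Cor_36
import Crest.Agent.T156.Cut_8

/-!
# Row 156, text (L) (helper36): the energy inequality localised at the corner, from the ODE
-/

set_option autoImplicit false

noncomputable section

namespace Crest.Agent.T156.Pr.Loc36

open MeasureTheory Set intervalIntegral
open Crest.Agent.T156.Cut8

variable {T : ℝ}

theorem LB_prim {u : ℝ → ℝ} (lu : LB T u) {A : ℝ} (hA : A ∈ Icc 0 T) :
    LB T fun t => ∫ s in A..t, u s :=
  .of_cont ((lu.tail hA).neg.congr fun t _ => by simp only [Pi.neg_apply]; rw [integral_symm])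

theorem LB_tail {u : ℝ → ℝ} (lu : LB T u) {U : ℝ} (hU : U ∈ Icc 0 T) :
    LB T fun t => ∫ s in t..U, u s := .of_cont (lu.tail hU)

theorem young_int {f : ℝ → ℝ} (lf : LB T f) {a b x α : ℝ} (ha : 0 ≤ a) (hab : a ≤ b) (hb : b ≤ T)
    (α0 : 0 < α) : x * ∫ t in a..b, |f t| ≤ α / 4 * (∫ t in a..b, f t ^ 2) + (b - a) * (x ^ 2 / α) := by
  have ma : a ∈ Icc 0 T := ⟨ha, hab.trans hb⟩
  have mb : b ∈ Icc 0 T := ⟨ha.trans hab, hb⟩
  have := int_mono ((LB.const x).mul lf.abs) (((LB.const (α / 4)).mul lf.sq).add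
    (LB.const (x ^ 2 / α))) ha hab hb fun t _ _ => by
      have e : α / 4 * f t ^ 2 + x ^ 2 / α - x * |f t| = (α * |f t| / 2 - x) ^ 2 / α := by
        rw [← sq_abs (f t)]; field_simp; ring
      have : 0 ≤ (α * |f t| / 2 - x) ^ 2 / α := by positivity
      linarith
  rw [integral_add (((LB.const _).mul lf.sq).ii ma mb) ((LB.const _).ii ma mb),
    intervalIntegral.integral_const_mul, intervalIntegral.integral_const_mul,
    intervalIntegral.integral_const, smul_eq_mul] at this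
  exact this

/-- the identity behind the local inequality -/
theorem ident {u f g : ℝ → ℝ} {A Mt U : ℝ} (lu : LB T u) (lg : LB T g) (lf : LB T f) (hA : 0 ≤ A)
    (h1 : A ≤ Mt) (h2 : Mt ≤ U) (hU : U ≤ T) (hf : ∀ t ∈ Icc A U, f t = f A + ∫ s in A..t, g s) :
    ∫ t in A..U, f t * u t = f Mt * (∫ s in A..U, u s) - (∫ t in A..Mt, g t * ∫ s in A..t, u s) +
      ∫ t in Mt..U, g t * ∫ s in t..U, u s := by
  have mA : A ∈ Icc 0 T := ⟨hA, by linarith⟩
  have mM : Mt ∈ Icc 0 T := ⟨by linarith, by linarith⟩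
  have mU : U ∈ Icc 0 T := ⟨by linarith, hU⟩
  have eM := hf Mt ⟨h1, h2⟩
  have i1 := ibp (f := f) h1 (lg.ii mA mM) (lu.ii mA mM) fun t ht => hf t ⟨ht.1, ht.2.trans h2⟩
  have i2 := ibp (f := f) h2 (lg.ii mM mU) (lu.ii mM mU) fun t ht => by
    rw [hf t ⟨h1.trans ht.1, ht.2⟩, eM, add_assoc,
      ← int_split lg mA mM ⟨by linarith [ht.1], ht.2.trans hU⟩]
  have i3 : ∫ t in A..Mt, g t * ∫ s in t..Mt, u s =
      (∫ t in A..Mt, g t) * (∫ s in A..Mt, u s) - ∫ t in A..Mt, g t * ∫ s in A..t, u s := by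
    rw [← intervalIntegral.integral_mul_const, ← integral_sub ((lg.mul (LB.const _)).ii mA mM)
      ((lg.mul (LB_prim lu mA)).ii mA mM)]
    refine integral_congr fun t ht => ?_
    rw [uIcc_of_le h1] at ht
    rw [int_split lu mA ⟨hA.trans ht.1, ht.2.trans mM.2⟩ mM]
    ring
  rw [int_split (lf.mul lu) mA mM mU, i1, i2, i3, int_split lu mA mM mU, eM]
  ring

/-- **the local inequality, pure form** -/
theorem loc_pure {u f g : ℝ → ℝ} {A Mt U α ε κ K p len : ℝ} (lu : LB T u) (lg : LB T g) (lf : LB T f)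
    (hA : 0 ≤ A) (h1 : A ≤ Mt) (h2 : Mt ≤ U) (hU : U ≤ T) (hl : U - A ≤ len)
    (hf : ∀ t ∈ Icc A U, f t = f A + ∫ s in A..t, g s) (α0 : 0 < α) (α1 : α ≤ 1) (κ0 : 0 ≤ κ)
    (κ1 : κ ≤ α / 2) (K0 : 0 ≤ K) (hK : len * K ≤ α / 2) (ε0 : 0 ≤ ε) (hp : |∫ s in A..U, u s| ≤ p)
    (hg : ∀ t, A < t → t < U → |g t + 2 * α * ∫ s in A..t, u s| ≤ ε + κ * |∫ s in A..t, u s| +
      K * ((∫ t in A..Mt, |∫ s in A..t, u s|) + ∫ t in Mt..U, |∫ s in t..U, u s|)) :
    α / 2 * ((∫ t in A..Mt, (∫ s in A..t, u s) ^ 2) + ∫ t in Mt..U, (∫ s in t..U, u s) ^ 2) ≤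
      (∫ t in A..U, f t * u t) + |f Mt| * p + len * (ε ^ 2 / α) +
        3 * p * ∫ t in Mt..U, |∫ s in t..U, u s| := by
  have mA : A ∈ Icc 0 T := ⟨hA, by linarith⟩
  have mM : Mt ∈ Icc 0 T := ⟨by linarith, by linarith⟩
  have mU : U ∈ Icc 0 T := ⟨by linarith, hU⟩
  have lI := LB_prim lu mA
  have lJ := LB_tail lu mU
  have id := ident lu lg lf hA h1 h2 hU hf
  set P1 := ∫ t in A..Mt, |∫ s in A..t, u s| with hP1
  set P2 := ∫ t in Mt..U, |∫ s in t..U, u s| with hP2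
  set E1 := ∫ t in A..Mt, (∫ s in A..t, u s) ^ 2 with hE1
  set E2 := ∫ t in Mt..U, (∫ s in t..U, u s) ^ 2 with hE2
  have P10 : 0 ≤ P1 := integral_nonneg h1 fun _ _ => abs_nonneg _
  have P20 : 0 ≤ P2 := integral_nonneg h2 fun _ _ => abs_nonneg _
  have p0 : 0 ≤ p := (abs_nonneg _).trans hp
  set e := ε + K * (P1 + P2) with he
  have e0 : 0 ≤ e := by positivity
  have a1 : 3 / 2 * α * E1 - e * P1 ≤ -∫ t in A..Mt, g t * ∫ s in A..t, u s := by
    rw [← intervalIntegral.integral_neg, hE1, hP1, ← intervalIntegral.integral_const_mul,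
      ← intervalIntegral.integral_const_mul,
      ← integral_sub (((LB.const _).mul lI.sq).ii mA mM) (((LB.const _).mul lI.abs).ii mA mM)]
    refine int_mono (((LB.const _).mul lI.sq).sub ((LB.const _).mul lI.abs))
      (by simpa using (LB.const (-1)).mul (lg.mul lI)) hA h1 mM.2 fun t t0 t1 => ?_
    have k := hg t t0 (t1.trans_le h2)
    generalize ∫ s in A..t, u s = x at k ⊢
    have k1 : (g t + 2 * α * x) * x ≤ (ε + κ * |x| + K * (P1 + P2)) * |x| :=
      (le_abs_self _).trans (by rw [abs_mul]; exact mul_le_mul_of_nonneg_right k (abs_nonneg _))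
    have k2 : κ * |x| * |x| ≤ α / 2 * x ^ 2 := by
      rw [mul_assoc, abs_mul_abs_self, ← sq]; exact mul_le_mul_of_nonneg_right κ1 (sq_nonneg _)
    nlinarith
  have a2 : 3 / 2 * α * E2 - (e + 3 * p) * P2 ≤ ∫ t in Mt..U, g t * ∫ s in t..U, u s := by
    rw [hE2, hP2, ← intervalIntegral.integral_const_mul, ← intervalIntegral.integral_const_mul,
      ← integral_sub (((LB.const _).mul lJ.sq).ii mM mU) (((LB.const _).mul lJ.abs).ii mM mU)]
    refine int_mono (((LB.const _).mul lJ.sq).sub ((LB.const _).mul lJ.abs))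
      (lg.mul lJ) mM.1 h2 hU fun t t0 t1 => ?_
    have k := hg t (h1.trans_lt t0) t1
    have e1 : ∫ s in A..t, u s = (∫ s in A..U, u s) - ∫ s in t..U, u s := by
      rw [int_split lu (b := t) mA ⟨by linarith, by linarith⟩ mU]; ring
    rw [e1] at k
    generalize ∫ s in t..U, u s = x at k ⊢
    generalize ∫ s in A..U, u s = j at k hp
    have x0 := abs_nonneg x
    have k0 : |j - x| ≤ p + |x| := (abs_sub _ _).trans (by linarith)
    have k3 := mul_le_mul_of_nonneg_left k0 κ0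
    have k1 : -((g t + 2 * α * (j - x)) * x) ≤ (ε + κ * (p + |x|) + K * (P1 + P2)) * |x| :=
      (neg_le_abs _).trans (by rw [abs_mul]; exact mul_le_mul_of_nonneg_right (by linarith) x0)
    have k2 : κ * |x| * |x| ≤ α / 2 * x ^ 2 := by
      rw [mul_assoc, abs_mul_abs_self, ← sq]; exact mul_le_mul_of_nonneg_right κ1 (sq_nonneg _)
    have k4 : j * x ≤ p * |x| :=
      (le_abs_self _).trans (by rw [abs_mul]; exact mul_le_mul_of_nonneg_right hp x0)
    have k5 : α * (j * x) ≤ p * |x| :=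
      (mul_le_mul_of_nonneg_left k4 α0.le).trans (mul_le_of_le_one_left (by positivity) α1)
    have k6 : κ * (p * |x|) ≤ p * |x| := mul_le_of_le_one_left (by positivity) (by linarith)
    nlinarith
  have y : ∀ x : ℝ, x * (P1 + P2) ≤ α / 4 * (E1 + E2) + len * (x ^ 2 / α) := fun x => by
    have y1 := young_int lI (x := x) hA h1 mM.2 α0
    have y2 := young_int lJ (x := x) mM.1 h2 hU α0
    have := mul_le_mul_of_nonneg_right hl (show 0 ≤ x ^ 2 / α by positivity)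
    linarith
  have y1 := y ε
  have y2 := y (K * (P1 + P2))
  have y3 : len * ((K * (P1 + P2)) ^ 2 / α) ≤ K * (P1 + P2) * (P1 + P2) / 2 := by
    have := mul_le_mul_of_nonneg_right hK (show 0 ≤ K * (P1 + P2) ^ 2 / α by positivity)
    calc _ = len * K * (K * (P1 + P2) ^ 2 / α) := by ring
      _ ≤ _ := this
      _ = _ := by field_simp
  have y4 : f Mt * ∫ s in A..U, u s ≥ -(|f Mt| * p) :=
    neg_le_of_abs_le (by rw [abs_mul]; exact mul_le_mul_of_nonneg_left hp (abs_nonneg _))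
  have E0 : 0 ≤ α * (E1 + E2) := mul_nonneg α0.le (add_nonneg
    (integral_nonneg h1 fun _ _ => sq_nonneg _) (integral_nonneg h2 fun _ _ => sq_nonneg _))
  have y5 : e * P1 + e * P2 = ε * (P1 + P2) + K * (P1 + P2) * (P1 + P2) := by rw [he]; ring
  linarith

/-- a Lipschitz weight against an integral -/
theorem lip_int {u φ : ℝ → ℝ} {A t : ℝ} (lu : LB T u) (hA : 0 ≤ A) (h : A ≤ t) (hT : t ≤ T)
    (hφ : ∀ x ∈ Icc A t, ∀ y ∈ Icc A t, |φ x - φ y| ≤ 15 * |x - y|) :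
    |(∫ s in A..t, φ s * u s) - φ A * ∫ s in A..t, u s| ≤
      15 * ((t - A) * |∫ s in A..t, u s| + ∫ s in A..t, |∫ r in A..s, u r|) := by
  have mA : A ∈ Icc 0 T := ⟨hA, h.trans hT⟩
  have mt : t ∈ Icc 0 T := ⟨hA.trans h, hT⟩
  have lip : LipschitzOnWith 15 φ (Icc A t) := LipschitzOnWith.of_dist_le_mul fun x hx y hy => by
    simpa [Real.dist_eq] using hφ x hx y hy
  have ac : ∀ y ∈ Icc A t, AbsolutelyContinuousOnInterval φ A y := fun y hy =>
    LipschitzOnWith.absolutelyContinuousOnInterval (K := 15)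
      (lip.mono (by rw [uIcc_of_le hy.1]; exact Icc_subset_Icc_right hy.2))
  have iw := (ac t ⟨h, le_rfl⟩).intervalIntegrable_deriv
  rw [ibp (f := φ) h iw (lu.ii mA mt) fun y hy => by rw [(ac y hy).integral_deriv_eq_sub]; ring,
    add_sub_cancel_left]
  have lI := LB_prim lu mA
  have lb := (LB.const (T := T) 15).mul ((LB.const |∫ s in A..t, u s|).add lI.abs)
  have : |∫ s in A..t, deriv φ s * ∫ r in s..t, u r| ≤
      ∫ s in A..t, 15 * (|∫ s in A..t, u s| + |∫ r in A..s, u r|) := by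
    refine (abs_integral_le_integral_abs h).trans (integral_mono_on_of_le_Ioo h
      (iw.mul_continuousOn ((lu.tail mt).mono (by
        rw [uIcc_of_le h]; exact Icc_subset_Icc hA hT))).abs (lb.ii mA mt) fun s hs => ?_)
    have d : |deriv φ s| ≤ 15 := by
      simpa using norm_deriv_le_of_lipschitzOn (Icc_mem_nhds hs.1 hs.2) lip
    have e1 : ∫ r in s..t, u r = (∫ s in A..t, u s) - ∫ r in A..s, u r := by
      rw [int_split lu mA ⟨hA.trans hs.1.le, hs.2.le.trans hT⟩ mt]; ring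
    rw [abs_mul, e1]
    exact mul_le_mul d (abs_sub _ _) (abs_nonneg _) (by norm_num)
  rw [intervalIntegral.integral_const_mul, integral_add ((LB.const _).ii mA mt) (lI.abs.ii mA mt),
    intervalIntegral.integral_const, smul_eq_mul] at this
  exact this

open Crest.Agent.R164.GC Crest.Agent.R339.B Crest.Agent.R339.Var Crest.Agent.T157.Pf
open Crest.Agent.T156.Pr.Reg48

variable {lb lh : List (ℝ × ℝ)}

theorem LB_u (hb : Ok lb) (hh : Ok lh) : LB T fun t => lvr 1 lb t - lvr 1 lh t :=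
  (LB.of_mono (Sc48.lvr_mono hb.1)).sub (LB.of_mono (Sc48.lvr_mono hh.1))

theorem Gam_int {l : List (ℝ × ℝ)} (h : Ok l) {a t : ℝ} (ha : 0 ≤ a) (hat : a ≤ t) (ht : t ≤ TT l) :
    ∫ s in a..t, GG l s = Gam l t - Gam l a := by
  obtain ⟨c1, c2, d, -⟩ := ode h
  exact integral_eq_sub_of_hasDeriv_right_of_le hat (c1.mono (Icc_subset_Icc ha ht))
    (fun x hx => (d x (ha.trans hx.1.le) (hx.2.trans_le ht)).1.mono Ioi_subset_Ici_self)
    ((LB.of_cont c2).ii ⟨ha, hat.trans ht⟩ ⟨ha.trans hat, ht⟩)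

/-- **the equation of `g = G_b - G_h`** -/
theorem g_ode (T0 : ℝ) : ∃ C : ℝ, 1 ≤ C ∧ ∀ lb lh T, Ok lb → Ok lh → TT lb = T → TT lh = T → T ≤ T0 →
    ∀ A t, 0 ≤ A → A ≤ t → t ≤ T →
      |GG lb t - GG lh t - (GG lb A - GG lh A) + 2 * ∫ s in A..t, AA lh s * (lvr 1 lb s - lvr 1 lh s)| ≤
        C * ((∫ s in A..t, |Sc48.Jf lh lb T s|) + (t - A) * ∫ s in (0 : ℝ)..T, |Sc48.Jf lh lb T s|) ∧
      |(∫ s in A..t, AA lh s * (lvr 1 lb s - lvr 1 lh s)) -
          AA lh A * ∫ s in A..t, (lvr 1 lb s - lvr 1 lh s)| ≤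
        15 * ((t - A) * |∫ s in A..t, (lvr 1 lb s - lvr 1 lh s)| +
          ∫ s in A..t, |∫ r in A..s, (lvr 1 lb r - lvr 1 lh r)|) := by
  obtain ⟨C, c1, hC⟩ := Hm.fun_H T0
  obtain ⟨C', -, hO⟩ := Pp.Ode3.odeS T0
  refine ⟨3 * C, by linarith, fun lb lh T hb hh tb th hT A t hA h ht => ?_⟩
  subst th
  have T0' : 0 ≤ TT lh := by linarith
  have mA : A ∈ Icc 0 (TT lh) := ⟨hA, h.trans ht⟩
  have mt : t ∈ Icc 0 (TT lh) := ⟨hA.trans h, ht⟩
  obtain ⟨⟨-, g1, a1, n1, -⟩, d1, -, b1⟩ := hO lh hh hT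
  obtain ⟨⟨-, g2, a2, n2, -⟩, d2, -, -⟩ := hO lb hb (tb.trans_le hT)
  rw [tb] at g2 a2 n2 d2
  have lu : LB (TT lh) fun t => lvr 1 lb t - lvr 1 lh t := LB_u hb hh
  refine ⟨?_, lip_int lu hA h ht fun x hx y hy =>
    ((b1 x ⟨hA.trans hx.1, hx.2.trans ht⟩).2.2.2.2.2.2.2.2.2.2.2.2 y
      ⟨hA.trans hy.1, hy.2.trans ht⟩).1⟩
  have lzb : LB (TT lh) (lvr 1 lb) := .of_mono (Sc48.lvr_mono hb.1)
  have lzh : LB (TT lh) (lvr 1 lh) := .of_mono (Sc48.lvr_mono hh.1)
  have l1 := ((LB.of_cont n2).sub (((LB.const 2).mul lzb).mul (.of_cont a2))).sub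
    ((LB.of_cont n1).sub (((LB.const 2).mul lzh).mul (.of_cont a1)))
  have l2 := (LB.const 2).mul ((LB.of_cont a1).mul lu)
  have lJ : LB (TT lh) (Sc48.Jf lh lb (TT lh)) := LB_tail lu ⟨T0', le_rfl⟩
  have e := integral_eq_sub_of_hasDeriv_right_of_le (f := fun t => GG lb t - GG lh t) h
    ((g2.sub g1).mono (Icc_subset_Icc hA ht))
    (fun x hx => ((d2 x (hA.trans hx.1.le) (hx.2.trans_le ht)).2.1.sub
      (d1 x (hA.trans hx.1.le) (hx.2.trans_le ht)).2.1).mono Ioi_subset_Ici_self) (l1.ii mA mt)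
  rw [← e, ← intervalIntegral.integral_const_mul, ← integral_add (l1.ii mA mt) (l2.ii mA mt)]
  set ι := ∫ s in (0 : ℝ)..TT lh, |Sc48.Jf lh lb (TT lh) s| with hι
  have e2 : 3 * C * ((∫ s in A..t, |Sc48.Jf lh lb (TT lh) s|) + (t - A) * ι) =
      ∫ s in A..t, 3 * C * (|Sc48.Jf lh lb (TT lh) s| + ι) := by
    rw [intervalIntegral.integral_const_mul, integral_add (lJ.abs.ii mA mt) ((LB.const _).ii mA mt),
      intervalIntegral.integral_const, smul_eq_mul]
  rw [e2]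
  refine (abs_integral_le_integral_abs h).trans (int_mono (l1.add l2).abs
    ((LB.const _).mul (lJ.abs.add (LB.const _))) hA h ht fun s s0 s1 => ?_)
  obtain ⟨⟨-, -, a, n, -⟩, -⟩ := hC lh lb hh.1 hb.1 tb hT s ⟨hA.trans s0.le, s1.le.trans ht⟩ _ rfl
  have z1 := Pp.Ode3.lvr_pos hb.1 s
  have z2 := Pp.Ode3.lvr_le_one hb.1 s
  have e3 : NN lb s - 2 * lvr 1 lb s * AA lb s - (NN lh s - 2 * lvr 1 lh s * AA lh s) +
      2 * (AA lh s * (lvr 1 lb s - lvr 1 lh s)) =
      NN lb s - NN lh s - 2 * (lvr 1 lb s * (AA lb s - AA lh s)) := by ring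
  have q : |lvr 1 lb s * (AA lb s - AA lh s)| ≤ |AA lb s - AA lh s| := by
    rw [abs_mul, abs_of_pos z1]; exact mul_le_of_le_one_left (abs_nonneg _) z2
  have q2 := abs_sub (NN lb s - NN lh s) (2 * (lvr 1 lb s * (AA lb s - AA lh s)))
  rw [abs_mul, abs_two] at q2
  unfold Hm.IJ at a n
  rw [e3]
  linarith

theorem rho_int (hb : Ok lb) (hh : Ok lh) (tb : TT lb = T) (th : TT lh = T) {a t : ℝ} (ha : 0 ≤ a)
    (hat : a ≤ t) (ht : t ≤ T) :
    ∫ s in a..t, (GG lb s - GG lh s) = Gam lb t - Gam lh t - (Gam lb a - Gam lh a) := by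
  have l1 : LB T (GG lb) := .of_cont (tb ▸ (ode hb).2.1)
  have l2 : LB T (GG lh) := .of_cont (th ▸ (ode hh).2.1)
  rw [integral_sub (l1.ii ⟨ha, hat.trans ht⟩ ⟨ha.trans hat, ht⟩)
    (l2.ii ⟨ha, hat.trans ht⟩ ⟨ha.trans hat, ht⟩), Gam_int hb ha hat (tb ▸ ht),
    Gam_int hh ha hat (th ▸ ht)]
  ring

/-- **the local energy inequality** -/
theorem loc_core (T0 : ℝ) : ∃ C : ℝ, 1 ≤ C ∧ ∀ lb lh T, Ok lb → Ok lh → TT lb = T → TT lh = T →
    T ≤ T0 → ∀ A Mt U len c0 p ε, 0 ≤ A → A ≤ Mt → Mt ≤ U → U ≤ T →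
      (∀ t, U < t → t < T → lvr 1 lb t = lvr 1 lh t) → U - A ≤ len → C * len ≤ 1 →
      |Sc48.Jf lh lb T A| + (∫ s in (0 : ℝ)..T, |Sc48.Jf lh lb T s|) ≤ p →
      |GG lb A - GG lh A| ≤ ε →
      ((∫ t in A..Mt, (Sc48.Jf lh lb T t - Sc48.Jf lh lb T A) ^ 2) +
          ∫ t in Mt..T, Sc48.Jf lh lb T t ^ 2) / C ≤
        (∫ t in A..T, (Gam lb t - Gam lh t - c0) * (lvr 1 lb t - lvr 1 lh t)) +
          |Gam lb Mt - Gam lh Mt - c0| * p + C * (len * (ε ^ 2 + len ^ 2 * p ^ 2)) +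
          3 * p * ∫ t in Mt..T, |Sc48.Jf lh lb T t| := by
  obtain ⟨C, c1, hC⟩ := g_ode T0
  set e := Real.exp (-(4 * T0)) with he
  have e0 : 0 < e := Real.exp_pos _
  set K := C + 30 with hK
  have K1 : 1 ≤ K := by linarith
  have q0 : 0 < 2 * K ^ 2 / e := by positivity
  refine ⟨2 * K ^ 2 / e + 1, by linarith, fun lb lh T hb hh tb th hT A Mt U len c0 p ε hA h1 h2 hU
    hz hl hc hp hε => ?_⟩
  have mA : A ∈ Icc 0 T := ⟨hA, by linarith⟩
  have mM : Mt ∈ Icc 0 T := ⟨by linarith, by linarith⟩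
  have mU : U ∈ Icc 0 T := ⟨by linarith, hU⟩
  have mT : T ∈ Icc 0 T := ⟨by linarith, le_rfl⟩
  have l0 : 0 ≤ len := by linarith
  have lu : LB T fun t => lvr 1 lb t - lvr 1 lh t := LB_u hb hh
  have lg : LB T fun t => GG lb t - GG lh t :=
    (LB.of_cont (tb ▸ (ode hb).2.1)).sub (.of_cont (th ▸ (ode hh).2.1))
  have lf : LB T fun t => Gam lb t - Gam lh t - c0 :=
    ((LB.of_cont (tb ▸ (ode hb).1)).sub (.of_cont (th ▸ (ode hh).1))).sub (LB.const _)
  have lJ : LB T (Sc48.Jf lh lb T) := LB_tail lu mT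
  have lI := LB_prim lu mA
  have lU := LB_tail lu mU
  have α0 : e ≤ AA lh A := Rig.Am_ge (Pp.Ode3.AP.of_ok hh) (th.trans_le hT) (th ▸ mA)
  have α1 : AA lh A ≤ 1 := ((ode hh).2.2.2 A (th ▸ mA)).2
  have eJ : ∀ t ∈ Icc 0 T, Sc48.Jf lh lb T t = ∫ s in t..U, (lvr 1 lb s - lvr 1 lh s) := fun t ht => by
    unfold Sc48.Jf
    rw [int_split lu ht mU mT, int_zero hU fun t a b => by rw [hz t a b, sub_self], add_zero]
  have zJ : ∀ t, U < t → t < T → Sc48.Jf lh lb T t = 0 := fun t a b =>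
    int_zero b.le fun s c d => by rw [hz s (a.trans c) d, sub_self]
  have eI : ∀ t ∈ Icc 0 T, ∫ s in A..t, (lvr 1 lb s - lvr 1 lh s) =
      Sc48.Jf lh lb T A - Sc48.Jf lh lb T t := fun t ht => by
    unfold Sc48.Jf
    rw [int_split lu mA ht mT]; ring
  have ι0 : 0 ≤ ∫ s in (0 : ℝ)..T, |Sc48.Jf lh lb T s| := integral_nonneg mT.1 fun _ _ => abs_nonneg _
  have j0 := abs_nonneg (Sc48.Jf lh lb T A)
  have p0 : 0 ≤ p := by linarith
  have ε0 : 0 ≤ ε := (abs_nonneg _).trans hε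
  have hK' : len * K ≤ AA lh A / 2 := by
    have a1 : 2 * K ^ 2 / e * len ≤ 1 := by nlinarith
    rw [div_mul_eq_mul_div, div_le_one e0] at a1
    have a2 : len * K * 1 ≤ len * K * K := mul_le_mul_of_nonneg_left K1 (by positivity)
    nlinarith
  have k := loc_pure (α := AA lh A) (ε := ε + K * (len * p)) (κ := 30 * len) (K := K) (p := p) lu lg lf
    hA h1 h2 hU hl (fun t ht => by rw [rho_int hb hh tb th hA ht.1 (ht.2.trans hU)]; ring)
    (e0.trans_le α0) α1 (by positivity) (by nlinarith) (by linarith) hK' (by positivity)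
    (by rw [← eJ A mA]; linarith) fun t t0 t1 => by
      obtain ⟨a1, a2⟩ := hC lb lh T hb hh tb th hT A t hA t0.le (t1.le.trans hU)
      set P1 := ∫ t in A..Mt, |∫ s in A..t, (lvr 1 lb s - lvr 1 lh s)| with hP1
      set P2 := ∫ t in Mt..U, |∫ s in t..U, (lvr 1 lb s - lvr 1 lh s)| with hP2
      have P10 : 0 ≤ P1 := integral_nonneg h1 fun _ _ => abs_nonneg _
      have P20 : 0 ≤ P2 := integral_nonneg h2 fun _ _ => abs_nonneg _
      have b1 : ∫ s in A..t, |Sc48.Jf lh lb T s| ≤ len * |Sc48.Jf lh lb T A| + (P1 + P2) := by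
        have c1 := int_sub_le lJ.abs hA le_rfl t0.le t1.le hU fun _ _ _ => abs_nonneg _
        have c2 := int_mono lJ.abs ((LB.const |Sc48.Jf lh lb T A|).add lI.abs) hA h1 mM.2
          fun s a b => by
            rw [eI s ⟨by linarith, by linarith⟩]
            have := abs_sub (Sc48.Jf lh lb T A) (Sc48.Jf lh lb T A - Sc48.Jf lh lb T s)
            rwa [sub_sub_cancel] at this
        have c3 := int_mono lJ.abs lU.abs mM.1 h2 hU fun s a b => by
          rw [eJ s ⟨by linarith, by linarith⟩]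
        rw [integral_add ((LB.const _).ii mA mM) (lI.abs.ii mA mM), intervalIntegral.integral_const,
          smul_eq_mul] at c2
        rw [int_split lJ.abs mA mM mU] at c1
        have := mul_le_mul_of_nonneg_right (show Mt - A ≤ len by linarith) j0
        linarith
      have b2 : ∫ s in A..t, |∫ r in A..s, (lvr 1 lb r - lvr 1 lh r)| ≤
          len * |Sc48.Jf lh lb T A| + (P1 + P2) := by
        have c1 := int_sub_le lI.abs hA le_rfl t0.le t1.le hU fun _ _ _ => abs_nonneg _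
        have c2 := int_mono lI.abs ((LB.const |Sc48.Jf lh lb T A|).add lU.abs) mM.1 h2 hU
          fun s a b => by
            rw [eI s ⟨by linarith, by linarith⟩, ← eJ s ⟨by linarith, by linarith⟩]
            exact abs_sub _ _
        rw [integral_add ((LB.const _).ii mM mU) (lU.abs.ii mM mU), intervalIntegral.integral_const,
          smul_eq_mul] at c2
        rw [int_split lI.abs mA mM mU] at c1
        have := mul_le_mul_of_nonneg_right (show U - Mt ≤ len by linarith) j0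
        linarith
      have b3 := mul_le_mul_of_nonneg_right (show t - A ≤ len by linarith) ι0
      have b4 := mul_le_mul_of_nonneg_right (show t - A ≤ len by linarith)
        (abs_nonneg (∫ s in A..t, (lvr 1 lb s - lvr 1 lh s)))
      have b5 := mul_le_mul_of_nonneg_left hp l0
      have b6 := mul_nonneg l0 ι0
      have b7 := a1.trans (mul_le_mul_of_nonneg_left (show _ ≤ len * p + (P1 + P2) by linarith)
        (by linarith))
      obtain ⟨d1, d2⟩ := abs_le.1 b7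
      obtain ⟨d3, d4⟩ := abs_le.1 a2
      obtain ⟨d5, d6⟩ := abs_le.1 hε
      rw [hK]
      refine abs_le.2 ⟨by linarith, by linarith⟩
  have r1 : ∫ t in A..Mt, (Sc48.Jf lh lb T t - Sc48.Jf lh lb T A) ^ 2 =
      ∫ t in A..Mt, (∫ s in A..t, (lvr 1 lb s - lvr 1 lh s)) ^ 2 :=
    integral_congr_Ioo_of_le h1 fun t ht => by
      rw [eI t ⟨by linarith [ht.1], by linarith [ht.2]⟩]; ring
  have r2 : ∫ t in Mt..T, Sc48.Jf lh lb T t ^ 2 =
      ∫ t in Mt..U, (∫ s in t..U, (lvr 1 lb s - lvr 1 lh s)) ^ 2 := by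
    rw [int_split lJ.sq mM mU mT, int_zero hU fun t a b => by rw [zJ t a b]; ring, add_zero]
    exact integral_congr_Ioo_of_le h2 fun t ht => by
      rw [eJ t ⟨by linarith [ht.1], by linarith [ht.2]⟩]
  have r3 : ∫ t in Mt..T, |Sc48.Jf lh lb T t| =
      ∫ t in Mt..U, |∫ s in t..U, (lvr 1 lb s - lvr 1 lh s)| := by
    rw [int_split lJ.abs mM mU mT, int_zero hU fun t a b => by rw [zJ t a b, abs_zero], add_zero]
    exact integral_congr_Ioo_of_le h2 fun t ht => by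
      rw [eJ t ⟨by linarith [ht.1], by linarith [ht.2]⟩]
  have r4 : ∫ t in A..T, (Gam lb t - Gam lh t - c0) * (lvr 1 lb t - lvr 1 lh t) =
      ∫ t in A..U, (Gam lb t - Gam lh t - c0) * (lvr 1 lb t - lvr 1 lh t) := by
    rw [int_split (lf.mul lu) mA mU mT, int_zero hU fun t a b => by rw [hz t a b]; ring, add_zero]
  rw [r1, r2, r3, r4]
  have E0 : 0 ≤ (∫ t in A..Mt, (∫ s in A..t, (lvr 1 lb s - lvr 1 lh s)) ^ 2) +
      ∫ t in Mt..U, (∫ s in t..U, (lvr 1 lb s - lvr 1 lh s)) ^ 2 := add_nonneg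
    (integral_nonneg h1 fun _ _ => sq_nonneg _) (integral_nonneg h2 fun _ _ => sq_nonneg _)
  have s1 : 1 / (2 * K ^ 2 / e + 1) ≤ AA lh A / 2 := by
    rw [div_le_iff₀ (by linarith)]
    have a1 : e / 2 * (2 * K ^ 2 / e) = K ^ 2 := by field_simp
    have a2 := mul_le_mul (show e / 2 ≤ AA lh A / 2 by linarith)
      (show 2 * K ^ 2 / e ≤ 2 * K ^ 2 / e + 1 by linarith) q0.le (by linarith)
    nlinarith
  have s2 : (ε + K * (len * p)) ^ 2 / AA lh A ≤ (2 * K ^ 2 / e + 1) * (ε ^ 2 + len ^ 2 * p ^ 2) := by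
    have a1 : (ε + K * (len * p)) ^ 2 ≤ 2 * K ^ 2 * (ε ^ 2 + len ^ 2 * p ^ 2) := by
      have : ε ^ 2 ≤ K ^ 2 * ε ^ 2 := le_mul_of_one_le_left (sq_nonneg _) (one_le_pow₀ K1)
      nlinarith [sq_nonneg (ε - K * (len * p))]
    calc _ ≤ 2 * K ^ 2 * (ε ^ 2 + len ^ 2 * p ^ 2) / e := div_le_div₀ (by positivity) a1 e0 α0
      _ = 2 * K ^ 2 / e * (ε ^ 2 + len ^ 2 * p ^ 2) := by ring
      _ ≤ _ := mul_le_mul_of_nonneg_right (by linarith) (by positivity)
  have s3 := mul_le_mul_of_nonneg_right s1 E0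
  have s4 := mul_le_mul_of_nonneg_left s2 l0
  rw [one_div_mul_eq_div] at s3
  linarith

/-- **`g` is small in a located window** -/
theorem g_small (T0 : ℝ) : ∃ C : ℝ, 1 ≤ C ∧ ∀ lb lh T, Ok lb → Ok lh → TT lb = T → TT lh = T →
    T ≤ T0 → ∀ x y A δ p q, 0 ≤ x → x < y → y ≤ T → A ∈ Icc x y →
      |Gam lb y - Gam lh y - (Gam lb x - Gam lh x)| ≤ δ →
      (∀ t, x < t → t < y → |lvr 1 lb t - lvr 1 lh t| ≤ q) →
      (∀ t, x < t → t < y → |Sc48.Jf lh lb T t| + (∫ s in (0 : ℝ)..T, |Sc48.Jf lh lb T s|) ≤ p) →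
      |GG lb A - GG lh A| ≤ δ / (y - x) + C * ((y - x) * (p + q)) := by
  obtain ⟨C, c1, hC⟩ := g_ode T0
  refine ⟨C + 2, by linarith, fun lb lh T hb hh tb th hT x y A δ p q hx hxy hy hA hδ hq hp => ?_⟩
  have mx : x ∈ Icc 0 T := ⟨hx, by linarith⟩
  have my : y ∈ Icc 0 T := ⟨by linarith, hy⟩
  have lu : LB T fun t => lvr 1 lb t - lvr 1 lh t := LB_u hb hh
  have lg : LB T fun t => GG lb t - GG lh t :=
    (LB.of_cont (tb ▸ (ode hb).2.1)).sub (.of_cont (th ▸ (ode hh).2.1))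
  have lJ : LB T (Sc48.Jf lh lb T) := LB_tail lu ⟨my.1.trans hy, le_rfl⟩
  obtain ⟨C', -, hO⟩ := Pp.Ode3.odeS T0
  have la : LB T (AA lh) := .of_cont (th ▸ (hO lh hh (th.trans_le hT)).1.2.2.1)
  have ι0 : 0 ≤ ∫ s in (0 : ℝ)..T, |Sc48.Jf lh lb T s| :=
    integral_nonneg (my.1.trans hy) fun _ _ => abs_nonneg _
  have d0 : 0 < y - x := by linarith
  have q0 : 0 ≤ q := (abs_nonneg _).trans (hq ((x + y) / 2) (by linarith) (by linarith))
  have p0 : 0 ≤ p := le_trans (by positivity) (hp ((x + y) / 2) (by linarith) (by linarith))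
  have key : ∀ a t, x ≤ a → a ≤ t → t ≤ y →
      |GG lb t - GG lh t - (GG lb a - GG lh a)| ≤ (C + 2) * ((y - x) * (p + q)) := fun a t a0 a1 a2 => by
    have b := (hC lb lh T hb hh tb th hT a t (hx.trans a0) a1 (a2.trans hy)).1
    have b1 := int_le_const lJ.abs (hx.trans a0) a1 (a2.trans hy)
      (K := p - ∫ s in (0 : ℝ)..T, |Sc48.Jf lh lb T s|) fun s c d => by
        linarith [hp s (a0.trans_lt c) (d.trans_le a2)]
    have b2 : |∫ s in a..t, AA lh s * (lvr 1 lb s - lvr 1 lh s)| ≤ (t - a) * q :=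
      (abs_integral_le_integral_abs a1).trans (int_le_const (la.mul lu).abs (hx.trans a0) a1
        (a2.trans hy) fun s c d => by
          obtain ⟨e1, e2⟩ := (ode hh).2.2.2 s (th ▸ ⟨by linarith, by linarith⟩)
          rw [abs_mul, abs_of_nonneg e1]
          exact (mul_le_of_le_one_left (abs_nonneg _) e2).trans (hq s (a0.trans_lt c) (d.trans_le a2)))
    have b3 := mul_le_mul_of_nonneg_right (show t - a ≤ y - x by linarith) p0
    have b4 := mul_le_mul_of_nonneg_right (show t - a ≤ y - x by linarith) q0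
    have b5 := b.trans (mul_le_mul_of_nonneg_left (show _ ≤ (y - x) * p by linarith) (by linarith))
    obtain ⟨d1, d2⟩ := abs_le.1 b5
    obtain ⟨d3, d4⟩ := abs_le.1 b2
    have r1 : 0 ≤ C * ((y - x) * q) := by positivity
    have r2 : 0 ≤ (y - x) * p := by positivity
    exact abs_le.2 ⟨by linarith, by linarith⟩
  have k2 : |∫ t in x..y, (GG lb t - GG lh t - (GG lb A - GG lh A))| ≤
      (y - x) * ((C + 2) * ((y - x) * (p + q))) :=
    (abs_integral_le_integral_abs hxy.le).trans (int_le_const (lg.sub (LB.const _)).abs hx hxy.le hy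
      fun t c d => by
        rcases le_total A t with h | h
        · exact key A t hA.1 h d.le
        · rw [abs_sub_comm]; exact key t A c.le h hA.2)
  rw [integral_sub (lg.ii mx my) ((LB.const _).ii mx my), rho_int hb hh tb th hx hxy.le hy,
    intervalIntegral.integral_const, smul_eq_mul] at k2
  obtain ⟨d1, d2⟩ := abs_le.1 k2
  obtain ⟨d3, d4⟩ := abs_le.1 hδ
  rw [← sub_le_iff_le_add, le_div_iff₀ d0, sub_mul, sub_le_iff_le_add, ← abs_of_pos d0, ← abs_mul,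
    abs_of_pos d0]
  exact abs_le.2 ⟨by linarith, by linarith⟩

end Crest.Agent.T156.Pr.Loc36

end
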