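import Crest.Agent.T156.Mx_8

/-!
# Row 156: localisation for `(μ + K)⁻¹`, `K i j = min (q i) (q j) w j` (helper8)

Window maximum principle, screening of boundary data, weighted (Agmon type) bounds.
-/

set_option autoImplicit false

noncomputable section

namespace Crest.Agent.T156.Mx

open Finset

variable {ι : Type*} [Fintype ι]

/-- affine function plus potential -/
def fn (α β : ℝ) (q a : ι → ℝ) (t : ℝ) : ℝ := α + β * t + pot q a t

/-- its right slope -/
def sl (β : ℝ) (q a : ι → ℝ) (t : ℝ) : ℝ := β + slp q a t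

open Classical in
/-- `c`-mass of the open interval `(s, t)` -/
def mass (q c : ι → ℝ) (s t : ℝ) : ℝ := ∑ j, if s < q j ∧ q j < t then c j else 0

/-- subsolution of `u'' = c u` on the open window `(s, t)` -/
def Sub (α β : ℝ) (q a c : ι → ℝ) (s t : ℝ) : Prop :=
  ∀ j, s < q j → q j < t → a j ≤ -(c j * fn α β q a (q j))

variable {q a c ν U : ι → ℝ} {α β : ℝ}

theorem ext_eq_fn (t : ℝ) : ext q c ν α U t = fn α 0 q (fun j => ν j - c j * U j) t := by
  unfold ext fn; ring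

theorem fn_sub_const (M t : ℝ) : fn (α - M) β q a t = fn α β q a t - M := by unfold fn; ring

theorem fn_neg (t : ℝ) : fn (-α) (-β) q (fun j => -a j) t = -fn α β q a t := by
  unfold fn; rw [pot_neg]; ring

theorem continuous_fn : Continuous (fn α β q a) := by
  unfold fn pot; fun_prop

theorem mass_nonneg (hc : ∀ j, 0 ≤ c j) (s t : ℝ) : 0 ≤ mass q c s t :=
  sum_nonneg fun j _ => by split_ifs; exacts [hc j, le_rfl]

theorem mass_mono (hc : ∀ j, 0 ≤ c j) {s t s' t' : ℝ} (hs : s' ≤ s) (ht : t ≤ t') :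
    mass q c s t ≤ mass q c s' t' :=
  sum_le_sum fun j _ => by
    by_cases h : s < q j ∧ q j < t
    · rw [if_pos h, if_pos ⟨hs.trans_lt h.1, h.2.trans_le ht⟩]
    · rw [if_neg h]; split_ifs; exacts [hc j, le_rfl]

theorem mass_neg (s t : ℝ) : mass (fun j => -q j) c (-t) (-s) = mass q c s t :=
  sum_congr rfl fun j _ => by simp only [neg_lt_neg_iff, and_comm]

theorem Sub.mono {s t s' t' : ℝ} (h : Sub α β q a c s t) (hs : s ≤ s') (ht : t' ≤ t) :
    Sub α β q a c s' t' := fun j h1 h2 => h j (hs.trans_lt h1) (h2.trans_le ht)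

/-! ### (L1) the window maximum principle -/

/-- nothing is assumed outside the window -/
theorem window_nonneg {s0 s1 t : ℝ} (h0 : 0 ≤ fn α β q a s0) (h1 : 0 ≤ fn α β q a s1)
    (h : ∀ j, s0 < q j → q j < s1 → fn α β q a (q j) < 0 → 0 ≤ a j)
    (ht0 : s0 ≤ t) (ht1 : t ≤ s1) : 0 ≤ fn α β q a t := by
  have h01 : s0 ≤ s1 := ht0.trans ht1
  set q' : Option ι → ℝ := fun o => o.elim (s1 - s0) fun j => max 0 (min (q j) s1 - s0) with hq'
  set a' : Option ι → ℝ := fun o => o.elim β a with ha'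
  have key : ∀ r, s0 ≤ r → r ≤ s1 → fn α β q a s0 + pot q' a' (r - s0) = fn α β q a r := by
    intro r hr0 hr1
    unfold fn pot
    rw [Fintype.sum_option]
    simp only [hq', ha', Option.elim]
    rw [min_eq_left (by linarith : r - s0 ≤ s1 - s0)]
    have : ∑ j, min (r - s0) (max 0 (min (q j) s1 - s0)) * a j =
        ∑ j, min r (q j) * a j - ∑ j, min s0 (q j) * a j := by
      rw [← sum_sub_distrib]
      refine sum_congr rfl fun j _ => ?_
      rw [← sub_mul]
      congr 1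
      simp only [min_def, max_def]
      split_ifs <;> linarith
    rw [this]; ring
  have hq0 : ∀ o, 0 ≤ q' o := by
    rintro (_ | j)
    · simp only [hq', Option.elim]; linarith
    · simp only [hq', Option.elim]; exact le_max_left _ _
  rw [← key t ht0 ht1]
  refine nonneg_of hq0 h0 ?_ (sub_nonneg.mpr ht0)
  rintro (_ | j) hj
  · have e : q' none = s1 - s0 := rfl
    rw [e, key s1 h01 le_rfl] at hj
    linarith
  · rcases le_or_gt (q j) s0 with c0 | c0
    · have e : q' (some j) = s0 - s0 := by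
        simp only [hq', Option.elim]
        rw [sub_self]; exact max_eq_left (by linarith [min_le_left (q j) s1])
      rw [e, key s0 le_rfl h01] at hj
      linarith
    · rcases le_or_gt s1 (q j) with c1 | c1
      · have e : q' (some j) = s1 - s0 := by
          simp only [hq', Option.elim]
          rw [min_eq_right c1]; exact max_eq_right (by linarith)
        rw [e, key s1 h01 le_rfl] at hj
        linarith
      · have e : q' (some j) = q j - s0 := by
          simp only [hq', Option.elim]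
          rw [min_eq_left c1.le]; exact max_eq_right (by linarith)
        rw [e, key _ c0.le c1.le] at hj
        exact h j c0 c1 hj

/-- a subsolution is at most its (positive) boundary values -/
theorem Sub.le_bdry {s0 s1 t B : ℝ} (h : Sub α β q a c s0 s1) (hc : ∀ j, 0 ≤ c j) (hB : 0 ≤ B)
    (h0 : fn α β q a s0 ≤ B) (h1 : fn α β q a s1 ≤ B) (ht0 : s0 ≤ t) (ht1 : t ≤ s1) :
    fn α β q a t ≤ B := by
  have e : ∀ r, fn (-(α - B)) (-β) q (fun j => -a j) r = B - fn α β q a r := fun r => by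
    rw [fn_neg, fn_sub_const]; ring
  have := window_nonneg (α := -(α - B)) (β := -β) (q := q) (a := fun j => -a j)
    (by rw [e]; linarith) (by rw [e]; linarith) (fun j j0 j1 hj => by
      rw [e] at hj
      have := mul_nonneg (hc j) (show 0 ≤ fn α β q a (q j) by linarith)
      linarith [h j j0 j1]) ht0 ht1
  rw [e] at this
  linarith

/-! ### growth of subsolutions -/

theorem fn_tangent {s t : ℝ} (hst : s ≤ t) (ha : ∀ j, s < q j → q j < t → a j ≤ 0) :
    fn α β q a s + (t - s) * sl β q a s ≤ fn α β q a t := by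
  have := pot_ge_tangent hst ha
  unfold fn sl
  linarith

theorem Sub.mono_right {s y r : ℝ} (h : Sub α β q a c s y) (hc : ∀ j, 0 ≤ c j)
    (h0 : 0 ≤ fn α β q a s) (h1 : 0 ≤ sl β q a s) (hsr : s ≤ r) (hry : r ≤ y) :
    fn α β q a s ≤ fn α β q a r := by
  classical
  by_contra hneg
  push Not at hneg
  set T : Finset ℝ := insert r ((univ.filter fun j => s < q j ∧ q j < r).image q) with hT
  obtain ⟨r0, hr0, hmin⟩ := exists_min_image (T.filter fun x => fn α β q a x < fn α β q a s) id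
    ⟨r, mem_filter.mpr ⟨by simp [hT], hneg⟩⟩
  obtain ⟨hr0T, hlt⟩ := mem_filter.mp hr0
  have hb : s ≤ r0 ∧ r0 ≤ r := by
    simp only [hT, mem_insert, mem_image, mem_filter, mem_univ, true_and] at hr0T
    rcases hr0T with rfl | ⟨j, hj, rfl⟩
    exacts [⟨hsr, le_rfl⟩, ⟨hj.1.le, hj.2.le⟩]
  have := fn_tangent (α := α) (β := β) (q := q) (a := a) hb.1 fun j j0 j1 => by
    have hj : fn α β q a s ≤ fn α β q a (q j) := by
      by_contra hc'
      have hm : q j ∈ T := by
        simp only [hT, mem_insert, mem_image, mem_filter, mem_univ, true_and]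
        exact Or.inr ⟨j, ⟨j0, j1.trans_le hb.2⟩, rfl⟩
      exact absurd (hmin (q j) (mem_filter.mpr ⟨hm, not_le.mp hc'⟩)) (not_le.mpr j1)
    have := mul_nonneg (hc j) (h0.trans hj)
    linarith [h j j0 (j1.trans_le (hb.2.trans hry))]
  have := mul_nonneg (sub_nonneg.mpr hb.1) h1
  linarith

theorem Sub.sl_ge {s y r : ℝ} (h : Sub α β q a c s y) (hc : ∀ j, 0 ≤ c j)
    (h0 : 0 ≤ fn α β q a s) (h1 : 0 ≤ sl β q a s) (hsr : s ≤ r) (hry : r < y) :
    sl β q a s + mass q c s r * fn α β q a s ≤ sl β q a r := by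
  classical
  have e := slp_sub (q := q) a hsr
  have h2 : (∑ j, if s < q j ∧ q j ≤ r then a j else 0) ≤ -(mass q c s r * fn α β q a s) := by
    unfold mass
    rw [sum_mul, ← sum_neg_distrib]
    refine sum_le_sum fun j _ => ?_
    by_cases hj : s < q j ∧ q j ≤ r
    · rw [if_pos hj]
      have m := h.mono_right hc h0 h1 hj.1.le (hj.2.trans hry.le)
      have m1 := h j hj.1 (hj.2.trans_lt hry)
      have m2 := mul_le_mul_of_nonneg_left m (hc j)
      have m3 := mul_nonneg (hc j) h0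
      split_ifs <;> linarith
    · rw [if_neg hj, if_neg fun h' => hj ⟨h'.1, h'.2.le⟩]; simp
  have e' : slp q a s - slp q a r ≤ -(mass q c s r * fn α β q a s) := by
    rw [e]; convert h2
  unfold sl
  linarith

/-- screening factor `θ` from `s` up to `y` -/
def ScrR (q c : ι → ℝ) (s y θ : ℝ) : Prop :=
  ∀ (α β : ℝ) (a : ι → ℝ), Sub α β q a c s y → 0 ≤ fn α β q a s → 0 ≤ sl β q a s →
    θ * fn α β q a s ≤ fn α β q a y

/-- screening factor `θ` from `s` down to `y` -/
def ScrL (q c : ι → ℝ) (y s θ : ℝ) : Prop := ScrR (fun j => -q j) c (-s) (-y) θ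

theorem ScrR.mono {s y θ θ' : ℝ} (h : ScrR q c s y θ) (hθ : θ' ≤ θ) : ScrR q c s y θ' :=
  fun α β a h1 h2 h3 => (mul_le_mul_of_nonneg_right hθ h2).trans (h α β a h1 h2 h3)

theorem scrR_one (hc : ∀ j, 0 ≤ c j) {s y : ℝ} (hsy : s ≤ y) : ScrR q c s y 1 :=
  fun _ _ _ h1 h2 h3 => by rw [one_mul]; exact h1.mono_right hc h2 h3 hsy le_rfl

theorem scrR_step (hc : ∀ j, 0 ≤ c j) {s r y : ℝ} (hsr : s ≤ r) (hry : r ≤ y) :
    ScrR q c s y (1 + (y - r) * mass q c s r) := by
  intro α β a h h0 h1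
  rcases hry.eq_or_lt with rfl | hlt
  · simpa using h.mono_right hc h0 h1 hsr le_rfl
  have m1 := h.sl_ge hc h0 h1 hsr hlt
  have m2 := h.mono_right hc h0 h1 hsr hry
  have m3 := fn_tangent (α := α) (β := β) (q := q) (a := a) hry fun j j0 j1 => by
    have := mul_nonneg (hc j) (h0.trans (h.mono_right hc h0 h1 (hsr.trans j0.le) j1.le))
    linarith [h j (hsr.trans_lt j0) j1]
  have m4 := mul_le_mul_of_nonneg_left
    (show mass q c s r * fn α β q a s ≤ sl β q a r by linarith) (sub_nonneg.mpr hry)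
  nlinarith

theorem ScrR.trans (hc : ∀ j, 0 ≤ c j) {s r y θ θ' : ℝ} (h : ScrR q c s r θ) (h' : ScrR q c r y θ')
    (hsr : s ≤ r) (hry : r < y) (hθ' : 0 ≤ θ') : ScrR q c s y (θ * θ') := by
  intro α β a h1 h2 h3
  have m1 := h α β a (h1.mono le_rfl hry.le) h2 h3
  have m2 := h1.sl_ge hc h2 h3 hsr hry
  have m3 := mul_nonneg (mass_nonneg (q := q) hc s r) h2
  have m4 := h' α β a (h1.mono hsr le_rfl) (h2.trans (h1.mono_right hc h2 h3 hsr hry.le))
    (by linarith)
  have := mul_le_mul_of_nonneg_left m1 hθ'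
  linarith

theorem ScrR.extend (hc : ∀ j, 0 ≤ c j) {s r y θ : ℝ} (h : ScrR q c s r θ) (hsr : s ≤ r)
    (hry : r ≤ y) : ScrR q c s y θ := by
  rcases hry.eq_or_lt with rfl | hlt
  · exact h
  · simpa using h.trans hc (scrR_one hc hry) hsr hlt zero_le_one

/-- chain of windows `x 0 < x 1 < …`, each with factor `θ` -/
theorem scrR_chain (hc : ∀ j, 0 ≤ c j) {θ : ℝ} (hθ : 0 ≤ θ) (x : ℕ → ℝ) (k : ℕ)
    (hx : ∀ m, m < k → x m < x (m + 1)) (h : ∀ m, m < k → ScrR q c (x m) (x (m + 1)) θ) :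
    x 0 ≤ x k ∧ ScrR q c (x 0) (x k) (θ ^ k) := by
  induction k with
  | zero => exact ⟨le_rfl, by rw [pow_zero]; exact scrR_one hc le_rfl⟩
  | succ k ih =>
    obtain ⟨i1, i2⟩ := ih (fun m hm => hx m (by omega)) fun m hm => h m (by omega)
    have := hx k (by omega)
    exact ⟨i1.trans this.le, by rw [pow_succ]; exact i2.trans hc (h k (by omega)) i1 this hθ⟩

/-- mass `≥ γ` in every window of length `l`: factor `(1 + γ l) ^ k` over the distance `2 l k` -/
theorem scrR_pow (hc : ∀ j, 0 ≤ c j) {s y l γ : ℝ} (hl : 0 < l) (hγ : 0 ≤ γ) (k : ℕ)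
    (hsy : s + 2 * l * k ≤ y) (h : ∀ r, s ≤ r → r + l ≤ y → γ ≤ mass q c r (r + l)) :
    ScrR q c s y ((1 + γ * l) ^ k) := by
  have := scrR_chain (q := q) hc (θ := 1 + γ * l) (by positivity) (fun m => s + 2 * l * m) k
    (fun m _ => by push_cast; linarith) fun m hm => by
      have hm' : (m : ℝ) + 1 ≤ k := by exact_mod_cast hm
      have hm0 : (0 : ℝ) ≤ 2 * l * m := by positivity
      have h1 := h (s + 2 * l * m) (by linarith) (by nlinarith)
      refine (scrR_step hc (r := s + 2 * l * m + l) (by linarith)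
        (by push_cast; linarith)).mono ?_
      push_cast
      nlinarith
  simp only [Nat.cast_zero, mul_zero, add_zero] at this
  exact this.2.extend hc this.1 hsy

theorem ScrL.mono {s y θ θ' : ℝ} (h : ScrL q c y s θ) (hθ : θ' ≤ θ) : ScrL q c y s θ' :=
  ScrR.mono h hθ

theorem scrL_one (hc : ∀ j, 0 ≤ c j) {s y : ℝ} (hsy : y ≤ s) : ScrL q c y s 1 :=
  scrR_one hc (neg_le_neg hsy)

theorem scrL_step (hc : ∀ j, 0 ≤ c j) {s r y : ℝ} (hsr : r ≤ s) (hry : y ≤ r) :
    ScrL q c y s (1 + (r - y) * mass q c r s) := by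
  have := scrR_step (q := fun j => -q j) hc (neg_le_neg hsr) (neg_le_neg hry)
  rw [mass_neg, show -y - -r = r - y by ring] at this
  exact this

theorem ScrL.trans (hc : ∀ j, 0 ≤ c j) {s r y θ θ' : ℝ} (h : ScrL q c r s θ) (h' : ScrL q c y r θ')
    (hsr : r ≤ s) (hry : y < r) (hθ' : 0 ≤ θ') : ScrL q c y s (θ * θ') :=
  ScrR.trans hc h h' (neg_le_neg hsr) (neg_lt_neg hry) hθ'

theorem scrL_chain (hc : ∀ j, 0 ≤ c j) {θ : ℝ} (hθ : 0 ≤ θ) (x : ℕ → ℝ) (k : ℕ)
    (hx : ∀ m, m < k → x (m + 1) < x m) (h : ∀ m, m < k → ScrL q c (x (m + 1)) (x m) θ) :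
    ScrL q c (x k) (x 0) (θ ^ k) :=
  (scrR_chain (q := fun j => -q j) hc hθ (fun m => -x m) k (fun m hm => neg_lt_neg (hx m hm))
    h).2

theorem scrL_pow (hc : ∀ j, 0 ≤ c j) {s y l γ : ℝ} (hl : 0 < l) (hγ : 0 ≤ γ) (k : ℕ)
    (hsy : y + 2 * l * k ≤ s) (h : ∀ r, y ≤ r → r + l ≤ s → γ ≤ mass q c r (r + l)) :
    ScrL q c y s ((1 + γ * l) ^ k) := by
  refine scrR_pow hc hl hγ k (by linarith) fun r h1 h2 => ?_
  have := h (-r - l) (by linarith) (by linarith)
  rw [← mass_neg, show -(-r - l + l) = r by ring, show -(-r - l) = r + l by ring] at this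
  exact this

/-! ### reflection -/

theorem fn_refl (t : ℝ) :
    fn (α + ∑ j, q j * a j) (-β - ∑ j, a j) (fun j => -q j) a (-t) = fn α β q a t := by
  unfold fn pot
  have : ∑ j, min (-t) (-q j) * a j = ∑ j, min t (q j) * a j - ∑ j, q j * a j - t * ∑ j, a j := by
    rw [mul_sum, ← sum_sub_distrib, ← sum_sub_distrib]
    refine sum_congr rfl fun j _ => ?_
    rcases le_total t (q j) with h | h
    · rw [min_eq_left h, min_eq_right (neg_le_neg h)]; ring
    · rw [min_eq_right h, min_eq_left (neg_le_neg h)]; ring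
  rw [this]; ring

theorem sl_refl {t : ℝ} (ha : ∀ j, q j = t → a j ≤ 0) :
    -sl β q a t ≤ sl (-β - ∑ j, a j) (fun j => -q j) a (-t) := by
  unfold sl slp
  have : ∑ j, a j ≤ (∑ j, if t < q j then a j else 0) + ∑ j, if -t < -q j then a j else 0 := by
    rw [← sum_add_distrib]
    refine sum_le_sum fun j _ => ?_
    rcases lt_trichotomy t (q j) with h | h | h
    · rw [if_pos h, if_neg (by linarith)]; linarith
    · rw [if_neg (by linarith), if_neg (by linarith)]; linarith [ha j h.symm]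
    · rw [if_neg (by linarith), if_pos (by linarith)]; linarith
  linarith

theorem ScrL.apply {y s θ : ℝ} (h : ScrL q c y s θ) (hs : Sub α β q a c y s)
    (h0 : 0 ≤ fn α β q a s) (h1 : sl β q a s ≤ 0) (ha : ∀ j, q j = s → a j ≤ 0) :
    θ * fn α β q a s ≤ fn α β q a y := by
  have := h (α + ∑ j, q j * a j) (-β - ∑ j, a j) a
    (fun j j0 j1 => by rw [fn_refl]; exact hs j (by linarith) (by linarith))
    (by rw [fn_refl]; exact h0) (by linarith [sl_refl (β := β) ha])
  rwa [fn_refl, fn_refl] at this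

/-! ### (L2), (L3) screening of the boundary data -/

theorem Sub.cases {s0 s1 t θ0 θ1 : ℝ} (h : Sub α β q a c s0 s1) (hc : ∀ j, 0 ≤ c j)
    (ht0 : s0 < t) (ht1 : t < s1) (hL : ScrL q c s0 t θ0) (hR : ScrR q c t s1 θ1) :
    fn α β q a t ≤ 0 ∨ θ0 * fn α β q a t ≤ fn α β q a s0 ∨
      θ1 * fn α β q a t ≤ fn α β q a s1 := by
  rcases le_total (fn α β q a t) 0 with h0 | h0
  · exact Or.inl h0
  rcases le_total (sl β q a t) 0 with h1 | h1
  · refine Or.inr (Or.inl (hL.apply (h.mono le_rfl ht1.le) h0 h1 fun j hj => ?_))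
    have := h j (hj ▸ ht0) (hj ▸ ht1)
    rw [hj] at this
    linarith [mul_nonneg (hc j) h0]
  · exact Or.inr (Or.inr (hR α β a (h.mono ht0.le le_rfl) h0 h1))

/-- free upper end: slope `β ≤ 0` above all nodes -/
theorem Sub.cases_top {s0 t θ0 : ℝ} (h : ∀ y, Sub α β q a c s0 y) (hc : ∀ j, 0 ≤ c j)
    (hβ : β ≤ 0) (ht0 : s0 < t) (hL : ScrL q c s0 t θ0) :
    fn α β q a t ≤ 0 ∨ θ0 * fn α β q a t ≤ fn α β q a s0 := by
  rcases le_total (fn α β q a t) 0 with h0 | h0
  · exact Or.inl h0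
  have h1 : sl β q a t ≤ 0 := by
    by_contra hn
    push Not at hn
    have hr : t ≤ t + ∑ j, |q j - t| := le_add_of_nonneg_right (sum_nonneg fun j _ => abs_nonneg _)
    have m := ((h (t + ∑ j, |q j - t| + 1)).mono ht0.le le_rfl).sl_ge hc h0 hn.le hr (by linarith)
    have e : slp q a (t + ∑ j, |q j - t|) = 0 := sum_eq_zero fun j _ => if_neg (by
      have := single_le_sum (f := fun j => |q j - t|) (fun j _ => abs_nonneg _) (mem_univ j)
      linarith [le_abs_self (q j - t)])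
    have := mul_nonneg (mass_nonneg (q := q) hc t (t + ∑ j, |q j - t|)) h0
    unfold sl at m hn
    linarith
  refine Or.inr (hL.apply (h t) h0 h1 fun j hj => ?_)
  have := h (t + 1) j (hj ▸ ht0) (by linarith)
  rw [hj] at this
  linarith [mul_nonneg (hc j) h0]

theorem sub_of_abs {s0 s1 M : ℝ}
    (h : ∀ j, s0 < q j → q j < s1 → |a j + c j * fn α β q a (q j)| ≤ c j * M) :
    Sub (α - M) β q a c s0 s1 ∧ Sub (-α - M) (-β) q (fun j => -a j) c s0 s1 :=
  ⟨fun j j0 j1 => by rw [fn_sub_const]; linarith [(_root_.abs_le.mp (h j j0 j1)).2],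
    fun j j0 j1 => by rw [fn_sub_const, fn_neg]; linarith [(_root_.abs_le.mp (h j j0 j1)).1]⟩

/-- **localisation**: the equation up to `c M` inside the window -/
theorem abs_le_window {s0 s1 t θ0 θ1 M : ℝ} (hc : ∀ j, 0 ≤ c j) (hM : 0 ≤ M)
    (h : ∀ j, s0 < q j → q j < s1 → |a j + c j * fn α β q a (q j)| ≤ c j * M)
    (ht0 : s0 < t) (ht1 : t < s1) (hL : ScrL q c s0 t θ0) (hR : ScrR q c t s1 θ1)
    (hθ0 : 0 < θ0) (hθ1 : 0 < θ1) :
    |fn α β q a t| ≤ M + max (|fn α β q a s0| / θ0) (|fn α β q a s1| / θ1) := by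
  obtain ⟨h1, h2⟩ := sub_of_abs h
  have c1 := h1.cases hc ht0 ht1 hL hR
  have c2 := h2.cases hc ht0 ht1 hL hR
  simp only [fn_sub_const, fn_neg] at c1 c2
  have key : ∀ x : ℝ, (x ≤ 0 ∨ θ0 * x ≤ |fn α β q a s0| ∨ θ1 * x ≤ |fn α β q a s1|) →
      x ≤ max (|fn α β q a s0| / θ0) (|fn α β q a s1| / θ1) := by
    rintro x (hx | hx | hx)
    · exact hx.trans (le_max_of_le_left (by positivity))
    · exact le_max_of_le_left (by rw [le_div_iff₀ hθ0]; linarith)
    · exact le_max_of_le_right (by rw [le_div_iff₀ hθ1]; linarith)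
  have k1 := key (fn α β q a t - M) (c1.imp id (Or.imp
    (fun h => by linarith [le_abs_self (fn α β q a s0)])
    fun h => by linarith [le_abs_self (fn α β q a s1)]))
  have k2 := key (-fn α β q a t - M) (c2.imp id (Or.imp
    (fun h => by linarith [neg_abs_le (fn α β q a s0)])
    fun h => by linarith [neg_abs_le (fn α β q a s1)]))
  exact _root_.abs_le.mpr ⟨by linarith, by linarith⟩

/-- the same with a free upper end -/
theorem abs_le_top {s0 t θ0 M : ℝ} (hc : ∀ j, 0 ≤ c j) (hM : 0 ≤ M)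
    (h : ∀ j, s0 < q j → |a j + c j * fn α 0 q a (q j)| ≤ c j * M)
    (ht0 : s0 < t) (hL : ScrL q c s0 t θ0) (hθ0 : 0 < θ0) :
    |fn α 0 q a t| ≤ M + |fn α 0 q a s0| / θ0 := by
  have hs := fun y => sub_of_abs (s1 := y) fun j j0 _ => h j j0
  have c1 := Sub.cases_top (fun y => (hs y).1) hc le_rfl ht0 hL
  have c2 := Sub.cases_top (fun y => (hs y).2) hc (by simp) ht0 hL
  simp only [fn_sub_const, fn_neg] at c1 c2
  have key : ∀ x : ℝ, (x ≤ 0 ∨ θ0 * x ≤ |fn α 0 q a s0|) → x ≤ |fn α 0 q a s0| / θ0 := by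
    rintro x (hx | hx)
    · exact hx.trans (by positivity)
    · rw [le_div_iff₀ hθ0]; linarith
  have k1 := key (fn α 0 q a t - M) (c1.imp id
    fun h => by linarith [le_abs_self (fn α 0 q a s0)])
  have k2 := key (-fn α 0 q a t - M) (c2.imp id
    fun h => by linarith [neg_abs_le (fn α 0 q a s0)])
  exact _root_.abs_le.mpr ⟨by linarith, by linarith⟩

/-- **(L2)** the integrated equation holds with a sup error `ε` at the nodes of the window -/
theorem loc_sup {s0 s1 θ0 θ1 M ε : ℝ} (hc : ∀ j, 0 ≤ c j) (hM : 0 ≤ M) (hε : 0 ≤ ε)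
    (hE : ∀ j, s0 < q j → q j < s1 → |U j - fn α β q (fun k => ν k - c k * U k) (q j)| ≤ ε)
    (hν : ∀ j, s0 < q j → q j < s1 → |ν j| ≤ c j * M) {i : ι}
    (h0 : s0 < q i) (h1 : q i < s1) (hL : ScrL q c s0 (q i) θ0) (hR : ScrR q c (q i) s1 θ1)
    (hθ0 : 0 < θ0) (hθ1 : 0 < θ1) :
    |U i| ≤ 2 * ε + M + max (|fn α β q (fun k => ν k - c k * U k) s0| / θ0)
      (|fn α β q (fun k => ν k - c k * U k) s1| / θ1) := by
  have := abs_le_window (α := α) (β := β) (q := q) (a := fun k => ν k - c k * U k) hc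
    (add_nonneg hε hM) (fun j j0 j1 => by
      have e1 := _root_.abs_le.mp (hE j j0 j1)
      have e2 := _root_.abs_le.mp (hν j j0 j1)
      have e3 := mul_le_mul_of_nonneg_left e1.1 (hc j)
      have e4 := mul_le_mul_of_nonneg_left e1.2 (hc j)
      exact _root_.abs_le.mpr ⟨by linarith, by linarith⟩) h0 h1 hL hR hθ0 hθ1
  have e := _root_.abs_le.mp (hE i h0 h1)
  have e' := _root_.abs_le.mp this
  exact _root_.abs_le.mpr ⟨by linarith, by linarith⟩

/-- **(L3)** decay above the source -/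
theorem Sol.decay_above (h : Sol q c ν α U) (hc : ∀ j, 0 ≤ c j) {y t θ : ℝ}
    (hν : ∀ j, y < q j → ν j = 0) (hyt : y < t) (hL : ScrL q c y t θ) (hθ : 0 < θ) :
    |ext q c ν α U t| ≤ |ext q c ν α U y| / θ := by
  have := abs_le_top (α := α) (q := q) (a := fun k => ν k - c k * U k) hc le_rfl
    (fun j hj => by rw [← ext_eq_fn, h.ext_eq j, hν j hj]; simp) hyt hL hθ
  rwa [zero_add, ← ext_eq_fn, ← ext_eq_fn] at this

/-! ### (L4) weighted bounds -/

/-- weighted sup bound: the weight `φ` varies by at most `Λ` over windows screening by `2 Λ` -/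
theorem weighted {s0 s1 M B Λ φ0 : ℝ} {φ : ℝ → ℝ} (hc : ∀ j, 0 ≤ c j) (hM : 0 ≤ M) (hΛ : 0 < Λ)
    (hφ0 : 0 < φ0) (hφ : ∀ t, s0 ≤ t → t ≤ s1 → φ0 ≤ φ t)
    (h : ∀ j, s0 < q j → q j < s1 → |a j + c j * fn α β q a (q j)| ≤ c j * (M * φ (q j)))
    (hw : ∀ t, s0 ≤ t → t ≤ s1 → |fn α β q a t| ≤ B * φ t ∨
      (∃ lo hi, s0 ≤ lo ∧ lo < t ∧ t < hi ∧ hi ≤ s1 ∧ ScrR q c t hi (2 * Λ) ∧
        (ScrL q c lo t (2 * Λ) ∨ fn α β q a lo = 0) ∧ ∀ r, lo ≤ r → r ≤ hi → φ r ≤ Λ * φ t) ∨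
      (β = 0 ∧ (∀ j, q j < s1) ∧ ∃ lo, s0 ≤ lo ∧ lo < t ∧
        (ScrL q c lo t (2 * Λ) ∨ fn α β q a lo = 0) ∧ ∀ r, lo ≤ r → r ≤ s1 → φ r ≤ Λ * φ t))
    {t : ℝ} (ht0 : s0 ≤ t) (ht1 : t ≤ s1) : |fn α β q a t| ≤ max B (2 * M * Λ) * φ t := by
  obtain ⟨C, hC⟩ := (isCompact_Icc (a := s0) (b := s1)).exists_bound_of_continuousOn
    (continuous_fn (α := α) (β := β) (q := q) (a := a)).continuousOn
  have hpos : ∀ t, s0 ≤ t → t ≤ s1 → 0 < φ t := fun t h0 h1 => hφ0.trans_le (hφ t h0 h1)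
  set S : Set ℝ := (fun t => |fn α β q a t| / φ t) '' Set.Icc s0 s1 with hS
  have hbdd : BddAbove S := ⟨C / φ0, by
    rintro _ ⟨r, hr, rfl⟩
    have h1 : |fn α β q a r| ≤ C := hC r hr
    exact div_le_div₀ ((abs_nonneg _).trans h1) h1 hφ0 (hφ r hr.1 hr.2)⟩
  have hW : ∀ r, s0 ≤ r → r ≤ s1 → |fn α β q a r| ≤ sSup S * φ r := fun r h0 h1 => by
    rw [← div_le_iff₀ (hpos r h0 h1)]
    exact le_csSup hbdd ⟨r, ⟨h0, h1⟩, rfl⟩
  have hW0 : 0 ≤ sSup S :=
    le_trans (div_nonneg (abs_nonneg _) (hpos t ht0 ht1).le)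
      (le_csSup hbdd ⟨t, ⟨ht0, ht1⟩, rfl⟩)
  have bd : ∀ r x, s0 ≤ x → x ≤ s1 → φ x ≤ Λ * φ r →
      |fn α β q a x| / (2 * Λ) ≤ sSup S / 2 * φ r := fun r x h0 h1 h2 => by
    rw [div_le_iff₀ (by positivity)]
    have := mul_le_mul_of_nonneg_left h2 hW0
    linarith [hW x h0 h1]
  have hsup : sSup S ≤ max B (M * Λ + sSup S / 2) := by
    refine csSup_le ⟨_, t, ⟨ht0, ht1⟩, rfl⟩ ?_
    rintro _ ⟨r, ⟨r0, r1⟩, rfl⟩
    have hp := hpos r r0 r1
    have hz : (0 : ℝ) ≤ sSup S / 2 * φ r := by positivity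
    show |fn α β q a r| / φ r ≤ _
    rw [div_le_iff₀ hp]
    rcases hw r r0 r1 with h1 | ⟨lo, hi, l0, l1, l2, l3, hR, hL, hv⟩ |
      ⟨hβ, htop, lo, l0, l1, hL, hv⟩
    · exact h1.trans (mul_le_mul_of_nonneg_right (le_max_left _ _) hp.le)
    · refine le_trans ?_ (mul_le_mul_of_nonneg_right (le_max_right _ _) hp.le)
      have he : ∀ j, lo < q j → q j < hi →
          |a j + c j * fn α β q a (q j)| ≤ c j * (M * (Λ * φ r)) := fun j j0 j1 =>
        (h j (l0.trans_lt j0) (j1.trans_le l3)).trans (mul_le_mul_of_nonneg_left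
          (mul_le_mul_of_nonneg_left (hv _ j0.le j1.le) hM) (hc j))
      have b1 := bd r hi (by linarith) l3 (hv hi (by linarith) le_rfl)
      rcases hL with hL | hL
      · have m := abs_le_window hc (by positivity) he l1 l2 hL hR (by positivity) (by positivity)
        have b0 := bd r lo l0 (by linarith) (hv lo le_rfl (by linarith))
        have := max_le b0 b1
        linarith
      · have m := abs_le_window hc (by positivity) he l1 l2 (scrL_one hc l1.le) hR one_pos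
          (by positivity)
        have := max_le (show |fn α β q a lo| / 1 ≤ sSup S / 2 * φ r by rw [hL]; simpa using hz) b1
        linarith
    · refine le_trans ?_ (mul_le_mul_of_nonneg_right (le_max_right _ _) hp.le)
      subst hβ
      have he : ∀ j, lo < q j → |a j + c j * fn α 0 q a (q j)| ≤ c j * (M * (Λ * φ r)) :=
        fun j j0 => (h j (l0.trans_lt j0) (htop j)).trans (mul_le_mul_of_nonneg_left
          (mul_le_mul_of_nonneg_left (hv _ j0.le (htop j).le) hM) (hc j))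
      rcases hL with hL | hL
      · have m := abs_le_top hc (by positivity) he l1 hL (by positivity)
        have b0 := bd r lo l0 (by linarith) (hv lo le_rfl (by linarith))
        linarith
      · have m := abs_le_top hc (by positivity) he l1 (scrL_one hc l1.le) one_pos
        rw [hL] at m
        simp only [abs_zero, zero_div, add_zero] at m
        linarith
  have hfin : sSup S ≤ max B (2 * M * Λ) := by
    rcases le_max_iff.mp hsup with h1 | h1
    · exact le_max_of_le_left h1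
    · exact le_max_of_le_right (by linarith)
  exact (hW t ht0 ht1).trans (mul_le_mul_of_nonneg_right hfin (hpos t ht0 ht1).le)

/-- self-adjointness of `ν ↦ U` -/
theorem Sol.dual {ν' V : ι → ℝ} (h : Sol q c ν 0 U) (h' : Sol q c ν' 0 V) :
    ∑ i, ν' i * U i = ∑ i, ν i * V i := by
  have e := pot_symm q (fun j => ν j - c j * U j) fun j => ν' j - c j * V j
  have e1 : ∀ i, pot q (fun j => ν j - c j * U j) (q i) = U i := fun i => by
    have := h.ext_eq i; unfold ext at this; linarith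
  have e2 : ∀ i, pot q (fun j => ν' j - c j * V j) (q i) = V i := fun i => by
    have := h'.ext_eq i; unfold ext at this; linarith
  simp only [e1, e2, sub_mul, sum_sub_distrib] at e
  have : ∑ i, c i * U i * V i = ∑ i, c i * V i * U i := sum_congr rfl fun i _ => by ring
  linarith

/-- weighted `ℓ¹` bound from the weighted sup bound `T φ ≤ C φ` -/
theorem Sol.weighted_l1 {φ V : ι → ℝ} {C : ℝ} (h : Sol q c ν 0 U) (hq : ∀ j, 0 ≤ q j)
    (hc : ∀ j, 0 ≤ c j) (hφ : ∀ j, 0 ≤ φ j) (hV : Sol q c (fun j => c j * φ j) 0 V)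
    (hC : ∀ j, V j ≤ C * φ j) : ∑ j, c j * φ j * |U j| ≤ C * ∑ j, φ j * |ν j| := by
  obtain ⟨U', h'⟩ := exists_sol hq hc (fun j => |ν j|) 0
  calc ∑ j, c j * φ j * |U j| ≤ ∑ j, c j * φ j * U' j :=
        sum_le_sum fun j _ => mul_le_mul_of_nonneg_left
          (h.abs_le h' hq hc (fun _ => le_rfl) (by simp) j) (mul_nonneg (hc j) (hφ j))
    _ = ∑ j, |ν j| * V j := h'.dual hV
    _ ≤ C * ∑ j, φ j * |ν j| := by
        rw [mul_sum]
        exact sum_le_sum fun j _ => by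
          have := mul_le_mul_of_nonneg_left (hC j) (abs_nonneg (ν j))
          linarith

/-- Jensen's inequality for the sub-Markov operator `T : f ↦ U` -/
theorem Sol.sq_le {f V : ι → ℝ} (h : Sol q c (fun j => c j * f j) 0 U)
    (h' : Sol q c (fun j => c j * f j ^ 2) 0 V) (hq : ∀ j, 0 ≤ q j) (hc : ∀ j, 0 ≤ c j) (i : ι) :
    U i ^ 2 ≤ V i := by
  have m := (h.smul (2 * U i)).le (h'.add (sol_const q c (U i ^ 2))) hq hc
    (fun j => by nlinarith [mul_nonneg (hc j) (sq_nonneg (f j - U i))])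
    (by nlinarith [sq_nonneg (U i)]) i
  nlinarith

/-- **Agmon estimate**: weighted `L²(c)` bound from `T φ ≤ C φ` -/
theorem Sol.weighted_l2 {f φ V : ι → ℝ} {C : ℝ} (h : Sol q c (fun j => c j * f j) 0 U)
    (hq : ∀ j, 0 ≤ q j) (hc : ∀ j, 0 ≤ c j) (hφ : ∀ j, 0 ≤ φ j)
    (hV : Sol q c (fun j => c j * φ j) 0 V) (hC : ∀ j, V j ≤ C * φ j) :
    ∑ j, c j * φ j * U j ^ 2 ≤ C * ∑ j, c j * φ j * f j ^ 2 := by
  obtain ⟨U', h'⟩ := exists_sol hq hc (fun j => c j * f j ^ 2) 0
  calc ∑ j, c j * φ j * U j ^ 2 ≤ ∑ j, c j * φ j * U' j :=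
        sum_le_sum fun j _ => mul_le_mul_of_nonneg_left (h.sq_le h' hq hc j)
          (mul_nonneg (hc j) (hφ j))
    _ = ∑ j, c j * f j ^ 2 * V j := h'.dual hV
    _ ≤ C * ∑ j, c j * φ j * f j ^ 2 := by
        rw [mul_sum]
        exact sum_le_sum fun j _ => by
          have := mul_le_mul_of_nonneg_left (hC j) (mul_nonneg (hc j) (sq_nonneg (f j)))
          linarith

/-- `μ G + K (w G) = s` means `μ G = s - T s` with `c = w / μ` -/
theorem sol_of_rhs {μ w G s : ι → ℝ} (hμ : ∀ j, 0 < μ j)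
    (h : ∀ i, μ i * G i + pot q (fun j => w j * G j) (q i) = s i) :
    Sol q (fun j => w j / μ j) (fun j => w j / μ j * s j) 0 fun j => s j - μ j * G j := by
  intro i
  rw [pot_congr (b := fun j => w j / μ j * s j - w j * G j)
    (fun j => by have := (hμ j).ne'; field_simp), pot_sub]
  linarith [h i]

/-- Agmon estimate for `(μ + K)⁻¹` -/
theorem agmon_mass {μ w G s φ V : ι → ℝ} {C : ℝ} (hq : ∀ j, 0 ≤ q j) (hw : ∀ j, 0 ≤ w j)
    (hμ : ∀ j, 0 < μ j) (hφ : ∀ j, 0 ≤ φ j)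
    (h : ∀ i, μ i * G i + pot q (fun j => w j * G j) (q i) = s i)
    (hV : Sol q (fun j => w j / μ j) (fun j => w j / μ j * φ j) 0 V) (hC : ∀ j, V j ≤ C * φ j) :
    ∑ j, w j * μ j * φ j * G j ^ 2 ≤ 2 * (1 + C) * ∑ j, w j / μ j * φ j * s j ^ 2 := by
  have hc : ∀ j, 0 ≤ w j / μ j := fun j => div_nonneg (hw j) (hμ j).le
  have m := (sol_of_rhs hμ h).weighted_l2 hq hc hφ hV hC
  have : ∑ j, w j * μ j * φ j * G j ^ 2 ≤ 2 * ∑ j, w j / μ j * φ j * s j ^ 2 +
      2 * ∑ j, w j / μ j * φ j * (s j - μ j * G j) ^ 2 := by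
    rw [mul_sum, mul_sum, ← sum_add_distrib]
    refine sum_le_sum fun j _ => ?_
    have e : w j * μ j * φ j * G j ^ 2 = w j / μ j * φ j * (μ j * G j) ^ 2 := by
      have := (hμ j).ne'; field_simp
    rw [e]
    nlinarith [mul_nonneg (mul_nonneg (hc j) (hφ j)) (sq_nonneg (2 * s j - μ j * G j))]
  linarith

end Crest.Agent.T156.Mx
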