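import Mathlib

/-!
# Row 156 (helper82): localisation.  E1 on a window of massive low levels pins the profile.

Frame-free.  `maxA`/`maxB` : maximum principle for `D'' = ζ - r`; `gapB` : no large gap;
`locN` : normalised two-pass theorem; `loc` : the form with the sums `M`, `S`.
-/

set_option autoImplicit false

namespace Crest.Agent.T156.Loc

open Set Real

theorem mvt {f f1 : ℝ → ℝ} (hf : ∀ p, HasDerivAt f (f1 p) p) {u v : ℝ} (h : u < v) :
    ∃ c ∈ Ioo u v, f v - f u = f1 c * (v - u) := by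
  obtain ⟨c, hc, e⟩ := exists_hasDerivAt_eq_slope f f1 h
    (fun p _ => (hf p).continuousAt.continuousWithinAt) (fun p _ => hf p)
  refine ⟨c, hc, ?_⟩
  rw [e]; field_simp [(sub_pos.2 h).ne']

theorem mvt_le {f f1 : ℝ → ℝ} (hf : ∀ p, HasDerivAt f (f1 p) p) {u v L : ℝ} (h : u ≤ v)
    (hL : ∀ s ∈ Icc u v, f1 s ≤ L) : f v - f u ≤ L * (v - u) := by
  rcases h.eq_or_lt with rfl | h
  · simp
  obtain ⟨c, hc, e⟩ := mvt hf h
  rw [e]
  exact mul_le_mul_of_nonneg_right (hL c (Ioo_subset_Icc_self hc)) (sub_pos.2 h).le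

theorem mvt_ge {f f1 : ℝ → ℝ} (hf : ∀ p, HasDerivAt f (f1 p) p) {u v L : ℝ} (h : u ≤ v)
    (hL : ∀ s ∈ Icc u v, L ≤ f1 s) : L * (v - u) ≤ f v - f u := by
  rcases h.eq_or_lt with rfl | h
  · simp
  obtain ⟨c, hc, e⟩ := mvt hf h
  rw [e]
  exact mul_le_mul_of_nonneg_right (hL c (Ioo_subset_Icc_self hc)) (sub_pos.2 h).le

theorem exp_le_two {y : ℝ} (h0 : 0 ≤ y) (h1 : 2 * y ≤ 1) : exp y ≤ 1 + 2 * y := by
  have h := add_one_le_exp (-y)
  have e : exp y * exp (-y) = 1 := by rw [← exp_add]; simp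
  have hp := exp_pos y
  nlinarith [mul_le_mul_of_nonneg_left h hp.le, mul_nonneg h0 (sub_nonneg.2 h1)]

set_option maxHeartbeats 1600000 in
/-- one-sided maximum principle -/
theorem maxA {D D1 : ℝ → ℝ} (hD : ∀ p, HasDerivAt D (D1 p) p) {a b d d' ε Γ B l : ℝ}
    (hd : Γ ^ 2 ≤ d) (hdd : d ≤ d') (hΓ : 0 < Γ) (hε : 0 ≤ ε) (hB : 0 ≤ B) (hl : 0 < l)
    (hl1 : 6 * d' * l ^ 2 ≤ 1) (hl2 : 2 * l * Γ ≤ 1) (ha : D a ≤ B) (hb : D b ≤ B)
    (hn : ∀ p ∈ Icc a b, ∃ x r, r ≤ p ∧ p ≤ r + Γ ∧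
      (∀ s s', r ≤ s → s ≤ s' → x * (s' - s) - (s' ^ 2 - s ^ 2) / 2 ≤ D1 s' - D1 s) ∧
      D r ≤ ε + d' * max (x - r) 0 - d * max (r - x) 0) :
    ∀ p ∈ Icc a b, D p ≤ ε + 3 * d' * Γ + B * (exp (-(l * (p - a))) + exp (-(l * (b - p)))) := by
  intro p hp
  set e1 : ℝ → ℝ := fun p => exp (-(l * (p - a))) with he1
  set e2 : ℝ → ℝ := fun p => exp (-(l * (b - p))) with he2
  have d1 : ∀ p, HasDerivAt e1 (e1 p * (-l)) p := fun p => by
    have := (((hasDerivAt_id p).sub_const a).const_mul l).neg.exp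
    simpa [he1] using this
  have d2 : ∀ p, HasDerivAt e2 (e2 p * l) p := fun p => by
    have := (((hasDerivAt_id p).const_sub b).const_mul l).neg.exp
    simpa [he2] using this
  set g : ℝ → ℝ := fun p => D p - B * (e1 p + e2 p) with hg
  have dg : ∀ p, HasDerivAt g (D1 p - B * (e1 p * (-l) + e2 p * l)) p := fun p =>
    (hD p).sub (((d1 p).add (d2 p)).const_mul B)
  have hd0 : 0 < d := lt_of_lt_of_le (by positivity) hd
  have hd' : 0 < d' := lt_of_lt_of_le hd0 hdd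
  obtain ⟨p0, hp0, hmax⟩ := isCompact_Icc.exists_isMaxOn ⟨p, hp⟩
    (fun p _ => (dg p).continuousAt.continuousWithinAt : ContinuousOn g (Icc a b))
  have key : g p0 ≤ ε + 3 * d' * Γ := by
    by_contra hc
    push Not at hc
    have hpos : 0 < g p0 := lt_of_le_of_lt (by positivity) hc
    have p1 : ∀ p, 0 < e1 p := fun p => exp_pos _
    have p2 : ∀ p, 0 < e2 p := fun p => exp_pos _
    have hna : p0 ≠ a := by
      rintro rfl
      have : e1 p0 = 1 := by simp [he1]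
      simp only [hg, this] at hpos
      nlinarith [mul_nonneg hB (p2 p0).le]
    have hnb : p0 ≠ b := by
      rintro rfl
      have : e2 p0 = 1 := by simp [he2]
      simp only [hg, this] at hpos
      nlinarith [mul_nonneg hB (p1 p0).le]
    have ha0 : a < p0 := lt_of_le_of_ne hp0.1 hna.symm
    have hb0 : p0 < b := lt_of_le_of_ne hp0.2 hnb
    have hz : D1 p0 - B * (e1 p0 * (-l) + e2 p0 * l) = 0 :=
      (hmax.isLocalMax (Icc_mem_nhds ha0 hb0)).hasDerivAt_eq_zero (dg p0)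
    obtain ⟨x, r, hr1, hr2, hlo, hE⟩ := hn p0 hp0
    set t := min Γ (b - p0) with ht
    have ht0 : 0 < t := lt_min hΓ (sub_pos.2 hb0)
    have ht1 : t ≤ Γ := min_le_left _ _
    have ht2 : t ≤ b - p0 := min_le_right _ _
    obtain ⟨c, hc', ec⟩ := mvt dg (show p0 < p0 + t by linarith)
    have hle : g (p0 + t) ≤ g p0 := hmax ⟨by linarith, by linarith⟩
    have hgc : D1 c - B * (e1 c * (-l) + e2 c * l) ≤ 0 := by
      by_contra h
      push Not at h
      have := mul_pos h (show 0 < p0 + t - p0 by linarith)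
      linarith
    set y := l * (c - p0) with hy
    have hc0 : 0 < c - p0 := sub_pos.2 hc'.1
    have hy0 : 0 ≤ y := by positivity
    have hy1 : 2 * y ≤ 1 := by
      have : l * (c - p0) ≤ l * Γ := mul_le_mul_of_nonneg_left (by linarith [hc'.2]) hl.le
      linarith
    have f1 : e1 c = e1 p0 * exp (-y) := by
      simp only [he1, hy, ← exp_add]; congr 1; ring
    have f2 : e2 c = e2 p0 * exp y := by
      simp only [he2, hy, ← exp_add]; congr 1; ring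
    have g1 : e1 p0 - e1 c ≤ e1 p0 * (2 * y) := by
      rw [f1]; nlinarith [add_one_le_exp (-y), p1 p0, mul_nonneg (p1 p0).le hy0]
    have g2 : e2 c - e2 p0 ≤ e2 p0 * (2 * y) := by
      rw [f2]; nlinarith [exp_le_two hy0 hy1, p2 p0]
    set ψ := B * (e1 p0 + e2 p0) with hψ
    have hψ0 : 0 ≤ ψ := mul_nonneg hB (add_pos (p1 _) (p2 _)).le
    have h3 : D1 c - D1 p0 ≤ 2 * l ^ 2 * ψ * (c - p0) := by
      have : B * l * ((e1 p0 - e1 c) + (e2 c - e2 p0)) ≤ B * l * ((e1 p0 + e2 p0) * (2 * y)) :=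
        mul_le_mul_of_nonneg_left (by linarith) (mul_nonneg hB hl.le)
      have e : D1 c - D1 p0 = (D1 c - B * (e1 c * (-l) + e2 c * l)) -
          (D1 p0 - B * (e1 p0 * (-l) + e2 p0 * l)) + B * l * ((e1 p0 - e1 c) + (e2 c - e2 p0)) := by
        ring
      have e' : B * l * ((e1 p0 + e2 p0) * (2 * y)) = 2 * l ^ 2 * ψ * (c - p0) := by
        rw [hψ, hy]; ring
      linarith
    have h4 : x - p0 ≤ Γ / 2 + 2 * l ^ 2 * ψ := by
      have h := hlo p0 c hr1 hc'.1.le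
      have : (x - (c + p0) / 2) * (c - p0) ≤ 2 * l ^ 2 * ψ * (c - p0) := by
        have e : (x - (c + p0) / 2) * (c - p0) = x * (c - p0) - (c ^ 2 - p0 ^ 2) / 2 := by ring
        linarith
      have := le_of_mul_le_mul_right this hc0
      linarith [hc'.2]
    have h5 : D1 p0 ≤ l * ψ := by
      have : 0 ≤ B * l * e1 p0 := mul_nonneg (mul_nonneg hB hl.le) (p1 _).le
      have e : l * ψ = B * (e1 p0 * (-l) + e2 p0 * l) + 2 * (B * l * e1 p0) := by rw [hψ]; ring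
      linarith
    set m := max (r - x) 0 with hm
    have hm0 : 0 ≤ m := le_max_right _ _
    have hm1 : r - x ≤ m := le_max_left _ _
    have h6 : D p0 - D r ≤ (l * ψ + Γ * (m + Γ)) * (p0 - r) := by
      refine mvt_le hD hr1 fun s hs => ?_
      have h := hlo s p0 hs.1 hs.2
      have a1 : 0 ≤ p0 - s := sub_nonneg.2 hs.2
      have a2 : (p0 - s) * ((p0 + s) / 2 - x) ≤ (p0 - s) * (m + Γ) :=
        mul_le_mul_of_nonneg_left (by linarith [hs.2]) a1
      have a3 : (p0 - s) * (m + Γ) ≤ Γ * (m + Γ) :=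
        mul_le_mul_of_nonneg_right (by linarith [hs.1]) (by linarith)
      have e : (p0 - s) * ((p0 + s) / 2 - x) = -(x * (p0 - s) - (p0 ^ 2 - s ^ 2) / 2) := by ring
      linarith
    have h7 : (l * ψ + Γ * (m + Γ)) * (p0 - r) ≤ (l * ψ + Γ * (m + Γ)) * Γ :=
      mul_le_mul_of_nonneg_left (by linarith) (by positivity)
    have h8 : max (x - r) 0 ≤ 3 * Γ / 2 + 2 * l ^ 2 * ψ := max_le (by linarith) (by positivity)
    have h9 : d' * max (x - r) 0 ≤ d' * (3 * Γ / 2 + 2 * l ^ 2 * ψ) :=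
      mul_le_mul_of_nonneg_left h8 hd'.le
    have k1 : Γ ^ 2 * m ≤ d * m := mul_le_mul_of_nonneg_right hd hm0
    have k2 : Γ ^ 2 * Γ ≤ d' * Γ := mul_le_mul_of_nonneg_right (hd.trans hdd) hΓ.le
    have k3 : 6 * d' * l ^ 2 * ψ ≤ 1 * ψ := mul_le_mul_of_nonneg_right hl1 hψ0
    have k4 : 2 * l * Γ * ψ ≤ 1 * ψ := mul_le_mul_of_nonneg_right hl2 hψ0
    have k5 : 0 ≤ d' * Γ := by positivity
    have : g p0 = D p0 - ψ := rfl
    have q1 : (l * ψ + Γ * (m + Γ)) * Γ = 2 * l * Γ * ψ / 2 + Γ ^ 2 * m + Γ ^ 2 * Γ := by ring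
    have q2 : d' * (3 * Γ / 2 + 2 * l ^ 2 * ψ) = 3 / 2 * (d' * Γ) + 6 * d' * l ^ 2 * ψ / 3 := by ring
    have q3 : 3 * d' * Γ = 3 * (d' * Γ) := by ring
    linarith
  have := hmax hp
  simp only [hg, mem_ofPred_eq] at this key
  linarith

/-- two-sided maximum principle -/
theorem maxB {D D1 : ℝ → ℝ} (hD : ∀ p, HasDerivAt D (D1 p) p) {a b d d' ε Γ B l : ℝ}
    (hd : Γ ^ 2 ≤ d) (hdd : d ≤ d') (hΓ : 0 < Γ) (hε : 0 ≤ ε) (hl : 0 < l)
    (hl1 : 6 * d' * l ^ 2 ≤ 1) (hl2 : 2 * l * Γ ≤ 1) (ha : |D a| ≤ B) (hb : |D b| ≤ B)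
    (hn : ∀ p ∈ Icc a b, ∃ x r, r ≤ p ∧ p ≤ r + Γ ∧
      (∀ s s', r ≤ s → s ≤ s' → x * (s' - s) - (s' ^ 2 - s ^ 2) / 2 ≤ D1 s' - D1 s) ∧
      D r ≤ ε + d' * max (x - r) 0 - d * max (r - x) 0)
    (hn' : ∀ p ∈ Icc a b, ∃ x r, p ≤ r ∧ r ≤ p + Γ ∧
      (∀ s s', s ≤ s' → s' ≤ r → D1 s' - D1 s ≤ x * (s' - s) - (s' ^ 2 - s ^ 2) / 2) ∧
      -D r ≤ ε + d' * max (r - x) 0 - d * max (x - r) 0) :
    ∀ p ∈ Icc a b, |D p| ≤ ε + 3 * d' * Γ + B * (exp (-(l * (p - a))) + exp (-(l * (b - p)))) := by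
  intro p hp
  have hB : 0 ≤ B := (abs_nonneg _).trans ha
  refine abs_le.2 ⟨?_, maxA hD hd hdd hΓ hε hB hl hl1 hl2 (le_of_abs_le ha) (le_of_abs_le hb) hn p hp⟩
  have hD' : ∀ p, HasDerivAt (fun p => -D (-p)) (D1 (-p)) p := fun p => by
    have h0 : HasDerivAt (fun p : ℝ => -D (-p)) (-(D1 (-p) * -1)) p :=
      ((hD (-p)).comp p (hasDerivAt_neg p)).neg
    have e : -(D1 (-p) * -1) = D1 (-p) := by ring
    rwa [e] at h0
  have := maxA (a := -b) (b := -a) hD' hd hdd hΓ hε hB hl hl1 hl2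
    (by simpa using neg_le.1 (abs_le.1 hb).1) (by simpa using neg_le.1 (abs_le.1 ha).1)
    (fun s hs => by
      obtain ⟨x, r, h1, h2, h3, h4⟩ := hn' (-s) ⟨by linarith [hs.2], by linarith [hs.1]⟩
      refine ⟨-x, -r, by linarith, by linarith, fun v v' hv hv' => ?_, ?_⟩
      · have := h3 (-v') (-v) (by linarith) (by linarith)
        nlinarith
      · have e1 : -x - -r = r - x := by ring
        have e2 : -r - -x = x - r := by ring
        simpa [e1, e2] using h4) (-p) ⟨by linarith [hp.2], by linarith [hp.1]⟩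
  have e1 : -p - -b = b - p := by ring
  have e2 : -a - -p = p - a := by ring
  simp only [neg_neg, e1, e2] at this
  linarith

theorem cross {P : ℕ → Prop} {i K : ℕ} (h : i ≤ K) (hi : ¬P i) (hK : P K) :
    ∃ j, i ≤ j ∧ j < K ∧ ¬P j ∧ P (j + 1) := by
  induction K, h using Nat.le_induction with
  | base => exact absurd hK hi
  | succ K h ih =>
    by_cases hP : P K
    · obtain ⟨j, a, b, c, d⟩ := ih hP
      exact ⟨j, a, by omega, c, d⟩
    · exact ⟨K, h, by omega, hP, hK⟩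

theorem mono_of_succ {x : ℕ → ℝ} {K : ℕ} (h : ∀ i < K, x i ≤ x (i + 1)) {i j : ℕ} (hij : i ≤ j)
    (hj : j ≤ K) : x i ≤ x j := by
  induction j, hij using Nat.le_induction with
  | base => exact le_rfl
  | succ j hij ih => exact (ih (by omega)).trans (h j (by omega))

/-- `W'' = ζ - θ r` on the completed graph of the nodes `(x i, r i)` -/
structure Sys (K : ℕ) (x r : ℕ → ℝ) (θ : ℝ) (W W1 : ℝ → ℝ) : Prop where
  der : ∀ p, HasDerivAt W (W1 p) p
  mx : ∀ i < K, x i ≤ x (i + 1)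
  mr : ∀ i < K, r i ≤ r (i + 1)
  lo : ∀ i ≤ K, ∀ s s', r i ≤ s → s ≤ s' →
    x i * (s' - s) - θ * (s' ^ 2 - s ^ 2) / 2 ≤ W1 s' - W1 s
  hi : ∀ i ≤ K, ∀ s s', s ≤ s' → s' ≤ r i →
    W1 s' - W1 s ≤ x i * (s' - s) - θ * (s' ^ 2 - s ^ 2) / 2

set_option maxHeartbeats 1600000 in
/-- **no large gap** (69 b4): any field profile `h` with label density `≥ d` -/
theorem gapB {K : ℕ} {x r h : ℕ → ℝ} {θ d ε η : ℝ} {W W1 : ℝ → ℝ} (S : Sys K x r θ W W1)
    (hθ : 0 < θ) (hd : 0 < d) (hε : 0 ≤ ε) (hη : ∀ i < K, x (i + 1) - x i ≤ η)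
    (hE : ∀ i ≤ K, |W (r i) - h i| ≤ ε) (hh : ∀ i j, i ≤ j → j ≤ K → d * (x j - x i) ≤ h j - h i)
    {i : ℕ} (hi : i < K) (hs : h (i + 1) - h i ≤ ε) (r0 : x 0 + 2 * ε / d < x i)
    (r1 : x (i + 1) + 2 * ε / d < x K) :
    θ * (r (i + 1) - r i) < 4 * ε / d + 4 * η ∨ θ * (r (i + 1) - r i) ^ 3 ≤ 72 * ε := by
  by_contra hc
  push Not at hc
  obtain ⟨c1, c2⟩ := hc
  set Γ := r (i + 1) - r i with hΓ
  have hεd : 0 ≤ ε / d := by positivity
  have e4 : 4 * ε / d = 4 * (ε / d) := by ring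
  have e2 : 2 * ε / d = 2 * (ε / d) := by ring
  have edd : d * (ε / d) = ε := by field_simp
  have hΓ0 : 0 < Γ := by
    rcases (sub_nonneg.2 (S.mr i hi)).eq_or_lt with h0 | h0
    · rw [← hΓ] at h0; rw [← h0] at c2; norm_num at c2; linarith
    · exact h0
  have hηi := hη i hi
  by_cases hpos : 0 < W1 (r i) ∧ 0 < W1 (r (i + 1))
  · have dF : ∀ s, HasDerivAt (fun s => W s - θ / 4 * ((s - r i) ^ 2 * Γ / 2 - (s - r i) ^ 3 / 3))
        (W1 s - θ / 4 * ((s - r i) * (Γ - (s - r i)))) s := fun s => by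
      have h1 : HasDerivAt (fun s : ℝ => s - r i) 1 s := (hasDerivAt_id s).sub_const (r i)
      have : HasDerivAt (fun s => W s - θ / 4 * ((s - r i) ^ 2 * Γ / 2 - (s - r i) ^ 3 / 3)) _ s :=
        (S.der s).sub (((((h1.pow 2).mul_const Γ).div_const 2).sub
        ((h1.pow 3).div_const 3)).const_mul (θ / 4))
      refine this.congr_deriv ?_
      rw [show (2 - 1 : ℕ) = 1 from rfl, show (3 - 1 : ℕ) = 2 from rfl]
      push_cast; ring
    have := mvt_ge dF (L := 0) (S.mr i hi) fun s hs => by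
      have a1 := S.lo i hi.le (r i) s le_rfl hs.1
      have a2 := S.hi (i + 1) hi s (r (i + 1)) hs.2 le_rfl
      have u0 : 0 ≤ s - r i := sub_nonneg.2 hs.1
      have v0 : 0 ≤ r (i + 1) - s := sub_nonneg.2 hs.2
      have b1 := mul_le_mul_of_nonneg_left a1 v0
      have b2 := mul_le_mul_of_nonneg_left a2 u0
      have b3 := mul_nonneg v0 hpos.1.le
      have b4 := mul_nonneg u0 hpos.2.le
      have b5 : (s - r i) * (r (i + 1) - s) * (x (i + 1) - x i) ≤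
          (s - r i) * (r (i + 1) - s) * (θ * Γ / 4) :=
        mul_le_mul_of_nonneg_left (by linarith) (mul_nonneg u0 v0)
      have : 0 ≤ (W1 s - θ / 4 * ((s - r i) * (Γ - (s - r i)))) * Γ := by
        simp only [hΓ] at b5 ⊢
        nlinarith
      exact nonneg_of_mul_nonneg_left this hΓ0
    have f1 := abs_le.1 (hE i hi.le)
    have f2 := abs_le.1 (hE (i + 1) hi)
    simp only [← hΓ] at this
    nlinarith
  rcases le_total (W1 (r (i + 1))) (W1 (r i)) with h12 | h12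
  · have n2 : W1 (r (i + 1)) ≤ 0 := by
      by_contra h; push Not at h; exact hpos ⟨lt_of_lt_of_le h h12, h⟩
    have a1 := S.lo i hi.le (r i) (r (i + 1)) le_rfl (S.mr i hi)
    have a2 : x i ≤ θ * r (i + 1) - θ * Γ / 2 := by
      have : (x i - (θ * r (i + 1) - θ * Γ / 2)) * Γ ≤ 0 := by simp only [hΓ] at a1 ⊢; nlinarith
      have := nonpos_of_mul_nonpos_left this hΓ0
      linarith
    obtain ⟨j, j1, j2, j3, j4⟩ := cross (P := fun j => x (i + 1) + 2 * ε / d < x j)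
      (show i + 1 ≤ K from hi) (by simp only [not_lt]; linarith) r1
    simp only [not_lt] at j3
    have a3 : x (j + 1) ≤ θ * r (i + 1) := by linarith [hη j j2]
    have hr : r (i + 1) ≤ r (j + 1) := mono_of_succ S.mr (by omega) j2
    have := mvt_le S.der (L := 0) hr fun s hs => by
      have b := S.hi (j + 1) j2 (r (i + 1)) s hs.1 hs.2
      have u0 : 0 ≤ s - r (i + 1) := sub_nonneg.2 hs.1
      have e : x (j + 1) * (s - r (i + 1)) - θ * (s ^ 2 - r (i + 1) ^ 2) / 2 =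
        -((s - r (i + 1)) * (θ * r (i + 1) - x (j + 1))) -
          θ * ((s - r (i + 1)) * (s - r (i + 1))) / 2 := by ring
      linarith [mul_nonneg u0 (sub_nonneg.2 a3), mul_nonneg hθ.le (mul_nonneg u0 u0)]
    have f1 := abs_le.1 (hE (j + 1) j2)
    have f2 := abs_le.1 (hE (i + 1) hi)
    have f3 := hh (i + 1) (j + 1) (by omega) j2
    have f4 : d * (2 * (ε / d)) < d * (x (j + 1) - x (i + 1)) :=
      mul_lt_mul_of_pos_left (by linarith) hd
    have f5 : d * (2 * (ε / d)) = 2 * ε := by rw [← mul_assoc, mul_comm d 2, mul_assoc, edd]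
    linarith
  · have n1 : W1 (r i) ≤ 0 := by
      by_contra h; push Not at h; exact hpos ⟨h, lt_of_lt_of_le h h12⟩
    have a1 := S.hi (i + 1) hi (r i) (r (i + 1)) (S.mr i hi) le_rfl
    have a2 : θ * r i + θ * Γ / 2 ≤ x (i + 1) := by
      have : 0 ≤ (x (i + 1) - (θ * r i + θ * Γ / 2)) * Γ := by simp only [hΓ] at a1 ⊢; nlinarith
      have := nonneg_of_mul_nonneg_left this hΓ0
      linarith
    obtain ⟨j, -, j2, j3, j4⟩ := cross (P := fun j => x i ≤ x j + 2 * ε / d)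
      (Nat.zero_le i) (by simp only [not_le]; linarith) (by linarith)
    simp only [not_le] at j3
    have a3 : θ * r i ≤ x j := by linarith [hη j (by omega)]
    have hr : r j ≤ r i := mono_of_succ S.mr j2.le hi.le
    have := mvt_le S.der (L := 0) hr fun s hs => by
      have b := S.lo j (by omega) s (r i) hs.1 hs.2
      have u0 : 0 ≤ r i - s := sub_nonneg.2 hs.2
      have e : x j * (r i - s) - θ * (r i ^ 2 - s ^ 2) / 2 =
        (r i - s) * (x j - θ * r i) + θ * ((r i - s) * (r i - s)) / 2 := by ring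
      linarith [mul_nonneg u0 (sub_nonneg.2 a3), mul_nonneg hθ.le (mul_nonneg u0 u0)]
    have f1 := abs_le.1 (hE j (by omega))
    have f2 := abs_le.1 (hE i hi.le)
    have f3 := hh j i j2.le hi.le
    have f4 : d * (2 * (ε / d)) < d * (x i - x j) := mul_lt_mul_of_pos_left (by linarith) hd
    have f5 : d * (2 * (ε / d)) = 2 * ε := by rw [← mul_assoc, mul_comm d 2, mul_assoc, edd]
    linarith

/-- the node below and the node above a point -/
theorem cover {K i0 i1 : ℕ} {r : ℕ → ℝ} (h01 : i0 < i1) {p : ℝ} (h0 : r i0 ≤ p) (h1 : p ≤ r i1)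
    (mr : ∀ i < K, r i ≤ r (i + 1)) (hK : i1 ≤ K) :
    ∃ j, i0 ≤ j ∧ j < i1 ∧ r j ≤ p ∧ p ≤ r (j + 1) := by
  rcases h1.eq_or_lt with h | h
  · obtain ⟨k, rfl⟩ : ∃ k, i1 = k + 1 := ⟨i1 - 1, by omega⟩
    exact ⟨k, by omega, by omega, h ▸ mr k (by omega), h.le⟩
  · obtain ⟨j, a, b, c, d⟩ := cross (P := fun j => p < r j) h01.le (not_lt.2 h0) h
    exact ⟨j, a, b, not_lt.1 c, d.le⟩

theorem chain {f : ℝ → ℝ} {a b L Γ : ℝ} (hΓ : 0 < Γ)
    (h : ∀ p p', a ≤ p → p ≤ p' → p' ≤ b → p' ≤ p + Γ → |f p' - f p| ≤ L * (p' - p)) :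
    ∀ p p', a ≤ p → p ≤ p' → p' ≤ b → |f p' - f p| ≤ L * (p' - p) := by
  have : ∀ n : ℕ, ∀ p p', a ≤ p → p ≤ p' → p' ≤ b → p' ≤ p + n * Γ → |f p' - f p| ≤ L * (p' - p) := by
    intro n
    induction n with
    | zero => intro p p' a1 a2 a3 a4; exact h p p' a1 a2 a3 (by simp at a4; linarith)
    | succ n ih =>
      intro p p' a1 a2 a3 a4
      by_cases hc : p' ≤ p + Γ
      · exact h p p' a1 a2 a3 hc
      · push Not at hc
        have b1 := h p (p + Γ) a1 (by linarith) (by linarith) le_rfl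
        have b2 := ih (p + Γ) p' (by linarith) hc.le a3 (by push_cast at a4; linarith)
        have := abs_sub_le (f p') (f (p + Γ)) (f p)
        linarith
  intro p p' a1 a2 a3
  obtain ⟨n, hn⟩ := exists_nat_ge ((p' - p) / Γ)
  exact this n p p' a1 a2 a3 (by rw [div_le_iff₀ hΓ] at hn; linarith)

/-- one pass: value, nodes, derivative -/
theorem pass {K : ℕ} {x r : ℕ → ℝ} {D D1 : ℝ → ℝ} (S : Sys K x r 1 D D1)
    {a b d d' ε Γ B l m t δ : ℝ} (hd : Γ ^ 2 ≤ d) (hdd : d ≤ d') (hΓ : 0 < Γ) (hε : 0 ≤ ε)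
    (hl : 0 < l) (hl1 : 6 * d' * l ^ 2 ≤ 1) (hl2 : 2 * l * Γ ≤ 1) (ha : |D a| ≤ B) (hb : |D b| ≤ B)
    (hu : ∀ i ≤ K, D (r i) ≤ ε + d' * max (x i - r i) 0 - d * max (r i - x i) 0)
    (hw : ∀ i ≤ K, -D (r i) ≤ ε + d' * max (r i - x i) 0 - d * max (x i - r i) 0)
    (hc : ∀ p ∈ Icc a b, ∃ j < K, r j ≤ p ∧ p ≤ r (j + 1) ∧ r (j + 1) - r j ≤ Γ)
    (hm : 0 ≤ m) (ht : 0 < t) (hδ : ε + 3 * d' * Γ + 2 * B * exp (-(l * m)) ≤ δ) :
    (∀ p ∈ Icc (a + m) (b - m), |D p| ≤ δ) ∧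
    (∀ i ≤ K, r i ∈ Icc (a + m) (b - m) → |x i - r i| ≤ (δ + ε) / d) ∧
    ∀ p ∈ Icc (a + m + Γ) (b - m - Γ - t), |D1 p| ≤ 2 * δ / t + t * ((δ + ε) / d + 2 * Γ) := by
  have hB : 0 ≤ B := (abs_nonneg _).trans ha
  have hd0 : 0 < d := lt_of_lt_of_le (by positivity) hd
  have h1 : ∀ p ∈ Icc (a + m) (b - m), |D p| ≤ δ := fun p hp => by
    have := maxB S.der hd hdd hΓ hε hl hl1 hl2 ha hb
      (fun p hp => by
        obtain ⟨j, j1, j2, j3, j4⟩ := hc p hp
        exact ⟨x j, r j, j2, by linarith, fun s s' u v => by simpa using S.lo j j1.le s s' u v,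
          hu j j1.le⟩)
      (fun p hp => by
        obtain ⟨j, j1, j2, j3, j4⟩ := hc p hp
        exact ⟨x (j + 1), r (j + 1), j3, by linarith,
          fun s s' u v => by simpa using S.hi (j + 1) j1 s s' u v, hw (j + 1) j1⟩)
      p ⟨by linarith [hp.1], by linarith [hp.2]⟩
    have e1 : exp (-(l * (p - a))) ≤ exp (-(l * m)) :=
      exp_le_exp.2 (neg_le_neg (mul_le_mul_of_nonneg_left (by linarith [hp.1]) hl.le))
    have e2 : exp (-(l * (b - p))) ≤ exp (-(l * m)) :=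
      exp_le_exp.2 (neg_le_neg (mul_le_mul_of_nonneg_left (by linarith [hp.2]) hl.le))
    have := mul_le_mul_of_nonneg_left (add_le_add e1 e2) hB
    linarith
  have h2 : ∀ i ≤ K, r i ∈ Icc (a + m) (b - m) → |x i - r i| ≤ (δ + ε) / d := fun i hi hr => by
    have q := abs_le.1 (h1 _ hr)
    rw [le_div_iff₀ hd0]
    rcases le_total (x i) (r i) with h | h
    · have := hu i hi
      rw [max_eq_right (sub_nonpos.2 h), max_eq_left (sub_nonneg.2 h)] at this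
      rw [abs_of_nonpos (sub_nonpos.2 h)]; linarith
    · have := hw i hi
      rw [max_eq_right (sub_nonpos.2 h), max_eq_left (sub_nonneg.2 h)] at this
      rw [abs_of_nonneg (sub_nonneg.2 h)]; linarith
  refine ⟨h1, h2, fun p hp => ?_⟩
  set E := (δ + ε) / d with hE
  have lip := chain (f := D1) (a := a + m + Γ) (b := b - m - Γ) (L := E + 2 * Γ) hΓ
    fun p p' a1 a2 a3 a4 => by
      obtain ⟨i, i1, i2, i3, i4⟩ := hc p ⟨by linarith, by linarith⟩
      obtain ⟨j, j1, j2, j3, j4⟩ := hc p' ⟨by linarith, by linarith⟩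
      have u := abs_le.1 (h2 i i1.le ⟨by linarith, by linarith⟩)
      have v := abs_le.1 (h2 (j + 1) j1 ⟨by linarith, by linarith⟩)
      have lo := S.lo i i1.le p p' i2 a2
      have hi := S.hi (j + 1) j1 p p' a2 j3
      have w : 0 ≤ p' - p := sub_nonneg.2 a2
      have e : ∀ y : ℝ, y * (p' - p) - 1 * (p' ^ 2 - p ^ 2) / 2 = (y - (p + p') / 2) * (p' - p) :=
        fun y => by ring
      rw [e] at lo hi
      have b1 : (-(E + 2 * Γ)) * (p' - p) ≤ (x i - (p + p') / 2) * (p' - p) :=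
        mul_le_mul_of_nonneg_right (by linarith) w
      have b2 : (x (j + 1) - (p + p') / 2) * (p' - p) ≤ (E + 2 * Γ) * (p' - p) :=
        mul_le_mul_of_nonneg_right (by linarith) w
      exact abs_le.2 ⟨by linarith, by linarith⟩
  obtain ⟨c, hc', ec⟩ := mvt S.der (show p < p + t by linarith)
  have q1 := abs_le.1 (h1 p ⟨by linarith [hp.1], by linarith [hp.2]⟩)
  have q2 := abs_le.1 (h1 (p + t) ⟨by linarith [hp.1], by linarith [hp.2]⟩)
  have q3 := lip p c hp.1 hc'.1.le (by linarith [hp.2, hc'.2])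
  have hδ0 : 0 ≤ δ := by linarith [q1.1, q1.2]
  have hE0 : 0 ≤ E + 2 * Γ := by positivity
  have q4 : (E + 2 * Γ) * (c - p) ≤ (E + 2 * Γ) * t :=
    mul_le_mul_of_nonneg_left (by linarith [hc'.2]) hE0
  have q5 : |D1 c| ≤ 2 * δ / t := by
    rw [le_div_iff₀ ht]
    have : |D1 c| * t = |D1 c * (p + t - p)| := by
      rw [abs_mul, add_sub_cancel_left, abs_of_pos ht]
    rw [this, ← ec]
    exact abs_le.2 ⟨by linarith, by linarith⟩
  have q6 := abs_le.1 (q3.trans q4)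
  have q7 := abs_le.1 q5
  exact abs_le.2 ⟨by linarith, by linarith⟩

theorem pos_of_mul_pos_left_82 {a b : ℝ} (ha : 0 < a) (h : 0 < a * b) : 0 < b := by
  by_contra hb
  push Not at hb
  nlinarith [mul_nonneg ha.le (neg_nonneg.2 hb)]

theorem cube_bd {κ lo hi x r : ℝ} (hκ : 0 < κ) (h0 : 0 < lo) (h1 : lo ≤ r) (h2 : r ≤ x)
    (h3 : x ≤ hi) : 3 * κ * lo ^ 2 * (x - r) ≤ κ * x ^ 3 - κ * r ^ 3 ∧
      κ * x ^ 3 - κ * r ^ 3 ≤ 3 * κ * hi ^ 2 * (x - r) := by
  have e : κ * x ^ 3 - κ * r ^ 3 = κ * (x - r) * (x ^ 2 + x * r + r ^ 2) := by ring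
  have p : 0 ≤ κ * (x - r) := mul_nonneg hκ.le (sub_nonneg.2 h2)
  have a : 3 * lo ^ 2 ≤ x ^ 2 + x * r + r ^ 2 := by nlinarith
  have b : x ^ 2 + x * r + r ^ 2 ≤ 3 * hi ^ 2 := by nlinarith
  constructor
  · nlinarith [mul_le_mul_of_nonneg_left a p]
  · nlinarith [mul_le_mul_of_nonneg_left b p]

set_option maxHeartbeats 1600000 in
/-- **LOC, normalised**: `W'' = ζ - (1 - 6κ) r`, `W (r i) = κ (x i)³ ± ε`.
`σ² = d = 3κ lo²`, `d' = 3κ hi²`, `l` = decay rate, `m` = margin. -/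
theorem locN {K : ℕ} {x r : ℕ → ℝ} {κ ε η lo hi σ d' Γ l m : ℝ} {W W1 : ℝ → ℝ}
    (S : Sys K x r (1 - 6 * κ) W W1) (hκ : 0 < κ) (hκ1 : 12 * κ ≤ 1) (hε : 0 < ε) (hlo : 0 < lo)
    (hσ : 0 < σ) (hσd : σ ^ 2 = 3 * κ * lo ^ 2) (hd' : d' = 3 * κ * hi ^ 2)
    (hx : ∀ i ≤ K, x i ∈ Icc lo hi) (hr : ∀ i ≤ K, r i ∈ Icc lo hi)
    (hη : ∀ i < K, x (i + 1) - x i ≤ η) (hηε : d' * η ≤ ε)
    (hE : ∀ i ≤ K, |W (r i) - κ * x i ^ 3| ≤ ε)
    (hΓ1 : 16 * ε ≤ σ ^ 2 * Γ) (hΓ2 : 144 * ε ≤ Γ ^ 3) (hΓ3 : 100 * d' * Γ ≤ σ ^ 3)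
    (hl : 0 < l) (hl1 : 6 * d' * l ^ 2 ≤ 1) (hm : σ ≤ m)
    (htail : 2 * (ε + d' * hi) * exp (-(l * m)) ≤ ε) {i0 i1 : ℕ} (h01 : i0 < i1) (h1K : i1 ≤ K)
    (r0 : x 0 + 2 * ε / σ ^ 2 < x i0) (r1 : x i1 + 2 * ε / σ ^ 2 < x K) :
    ∀ i ≤ K, r i ∈ Icc (r i0 + 6 * m) (r i1 - 6 * m) →
      |x i - r i| ≤ 21 * ε * d' / σ ^ 4 ∧ |W1 (r i) - 3 * κ * r i ^ 2| ≤ 73 * ε * d' / σ ^ 3 := by
  set d := σ ^ 2 with hd
  have hd0 : 0 < d := by positivity
  have hlh : lo ≤ hi := (hx 0 (Nat.zero_le _)).1.trans (hx 0 (Nat.zero_le _)).2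
  have hdd : d ≤ d' := by
    rw [hσd, hd']
    exact mul_le_mul_of_nonneg_left (pow_le_pow_left₀ hlo.le hlh 2) (by positivity)
  have hd'0 : 0 < d' := lt_of_lt_of_le hd0 hdd
  have hΓ0 : 0 < Γ := pos_of_mul_pos_left_82 hd0 (by linarith)
  have hσ3 : σ ^ 3 = d * σ := by rw [hd]; ring
  have hΓσ : 100 * Γ ≤ σ := by
    have : 100 * d * Γ ≤ 100 * d' * Γ := by gcongr
    have : d * (100 * Γ) ≤ d * σ := by linarith
    exact le_of_mul_le_mul_left this hd0
  have hσlo : σ ≤ hi := by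
    have : σ ^ 2 ≤ lo ^ 2 := by rw [← hd, hσd]; nlinarith [sq_nonneg lo]
    exact (abs_le_of_sq_le_sq' this hlo.le).2.trans hlh
  have hlσ : l * σ ≤ 1 := by
    have : (l * σ) ^ 2 ≤ 1 ^ 2 := by
      have : d * l ^ 2 ≤ d' * l ^ 2 := by gcongr
      have e : (l * σ) ^ 2 = d * l ^ 2 := by rw [hd]; ring
      nlinarith [mul_pos hd'0 (pow_pos hl 2)]
    exact (abs_le_of_sq_le_sq' this zero_le_one).2
  have hη0 : 0 ≤ η := by
    have := hη 0 (by omega); have := S.mx 0 (by omega); linarith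
  have hηd : η ≤ ε / d := by
    rw [le_div_iff₀ hd0]; have : η * d ≤ η * d' := by gcongr
    linarith
  have hh : ∀ i j, i ≤ j → j ≤ K → d * (x j - x i) ≤ κ * x j ^ 3 - κ * x i ^ 3 := fun i j a b => by
    rw [hσd]
    exact (cube_bd hκ hlo (hx i (a.trans b)).1 (mono_of_succ S.mx a b) (hx j b).2).1
  have hs : ∀ i < K, κ * x (i + 1) ^ 3 - κ * x i ^ 3 ≤ ε := fun i a => by
    have := (cube_bd hκ hlo (hx i a.le).1 (S.mx i a) (hx (i + 1) a).2).2
    rw [← hd'] at this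
    have : d' * (x (i + 1) - x i) ≤ d' * η := mul_le_mul_of_nonneg_left (hη i a) hd'0.le
    linarith
  have gap1 : ∀ j, i0 ≤ j → j < i1 → r (j + 1) - r j ≤ Γ := fun j a b => by
    have g0 : 0 ≤ r (j + 1) - r j := sub_nonneg.2 (S.mr j (by omega))
    have := gapB S (h := fun i => κ * x i ^ 3) (by linarith) hd0 hε.le hη hE hh (i := j) (by omega)
      (hs j (by omega)) (lt_of_lt_of_le r0 (mono_of_succ S.mx a (by omega)))
      (by linarith [mono_of_succ S.mx (show j + 1 ≤ i1 from b) h1K])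
    have t1 : (r (j + 1) - r j) / 2 ≤ (1 - 6 * κ) * (r (j + 1) - r j) := by nlinarith
    rcases this with h | h
    · have e : 4 * ε / d = 4 * (ε / d) := by ring
      have : 16 * (ε / d) ≤ Γ := by
        rw [← mul_div_assoc, div_le_iff₀ hd0]; linarith
      linarith
    · have t2 : (r (j + 1) - r j) ^ 3 / 2 ≤ (1 - 6 * κ) * (r (j + 1) - r j) ^ 3 := by
        nlinarith [pow_nonneg g0 3]
      exact le_of_pow_le_pow_left₀ (n := 3) (by norm_num) hΓ0.le (by linarith)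
  set D : ℝ → ℝ := fun p => W p - κ * p ^ 3 with hD
  set D1 : ℝ → ℝ := fun p => W1 p - 3 * κ * p ^ 2 with hD1
  have SD : Sys K x r 1 D D1 := by
    refine ⟨fun p => ?_, S.mx, S.mr, fun i a s s' b c => ?_, fun i a s s' b c => ?_⟩
    · have : HasDerivAt (fun p => W p - κ * p ^ 3) _ p :=
        (S.der p).sub ((hasDerivAt_pow 3 p).const_mul κ)
      refine this.congr_deriv ?_
      rw [show (3 - 1 : ℕ) = 2 from rfl]
      simp only [hD1]; push_cast; ring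
    · have := S.lo i a s s' b c
      simp only [hD1]; linarith
    · have := S.hi i a s s' b c
      simp only [hD1]; linarith
  have hu : ∀ i ≤ K, D (r i) ≤ ε + d' * max (x i - r i) 0 - d * max (r i - x i) 0 ∧
      -D (r i) ≤ ε + d' * max (r i - x i) 0 - d * max (x i - r i) 0 := fun i a => by
    have q := abs_le.1 (hE i a)
    simp only [hD]
    rcases le_total (x i) (r i) with h | h
    · have := cube_bd hκ hlo (hx i a).1 h (hr i a).2
      rw [← hσd, ← hd'] at this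
      rw [max_eq_right (sub_nonpos.2 h), max_eq_left (sub_nonneg.2 h)]
      constructor <;> linarith [this.1, this.2]
    · have := cube_bd hκ hlo (hr i a).1 h (hx i a).2
      rw [← hσd, ← hd'] at this
      rw [max_eq_right (sub_nonpos.2 h), max_eq_left (sub_nonneg.2 h)]
      constructor <;> linarith [this.1, this.2]
  have hB : ∀ i ≤ K, |D (r i)| ≤ ε + d' * hi := fun i a => by
    have u := hu i a
    have b1 : max (x i - r i) 0 ≤ hi :=
      max_le (by linarith [(hx i a).2, (hr i a).1]) (by linarith)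
    have b2 : max (r i - x i) 0 ≤ hi :=
      max_le (by linarith [(hx i a).1, (hr i a).2]) (by linarith)
    have c1 := mul_le_mul_of_nonneg_left b1 hd'0.le
    have c2 := mul_le_mul_of_nonneg_left b2 hd'0.le
    have c3 := mul_nonneg hd0.le (le_max_right (r i - x i) 0)
    have c4 := mul_nonneg hd0.le (le_max_right (x i - r i) 0)
    exact abs_le.2 ⟨by linarith [u.2], by linarith [u.1]⟩
  have hm0 : 0 ≤ m := hσ.le.trans hm
  have cov1 : ∀ p ∈ Icc (r i0) (r i1), ∃ j < K, r j ≤ p ∧ p ≤ r (j + 1) ∧ r (j + 1) - r j ≤ Γ :=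
    fun p hp => by
      obtain ⟨j, a, b, c, e⟩ := cover h01 hp.1 hp.2 S.mr h1K
      exact ⟨j, by omega, c, e, gap1 j a b⟩
  have hΓd : Γ ^ 2 ≤ d := by rw [hd]; exact pow_le_pow_left₀ hΓ0.le (by linarith) 2
  have hεΓ : 16 * ε ≤ d' * Γ := hΓ1.trans (by gcongr)
  obtain ⟨P1, -, P3⟩ := pass SD (m := m) (t := σ / 2) (δ := 25 / 8 * (d' * Γ)) hΓd hdd hΓ0 hε.le hl
    hl1 (by nlinarith) (hB i0 (by omega)) (hB i1 h1K) (fun i a => (hu i a).1)
    (fun i a => (hu i a).2) cov1 hm0 (by linarith) (by linarith)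
  have hbd : 2 * (25 / 8 * (d' * Γ)) / (σ / 2) +
      σ / 2 * ((25 / 8 * (d' * Γ) + ε) / d + 2 * Γ) ≤ d / 2 := by
    have a1 : 2 * (25 / 8 * (d' * Γ)) / (σ / 2) ≤ d / 8 := by
      rw [div_le_iff₀ (by linarith)]; linarith
    have a2 : (25 / 8 * (d' * Γ) + ε) / d ≤ σ / 10 := by
      rw [div_le_iff₀ hd0]; linarith
    have a3 : σ / 2 * ((25 / 8 * (d' * Γ) + ε) / d + 2 * Γ) ≤ σ / 2 * (σ / 10 + σ / 50) :=
      mul_le_mul_of_nonneg_left (by linarith) (by linarith)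
    have e : σ / 2 * (σ / 10 + σ / 50) = 3 / 50 * d := by rw [hd]; ring
    linarith
  intro i hi' hri
  have hw : r i0 + 6 * m ≤ r i1 - 6 * m := hri.1.trans hri.2
  have cov2 : ∀ p ∈ Icc (r i0 + 3 * m) (r i1 - 3 * m),
      ∃ j < K, r j ≤ p ∧ p ≤ r (j + 1) ∧ r (j + 1) - r j ≤ 6 * ε / d := fun p hp => by
    obtain ⟨j, a, b, c, e⟩ := cov1 p ⟨by linarith [hp.1], by linarith [hp.2]⟩
    refine ⟨j, a, b, c, ?_⟩
    have := mvt_ge S.der (L := d / 2) (S.mr j a) fun s hs => by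
      have q := abs_le.1 ((P3 s ⟨by linarith [hp.1, hs.1], by linarith [hp.2, hs.2]⟩).trans hbd)
      have : 3 * κ * lo ^ 2 ≤ 3 * κ * s ^ 2 :=
        mul_le_mul_of_nonneg_left (pow_le_pow_left₀ hlo.le ((hr j a.le).1.trans hs.1) 2)
          (by positivity)
      simp only [hD1] at q
      linarith [q.1]
    have f1 := abs_le.1 (hE j a.le)
    have f2 := abs_le.1 (hE (j + 1) a)
    rw [le_div_iff₀ hd0]
    linarith [hs j a]
  have hΓ' : 6 * ε / d ≤ Γ := by rw [div_le_iff₀ hd0]; linarith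
  have hΓ'0 : 0 < 6 * ε / d := by positivity
  have hB2 : 25 / 8 * (d' * Γ) ≤ ε + d' * hi := by
    have : d' * (100 * Γ) ≤ d' * hi := mul_le_mul_of_nonneg_left (by linarith) hd'0.le
    nlinarith [mul_pos hd'0 hΓ0]
  have hεd : ε ≤ ε * d' / d := by rw [le_div_iff₀ hd0]; gcongr
  obtain ⟨-, Q2, Q3⟩ := pass SD (m := m) (t := σ) (δ := 20 * (ε * d' / d)) (B := ε + d' * hi)
    (a := r i0 + 3 * m) (b := r i1 - 3 * m)
    ((pow_le_pow_left₀ hΓ'0.le hΓ' 2).trans hΓd) hdd hΓ'0 hε.le hl hl1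
    (by nlinarith [mul_le_mul_of_nonneg_left hΓ' hl.le])
    ((P1 _ ⟨by linarith, by linarith⟩).trans hB2) ((P1 _ ⟨by linarith, by linarith⟩).trans hB2)
    (fun i a => (hu i a).1) (fun i a => (hu i a).2) cov2 hm0 hσ
    (by have e : 3 * d' * (6 * ε / d) = 18 * (ε * d' / d) := by ring
        linarith)
  have A := Q2 i hi' ⟨by linarith [hri.1], by linarith [hri.2]⟩
  have A' : (20 * (ε * d' / d) + ε) / d ≤ 21 * (ε * d' / d) / d := by gcongr; linarith
  have B := Q3 (r i) ⟨by linarith [hri.1], by linarith [hri.2]⟩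
  refine ⟨A.trans (A'.trans (le_of_eq ?_)), B.trans ?_⟩
  · rw [hd]; field_simp
  · have c1 : 2 * (6 * ε / d) ≤ 12 * (ε * d' / d) / d * 1 + 12 * (ε * d' / d) / d * 0 ∨
        2 * (6 * ε / d) ≤ 12 * (ε * d' / d) / d := Or.inr (by
      have : 2 * (6 * ε / d) = 12 * ε / d := by ring
      rw [this]; gcongr)
    have c2 : 2 * (6 * ε / d) ≤ 12 * (ε * d' / d) / d := by
      rcases c1 with h | h <;> linarith
    have c3 : σ * ((20 * (ε * d' / d) + ε) / d + 2 * (6 * ε / d)) ≤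
        σ * (21 * (ε * d' / d) / d + 12 * (ε * d' / d) / d) :=
      mul_le_mul_of_nonneg_left (by linarith) hσ.le
    have e : 2 * (20 * (ε * d' / d)) / σ + σ * (21 * (ε * d' / d) / d + 12 * (ε * d' / d) / d) =
        73 * ε * d' / σ ^ 3 := by rw [hd]; field_simp; ring
    linarith

end Crest.Agent.T156.Loc
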