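import Crest.Agent.T156.LtC_85
import Crest.Agent.T156.LtK_15
import Crest.Agent.T156.LPs_13

/-!
# Row 156 (helper85): `Lp86.NC` on the numbers of `LtD_29`
-/

set_option autoImplicit false
set_option linter.unusedSectionVars false

noncomputable section

namespace Crest.Agent.T156.Alt.Lc85

open Real Tr3 Lp86 Lq3
open Crest.Agent.T156.Alt.Kn72 (nu)

set_option maxHeartbeats 1000000 in
theorem x2_lin {s c ε x μ φ ω z χ : ℝ} (h : Nr44.Ex s c ε x μ φ) (he : 1000 * ε = c)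
    (hc : c ≤ 1 / 2000) (μ0 : -(1 / 3) - 4 * c ≤ μ) (ω2 : ω ≤ μ + 1 / 3 + 4 * c)
    (hz : z = s ∨ z = -(2 * c) - μ) (χ1 : χ ≤ c / 1000 + φ)
    (χ2 : χ ≤ c / 1000 + 2 / 3 * φ + (c / 100 + (s + c / 13 - 1 / 6)) ∨
      χ ≤ c / 1000 + 2 / 3 * φ - 7 / 60) : 2 * χ - μ + c ≤ 2 * z - 1 / 3 - c - ω := by
  obtain ⟨c0, c1, e0, e1, s0, s1, x0, x1, m0, m1, m2, up⟩ := h
  rcases hz with hz | hz <;> rcases χ2 with χ2 | χ2 <;>
  rcases up with up | up | ⟨up, _, _⟩ | up | ⟨up, _⟩ | up | up | ⟨up, _, _⟩ | ⟨up, _⟩ | up |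
    ⟨up, _⟩ <;> linarith

variable {β c0 C0 c0' C0' η' : ℝ} {A : ℕ} {c η K K' : ℝ} {p : Pm} {σ t x y : ℝ} {Q : Pl}
  (X : Nr44.Cx β c0 C0 A c η K' p σ t)
include X

theorem sM_eq : logb p.n (p.sM t) = logb p.n p.s ∨
    logb p.n (p.sM t) = -(2 * c) - logb p.n (p.muG t) := by
  have a := pow_pos X.H.κ0 2
  rw [Pm.sM]
  refine (min_choice _ _).imp (fun h => by rw [h]) fun h => ?_
  rw [h, logb_div a.ne' X.θ0.ne', logb_pow, X.H.lg_κ]; push_cast; ring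

variable (nd : p.Need t)
include nd

/-- `X2² / θ ≤ κ BuL` -/
theorem x2_Bu : 2 * logb p.n (p.X2L t) - logb p.n (p.muG t) + c ≤ logb p.n (p.BuL σ t) := by
  obtain ⟨_, _, _, _, μ0, _, _, _, ω2, _, _, _⟩ := facts (σ := σ) X nd
  have := x2_lin (Nr44.ex X.H X.hy) (by ring) X.hc μ0 ω2 (sM_eq X) (Lt15.lg_X2L X).1
    (Lt15.lg_X2L X).2.1
  linarith [Lt15.lg_BuL X]

variable (G : GrD K c0' C0' η' p σ t Q) (x0 : 0 < x) (hx : x ^ 3 = y) (hy : y ≤ p.PhN t)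
include G x0 hx hy

omit x0 hx hy in
theorem uV : U p.n (p.VL σ t) 0 := by
  obtain ⟨_, _, _, _, _, _, _, _, _, _, _, _⟩ := facts (σ := σ) X nd
  have := max_le (show (4 * c - 47 / 300) / 3 ≤ -c by linarith)
    (show logb p.n (p.xM t) / 2 - 1 / 6 ≤ -c by linarith)
  exact (B.of X.H).mono (Lx13.u_VL X G nd) (by linarith)

/-- `e2`, `c1'`, `c2`, `c4` -/
theorem ncB {e1 N : ℝ} (he : U p.n e1 (-(2 / 5))) (h1 : p.BuL σ t ≤ N) :
    (∃ e, e1 + p.G0L σ t ^ 2 + p.X2L t + p.X2L t * (x + p.VL σ t) ≤ e ∧ mn (p.muG t) e ≤ N) ∧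
      Lx13.Gm p K σ t / p.muG t ≤ N ∧
      p.uL t ^ 2 + p.uL t * (e1 + p.X2L t + √(Lx13.Gm p K σ t / p.uL t)) +
        (p.uL t * p.muG t) ^ ((3 : ℝ) / 2) ≤ N := by
  have H := B.of X.H
  obtain ⟨_, _, _, _, _, _, _, _, _, _, _, _⟩ := facts (σ := σ) X nd
  have l := lgx X nd x0 hx hy
  have d1 := (dBu X).of_le h1
  have n1 := X.H.lg_mono (H.rp _) d1
  have n2 := X.H.lg_mono (Lt15.BuL0 X) h1
  rw [X.H.lg_rp] at n1
  have dN := H.dl (H.pos d1)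
  have k := x2_Bu (σ := σ) X nd
  have χ := H.ul (Lt15.X2L0 X)
  have u := Lx13.t_uL X
  have Γ := (xd X G).Γ
  generalize logb p.n N = ν at *
  refine ⟨⟨_, le_rfl, (min_le_right _ _).trans (H.le (H.div (H.pow (a := (ν + logb p.n (p.muG t)) / 2)
    ?_ 2) (dθ X)) dN (by push_cast; linarith))⟩, H.le (H.div Γ (dθ X)) dN (by linarith), ?_⟩
  · have p1 := H.pc (c := (ν + logb p.n (p.muG t)) / 2) he (by linarith)
    have p2 := H.pc (c := (ν + logb p.n (p.muG t)) / 2) (H.pow (uG0 (σ := σ) X nd) 2)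
      (by push_cast; linarith)
    have p3 := H.pc (c := (ν + logb p.n (p.muG t)) / 2) χ (by linarith)
    have p4 := H.pc (c := (ν + logb p.n (p.muG t)) / 2) (H.mul χ (H.add (c := η) (H.ul x0)
      (uV X nd G) (by linarith) (by linarith))) (by linarith)
    exact H.tot 4 (by linarith) (by linarith)
  · refine H.le (H.add3 (c := ν) (H.pow u.1 2) (H.mul u.1 (H.add3
      (c := ν + 51 / 100 + logb p.n (p.xM t) - η) he (uX2 X nd) (H.sqrt (H.div Γ u.2)) ?_ ?_ ?_))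
      (H.rpw (H.mul u.1 (uθ X)) _) ?_ ?_ ?_) dN le_rfl
    all_goals
      push_cast
      linarith

/-- **`NC` on `LtD_29`**, for any `N` above the two terms of `NL` -/
theorem ncL' {e1 N : ℝ} (y0 : p.XloL σ t ≤ y) (he : U p.n e1 (-(2 / 5))) (h1 : p.BuL σ t ≤ N)
    (h2 : p.nc (1 / 20) * p.muG t * y ^ ((4 : ℝ) / 3) ≤ N) :
    ∃ q dm z aM e B m, NC p.EL p.n (8 * K ^ 2) (p.muG t) (Plt13.u0 p (nu p σ)) (p.laG σ)
      (p.Vc (nu p σ)) (p.u2 (nu p σ)) (Lx13.hh p) (Lx13.Gm p K σ t) x (p.VL σ t) (p.VL σ t) q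
      (p.wL t) (p.uL t) dm (12 * log p.n) z aM (p.X2L t) p.LgL (p.X2L t) (p.G0L σ t) (p.jL σ t)
      (p.ecL σ t y) (p.tauL σ t y) e1 e B m N := by
  have H := B.of X.H
  obtain ⟨⟨e, e2, c1'⟩, c2, c4⟩ := ncB X nd G x0 hx hy he h1
  obtain ⟨b, m, c3, c8, c9, jτ, A1, m1, c5, c5'⟩ := corner' X nd x0 hx hy h1 h2
  obtain ⟨_, _, _, _, _, _, _, _, _, _, _, _⟩ := facts (σ := σ) X nd
  obtain ⟨-, -, -, -, -, -, -, _, -, -, _, -, _, _, -, -, -, -⟩ := Lx13.dn X G nd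
  have l := lgx X nd x0 hx hy
  have a := X.H.lg_mono (pow_pos X.la0 2) (((Lx13.la_Xlo X).trans y0).trans_eq hx.symm)
  rw [logb_pow, logb_pow] at a
  push_cast at a
  have Y := xd X G
  have u := Lx13.t_uL X
  have V := uV X nd G
  have w := uw X
  have dm := dm_d (d := -(51 / 100) - logb p.n (p.xM t) - η) H (tu X G).2 Y.ud u.2
    ⟨by linarith, by linarith, by linarith⟩
  refine ⟨_, _, _, 0, e, b, m, ct X G (tl H x0) u.2 (by linarith) (by linarith) (by linarith),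
    ⟨V.1, le_rfl⟩, qq (q := 7 / 25) Y (H.ul x0) V (.inl ⟨by linarith, by linarith⟩),
    zz (lm := η) (z := -(7 / 10) - logb p.n (p.muG t)) Y (H.ul x0) V w u.2
      ⟨by linarith, by linarith, .inl le_rfl, by linarith, by linarith, by linarith⟩,
    .inl (H.le (H.mul (lam X) (H.mul (H.pow (H.pow (uc X _) 2) 6)
      (H.add (c := -(7 / 20) - logb p.n (p.xM t))
        (H.mul (H.cst (y := 4) (by norm_num) (by norm_num)) (H.up _))
        (H.mul (H.cst (y := 16) (by norm_num) (by norm_num))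
          (bD_u (b := -(1 / 2) - logb p.n (p.xM t)) Y w dm 1 ?_ ?_)) ?_ ?_)))
      ((dBu X).of_le h1) ?_), e2, c1', c2, c3, c4, c8, c9, jτ, A1, m1, c5, c5'⟩
  all_goals
    push_cast
    linarith

/-- **`NC` on `LtD_29`** -/
theorem ncL {e1 : ℝ} (y0 : p.XloL σ t ≤ y) (he : U p.n e1 (-(2 / 5))) :
    ∃ q dm z aM e B m, NC p.EL p.n (8 * K ^ 2) (p.muG t) (Plt13.u0 p (nu p σ)) (p.laG σ)
      (p.Vc (nu p σ)) (p.u2 (nu p σ)) (Lx13.hh p) (Lx13.Gm p K σ t) x (p.VL σ t) (p.VL σ t) q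
      (p.wL t) (p.uL t) dm (12 * log p.n) z aM (p.X2L t) p.LgL (p.X2L t) (p.G0L σ t) (p.jL σ t)
      (p.ecL σ t y) (p.tauL σ t y) e1 e B m (p.NL σ t y) := by
  have y0' : 0 ≤ y := hx ▸ (pow_pos x0 3).le
  exact ncL' X nd G x0 hx hy y0 he (Lt15.BuL_le X y0') (le_add_of_nonneg_left (Lt15.BuL0 X).le)

end Crest.Agent.T156.Alt.Lc85

end
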