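import Crest.Agent.T156.LtS_76
import Crest.Agent.T156.LNy_97

/-!
# Row 156, block (L): the sums of `LT2` in exponents (helper76)
-/

set_option autoImplicit false
set_option linter.unusedSectionVars false

noncomputable section

namespace Crest.Agent.T156.Alt.Lt76

open Real Finset
open Crest.Agent.T156.Alt.L69 Crest.Agent.T156.Alt.Tn15 Crest.Agent.T156.Alt.Ln97

/-- `r * bs ≤ n^(B + η)`: `ρ = lg r`, `b` = exponent of the residual, `T`, `m` = level, mass -/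
structure BL (η L χ2 T m b ρ B : ℝ) : Prop where
  k1 : ρ + b + η ≤ B + m
  k2 : ρ + χ2 ≤ B + m / 2
  k3 : ρ + 4 * L - 2 / 3 * (1 + T + m) ≤ B + m / 2

variable {β c0 C0 : ℝ} {A : ℕ} {c η K : ℝ} {p : Pm} (H : Reg β c0 C0 A c η K p)
  {E l0 l x X Lg X2 X3 G0 t b : ℝ} {S : Sc} {M : Md}
include H

theorem L_le (cl : Cl S M) (hC : S.C ≤ (p.n : ℝ) ^ η) (hj : S.C ≤ p.n * M.s S.jl) :
    S.C ^ 2 * log (S.C / M.s S.jl) ≤ (p.n : ℝ) ^ (3 * η) := by
  refine (log_le cl hj).trans ?_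
  rw [mul_comm 3, rpow_mul H.N0.le, show (3 : ℝ) = (3 : ℕ) by norm_num, rpow_natCast, pow_succ _ 2]
  exact mul_le_mul (pow_le_pow_left₀ cl.C0.le hC 2) H.log_le (zero_le_one.trans H.log1)
    (sq_nonneg _)

theorem num_le {k y z : ℝ} (hk : k ≤ 1000) (y0 : 0 < y) (z0 : 0 < z)
    (e : logb p.n y + η ≤ logb p.n z) : k * y ≤ z := by
  refine (mul_le_mul_of_nonneg_right (hk.trans H.num_le) y0.le).trans
    (H.le_of_lg (mul_pos H.Λ0 y0) z0 ?_)
  rw [logb_mul H.Λ0.ne' y0.ne', H.lg_rp]; linarith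

variable (h : FX E S M l0 l x X Lg ((p.n : ℝ) ^ (-(2 : ℝ) / 3)) X2 X3 G0) (hn : S.n = p.n)
  (hF : S.F = 1)
include h hn hF

theorem lgW (ht : l0 ≤ t) :
    logb p.n (W S t) = -(1 + logb p.n t + logb p.n (S.ms t)) / 3 ∧
    logb p.n (P S t) = -(1 + logb p.n (S.ms t)) :=
  have w := lg_W H h.cl hn hF (h.l00.trans_le ht) (by have := h.c1 t ht; rwa [hF, one_mul] at this)
  ⟨w.1, w.2.1⟩

theorem eta_lg (ht : l ≤ t)
    (m : M12 η (logb p.n Lg) (logb p.n x) (logb p.n X2) (logb p.n X3) (logb p.n G0) (logb p.n t)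
      (logb p.n (S.ms t)) b) :
    eta S l Lg ((p.n : ℝ) ^ (-(2 : ℝ) / 3)) X X2 X3 G0 t ≤ (p.n : ℝ) ^ (b + η) :=
  (eta_eq ht).trans_le (e2_lg H h hn hF (h.l0l.trans ht) m)

/-- **the local size** -/
theorem bs_lg {r g B : ℝ} (ht : l ≤ t) (hr : 0 < r)
    (m : M12 η (logb p.n Lg) (logb p.n x) (logb p.n X2) (logb p.n X3) (logb p.n G0) (logb p.n t)
      (logb p.n (S.ms t)) b) (hg : g ≤ (p.n : ℝ) ^ (b + η))
    (k : BL η (logb p.n Lg) (logb p.n X2) (logb p.n t) (logb p.n (S.ms t)) b (logb p.n r) B) :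
    r * bs S Lg X2 g (eta S l Lg ((p.n : ℝ) ^ (-(2 : ℝ) / 3)) X X2 X3 G0) t ≤
      (p.n : ℝ) ^ (B + η) := by
  have t0 := h.lp.trans_le ht
  have n0 := H.N0
  have m0 := h.cl.ms_pos t0.le
  have := W0 h.cl t0
  have := h.Lgp
  have := h.X20
  have mf1 : mf S t = S.ms t := by rw [mf, hF, div_one]
  have w := (lgW H h hn hF (h.l0l.trans ht)).1
  obtain ⟨k1, k2, k3⟩ := k
  have a : r * (p.n : ℝ) ^ (b + η) ≤ (p.n : ℝ) ^ B * mf S t := by
    rw [mf1]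
    refine H.le_of_lg (by positivity) (by positivity) ?_
    lg_norm; rw [H.lg_n]; linarith
  refine (bs_le (B := (p.n : ℝ) ^ B) h.cl t0.le (by positivity)
    ((mul_le_mul_of_nonneg_left (eta_lg H h hn hF ht m) hr.le).trans a)
    ((mul_le_mul_of_nonneg_left hg hr.le).trans a) ?_ ?_).trans
      (num_le H (by norm_num) (by positivity) (by positivity) (by rw [H.lg_rp, H.lg_rp]))
  all_goals
    rw [mf1]
    refine H.le_of_lg (by positivity) (by positivity) ?_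
    lg_norm; rw [H.lg_n]; linarith

/-- **`LT2.x4`** -/
theorem x4_lg {X4 t' : ℝ} (ht : l ≤ t) (x4 : 0 < X4)
    (k1 : η - (1 + logb p.n (S.ms t)) - (1 + logb p.n t + logb p.n (S.ms t)) / 3 ≤ logb p.n X4)
    (k2 : 2 * η - 3 * (1 + logb p.n t + logb p.n (S.ms t)) + 21 * logb p.n x ≤ 6 * logb p.n X4) :
    L4 S (X ^ ((1 : ℝ) / 3)) X t t' X4 := by
  have t0 := h.lp.trans_le ht
  have := W0 h.cl t0
  have := Tn15.P0 h.cl t0
  have := h.X0
  have := h.x0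
  have eX : logb p.n X = 3 * logb p.n x := by rw [← h.x3]; lg_norm
  obtain ⟨w, q⟩ := lgW H h hn hF (h.l0l.trans ht)
  refine l4 h ht (num_le H (by norm_num) (by positivity) x4 (by lg_norm; linarith)) ?_
  rw [show (2 : ℝ) ^ 15 = 2 ^ 8 * 2 ^ 7 by norm_num, mul_assoc]
  refine num_le H (by norm_num) (by positivity) (by positivity) ?_
  have n2 := H.lg_num (x := 2 ^ 7) (by norm_num) (by norm_num)
  rw [logb_mul (by positivity) (by positivity)]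
  generalize logb p.n (2 ^ 7) = z at *
  lg_norm; linarith

/-- **`LT2.en`** -/
theorem en_lg {t1 X4 N En g y Γ B : ℝ} (hC : S.C ≤ (p.n : ℝ) ^ η) (hj : S.C ≤ p.n * M.s S.jl)
    (a : 2 * l ≤ t1) (e0 : 0 < En) (x4 : 0 < X4)
    (k : ∀ r, t1 / 2 ≤ r → r ≤ S.C → ∃ b, M12 η (logb p.n Lg) (logb p.n x) (logb p.n X2)
      (logb p.n X3) (logb p.n G0) (logb p.n r) (logb p.n (S.ms r)) b ∧
      logb p.n r + 2 * b + 6 * η ≤ logb p.n En + logb p.n (S.ms r))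
    (gr : ∀ t, S.gr t = 0) (hy : 0 ≤ y) (hy' : 6 * S.C ^ 3 * y ≤ 1) (hΓ : GS M S 0 S.C ≤ Γ)
    (k2 : 7 * Γ ≤ En * S.ms y) (k3 : 2 * logb p.n X2 + η ≤ logb p.n En)
    (k4 : logb p.n X4 + η ≤ logb p.n En) (k5 : 7 * N ≤ En)
    (k6 : 3 * logb p.n l + 3 * logb p.n x + η ≤ logb p.n En)
    (m : M12 η (logb p.n Lg) (logb p.n x) (logb p.n X2) (logb p.n X3) (logb p.n G0) (logb p.n t1)
      (logb p.n (S.ms t1)) b) (g0 : 0 ≤ g) (hg : g ≤ (p.n : ℝ) ^ (b + η))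
    (k7 : BL η (logb p.n Lg) (logb p.n X2) (logb p.n t1) (logb p.n (S.ms t1)) b
      (logb p.n (S.ms t1)) B) (k8 : 2 * B + 3 * η ≤ logb p.n En + logb p.n t1) :
    cB M S (eta S l Lg ((p.n : ℝ) ^ (-(2 : ℝ) / 3)) X X2 X3 G0) (t1 / 2) S.C + X2 ^ 2 + X4 + N +
      l ^ 3 * X + (S.ms t1 * bs S Lg X2 g
        (eta S l Lg ((p.n : ℝ) ^ (-(2 : ℝ) / 3)) X X2 X3 G0) t1) ^ 2 / t1 ≤ En := by
  have lp := h.lp
  have t0 : 0 < t1 := by linarith
  have n0 := H.N0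
  have := h.X20
  have := h.X0
  have := h.x0
  have my := h.cl.ms_pos hy
  have mf1 : ∀ t, mf S t = S.ms t := fun t => by rw [mf, hF, div_one]
  have eX : logb p.n X = 3 * logb p.n x := by rw [← h.x3]; lg_norm
  refine en (B := En * (p.n : ℝ) ^ (-(4 * η))) h (L_le H h.cl hC hj) (by positivity) a
    (fun r r1 r2 => ?_) gr hy hy' hΓ (h.eta_pos _).le g0
    (bs_lg H h hn hF (by linarith) (h.cl.ms_pos t0.le) m hg k7) ?_
  · obtain ⟨b, m, e⟩ := k r r1 r2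
    have r0 : 0 < r := by linarith
    have := h.cl.ms_pos r0.le
    refine (mul_le_mul_of_nonneg_left (pow_le_pow_left₀ (h.eta_pos _).le
      (eta_lg H h hn hF (by linarith) m) 2) r0.le).trans ?_
    rw [mf1]
    refine H.le_of_lg (by positivity) (by positivity) ?_
    lg_norm; rw [H.lg_n]; linarith
  have a1 : 7 * ((p.n : ℝ) ^ (3 * η) * (En * (p.n : ℝ) ^ (-(4 * η)))) ≤ En :=
    num_le H (by norm_num) (by positivity) e0 (by lg_norm; rw [H.lg_n]; linarith)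
  have a2 : 7 * (Γ / mf S y) ≤ En := by rw [mf1, ← mul_div_assoc, div_le_iff₀ my]; exact k2
  have a3 : 7 * X2 ^ 2 ≤ En := num_le H (by norm_num) (by positivity) e0 (by lg_norm; linarith)
  have a4 : 7 * X4 ≤ En := num_le H (by norm_num) x4 e0 k4
  have a6 : 7 * (l ^ 3 * X) ≤ En := num_le H (by norm_num) (by positivity) e0 (by lg_norm; linarith)
  have a7 : 7 * (((p.n : ℝ) ^ (B + η)) ^ 2 / t1) ≤ En :=
    num_le H (by norm_num) (by positivity) e0 (by lg_norm; rw [H.lg_n]; linarith)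
  linarith

/-- **`LT2.pa`** -/
theorem pa_lg {g : ℝ → ℝ} {tu En p0 : ℝ} (hC : S.C ≤ (p.n : ℝ) ^ η) (hj : S.C ≤ p.n * M.s S.jl)
    (e0 : 0 < En) (u0 : 0 < tu) (q0 : 0 < p0)
    (k : ∀ r, l ≤ r → r ≤ tu → r ≤ S.C → ∃ b, M12 η (logb p.n Lg) (logb p.n x) (logb p.n X2)
      (logb p.n X3) (logb p.n G0) (logb p.n r) (logb p.n (S.ms r)) b ∧
      g r ≤ (p.n : ℝ) ^ (b + η) ∧ BL η (logb p.n Lg) (logb p.n X2) (logb p.n r)
        (logb p.n (S.ms r)) b (logb p.n r) (logb p.n p0 - 5 * η))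
    (k1 : logb p.n En + 2 * η ≤ 2 * logb p.n p0 + logb p.n tu)
    (k2 : logb p.n En + 2 * η ≤ 2 * logb p.n p0) :
    √(En / tu) + √En + ∑ k ∈ (Ioo S.jl S.J).filter fun k => l ≤ M.s k ∧ M.s k ≤ tu,
      dx M k * bs S Lg X2 (g (M.s k)) (eta S l Lg ((p.n : ℝ) ^ (-(2 : ℝ) / 3)) X X2 X3 G0) (M.s k)
        ≤ p0 := by
  have n0 := H.N0
  refine pa (B := (p.n : ℝ) ^ (logb p.n p0 - 5 * η + η)) (q := p0 * (p.n : ℝ) ^ (-η)) h
    (L_le H h.cl hC hj) (by positivity) (fun r r1 r2 r3 => ?_) (by positivity) u0 ?_ ?_ ?_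
  · obtain ⟨b, m, hg, e⟩ := k r r1 r2 r3
    exact bs_lg H h hn hF r1 (h.lp.trans_le r1) m hg e
  · refine H.le_of_lg e0 (by positivity) ?_
    lg_norm; rw [H.lg_n]; linarith
  · refine H.le_of_lg e0 (by positivity) ?_
    lg_norm; rw [H.lg_n]; linarith
  have a1 : 3 * (p0 * (p.n : ℝ) ^ (-η)) ≤ p0 :=
    num_le H (by norm_num) (by positivity) q0 (by lg_norm; rw [H.lg_n]; linarith)
  have a2 : 3 * ((p.n : ℝ) ^ (3 * η) * (p.n : ℝ) ^ (logb p.n p0 - 5 * η + η)) ≤ p0 :=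
    num_le H (by norm_num) (by positivity) q0 (by
      rw [logb_mul (by positivity) (by positivity), H.lg_rp, H.lg_rp]; linarith)
  linarith

end Crest.Agent.T156.Alt.Lt76

end
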