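import Crest.Agent.T156.LDef_69
import Crest.Agent.T156.SrCap_71
import Crest.Agent.T156.SrMem_29

/-!
Row 156 (helper71): dictionary between the statements of (L) and of the soft recursion, the low
zone, the cost of the residual, the closing sum over dyadic blocks.
-/

set_option autoImplicit false
set_option linter.unusedSectionVars false

noncomputable section

namespace Crest.Agent.T156.Alt.Tm71

open Real Finset Filter
open Crest.Agent.T156.Alt.L69 (mf cr GS GP Pla cB Ap)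
open Crest.Agent.T156.Alt.Sr.C71 (dx_nn dx_bd sum_dx top_cube)

variable {S : Sc} {M : Md} {m : ℕ} {a : ℝ}

/-! ### dictionary -/

theorem dx_eq (M : Md) (k : ℕ) : L69.dx M k = M.dx k := rfl

theorem En_eq (M : Md) (S : Sc) (m : ℕ) (a t t' : ℝ) :
    M.En S m a M.q 2 t t' = ∑ k ∈ M.blk S t t', M.dx k * M.del m a k ^ 2 :=
  sum_congr rfl fun k _ => by rw [sq_abs]; rfl

theorem term_nn (c : Cl S M) (f : ℕ → ℝ) (k : ℕ) : 0 ≤ M.dx k * f k ^ 2 :=
  mul_nonneg (dx_nn c k) (sq_nonneg _)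

theorem le_sq (c : Cl S M) (f : ℕ → ℝ) {T : Finset ℕ} (h : ∀ k ∈ T, S.jl < k ∧ k ≤ S.Jp) :
    ∑ k ∈ T, M.dx k * f k ^ 2 ≤ M.sq S f :=
  sum_le_sum_of_subset_of_nonneg (fun k hk => mem_Ioc.2 (h k hk)) fun k _ _ => term_nn c f k

theorem sq_nn (c : Cl S M) (f : ℕ → ℝ) : 0 ≤ M.sq S f := sum_nonneg fun k _ => term_nn c f k

theorem mem_blk {t t' : ℝ} {k : ℕ} :
    k ∈ M.blk S t t' ↔ (S.j0 < k ∧ k ≤ S.Jp) ∧ t ≤ M.s k ∧ M.s k ≤ t' := by
  rw [Md.blk, mem_filter, mem_Ioc]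

theorem en_le (c : Cl S M) (jj : S.j0 = S.jl) (t t' : ℝ) :
    M.En S m a M.q 2 t t' ≤ M.Phi S m a := by
  rw [En_eq]
  exact le_sq c _ fun k hk => jj ▸ (mem_blk.1 hk).1

theorem phi_eq (c : Cl S M) (jj : S.j0 = S.jl) : L69.Phi M S m a = M.Phi S m a := by
  rw [L69.Phi, En_eq, Md.blk, filter_true_of_mem fun k hk =>
    ⟨c.s_nn k, c.s_le_C (mem_Ioc.1 hk).2⟩, jj]
  rfl

theorem sq_split (c : Cl S M) (f : ℕ → ℝ) : M.sq S f =
    ∑ k ∈ Ioo S.jl S.J, M.dx k * f k ^ 2 + ∑ k ∈ Icc S.J S.Jp, M.dx k * f k ^ 2 := by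
  have i2 := c.i2
  have i3 := c.i3
  rw [Md.sq, ← sum_union (by
    rw [disjoint_left]; intro k a b; have := mem_Ioo.1 a; have := mem_Icc.1 b; omega)]
  refine sum_congr ?_ fun _ _ => rfl
  ext k
  simp only [mem_Ioc, mem_union, mem_Ioo, mem_Icc]
  omega

theorem GS_nn (c : Cl S M) (t t' : ℝ) : 0 ≤ GS M S t t' := sum_nonneg fun k _ => term_nn c _ k

theorem GP_nn (c : Cl S M) : 0 ≤ GP M S := sum_nonneg fun k _ => term_nn c _ k

theorem GS_GP (c : Cl S M) (t t' : ℝ) : GS M S t t' + GP M S ≤ M.sq S M.G := by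
  rw [sq_split c]
  exact add_le_add (sum_le_sum_of_subset_of_nonneg (filter_subset _ _) fun k _ _ => term_nn c _ k)
    le_rfl

theorem GS_le (c : Cl S M) (t t' : ℝ) : GS M S t t' ≤ M.sq S M.G := by
  linarith [GS_GP c t t', GP_nn c]

theorem GP_le (c : Cl S M) : GP M S ≤ M.sq S M.G := by linarith [GS_GP c 0 0, GS_nn c 0 0]

theorem Pla_eq (M : Md) (S : Sc) (m : ℕ) (a : ℝ) :
    Pla M S m a 2 = ∑ k ∈ Icc S.J S.Jp, M.dx k * M.del m a k ^ 2 :=
  sum_congr rfl fun k _ => by rw [sq_abs]; rfl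

theorem del_le_one (hm : 0 < m) (k : ℕ) : M.del m a k ≤ 1 := by
  linarith [Md67.rb_le_one (M := M) (a := a) hm k, Md67.q_nonneg (M := M) k,
    show M.del m a k = M.rb m a k - M.q k from rfl]

/-- the a priori package with `Xp = X` -/
theorem ap_of (c : Cl S M) (jj : S.j0 = S.jl) {l0 X Vt u1 j g : ℝ} (hX : M.Phi S m a ≤ X)
    (hV : ∀ k, S.J ≤ k → k ≤ S.Jp → u1 ≤ L69.du M k → M.del m a k ≤ Vt) (hg : M.sq S M.G ≤ g)
    (hj : √X + √g + l0 ^ 2 ≤ j) (hJ : L69.Jn S M X u1) : Ap S M m a l0 X X Vt u1 j :=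
  ⟨(phi_eq c jj).trans_le hX, (en_le c jj _ _).trans hX, hV,
    by linarith [sqrt_le_sqrt ((GS_GP c 0 S.C).trans hg)], hJ⟩

theorem ap_one (c : Cl S M) (jj : S.j0 = S.jl) (hm : 0 < m) {l0 X u1 j g : ℝ}
    (hX : M.Phi S m a ≤ X) (hg : M.sq S M.G ≤ g) (hj : √X + √g + l0 ^ 2 ≤ j)
    (hJ : L69.Jn S M X u1) : Ap S M m a l0 X X 1 u1 j :=
  ap_of c jj hX (fun k _ _ _ => del_le_one hm k) hg hj hJ

/-! ### weights of the levels -/

theorem sum_tel (M : Md) {i j : ℕ} (h : i ≤ j) : ∑ k ∈ Ioc i j, M.dx k = M.z j - M.z i :=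
  Sr.M29.sum_dx M h

/-- total weight of the sloped nodes below the level `t` -/
theorem wt_le (c : Cl S M) {T : Finset ℕ} {t : ℝ} (ht : 0 ≤ t)
    (h : ∀ k ∈ T, S.j0 < k ∧ k < S.J ∧ M.s k ≤ t) : ∑ k ∈ T, M.dx k ≤ S.C * (t + 2 * S.v) := by
  have C0 := c.C0
  have v0 := c.v0
  rcases T.eq_empty_or_nonempty with rfl | ne
  · rw [sum_empty]; positivity
  have b := h _ (T.max'_mem ne)
  have := sum_le_sum_of_subset_of_nonneg (f := M.dx) (show T ⊆ Ioc 0 (T.max' ne) from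
    fun k hk => mem_Ioc.2 ⟨by have := (h k hk).1; omega, T.le_max' k hk⟩) fun k _ _ => dx_nn c k
  rw [sum_tel M (Nat.zero_le _)] at this
  have d := (c.z_s b.1.le b.2.1).2
  have e := mul_le_mul_of_nonneg_left b.2.2 C0.le
  linarith [c.z_pos 0]

theorem wt_one (c : Cl S M) (T : Finset ℕ) (h : ∀ k ∈ T, 0 < k) : ∑ k ∈ T, M.dx k ≤ 1 := by
  rcases T.eq_empty_or_nonempty with rfl | ne
  · simp
  exact (sum_le_sum_of_subset_of_nonneg (f := M.dx) (show T ⊆ Ioc 0 (T.max' ne) from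
    fun k hk => mem_Ioc.2 ⟨h k hk, T.le_max' k hk⟩) fun k _ _ => dx_nn c k).trans
    (sum_dx c (Nat.zero_le _))

/-- **sum over the levels**: `s φ ≤ B` costs a logarithm -/
theorem sum_lvl (c : Cl S M) {T : Finset ℕ} (hT : ∀ k ∈ T, S.jl < k ∧ k < S.J) {φ : ℕ → ℝ} {B : ℝ}
    (hB : 0 ≤ B) (h : ∀ k ∈ T, M.s k * φ k ≤ B) :
    ∑ k ∈ T, M.dx k * φ k ≤ S.C ^ 2 * log (S.C / M.s S.jl) * B := by
  have C0 := c.C0
  have i0 := c.i0
  have i1 := c.i1
  have i2 := c.i2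
  have p : ∀ k, S.jl ≤ k → 0 < M.s k := fun k hk => c.s_pos (by omega)
  have k1 : ∀ k, S.jl < k → k < S.J →
      M.dx k ≤ S.C ^ 2 * (log (M.s k) - log (M.s (k - 1))) * M.s k := fun k a b => by
    have p1 := p k a.le
    have p2 := p (k - 1) (by omega)
    have b1 := (c.ss (k - 1) (by omega)).1
    rw [Nat.sub_add_cancel (by omega), div_le_iff₀ C0] at b1
    have b2 := (dx_bd c (k := k) (by omega) b).2
    have b3 := log_le_sub_one_of_pos (div_pos p2 p1)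
    rw [log_div p2.ne' p1.ne'] at b3
    have b4 := mul_le_mul_of_nonneg_right b3 p1.le
    rw [sub_mul _ 1, div_mul_cancel₀ _ p1.ne'] at b4
    have b5 := mul_le_mul_of_nonneg_left b1 C0.le
    have b6 := mul_le_mul_of_nonneg_left b4 (sq_nonneg S.C)
    linarith
  have k0 : ∀ k, S.jl < k → 0 ≤ log (M.s k) - log (M.s (k - 1)) := fun k a =>
    sub_nonneg.2 (log_le_log (p _ (by omega)) (c.sm (Nat.sub_le k 1)))
  have k2 : ∀ k ∈ T, M.dx k * φ k ≤ S.C ^ 2 * B * (log (M.s k) - log (M.s (k - 1))) :=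
    fun k hk => by
    have a := hT k hk
    have d := mul_nonneg (sq_nonneg S.C) (k0 k a.1)
    rcases le_total (φ k) 0 with e | e
    · exact (mul_nonpos_of_nonneg_of_nonpos (dx_nn c k) e).trans
        (mul_nonneg (by positivity) (k0 k a.1))
    · have := mul_le_mul_of_nonneg_right (k1 k a.1 a.2) e
      have := mul_le_mul_of_nonneg_left (h k hk) d
      linarith
  have k3 : ∀ j, S.jl ≤ j → ∑ k ∈ Ioc S.jl j, (log (M.s k) - log (M.s (k - 1))) =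
      log (M.s j) - log (M.s S.jl) := fun j hj => by
    induction j, hj using Nat.le_induction with
    | base => simp
    | succ j h ih => rw [sum_Ioc_succ_top h, ih, Nat.add_sub_cancel]; ring
  have k4 := sum_le_sum_of_subset_of_nonneg (f := fun k => log (M.s k) - log (M.s (k - 1)))
    (show T ⊆ Ioc S.jl S.J from fun k hk => mem_Ioc.2 ⟨(hT k hk).1, (hT k hk).2.le⟩)
    fun k hk _ => k0 k (mem_Ioc.1 hk).1
  rw [k3 _ (by omega)] at k4
  refine (sum_le_sum k2).trans ?_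
  rw [← mul_sum, log_div C0.ne' (p _ le_rfl).ne', mul_right_comm _ (_ - _) B]
  exact mul_le_mul_of_nonneg_left (k4.trans (sub_le_sub_right
    (log_le_log (p _ (by omega)) (c.s_le_C c.i3)) _)) (by positivity)

/-! ### the low zone -/

theorem q_z (c : Cl S M) (hθ : S.C * S.θ ≤ 1 / 2) {i j : ℕ} (h0 : S.j0 ≤ i) (hij : i ≤ j)
    (hj : j < S.J) : M.q j - M.q i ≤ S.C ^ 2 * (M.z j - M.z i) := by
  have b1 := (c.q_tel hθ hij (hj.le.trans c.i3)).2
  have b2 := (c.s_tel hij hj.le).2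
  have b3 := (c.z_tel h0 hij hj).1
  rw [← mul_div_assoc, div_le_iff₀ c.C0] at b3
  have b4 := mul_le_mul_of_nonneg_left b3 c.C0.le
  linarith

/-- one-sided sup bound away from the junction -/
theorem sup_up (c : Cl S M) (hθ : S.C * S.θ ≤ 1 / 2) {f : ℕ → ℝ} (hf : Monotone f)
    (f1 : ∀ k, f k ≤ 1) {V : ℝ} (V0 : 0 ≤ V) (hX : M.sq S (fun k => f k - M.q k) ≤ V ^ 3) {k : ℕ}
    (h1 : S.jl ≤ k) (hz : M.z k ≤ 1 / (2 * S.C)) : f k - M.q k ≤ S.C ^ 3 * S.v + 2 * S.C ^ 2 * V := by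
  have C1 := c.C1
  have C0 := c.C0
  have v0 := c.v0
  have i1 := c.i1
  have i2 := c.i2
  have i3 := c.i3
  have c2 : 0 < S.C ^ 2 := by positivity
  have c1 : 2 ≤ S.C := by
    have := c.atom.1.trans c.atom.2
    have h : 2 / S.C ≤ 1 := by rw [show 2 / S.C = 1 / S.C + 1 / S.C by ring]; linarith
    rwa [div_le_one C0] at h
  have e2 : 1 / S.C = 2 * (1 / (2 * S.C)) := by field_simp
  have t0 : 0 < 1 / (2 * S.C) := by positivity
  have kJ : k ≤ S.J - 1 := by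
    by_contra n
    linarith [c.leg.zm (show S.J - 1 ≤ k by omega), c.atom.1]
  set U := (f k - M.q k - S.C ^ 3 * S.v) / S.C ^ 2 with hU
  have h2 := top_cube (z := M.z) (e := fun i => (f i - M.q i) / S.C ^ 2) kJ c.leg.zm (U := U)
    fun i a1 a2 => by
      have b1 := q_z c hθ (i := k) (j := i) (by omega) a1.le (by omega)
      have b2 := mul_le_mul_of_nonneg_left (dx_bd c (k := i) (by omega) (by omega)).2 c2.le
      rw [Md.dx] at b2
      rw [hU, sub_le_iff_le_add, div_le_iff₀ c2, add_mul, div_mul_cancel₀ _ c2.ne']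
      linarith [hf a1.le]
  have U1 : U ≤ 1 / (2 * S.C) := by
    rw [hU, div_le_div_iff₀ c2 (by positivity)]
    have : 0 < S.C ^ 3 * S.v := by positivity
    have h : f k - M.q k - S.C ^ 3 * S.v ≤ 1 := by linarith [f1 k, Md67.q_nonneg (M := M) k]
    nlinarith
  rw [max_eq_right (show U - (M.z (S.J - 1) - M.z k) ≤ 0 by linarith [c.atom.1])] at h2
  have h3 : ∑ i ∈ Ioc k (S.J - 1), (M.z i - M.z (i - 1)) * ((f i - M.q i) / S.C ^ 2) ^ 2 ≤ V ^ 3 := by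
    refine le_trans (sum_le_sum fun i _ => mul_le_mul_of_nonneg_left ?_ (dx_nn c i))
      ((le_sq c (fun k => f k - M.q k) fun i hi => by have := mem_Ioc.1 hi; omega).trans hX)
    rw [div_pow]
    exact div_le_self (sq_nonneg _) (one_le_pow₀ (one_le_pow₀ C1))
  have h4 : max U 0 ≤ 2 * V := le_of_pow_le_pow_left₀ three_ne_zero (by positivity) (by
    have := pow_nonneg V0 3
    rw [mul_pow]; linarith)
  have h5 := (le_max_left U 0).trans h4
  rw [hU, div_le_iff₀ c2] at h5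
  linarith

/-- **the low zone** -/
theorem low_le (c : Cl S M) (hθ : S.C * S.θ ≤ 1 / 2) (hm : 0 < m) {V l : ℝ} (hv : S.v ≤ l)
    (hl : l ≤ V) (hC : 6 * S.C ^ 2 * l ≤ 1) (hX : M.Phi S m a ≤ V ^ 3) {T : Finset ℕ}
    (hT : ∀ k ∈ T, S.jl < k ∧ k < S.J ∧ M.s k ≤ l) :
    ∑ k ∈ T, M.dx k * M.del m a k ^ 2 ≤ 27 * S.C ^ 7 * (l * V ^ 2) := by
  have C1 := c.C1
  have C0 := c.C0
  have v0 := c.v0
  have i1 := c.i1
  have l0 : 0 < l := v0.trans_le hv
  have V0 : 0 < V := l0.trans_le hl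
  have c23 : S.C ^ 2 * V ≤ S.C ^ 3 * V :=
    mul_le_mul_of_nonneg_right (pow_le_pow_right₀ C1 (by norm_num)) V0.le
  have c03 : V ≤ S.C ^ 3 * V := le_mul_of_one_le_left V0.le (one_le_pow₀ C1)
  have c3v := mul_le_mul_of_nonneg_left (hv.trans hl) (show 0 ≤ S.C ^ 3 by positivity)
  have k1 : ∀ k ∈ T, M.del m a k ^ 2 ≤ (3 * S.C ^ 3 * V) ^ 2 := fun k hk => by
    obtain ⟨a1, a2, a3⟩ := hT k hk
    have b1 := (c.z_s (by omega) a2).2
    have b2 := sup_up c hθ (Md67.rb_mono (M := M) (a := a) hm) (Md67.rb_le_one hm) V0.le hX a1.le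
      (by rw [le_div_iff₀ (by positivity)]; nlinarith)
    have b3 := c.q_le_s (k := k) (by have := c.J_lt; omega)
    have b4 := Md67.rb_nonneg (M := M) (a := a) hm k
    rw [Md.del]
    exact sq_le_sq' (by linarith) (by linarith)
  refine (sum_le_sum fun k hk => mul_le_mul_of_nonneg_left (k1 k hk) (dx_nn c k)).trans ?_
  rw [← sum_mul]
  refine (mul_le_mul_of_nonneg_right ((wt_le c l0.le fun k hk =>
    ⟨i1.trans_lt (hT k hk).1, (hT k hk).2⟩).trans (mul_le_mul_of_nonneg_left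
      (show l + 2 * S.v ≤ 3 * l by linarith) C0.le)) (sq_nonneg _)).trans_eq (by ring)

/-! ### the closing sum -/

/-- the sloped part of the block `[t, t']` -/
def Bq (M : Md) (S : Sc) (m : ℕ) (a t t' : ℝ) : ℝ :=
  ∑ k ∈ (M.blk S t t').filter (· < S.J), M.dx k * M.del m a k ^ 2

theorem Bq_le (c : Cl S M) (t t' : ℝ) :
    Bq M S m a t t' ≤ ∑ k ∈ M.blk S t t', L69.dx M k * M.del m a k ^ 2 :=
  sum_le_sum_of_subset_of_nonneg (filter_subset _ _) fun k _ _ => term_nn c _ k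

theorem Bq_add (c : Cl S M) (t t' t'' : ℝ) :
    Bq M S m a t t'' ≤ Bq M S m a t t' + Bq M S m a t' t'' := by
  have h := sum_union_inter (s₁ := (M.blk S t t').filter (· < S.J))
    (s₂ := (M.blk S t' t'').filter (· < S.J)) (f := fun k => M.dx k * M.del m a k ^ 2)
  have h1 := sum_nonneg fun k (_ : k ∈ (M.blk S t t').filter (· < S.J) ∩
    (M.blk S t' t'').filter (· < S.J)) => term_nn c (M.del m a) k
  have h2 := sum_le_sum_of_subset_of_nonneg (f := fun k => M.dx k * M.del m a k ^ 2)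
    (show (M.blk S t t'').filter (· < S.J) ⊆ (M.blk S t t').filter (· < S.J) ∪
      (M.blk S t' t'').filter (· < S.J) from fun k hk => by
      simp only [mem_union, mem_filter, mem_blk] at hk ⊢
      rcases le_total (M.s k) t' with e | e
      · exact .inl ⟨⟨hk.1.1, hk.1.2.1, e⟩, hk.2⟩
      · exact .inr ⟨⟨hk.1.1, e, hk.1.2.2⟩, hk.2⟩) fun k _ _ => term_nn c _ k
  unfold Bq
  linarith

theorem Bq_mono (c : Cl S M) {t t' r r' : ℝ} (h : r ≤ t) (h' : t' ≤ r') :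
    Bq M S m a t t' ≤ Bq M S m a r r' :=
  sum_le_sum_of_subset_of_nonneg (fun k hk => by
    simp only [mem_filter, mem_blk] at hk ⊢
    exact ⟨⟨hk.1.1, h.trans hk.1.2.1, hk.1.2.2.trans h'⟩, hk.2⟩) fun k _ _ => term_nn c _ k

theorem Bq_nn (c : Cl S M) (t t' : ℝ) : 0 ≤ Bq M S m a t t' := sum_nonneg fun k _ => term_nn c _ k

/-- dyadic blocks -/
theorem Bq_dy (c : Cl S M) {t0 t1 B : ℝ} (h0 : 0 ≤ t0) (hB : 0 ≤ B)
    (h : ∀ t, t0 ≤ t → t ≤ t1 → Bq M S m a (t / 2) t ≤ B) :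
    ∀ (I : ℕ) (t : ℝ), t0 ≤ t → t ≤ t1 → t ≤ 2 ^ I * t0 → Bq M S m a t0 t ≤ (I + 1) * B
  | 0, t, a1, a2, a3 => by
    have := (Bq_mono (m := m) (a := a) c (show t / 2 ≤ t0 by linarith) le_rfl).trans (h t a1 a2)
    simpa using this
  | I + 1, t, a1, a2, a3 => by
    have i0 : 0 ≤ (I : ℝ) * B := by positivity
    push_cast
    rcases le_total (t / 2) t0 with e | e
    · linarith [(Bq_mono (m := m) (a := a) c e le_rfl).trans (h t a1 a2)]
    · have := Bq_dy c h0 hB h I (t / 2) e (by linarith) (by rw [pow_succ] at a3; linarith)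
      linarith [Bq_add (m := m) (a := a) c t0 (t / 2) t, h t a1 a2]

theorem phi_le (c : Cl S M) (jj : S.j0 = S.jl) :
    M.Phi S m a ≤ Bq M S m a 0 S.C + Pla M S m a 2 := by
  rw [Md.Phi, sq_split c, Pla_eq]
  refine add_le_add (sum_le_sum_of_subset_of_nonneg (fun k hk => ?_) fun k _ _ => term_nn c _ k)
    le_rfl
  have := mem_Ioo.1 hk
  have i3 := c.i3
  simp only [mem_filter, mem_blk]
  exact ⟨⟨⟨by omega, by omega⟩, c.s_nn k, c.s_le_C (by omega)⟩, this.2⟩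

theorem Bq_low (c : Cl S M) (jj : S.j0 = S.jl) (hθ : S.C * S.θ ≤ 1 / 2) (hm : 0 < m) {V l : ℝ}
    (hv : S.v ≤ l) (hl : l ≤ V) (hC : 6 * S.C ^ 2 * l ≤ 1) (hX : M.Phi S m a ≤ V ^ 3) :
    Bq M S m a 0 l ≤ 27 * S.C ^ 7 * (l * V ^ 2) :=
  low_le c hθ hm hv hl hC hX fun k hk => by
    simp only [mem_filter, mem_blk] at hk
    exact ⟨jj ▸ hk.1.1.1, hk.2, hk.1.2.2⟩

/-- **closing**: low zone, first block, dyadic blocks, top window, plateau -/
theorem close (c : Cl S M) (jj : S.j0 = S.jl) {l t0 t1 B : ℝ} (h0 : 0 ≤ t0) (h1 : t0 ≤ t1)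
    {I : ℕ} (hI : t1 ≤ 2 ^ I * t0) (b0 : Bq M S m a 0 l ≤ B) (b1 : Bq M S m a l t0 ≤ B)
    (b2 : ∀ t, t0 ≤ t → t ≤ t1 → Bq M S m a (t / 2) t ≤ B) (b3 : Bq M S m a t1 S.C ≤ B)
    (b4 : Pla M S m a 2 ≤ B) : M.Phi S m a ≤ (I + 5) * B := by
  have := Bq_dy c h0 ((Bq_nn c _ _).trans b0) b2 I t1 h1 le_rfl hI
  linarith [phi_le (m := m) (a := a) c jj, Bq_add (m := m) (a := a) c 0 l S.C,
    Bq_add (m := m) (a := a) c l t0 S.C, Bq_add (m := m) (a := a) c t0 t1 S.C]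

/-- closing without a cut -/
theorem close0 (c : Cl S M) (jj : S.j0 = S.jl) {l y B : ℝ} (b0 : Bq M S m a 0 l ≤ B)
    (b1 : Bq M S m a l y ≤ B) (b3 : Bq M S m a y S.C ≤ B) (b4 : Pla M S m a 2 ≤ B) :
    M.Phi S m a ≤ 4 * B := by
  linarith [phi_le (m := m) (a := a) c jj, Bq_add (m := m) (a := a) c 0 l S.C,
    Bq_add (m := m) (a := a) c l y S.C]

theorem exists_dy {t0 t1 n : ℝ} (h0 : 0 < t0) (hn : 1 ≤ n) (h : t1 ≤ n * t0) :
    ∃ I : ℕ, t1 ≤ 2 ^ I * t0 ∧ (I : ℝ) ≤ 2 * log n + 1 := by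
  obtain ⟨i, a, b⟩ := exists_nat_pow_near hn one_lt_two
  refine ⟨i + 1, h.trans (mul_le_mul_of_nonneg_right b.le h0.le), ?_⟩
  have := log_le_log (by positivity) a
  rw [log_pow] at this
  have l2 := log_two_gt_d9
  have : (0 : ℝ) ≤ i := Nat.cast_nonneg i
  push_cast
  nlinarith

/-! ### the cost of the residual -/

theorem r43 (g : ℝ) {β : ℝ} (hβ : 0 < β) : |g| ^ ((4 : ℝ) / 3) ≤ β ^ 2 + g ^ 2 / β := by
  set x := |g| ^ ((2 : ℝ) / 3) with hx
  have x0 : 0 ≤ x := rpow_nonneg (abs_nonneg g) _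
  have e1 : |g| ^ ((4 : ℝ) / 3) = x ^ 2 := by
    rw [hx, ← rpow_natCast, ← rpow_mul (abs_nonneg g)]; norm_num
  have e2 : g ^ 2 = x ^ 3 := by
    rw [hx, ← sq_abs g, ← rpow_natCast, ← rpow_natCast, ← rpow_mul (abs_nonneg g)]
    norm_num
  rw [e1, e2]
  rcases le_total x β with h | h
  · have : 0 ≤ x ^ 3 / β := by positivity
    linarith [pow_le_pow_left₀ x0 h 2]
  · have : x ^ 2 ≤ x ^ 3 / β := by
      rw [le_div_iff₀ hβ]; nlinarith [sq_nonneg x]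
    linarith [sq_nonneg β]

/-- mass form for `x`, cube root form for `y` -/
theorem mix (x y : ℝ) {μ β : ℝ} (hμ : 0 < μ) (hβ : 0 < β) :
    min (|x + y| ^ ((4 : ℝ) / 3)) ((x + y) ^ 2 / μ) ≤ 4 * (x ^ 2 / μ) + β ^ 2 + 4 * (y ^ 2 / β) := by
  have p1 : 0 ≤ x ^ 2 / μ := by positivity
  have p2 : 0 ≤ y ^ 2 / β := by positivity
  rcases le_total (x ^ 2) (y ^ 2) with h | h
  · have b1 : (x + y) ^ 2 / β ≤ 4 * (y ^ 2 / β) := by
      rw [← mul_div_assoc]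
      exact div_le_div_of_nonneg_right (by nlinarith [sq_nonneg (x - y)]) hβ.le
    linarith [min_le_left (|x + y| ^ ((4 : ℝ) / 3)) ((x + y) ^ 2 / μ), r43 (x + y) hβ]
  · have b1 : (x + y) ^ 2 / μ ≤ 4 * (x ^ 2 / μ) := by
      rw [← mul_div_assoc]
      exact div_le_div_of_nonneg_right (by nlinarith [sq_nonneg (x - y)]) hμ.le
    linarith [min_le_right (|x + y| ^ ((4 : ℝ) / 3)) ((x + y) ^ 2 / μ), sq_nonneg β]

/-- the nodes of the levels in `[t, t']` -/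
def Lv (M : Md) (S : Sc) (t t' : ℝ) : Finset ℕ :=
  (Ioo S.jl S.J).filter fun k => t ≤ M.s k ∧ M.s k ≤ t'

theorem mem_Lv {t t' : ℝ} {k : ℕ} :
    k ∈ Lv M S t t' ↔ (S.jl < k ∧ k < S.J) ∧ t ≤ M.s k ∧ M.s k ≤ t' := by
  rw [Lv, mem_filter, mem_Ioo]

/-- the `η` part of the bulk cost -/
def cE (M : Md) (S : Sc) (η : ℝ → ℝ) (t t' : ℝ) : ℝ :=
  ∑ k ∈ Lv M S t t', M.dx k * (cr S (M.s k) * (η (M.s k) ^ 2 / mf S (M.s k)))

/-- the residual part of the bulk cost -/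
def cG (M : Md) (S : Sc) (t t' : ℝ) : ℝ :=
  ∑ k ∈ Lv M S t t', M.dx k * min (|M.G k| ^ ((4 : ℝ) / 3)) (M.G k ^ 2 / mf S (M.s k))

theorem cB_eq (M : Md) (S : Sc) (η : ℝ → ℝ) (t t' : ℝ) :
    cB M S η t t' = cE M S η t t' + cG M S t t' := by
  rw [cE, cG, ← sum_add_distrib]
  exact sum_congr rfl fun k _ => mul_add _ _ _

theorem cE_le (c : Cl S M) {η : ℝ → ℝ} {t t' B : ℝ} (hB : 0 ≤ B)
    (h : ∀ r, t ≤ r → r ≤ t' → r ≤ S.C → r * (cr S r * (η r ^ 2 / mf S r)) ≤ B) :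
    cE M S η t t' ≤ S.C ^ 2 * log (S.C / M.s S.jl) * B :=
  sum_lvl c (fun k hk => (mem_Lv.1 hk).1) hB fun k hk =>
    h _ (mem_Lv.1 hk).2.1 (mem_Lv.1 hk).2.2 (c.s_le_C ((mem_Lv.1 hk).1.2.le.trans c.i3))

theorem mf_pos (c : Cl S M) {t : ℝ} (ht : 0 ≤ t) : 0 < mf S t :=
  div_pos (c.ms_pos ht) (zero_lt_one.trans_le c.F1)

theorem mf_mono (c : Cl S M) : Monotone (mf S) := fun _ _ h =>
  div_le_div_of_nonneg_right (c.msm h) (zero_le_one.trans c.F1)

/-- **the residual `G = x + y`**: `x` in mass form; `y` in cube root form below the level `r`, in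
mass form above -/
theorem cG_le (c : Cl S M) {x y : ℕ → ℝ} {t t' r β A γ : ℝ} (hr : 0 ≤ r) (hβ : 0 < β)
    (hG : ∀ k ∈ Lv M S t t', M.G k = x k + y k)
    (hA : ∑ k ∈ Lv M S t t', M.dx k * (x k ^ 2 / mf S (M.s k)) ≤ A) (hy : M.sq S y ≤ γ) :
    cG M S t t' ≤ 4 * A + β ^ 2 * (S.C * (r + 2 * S.v)) + 4 * (γ / β) +
      if t' ≤ r then 0 else 2 * (γ / mf S r) := by
  classical
  have i3 := c.i3
  have mr := mf_pos c hr
  have k1 : ∀ k ∈ Lv M S t t', M.dx k * min (|M.G k| ^ ((4 : ℝ) / 3)) (M.G k ^ 2 / mf S (M.s k)) ≤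
      4 * (M.dx k * (x k ^ 2 / mf S (M.s k))) + β ^ 2 * (if M.s k ≤ r then M.dx k else 0) +
        4 / β * (M.dx k * y k ^ 2) +
        (if t' ≤ r then 0 else 2 / mf S r) * (M.dx k * y k ^ 2) := fun k hk => by
    have d0 := dx_nn c k
    have m0 := mf_pos c (c.s_nn k)
    have p1 : 0 ≤ 4 / β * (M.dx k * y k ^ 2) := by positivity
    have p2 : 0 ≤ (if t' ≤ r then 0 else 2 / mf S r) * (M.dx k * y k ^ 2) := by
      split_ifs <;> positivity
    rw [hG k hk]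
    by_cases e : M.s k ≤ r
    · have := mul_le_mul_of_nonneg_left (mix (x k) (y k) m0 hβ) d0
      have e1 : M.dx k * (4 * (y k ^ 2 / β)) = 4 / β * (M.dx k * y k ^ 2) := by ring
      rw [if_pos e]
      linarith
    · have e0 : ¬t' ≤ r := fun h => e ((mem_Lv.1 hk).2.2.trans h)
      rw [if_neg e, if_neg e0]
      have b1 : (x k + y k) ^ 2 / mf S (M.s k) ≤
          2 * (x k ^ 2 / mf S (M.s k)) + 2 * (y k ^ 2 / mf S (M.s k)) := by
        rw [← mul_div_assoc, ← mul_div_assoc, ← add_div]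
        exact div_le_div_of_nonneg_right (by nlinarith [sq_nonneg (x k - y k)]) m0.le
      have b2 : y k ^ 2 / mf S (M.s k) ≤ y k ^ 2 / mf S r :=
        div_le_div_of_nonneg_left (sq_nonneg _) mr (mf_mono c (not_le.1 e).le)
      have b3 := mul_le_mul_of_nonneg_left ((min_le_right (|x k + y k| ^ ((4 : ℝ) / 3)) _).trans
        (b1.trans (add_le_add le_rfl (mul_le_mul_of_nonneg_left b2 zero_le_two)))) d0
      have e1 : M.dx k * (2 * (y k ^ 2 / mf S r)) = 2 / mf S r * (M.dx k * y k ^ 2) := by ring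
      have p3 : 0 ≤ M.dx k * (x k ^ 2 / mf S (M.s k)) := by positivity
      linarith
  refine (sum_le_sum k1).trans ?_
  rw [sum_add_distrib, sum_add_distrib, sum_add_distrib, ← mul_sum, ← mul_sum, ← mul_sum, ← mul_sum,
    ← sum_filter]
  have b1 := wt_le c hr (T := (Lv M S t t').filter fun k => M.s k ≤ r) fun k hk =>
    ⟨c.i1.trans_lt (mem_Lv.1 (mem_filter.1 hk).1).1.1, (mem_Lv.1 (mem_filter.1 hk).1).1.2,
      (mem_filter.1 hk).2⟩
  have b2 := (le_sq c y (T := Lv M S t t') fun k hk =>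
    ⟨(mem_Lv.1 hk).1.1, (mem_Lv.1 hk).1.2.le.trans i3⟩).trans hy
  have b3 := mul_le_mul_of_nonneg_left b1 (sq_nonneg β)
  have b4 := mul_le_mul_of_nonneg_left b2 (show 0 ≤ 4 / β by positivity)
  have e1 : 4 / β * γ = 4 * (γ / β) := by ring
  split_ifs with e
  · linarith
  · have b5 := mul_le_mul_of_nonneg_left b2 (show 0 ≤ 2 / mf S r by positivity)
    have e2 : 2 / mf S r * γ = 2 * (γ / mf S r) := by ring
    linarith

end Crest.Agent.T156.Alt.Tm71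

end
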