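import Crest.Agent.T156.LNx_97
import Crest.Agent.T156.TermD_71

/-!
# Row 156, block (L): the sums of the thick zone `LT2` from lines at one level (helper76)
-/

set_option autoImplicit false
set_option linter.unusedSectionVars false

noncomputable section

namespace Crest.Agent.T156.Alt.Lt76

open Real Finset
open Crest.Agent.T156.Alt.L69 Crest.Agent.T156.Alt.Tn15 Crest.Agent.T156.Alt.Ln97

variable {S : Sc} {M : Md} {t t' B L μ Γ y : ℝ}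

/-- **sum over the levels of `[t, t']`** -/
theorem bulk (c : Cl S M) {φ : ℝ → ℝ} (hL : S.C ^ 2 * log (S.C / M.s S.jl) ≤ L) (hB : 0 ≤ B)
    (h : ∀ r, t ≤ r → r ≤ t' → r ≤ S.C → r * φ r ≤ B) :
    ∑ k ∈ (Ioo S.jl S.J).filter fun k => t ≤ M.s k ∧ M.s k ≤ t', dx M k * φ (M.s k) ≤ L * B :=
  (Tm71.sum_lvl c (T := Tm71.Lv M S t t') (φ := fun k => φ (M.s k))
    (fun _ hk => (Tm71.mem_Lv.1 hk).1) hB fun _ hk => h _ (Tm71.mem_Lv.1 hk).2.1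
      (Tm71.mem_Lv.1 hk).2.2 (c.s_le_C ((Tm71.mem_Lv.1 hk).1.2.le.trans c.i3))).trans
    (mul_le_mul_of_nonneg_right hL hB)

/-- the logarithm of the levels -/
theorem log_le (c : Cl S M) {n : ℝ} (h : S.C ≤ n * M.s S.jl) :
    S.C ^ 2 * log (S.C / M.s S.jl) ≤ S.C ^ 2 * log n := by
  have p : 0 < M.s S.jl := c.s_pos (c.i0.trans c.i1)
  exact mul_le_mul_of_nonneg_left (log_le_log (div_pos c.C0 p) ((div_le_iff₀ p).2 h)) (sq_nonneg _)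

/-- without bulk residual `G` lives at the levels of order one -/
theorem G_zero (c : Cl S M) (gr : ∀ t, S.gr t = 0) {k : ℕ} (h1 : S.jl ≤ k) (h2 : k < S.J)
    (h : 6 * S.C ^ 3 * M.s k ≤ 1) : M.G k = 0 := by
  have C0 := c.C0
  have a := (c.z_s (c.i1.trans h1) h2).2
  have b := (c.s_bds h2.le).1
  have k1 : (1 : ℝ) ≤ k := by exact_mod_cast c.i0.trans (c.i1.trans h1)
  have d := (le_mul_of_one_le_left (div_pos c.v0 C0).le k1).trans b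
  rw [div_le_iff₀' C0] at d
  have e := mul_le_mul_of_nonneg_right c.C1 (mul_nonneg C0.le (c.s_nn k))
  have f := mul_le_mul_of_nonneg_left d C0.le
  refine abs_nonpos_iff.1 (gr (M.s k) ▸ c.Gmi k h1 ?_)
  rw [le_div_iff₀ (by positivity)]
  nlinarith

theorem GS_zero (c : Cl S M) (gr : ∀ t, S.gr t = 0) (h : 6 * S.C ^ 3 * y ≤ 1) : GS M S t y = 0 :=
  sum_eq_zero fun k hk => by
    obtain ⟨⟨a, b⟩, -, d⟩ := (Tm71.mem_Lv (M := M) (S := S)).1 hk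
    rw [G_zero c gr a.le b ((mul_le_mul_of_nonneg_left d (by have := c.C0; positivity)).trans h)]
    simp

theorem GS_mono (c : Cl S M) (t t' : ℝ) : GS M S t t' ≤ GS M S 0 S.C :=
  sum_le_sum_of_subset_of_nonneg (fun k hk => by
    obtain ⟨a, -⟩ := (Tm71.mem_Lv (M := M) (S := S)).1 hk
    exact Tm71.mem_Lv.2 ⟨a, c.s_nn k, c.s_le_C (a.2.le.trans c.i3)⟩)
    fun k _ _ => Tm71.term_nn c _ k

/-- the residual part of the cost -/
theorem cG_le (c : Cl S M) (μ0 : 0 < μ)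
    (h : ∀ k, S.jl < k → k < S.J → M.G k = 0 ∨ μ ≤ mf S (M.s k)) (hΓ : GS M S 0 S.C ≤ Γ) :
    Tm71.cG M S t t' ≤ Γ / μ := by
  refine le_trans ?_ (div_le_div_of_nonneg_right ((GS_mono c t t').trans hΓ) μ0.le)
  rw [GS, sum_div]
  refine sum_le_sum fun k hk => ?_
  obtain ⟨⟨a, b⟩, -⟩ := Tm71.mem_Lv.1 hk
  rw [mul_div_assoc]
  refine mul_le_mul_of_nonneg_left ((min_le_right _ _).trans ?_) (Sr.C71.dx_nn c k)
  rcases h k a b with e | e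
  · simp [e]
  · exact div_le_div_of_nonneg_left (sq_nonneg _) μ0 e

/-- **the bulk cost** -/
theorem cB_le (c : Cl S M) {η : ℝ → ℝ} (hL : S.C ^ 2 * log (S.C / M.s S.jl) ≤ L) (hB : 0 ≤ B)
    (h : ∀ r, t ≤ r → r ≤ t' → r ≤ S.C → r * (cr S r * (η r ^ 2 / mf S r)) ≤ B)
    (gr : ∀ t, S.gr t = 0) (hy : 0 ≤ y) (hy' : 6 * S.C ^ 3 * y ≤ 1) (hΓ : GS M S 0 S.C ≤ Γ) :
    cB M S η t t' ≤ L * B + Γ / mf S y := by
  rw [Tm71.cB_eq]
  refine add_le_add ((Tm71.cE_le c hB h).trans (mul_le_mul_of_nonneg_right hL hB))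
    (cG_le c (mf0 c hy) (fun k a b => ?_) hΓ)
  rcases le_total (M.s k) y with e | e
  · exact .inl (G_zero c gr a.le b
      ((mul_le_mul_of_nonneg_left e (by have := c.C0; positivity)).trans hy'))
  · exact .inr (mf_mono c e)

/-- the local size from four monomials -/
theorem bs_le (c : Cl S M) {Lg X2 g r : ℝ} {η : ℝ → ℝ} (ht : 0 ≤ t) (hB : 0 ≤ B)
    (h1 : r * η t ≤ B * mf S t) (h2 : r * g ≤ B * mf S t) (h3 : (r * X2) ^ 2 ≤ B ^ 2 * mf S t)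
    (h4 : (r * (Lg ^ 2 * W S t) ^ 2) ^ 2 ≤ B ^ 2 * mf S t) : r * bs S Lg X2 g η t ≤ 4 * B := by
  have m := mf0 c ht
  have q := sqrt_pos.2 m
  have k : ∀ z, z ^ 2 ≤ B ^ 2 * mf S t → z ≤ B * √(mf S t) := fun z hz =>
    le_of_pow_le_pow_left₀ two_ne_zero (by positivity) (by rwa [mul_pow, sq_sqrt m.le])
  have a : r * ((η t + g) / mf S t) ≤ 2 * B := by
    rw [← mul_div_assoc, div_le_iff₀ m]; linarith
  have b : r * ((X2 + (Lg ^ 2 * W S t) ^ 2) / √(mf S t)) ≤ 2 * B := by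
    rw [← mul_div_assoc, div_le_iff₀ q]; linarith [k _ h3, k _ h4]
  rw [bs, uw, mul_assoc (Lg ^ 2), ← W]
  linarith

theorem bs_nn (c : Cl S M) {Lg X2 g : ℝ} {η : ℝ → ℝ} (ht : 0 ≤ t) (h1 : 0 ≤ η t) (h2 : 0 ≤ g)
    (h3 : 0 ≤ X2) : 0 ≤ bs S Lg X2 g η t := by
  have := mf0 c ht
  rw [bs]; positivity

section

variable {E l0 l x X Lg ν X2 X3 G0 : ℝ} (h : FX E S M l0 l x X Lg ν X2 X3 G0)
include h

/-- **the quartic sums** -/
theorem l4 {X4 : ℝ} (a : l ≤ t) (k1 : 32 * (P S t * W S t) ≤ X4)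
    (k2 : 2 ^ 15 * (W S t ^ 9 * X ^ 7) ≤ X4 ^ 6) : L4 S (X ^ ((1 : ℝ) / 3)) X t t' X4 := by
  intro r b _
  have t0 := h.lp.trans_le a
  have r0 := t0.trans_le b
  have X0 := h.X0
  have w0 := W0 h.cl r0
  have w1 := W_anti h.cl t0 b
  have p1 := P_anti h.cl t0 b
  have p0 := Tn15.P0 h.cl t0
  have x4 : 0 < X4 := lt_of_lt_of_le (by have := W0 h.cl t0; positivity) k1
  rw [h.rx]
  obtain ⟨d0, -, s0, s1⟩ := h.cl_bd (h.l0l.trans (a.trans b))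
  rw [max_eq_left (h.xl.trans (a.trans b)), mul_div_assoc, div_self r0.ne', mul_one] at s1
  have m1 : 0 < min X (L69.cl S x r ^ 3) := by positivity
  have u1 : r * ws S x r ^ 4 ≤ X4 / 2 := by
    have b := mul_le_mul_of_nonneg_left (pow_le_pow_left₀ s0.le s1 4) r0.le
    have c := mul_le_mul p1 w1 w0.le p0.le
    rw [P.eq_1 S r] at c
    linarith
  have u2 : ws S x r ^ ((3 : ℝ) / 2) * min X (L69.cl S x r ^ 3) ^ ((7 : ℝ) / 6) ≤ X4 / 2 := by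
    refine le_of_pow_le_pow_left₀ (n := 6) (by norm_num) (by positivity) ?_
    rw [mul_pow, rp_pow s0.le 6 9 (by norm_num), rp_pow m1.le 6 7 (by norm_num)]
    have : ws S x r ^ 9 * min X (L69.cl S x r ^ 3) ^ 7 ≤ (2 * W S t) ^ 9 * X ^ 7 := by
      exact mul_le_mul (pow_le_pow_left₀ s0.le (by linarith) 9)
        (pow_le_pow_left₀ m1.le (min_le_left _ _) 7) (by positivity)
        (by have := W0 h.cl t0; positivity)
    linarith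
  linarith

/-- the cost line at one level (`cr = 1`) -/
theorem cost {η : ℝ → ℝ} {r : ℝ} (a : l ≤ r) (k : r * η r ^ 2 ≤ B * mf S r) :
    r * (cr S r * (η r ^ 2 / mf S r)) ≤ B := by
  rw [h.cr_one (h.l0l.trans a), one_mul, ← mul_div_assoc,
    div_le_iff₀ (mf0 h.cl (h.lp.le.trans a))]
  exact k

/-- **`LT2.en`** -/
theorem en {η : ℝ → ℝ} {t1 X4 N En g D : ℝ} (hL : S.C ^ 2 * log (S.C / M.s S.jl) ≤ L)
    (hB : 0 ≤ B) (a : 2 * l ≤ t1) (k : ∀ r, t1 / 2 ≤ r → r ≤ S.C → r * η r ^ 2 ≤ B * mf S r)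
    (gr : ∀ t, S.gr t = 0) (hy : 0 ≤ y) (hy' : 6 * S.C ^ 3 * y ≤ 1) (hΓ : GS M S 0 S.C ≤ Γ)
    (η0 : 0 ≤ η t1) (g0 : 0 ≤ g) (hD : S.ms t1 * bs S Lg X2 g η t1 ≤ D)
    (e : L * B + Γ / mf S y + X2 ^ 2 + X4 + N + l ^ 3 * X + D ^ 2 / t1 ≤ En) :
    cB M S η (t1 / 2) S.C + X2 ^ 2 + X4 + N + l ^ 3 * X +
      (S.ms t1 * bs S Lg X2 g η t1) ^ 2 / t1 ≤ En := by
  have t0 : 0 < t1 := by linarith [h.lp]
  have b := cB_le (t := t1 / 2) (t' := S.C) h.cl hL hB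
    (fun r a' _ b => cost h (by linarith) (k r a' b)) gr hy hy' hΓ
  have d := div_le_div_of_nonneg_right (pow_le_pow_left₀ (mul_nonneg (h.cl.ms_pos t0.le).le
    (bs_nn h.cl t0.le η0 g0 h.X20.le)) hD 2) t0.le
  linarith

/-- **`LT2.pa`** -/
theorem pa {η g : ℝ → ℝ} {tu En p0 q : ℝ} (hL : S.C ^ 2 * log (S.C / M.s S.jl) ≤ L) (hB : 0 ≤ B)
    (k : ∀ r, l ≤ r → r ≤ tu → r ≤ S.C → r * bs S Lg X2 (g r) η r ≤ B) (q0 : 0 ≤ q) (u0 : 0 < tu)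
    (e1 : En ≤ q ^ 2 * tu) (e2 : En ≤ q ^ 2) (e : 2 * q + L * B ≤ p0) :
    √(En / tu) + √En + ∑ k ∈ (Ioo S.jl S.J).filter fun k => l ≤ M.s k ∧ M.s k ≤ tu,
      dx M k * bs S Lg X2 (g (M.s k)) η (M.s k) ≤ p0 := by
  have a := bulk (φ := fun r => bs S Lg X2 (g r) η r) h.cl hL hB k
  have b : √(En / tu) ≤ q := sqrt_le_iff.2 ⟨q0, (div_le_iff₀ u0).2 e1⟩
  have d : √En ≤ q := sqrt_le_iff.2 ⟨q0, e2⟩
  linarith

end

end Crest.Agent.T156.Alt.Lt76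

end
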