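import Crest.Agent.T156.Reg_48
import Crest.Agent.T156.Lab_36
import Crest.Agent.T156.GapB_27

/-!
Row 156 (helper48): text (L), the plateau part of the global energy estimate
(docs/T156_36T.md sec. 5, with the cut at a label `≥ 1 - u0`).
-/

set_option autoImplicit false

namespace Crest.Agent.T156.Pr.Reg48

open MeasureTheory Set
open Crest.Agent.R164.GC Crest.Agent.R339.B Crest.Agent.R339.Var Crest.Agent.T157.Pf
open Crest.Agent.T156.Cut8 (LB Res int_mono int_split)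

noncomputable section

theorem y2 {a x ε N : ℝ} (hx : 0 ≤ x) (hN : 0 ≤ N) (hε : 0 < ε) (h : a ^ 2 ≤ ε * N) :
    a * x ≤ ε * x ^ 2 + N := by
  rcases le_total a (ε * x) with c | c
  · nlinarith [mul_le_mul_of_nonneg_right c hx]
  · have a0 : 0 ≤ a := le_trans (by positivity) c
    have : ε * (a * x) ≤ ε * N := by nlinarith [mul_le_mul_of_nonneg_left c a0]
    have := le_of_mul_le_mul_left this hε
    nlinarith [mul_nonneg hε.le (sq_nonneg x)]

theorem y3 {a x ε N : ℝ} (hx : 0 ≤ x) (hN : 0 ≤ N) (hε : 0 < ε) (h : a ^ 3 ≤ ε * N ^ 2) :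
    a * x ≤ ε * x ^ 3 + N := by
  have x3 : 0 ≤ ε * x ^ 3 := by positivity
  rcases le_total a (ε * x ^ 2) with c | c
  · nlinarith [mul_le_mul_of_nonneg_right c hx]
  · have a0 : 0 ≤ a := le_trans (by positivity) c
    have : ε * (a * x) ^ 2 ≤ ε * N ^ 2 := by
      nlinarith [mul_le_mul_of_nonneg_left c (sq_nonneg a)]
    have := abs_le_of_sq_le_sq' (le_of_mul_le_mul_left this hε) hN
    linarith [this.2]

theorem y32 {a x ε N : ℝ} (hx : 0 ≤ x) (hN : 0 ≤ N) (hε : 0 < ε) (h : a ^ 3 ≤ ε ^ 2 * N) :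
    a * x ^ 2 ≤ ε * x ^ 3 + N := by
  have x3 : 0 ≤ ε * x ^ 3 := by positivity
  rcases le_total a (ε * x) with c | c
  · nlinarith [mul_le_mul_of_nonneg_right c (sq_nonneg x)]
  · have a0 : 0 ≤ a := le_trans (by positivity) c
    have c2 : (ε * x) ^ 2 ≤ a ^ 2 := pow_le_pow_left₀ (by positivity) c 2
    have : ε ^ 2 * (a * x ^ 2) ≤ ε ^ 2 * N := by nlinarith [mul_le_mul_of_nonneg_left c2 a0]
    have := le_of_mul_le_mul_left this (by positivity)
    linarith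

theorem LB_max {T : ℝ} {k : ℝ → ℝ} (lk : LB T k) : LB T fun t => max (k t) 0 := by
  have := (lk.add lk.abs).div 2
  convert this using 2 with t
  rcases le_total 0 (k t) with a | a
  · rw [max_eq_left a, abs_of_nonneg a]; ring
  · rw [max_eq_right a, abs_of_nonpos a]; ring

theorem LB_lin (T a c : ℝ) : LB T fun t => a * (t - c) := .of_cont (by fun_prop)

theorem int_lin (a c x y : ℝ) :
    ∫ t in x..y, a * (t - c) = a / 2 * (y - c) ^ 2 - a / 2 * (x - c) ^ 2 := by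
  have := intervalIntegral.integral_eq_sub_of_hasDerivAt (a := x) (b := y)
    (f := fun s => 0 * (s - c) + a / 2 * (s - c) ^ 2) (f' := fun s => 0 + a * (s - c))
    (fun s _ => sq_der 0 a c s) (Continuous.intervalIntegrable (by fun_prop) _ _)
  simpa using this

theorem int_le {T : ℝ} {f : ℝ → ℝ} (hf : LB T f) {x y K : ℝ} (hx : 0 ≤ x) (hxy : x ≤ y)
    (hy : y ≤ T) (h : ∀ t, x < t → t < y → f t ≤ K) : ∫ t in x..y, f t ≤ (y - x) * K :=
  Cut8.int_le_const hf hx hxy hy h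

theorem int_nn {f : ℝ → ℝ} {x y : ℝ} (hxy : x ≤ y) (h : ∀ t, 0 ≤ f t) : 0 ≤ ∫ t in x..y, f t :=
  intervalIntegral.integral_nonneg hxy fun t _ => h t

/-- bathtub -/
theorem bath {T S P : ℝ} {f : ℝ → ℝ} (lf : LB T f) (hS : 0 ≤ S) (hSP : S ≤ P) (hP : P ≤ T)
    (h0 : ∀ t, 0 ≤ f t) (h1 : ∀ t, S < t → t < P → f t ≤ 1) :
    (∫ t in S..P, f t) ^ 2 ≤ 2 * ∫ t in S..P, (t - S) * f t := by
  set V := ∫ t in S..P, f t with hV
  have V0 : 0 ≤ V := int_nn hSP h0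
  have V1 : V ≤ (P - S) * 1 := int_le lf hS hSP hP h1
  have mS : S ∈ Icc 0 T := ⟨hS, hSP.trans hP⟩
  have mP : P ∈ Icc 0 T := ⟨hS.trans hSP, hP⟩
  have mV : S + V ∈ Icc 0 T := ⟨by linarith, by linarith⟩
  have l1 : LB T fun t => (t - S) * f t := by simpa using (LB_lin T 1 S).mul lf
  have l2 : LB T fun t => V * f t := (LB.const V).mul lf
  have a := int_mono l2 l1 mV.1 (by linarith : S + V ≤ P) hP fun t a _ =>
    mul_le_mul_of_nonneg_right (by linarith) (h0 t)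
  have b := int_mono ((LB_lin T 1 (S + V)).add l2) l1 hS (by linarith : S ≤ S + V) mV.2
    fun t a c => by nlinarith [h1 t a (by linarith)]
  rw [intervalIntegral.integral_add ((LB_lin T 1 (S + V)).ii mS mV) (l2.ii mS mV), int_lin] at b
  have c := int_split l2 mS mV mP
  rw [intervalIntegral.integral_const_mul, ← hV] at c
  rw [int_split l1 mS mV mP]
  nlinarith

/-- data of the plateau: `σ` top of the reference, `M` the cut, `P` the last good time -/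
structure Pl (lb lh : List (ℝ × ℝ)) (T b σ M P c0 η g Dh lam G0 Gt e e1 κ u1 : ℝ)
    (hb : ℝ → ℝ) : Prop where
  okb : Ok lb
  okh : Ok lh
  tb : TT lb = T
  th : TT lh = T
  b0 : 0 < b
  σ0 : 0 ≤ σ
  σT : σ ≤ T
  M0 : 0 ≤ M
  MP : M ≤ P
  PT : P ≤ T
  nn : 0 ≤ η ∧ 0 ≤ g ∧ 0 ≤ Dh ∧ 0 ≤ lam ∧ 0 < G0 ∧ 0 ≤ Gt ∧ 0 < e ∧ 0 ≤ e1 ∧ 0 < κ ∧ κ ≤ 1
  lamκ : lam ≤ κ / 32
  lhb : LB T hb
  top : ∀ s, σ ≤ s → lvr 1 lh s = 1
  conc : ∀ r ∈ Ico M T, Gd lb r ≤ 0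
  gap : ∀ t ∈ Ico M σ, κ ≤ lvr 1 lb t - lvr 1 lh t
  elo : ∀ r, M ≤ r ∨ σ ≤ r → r < T → e ≤ 1 - b * GG lh r
  eup : ∀ r ∈ Ico M σ, 1 - b * GG lh r ≤ e1
  atM : M < σ → σ - b * Gam lh σ ≤ hb M ∧ Gam lb M - (M - hb M) / b - c0 ≤ η ∧
    b * GG lb M ≤ 1 + g
  net : ∀ t ∈ Ico (max M σ) P, ∃ p q mp mq : ℝ, M ≤ p ∧ p ≤ t ∧ t ≤ q ∧ q ≤ T ∧ mp ≤ hb t ∧
    mq - mp ≤ Dh + lam * e * (q - p) ∧ -η ≤ Gam lb p - (p - mp) / b - c0 ∧
    -η ≤ Gam lb q - (q - mq) / b - c0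
  atP : ∃ mP : ℝ, -η ≤ Gam lb P - (P - mP) / b - c0 ∧ mP - (σ - b * Gam lh σ) ≤ Gt
  last : 1 - lvr 1 lb P ≤ u1
  stat : ∀ t, max M σ < t → t < P → (hb t - (σ - b * Gam lh σ)) * √(1 - lvr 1 lb t) ≤ G0

/-- the number `N` dominates all errors (`η' = η + β M + Dh / b`) -/
structure PN (T C b θ η' g G0 Gt e e1 κ u1 N : ℝ) : Prop where
  θ0 : 0 < θ
  N0 : 0 ≤ N
  h1 : η' ^ 3 ≤ θ * κ ^ 2 / 64 * N ^ 2 ∨ η' ^ 2 ≤ e * κ / (64 * b) * N
  h2 : (g / b) ^ 3 ≤ (θ * κ ^ 2 / 64) ^ 2 * N ∨ g ≤ e * κ / 16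
  h3 : (u1 * T * e1 / b) ^ 3 ≤ θ * κ ^ 2 / 64 * N ^ 2
  h4 : (C * T * u1) ^ 3 ≤ (θ * κ ^ 2 / 64) ^ 2 * N
  h5 : u1 * T * (η' + Gt / b) ≤ N
  h6 : C * T ^ 3 * u1 ^ 2 ≤ N
  h7 : (2 * C * T ^ 2 * u1) ^ 2 ≤ θ / (T + 1) * N
  h8 : 8 * G0 ^ 2 / e * Real.log (1 + e * T / G0) / b ≤ N

variable {lb lh : List (ℝ × ℝ)} {T b σ M P c0 η g Dh lam G0 Gt e e1 κ u1 : ℝ} {hb : ℝ → ℝ}

set_option maxHeartbeats 1600000 in
theorem fin {T C b θ η β g Dh lam G0 Gt e e1 κ u1 N E D y ι V W i2 i4 z2 z3 s1 s2 x : ℝ}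
    (n : PN T C b θ (η + β + Dh / b) g G0 Gt e e1 κ u1 N) (hC : 0 ≤ C) (b0 : 0 < b) (T0 : 0 ≤ T)
    (DT : D ≤ T) (η0 : 0 ≤ η) (β0 : 0 ≤ β) (g0 : 0 ≤ g) (Dh0 : 0 ≤ Dh)
    (l1 : lam ≤ κ / 32) (Gt0 : 0 ≤ Gt) (e0 : 0 < e) (e10 : 0 ≤ e1) (κ0 : 0 < κ) (κ1 : κ ≤ 1)
    (u0 : 0 ≤ u1) (E0 : 0 ≤ E) (D0 : 0 ≤ D) (y0 : 0 ≤ y) (y3' : y ^ 3 = 8 * E) (ι0 : 0 ≤ ι)
    (ι2 : ι ^ 2 ≤ (T + 1) * E) (D3 : κ ^ 2 * D ^ 3 / 64 ≤ E) (V0 : 0 ≤ V) (V1 : V ≤ y)
    (bt : V ^ 2 ≤ 2 * W) (I2 : i2 ≤ D * 1) (I2' : 0 ≤ i2) (I4 : i4 ≤ u1 * T) (I4' : 0 ≤ i4)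
    (Z2 : e * κ * D ^ 2 / 2 ≤ z2) (Z3 : e / 4 * W ≤ z3 + s2) (Z30 : 0 ≤ z3) (S1 : s1 ≤ s2)
    (S2 : s2 / b ≤ N) :
    0 ≤ z2 / b + z3 / b ∧
    x + ((η + g / b * D + β) * i2 + ((η + Dh / b + lam * e * D / b + β) * V + s1 / b +
      (η + (Gt + e1 * D) / b + C * (y + ι) * D + C * (u1 * T + ι) * T + β) * i4)) ≤
      x + 6 * θ * E + (z2 / b + z3 / b) / 4 + 10 * N ∧
    e * κ * D ^ 2 / (2 * b) + e / (4 * b) * W ≤ z2 / b + z3 / b + N := by
  obtain ⟨θ0, N0, h1, h2, h3, h4, h5, h6, h7, -⟩ := n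
  set η' := η + β + Dh / b with hη
  set ε := θ * κ ^ 2 / 64 with hε
  have ε0 : 0 < ε := by positivity
  have W0 : 0 ≤ W := by linarith [sq_nonneg V]
  have a2 : e * κ * D ^ 2 / b ≤ 2 * (z2 / b) := by
    rw [← mul_div_assoc]; exact div_le_div_of_nonneg_right (by linarith) b0.le
  have a3 : e * W / b ≤ 4 * (z3 / b) + 4 * N := by
    have : e * W / b ≤ (4 * z3 + 4 * s2) / b := div_le_div_of_nonneg_right (by linarith) b0.le
    rw [add_div, mul_div_assoc 4, mul_div_assoc 4] at this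
    linarith
  have a20 : 0 ≤ e * κ * D ^ 2 / b := by positivity
  have a30 : 0 ≤ e * W / b := by positivity
  have z30 : 0 ≤ z3 / b := by positivity
  have θE : 0 ≤ θ * E := by positivity
  have eD : ε * D ^ 3 ≤ θ * E := by
    have := mul_le_mul_of_nonneg_left D3 θ0.le
    rw [hε]; linarith
  have ey : ε * y ^ 3 ≤ θ * E := by
    have := mul_le_mul_of_nonneg_left (pow_le_one₀ κ0.le κ1 : κ ^ 2 ≤ 1) θE
    rw [hε, y3']; linarith
  have eV : ε * V ^ 3 ≤ θ * E :=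
    (mul_le_mul_of_nonneg_left (pow_le_pow_left₀ V0 V1 3) ε0.le).trans ey
  have kV : e * κ / b * V ^ 2 ≤ 2 * (e * W / b) := by
    have : κ * V ^ 2 ≤ 2 * W := (mul_le_of_le_one_left (sq_nonneg V) κ1).trans bt
    calc e * κ / b * V ^ 2 = e / b * (κ * V ^ 2) := by ring
      _ ≤ e / b * (2 * W) := by gcongr
      _ = _ := by ring
  have t1 : η' * D ≤ θ * E + N + e * κ * D ^ 2 / b / 64 ∧
      η' * V ≤ θ * E + N + e * W / b / 32 := by
    rcases h1 with h1 | h1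
    · exact ⟨by linarith [y3 D0 N0 ε0 h1], by linarith [y3 V0 N0 ε0 h1]⟩
    · have p : 0 < e * κ / (64 * b) := by positivity
      have q1 := y2 D0 N0 p h1
      have q2 := y2 V0 N0 p h1
      rw [show e * κ / (64 * b) * D ^ 2 = e * κ * D ^ 2 / b / 64 by ring] at q1
      rw [show e * κ / (64 * b) * V ^ 2 = e * κ / b * V ^ 2 / 64 by ring] at q2
      exact ⟨by linarith, by linarith⟩
  have t2 : g / b * D ^ 2 ≤ θ * E + N + e * κ * D ^ 2 / b / 16 := by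
    rcases h2 with h2 | h2
    · linarith [y32 D0 N0 ε0 h2]
    · have : g / b * D ^ 2 ≤ e * κ / 16 / b * D ^ 2 := by gcongr
      rw [show e * κ / 16 / b * D ^ 2 = e * κ * D ^ 2 / b / 16 by ring] at this
      linarith
  have t3 : lam * e * D / b * V ≤ e * κ * D ^ 2 / b / 64 + e * W / b / 32 := by
    have q1 : lam * e * D / b * V ≤ κ / 32 * e * D / b * V := by gcongr
    have q2 : e * κ / b * (D * V) ≤ e * κ / b * ((D ^ 2 + V ^ 2) / 2) :=
      mul_le_mul_of_nonneg_left (by linarith [two_mul_le_add_sq D V]) (by positivity)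
    rw [show κ / 32 * e * D / b * V = e * κ / b * (D * V) / 32 by ring] at q1
    rw [show e * κ / b * ((D ^ 2 + V ^ 2) / 2) =
      e * κ * D ^ 2 / b / 2 + e * κ / b * V ^ 2 / 2 by ring] at q2
    linarith
  have t4 := y3 D0 N0 ε0 h3
  have t5 : C * T * u1 * (y * D) ≤ θ * E + N := by
    have q : C * T * u1 * (y * D) ≤ C * T * u1 * ((y ^ 2 + D ^ 2) / 2) :=
      mul_le_mul_of_nonneg_left (by linarith [two_mul_le_add_sq y D]) (by positivity)
    linarith [y32 D0 N0 ε0 h4, y32 y0 N0 ε0 h4]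
  have t6 : C * T * u1 * ι * (D + T) ≤ θ * E + N := by
    have q1 := y2 ι0 N0 (by positivity) h7
    have q2 : θ / (T + 1) * ι ^ 2 ≤ θ * E := by
      refine (mul_le_mul_of_nonneg_left ι2 (by positivity)).trans_eq ?_
      field_simp
    have q3 : C * T * u1 * ι * (D + T) ≤ C * T * u1 * ι * (T + T) := by gcongr
    linarith
  have s1' : s1 / b ≤ N := (div_le_div_of_nonneg_right S1 b0.le).trans S2
  have Db : 0 ≤ Dh / b := by positivity
  have x2 : (η + g / b * D + β) * i2 ≤ (η' + g / b * D) * D :=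
    mul_le_mul (by linarith) (by linarith) I2' (by positivity)
  have x4 : (η + (Gt + e1 * D) / b + C * (y + ι) * D + C * (u1 * T + ι) * T + β) * i4 ≤
      (η' + (Gt + e1 * D) / b + C * (y + ι) * D + C * (u1 * T + ι) * T) * (u1 * T) :=
    mul_le_mul (by linarith) I4 I4' (by positivity)
  have x4' : (η' + (Gt + e1 * D) / b + C * (y + ι) * D + C * (u1 * T + ι) * T) * (u1 * T) =
      u1 * T * (η' + Gt / b) + u1 * T * e1 / b * D + C * T * u1 * (y * D) +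
        C * T * u1 * ι * (D + T) + C * T ^ 3 * u1 ^ 2 := by ring
  have x3 : (η + Dh / b + lam * e * D / b + β) * V = η' * V + lam * e * D / b * V := by
    rw [hη]; ring
  have x5 : e * κ * D ^ 2 / (2 * b) + e / (4 * b) * W =
      e * κ * D ^ 2 / b / 2 + e * W / b / 4 := by ring
  refine ⟨by linarith, ?_, by linarith⟩
  linarith [t1.1, t1.2]

namespace Pl

variable (h : Pl lb lh T b σ M P c0 η g Dh lam G0 Gt e e1 κ u1 hb)
include h

theorem ld : LB T fun t => lvr 1 lb t - lvr 1 lh t :=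
  (LB.of_mono (Sc48.lvr_mono h.okb.1)).sub (LB.of_mono (Sc48.lvr_mono h.okh.1))

theorem d1 (t : ℝ) : |lvr 1 lb t - lvr 1 lh t| ≤ 1 := Sc48.lvr_sub_le h.okh.1 h.okb.1 t

theorem dtop {t : ℝ} (ht : σ ≤ t) : lvr 1 lb t - lvr 1 lh t ≤ 0 ∧
    |lvr 1 lb t - lvr 1 lh t| = 1 - lvr 1 lb t := by
  have := Pp.Ode3.lvr_le_one h.okb.1 t
  rw [h.top t ht]
  exact ⟨by linarith, by rw [abs_of_nonpos (by linarith)]; ring⟩

theorem grow {p s : ℝ} (hp : M ≤ p ∨ σ ≤ p) (hps : p ≤ s) (hs : s ≤ T) :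
    p - b * Gam lh p + e * (s - p) ≤ s - b * Gam lh s :=
  Mh_ge h.okh h.b0 (hp.elim h.M0.trans h.σ0.trans) hps (by rw [h.th]; exact hs) fun r hr =>
    h.elo r (hp.imp (·.trans hr.1) (·.trans hr.1)) (hr.2.trans_le hs)

theorem grow' {s : ℝ} (hs : max M σ ≤ s) (hT : s ≤ T) :
    σ - b * Gam lh σ + e * (s - max M σ) ≤ s - b * Gam lh s := by
  have a := h.grow (.inr le_rfl) ((le_max_right _ _).trans hs) hT
  have := mul_le_mul_of_nonneg_left (sub_le_sub_left (le_max_right M σ) s) h.nn.2.2.2.2.2.2.1.le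
  linarith

theorem r2 {t : ℝ} (a : M ≤ t) (c : t < max M σ) : 0 ≤ lvr 1 lb t - lvr 1 lh t ∧
    t - b * Gam lh t ≤ hb M ∧
    Gam lb t - (t - hb M) / b - c0 ≤ η + g / b * (max M σ - M) := by
  obtain ⟨-, g0, -, -, -, -, e0, -, κ0, -⟩ := h.nn
  have c' : t < σ := (lt_max_iff.1 c).resolve_left (not_lt.2 a)
  obtain ⟨m1, m2, m3⟩ := h.atM (a.trans_lt c')
  have gr := h.grow (.inl a) c'.le h.σT
  have := mul_nonneg e0.le (sub_nonneg.2 c'.le)
  refine ⟨κ0.le.trans (h.gap t ⟨a, c'⟩), by linarith, ?_⟩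
  have := reg2' h.okb (h0 := hb M) (η := η + c0) (K := 0) (p := M) (q := max M σ) h.b0 h.M0
    (by rw [h.tb]; exact max_le (h.MP.trans h.PT) h.σT) g0 le_rfl
    (fun r hr => h.conc r ⟨hr.1, hr.2.trans_le (max_le (h.MP.trans h.PT) h.σT)⟩) (by linarith) m3
    ⟨a, c.le⟩
  linarith

theorem r3 {t : ℝ} (a : max M σ ≤ t) (c : t < P) :
    -(η + Dh / b + lam * e * (max M σ - M) / b) ≤
      Gam lb t - (t - (hb t + lam * e * (t - max M σ))) / b - c0 := by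
  obtain ⟨-, -, D0, l0, -, -, e0, -⟩ := h.nn
  obtain ⟨p, q, mp, mq, a1, a2, a3, a4, a5, a6, a7, a8⟩ := h.net t ⟨a, c⟩
  have k := Reg48.conc h.okb ((1 - lam * e) / b) (h.M0.trans a1) (by rw [h.tb]; exact a4)
    (fun r hr => h.conc r ⟨a1.trans hr.1, hr.2.trans_le a4⟩) ⟨a2, a3⟩
  have b0 := h.b0
  have i0 : 0 < b⁻¹ := inv_pos.2 b0
  have d5 := mul_le_mul_of_nonneg_right a5 i0.le
  have d6 := mul_le_mul_of_nonneg_right a6 i0.le
  have d7 := mul_nonneg (mul_nonneg (mul_nonneg l0 e0.le) (sub_nonneg.2 a1)) i0.le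
  have d8 := mul_nonneg D0 i0.le
  simp only [div_eq_mul_inv] at *
  rcases min_le_iff.1 k with k | k <;> nlinarith

theorem r4 {C y ι : ℝ} (hC : 0 ≤ C) (hL : Spl27.GLip T C)
    (hy : ∀ s ∈ Icc 0 T, |Sc48.Jf lh lb T s| ≤ y) (hι : ι = ∫ s in (0:ℝ)..T, |Sc48.Jf lh lb T s|)
    {t : ℝ} (a : max (max M σ) P ≤ t) (c : t < T) :
    -(η + (Gt + e1 * (max M σ - M)) / b + C * (y + ι) * (max M σ - M) + C * (u1 * T + ι) * T) ≤
      Gam lb t - Gam lh t - c0 := by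
  obtain ⟨-, -, -, -, -, -, e0, e10, -⟩ := h.nn
  obtain ⟨mP, a1, a2⟩ := h.atP
  have P0 := h.M0.trans h.MP
  have T0 := P0.trans h.PT
  have b0 := h.b0
  have D0 : 0 ≤ max M σ - M := sub_nonneg.2 (le_max_left _ _)
  have ι0 : 0 ≤ ι := hι ▸ int_nn T0 fun _ => abs_nonneg _
  have y0 : 0 ≤ y := (abs_nonneg _).trans (hy 0 ⟨le_rfl, T0⟩)
  have u0 : 0 ≤ u1 := le_trans (sub_nonneg.2 (Pp.Ode3.lvr_le_one h.okb.1 P)) h.last
  set Q := max (max M σ) P with hQ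
  have PQ : P ≤ Q := le_max_right _ _
  have σQ : σ ≤ Q := (le_max_right _ _).trans (le_max_left _ _)
  have QP : Q - P ≤ max M σ - M := by
    have := max_le (le_refl (max M σ)) (le_refl _)
    rcases le_total (max M σ) P with x | x
    · rw [hQ, max_eq_right x]; linarith
    · rw [hQ, max_eq_left x]; linarith [h.MP]
  have m1 : σ - b * Gam lh σ ≤ P - b * Gam lh P + e1 * (max M σ - M) := by
    rcases le_total σ P with x | x
    · have := h.grow (.inr le_rfl) x h.PT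
      nlinarith [mul_nonneg e0.le (sub_nonneg.2 x), mul_nonneg e10 D0]
    · have := Mh_le h.okh b0 P0 x (by rw [h.th]; exact h.σT) (e := e1)
        fun r hr => h.eup r ⟨h.MP.trans hr.1, hr.2⟩
      have := mul_le_mul_of_nonneg_left
        (show σ - P ≤ max M σ - M by linarith [le_max_right M σ, h.MP]) e10
      linarith
  have s0 : -(η + (Gt + e1 * (max M σ - M)) / b) ≤ Gam lb P - Gam lh P - c0 := by
    have : (P - mP) / b + (Gt + e1 * (max M σ - M)) / b ≥ Gam lh P := by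
      rw [← add_div, ge_iff_le, le_div_iff₀ b0]; linarith
    linarith
  have QT : Q ≤ T := a.trans c.le
  have s1 := (abs_le.1 (reg4 h.okh h.okb (j := C * (y + ι)) P0 PQ (by rw [h.th]; exact QT)
    (by rw [h.tb]; exact QT) fun r hr => by
      have mr : r ∈ Icc 0 T := ⟨P0.trans hr.1, hr.2.le.trans QT⟩
      refine (hL lh lb h.okh h.okb h.th h.tb r mr).trans ?_
      rw [← hι]
      exact mul_le_mul_of_nonneg_left (by linarith [hy r mr]) hC)).1
  have s2 := (abs_le.1 (reg4 h.okh h.okb (j := C * (u1 * T + ι)) (P0.trans PQ) a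
    (by rw [h.th]; exact c.le) (by rw [h.tb]; exact c.le) fun r hr => by
      have mr : r ∈ Icc 0 T := ⟨(P0.trans PQ).trans hr.1, hr.2.le.trans c.le⟩
      refine (hL lh lb h.okh h.okb h.th h.tb r mr).trans ?_
      rw [← hι]
      have := Jf_le (l := lh) (l' := lb) (u := u1) mr.2 fun x hx => by
        rw [(h.dtop (σQ.trans (hr.1.trans hx.1.le))).2]
        linarith [h.last, Sc48.lvr_mono h.okb.1 (PQ.trans (hr.1.trans hx.1.le))]
      have := mul_le_mul_of_nonneg_left (show T - r ≤ T by linarith [mr.1]) u0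
      exact mul_le_mul_of_nonneg_left (by linarith) hC)).1
  have s3 := mul_le_mul_of_nonneg_left QP (show 0 ≤ C * (y + ι) by positivity)
  have s4 := mul_le_mul_of_nonneg_left (show t - Q ≤ T by linarith [c.le])
    (show 0 ≤ C * (u1 * T + ι) by positivity)
  linarith

set_option maxHeartbeats 1600000 in
/-- **the plateau part of the energy estimate** -/
theorem res {A C θ E N : ℝ} {H r1 r2 ω β ξ : ℝ → ℝ} (hC : 0 ≤ C) (hL : Spl27.GLip T C)
    (R : Res T (fun t => lvr 1 lb t - lvr 1 lh t) (fun t => Gam lb t - Gam lh t) H r1 r2 ω β ξ A M)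
    (hA : 0 ≤ A) (hAM : A ≤ M) (hc : r2 M = c0) (β0 : 0 ≤ β M)
    (hE : ∫ t in (0:ℝ)..T, Sc48.Jf lh lb T t ^ 2 ≤ E)
    (n : PN T C b θ (η + β M + Dh / b) g G0 Gt e e1 κ u1 N) :
    ∃ (H' r1' r2' ω' β' ξ' : ℝ → ℝ) (Z : ℝ),
      Res T (fun t => lvr 1 lb t - lvr 1 lh t) (fun t => Gam lb t - Gam lh t)
        H' r1' r2' ω' β' ξ' A T ∧
      (∀ t, t < M → H' t = H t ∧ r1' t = r1 t ∧ r2' t = r2 t ∧ β' t = β t) ∧
      r2' M = r2 M ∧ β' M = β M ∧
      ∫ t in A..T, ω' t ^ 2 = ∫ t in A..M, ω t ^ 2 ∧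
      ∫ t in A..T, H' t * (lvr 1 lb t - lvr 1 lh t) =
        (∫ t in A..M, H t * (lvr 1 lb t - lvr 1 lh t)) + Z ∧ 0 ≤ Z ∧
      ∫ t in A..T, ξ' t ≤ (∫ t in A..M, ξ t) + 6 * θ * E + Z / 4 + 10 * N ∧
      e * κ * (max M σ - M) ^ 2 / (2 * b) + e / (4 * b) *
        (∫ t in max M σ..max (max M σ) P, (t - max M σ) * (1 - lvr 1 lb t)) ≤ Z + N := by
  obtain ⟨η0, g0, Dh0, l0, G00, Gt0, e0, e10, κ0, κ1⟩ := h.nn
  have b0 := h.b0
  have M0 := h.M0
  have MT := h.MP.trans h.PT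
  have T0 := M0.trans MT
  have θ0 := n.θ0
  have N0 := n.N0
  have u0 : 0 ≤ u1 := le_trans (sub_nonneg.2 (Pp.Ode3.lvr_le_one h.okb.1 P)) h.last
  have ld := h.ld
  have lΓ : LB T (Gam lh) := .of_cont (h.th ▸ (ode h.okh).1)
  have lM : LB T fun t => t - b * Gam lh t :=
    (LB.of_cont continuousOn_id).sub ((LB.const b).mul lΓ)
  have lJ : LB T (Sc48.Jf lh lb T) := .of_cont (ld.tail (right_mem_Icc.mpr T0))
  have E0 : 0 ≤ E := (int_nn T0 fun _ => sq_nonneg _).trans hE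
  obtain ⟨y, y0, hy3⟩ : ∃ y : ℝ, 0 ≤ y ∧ y ^ 3 = 8 * E :=
    ⟨(8 * E) ^ (((3:ℕ):ℝ)⁻¹), by positivity, Real.rpow_inv_natCast_pow (by positivity) (by norm_num)⟩
  have hy : ∀ s ∈ Icc 0 T, |Sc48.Jf lh lb T s| ≤ y := fun s hs => by
    have a := Jf_le (l := lh) (l' := lb) (u := 1) hs.2 fun r _ => h.d1 r
    have c := Lab36.sup_cube (zh := lvr 1 lh) (zb := lvr 1 lb) ld (fun t _ _ => h.d1 t) le_rfl
      le_rfl hs.1 hs.2 (.inr (by
        show s + |Sc48.Jf lh lb T s| / 2 ≤ T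
        linarith [abs_nonneg (Sc48.Jf lh lb T s)]))
    refine le_of_pow_le_pow_left₀ (n := 3) (by norm_num) y0 (c.trans ?_)
    rw [hy3]
    exact mul_le_mul_of_nonneg_left hE (by norm_num)
  set ι := ∫ s in (0:ℝ)..T, |Sc48.Jf lh lb T s| with hι
  have ι0 : 0 ≤ ι := int_nn T0 fun _ => abs_nonneg _
  have ι2 : ι ^ 2 ≤ (T + 1) * E := by
    have := Gap27.sq_int_le lJ le_rfl T0 le_rfl
    linarith [mul_le_mul_of_nonneg_left hE T0]
  have r2' := fun t => h.r2 (t := t)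
  have r3' := fun t => h.r3 (t := t)
  have r4' := fun t => h.r4 hC hL hy hι (t := t)
  have gw := fun s => h.grow' (s := s)
  have st := h.stat
  have cS : max M σ - M = 0 ∨ (M < σ ∧ max M σ = σ) := by
    rcases le_or_gt σ M with x | x
    · exact .inl (by rw [max_eq_left x, sub_self])
    · exact .inr ⟨x, max_eq_right x.le⟩
  set S := max M σ with hS
  have MS : M ≤ S := le_max_left _ _
  have σS : σ ≤ S := le_max_right _ _
  have ST : S ≤ T := max_le MT h.σT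
  set Q := max S P with hQ
  have SQ : S ≤ Q := le_max_left _ _
  have QT : Q ≤ T := max_le ST h.PT
  have S0 := M0.trans MS
  have tP : ∀ t, S ≤ t → t < Q → t < P := fun t a c =>
    (lt_max_iff.1 c).resolve_left (not_lt.2 a)
  set D := S - M with hD
  have D0 : 0 ≤ D := sub_nonneg.2 MS
  have lh' : LB T fun t => hb t + lam * e * (t - S) := h.lhb.add (LB_lin T _ S)
  subst hc
  obtain ⟨H', r1', r2'', ω', β', ξ', R', c1, c2, c3, c4, c5, c6⟩ := res_top (hm := hb M) R ld lΓ lh'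
    b0 hA hAM MS SQ QT β0 (by positivity) (by positivity) (by positivity) r2'
    (fun t a c => ⟨(h.dtop (σS.trans a)).1, r3' t a (tP t a c)⟩)
    (fun t a c => ⟨(h.dtop (σS.trans (SQ.trans a))).1, r4' t a c⟩)
  have eW : ∫ t in S..Q, (t - S) * (1 - lvr 1 lb t) =
      ∫ t in S..Q, (t - S) * |lvr 1 lb t - lvr 1 lh t| :=
    intervalIntegral.integral_congr_Ioo_of_le SQ fun t ht => by
      rw [(h.dtop (σS.trans ht.1.le)).2]
  rw [eW]
  have mS : S ∈ Icc 0 T := ⟨S0, ST⟩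
  have mQ : Q ∈ Icc 0 T := ⟨S0.trans SQ, QT⟩
  have mT : T ∈ Icc 0 T := ⟨T0, le_rfl⟩
  have bt := bath ld.abs S0 SQ QT (fun _ => abs_nonneg _) fun t _ _ => h.d1 t
  have I2 : ∫ t in M..S, |lvr 1 lb t - lvr 1 lh t| ≤ D * 1 :=
    int_le ld.abs M0 MS ST fun t _ _ => h.d1 t
  have I2' : 0 ≤ ∫ t in M..S, |lvr 1 lb t - lvr 1 lh t| := int_nn MS fun _ => abs_nonneg _
  have I4 : ∫ t in Q..T, |lvr 1 lb t - lvr 1 lh t| ≤ u1 * T := by
    refine (int_le ld.abs mQ.1 QT le_rfl (K := u1) fun t a _ => ?_).trans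
      (by linarith [mul_nonneg mQ.1 u0])
    rw [(h.dtop (σS.trans (SQ.trans a.le))).2]
    linarith [h.last, Sc48.lvr_mono h.okb.1 ((le_max_right S P).trans a.le)]
  have I4' : 0 ≤ ∫ t in Q..T, |lvr 1 lb t - lvr 1 lh t| := int_nn QT fun _ => abs_nonneg _
  have V0 : 0 ≤ ∫ t in S..Q, |lvr 1 lb t - lvr 1 lh t| := int_nn SQ fun _ => abs_nonneg _
  have V1 : ∫ t in S..Q, |lvr 1 lb t - lvr 1 lh t| ≤ y := by
    have a := int_split ld.abs mS mQ mT
    have c : ∫ t in S..T, |lvr 1 lb t - lvr 1 lh t| = -Sc48.Jf lh lb T S := by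
      unfold Sc48.Jf
      rw [← intervalIntegral.integral_neg]
      exact intervalIntegral.integral_congr_Ioo_of_le ST fun t ht =>
        abs_of_nonpos (h.dtop (σS.trans ht.1.le)).1
    linarith [neg_le_abs (Sc48.Jf lh lb T S), hy S mS]
  have D3 : κ ^ 2 * D ^ 3 / 64 ≤ E := by
    rcases cS with x | ⟨-, x⟩
    · rw [x]; simpa using E0
    · have a := Lab36.gap_pos (zh := lvr 1 lh) (zb := lvr 1 lb) ld M0 D0 (by linarith) κ0.le
        fun t a c => h.gap t ⟨a.le, by linarith⟩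
      have c := intervalIntegral.integral_mono_interval (μ := volume) (a := M) (b := M + D)
        (c := 0) (d := T) (f := fun t => Sc48.Jf lh lb T t ^ 2) M0 (by linarith) (by linarith)
        (Filter.Eventually.of_forall fun _ => sq_nonneg _) (lJ.sq.ii ⟨le_rfl, T0⟩ mT)
      exact a.trans (c.trans hE)
  have Z2 : e * κ * D ^ 2 / 2 ≤
      ∫ t in M..S, (hb M - (t - b * Gam lh t)) * |lvr 1 lb t - lvr 1 lh t| := by
    rcases cS with x | ⟨x0, x⟩
    · rw [x, show S = M by linarith]; simp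
    · have a := int_mono (LB_lin T (-(e * κ)) S) (((LB.const (hb M)).sub lM).mul ld.abs) M0 MS ST
        fun t a c => by
          have g1 := h.gap t ⟨a.le, by linarith⟩
          have g2 := h.grow (.inl a.le) (by linarith : t ≤ σ) h.σT
          have g3 := (h.atM x0).1
          have g4 : e * (σ - t) ≤ hb M - (t - b * Gam lh t) := by linarith
          have g5 : 0 ≤ e * (σ - t) := mul_nonneg e0.le (by linarith)
          have := mul_le_mul g4 (g1.trans (le_abs_self _)) κ0.le (g5.trans g4)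
          rw [x]
          linarith
      rw [int_lin] at a
      refine le_of_eq_of_le ?_ a
      rw [hD]; ring
  have lk : LB T fun t => hb t + lam * e * (t - S) - (t - b * Gam lh t) + e / 4 * (t - S) :=
    (lh'.sub lM).add (LB_lin T _ S)
  have St := static_cost (e := e / 4) ld lk S0 SQ QT (by positivity) G00 (fun t _ _ => h.d1 t)
    fun t a c => by
      rw [(h.dtop (σS.trans a.le)).2]
      refine le_trans (mul_le_mul_of_nonneg_right ?_ (Real.sqrt_nonneg _)) (st t a (tP t a.le c))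
      have g1 := gw t a.le (c.le.trans QT)
      have g2 : 0 ≤ e * (t - S) := mul_nonneg e0.le (by linarith)
      linarith [mul_le_mul_of_nonneg_right (h.lamκ.trans (by linarith : κ / 32 ≤ 1 / 2)) g2]
  have St' : (∫ t in S..Q, max (hb t + lam * e * (t - S) - (t - b * Gam lh t) + e / 4 * (t - S)) 0 *
      |lvr 1 lb t - lvr 1 lh t|) / b ≤ N := by
    refine le_trans (div_le_div_of_nonneg_right (St.trans ?_) b0.le) n.h8
    have q0 := sub_nonneg.2 SQ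
    rw [show 2 * G0 ^ 2 / (e / 4) = 8 * G0 ^ 2 / e by field_simp; ring]
    refine mul_le_mul_of_nonneg_left (Real.log_le_log (by positivity) ?_) (by positivity)
    have : e / 4 * (Q - S) ≤ e * T :=
      mul_le_mul (by linarith) (by linarith) q0 e0.le
    gcongr
  have lW : LB T fun t => (t - S) * |lvr 1 lb t - lvr 1 lh t| := by
    simpa using (LB_lin T 1 S).mul ld.abs
  have l3 := (LB_max (lM.sub lh')).mul ld.abs
  have lk' := (LB_max lk).mul ld.abs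
  have St1 := int_mono ((LB_max (lh'.sub lM)).mul ld.abs) lk' S0 SQ QT fun t a _ =>
    mul_le_mul_of_nonneg_right (max_le_max_right 0 (le_add_of_nonneg_right
      (mul_nonneg (by positivity) (by linarith)))) (abs_nonneg _)
  have Z3 := int_mono ((LB.const (e / 4)).mul lW) (l3.add lk') S0 SQ QT fun t _ _ => by
    rw [← add_mul, ← mul_assoc]
    refine mul_le_mul_of_nonneg_right ?_ (abs_nonneg _)
    linarith [le_max_left (t - b * Gam lh t - (hb t + lam * e * (t - S))) 0, le_max_left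
      (hb t + lam * e * (t - S) - (t - b * Gam lh t) + e / 4 * (t - S)) 0]
  rw [intervalIntegral.integral_add (l3.ii mS mQ) (lk'.ii mS mQ),
    intervalIntegral.integral_const_mul] at Z3
  have Z30 : 0 ≤ ∫ t in S..Q, max (t - b * Gam lh t - (hb t + lam * e * (t - S))) 0 *
      |lvr 1 lb t - lvr 1 lh t| := int_nn SQ fun _ => by positivity
  refine ⟨H', r1', r2'', ω', β', ξ', _, R', c1, c2, c3, c4, c6, ?_⟩
  rw [c5]
  generalize (∫ t in M..S, (hb M - (t - b * Gam lh t)) * |lvr 1 lb t - lvr 1 lh t|) = z2 at *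
  generalize (∫ t in S..Q, max (t - b * Gam lh t - (hb t + lam * e * (t - S))) 0 *
    |lvr 1 lb t - lvr 1 lh t|) = z3 at *
  generalize (∫ t in S..Q, max (hb t + lam * e * (t - S) - (t - b * Gam lh t) + e / 4 * (t - S)) 0 *
    |lvr 1 lb t - lvr 1 lh t|) = s2 at *
  generalize (∫ t in S..Q, max (hb t + lam * e * (t - S) - (t - b * Gam lh t)) 0 *
    |lvr 1 lb t - lvr 1 lh t|) = s1 at *
  generalize (∫ t in S..Q, (t - S) * |lvr 1 lb t - lvr 1 lh t|) = W at *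
  generalize (∫ t in S..Q, |lvr 1 lb t - lvr 1 lh t|) = V at *
  generalize (∫ t in M..S, |lvr 1 lb t - lvr 1 lh t|) = i2 at *
  generalize (∫ t in Q..T, |lvr 1 lb t - lvr 1 lh t|) = i4 at *
  exact fin n hC b0 T0 (by linarith) η0 β0 g0 Dh0 h.lamκ Gt0 e0 e10 κ0 κ1 u0 E0 D0 y0 hy3 ι0 ι2
    D3 V0 V1 bt I2 I2' I4 I4' Z2 Z3 Z30 St1 St'

end Pl

end

end Crest.Agent.T156.Pr.Reg48
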