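import Crest.Agent.T156.Apt_7
import Crest.Agent.T156.Cost_41

/-!
# Row 156: the legs on the reveal nodes (helper30)

`∑ c k E (R - ρ_k)²` over the nodes of tilt `1` is `O (K² cm / (σ m))`.
-/

set_option autoImplicit false
set_option linter.unusedSectionVars false

noncomputable section

namespace Crest.Agent.T156.Cas.Mv30

open Real Set
open Crest.Agent.T157.E Crest.Agent.T157.Casc Crest.Agent.T157.SL
open Crest.Agent.T157.G1 (ov fl FL)
open Crest.Agent.T156.Cas.Q33 Crest.Agent.T156.Cas.Sy41 Crest.Agent.T156.Alt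
open Crest.Agent.T156.Alt.Md67 Crest.Agent.T156.Alt.Cost41 Apt7

theorem pv_eq {Ω : Type} [Fintype Ω] {w : Ω → ℝ} (hw : Wt w) (L : List (Lv Ω)) (l₀ : Lv Ω)
    (h : Ω → ℝ) (j : ℕ) : pv w L j l₀.cov h = tc w L l₀ h j + 2 * vv w L l₀ h j := by
  have e : cv w (L.drop j) l₀.cov = fun z => trC2 w (L.drop j) l₀ z + 2 * Vq w (L.drop j) l₀ z := by
    funext z
    have := qf_sq hw (L.drop j) l₀ z 0
    simp only [sub_zero] at this
    rw [cv, this, rr_eq]; ring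
  rw [pv, e, node_add hw (eg_trC2 hw _ l₀) ((eg_Vq hw _ l₀).const_mul 2), node_const_mul]
  rfl

variable {M : Md} {m : ℕ} {a : ℝ}

/-- `E (R - ρ_k)²` at the profile node `k` -/
abbrev pM (M : Md) (m : ℕ) (a : ℝ) (k : ℕ) : ℝ := pv (fun _ => 1) (M.L m a) (k + 1) ov 0

/-- **legs**: tilt `1` from `j0` on, field steps in `[σ, 1 / m]` -/
theorem legs (G : Lg M m a) {j0 K : ℕ} {σ cm : ℝ} {c : ℕ → ℝ} (σ0 : 0 < σ) (h : j0 < M.N)
    (top : M.z j0 = 1) (lo : ∀ i, j0 ≤ i → i < M.N → σ ≤ M.H (i + 1) - M.H i)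
    (hi : ∀ i, j0 ≤ i → i < M.N → (M.H (i + 1) - M.H i) * m ≤ 1)
    (hK : M.H M.N - M.H j0 ≤ 2 ^ K * σ) (cm0 : 0 ≤ cm)
    (hc : ∀ k ∈ Finset.Ioo j0 M.N, 0 ≤ c k ∧ c k ≤ cm) :
    ∑ k ∈ Finset.Ioo j0 M.N, c k * pM M m a k ≤ 4 * (K + 2) ^ 2 * (cm / (σ * m)) := by
  have m0 : (0 : ℝ) < m := Nat.cast_pos.2 G.m0
  have z1 : ∀ i, j0 ≤ i → M.z i = 1 := fun i hi => le_antisymm (G.z1 i) (top ▸ G.zm hi)
  have eov : (sl m).cov = ov := funext fun x => funext (sl_cov G.m0 x)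
  have sm : σ * m ≤ 1 := (mul_le_mul_of_nonneg_right (lo j0 le_rfl h) m0.le).trans (hi j0 le_rfl h)
  set κ := cm / (σ * m) with hκ
  have κ0 : 0 ≤ κ := by positivity
  have eκ : cm = κ * (σ * m) := by rw [hκ]; field_simp
  have cκ : cm ≤ κ := eκ.trans_le (mul_le_of_le_one_right κ0 sm)
  have P : ∀ i k, j0 ≤ i → i ≤ k → Phi M k - Phi M i = M.H k - M.H i := fun i k h1 h2 => by
    rw [Phi_sub M h2, ← Finset.sum_Ico_sub M.H h2]
    exact Finset.sum_congr rfl fun j hj => by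
      rw [z1 j (h1.trans (Finset.mem_Ico.1 hj).1), one_mul]
  have h1 := G.dt.tc_win 0 (lo := j0 + 2) (hi := M.N + 1) (by omega) len_L.ge
    (c := fun j => c (j - 1)) (κ := κ) (t := 1) (x := 1) κ0 (fun j hj => ?_) (fun j hj => ?_)
    one_pos fun j hj => ?_
  rotate_left
  · obtain ⟨k, rfl⟩ : ∃ k, j = k + 1 := ⟨j - 1, by have := Finset.mem_Ico.1 hj; omega⟩
    have := Finset.mem_Ico.1 hj
    rw [dh_succ (by omega), Nat.add_sub_cancel]
    refine ((hc k (Finset.mem_Ioo.2 ⟨by omega, by omega⟩)).2.trans_eq eκ).trans ?_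
    exact mul_le_mul_of_nonneg_left (mul_le_mul_of_nonneg_right (lo k (by omega) (by omega)) m0.le) κ0
  · obtain ⟨k, rfl⟩ : ∃ k, j = k + 1 := ⟨j - 1, by have := Finset.mem_Ico.1 hj; omega⟩
    have := Finset.mem_Ico.1 hj
    rw [dh_succ (by omega), mul_one]
    exact hi k (by omega) (by omega)
  · obtain ⟨k, rfl⟩ : ∃ k, j = k + 1 := ⟨j - 1, by have := Finset.mem_Ico.1 hj; omega⟩
    have := Finset.mem_Ico.1 hj
    rw [ex_succ G.toLeg, z1 k (by omega)]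
  have r1 : rho (fun _ => 1) (M.L m a) (sl m) 0 (M.N + 1) ≤ 1 := by
    rw [← rb_eq (sl_cov G.m0)]; exact rb_le_one G.m0 _
  have r0 := rho_nonneg (w := fun _ => 1) (sl m) 0 (M.L m a) (j0 + 2)
  have e1 : ∑ j ∈ Finset.Ico (j0 + 2) (M.N + 1), c (j - 1) * tc (fun _ => 1) (M.L m a) (sl m) 0 j =
      ∑ k ∈ Finset.Ioo j0 M.N, c k * tc (fun _ => 1) (M.L m a) (sl m) 0 (k + 1) := by
    rw [← Finset.sum_Ico_add' _ (j0 + 1) M.N 1]; rfl
  have h2 := cost G (c := fun k => if k < M.N then c k else 0) (W := fun _ => κ * m) (cm := cm)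
    (K := K) σ0 h.le le_rfl (fun i a b => by rw [z1 i a, one_mul]; exact lo i a b)
    (by rw [P _ _ le_rfl h.le]; exact hK) (fun k a _ => by
      split_ifs with e; exacts [(hc k (Finset.mem_Ioo.2 ⟨a, e⟩)).1, le_rfl]) cm0 (fun k a _ => by
      split_ifs with e; exacts [(hc k (Finset.mem_Ioo.2 ⟨a, e⟩)).2, cm0]) (fun _ _ _ => by positivity)
    fun j k a b d => by
      rw [P j k a b.le, ← Finset.sum_Ico_sub M.H b.le, Finset.mul_sum,
        ← Finset.Ico_add_one_add_one_eq_Ioc, ← Finset.sum_Ico_add' _ j k 1]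
      refine Finset.sum_le_sum fun i hi => ?_
      have := Finset.mem_Ico.1 hi
      have h3 := mul_le_mul_of_nonneg_left (lo i (by omega) (by omega)) (mul_nonneg κ0 m0.le)
      refine le_trans ?_ h3
      rw [show κ * m * σ = cm by rw [eκ]; ring]
      split_ifs with e; exacts [(hc _ (Finset.mem_Ioo.2 ⟨by omega, e⟩)).2, cm0]
  have h3 := RW_const (ρ := M.rb m a) (W := fun _ => κ * m) (j0 := j0) (N := M.N) (B := κ * m)
    (rb_mono G.m0) (rb_nonneg G.m0 _) h.le (rb_le_one G.m0 _) (by positivity) fun _ _ _ => le_rfl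
  have h4 : ∑ k ∈ Finset.Ioo j0 M.N, c k * vv (fun _ => 1) (M.L m a) (sl m) 0 (k + 1) ≤
      ∑ k ∈ Finset.Ioc j0 M.N, (if k < M.N then c k else 0) * aM M m a k := by
    rw [← Finset.Ioo_insert_right h, Finset.sum_insert (by simp), if_neg (lt_irrefl _), zero_mul,
      zero_add]
    refine Finset.sum_le_sum fun k hk => ?_
    have := Finset.mem_Ioo.1 hk
    rw [if_pos this.2]
    refine mul_le_mul_of_nonneg_left ?_ (hc k hk).1
    have h5 := vv_le Link33.wt1 G.monoL (sl m) 0 (x := 1) (j := k + 1) (by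
      rw [ex_succ G.toLeg, z1 k this.1.le])
    rwa [one_mul] at h5
  have h5 : 2 / (m : ℝ) * ((1 + K) * RW (M.rb m a) (fun _ => κ * m) j0 M.N) ≤ 2 * (1 + K) * κ :=
    (mul_le_mul_of_nonneg_left (mul_le_mul_of_nonneg_left h3 (by positivity))
      (by positivity)).trans_eq (by field_simp)
  have h6 := mul_le_mul_of_nonneg_left (add_le_add h5 cκ) (show (0 : ℝ) ≤ K + 2 by positivity)
  have h7 := mul_le_mul_of_nonneg_left (show rho (fun _ => 1) (M.L m a) (sl m) 0 (M.N + 1) -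
    rho (fun _ => 1) (M.L m a) (sl m) 0 (j0 + 2) ≤ 1 by linarith) κ0
  simp only [pM, ← eov, pv_eq Link33.wt1, mul_add, Finset.sum_add_distrib, mul_left_comm _ (2 : ℝ),
    ← Finset.mul_sum]
  rw [e1] at h1
  have k0 : (0 : ℝ) ≤ K := Nat.cast_nonneg K
  nlinarith [mul_nonneg κ0 k0]

end Crest.Agent.T156.Cas.Mv30

end
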