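import Crest.Agent.T156.MvS_30

/-!
# Row 156: the second moment at a reveal node (helper30)

The cubic term of the mean-variance inequality is absorbed with the a priori tail `apt_full`.
-/

set_option autoImplicit false
set_option linter.unusedSectionVars false

noncomputable section

namespace Crest.Agent.T156.Cas.Mv30

open MeasureTheory Real Set Filter Topology
open Crest.Agent.T157.E Crest.Agent.T157.Casc Crest.Agent.T157.SL
open Crest.Agent.T157.G1 (ov fl)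
open Apt7

variable {n : ℕ} {β : ℝ} {M : List (ℝ × ℝ × ℝ)} {q : ℕ → ℝ} {k0 : ℕ}

/-- the a priori tail at the node `s` -/
def TL (n : ℕ) (β : ℝ) (M : List (ℝ × ℝ × ℝ)) (q : ℕ → ℝ) (s p : ℕ) (ρ μ : ℝ) : ℝ :=
  (72 * pv (fun _ => 1) (M.map (mxL n β)) s ov 0 / ρ ^ 2 + 3 * (24 / ρ) ^ (p + 1) * mo n β M q (p + 1) +
    4 / (n * ρ ^ 3)) / μ

theorem mo_nonneg (hM : Mono 0 (M.map (mxL n β))) (k : ℕ) : 0 ≤ mo n β M q k :=
  Finset.sum_nonneg fun j _ => mul_nonneg (dm_nonneg hM j)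
    (pi2_nonneg wt_one90 _ _ (fun _ _ => by positivity) _)

theorem quad {θ x B E : ℝ} (hθ : 0 < θ) (h : θ / 2 * x ^ 2 ≤ x * B + E) :
    x ^ 2 ≤ 4 * B ^ 2 / θ ^ 2 + 4 * E / θ := by
  have e : 4 * B ^ 2 / θ ^ 2 + 4 * E / θ = (4 * B ^ 2 + 4 * E * θ) / θ ^ 2 := by field_simp
  rw [e, le_div_iff₀ (by positivity)]
  nlinarith [sq_nonneg (θ * x - 2 * B), mul_le_mul_of_nonneg_left h hθ.le]

namespace Tp

theorem th_le (T : Tp n β M q k0) : 1 - oTau n β M k0 * Hess65.Gn (opS n β M q) k0 ≤ 1 := by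
  rw [T.Gn_eq T.lt.le]
  exact sub_le_self _ (mul_nonneg (T.ook.oTau_le n β _).1 (Pp.Ode3.Gp_nonneg _ _))

/-- **a priori tail**: beyond `ε` -/
theorem tail (T : Tp n β M q k0) (hn : 0 < n) {s : ℕ} (h1 : k0 < s) (h2 : s < M.length)
    {θ ε ρ μ : ℝ} {J : Finset ℕ} (p : ℕ) (θ0 : 0 < θ)
    (hθ : θ ≤ 1 - oTau n β M k0 * Hess65.Gn (opS n β M q) k0) (ε1 : ε ≤ 1) (ρ0 : 0 < ρ)
    (hρ : ρ * (24 + 256 * cE n β M) ≤ θ * ε) (hξ : |Gs n β M q s - q s| ≤ θ * ε / 4) (μ0 : 0 < μ)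
    (μ1 : μ ≤ 1) (hJ : ∀ j ∈ J, j ≤ k0 ∧ q k0 - ρ / 4 ≤ q j)
    (hJμ : μ ≤ ∑ j ∈ J, dm (M.map (mxL n β)) 0 j) {χ : ℝ → ℝ} (hχ : ∀ u, χ u ≤ 1)
    (hχ0 : ∀ u, |u - q s| ≤ ε → χ u ≤ 0) : Er n β M s χ ≤ TL n β M q s p ρ μ := by
  have θ1 := hθ.trans T.th_le
  have c0 := cE_nonneg (n := n) (β := β) T.ook
  have cρ := mul_nonneg c0 ρ0.le
  have ρ1 : ρ ≤ 1 := by nlinarith
  have n0 : (0 : ℝ) < n := Nat.cast_pos.2 hn
  obtain ⟨D, D1, D2⟩ : ∃ D : ℕ, 1 / ρ ≤ D ∧ (D : ℝ) ≤ 2 / ρ := ⟨⌈1 / ρ⌉₊, Nat.le_ceil _,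
    (Nat.ceil_lt_add_one (by positivity)).le.trans (by
      have : 1 ≤ 1 / ρ := one_le_one_div ρ0 ρ1
      linarith [show 2 / ρ = 1 / ρ + 1 / ρ by ring])⟩
  have D0 : (0 : ℝ) < D := lt_of_lt_of_le (by positivity) D1
  have d1 : 3 / (D : ℝ) ≤ 3 * ρ := by
    rw [div_le_iff₀ D0]; rw [div_le_iff₀ ρ0] at D1; linarith
  have d2 : ρ / 4 ≤ 1 / (2 * (D : ℝ)) := by
    rw [div_le_div_iff₀ (by norm_num) (by positivity)]; rw [le_div_iff₀ ρ0] at D2; linarith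
  have d0 : 0 ≤ 3 / (D : ℝ) := by positivity
  have γ0 : 0 < θ * ε / 2 := by nlinarith
  have h := apt_full hn T.mono T.ook h1 h2 (fun j hj _ => T.dm_top hj) (Nat.cast_pos.1 D0) θ0.le
    (T.slope h1 h2 hθ) ρ0 p γ0 (ε := ε) (by
      nlinarith [mul_le_mul_of_nonneg_left d1 c0, mul_le_mul_of_nonneg_right θ1 d0])
    μ0 (fun j hj => ⟨(hJ j hj).1.trans h1.le, by linarith [(hJ j hj).2]⟩) hJμ hχ hχ0
  refine h.trans ?_
  have p0 := pv_nonneg wt_one90 (M.map (mxL n β)) s ov 0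
  have m0 := mo_nonneg (q := q) T.mono (p + 1)
  rw [TL]
  set P := pv (fun _ => 1) (M.map (mxL n β)) s ov 0
  set m := mo n β M q (p + 1)
  have a1 : 40 * cE n β M * (8 * P / ρ + m / ρ ^ p) / (θ * ε / 2) ≤
      8 * P / ρ ^ 2 + (24 / ρ) ^ (p + 1) * m := by
    have b1 : 40 * cE n β M / (θ * ε / 2) ≤ 1 / ρ := by
      rw [div_le_div_iff₀ γ0 ρ0]; nlinarith
    have b2 : m / ρ ^ (p + 1) ≤ (24 / ρ) ^ (p + 1) * m := by
      rw [div_pow, div_mul_eq_mul_div]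
      exact div_le_div_of_nonneg_right (le_mul_of_one_le_left m0 (one_le_pow₀ (by norm_num)))
        (by positivity)
    have b3 := mul_le_mul_of_nonneg_right b1 (show 0 ≤ 8 * P / ρ + m / ρ ^ p by positivity)
    have b4 : 1 / ρ * (8 * P / ρ + m / ρ ^ p) = 8 * P / ρ ^ 2 + m / ρ ^ (p + 1) := by
      field_simp; ring
    rw [mul_div_right_comm]
    linarith
  have a2 : 4 * ((D : ℝ) + 3) * D / n / (θ * ε / 2) ≤ 4 / (n * ρ ^ 3) := by
    have b1 : (D : ℝ) * ρ ≤ 2 := (le_div_iff₀ ρ0).1 D2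
    have b2 : ((D : ℝ) + 3) * ρ ≤ 5 := by linarith
    have b3 : ((D : ℝ) + 3) * ρ * (D * ρ) ≤ 5 * 2 := mul_le_mul b2 b1 (by positivity) (by norm_num)
    rw [div_div, div_le_div_iff₀ (by positivity) (by positivity)]
    have b4 := mul_le_mul_of_nonneg_right b3 (mul_nonneg ρ0.le n0.le)
    have b5 := mul_le_mul_of_nonneg_right (show 10 * ρ ≤ θ * ε / 2 by nlinarith) n0.le
    nlinarith
  have a3 : 16 * (D : ℝ) ^ 2 * P + 2 * (12 * (D : ℝ)) ^ (p + 1) * m ≤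
      64 * P / ρ ^ 2 + 2 * (24 / ρ) ^ (p + 1) * m := by
    refine add_le_add ?_ (mul_le_mul_of_nonneg_right (mul_le_mul_of_nonneg_left
      (pow_le_pow_left₀ (by positivity) (by linarith [show 24 / ρ = 12 * (2 / ρ) by ring]) _)
      zero_le_two) m0)
    have := mul_le_mul_of_nonneg_right (pow_le_pow_left₀ D0.le D2 2) p0
    linarith [show (2 / ρ) ^ 2 * P * 16 = 64 * P / ρ ^ 2 by ring]
  have a4 := le_div_self (show 0 ≤ 8 * P / ρ ^ 2 + (24 / ρ) ^ (p + 1) * m + 4 / (n * ρ ^ 3) by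
    positivity) μ0 μ1
  have a5 := div_le_div_of_nonneg_right a3 μ0.le
  rw [add_div]
  refine (add_le_add ((add_le_add a1 a2).trans a4) a5).trans_eq ?_
  ring

/-- **the second moment at a reveal node** from the mean-variance inequality `MC` -/
theorem node_le (T : Tp n β M q k0) (hn : 0 < n) {s : ℕ} (h1 : k0 < s) (h2 : s < M.length)
    {θ C B E ρ μ : ℝ} {J : Finset ℕ} (p : ℕ) (θ0 : 0 < θ)
    (hθ : θ ≤ 1 - oTau n β M k0 * Hess65.Gn (opS n β M q) k0) (C1 : 1 ≤ C) (ρ0 : 0 < ρ)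
    (hρ : ρ * (24 + 256 * cE n β M) ≤ θ ^ 2 / (2 * C)) (hξ : |Gs n β M q s - q s| ≤ θ ^ 2 / (8 * C))
    (μ0 : 0 < μ) (μ1 : μ ≤ 1) (hJ : ∀ j ∈ J, j ≤ k0 ∧ q k0 - ρ / 4 ≤ q j)
    (hJμ : μ ≤ ∑ j ∈ J, dm (M.map (mxL n β)) 0 j)
    (MC : (1 - oTau n β M s * Hess65.Gn (opS n β M q) s) * Er n β M s (fun u => (u - q s) ^ 2) ≤
      √(Er n β M s fun u => (u - q s) ^ 2) * B + E + C * Er n β M s fun u => |u - q s| ^ 3) :
    Er n β M s (fun u => (u - q s) ^ 2) ≤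
      4 * B ^ 2 / θ ^ 2 + 4 * (E + 8 * C * TL n β M q s p ρ μ) / θ := by
  have θ1 := hθ.trans T.th_le
  have C0 : 0 < C := by linarith
  have e1 : θ ^ 2 / (2 * C) = θ * (θ / (2 * C)) := by ring
  have ε0 : 0 ≤ θ / (2 * C) := by positivity
  have h := T.tail hn h1 h2 p θ0 hθ (ε := θ / (2 * C)) (by
    rw [div_le_one (by positivity)]; linarith) ρ0 (e1 ▸ hρ) (hξ.trans_eq (by ring)) μ0 μ1 hJ hJμ
    (χ := fun u => min 1 ((|u - q s| ^ 3 - θ / (2 * C) * (u - q s) ^ 2) / 8))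
    (fun u => min_le_left _ _) fun u hu => (min_le_right _ _).trans (by
      have := mul_le_mul_of_nonneg_right hu (sq_nonneg (u - q s))
      rw [pow_succ', sq_abs]
      linarith)
  have u0 : 0 ≤ Er n β M s fun u => (u - q s) ^ 2 :=
    pi2_nonneg wt_one90 _ _ (fun _ _ => sq_nonneg _) _
  have h3 : Er n β M s (fun u => |u - q s| ^ 3) ≤ θ / (2 * C) * Er n β M s (fun u => (u - q s) ^ 2) +
      8 * Er n β M s fun u => min 1 ((|u - q s| ^ 3 - θ / (2 * C) * (u - q s) ^ 2) / 8) := by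
    simp only [Er]
    rw [← pi2_const_mul, ← pi2_const_mul, ← pi2_add wt_one90]
    refine pi2_mono wt_one90 _ _ (fun x y => ?_) _
    have a : |ov x y - q s| ≤ 2 := abs_oU_le T.ook h2.le x y
    have b := pow_le_pow_left₀ (abs_nonneg _) a 3
    have c := mul_nonneg ε0 (sq_nonneg (ov x y - q s))
    rcases min_choice 1 ((|ov x y - q s| ^ 3 - θ / (2 * C) * (ov x y - q s) ^ 2) / 8) with e | e <;>
      rw [e] <;> linarith
  have h4 := mul_le_mul_of_nonneg_right (hθ.trans (T.mu_ge h1.le h2.le)) u0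
  have h5 := mul_le_mul_of_nonneg_left (h3.trans (add_le_add le_rfl
    (mul_le_mul_of_nonneg_left h (by norm_num)))) C0.le
  set u := Er n β M s fun u => (u - q s) ^ 2
  have e2 : C * (θ / (2 * C) * u + 8 * TL n β M q s p ρ μ) =
      θ / 2 * u + 8 * C * TL n β M q s p ρ μ := by field_simp
  have := quad (x := √u) (B := B) (E := E + 8 * C * TL n β M q s p ρ μ) θ0 (by
    rw [sq_sqrt u0]; linarith)
  rwa [sq_sqrt u0] at this

end Tp

end Crest.Agent.T156.Cas.Mv30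

end
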