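import Crest.Agent.T156.Apt_7
import Crest.Agent.T156.ClZb_9
import Crest.Agent.T156.AltOne_23
import Crest.Agent.T156.Hess_65
import Crest.Agent.T156.LpR_43

/-!
# Row 156: the slope of the site fixed point on the top part (helper30)

From the node `k0` on the tilt is `1` and `τ` is constant.  The replicon coefficient increases from
`k0` on, and `r ↦ Γ_s (r) - r` has slope `≤ -θ`: the hypothesis `hsl` of `Apt7.apt_full`.
-/

set_option autoImplicit false
set_option linter.unusedSectionVars false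

noncomputable section

namespace Crest.Agent.T156.Cas.Mv30

open MeasureTheory Real Set Filter Topology
open Crest.Agent.T157.E Crest.Agent.T157.Casc Crest.Agent.T157.SL
open Crest.Agent.R339.B Crest.Agent.R339.Var Crest.Agent.T157.Pf
open Crest.Agent.T156.Pp.Area50 Crest.Agent.T156.Zb9 Apt7

/-- tilt `1` and constant `τ` from the node `k0` on -/
structure Tp (n : ℕ) (β : ℝ) (M : List (ℝ × ℝ × ℝ)) (q : ℕ → ℝ) (k0 : ℕ) : Prop where
  ook : OOk M q
  mono : Mono 0 (M.map (mxL n β))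
  pos : 0 < ex (M.map (mxL n β)) 0
  lt : k0 < M.length
  top : ex (M.map (mxL n β)) k0 = 1
  tau : oTau n β M k0 = oTau n β M M.length

/-- node times -/
def sg' (n : ℕ) (β : ℝ) (M : List (ℝ × ℝ × ℝ)) (q : ℕ → ℝ) (j : ℕ) : ℝ :=
  oTau n β M j * q j + fAcc M j

/-- the list of the part below `k0`, continued with tilt `1` -/
def ul (n : ℕ) (β : ℝ) (M : List (ℝ × ℝ × ℝ)) (q : ℕ → ℝ) (k0 : ℕ) : List (ℝ × ℝ) :=
  zl (ex (M.map (mxL n β))) (sg' n β M q) k0 (oTau n β M M.length + fAcc M M.length)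

variable {n : ℕ} {β : ℝ} {M : List (ℝ × ℝ × ℝ)} {q q' : ℕ → ℝ} {k0 : ℕ}

theorem tilt_ex (k : ℕ) (h : k < M.length) : M[k].1 = ex (M.map (mxL n β)) k := by
  simp [T157.Casc.ex, h, mxL_m]

theorem up_sg (H : OOk M q) : Up (sg' n β M q) M.length := fun j hj => by
  have e := opV_eq n β M q (tilt_ex (n := n) (β := β))
  have := opV_nn (n := n) (β := β) H
    (ex (M.map (mxL n β)) j, sg' n β M q (j + 1) - sg' n β M q j) (by
      rw [e, lsg, List.mem_ofFn]; exact ⟨⟨j, hj⟩, rfl⟩)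
  exact sub_nonneg.1 this

theorem sg_zero : sg' n β M q 0 = 0 := by simp [sg', oTau, dAcc, fAcc]

theorem sg_top (H : OOk M q) : sg' n β M q M.length = oTau n β M M.length + fAcc M M.length := by
  rw [sg', H.top, mul_one]

theorem acc_mono {f : ℝ × ℝ × ℝ → ℝ} (h : ∀ p ∈ M, 0 ≤ f p) :
    Monotone fun j => ((M.take j).map f).sum := monotone_nat_of_le_succ fun j => by
  rcases lt_or_ge j M.length with c | c
  · rw [List.take_succ_eq_append_getElem c, List.map_append, List.sum_append]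
    simpa using h _ (List.getElem_mem c)
  · rw [List.take_of_length_le c, List.take_of_length_le (c.trans (Nat.le_succ j))]

theorem fAcc_mono (H : OOk M q) : Monotone (fAcc M) := acc_mono fun p hp => (H.nn p hp).2

theorem oTau_mono (H : OOk M q) : Monotone (oTau n β M) := fun _ _ h =>
  mul_le_mul_of_nonneg_left (acc_mono (fun p hp => (H.nn p hp).1) h) (sq_nonneg _)

namespace Tp

theorem ex_top (T : Tp n β M q k0) {j : ℕ} (hj : k0 ≤ j) : ex (M.map (mxL n β)) j = 1 :=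
  le_antisymm (Tay38.ex_le_one T.mono j) (T.top ▸ LpR43.ex_mono T.mono hj)

theorem dm_top (T : Tp n β M q k0) {j : ℕ} (hj : k0 < j) : dm (M.map (mxL n β)) 0 j = 0 := by
  obtain ⟨j, rfl⟩ : ∃ i, j = i + 1 := ⟨j - 1, by omega⟩
  simp only [dm, exP]
  rw [T.ex_top hj.le, T.ex_top (Nat.lt_succ_iff.1 hj), sub_self]

theorem tau_top (T : Tp n β M q k0) {j : ℕ} (hj : k0 ≤ j) : oTau n β M j = oTau n β M M.length :=
  le_antisymm (T.ook.oTau_le n β j).2 (T.tau ▸ oTau_mono T.ook hj)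

theorem dat (T : Tp n β M q k0) : Dat (ex (M.map (mxL n β))) (sg' n β M q) k0
    (oTau n β M M.length + fAcc M M.length) :=
  ⟨fun j _ => LpR43.ex_mono T.mono (Nat.le_succ j), T.pos, T.top,
    fun j hj => up_sg T.ook j (hj.trans T.lt), sg_zero,
    sg_top (n := n) (β := β) T.ook ▸ (up_sg T.ook).le T.lt.le le_rfl⟩

theorem qr' (T : Tp n β M q k0) {r : ℝ} (h1 : q k0 ≤ r) (h2 : r ≤ 1) :
    Tp n β M (qr M.length (k0 + 1) q r) k0 :=
  ⟨ook_qr T.ook h1 h2, T.mono, T.pos, T.lt, T.top, T.tau⟩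

/-- every reference that agrees with `q` up to `k0` has the same site list -/
theorem same (T : Tp n β M q k0) (H : OOk M q') (e : ∀ j ≤ k0, q' j = q j) :
    Ker.Same (ul n β M q k0) (opV n β M q') (oTau n β M M.length + fAcc M M.length) := by
  have top : ∀ k, k0 ≤ k → k ≤ M.length → ex (M.map (mxL n β)) k = 1 := fun k h _ => T.ex_top h
  have T' : Tp n β M q' k0 := ⟨H, T.mono, T.pos, T.lt, T.top, T.tau⟩
  have ad := (T'.dat.same_lsg T.lt.le top (up_sg H)).1
  have := T.dat.same ad fun t _ => by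
    rw [lvr_lsg (top _ T.lt.le le_rfl) (up_sg H) sg_zero,
      stp_ext (J := k0) T.lt.le fun k h1 h2 => by rw [top k h1 h2, T.top],
      stp_congr (fun _ _ => rfl) fun k _ hk => show sg' n β M q' k = sg' n β M q k by
        rw [sg', sg', e k hk]]
  rw [TT_lsg, sg_zero, sg_top H, sub_zero, min_self] at this
  rw [opV_eq n β M q' (tilt_ex (n := n) (β := β))]
  exact this

theorem mem (H : OOk M q') {j : ℕ} (hj : j ≤ M.length) :
    sg' n β M q' j ∈ Icc 0 (oTau n β M M.length + fAcc M M.length) :=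
  ⟨sg_zero (n := n) (β := β) (M := M) (q := q') ▸ (up_sg H).le (Nat.zero_le j) hj,
    sg_top (n := n) (β := β) H ▸ (up_sg H).le hj le_rfl⟩

theorem Gs_eq (T : Tp n β M q k0) (H : OOk M q') (e : ∀ j ≤ k0, q' j = q j) {j : ℕ}
    (hj : j ≤ M.length) : Gs n β M q' j = Pr.Gam (ul n β M q k0) (sg' n β M q' j) :=
  (pi2_opS H hj).trans ((T.same H e).gam _ (mem H hj))

theorem Gn_eq (T : Tp n β M q k0) {j : ℕ} (hj : j ≤ M.length) :
    Hess65.Gn (opS n β M q) j = Pr.GG (ul n β M q k0) (sg' n β M q j) := by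
  have hl : (opS n β M q).length = M.length := by rw [opS, List.length_map, opV_length]
  rw [Hess65.Gn_eq (rk_opS T.ook) (hl.symm ▸ hj), Hess65.tm, TT_opV hj]
  exact (T.same T.ook fun _ _ => rfl).gg _ (mem T.ook hj)

theorem GG_le (T : Tp n β M q k0) {t : ℝ} (h1 : sg' n β M q k0 ≤ t)
    (h2 : t ≤ oTau n β M M.length + fAcc M M.length) :
    Pr.GG (ul n β M q k0) t ≤ Hess65.Gn (opS n β M q) k0 := by
  have D := T.dat
  have := (Pr.platS _ D.ok _ t (D.nn le_rfl) h1 (D.tt.symm ▸ h2) fun s hs => D.lv_top hs).1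
  rw [T.Gn_eq T.lt.le]
  refine this.trans (mul_le_of_le_one_left (Pp.Ode3.Gp_nonneg _ _) ?_)
  exact exp_le_one_iff.2 (by linarith)

/-- **the replicon coefficient increases on the top part** -/
theorem mu_ge (T : Tp n β M q k0) {s : ℕ} (h1 : k0 ≤ s) (h2 : s ≤ M.length) :
    1 - oTau n β M k0 * Hess65.Gn (opS n β M q) k0 ≤
      1 - oTau n β M s * Hess65.Gn (opS n β M q) s := by
  rw [T.tau_top h1, T.tau, T.Gn_eq h2]
  have := T.GG_le ((up_sg T.ook).le h1 h2) (mem T.ook h2).2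
  linarith [mul_le_mul_of_nonneg_left this (T.ook.oTau_le n β M.length).1]

theorem incr (T : Tp n β M q k0) {t t' : ℝ} (h1 : sg' n β M q k0 ≤ t) (h : t ≤ t')
    (h2 : t' ≤ oTau n β M M.length + fAcc M M.length) :
    Pr.Gam (ul n β M q k0) t' - Pr.Gam (ul n β M q k0) t ≤
      Hess65.Gn (opS n β M q) k0 * (t' - t) := by
  have D := T.dat
  have h0 : 0 ≤ t := (D.nn le_rfl).trans h1
  have h3 : t' ≤ R339.Var.TT (ul n β M q k0) := D.tt.symm ▸ h2
  have e := Pp.Ode3.Gam_int D.ap h0 h h3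
  have i := Pp.Ode3.ii_of_cont (Pp.Ode3.Gp_cont D.ap) ⟨h0, h.trans h3⟩ ⟨h0.trans h, h3⟩
  have := intervalIntegral.integral_mono_on h i
    (intervalIntegrable_const (c := Hess65.Gn (opS n β M q) k0)) fun r hr =>
      T.GG_le (h1.trans hr.1) (hr.2.trans h2)
  rw [intervalIntegral.integral_const, smul_eq_mul, mul_comm] at this
  exact e.trans_le this

/-- **the slope hypothesis of `apt_full`** -/
theorem slope (T : Tp n β M q k0) {s : ℕ} (h1 : k0 < s) (h2 : s < M.length) {θ : ℝ}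
    (hθ : θ ≤ 1 - oTau n β M k0 * Hess65.Gn (opS n β M q) k0) (r : ℝ) (r1 : q k0 ≤ r) (r2 : r ≤ 1) :
    θ * |r - q s| - |Gs n β M q s - q s| ≤ |Gs n β M (qr M.length (k0 + 1) q r) s - r| := by
  have ht := (T.ook.oTau_le n β M.length).1
  have eq : qr M.length (k0 + 1) q r s = r := if_pos ⟨h1, h2⟩
  rw [T.Gs_eq T.ook (fun _ _ => rfl) h2.le, T.Gs_eq (ook_qr T.ook r1 r2)
    (fun j hj => if_neg (by omega)) h2.le, sg', sg', eq, T.tau_top h1.le]
  rw [T.tau] at hθ
  set τ := oTau n β M M.length with hτ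
  have lo : ∀ x, q k0 ≤ x → sg' n β M q k0 ≤ τ * x + fAcc M s := fun x hx => by
    rw [sg', T.tau]
    exact add_le_add (mul_le_mul_of_nonneg_left hx ht) (fAcc_mono T.ook h1.le)
  have hi : ∀ x, x ≤ 1 → τ * x + fAcc M s ≤ τ + fAcc M M.length := fun x hx =>
    add_le_add (mul_le_of_le_one_right ht hx) (fAcc_mono T.ook h2.le)
  have q1 := T.ook.le h1.le h2.le
  have q2 := (T.ook.mem h2.le).2
  set a := Pr.Gam (ul n β M q k0) (τ * r + fAcc M s)
  set b := Pr.Gam (ul n β M q k0) (τ * q s + fAcc M s)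
  rcases le_total r (q s) with c | c
  · have : b - a ≤ _ := T.incr (lo r r1) (by nlinarith) (hi _ q2)
    rw [abs_of_nonpos (sub_nonpos.2 c)]
    have h3 := mul_le_mul_of_nonneg_right hθ (sub_nonneg.2 c)
    linarith [le_abs_self (a - r), neg_abs_le (b - q s)]
  · have : a - b ≤ _ := T.incr (lo _ q1) (by nlinarith) (hi _ r2)
    rw [abs_of_nonneg (sub_nonneg.2 c)]
    have h3 := mul_le_mul_of_nonneg_right hθ (sub_nonneg.2 c)
    linarith [neg_abs_le (a - r), le_abs_self (b - q s)]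

end Tp

end Crest.Agent.T156.Cas.Mv30

end
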