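import Crest.Agent.T156.R2cD_85
import Crest.Agent.T156.Twin_20
import Crest.Agent.T156.AltOne_23

/-!
# Row 156, R2 (helper85): the heads (P), (W) and the second-order bound from HV, HL, HU
-/

set_option autoImplicit false

noncomputable section

namespace Crest.Agent.T156.Cas.C40.R85

open MeasureTheory Real Set Filter Topology
open Crest.Agent.T157.E Crest.Agent.T157.Casc Crest.Agent.T157.SL Crest.Agent.T157.Casc.C
open Crest.Agent.R339.B Crest.Agent.R339.Var Crest.Agent.T157.Pf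
open Crest.Agent.T157.G1 (ov)
open Crest.ProbabilityR.SpinGlassDynamics (spin)
open Mul55 Hess65 Crest.Agent.T156.Pp

/-! ### two-letter site words -/

section site
variable {L : List (Lv Bool)} {q c c' : ℕ → ℝ}

theorem dop_lev (L : List (Lv Bool)) (h : Bool → ℝ) (h0 : c 0 = 0) (s : Sh)
    (F : (s.Lf → Bool) → ℝ) : Dop L (fun j _ _ => c j) (TEf (fun _ => 1) L h) s F = 0 := by
  have hw := One15.w1
  have h1 := dT_const' hw s L h (S := fun j _ _ => c j) (by funext x y; exact h0)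
    (TE (fun _ => 1) s L h F)
  rw [dT_eq_sg hw s L h (c := c L.length) fun _ => rfl] at h1
  rw [Dop_eq_sg, ← h1]
  refine sg_congr _ _ _ fun τ hτ => ?_
  unfold GT.ev
  simp only [TEf, mul_comm _ (c τ.j), Law.TE_const_mul hw, Law.TE_const hw, hτ.TE_e hw]

/-- `c η` -/
def kq (q c : ℕ → ℝ) : SK := fun j a b => c j * oE q j a b

theorem kq_mem {K : ℕ} (h0 : c 0 = 0) : kq q c ∈ Ok Bool K :=
  ⟨by funext x y; simp [kq, h0], c K * (1 - q K), fun y => by
    rw [kq, oE, ← sq, One15.spin_sq]⟩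

theorem dop_kq (L : List (Lv Bool)) (h : Bool → ℝ) (h0 : c 0 = 0) :
    Dop L (kq q c) (TEf (fun _ => 1) L h) = Dop L (ek c) (TEf (fun _ => 1) L h) := by
  funext s F
  have e : kq q c = fun j x y => 1 * ek c j x y + (-1) * (fun j _ _ => c j * q j) j x y := by
    funext j x y; simp only [kq, oE, ek]; ring
  rw [e, (isLin_TEf One15.w1 L h).dopS, dop_lev L h (by simp [h0])]
  ring

theorem lam_two (L : List (Lv Bool)) (h0 : c 0 = 0) (h0' : c' 0 = 0) :
    Lam (fun _ => 1) L 0 [kq q c, kq q c'] =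
      ∑ j ∈ Finset.range (L.length + 1), dm L 0 j * c j * Lom L (fun i => 2 * c' i) j := by
  have s1 := pairF_swap One15.w1 L 0 (S := kq q c) (T := ek c') (kq_mem h0) (ek_mem h0')
    (U := []) (by simp)
  have s2 := pairF_swap One15.w1 L 0 (S := ek c') (T := ek c) (ek_mem h0') (ek_mem h0)
    (U := []) (by simp)
  rw [WdO_nil] at s1 s2
  have e : ek c' = ek fun i => 2 * c' i / 2 := by funext j x y; simp [ek]
  rw [Lam_cons, WdO_cons, WdO_nil, dop_kq L 0 h0', s1, dop_kq L 0 h0, s2, ← pairF_Lom, ← e]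

theorem lam_one (L : List (Lv Bool)) (h : Bool → ℝ) :
    Lam (fun _ => 1) L h [kq q c] = ∑ j ∈ Finset.range (L.length + 1), dm L 0 j *
      (c j * (pi2 (fun _ => 1) L j (fun a b => spin a * spin b) h - q j)) := by
  rw [Lam_cons, WdO_nil, pairF]
  refine Finset.sum_congr rfl fun j _ => ?_
  rw [twoF_TEf One15.w1]
  unfold kq oE
  rw [pi2_const_mul, pi2_sub One15.w1, pi2_const One15.w1]

theorem EX_rest_take (F : ℝ → ℝ) {t : ℝ} (ht : 0 ≤ t) : ∀ {l : List (ℝ × ℝ)},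
    (∀ p ∈ l, 0 ≤ p.2) → ∀ J, EX 1 (rest l (R339.Var.TT (l.take J))) t F = EX 1 (l.drop J) t F
  | [], _, J => by simp [rest]
  | p :: l, h, 0 => by
    have e : R339.Var.TT ((p :: l).take 0) = 0 := rfl
    rw [e, rest, if_pos (h p List.mem_cons_self), sub_zero, List.drop_zero]
  | p :: l, h, J + 1 => by
    have h2 : ∀ r ∈ l, 0 ≤ r.2 := fun r hr => h r (List.mem_cons_of_mem _ hr)
    have h3 : 0 ≤ R339.Var.TT (l.take J) := TT_nonneg fun r hr => h2 r (List.mem_of_mem_take hr)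
    have ih := EX_rest_take F ht h2 J
    rw [List.take_succ_cons, List.drop_succ_cons, TT_cons, rest]
    split_ifs with h4
    · have h5 : R339.Var.TT (l.take J) = 0 := le_antisymm (by linarith) h3
      have h6 : EX 1 (rest l 0) t F = EX 1 l t F := EX_rest_take F ht h2 0
      rw [← ih, h5, h6, add_zero, sub_self, EX]
      split_ifs with h7
      · rw [le_antisymm h7 ht, tE_v0, One15.EX_zero F h2]
      · rw [tE_v0, sub_zero]
    · rw [add_sub_cancel_left, ih]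

theorem adm_drop : ∀ {l : List (ℝ × ℝ)}, Adm 1 l → ∀ J, Adm 1 (l.drop J)
  | [], _, J => by simp [Adm]
  | _ :: _, h, 0 => h
  | _ :: _, h, J + 1 => adm_drop h.2.2.2 J

theorem TT_app (l l' : List (ℝ × ℝ)) : R339.Var.TT (l ++ l') = R339.Var.TT l + R339.Var.TT l' := by simp [R339.Var.TT]

theorem TT_drop_take (l : List (ℝ × ℝ)) {J j : ℕ} (h : J ≤ j) :
    R339.Var.TT ((l.drop J).take (j - J)) = R339.Var.TT (l.take j) - R339.Var.TT (l.take J) := by
  obtain ⟨k, rfl⟩ := Nat.exists_eq_add_of_le h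
  rw [Nat.add_sub_cancel_left, List.take_add, TT_app]
  ring

end site

variable {D : CD} {τ τ0 : ℝ}

theorem dd_val (h : D.W.isSome = false) (x y : ℝ) : D.dd x y = x := by
  unfold CD.dd
  cases hW : D.W with
  | none => rfl
  | some _ => rw [hW] at h; simp at h

theorem wt_val (h : D.W.isSome = false) : D.wt = 1 := dd_val h _ _

theorem lenS (D : CD) : D.S.length = D.K := opS_length

theorem lenV (D : CD) : (V D).length = D.K := opV_length

theorem dmS (D : CD) (j : ℕ) : dm D.S 0 j = D.dx j := Cav22.dm_tilt tilt_opS 0 j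

theorem exS (D : CD) (j : ℕ) : ex D.S j = ex D.B j := Cav22.ex_tilt tilt_opS j

theorem tmV (D : CD) {j : ℕ} (hj : j ≤ D.K) : Hess65.tm (V D) j = D.sig j := TT_opV hj

theorem dU_zero (D : CD) : dU D 0 = 0 := by simp [dU]

theorem dU_up {j : ℕ} (hj : j ∈ D.up) : dU D j = D.del j := if_pos (Finset.mem_Ioo.1 hj).1

theorem sL_val (h : D.W.isSome = false) (W : List SK) : D.sL W = Lam (fun _ => 1) D.S 0 W := by
  rw [CD.sL, CD.sH, dd_val h]
  simp only [List.drop_zero, zero_mul, add_zero, List.map_id']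
  rfl

theorem Sd_kq (D : CD) : D.Sd = kq D.q fun j => D.τ j / 2 * dU D j := by
  funext j a b
  by_cases h : D.J < j <;> simp [CD.Sd, kq, dU, h]

theorem lev_kq (D : CD) (t : ℕ) : D.lev t = kq D.q fun j => if j = t then 1 else 0 := by
  funext j a b
  by_cases h : j = t <;> simp [CD.lev, kq, h]

/-- sums over all nodes of terms that vanish on LOW -/
theorem sum_up (top : D.dx D.K = 0) {g : ℕ → ℝ} (h : ∀ j ≤ D.J, g j = 0) :
    ∑ j ∈ Finset.range (D.K + 1), D.dx j * g j = ∑ j ∈ D.up, D.dx j * g j := by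
  refine (Finset.sum_subset (fun j hj => ?_) fun j hj hj' => ?_).symm
  · simp only [Finset.mem_Ioo, Finset.mem_range] at hj ⊢
    omega
  · simp only [Finset.mem_Ioo, Finset.mem_range] at hj hj'
    rcases le_or_gt j D.J with h1 | h1
    · rw [h j h1, mul_zero]
    · rw [show j = D.K by omega, top, zero_mul]

theorem dU_lo {j : ℕ} (h : j ≤ D.J) : dU D j = 0 := if_neg (by omega)

/-- the first-order term -/
theorem f1_eq (h : D.W.isSome = false) (top : D.dx D.K = 0) (hc : CT D τ) :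
    D.f1' = τ / 2 * ∑ j ∈ D.up, D.dx j * (D.del j * (D.Gam j - D.q j)) := by
  rw [CD.f1', sL_val h, Sd_kq, lam_one, lenS]
  simp only [dmS]
  rw [sum_up top fun j hj => by simp [dU_lo hj], Finset.mul_sum]
  refine Finset.sum_congr rfl fun j hj => ?_
  rw [hc.up hj, dU_up hj, CD.Gam]
  ring

/-- the mean part of the second-order term -/
theorem QM_eq (h : D.W.isSome = false) (hc : CT D τ) :
    D.QM = τ ^ 2 / 2 * ∑ j ∈ Finset.range (D.S.length + 1),
      dm D.S 0 j * dU D j * Lom D.S (dU D) j := by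
  have e : ∀ j ≤ D.S.length, D.τ j / 2 * dU D j = τ / 2 * dU D j := fun j hj => by
    rcases Nat.eq_zero_or_pos j with rfl | h1
    · rw [dU_zero, mul_zero, mul_zero]
    · rw [hc j h1 (lenS D ▸ hj)]
  rw [CD.QM, sL_val h, Sd_kq, lam_two _ (by simp [dU_zero]) (by simp [dU_zero]),
    Lom_congr _ (om' := fun i => τ * dU D i + 0 * dU D i) fun j hj => by rw [e j hj]; ring,
    Finset.mul_sum]
  refine Finset.sum_congr rfl fun j hj => ?_
  rw [Lom_lin, e j (Nat.lt_succ_iff.1 (Finset.mem_range.1 hj))]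
  ring

/-- the diagonal word -/
theorem lev_eq (h : D.W.isSome = false) {t : ℕ} (ht : t ∈ D.up) :
    D.sL [D.lev t, D.lev t] = 2 * (D.dx t * Lom D.S (fun j => if j = t then 1 else 0) t) := by
  have t0 : (0 : ℕ) ≠ t := by have := Finset.mem_Ioo.1 ht; omega
  have e := Lom_lin D.S 2 0 (fun j => if j = t then 1 else 0) (fun _ => 0) t
  simp only [mul_zero, add_zero, zero_mul] at e
  rw [sL_val h, lev_kq, lam_two _ (by simp [t0]) (by simp [t0]), Finset.sum_eq_single t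
    (fun j _ hj => by simp [hj]) fun hj => absurd (Finset.mem_range.2 (by
      have := Finset.mem_Ioo.1 ht; rw [lenS]; omega)) hj, if_pos rfl, e, dmS]
  ring

/-- the site data: positive tilts, tilt one from the level `P` on, time `≤ T` below -/
structure St (D : CD) (τ T : ℝ) (P : ℕ) : Prop where
  ct : CT D τ
  pos : 0 < τ
  tilt : ∀ p ∈ D.M, 0 < p.1
  JP : D.J < P
  PK : P ≤ D.K
  one : ex D.B P = 1
  time : D.sig P + 1 ≤ T

variable {T : ℝ} {P : ℕ}

theorem rkS (ok : D.Ok τ0) : List.Forall₂ (Rk1 spin) D.S (V D) := rk_opS ok.ook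

theorem St.adm (s : St D τ T P) (ok : D.Ok τ0) : Adm 1 (V D) := adm_opV ok.ook ok.mono s.tilt

theorem St.hess (s : St D τ T P) (ok : D.Ok τ0) {om : ℕ → ℝ} (h0 : om 0 = 0) :
    ∑ j ∈ Finset.range (D.S.length + 1), dm D.S 0 j * om j * Lom D.S om j ≤
      ∑ j ∈ Finset.range (D.S.length + 1), dm D.S 0 j * Hess65.Gn D.S j * om j ^ 2 -
        Real.exp (-14 * T) / 4 * Hc D.S (V D) om :=
  hessT (rkS ok) (s.adm ok) (lenS D ▸ s.PK) ((exS D P).trans s.one) ((tmV D s.PK).symm ▸ s.time) h0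

theorem St.lev_le (s : St D τ T P) (ok : D.Ok τ0) (h : D.W.isSome = false) {t : ℕ}
    (ht : t ∈ D.up) : D.sL [D.lev t, D.lev t] ≤ 2 * (D.dx t * Hess65.Gn D.S t) := by
  have t0 : (0 : ℕ) ≠ t := by have := Finset.mem_Ioo.1 ht; omega
  have tm : t ∈ Finset.range (D.S.length + 1) :=
    Finset.mem_range.2 (by have := Finset.mem_Ioo.1 ht; rw [lenS]; omega)
  have k := s.hess ok (om := fun j => if j = t then 1 else 0) (by simp [t0])
  rw [Finset.sum_eq_single t (fun j _ hj => by simp [hj]) fun hj => absurd tm hj,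
    Finset.sum_eq_single t (fun j _ hj => by simp [hj]) fun hj => absurd tm hj, if_pos rfl,
    dmS] at k
  have := mul_nonneg (by positivity : 0 ≤ Real.exp (-14 * T) / 4)
    (Hc_nonneg (rkS ok) fun j => if j = t then 1 else 0)
  rw [lev_eq h ht]
  linarith

theorem Gy_eq (ok : D.Ok τ0) {j : ℕ} (h1 : D.J ≤ j) (h2 : j ≤ D.K) :
    Gy D j = EX 1 ((V D).drop D.J) (D.sig j - D.sig D.J) fun y => Pr.Dk 0 (V D) (D.sig j) y ^ 2 := by
  funext y
  have R := List.forall₂_drop D.J (rkS ok)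
  have k := One15.pi2_spin R (j := j - D.J) (by rw [List.length_drop, lenV]; omega) y
  rw [One15.PhiT_take R, List.drop_drop, Nat.add_sub_cancel' h1, ← One15.PhiT_take (rkS ok),
    TT_drop_take _ h1, TT_opV h2, TT_opV ok.cut.le] at k
  simp only [Pr.Dk, Dn_zero]
  exact k

theorem sig_mono (ok : D.Ok τ0) {i j : ℕ} (h1 : i ≤ j) (h2 : j ≤ D.K) : D.sig i ≤ D.sig j := by
  have := (nd_tm (rkS ok)).up.le h1 (lenS D ▸ h2)
  rwa [tmV D h2, tmV D (h1.trans h2)] at this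

theorem St.Gy_bd (s : St D τ T P) (ok : D.Ok τ0) {j : ℕ} (h1 : D.J ≤ j) (h2 : j ≤ D.K) :
    BD (Gy D j) := by
  rw [Gy_eq ok h1 h2]
  exact Twin20.EX_bd ((Ker.Dk_bd 0 _ _).pow 2) (adm_drop (s.adm ok) _)
    (sub_nonneg.2 (sig_mono ok h1 h2))

theorem psi_eq (ok : D.Ok τ0) {j : ℕ} (h1 : D.J ≤ j) (h2 : j ≤ D.K) :
    psi D j = Twin20.psi (V D) (D.sig D.J) (D.sig j) := by
  have k := EX_rest_take (fun y => Pr.Dk 0 (V D) (D.sig j) y ^ 2)
    (sub_nonneg.2 (sig_mono ok h1 h2)) (One15.nn_of (rkS ok)) D.J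
  rw [TT_opV ok.cut.le] at k
  rw [psi, Gy_eq ok h1 h2, Twin20.psi, Twin20.Hs, k]

theorem lam_eq (ok : D.Ok τ0) : D.lam = Pr.Dk 1 (V D) (D.sig D.J) 0 := by
  have e : D.Ph = PhiT 1 (V D) (D.sig D.J) := by
    funext y
    have k := X_spin (List.forall₂_drop D.J (rkS ok)) y
    rw [← One15.PhiT_take (rkS ok), TT_opV ok.cut.le] at k
    exact k
  rw [CD.lam, e, Pr.Dk, Dn, iteratedDeriv_succ']

/-- the mixed term -/
theorem St.dP_eq (s : St D τ T P) (ok : D.Ok τ0) (h : D.W.isSome = false) :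
    D.dP 2 [D.Sd] = τ * O D := by
  have e : (fun y => D.sH D.J y [D.Sd]) = fun y => ∑ j ∈ D.up,
      D.dx j * (τ / 2 * D.del j) * (-D.q j + Gy D j y) := by
    funext y
    have k := Wt87.sum_dm_drop D.S (j := D.J) (lenS D ▸ ok.cut.le) fun j =>
      D.τ j / 2 * dU D j * (Gy D j y - D.q j)
    rw [CD.sH, dd_val h, List.map_singleton, Sd_kq]
    refine (lam_one (q := fun j => D.q (j + D.J)) (c := fun j => D.τ (j + D.J) / 2 * dU D (j + D.J))
      _ _).trans ?_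
    simp only [Gy, Nat.add_sub_cancel] at k
    rw [List.length_drop, k, dU_lo le_rfl, lenS, ← Finset.Ioo_insert_right ok.cut,
      Finset.sum_insert (by simp), dmS, ok.top]
    simp only [mul_zero, zero_mul, zero_add]
    refine Finset.sum_congr rfl fun j hj => ?_
    rw [dmS, s.ct.up hj, dU_up hj, Gy]
    ring
  have b : ∀ j ∈ D.up, BD (Gy D j) := fun j hj =>
    s.Gy_bd ok (Finset.mem_Ioo.1 hj).1.le (Finset.mem_Ioo.1 hj).2.le
  rw [CD.dP, e, iteratedDeriv_fun_sum fun j hj =>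
    ((((BD.const _).add (b j hj)).const_mul _).contDiff 2).contDiffAt, O, Finset.mul_sum,
    ← Finset.sum_neg_distrib]
  refine Finset.sum_congr rfl fun j hj => ?_
  rw [iteratedDeriv_const_mul_field, iteratedDeriv_const_add two_pos, psi]
  ring

theorem St.mx_eq (s : St D τ T P) (ok : D.Ok τ0) (h : D.W.isSome = false) :
    D.mx = τ ^ 3 * D.lam / 2 * s2 D * O D := by
  rw [CD.mx, CD.dmx, dd_val h, s.dP_eq ok h, S2_eq s.ct ok.cut]
  ring

/-! ### moments -/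

theorem dx_nonneg (ok : D.Ok τ0) (j : ℕ) : 0 ≤ D.dx j := dm_nonneg ok.mono j

theorem del_eq (D : CD) (j : ℕ) : D.del j = D.E2 j (oU D.q j) := by
  unfold CD.del CD.rb CD.E2 oU
  rw [pi2_sub wt_one90, pi2_const wt_one90]

theorem del_sq_le (D : CD) (j : ℕ) : D.del j ^ 2 ≤ D.u 2 j := by
  have k := pi2_nonneg wt_one90 D.B j (K := fun x y =>
    |oU D.q j x y| ^ 2 - 2 * D.del j * oU D.q j x y + D.del j ^ 2)
    (fun x y => by rw [sq_abs]; nlinarith [sq_nonneg (oU D.q j x y - D.del j)]) 0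
  rw [pi2_add wt_one90, pi2_sub wt_one90, pi2_const_mul, pi2_const wt_one90] at k
  have e := del_eq D j
  unfold CD.E2 at e
  change 0 ≤ D.u 2 j - _ * pi2 _ D.B j (oU D.q j) 0 + _ at k
  rw [← e] at k
  linarith

theorem abs_del_le (D : CD) (j : ℕ) : |D.del j| ≤ D.g j := by
  have u0 : 0 ≤ D.u 3 j := uM_nonneg 3 j
  have g0 : 0 ≤ D.g j := Real.rpow_nonneg u0 _
  have g3 : D.g j ^ 3 = D.u 3 j := by
    rw [CD.g, ← Real.rpow_natCast, ← Real.rpow_mul u0]; norm_num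
  have y : ∀ c, 0 < c → |D.del j| ≤ 2 * c / 3 + 1 / (3 * c ^ 2) * D.u 3 j := fun c hc => by
    have p : ∀ x : ℝ, |x| ≤ 2 * c / 3 + 1 / (3 * c ^ 2) * |x| ^ 3 := fun x => by
      have a := abs_nonneg x
      have : 0 ≤ (|x| - c) ^ 2 * (|x| + 2 * c) / (3 * c ^ 2) := by positivity
      have e : (|x| - c) ^ 2 * (|x| + 2 * c) / (3 * c ^ 2) =
          2 * c / 3 + 1 / (3 * c ^ 2) * |x| ^ 3 - |x| := by field_simp; ring
      linarith
    have e : pi2 (fun _ => 1) D.B j (fun x y => 2 * c / 3 + 1 / (3 * c ^ 2) * |oU D.q j x y| ^ 3) 0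
        = 2 * c / 3 + 1 / (3 * c ^ 2) * D.u 3 j := by
      rw [pi2_add wt_one90, pi2_const_mul, pi2_const wt_one90]; rfl
    have k1 := pi2_mono wt_one90 D.B j (fun x y => (le_abs_self _).trans (p (oU D.q j x y))) 0
    have k2 := pi2_mono wt_one90 D.B j (K := fun x y => -1 * oU D.q j x y)
      (fun x y => (show -1 * oU D.q j x y ≤ _ by rw [neg_one_mul]; exact neg_le_abs _).trans
        (p (oU D.q j x y))) 0
    rw [pi2_const_mul] at k2
    rw [e] at k1 k2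
    rw [del_eq, CD.E2]
    exact abs_le.2 ⟨by linarith, k1⟩
  rcases g0.eq_or_lt with h | h
  · rw [← h] at g3 ⊢
    refine le_of_forall_pos_le_add fun c hc => (y c hc).trans ?_
    rw [← g3]
    simp only [ne_eq, OfNat.ofNat_ne_zero, not_false_eq_true, zero_pow, mul_zero]
    linarith
  · refine (y _ h).trans_eq ?_
    rw [← g3]
    field_simp
    ring

/-- first-order term and mixed term after (TWIN) -/
theorem St.f1_mx (s : St D τ T P) (ok : D.Ok τ0) (h : D.W.isSome = false) {S0 tw : ℝ}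
    (w : TW D τ S0 tw) :
    |D.f1' + D.mx - τ ^ 3 * D.lam / 2 * (s2 D - S0) * O D| ≤ τ / 2 * (tw * D.N1) := by
  have e : D.f1' + D.mx - τ ^ 3 * D.lam / 2 * (s2 D - S0) * O D = τ / 2 * ∑ j ∈ D.up,
      D.dx j * (D.del j * (D.Gam j - D.q j + τ ^ 2 * D.lam * psi D j * S0)) := by
    have : ∀ j, D.dx j * (D.del j * (D.Gam j - D.q j + τ ^ 2 * D.lam * psi D j * S0)) =
        D.dx j * (D.del j * (D.Gam j - D.q j)) +
          τ ^ 2 * D.lam * S0 * (D.dx j * (psi D j * D.del j)) := fun j => by ring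
    simp only [this, Finset.sum_add_distrib, ← Finset.mul_sum]
    rw [s.mx_eq ok h, f1_eq h ok.top s.ct, O]
    ring
  rw [e, abs_mul, abs_of_pos (half_pos s.pos), CD.N1, CD.I, Finset.mul_sum _ _ tw]
  refine mul_le_mul_of_nonneg_left ((Finset.abs_sum_le_sum_abs _ _).trans
    (Finset.sum_le_sum fun j hj => ?_)) (half_pos s.pos).le
  rw [abs_mul, abs_mul, abs_of_nonneg (dx_nonneg ok j), mul_left_comm tw, mul_comm tw]
  exact mul_le_mul_of_nonneg_left (mul_le_mul (abs_del_le D j) (w j hj) (abs_nonneg _)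
    ((abs_nonneg _).trans (abs_del_le D j))) (dx_nonneg ok j)

/-- the second-order term has a sign -/
theorem St.q2_le (s : St D τ T P) (ok : D.Ok τ0) (h : D.W.isSome = false) :
    τ / 2 * muU D τ + τ ^ 2 / 2 * (Real.exp (-14 * T) / 4) * ell2 D ≤ -(2 * D.q2) := by
  have a := s.hess ok (dU_zero D)
  have e1 : ∑ j ∈ Finset.range (D.S.length + 1), dm D.S 0 j * Hess65.Gn D.S j * dU D j ^ 2 =
      ∑ j ∈ D.up, D.dx j * (Hess65.Gn D.S j * D.del j ^ 2) := by
    simp only [dmS, mul_assoc]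
    rw [lenS, sum_up ok.top fun j hj => by simp [dU_lo hj]]
    exact Finset.sum_congr rfl fun j hj => by rw [dU_up hj]
  have b : D.LOC ≤ τ ^ 2 / 2 * ∑ j ∈ D.up, D.dx j * (Hess65.Gn D.S j * (D.u 2 j - D.del j ^ 2)) := by
    rw [CD.LOC, Finset.mul_sum]
    refine Finset.sum_le_sum fun j hj => ?_
    rw [s.ct.up hj]
    refine (mul_le_mul_of_nonneg_left (s.lev_le ok h hj)
      (mul_nonneg (by positivity) (sub_nonneg.2 (del_sq_le D j)))).trans_eq ?_
    ring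
  have e2 : muU D τ = D.I (D.u 2) - τ * (∑ j ∈ D.up, D.dx j * (Hess65.Gn D.S j * D.del j ^ 2) +
      ∑ j ∈ D.up, D.dx j * (Hess65.Gn D.S j * (D.u 2 j - D.del j ^ 2))) := by
    rw [muU, CD.I, ← Finset.sum_add_distrib, Finset.mul_sum, ← Finset.sum_sub_distrib]
    exact Finset.sum_congr rfl fun j _ => by rw [mu]; ring
  have a' := mul_le_mul_of_nonneg_left a (by positivity : 0 ≤ τ ^ 2 / 2)
  rw [← QM_eq h s.ct, e1] at a'
  rw [CD.q2, dd_val h, Su_eq s.ct, e2, ell2]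
  linarith

/-! ### the heads -/

/-- **(W)** -/
theorem headW (hL : HL) (τ0 : ℝ) : ∃ C : ℝ, 0 ≤ C ∧ ∀ (D : CD) (τ T : ℝ) (P : ℕ), D.Ok τ0 →
    D.W.isSome = false → St D τ T P →
    |2 * (τ / 4 * (1 - τ * D.lam ^ 2) * s2 D) - τ * D.lam ^ 2 / 2 * sh D +
      3 * (τ ^ 3 * D.lam ^ 3 / 6 * s3 D τ) - 4 * (kap D τ / 4 * s4 D) -
      τ ^ 3 * D.lam * s2 D * O D| ≤ C * D.Err := by
  obtain ⟨C, h0, hC⟩ := hL τ0
  refine ⟨C, h0, fun D τ T P ok h s => ?_⟩
  rw [← abs_neg]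
  refine le_trans (le_of_eq ?_) (hC D ok h)
  congr 1
  simp only [CD.yh, CD.y2, CD.y3, CD.y4, CD.lam2, CD.lam3, CD.k44, dd_val h, s.mx_eq ok h,
    S1_eq s.ct ok.cut, S2_eq s.ct ok.cut, S4_eq s.ct ok.cut, Sh_eq s.ct ok.cut,
    S3_eq D s.pos.ne', kap]
  ring

/-- **(P)** -/
theorem headP (hV : HV) (hU : HU) (τ0 : ℝ) : ∃ C : ℝ, 0 ≤ C ∧ ∀ (D : CD) (τ T S0 tw : ℝ) (P : ℕ),
    D.Ok τ0 → D.W.isSome = false → St D τ T P → TW D τ S0 tw →
    |D.dP0 - (τ / 4 * (1 - τ * D.lam ^ 2) * s2 D - τ * D.lam ^ 2 / 2 * sh D +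
      τ ^ 3 * D.lam ^ 3 / 6 * s3 D τ - kap D τ / 4 * s4 D) -
      τ ^ 3 * D.lam / 4 * (S0 - s2 D) * O D| ≤ C * D.Err + τ / 4 * (tw * D.N1) := by
  obtain ⟨C, h0, hC⟩ := hV τ0
  obtain ⟨C', h0', hC'⟩ := hU τ0
  refine ⟨C + C' / 2, by positivity, fun D τ T S0 tw P ok h s w => ?_⟩
  have a := abs_le.1 (hC D ok h)
  have b := abs_le.1 (hC' D ok h)
  have c := abs_le.1 (s.f1_mx ok h w)
  have e : D.yh + D.y2 + D.y3 + D.y4 = -(τ / 4 * (1 - τ * D.lam ^ 2) * s2 D -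
      τ * D.lam ^ 2 / 2 * sh D + τ ^ 3 * D.lam ^ 3 / 6 * s3 D τ - kap D τ / 4 * s4 D) := by
    simp only [CD.yh, CD.y2, CD.y3, CD.y4, CD.lam2, CD.lam3, CD.k44, dd_val h,
      S1_eq s.ct ok.cut, S2_eq s.ct ok.cut, S4_eq s.ct ok.cut, Sh_eq s.ct ok.cut,
      S3_eq D s.pos.ne', kap]
    ring
  exact abs_le.2 ⟨by linarith [a.1, a.2, b.1, b.2, c.1, c.2],
    by linarith [a.1, a.2, b.1, b.2, c.1, c.2]⟩

/-- **(E2)**: `∫ μ E U² + c ‖δ‖²_{H⁻¹}` is at most the mixed term plus the error -/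
theorem headE2 (hU : HU) (τ0 : ℝ) : ∃ C : ℝ, 0 ≤ C ∧ ∀ (D : CD) (τ T S0 tw : ℝ) (P : ℕ),
    D.Ok τ0 → D.W.isSome = false → St D τ T P → TW D τ S0 tw →
    τ / 2 * muU D τ + τ ^ 2 / 2 * (Real.exp (-14 * T) / 4) * ell2 D ≤
      τ ^ 3 * D.lam / 2 * (s2 D - S0) * O D + τ / 2 * (tw * D.N1) + C * D.Err := by
  obtain ⟨C, h0, hC⟩ := hU τ0
  refine ⟨C, h0, fun D τ T S0 tw P ok h s w => ?_⟩
  have b := abs_le.1 (hC D ok h)
  have c := abs_le.1 (s.f1_mx ok h w)
  linarith [s.q2_le ok h, b.1, c.2]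

end Crest.Agent.T156.Cas.C40.R85

end
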