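import Crest.Agent.T156.MvN_30
import Crest.Agent.T156.MvB_7
import Crest.Agent.T156.MvL_30
import Crest.Agent.T156.CRem_23
import Crest.Agent.T156.CIn_12
import Crest.Agent.T156.R2c_85

/-!
# Row 156: MVtop, the second moments on the reveal nodes (helper30)
-/

set_option autoImplicit false
set_option linter.unusedSectionVars false

noncomputable section

namespace Crest.Agent.T156.Cas.C40.Mv30

open MeasureTheory Real Set Filter Topology
open Crest.Agent.T157.E Crest.Agent.T157.Casc Crest.Agent.T157.SL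
open Crest.Agent.T157.G1 (ov fl)
open Apt7 Cas.Mv30 Ex23

/-- the top part starts at the node `P`; replicon `θ`, atom of mass `μ` at distance `d` -/
structure TopD (D : CD) (P : ℕ) (θ μ d : ℝ) : Prop where
  val : D.W = none
  root : 0 < ex D.B 0
  JP : D.J < P
  PK : P < D.K
  one : ex D.B P = 1
  tau : D.τ P = D.τ D.K
  θ0 : 0 < θ
  mu : θ ≤ 1 - D.τ P * Hess65.Gn D.S P
  X3 : D.X ^ 3 ≤ d
  μ0 : 0 < μ
  atom : ∃ A : Finset ℕ, (∀ j ∈ A, j ≤ P ∧ D.q P - d ≤ D.q j) ∧ μ ≤ ∑ j ∈ A, D.dx j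

/-- `E (R - ρ_t)²` -/
abbrev pD (D : CD) (t : ℕ) : ℝ := pv (fun _ => 1) D.B t ov 0
/-- the label inputs -/
def IU (D : CD) : ℝ := D.I (fun j => D.e j ^ 2 * D.u 2 j) + D.I (D.u 4)

variable {D : CD} {τ0 θ μ d : ℝ} {P : ℕ}

theorem u2_eq (D : CD) (j : ℕ) : D.u 2 j = Er D.n D.β D.M j fun u => (u - D.q j) ^ 2 := by
  simp only [CD.u, uM, Er, sq_abs, oU]

theorem u4_eq (D : CD) (j : ℕ) : D.u 4 j = Er D.n D.β D.M j fun u => (u - D.q j) ^ 4 := by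
  simp only [CD.u, uM, Er, (show Even 4 by decide).pow_abs, oU]

theorem TopD.tp (R : TopD D P θ μ d) (H : D.Ok τ0) : Tp D.n D.β D.M D.q P :=
  ⟨H.ook, H.mono, R.root, R.PK, R.one, R.tau⟩

theorem I_sq (H : D.Ok τ0) (a : ℕ → ℝ) : D.I a ^ 2 ≤ D.I fun j => a j ^ 2 := by
  have := Finset.sum_sq_le_sum_mul_sum_of_sq_le_mul D.up (r := fun j => D.dx j * a j) (f := D.dx)
    (g := fun j => D.dx j * a j ^ 2) (fun j _ => H.dx0 j)
    (fun j _ => mul_nonneg (H.dx0 j) (sq_nonneg _)) fun j _ => le_of_eq (by ring)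
  exact this.trans (mul_le_of_le_one_left (H.I0 fun _ _ => sq_nonneg _)
    (H.sum_dx_one fun j hj => (CD.mem_up.1 hj).2.le))

theorem split (H : D.Ok τ0) {f : ℕ → ℝ} {c : ℝ} (hc : 0 ≤ c) (h : ∀ j ≤ D.J, f j ≤ c) :
    ∑ j ∈ Finset.range (D.K + 1), D.dx j * f j ≤ D.X * c + D.I f := by
  have h1 : ∑ j ∈ Finset.range (D.K + 1), D.dx j * f j ≤ ∑ j ∈ Finset.range (D.K + 1),
      ((if j ≤ D.J then D.dx j else 0) * c + if j ≤ D.J then 0 else D.dx j * f j) :=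
    Finset.sum_le_sum fun j _ => by
      split_ifs with e
      · rw [add_zero]; exact mul_le_mul_of_nonneg_left (h j e) (H.dx0 j)
      · simp
  rw [Finset.sum_add_distrib, ← Finset.sum_mul, sum_dx_lo D H.cut,
    sum_up (by rw [H.top, zero_mul])] at h1
  exact h1.trans (add_le_add (mul_le_mul_of_nonneg_right H.x1 hc) le_rfl)

/-- the parity weight -/
def gg (D : CD) (j : ℕ) : ℝ := if j ≤ D.J then D.X else D.e j

theorem TopD.site (R : TopD D P θ μ d) (H : D.Ok τ0) {s : ℕ} (h1 : P < s) (h2 : s < D.K)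
    {τ : GT (Sh.two s)} (hτ : τ.Mem _ D.K) :
    |Zs D.n D.β D.M D.q s τ| ≤ (512 * exp 2 + 4) * gg D τ.j := by
  have X0 : 0 < D.X := R.root.trans_le ((LpR43.ex_mono H.mono (Nat.zero_le _)).trans H.x1)
  have e0 := exp_pos 2
  have JP := R.JP
  have big : ∀ x, 1 ≤ x → |Zs D.n D.β D.M D.q s τ| ≤ (512 * exp 2 + 4) * x := fun x hx =>
    (abs_Zs H.ook h2.le hτ).trans (by nlinarith)
  have low : ∀ x, 0 < x → x ≤ 1 → τ.j < s → D.sig τ.j ≤ x → D.q τ.j ≤ x →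
      |Zs D.n D.β D.M D.q s τ| ≤ (512 * exp 2 + 4) * x := fun x x0 x1 a b c => by
    refine (abs_Zs_low H.ook H.mono h2.le hτ a x0 b).trans ?_
    have : exp (1 / 2 + √x) ≤ exp 2 := exp_le_exp.2 (by linarith [sqrt_le_one.2 x1])
    have := mul_le_mul_of_nonneg_right this x0.le
    rw [Ker15.PB]; push_cast; linarith
  rw [gg]
  split_ifs with c
  · refine low _ X0 H.X1 (by omega) ?_ (by rw [H.qlo _ c]; exact X0.le)
    rw [CD.sig, H.qlo _ c, mul_zero, zero_add]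
    exact ((H.fAcc_mono c).trans H.h1).trans (pow_le_of_le_one X0.le H.X1 (by norm_num))
  · rcases le_or_gt 1 (D.e τ.j) with a | a
    · exact big _ a
    · have b : τ.j < s := by
        by_contra b
        have := H.esc s (CD.mem_up.2 ⟨by omega, h2⟩)
        rw [(R.tp H).ex_top h1.le, min_eq_left (le_add_of_nonneg_right (H.sig0 h2.le))] at this
        linarith [H.e_mono (not_lt.1 b)]
      have m := CD.mem_up.2 ⟨not_le.1 c, b.trans h2⟩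
      refine low _ (X0.trans_le (H.eX _)) a.le b ?_ (H.qe _ m)
      rcases min_le_iff.1 (H.esc _ m) with f | f
      · linarith
      · linarith [H.ex0 τ.j]

theorem R0_parts (H : D.Ok τ0) : D.X ^ 6 + (1 / D.n + D.tl) ≤ 4 * R0 D := by
  have := H.I0 (a := fun j => D.u 5 j) fun j _ => D.u0 5 j
  have h5 : D.tl ≤ (D.K + 1) ^ 2 * D.tl := le_mul_of_one_le_left H.tl0
    (one_le_pow₀ (le_add_of_nonneg_left D.K.cast_nonneg))
  rw [R0]; linarith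

/-- the two label sums of `mv_crude` -/
theorem sums (H : D.Ok τ0) :
    (∑ j ∈ Finset.range (D.K + 1), D.dx j * (gg D j * √(D.u 2 j))) ^ 2 ≤ 32 * (R0 D + IU D) ∧
    (∑ j ∈ Finset.range (D.K + 1), D.dx j * √(D.u 4 j)) ^ 2 ≤ 32 * (R0 D + IU D) := by
  have X0 := H.X0
  have X1 := H.X1
  have t0 := H.tl0
  have n0 : (0 : ℝ) ≤ 1 / D.n := by positivity
  have r := R0_parts H
  have i1 := H.I0 (a := fun j => D.e j ^ 2 * D.u 2 j) fun j _ => mul_nonneg (sq_nonneg _) (D.u0 2 j)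
  have i2 := H.I0 (a := D.u 4) fun j _ => D.u0 4 j
  have X2 : D.X ^ 2 ≤ 1 := pow_le_one₀ X0 X1
  have key : ∀ (f : ℕ → ℝ) (c I : ℝ), (∀ j, 0 ≤ f j) → 0 ≤ c → (∀ j ≤ D.J, f j ≤ c) →
      (D.X * c) ^ 2 ≤ 16 * R0 D → D.I (fun j => f j ^ 2) ≤ IU D →
      (∑ j ∈ Finset.range (D.K + 1), D.dx j * f j) ^ 2 ≤ 32 * (R0 D + IU D) :=
    fun f c _ f0 c0 a b e => by
      have h := pow_le_pow_left₀ (Finset.sum_nonneg fun j _ => mul_nonneg (H.dx0 j) (f0 j))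
        (split H c0 a) 2
      have := I_sq H f
      rw [IU] at *
      nlinarith [sq_nonneg (D.X * c - D.I f)]
  constructor
  · refine key _ (D.X * √(D.X ^ 2 + 1 / D.n + 2 * D.tl)) 0 (fun j => mul_nonneg ?_ (sqrt_nonneg _))
      (by positivity) (fun j hj => ?_) ?_ ?_
    · rw [gg]; split_ifs; exacts [X0, H.e0 j]
    · rw [gg, if_pos hj]
      exact mul_le_mul_of_nonneg_left (sqrt_le_sqrt (by simpa using u_lo H hj 0)) X0
    · rw [mul_pow, mul_pow, sq_sqrt (by positivity)]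
      have a := mul_le_of_le_one_left (b := 1 / D.n + 2 * D.tl) (by positivity) X2
      have b := mul_le_of_le_one_left (b := D.X ^ 2 * (1 / D.n + 2 * D.tl)) (by positivity) X2
      nlinarith [pow_nonneg X0 6]
    · refine le_trans (H.I_mono fun j hj => ?_) (le_add_of_nonneg_right i2)
      rw [gg, if_neg (not_le.2 (CD.mem_up.1 hj).1), mul_pow, sq_sqrt (D.u0 2 j)]
  · refine key _ √(D.X ^ 4 + 1 / D.n + 4 * D.tl) 0 (fun j => sqrt_nonneg _) (sqrt_nonneg _)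
      (fun j hj => sqrt_le_sqrt (by simpa using u_lo H hj 2)) ?_ ?_
    · rw [mul_pow, sq_sqrt (by positivity)]
      have a := mul_le_of_le_one_left (b := 1 / D.n + 4 * D.tl) (by positivity) X2
      nlinarith [pow_nonneg X0 6]
    · refine le_trans (H.I_mono fun j _ => ?_) (le_add_of_nonneg_left i1)
      rw [sq_sqrt (D.u0 4 j)]

theorem ar1 {A θ μ p R m n : ℝ} (A1 : 1 ≤ A) (θ0 : 0 < θ) (θ1 : θ ≤ 1) (μ0 : 0 < μ) (p0 : 0 ≤ p)
    (R0 : 0 ≤ R) (hm : m ≤ 20 * R) (n0 : 0 < n) (hn : 1 / n ≤ 4 * R) :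
    (72 * p / (θ ^ 2 / A) ^ 2 + 3 * (24 / (θ ^ 2 / A)) ^ (4 + 1) * m + 4 / (n * (θ ^ 2 / A) ^ 3)) / μ ≤
      (72 * A ^ 2 + 60 * (24 * A) ^ 5 + 16 * A ^ 3) * (p + R) / (μ * θ ^ 10) := by
  have A0 : 0 < A := by linarith
  have e : (72 * p / (θ ^ 2 / A) ^ 2 + 3 * (24 / (θ ^ 2 / A)) ^ (4 + 1) * m +
      4 / (n * (θ ^ 2 / A) ^ 3)) / μ = (72 * A ^ 2 * (θ ^ 6 * p) + 3 * (24 * A) ^ 5 * m +
        4 * A ^ 3 * (θ ^ 4 * (1 / n))) / (μ * θ ^ 10) := by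
    rw [show 4 + 1 = 5 from rfl]; field_simp
  rw [e]
  refine div_le_div_of_nonneg_right ?_ (by positivity)
  have a := mul_le_of_le_one_left p0 (pow_le_one₀ (n := 6) θ0.le θ1)
  have b := (mul_le_of_le_one_left (show 0 ≤ 1 / n by positivity)
    (pow_le_one₀ (n := 4) θ0.le θ1)).trans hn
  have a' := mul_le_mul_of_nonneg_left a (show 0 ≤ 72 * A ^ 2 by positivity)
  have b' := mul_le_mul_of_nonneg_left b (show 0 ≤ 4 * A ^ 3 by positivity)
  have c' := mul_le_mul_of_nonneg_left hm (show 0 ≤ 3 * (24 * A) ^ 5 by positivity)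
  have : 0 ≤ 72 * A ^ 2 * R + (60 * (24 * A) ^ 5 + 16 * A ^ 3) * p := by positivity
  linarith

theorem ar2 {u B E T θ μ p R I a b c k z : ℝ} (θ0 : 0 < θ) (θ1 : θ ≤ 1) (μ0 : 0 < μ) (μ1 : μ ≤ 1)
    (p0 : 0 ≤ p) (R0 : 0 ≤ R) (I0 : 0 ≤ I) (a0 : 0 ≤ a) (b0 : 0 ≤ b) (c0 : 0 ≤ c) (k0 : 0 ≤ k)
    (z0 : 0 ≤ z) (h : u ≤ 4 * B ^ 2 / θ ^ 2 + 4 * (E + 8 * c * T) / θ) (hB : B ^ 2 ≤ a * (R + I))
    (hE : E ≤ b * (p + R)) (hT : T ≤ k * (p + R) / (μ * θ ^ 10)) :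
    u ≤ (z + 4 * a + 4 * (b + 8 * c * k)) * (I / θ ^ 2 + (p + R) / (μ * θ ^ 11)) := by
  have l : ∀ i : ℕ, μ * θ ^ i ≤ 1 := fun i => mul_le_one₀ μ1 (by positivity) (pow_le_one₀ θ0.le θ1)
  have h1 : R / θ ^ 2 ≤ (p + R) / (μ * θ ^ 11) := by
    refine div_le_div₀ (by positivity) (by linarith) (by positivity) ?_
    have := mul_le_mul_of_nonneg_right (l 9) (sq_nonneg θ)
    linarith [show μ * θ ^ 9 * θ ^ 2 = μ * θ ^ 11 by ring]
  have h2 := hE.trans (mul_le_mul_of_nonneg_left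
    (le_div_self (show 0 ≤ p + R by positivity) (by positivity) (l 10)) b0)
  have h3 : 4 * (E + 8 * c * T) / θ ≤ 4 * (b + 8 * c * k) * ((p + R) / (μ * θ ^ 11)) := by
    rw [div_le_iff₀ θ0, show 4 * (b + 8 * c * k) * ((p + R) / (μ * θ ^ 11)) * θ =
      4 * (b * ((p + R) / (μ * θ ^ 10)) + 8 * c * (k * (p + R) / (μ * θ ^ 10))) by field_simp]
    linarith [mul_le_mul_of_nonneg_left hT (show 0 ≤ 8 * c by positivity)]
  have h4 : 4 * B ^ 2 / θ ^ 2 ≤ 4 * a * (R / θ ^ 2 + I / θ ^ 2) := by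
    rw [← add_div, ← mul_div_assoc]
    exact div_le_div_of_nonneg_right (by linarith) (by positivity)
  have h5 := mul_le_mul_of_nonneg_left h1 a0
  have i0 : 0 ≤ I / θ ^ 2 := by positivity
  have i1 : 0 ≤ (p + R) / (μ * θ ^ 11) := by positivity
  have := mul_nonneg z0 (add_nonneg i0 i1)
  have := mul_nonneg (show 0 ≤ b + 8 * c * k by positivity) i0
  linarith

theorem sq3 (x y z : ℝ) : (x + y + z) ^ 2 ≤ 3 * (x ^ 2 + y ^ 2 + z ^ 2) := by
  nlinarith [sq_nonneg (x - y), sq_nonneg (y - z), sq_nonneg (x - z)]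

theorem R0_nonneg (H : D.Ok τ0) : 0 ≤ R0 D := by
  have := R0_parts H
  have := H.tl0
  have : 0 ≤ D.X ^ 6 + 1 / (D.n : ℝ) := by positivity
  linarith

theorem IU_nonneg (H : D.Ok τ0) : 0 ≤ IU D :=
  add_nonneg (H.I0 fun j _ => mul_nonneg (sq_nonneg _) (D.u0 2 j)) (H.I0 fun j _ => D.u0 4 j)

set_option maxHeartbeats 1000000 in
/-- **MVtop at one node** -/
theorem mv_node (τ0 : ℝ) : ∃ C, 1 ≤ C ∧ ∀ (D : CD) (P : ℕ) (θ μ : ℝ), D.Ok τ0 →
    TopD D P θ μ (θ ^ 2 / C) → ∀ s, P < s → s < D.K →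
      D.u 2 s ≤ C * (IU D / θ ^ 2 + (pD D s + R0 D) / (μ * θ ^ 11)) := by
  obtain ⟨t, ht⟩ : ∃ t, t = |τ0| := ⟨_, rfl⟩
  have t0 : 0 ≤ t := ht ▸ abs_nonneg _
  obtain ⟨c1, e1⟩ : ∃ c, c = 50 + 92160 * t * exp (468 * t) := ⟨_, rfl⟩
  obtain ⟨c0, e0⟩ : ∃ c, c = 3 * t * exp (216 * t) := ⟨_, rfl⟩
  obtain ⟨cg, eg⟩ : ∃ c, c = t * (512 * exp 2 + 4) := ⟨_, rfl⟩
  have p1 : 0 ≤ c1 := by rw [e1]; positivity
  have p0 : 0 ≤ c0 := by rw [e0]; positivity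
  have pg : 0 ≤ cg := by rw [eg]; positivity
  obtain ⟨C, eC⟩ : ∃ c, c = 1 + 3 * c1 * t := ⟨_, rfl⟩
  have C1 : 1 ≤ C := by rw [eC]; exact le_add_of_nonneg_right (by positivity)
  obtain ⟨A, eA⟩ : ∃ c, c = 2 * C * (24 + 256 * c0) := ⟨_, rfl⟩
  have A1 : 2 * C ≤ A := by rw [eA]; exact le_mul_of_one_le_right (by linarith) (by linarith)
  have A0 : 0 < A := by linarith
  have z0 : 0 ≤ 4 * (12 + 96 * (400 * cg ^ 2 + (c1 * t) ^ 2)) +
    4 * (8 + 64 * t + 8 * C * (72 * A ^ 2 + 60 * (24 * A) ^ 5 + 16 * A ^ 3)) := by positivity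
  refine ⟨4 * A + 4 * (12 + 96 * (400 * cg ^ 2 + (c1 * t) ^ 2)) +
    4 * (8 + 64 * t + 8 * C * (72 * A ^ 2 + 60 * (24 * A) ^ 5 + 16 * A ^ 3)), by linarith,
    fun D P θ μ H R s h1 h2 => ?_⟩
  have T := R.tp H
  have θ0 := R.θ0
  have θ1 := R.mu.trans T.th_le
  obtain ⟨J, hJ, hμ⟩ := R.atom
  have μ1 : μ ≤ 1 := hμ.trans (H.sum_dx_one fun j hj => (hJ j hj).1.trans R.PK.le)
  have τ1 : ∀ j, D.τ j ≤ t := fun j => (H.tau_mem j).2.trans (ht ▸ le_abs_self _)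
  have τ0' := (H.tau_mem D.K).1
  have b1 : cM D.n D.β D.M ≤ c1 := by
    rw [e1, cM]; have := τ1 D.K; gcongr
  have b1' : 0 ≤ cM D.n D.β D.M := by rw [cM]; positivity
  have b0 : cE D.n D.β D.M ≤ c0 := by
    rw [e0, cE]; have := τ1 D.K; gcongr
  have hd : ∀ y, 0 < y → y ≤ 4 * A → ∀ x, x ≤ θ ^ 2 / (4 * A + 4 * (12 + 96 * (400 * cg ^ 2 +
      (c1 * t) ^ 2)) + 4 * (8 + 64 * t + 8 * C * (72 * A ^ 2 + 60 * (24 * A) ^ 5 + 16 * A ^ 3))) →
      x ≤ θ ^ 2 / y := fun y y0 y1 x hx =>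
    hx.trans (div_le_div_of_nonneg_left (sq_nonneg _) y0 (by linarith))
  have ξ : |Gs D.n D.β D.M D.q s - D.q s| ≤ D.X ^ 3 :=
    H.stt R.val s (CD.mem_up.2 ⟨R.JP.trans h1, h2⟩)
  have g0 : ∀ j, 0 ≤ gg D j := fun j => by rw [gg]; split_ifs; exacts [H.X0, H.e0 j]
  have u0 : ∀ j, 0 ≤ Er D.n D.β D.M j fun u => (u - D.q j) ^ 2 := fun j => u2_eq D j ▸ D.u0 2 j
  have mc := (le_abs_self _).trans (mv_crude H.pos H.ook H.mono h2 (T.dm_top h1)
    (g := fun j => cg * gg D j) (a := fun j => √(D.u 2 j)) (v := fun j => √(D.u 4 j))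
    (sqrt_nonneg _) (fun j => mul_nonneg pg (g0 j)) (fun τ hτ _ => by
      rw [eg, mul_assoc]
      exact mul_le_mul (τ1 _) (R.site H h1 h2 hτ) (abs_nonneg _) t0)
    (sq_sqrt (u0 s)).ge (fun _ => sqrt_nonneg _) (fun y _ _ => by
      rw [sq_sqrt (D.u0 2 y), u2_eq]) (fun _ => sqrt_nonneg _) fun y _ _ => by
      rw [sq_sqrt (D.u0 4 y), u4_eq])
  have u3 : 0 ≤ Er D.n D.β D.M s fun u => |u - D.q s| ^ 3 :=
    pi2_nonneg wt_one90 _ _ (fun _ _ => by positivity) _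
  have pp : 0 ≤ pD D s := pv_nonneg wt_one90 _ _ _ _
  have r0 := R0_nonneg H
  have i0 := IU_nonneg H
  have rp := R0_parts H
  have h := T.node_le H.pos h1 h2 4 θ0 R.mu C1 (ρ := θ ^ 2 / A) (by positivity) (by
    rw [div_mul_eq_mul_div, div_le_div_iff₀ A0 (by linarith), eA]
    have := mul_le_mul_of_nonneg_left b0 (mul_nonneg (sq_nonneg θ) (show 0 ≤ C by linarith))
    linarith) (ξ.trans (hd _ (by linarith) (by linarith) _ R.X3)) R.μ0 μ1 (fun j hj =>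
      ⟨(hJ j hj).1, by
        have := hd _ (by positivity) le_rfl _ le_rfl
        rw [div_div, mul_comm A]
        linarith [(hJ j hj).2]⟩) hμ
    ((mc.trans_eq (congrArg (· + _) (add_assoc _ _ _))).trans (add_le_add le_rfl
      (mul_le_mul_of_nonneg_right (by
        have := mul_le_mul b1 (τ1 D.K) τ0' p1
        linarith) u3)))
  rw [← u2_eq] at h
  obtain ⟨s1, s2⟩ := sums H
  refine ar2 θ0 θ1 R.μ0 μ1 pp r0 i0 (by positivity) (by positivity) (by linarith) (by positivity)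
    (by positivity) h ?_ ?_
    (ar1 (by linarith) θ0 θ1 R.μ0 pp r0 (momU_le H) (Nat.cast_pos.2 H.pos) (n_le_R0 H))
  · have a1 : ∑ j ∈ Finset.range (D.K + 1), D.dx j * (cg * gg D j * √(D.u 2 j)) =
        cg * ∑ j ∈ Finset.range (D.K + 1), D.dx j * (gg D j * √(D.u 2 j)) := by
      rw [Finset.mul_sum]; exact Finset.sum_congr rfl fun j _ => by ring
    have a2 : ∑ j ∈ Finset.range (D.K + 1), D.dx j * (D.τ j * √(D.u 4 j)) ≤
        t * ∑ j ∈ Finset.range (D.K + 1), D.dx j * √(D.u 4 j) := by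
      rw [Finset.mul_sum]
      exact Finset.sum_le_sum fun j _ => (mul_le_mul_of_nonneg_left
        (mul_le_mul_of_nonneg_right (τ1 j) (sqrt_nonneg _)) (H.dx0 j)).trans_eq (by ring)
    have a3 : 0 ≤ ∑ j ∈ Finset.range (D.K + 1), D.dx j * (D.τ j * √(D.u 4 j)) :=
      Finset.sum_nonneg fun j _ => mul_nonneg (H.dx0 j) (mul_nonneg (H.tau_mem j).1 (sqrt_nonneg _))
    have a4 := pow_le_pow_left₀ (mul_nonneg b1' a3) (mul_le_mul b1 a2 a3 p1) 2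
    have a5 := pow_le_pow_left₀ (abs_nonneg _) ξ 2
    have a6 := mul_le_mul_of_nonneg_left s1 (sq_nonneg cg)
    have a7 := mul_le_mul_of_nonneg_left s2 (sq_nonneg (c1 * t))
    have a8 : 0 ≤ 1 / (D.n : ℝ) + D.tl := add_nonneg (by positivity) H.tl0
    refine (sq3 _ _ _).trans ?_
    erw [a1]
    linarith
  · have := mul_le_mul_of_nonneg_right (τ1 D.K) pp
    have := n_le_R0 H
    have := mul_nonneg t0 r0
    rw [show 2 / (D.n : ℝ) = 2 * (1 / D.n) by ring]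
    linarith

theorem u2_le (H : D.Ok τ0) {j : ℕ} (hj : j ≤ D.K) : D.u 2 j ≤ 4 :=
  (pi2_mono wt_one90 _ _ (K' := fun _ _ => 4) (fun x y => by
    have := pow_le_pow_left₀ (abs_nonneg _) (abs_oU_le H.ook hj x y) 2
    linarith) _).trans_eq (pi2_const wt_one90 _ _ _ _)

open Alt Alt.Md67 Alt.CIn12

/-- the reveal levels of the model: field steps in `[σ, 1 / m]`, at most `2 ^ K` of them -/
structure Lw (M : Md) (m j0 K : ℕ) (σ : ℝ) : Prop where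
  σ0 : 0 < σ
  lo : ∀ i, j0 ≤ i → i < M.N → σ ≤ M.H (i + 1) - M.H i
  hi : ∀ i, j0 ≤ i → i < M.N → (M.H (i + 1) - M.H i) * m ≤ 1
  tot : M.H M.N - M.H j0 ≤ 2 ^ K * σ

/-- the bound per unit of weight -/
def mvA (D : CD) (θ μ : ℝ) : ℝ := IU D / θ ^ 2 + R0 D / (μ * θ ^ 11)

/-- conclusions of MVtop: `D` is the datum of the model `M`, top part from the profile node `j0` -/
structure MVt (C : ℝ) (D : CD) (M : Md) (m : ℕ) (a : ℝ) (ρ : ℕ → ℝ) (j0 K : ℕ) (σ θ μ : ℝ) :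
    Prop where
  /-- (MV), weights on the reveal nodes -/
  sum : ∀ (c : ℕ → ℝ) (cm : ℝ), 0 ≤ cm → (∀ t ∈ Finset.Ioo (j0 + 1) D.K, 0 ≤ c t ∧ c t ≤ cm) →
    ∑ t ∈ Finset.Ioo (j0 + 1) D.K, c t * D.u 2 t ≤
      C * ((∑ t ∈ Finset.Ioo (j0 + 1) D.K, c t) * mvA D θ μ +
        4 * (K + 2) ^ 2 * (cm / (σ * m)) / (μ * θ ^ 11))
  /-- (MV), the first and the last node are free -/
  sum' : ∀ (c : ℕ → ℝ) (cm : ℝ), 0 ≤ cm → (∀ t ∈ Finset.Ico (j0 + 1) D.K, 0 ≤ c t) →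
    (∀ t, j0 + 1 < t → t + 1 < D.K → c t ≤ cm) →
    ∑ t ∈ Finset.Ico (j0 + 1) D.K, c t * D.u 2 t ≤ 4 * (c (j0 + 1) + c (D.K - 1)) +
      C * ((∑ t ∈ Finset.Ico (j0 + 1) D.K, c t) * mvA D θ μ +
        4 * (K + 2) ^ 2 * (cm / (σ * m)) / (μ * θ ^ 11))
  /-- (Vtop) -/
  top : ∀ U : ℕ, 0 < U → j0 + U < M.N → ∀ k ≤ j0 + 1, M.rb m a k ≤ ρ (j0 + U) +
    √(C * (mvA D θ μ + 4 * (K + 2) ^ 2 * (1 / (σ * m)) / (μ * θ ^ 11) / U))

/-- **MVtop** -/
theorem mvTop (τ0 : ℝ) : ∃ C, 1 ≤ C ∧ ∀ (M : Md) (m : ℕ) (a : ℝ) (ρ : ℕ → ℝ) (J : ℕ) (E : Ev)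
    (j0 K : ℕ) (σ θ μ : ℝ), Lg M m a → (cd M m a ρ J none E).Ok τ0 →
    TopD (cd M m a ρ J none E) (j0 + 1) θ μ (θ ^ 2 / C) → Lw M m j0 K σ →
    MVt C (cd M m a ρ J none E) M m a ρ j0 K σ θ μ := by
  obtain ⟨C, C1, h⟩ := mv_node τ0
  refine ⟨C, C1, fun M m a ρ J E j0 K σ θ μ G H R L => ?_⟩
  have h := h _ _ θ μ H R
  have eK := cd_K M m a ρ J none E
  have eq : ∀ k, J ≤ k → k < M.N → (cd M m a ρ J none E).q (k + 1) = ρ k := fun k h1 h2 =>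
    (qx_succ h2).trans (cq_ge h1)
  have ep : ∀ k, pD (cd M m a ρ J none E) (k + 1) = pM M m a k := fun _ => rfl
  have er := cd_rb M m a ρ J none E
  have eJ : J ≤ j0 := Nat.lt_succ_iff.1 R.JP
  have z1 : M.z j0 = 1 := (ex_succ G.toLeg j0).symm.trans R.one
  generalize cd M m a ρ J none E = D at *
  have hN : j0 < M.N := by have := R.PK; omega
  have θ0 := R.θ0
  have μ0 := R.μ0
  have C0 : 0 ≤ C := by linarith
  have A0 : 0 ≤ mvA D θ μ := by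
    have := IU_nonneg H
    have := R0_nonneg H
    rw [mvA]; positivity
  have S : ∀ (c : ℕ → ℝ) (cm : ℝ), 0 ≤ cm → (∀ t ∈ Finset.Ioo (j0 + 1) D.K, 0 ≤ c t ∧ c t ≤ cm) →
      ∑ t ∈ Finset.Ioo (j0 + 1) D.K, c t * D.u 2 t ≤
        C * ((∑ t ∈ Finset.Ioo (j0 + 1) D.K, c t) * mvA D θ μ +
          4 * (K + 2) ^ 2 * (cm / (σ * m)) / (μ * θ ^ 11)) := fun c cm c0 hc => by
    have l := legs G (c := fun k => c (k + 1)) L.σ0 hN z1 L.lo L.hi L.tot c0 fun k hk =>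
      hc _ (by rw [Finset.mem_Ioo] at hk ⊢; omega)
    have e : ∑ t ∈ Finset.Ioo (j0 + 1) D.K, c t * pD D t =
        ∑ k ∈ Finset.Ioo j0 M.N, c (k + 1) * pM M m a k := by
      rw [eK, sum_Ioo]; simp only [ep]; rfl
    refine (Finset.sum_le_sum fun t ht => mul_le_mul_of_nonneg_left
      (h t (Finset.mem_Ioo.1 ht).1 (Finset.mem_Ioo.1 ht).2) (hc t ht).1).trans ?_
    refine le_trans (le_of_eq ?_) (mul_le_mul_of_nonneg_left (add_le_add le_rfl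
      (div_le_div_of_nonneg_right (e.trans_le l) (by positivity))) C0)
    rw [Finset.sum_mul, Finset.sum_div, ← Finset.sum_add_distrib, Finset.mul_sum]
    exact Finset.sum_congr rfl fun t _ => by rw [mvA]; ring
  refine ⟨S, fun c cm c0 hc hc' => ?_, fun U U0 hU k hk => ?_⟩
  · have s := S (fun t => if t = D.K - 1 then 0 else c t) cm c0 fun t ht => by
      have := Finset.mem_Ioo.1 ht
      split_ifs with e
      exacts [⟨le_rfl, c0⟩, ⟨hc t (Finset.mem_Ico.2 ⟨this.1.le, this.2⟩), hc' t this.1 (by omega)⟩]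
    have m1 : j0 + 1 ∈ Finset.Ico (j0 + 1) D.K := Finset.mem_Ico.2 ⟨le_rfl, R.PK⟩
    have m2 : D.K - 1 ∈ Finset.Ico (j0 + 1) D.K := Finset.mem_Ico.2 ⟨by omega, by omega⟩
    have a1 := mul_le_mul_of_nonneg_left (u2_le H R.PK.le) (hc _ m1)
    have a2 := mul_le_mul_of_nonneg_left (u2_le H (Nat.sub_le D.K 1)) (hc _ m2)
    have a3 : ∑ t ∈ Finset.Ioo (j0 + 1) D.K, c t * D.u 2 t ≤ ∑ t ∈ Finset.Ioo (j0 + 1) D.K,
        (if t = D.K - 1 then 0 else c t) * D.u 2 t + c (D.K - 1) * D.u 2 (D.K - 1) := by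
      refine le_trans (le_of_eq ?_) (add_le_add le_rfl (show ∑ t ∈ Finset.Ioo (j0 + 1) D.K,
        (if t = D.K - 1 then c t * D.u 2 t else 0) ≤ _ from ?_))
      · rw [← Finset.sum_add_distrib]
        exact Finset.sum_congr rfl fun t _ => by split_ifs <;> simp
      · rw [Finset.sum_ite_eq']
        split_ifs
        exacts [le_rfl, mul_nonneg (hc _ m2) (D.u0 _ _)]
    have a4 : ∑ t ∈ Finset.Ioo (j0 + 1) D.K, (if t = D.K - 1 then 0 else c t) ≤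
        ∑ t ∈ Finset.Ico (j0 + 1) D.K, c t :=
      (Finset.sum_le_sum fun t ht => by
        split_ifs
        exacts [hc t (Finset.Ioo_subset_Ico_self ht), le_rfl]).trans
        (Finset.sum_le_sum_of_subset_of_nonneg Finset.Ioo_subset_Ico_self fun t ht _ => hc t ht)
    have a5 := mul_le_mul_of_nonneg_left (mul_le_mul_of_nonneg_right a4 A0) C0
    rw [← Finset.Ioo_insert_left R.PK, Finset.sum_insert (by simp), Finset.Ioo_insert_left R.PK]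
    linarith
  · have sub : Finset.Ioc (j0 + 1) (j0 + 1 + U) ⊆ Finset.Ioo (j0 + 1) D.K := fun t ht => by
      rw [Finset.mem_Ioc] at ht; rw [Finset.mem_Ioo]; omega
    have s := S (fun t => if t ∈ Finset.Ioc (j0 + 1) (j0 + 1 + U) then 1 else 0) 1 zero_le_one
      fun t _ => by split_ifs <;> norm_num
    simp only [ite_mul, one_mul, zero_mul, Finset.sum_ite_mem, Finset.inter_eq_right.2 sub,
      Finset.sum_const, Nat.card_Ioc, Nat.add_sub_cancel_left, nsmul_eq_mul, mul_one] at s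
    have U1 : (0 : ℝ) < U := Nat.cast_pos.2 U0
    rcases le_total (M.rb m a k) (ρ (j0 + U)) with c | c
    · exact c.trans (le_add_of_nonneg_right (sqrt_nonneg _))
    have b := Finset.card_nsmul_le_sum (Finset.Ioc (j0 + 1) (j0 + 1 + U)) (D.u 2)
      ((M.rb m a k - ρ (j0 + U)) ^ 2) fun t ht => by
        rw [Finset.mem_Ioc] at ht
        obtain ⟨i, rfl⟩ : ∃ i, t = i + 1 := ⟨t - 1, by omega⟩
        refine le_trans (pow_le_pow_left₀ (sub_nonneg.2 c) ?_ 2) (R85.del_sq_le D _)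
        have b1 := H.ook.le (show i + 1 ≤ j0 + U + 1 by omega) (show j0 + U + 1 ≤ D.K by omega)
        rw [eq (j0 + U) (by omega) hU] at b1
        rw [CD.del, er]
        linarith [rb_mono (M := M) (a := a) G.m0 (show k ≤ i by omega)]
    rw [Nat.card_Ioc, Nat.add_sub_cancel_left, nsmul_eq_mul] at b
    refine sub_le_iff_le_add'.1 (le_sqrt_of_sq_le (le_of_mul_le_mul_left ((b.trans s).trans_eq ?_) U1))
    field_simp

end Crest.Agent.T156.Cas.C40.Mv30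

end
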