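import Crest.Agent.T156.Apt_7
import Crest.Agent.T156.Wf_99
import Crest.Agent.T156.Ker_15

/-!
# Row 156: the mean-variance identity at a node of label weight zero (helper7)

The amplitude identity at one node, expanded to first order along the ONE path.
-/

set_option autoImplicit false
set_option linter.unusedSectionVars false

noncomputable section

namespace Crest.Agent.T156.Cas.Apt7

open MeasureTheory Real Set Filter Topology
open Crest.Agent.T157.E Crest.Agent.T157.Casc Crest.Agent.T157.SL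
open Crest.Agent.T157.G1 (ov fl)
open Crest.ProbabilityR.SpinGlassDynamics (spin)

section gen

variable {Ω : Type} {M : List (Lv Ω)}

theorem Nv_two (M : List (Lv Ω)) (g : ℕ → ℝ) {s : ℕ} (hs : s ≤ M.length) :
    Nv M g (Sh.two s) = 2 * g s + ∑ j ∈ Finset.range (M.length + 1), dm M 0 j * g j := by
  rw [Nv, Tay38.prs_two, Wt87.shr_comm _ (Sh.twoR s), Wt87.shr_two, min_eq_left hs]
  ring

theorem aff_two (hM : Mono 0 M) (s : ℕ) {g : ℕ → ℝ} (hg : ∀ j, 0 ≤ g j)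
    (X : (Sh.two s).Lf → ℕ → ℝ) (α β : ℝ) (hβ : 0 ≤ β)
    (hX : ∀ a j, j ≤ M.length → X a j ≤ α + β * g j) :
    ∑ a, ∑ j ∈ Finset.range (M.length + 1), cw (Sh.two s) M a j * X a j ≤
      2 * α + 2 * β * Nv M g (Sh.two s) := by
  have hc := Tay38.sum_cw_level hM hg (Sh.two s)
  have h1 := sum_cw (Sh.two s) M
  rw [Wt87.card_two] at hc h1
  refine (Finset.sum_le_sum fun a _ => Finset.sum_le_sum fun j hj => mul_le_mul_of_nonneg_left
    (hX a j (Nat.lt_succ_iff.1 (Finset.mem_range.1 hj))) (cw_nonneg _ hM a j)).trans ?_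
  simp only [mul_add, Finset.sum_add_distrib, ← Finset.sum_mul, mul_left_comm _ β,
    ← Finset.mul_sum, h1]
  have := mul_le_mul_of_nonneg_left hc hβ
  push_cast at this ⊢
  linarith

/-- the level sums of the new shapes -/
theorem sg_Nv (hM : Mono 0 M) (s : ℕ) {g : ℕ → ℝ} (hg : ∀ j, 0 ≤ g j) :
    sg 1 M (Sh.two s) (fun τ => Nv M g τ.sh) ≤ 240 * Nv M g (Sh.two s) := by
  have N0 := Tay38.Nv_nonneg hM hg (Sh.two s)
  have hd := fun j hj => Tay38.sum_dm_le hM hg (Sh.two s) (j := j) hj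
  have aff := aff_two hM s hg
  have g1 := fun a j hj => Tay38.Nv_graft hM hg (Sh.two s) a (j := j) hj
  have g2 := fun a j b k hk => Tay38.Nv_graft hM hg ((Sh.two s).graft a j) b (j := k) hk
  simp only [Wt87.card_graft, Wt87.card_two] at g1 g2
  push_cast at g1 g2
  set N := Nv M g (Sh.two s)
  have b0 : ∑ a, ∑ b ∈ Finset.univ.erase a, Nv M g (GT.g0 (Sh.two s) M.length a b).sh = 2 * N := by
    show ∑ a : (Sh.two s).Lf, ∑ b ∈ Finset.univ.erase a, N = _
    simp only [Finset.sum_const, Finset.card_erase_of_mem (Finset.mem_univ _), Finset.card_univ,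
      Wt87.card_two, nsmul_eq_mul]
    push_cast
    ring
  have b1 := aff (fun a j => ∑ b, Nv M g (GT.g1 (Sh.two s) a j b).sh +
    ∑ b, Nv M g (GT.g1' (Sh.two s) a j b).sh) (12 * N) 16 (by norm_num) fun a j hj => by
      simp only [Wt87.sum_two, GT.g1, GT.g1']
      linarith [g1 a j hj]
  have b2 := aff (fun a j => ∑ b, ∑ k ∈ Finset.range (M.length + 1), cw (Sh.two s) M b k *
      Nv M g (GT.g2 (Sh.two s) a j b k).sh + ∑ i ∈ Finset.range (M.length - j + 1),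
        dm (M.drop j) 0 i * Nv M g (GT.g3 (Sh.two s) a j i).sh) (57 * N) 30 (by norm_num)
    fun a j hj => by
      have c1 := aff (fun b k => Nv M g (GT.g2 (Sh.two s) a j b k).sh) (9 * N + 6 * g j) 12
        (by norm_num) fun b k hk => by
          simp only [GT.g2]
          linarith [g1 b k hk, g2 b k ((Sh.two s).emb b k a) j hj]
      have c2 : ∑ i ∈ Finset.range (M.length - j + 1),
          dm (M.drop j) 0 i * Nv M g (GT.g3 (Sh.two s) a j i).sh ≤
          ∑ i ∈ Finset.range (M.length - j + 1),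
            (dm (M.drop j) 0 i * (9 * N + 12 * g j) + 6 * (dm (M.drop j) 0 i * g (i + j))) :=
        Finset.sum_le_sum fun i hi => by
          have h1 : i + j ≤ M.length := by have := Finset.mem_range.1 hi; omega
          have h2 : Nv M g (GT.g3 (Sh.two s) a j i).sh ≤ 9 * N + 12 * g j + 6 * g (i + j) := by
            simp only [GT.g3]
            linarith [g1 a j hj, g2 a j ((Sh.two s).nw a j) (i + j) h1]
          have := mul_le_mul_of_nonneg_left h2 (dm_nonneg (Cav22.mono_drop j hM) i)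
          linarith
      rw [Finset.sum_add_distrib, ← Finset.sum_mul, ← Finset.mul_sum] at c2
      have c3 := mul_le_mul_of_nonneg_right (Tay38.sum_dm_one hM j (M.length - j))
        (show 0 ≤ 9 * N + 12 * g j by have := hg j; positivity)
      linarith [hd j hj]
  simp only [sg, one_mul]
  linarith

variable [Fintype Ω] {w : Ω → ℝ}

/-- the bound for `E |U₁₂| U_{pq}²`, the pair `p q` split at `y` -/
def cb (w : Ω → ℝ) (M : List (Lv Ω)) (h : Ω → ℝ) (U : ℕ → Ω → Ω → ℝ) (s : ℕ) (A : ℝ) (v : ℕ → ℝ)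
    (y : ℕ) : ℝ := if y = s then pi2 w M s (fun x x' => |U s x x'| ^ 3) h else A * v y

theorem cub (hw : Wt w) (h : Ω → ℝ) {U : ℕ → Ω → Ω → ℝ} {s : ℕ} {A : ℝ} {v : ℕ → ℝ} (hA : 0 ≤ A)
    (HA : pi2 w M s (fun x x' => U s x x' ^ 2) h ≤ A ^ 2) (v0 : ∀ y, 0 ≤ v y)
    (hv : ∀ y ≤ M.length, y ≠ s → pi2 w M y (fun x x' => U y x x' ^ 4) h ≤ v y ^ 2) {r : Sh}
    {a b p q : r.Lf} (hab : a ≠ b) (h1 : r.shr a b M.length = s) (hpq : p ≠ q) {y : ℕ}
    (h2 : r.shr p q M.length = y) :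
    TE w r M h (fun x => |U s (x a) (x b)| * U y (x p) (x q) ^ 2) ≤ cb w M h U s A v y := by
  have e1 := fun Q => Tay38.TE_pair hw Q r M h a b hab
  have e2 := fun Q => Tay38.TE_pair hw Q r M h p q hpq
  simp only [h1] at e1
  simp only [h2] at e2
  rw [cb]
  split_ifs with c
  · subst c
    refine (Law.TE_mono hw r M h (G := fun x => 1 / 3 * |U y (x a) (x b)| ^ 3 +
      2 / 3 * |U y (x p) (x q)| ^ 3) fun x => ?_).trans_eq ?_
    · rw [← sq_abs (U y (x p) (x q))]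
      have h3 := abs_nonneg (U y (x a) (x b))
      have h4 := abs_nonneg (U y (x p) (x q))
      nlinarith [mul_nonneg (sq_nonneg (|U y (x a) (x b)| - |U y (x p) (x q)|))
        (add_nonneg h3 (mul_nonneg zero_le_two h4))]
    · rw [Law.TE_add hw, Law.TE_const_mul hw, Law.TE_const_mul hw, e1 fun x x' => |U y x x'| ^ 3,
        e2 fun x x' => |U y x x'| ^ 3]
      ring
  · refine (le_abs_self _).trans (Wf99.tX_cs hw r M h (F := fun _ x => |U s (x a) (x b)|)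
      (G := fun _ x => U y (x p) (x q) ^ 2) (fun _ => Eg.const _) (fun _ => Eg.const _) hA (v0 y)
      ?_ ?_)
    · simp only [sq_abs]
      exact (e1 fun x x' => U s x x' ^ 2).trans_le HA
    · simp only [← pow_mul]
      exact (e2 fun x x' => U y x x' ^ 4).trans_le (hv y (h2 ▸ Wt87.shr_le _ _ _ _) c)

theorem emb_two {s : ℕ} (hs : s < M.length) {r : Sh} {a b : r.Lf} (h : r.shr a b M.length = s) :
    a ≠ b := fun e => by
  rw [e, Wt87.shr_self] at h
  omega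

theorem shr_e_two {s : ℕ} (hs : s < M.length) {τ : GT (Sh.two s)} (hτ : τ.Mem _ M.length) :
    τ.sh.shr (τ.e (Sh.twoL s)) (τ.e (Sh.twoR s)) M.length = s := by
  rw [hτ.shr_e, Wt87.shr_two, min_eq_left hs.le]

/-- **two more edges** -/
theorem two_edges (hw : Wt w) (hM : Mono 0 M) (h : Ω → ℝ) {U : ℕ → Ω → Ω → ℝ} {s : ℕ}
    (hs : s < M.length) {t ψ : ℕ → ℝ} {T : ℝ} (ht : ∀ j, 0 ≤ t j ∧ t j ≤ T) (ψ0 : ∀ j, 0 ≤ ψ j)
    (H : ∀ (r : Sh) (a b p q : r.Lf) (y : ℕ), r.shr a b M.length = s → p ≠ q →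
      r.shr p q M.length = y → TE w r M h (fun x => |U s (x a) (x b)| * U y (x p) (x q) ^ 2) ≤ ψ y) :
    itE 1 M (fun j x y => 3 / 2 * t j * |U j x y|) (TEf w M h) 2 (Sh.two s)
      (pr2 s fun x y => 2 * |U s x y|) ≤ 92160 * T * Nv M (fun j => t j * ψ j) (Sh.two s) := by
  have φ0 : ∀ j, 0 ≤ t j * ψ j := fun j => mul_nonneg (ht j).1 (ψ0 j)
  have T0 : 0 ≤ T := (ht 0).1.trans (ht 0).2
  have h1 := Ker15.sg_lvl hM (Sh.two s) φ0
  have h2 := sg_Nv hM s φ0
  rw [Wt87.card_two] at h1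
  refine (sg_mono zero_le_one hM _ (Ψ := fun τ => 9 / 4 * T * (64 * (t τ.j * ψ τ.j) +
    160 * Nv M (fun j => t j * ψ j) τ.sh)) fun τ hτ => ?_).trans ?_
  · have c : (Fintype.card τ.sh.Lf : ℝ) ^ 2 ≤ 16 := by
      have : (Fintype.card τ.sh.Lf : ℝ) ≤ 4 := by
        have := hτ.card
        rw [Wt87.card_two] at this
        exact_mod_cast this
      nlinarith [Tay38.one_le_card τ.sh]
    have h3 := Ker15.sg_lvl hM τ.sh φ0
    have h4 := Tay38.Nv_nonneg hM φ0 τ.sh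
    refine (sg_mono zero_le_one hM _ (Ψ := fun τ' => 9 / 4 * T * (t τ.j * ψ τ.j + t τ'.j * ψ τ'.j))
      fun τ' hτ' => ?_).trans ?_
    · have e1 := H τ.sh _ _ _ _ _ (shr_e_two hs hτ) hτ.ne hτ.shr
      have e2 := H τ'.sh (τ'.e (τ.e (Sh.twoL s))) (τ'.e (τ.e (Sh.twoR s))) _ _ _
        ((hτ'.shr_e _ _ _).trans (shr_e_two hs hτ)) hτ'.ne hτ'.shr
      rw [← hτ'.TE_e hw M h] at e1
      refine le_trans ?_ (mul_le_mul_of_nonneg_left (add_le_add
        (mul_le_mul_of_nonneg_left e1 (ht _).1) (mul_le_mul_of_nonneg_left e2 (ht _).1))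
        (by positivity))
      rw [← Law.TE_const_mul hw, ← Law.TE_const_mul hw, ← Law.TE_add hw, ← Law.TE_const_mul hw]
      refine Law.TE_mono hw _ _ _ fun x => ?_
      simp only [GT.ev, pr2]
      rw [← sq_abs (U τ.j _ _), ← sq_abs (U τ'.j _ _)]
      have a0 := abs_nonneg (U s (x (τ'.e (τ.e (Sh.twoL s)))) (x (τ'.e (τ.e (Sh.twoR s)))))
      generalize |U s (x (τ'.e (τ.e (Sh.twoL s)))) (x (τ'.e (τ.e (Sh.twoR s))))| = a at a0 ⊢
      generalize |U τ.j (x (τ'.e τ.p)) (x (τ'.e τ.q))| = b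
      generalize |U τ'.j (x τ'.p) (x τ'.q)| = d
      have k1 := mul_nonneg a0 (sq_nonneg (t τ.j * b - t τ'.j * d))
      have k2 := mul_nonneg (mul_nonneg (ht τ.j).1 (sub_nonneg.2 (ht τ.j).2))
        (mul_nonneg a0 (sq_nonneg b))
      have k3 := mul_nonneg (mul_nonneg (ht τ'.j).1 (sub_nonneg.2 (ht τ'.j).2))
        (mul_nonneg a0 (sq_nonneg d))
      nlinarith
    · rw [sg_const_mul, sg_add, sg_const]
      refine mul_le_mul_of_nonneg_left ?_ (by positivity)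
      nlinarith [mul_le_mul_of_nonneg_right c (φ0 τ.j), mul_le_mul_of_nonneg_right c h4]
  · rw [sg_const_mul, sg_add, sg_const_mul, sg_const_mul]
    push_cast at h1
    nlinarith [mul_le_mul_of_nonneg_left h1 T0, mul_le_mul_of_nonneg_left h2 T0]

/-- half the signed weight of `Z` on the edges split at `s` -/
def g1 {Θ : Type} (M : List (Lv Θ)) (s : ℕ) (Z : GT (Sh.two s) → ℝ) : ℝ :=
  sg (-1) M (Sh.two s) (fun τ => if τ.j = s then Z τ else 0) / 2

/-- half the signed weight of `d_y Z` on the edges split at `y ≠ s` -/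
def om {Θ : Type} (M : List (Lv Θ)) (s : ℕ) (Z : GT (Sh.two s) → ℝ) (d : ℕ → ℝ) : ℝ :=
  sg (-1) M (Sh.two s) (fun τ => if τ.j = s then 0 else d τ.j * Z τ) / 2

theorem old_two {s n j : ℕ} (hs : s ≤ n) (h : Wf99.Old (Sh.two s) n j) : j = s := by
  obtain ⟨a, b, hab, rfl⟩ := h
  rcases Wt87.two_cases s a with rfl | rfl <;> rcases Wt87.two_cases s b with rfl | rfl
  · exact (hab rfl).elim
  · rw [Wt87.shr_two, min_eq_left hs]
  · rw [Wt87.shr_comm, Wt87.shr_two, min_eq_left hs]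
  · exact (hab rfl).elim

/-- **the main term of order one** -/
theorem first_main (hw : Wt w) (hM : Mono 0 M) (h : Ω → ℝ) {s : ℕ} (hs : s < M.length)
    (h0 : dm M 0 s = 0) {K : Ω → Ω → ℝ} (hK : ∀ x y, K x y = K y x) {q r t g : ℕ → ℝ}
    {Z : GT (Sh.two s) → ℝ} (I : Wf99.Inv M.length Z) (hZ : ∀ τ, τ.Mem _ M.length → |Z τ| ≤ 4)
    {T A Γ : ℝ} (ht : ∀ j, 0 ≤ t j ∧ t j ≤ T) {S : Finset ℕ} (hA : 0 ≤ A) (hΓ : 0 ≤ Γ)
    (hg : ∀ j, 0 ≤ g j) (hS : ∀ j ≤ M.length, j ∉ S → g j = 0)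
    (hc : ∀ τ, τ.Mem _ M.length → τ.j ≠ s → t τ.j * |Z τ| ≤ g τ.j)
    (HA : pi2 w M s (fun x y => (K x y - q s) ^ 2) h ≤ A ^ 2)
    (HG : Eg33.GmB w M h (fun j x y => K x y - r j) S g Γ) :
    |sg (-1) M (Sh.two s) (fun τ => t τ.j / 2 * Z τ * TE w τ.sh M h
        (τ.ev (fun j x y => K x y - q j) (pr2 s fun x y => K x y - q s))) -
      (t s * g1 M s Z * pi2 w M s (fun x y => (K x y - q s) ^ 2) h +
        om M s Z (fun j => t j * (r j - q j)) * pi2 w M s (fun x y => K x y - q s) h)| ≤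
      64 * T * pv w M s K h + 28 * (A * Γ) := by
  set u2 := pi2 w M s (fun x y => (K x y - q s) ^ 2) h with hu2
  set ub := pi2 w M s (fun x y => K x y - q s) h with hub
  have e1 : ∀ τ : GT (Sh.two s), τ.Mem _ M.length → ∀ Q : Ω → Ω → ℝ, TE w τ.sh M h
      (fun x => Q (x (τ.e (Sh.twoL s))) (x (τ.e (Sh.twoR s)))) = pi2 w M s Q h := fun τ hτ Q =>
    (hτ.TE_e hw M h (pr2 s Q)).trans (Wt87.tX_two hw Q s M h)
  set D : GT (Sh.two s) → ℝ := fun τ => TE w τ.sh M h fun x =>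
    (K (x τ.p) (x τ.q) - K (x (τ.e (Sh.twoL s))) (x (τ.e (Sh.twoR s)))) ^ 2 with hD
  set c : GT (Sh.two s) → ℝ := fun τ => (if τ.j = s then 0 else t τ.j / 2) * Z τ with hcd
  have key : ∀ τ : GT (Sh.two s), τ.Mem _ M.length → t τ.j / 2 * Z τ * TE w τ.sh M h
      (τ.ev (fun j x y => K x y - q j) (pr2 s fun x y => K x y - q s)) =
      (t s * u2 / 2 * (if τ.j = s then Z τ else 0) +
        ub / 2 * (if τ.j = s then 0 else t τ.j * (r τ.j - q τ.j) * Z τ)) +
      ((if τ.j = s then -(t s / 4 * Z τ * D τ) else 0) + c τ * TE w τ.sh M h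
        (τ.ev (fun j x y => K x y - r j) (pr2 s fun x y => K x y - q s))) := fun τ hτ => by
    simp only [hcd]
    split_ifs with e
    · have a1 := e1 τ hτ fun x y => (K x y - q s) ^ 2
      have a2 := hτ.TE_pair hw h fun x y => (K x y - q s) ^ 2
      rw [e] at a2
      have a3 : TE w τ.sh M h (τ.ev (fun j x y => K x y - q j) (pr2 s fun x y => K x y - q s)) =
          u2 - D τ / 2 := by
        rw [show u2 - D τ / 2 = 1 / 2 * u2 + 1 / 2 * u2 - 1 / 2 * D τ by ring]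
        nth_rw 1 [hu2, ← a1]
        rw [hu2, ← a2, hD, ← Law.TE_const_mul hw, ← Law.TE_const_mul hw, ← Law.TE_const_mul hw,
          ← Law.TE_add hw, ← Law.TE_sub hw]
        congr 1
        funext x
        simp only [GT.ev, pr2, e]
        ring
      rw [a3, e]
      ring
    · have a3 : TE w τ.sh M h (τ.ev (fun j x y => K x y - q j) (pr2 s fun x y => K x y - q s)) =
          TE w τ.sh M h (τ.ev (fun j x y => K x y - r j) (pr2 s fun x y => K x y - q s)) +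
            (r τ.j - q τ.j) * ub := by
        rw [hub, ← e1 τ hτ, ← Law.TE_const_mul hw, ← Law.TE_add hw]
        congr 1
        funext x
        simp only [GT.ev, pr2]
        ring
      rw [a3]
      ring
  have hpv := pv_nonneg hw M s K h
  have T0 : 0 ≤ T := (ht 0).1.trans (ht 0).2
  have b1 : |sg (-1) M (Sh.two s) fun τ => if τ.j = s then -(t s / 4 * Z τ * D τ) else 0| ≤
      64 * T * pv w M s K h := by
    refine (abs_sg_le hM _ fun τ _ => le_rfl).trans ((sg_mono_two hM h0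
      (Ψ := fun _ => 4 * T * pv w M s K h) fun τ hτ hsm => ?_).trans_eq ?_)
    · split_ifs with e
      · have a1 := four hw K τ.sh M h s _ _ _ _ (emb_two hs (shr_e_two hs hτ)) hτ.ne
          (shr_e_two hs hτ) (hτ.shr.trans e) (hsm e)
        have a2 : 0 ≤ D τ := (Law.TE_const hw _ _ _ 0).symm.trans_le
          (Law.TE_mono hw _ _ _ fun x => sq_nonneg _)
        rw [abs_neg, abs_mul, abs_mul, abs_of_nonneg a2,
          abs_of_nonneg (div_nonneg (ht s).1 (by norm_num))]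
        calc _ ≤ T / 4 * 4 * (4 * pv w M s K h) :=
              mul_le_mul (mul_le_mul (by linarith [(ht s).2]) (hZ τ hτ) (abs_nonneg _)
                (by positivity)) a1 a2 (by positivity)
          _ = _ := by ring
      · rw [abs_zero]; positivity
    · rw [sg_const, Wt87.card_two]; push_cast; ring
  have b2 := Wf99.sg_gm hw hM rfl h (K := fun j x y => K x y - r j) (fun j x y => by rw [hK])
    (pr2 s fun x y => K x y - q s) (c := c)
    ((Wf99.inv_lev _ _ fun j => if j = s then 0 else t j / 2).mul I) (B := 1 / 2) (α := 0)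
    (by norm_num) hA hΓ le_rfl hg hS (fun τ hτ => by
      simp only [hcd]
      split_ifs with e
      · rw [zero_mul, abs_zero]; linarith [hg τ.j]
      · rw [abs_mul, abs_of_nonneg (div_nonneg (ht _).1 zero_le_two)]
        linarith [hc τ hτ e])
    ((Wt87.tX_two hw (fun x y => (K x y - q s) ^ 2) s M h).trans_le HA) HG fun τ _ ho => by
      simp only [hcd, if_pos (old_two hs.le ho), zero_mul, abs_zero, le_refl]
  rw [Wt87.card_two] at b2
  push_cast at b2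
  rw [sg_congr _ _ _ key, sg_add, sg_add, sg_add, sg_const_mul, sg_const_mul, g1, om]
  rw [abs_le] at b1 b2 ⊢
  constructor <;> linarith [b1.1, b1.2, b2.1, b2.2]

end gen

variable {n : ℕ} {β : ℝ} {M : List (ℝ × ℝ × ℝ)} {q : ℕ → ℝ}

/-- the site factor `E η₁₂ η_{pq}` -/
def Zs (n : ℕ) (β : ℝ) (M : List (ℝ × ℝ × ℝ)) (q : ℕ → ℝ) (s : ℕ) (τ : GT (Sh.two s)) : ℝ :=
  TE (fun _ => 1) τ.sh (opS n β M q) 0 (τ.ev (oE q) (pr2 s (oE q s)))

theorem inv_Zs (s k : ℕ) : Wf99.Inv k (Zs n β M q s) :=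
  Wf99.inv_TE wt_one90 _ _ _ (fun _ _ _ => by rw [oE, oE, mul_comm]) _ k

theorem abs_Zs (H : OOk M q) {s : ℕ} (hs : s ≤ M.length) {τ : GT (Sh.two s)}
    (hτ : τ.Mem _ M.length) : |Zs n β M q s τ| ≤ 4 := by
  refine (abs_TE_le' wt_one90 _ _ _ (F' := fun _ => 2 * 2) fun x => ?_).trans_eq
    ((Law.TE_const wt_one90 _ _ _ _).trans (by norm_num))
  rw [GT.ev, abs_mul]
  exact mul_le_mul (abs_oE_le H hs _ _) (abs_oE_le H hτ.le _ _) (abs_nonneg _) zero_le_two

theorem mv_zero (hn : 0 < n) (H : OOk M q) (s : ℕ) :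
    iDn (fun _ => 1) (opL n β M q) 0 0 (Sh.two s) (pr2 s fun x y =>
      (oE q s x.2 y.2 - oU q s x.1 y.1) * oU q s x.1 y.1) 0 =
      (Gs n β M q s - q s) * Er n β M s (fun u => u - q s) - Er n β M s fun u => (u - q s) ^ 2 := by
  rw [iDn_pr2 wt_one90]
  have a1 := pi2_op_zero (β := β) hn H 0 0 s (oU q s) (oE q s)
  have a2 := pi2_op_zero (β := β) hn H 0 0 s (fun x y => oU q s x y ^ 2) fun _ _ => 1
  rw [Law.ad_zero] at a1 a2
  rw [pi2_const wt_one90] at a2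
  simp only [mul_one] at a2
  have a3 : pi2 (fun _ => 1) (opS n β M q) s (oE q s) 0 = Gs n β M q s - q s := by
    rw [Gs, ← pi2_const wt_one90 (opS n β M q) s (q s) 0, ← pi2_sub wt_one90]
    rfl
  rw [a3] at a1
  simp only [sub_mul (oE _ _ _ _), pi2_sub wt_one90, ← sq, mul_comm (oE _ _ _ _)]
  rw [mul_comm (_ - _)]
  exact congrArg₂ (· - ·) a1 a2

theorem rest_pt {e e' a b t : ℝ} (k1 : |e| ≤ 2) (k2 : |e'| ≤ 2) (k3 : |b| ≤ 2) (ht : 0 ≤ t) :
    |(e - a) * a * (1 / 2 * (t * (e' * b - b ^ 2 / 2))) - t / 2 * (a * b * (e * e'))| ≤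
      t * (3 / 4 * |a| ^ 3 + 5 / 4 * (|a| * b ^ 2)) := by
  rw [show (e - a) * a * (1 / 2 * (t * (e' * b - b ^ 2 / 2))) - t / 2 * (a * b * (e * e')) =
    t * (a * b * (-(e / 4) * b + a * (b / 4 - e' / 2))) by ring, abs_mul, abs_of_nonneg ht]
  refine mul_le_mul_of_nonneg_left ?_ ht
  have k4 : |-(e / 4) * b + a * (b / 4 - e' / 2)| ≤ 1 / 2 * |b| + |a| * (3 / 2) := by
    rw [abs_le] at k1 k2 k3
    refine (abs_add_le _ _).trans (add_le_add ?_ ?_) <;> rw [abs_mul]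
    · exact mul_le_mul_of_nonneg_right (abs_le.2 ⟨by linarith, by linarith⟩) (abs_nonneg _)
    · exact mul_le_mul_of_nonneg_left (abs_le.2 ⟨by linarith, by linarith⟩) (abs_nonneg _)
  rw [abs_mul, abs_mul, ← sq_abs b]
  refine (mul_le_mul_of_nonneg_left k4 (by positivity)).trans ?_
  nlinarith [mul_nonneg (abs_nonneg a) (sq_nonneg (|a| - |b|))]

/-- `ψ y` bounds `E |U₁₂| U_{pq}²` -/
def Cu (n : ℕ) (β : ℝ) (M : List (ℝ × ℝ × ℝ)) (q : ℕ → ℝ) (s : ℕ) (ψ : ℕ → ℝ) : Prop :=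
  (∀ j, 0 ≤ ψ j) ∧ ∀ (r : Sh) (a b p q' : r.Lf) (y : ℕ), r.shr a b (M.map (mxL n β)).length = s →
    p ≠ q' → r.shr p q' (M.map (mxL n β)).length = y → TE (fun _ => 1) r (M.map (mxL n β)) 0
      (fun x => |oU q s (x a) (x b)| * oU q y (x p) (x q') ^ 2) ≤ ψ y

theorem mv_one (hn : 0 < n) (H : OOk M q) (hM : Mono 0 (M.map (mxL n β))) {s : ℕ}
    (hs : s < M.length) {ψ : ℕ → ℝ} (C : Cu n β M q s ψ) :
    |iDn (fun _ => 1) (opL n β M q) 0 1 (Sh.two s) (pr2 s fun x y =>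
        (oE q s x.2 y.2 - oU q s x.1 y.1) * oU q s x.1 y.1) 0 -
      sg (-1) (M.map (mxL n β)) (Sh.two s) fun τ => oTau n β M τ.j / 2 * Zs n β M q s τ *
        TE (fun _ => 1) τ.sh (M.map (mxL n β)) 0
          (τ.ev (fun j x y => ov x y - q j) (pr2 s fun x y => ov x y - q s))| ≤
      12 * oTau n β M M.length * Er n β M s (fun u => |u - q s| ^ 3) +
        50 * Nv (M.map (mxL n β)) (fun j => oTau n β M j * ψ j) (Sh.two s) := by
  have hl : (M.map (mxL n β)).length = M.length := List.length_map _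
  have ht := H.oTau_le n β
  have u0 : 0 ≤ Er n β M s fun u => |u - q s| ^ 3 :=
    pi2_nonneg wt_one90 _ _ (fun _ _ => by positivity) _
  rw [iDn_op hn H]
  show |sg (-1) (M.map (mxL n β)) (Sh.two s) _ - _| ≤ _
  rw [← sg_sub]
  refine (abs_sg_le hM _ (Ψ := fun τ => 3 / 4 * oTau n β M M.length *
    Er n β M s (fun u => |u - q s| ^ 3) + 5 / 4 * (oTau n β M τ.j * ψ τ.j)) fun τ hτ => ?_).trans ?_
  · have a1 := TE_op_zero (β := β) hn H 0 0 τ.sh (τ.ev (oU q) (pr2 s (oU q s)))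
      (τ.ev (oE q) (pr2 s (oE q s)))
    rw [Law.ad_zero] at a1
    have a2 := C.2 τ.sh _ _ _ _ _ (shr_e_two (hl.symm ▸ hs) hτ) hτ.ne hτ.shr
    have a3 : TE (fun _ => 1) τ.sh (M.map (mxL n β)) 0 (fun x => |oU q s (x (τ.e (Sh.twoL s)))
        (x (τ.e (Sh.twoR s)))| ^ 3) = Er n β M s fun u => |u - q s| ^ 3 :=
      (hτ.TE_e wt_one90 _ 0 (pr2 s fun x y => |oU q s x y| ^ 3)).trans
        (Wt87.tX_two wt_one90 (fun x y => |oU q s x y| ^ 3) s _ 0)
    have a4 := mul_le_mul_of_nonneg_right (ht τ.j).2 u0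
    have a5 := mul_le_mul_of_nonneg_left a2 (ht τ.j).1
    show |TE _ τ.sh (op n β M q 0) 0 _ - _ * Zs n β M q s τ *
      TE _ τ.sh (M.map (mxL n β)) 0 (τ.ev (oU q) (pr2 s (oU q s)))| ≤ _
    rw [mul_assoc, Zs, mul_comm (TE _ _ (opS n β M q) _ _), ← a1, ← Law.TE_const_mul wt_one90,
      ← Law.TE_sub wt_one90]
    refine le_trans ?_ (show oTau n β M τ.j * (3 / 4 * Er n β M s (fun u => |u - q s| ^ 3) +
      5 / 4 * TE (fun _ => 1) τ.sh (M.map (mxL n β)) 0 fun x => |oU q s (x (τ.e (Sh.twoL s)))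
        (x (τ.e (Sh.twoR s)))| * oU q τ.j (x τ.p) (x τ.q) ^ 2) ≤ _ by linarith)
    rw [← a3, ← Law.TE_const_mul wt_one90, ← Law.TE_const_mul wt_one90, ← Law.TE_add wt_one90,
      ← Law.TE_const_mul wt_one90, ← TE_op_fst hn H]
    refine abs_TE_le' wt_one90 _ _ _ fun x => ?_
    simp only [GT.ev, pr2, tens, ← oD_tK, oD]
    exact rest_pt (abs_oE_le H hs.le _ _) (abs_oE_le H (hl ▸ hτ.le) _ _)
      (abs_oU_le H (hl ▸ hτ.le) _ _) (ht _).1
  · have := Ker15.sg_lvl hM (Sh.two s) fun j => mul_nonneg (ht j).1 (C.1 j)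
    rw [sg_add, sg_const, sg_const_mul]
    rw [Wt87.card_two] at this ⊢
    push_cast at this ⊢
    linarith

theorem mv_two (hn : 0 < n) (H : OOk M q) (hM : Mono 0 (M.map (mxL n β))) {s : ℕ}
    (hs : s < M.length) {ψ : ℕ → ℝ} (C : Cu n β M q s ψ) {θ : ℝ} (hθ : θ ∈ Icc (0 : ℝ) 1) :
    |iDn (fun _ => 1) (opL n β M q) 0 2 (Sh.two s) (pr2 s fun x y =>
        (oE q s x.2 y.2 - oU q s x.1 y.1) * oU q s x.1 y.1) θ| ≤
      92160 * oTau n β M M.length * exp (468 * oTau n β M M.length) *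
        Nv (M.map (mxL n β)) (fun j => oTau n β M j * ψ j) (Sh.two s) := by
  have ht := H.oTau_le n β
  refine (abs_iDn_op_le hn H hM hθ (N := 6) (by rw [Wt87.card_two])
    (G := pr2 s fun x y => 2 * |oU q s x y|) fun x => ?_).trans ?_
  · simp only [pr2]
    rw [abs_mul]
    refine mul_le_mul_of_nonneg_right ?_ (abs_nonneg _)
    rw [oE, oU, sub_sub_sub_cancel_right]
    exact abs_ee_ov _ _ _ _
  · rw [show (2 * ((6 : ℕ) : ℝ) ^ 2 + (6 : ℕ)) * (6 * oTau n β M M.length) =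
      468 * oTau n β M M.length by push_cast; ring]
    exact (mul_le_mul_of_nonneg_left (two_edges wt_one90 hM 0 (by rwa [List.length_map]) ht C.1 C.2)
      (exp_pos _).le).trans_eq (by ring)

/-- the constant of **mv** -/
def cM (n : ℕ) (β : ℝ) (M : List (ℝ × ℝ × ℝ)) : ℝ :=
  50 + 92160 * oTau n β M M.length * exp (468 * oTau n β M M.length)

/-- **(MV)** at a node of label weight zero -/
theorem mv (hn : 0 < n) (H : OOk M q) (hM : Mono 0 (M.map (mxL n β))) {s : ℕ} (hs : s < M.length)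
    (h0 : dm (M.map (mxL n β)) 0 s = 0) {r g v : ℕ → ℝ} {A Γ : ℝ} {S : Finset ℕ} (hA : 0 ≤ A)
    (hΓ : 0 ≤ Γ) (hg : ∀ j, 0 ≤ g j) (hS : ∀ j ≤ M.length, j ∉ S → g j = 0)
    (hc : ∀ τ : GT (Sh.two s), τ.Mem _ M.length → τ.j ≠ s →
      oTau n β M τ.j * |Zs n β M q s τ| ≤ g τ.j)
    (HA : Er n β M s (fun u => (u - q s) ^ 2) ≤ A ^ 2)
    (HG : Eg33.GmB (fun _ => 1) (M.map (mxL n β)) 0 (fun j x y => ov x y - r j) S g Γ)
    (v0 : ∀ y, 0 ≤ v y) (hv : ∀ y ≤ M.length, y ≠ s → Er n β M y (fun u => (u - q y) ^ 4) ≤ v y ^ 2) :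
    |(1 - oTau n β M s * g1 (M.map (mxL n β)) s (Zs n β M q s)) * Er n β M s (fun u => (u - q s) ^ 2) -
      (Gs n β M q s - q s + om (M.map (mxL n β)) s (Zs n β M q s)
        fun j => oTau n β M j * (r j - q j)) * Er n β M s fun u => u - q s| ≤
      2 / n + 64 * oTau n β M M.length * pv (fun _ => 1) (M.map (mxL n β)) s ov 0 + 28 * (A * Γ) +
      cM n β M * (3 * oTau n β M M.length * Er n β M s (fun u => |u - q s| ^ 3) +
        A * ∑ j ∈ Finset.range (M.length + 1),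
          dm (M.map (mxL n β)) 0 j * (oTau n β M j * v j)) := by
  have hl : (M.map (mxL n β)).length = M.length := List.length_map _
  have ht := H.oTau_le n β
  have u0 : 0 ≤ Er n β M s fun u => |u - q s| ^ 3 :=
    pi2_nonneg wt_one90 _ _ (fun _ _ => by positivity) _
  obtain ⟨ψ, hψ⟩ : ∃ ψ, ψ = cb (fun _ => 1) (M.map (mxL n β)) 0 (oU q) s A v := ⟨_, rfl⟩
  have ψs : ψ s = Er n β M s fun u => |u - q s| ^ 3 := hψ ▸ if_pos rfl
  have HA' : pi2 (fun _ => 1) (M.map (mxL n β)) s (fun x x' => oU q s x x' ^ 2) 0 ≤ A ^ 2 := HA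
  have hv' : ∀ y ≤ (M.map (mxL n β)).length, y ≠ s →
      pi2 (fun _ => 1) (M.map (mxL n β)) y (fun x x' => oU q y x x' ^ 4) 0 ≤ v y ^ 2 :=
    fun y hy => hv y (hl ▸ hy)
  have C : Cu n β M q s ψ := by
    refine ⟨fun j => ?_, fun r a b p q' y h1 h2 h3 => ?_⟩ <;> rw [hψ]
    · rw [cb]
      split_ifs
      · exact u0
      · exact mul_nonneg hA (v0 j)
    · exact cub (U := oU q) wt_one90 0 hA HA' v0 hv' (emb_two (hs.trans_eq hl.symm) h1) h1 h2 h3
  have eN : Nv (M.map (mxL n β)) (fun j => oTau n β M j * ψ j) (Sh.two s) ≤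
      2 * oTau n β M M.length * Er n β M s (fun u => |u - q s| ^ 3) +
      A * ∑ j ∈ Finset.range (M.length + 1), dm (M.map (mxL n β)) 0 j * (oTau n β M j * v j) := by
    rw [Nv_two _ _ (hl.symm ▸ hs.le), hl, ψs, Finset.mul_sum]
    refine add_le_add (by nlinarith [(ht s).2]) (le_of_eq (Finset.sum_congr rfl fun j _ => ?_))
    by_cases e : j = s
    · rw [e, h0, zero_mul, zero_mul, mul_zero]
    · rw [hψ, cb, if_neg e]; ring
  have h1 := Cav22.taylor_le (f := fun k => iDn (fun _ => 1) (opL n β M q) 0 k (Sh.two s)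
    (pr2 s fun x y => (oE q s x.2 y.2 - oU q s x.1 y.1) * oU q s x.1 y.1))
    (fun k => continuousOn_iDn wt_one90 _ _ k _ _)
    (fun k _ hθ => hasDerivAt_iDn wt_one90 _ _ (iD_op_diag hn H) hθ k _ _)
    (T := 1) ⟨zero_le_one, le_rfl⟩ 1 fun θ hθ => mv_two hn H hM hs C hθ
  have h3 := abs_amp_op (β := β) hn H s
  rw [op, ← iDn_pr2 wt_one90] at h3
  have h4 := first_main wt_one90 hM 0 (hl.symm ▸ hs) h0 (K := ov) ov_comm (q := q) (r := r)
    (inv_Zs s _) (fun τ hτ => abs_Zs (n := n) (β := β) H hs.le (hl ▸ hτ)) ht hA hΓ hg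
    (fun j hj => hS j (hl ▸ hj)) (fun τ hτ => hc τ (hl ▸ hτ)) HA HG
  have h5 := mv_one hn H hM hs C
  simp only [Finset.sum_range_succ, Finset.range_zero, Finset.sum_empty, zero_add, one_pow, mul_one,
    Nat.factorial_zero, Nat.factorial_one, Nat.cast_one, div_one, mv_zero hn H] at h1
  have T0 := (ht M.length).1
  have c0 : 0 ≤ 92160 * oTau n β M M.length * exp (468 * oTau n β M M.length) := by positivity
  have c1 := mul_le_mul_of_nonneg_left eN (add_nonneg (show (0 : ℝ) ≤ 50 by norm_num) c0)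
  have c3 := mul_nonneg T0 u0
  have c2 := mul_nonneg c0 c3
  rw [cM]
  simp only [Er] at h1 h5 c1 c2 c3 ⊢
  generalize 92160 * oTau n β M M.length * exp (468 * oTau n β M M.length) = c at h1 c1 c2 ⊢
  rw [abs_le] at h1 h3 h4 h5 ⊢
  constructor <;> linarith [h1.1, h1.2, h3.1, h3.2, h4.1, h4.2, h5.1, h5.2]

/-! ### parity of the site factor -/

theorem r1_opS (H : OOk M q) : Ker15.R1 (opS n β M q) := Ker15.r1_of (C.forall₂_sl spin (opV_nn H))

theorem tm_opS (H : OOk M q) {j : ℕ} (hj : j ≤ M.length) :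
    Ker15.tm (opS n β M q) j = oTau n β M j * q j + fAcc M j :=
  (Ker15.tm_eq (C.forall₂_sl spin (opV_nn H)) j).trans (opV_acc hj)

theorem odd_low {s m : ℕ} {τ : GT (Sh.two s)} (hτ : τ.Mem _ m) (hj : τ.j < s) (hm : τ.j < m)
    (k : ℕ) : Odd (One15.bd τ.sh (Ker15.kk τ fun _ => k) τ.p τ.j) := by
  have h1 := Ker15.sum_pk τ.e (fun _ => k) fun c => τ.sh.shr τ.p c (τ.j + 1) = τ.j + 1
  have h2 : ∀ (p : τ.sh.Lf) (P : τ.sh.Lf → Prop) [DecidablePred P],
      ∑ c, (if P c then (Pi.single p 1 : τ.sh.Lf → ℕ) c else 0) = if P p then 1 else 0 :=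
    fun p P _ => by rw [Finset.sum_eq_single p (fun b _ hb => by simp [hb]) (by simp)]; simp
  have h3 : τ.sh.shr (τ.e (Sh.twoL s)) (τ.e (Sh.twoR s)) (τ.j + 1) = τ.j + 1 := by
    rw [hτ.shr_e, Wt87.shr_two]; omega
  have h4 := Wt87.shr_min τ.sh τ.p τ.q (τ.j + 1) m
  rw [min_eq_left hm, hτ.shr] at h4
  simp only [One15.bd, Ker15.kk, Pi.add_apply, ite_add_zero, Finset.sum_add_distrib, h1, h2,
    Wt87.sum_two, Wt87.shr_congr τ.sh h3, Wt87.shr_self, if_true]
  rw [if_neg (show ¬ τ.sh.shr τ.p τ.q (τ.j + 1) = τ.j + 1 by omega), add_zero, ← two_mul]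
  exact odd_two_mul_add_one _

/-- **below the node the site factor is small** -/
theorem abs_Zs_low (H : OOk M q) (hM : Mono 0 (M.map (mxL n β))) {s : ℕ} (hs : s ≤ M.length)
    {τ : GT (Sh.two s)} (hτ : τ.Mem _ M.length) (hj : τ.j < s) {σ : ℝ} (h0 : 0 < σ)
    (hσ : oTau n β M τ.j * q τ.j + fAcc M τ.j ≤ σ) :
    |Zs n β M q s τ| ≤ 2 * Ker15.PB 4 σ + 2 * q τ.j := by
  have p := fun k => Ker15.par1 (r1_opS (n := n) (β := β) H) (Cav22.mono_tilt tilt_opS.symm hM) τ.sh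
    _ (N := 4) (hτ.card.trans_eq (by rw [Wt87.card_two])) (odd_low hτ hj (hj.trans_le hs) k) h0
    ((tm_opS H hτ.le).trans_le hσ)
  have e : Zs n β M q s τ =
      TE (fun _ => 1) τ.sh (opS n β M q) 0 (One15.mo (Ker15.kk τ fun _ => 1)) -
      q s * TE (fun _ => 1) τ.sh (opS n β M q) 0 (One15.mo (Ker15.kk τ fun _ => 0)) -
      q τ.j * TE (fun _ => 1) τ.sh (opS n β M q) 0 fun x =>
        oE q s (x (τ.e (Sh.twoL s))) (x (τ.e (Sh.twoR s))) := by
    rw [Zs, ← Law.TE_const_mul wt_one90, ← Law.TE_const_mul wt_one90, ← Law.TE_sub wt_one90,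
      ← Law.TE_sub wt_one90]
    congr 1
    funext x
    simp only [GT.ev, pr2, oE, Ker15.kk, One15.mo_add, One15.mo_single, ← Ker15.mo_pk]
    simp only [One15.mo, pow_zero, pow_one, Finset.prod_const_one]
    rw [show ∏ a, spin (x (τ.e a)) = spin (x (τ.e (Sh.twoL s))) * spin (x (τ.e (Sh.twoR s))) from
      Wt87.sum_two (M := Additive ℝ) s fun a => Additive.ofMul (spin (x (τ.e a)))]
    ring
  have b : |TE (fun _ => 1) τ.sh (opS n β M q) 0 fun x =>
      oE q s (x (τ.e (Sh.twoL s))) (x (τ.e (Sh.twoR s)))| ≤ 2 :=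
    (abs_TE_le' wt_one90 _ _ _ (F' := fun _ => 2) fun x => abs_oE_le H hs _ _).trans_eq
      (Law.TE_const wt_one90 _ _ _ _)
  have q1 := H.mem hs
  have q2 := H.mem hτ.le
  rw [e]
  refine (abs_sub _ _).trans (add_le_add ((abs_sub _ _).trans ?_) ?_)
  · rw [abs_mul, abs_of_nonneg q1.1]
    have := mul_le_mul q1.2 (p 0) (abs_nonneg _) zero_le_one
    linarith [p 1]
  · rw [abs_mul, abs_of_nonneg q2.1, mul_comm 2]
    exact mul_le_mul_of_nonneg_left b q2.1

end Crest.Agent.T156.Cas.Apt7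

end
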