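import Crest.Agent.T156.LowB_51
import Crest.Agent.T156.Swp_99

/-!
# Row 156 (helper51): programs of edges inside the clusters

`PW` places edges whose two ends lie in one cluster; `PW_SK` evaluates it cluster by cluster.
-/

set_option autoImplicit false
set_option linter.unusedSectionVars false
set_option linter.unusedVariables false

noncomputable section

namespace Crest.Agent.T156.Cas

open MeasureTheory Real Set Filter Topology
open Crest.Agent.T157.E Crest.Agent.T157.Casc Crest.Agent.T157.SL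
open Wt87 (shr_emb shr_nw shr_nw' shr_self shr_comm shr_le shr_congr card_graft graft_cases)
open Leg51

namespace MxU51

open Low51 hiding Eg

variable {S Θ ι ι' : Type} {ε : ℝ} {i c : ℕ}

/-- the graft level is counted from the cut -/
def sh (n : ℕ) : Md → Md
  | .fix => .fix
  | .leg => .leg
  | .gr k => .gr (k + n)

/-- an edge inside one cluster -/
structure Ins (S : Type) where
  op : Md
  oq : Md
  K : ℕ → S → S → ℝ

/-- place one edge in the cluster of `a`; the kernel sees the level plus `c` -/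
def Pg (ε : ℝ) (i c : ℕ) (M : List (Lv Θ)) (a : ι) (d : Ins S) (Ψ : MF ι S) : MF ι S :=
  fun s e F => lgm ε i M (sh i d.oq) s (e a) fun s1 e1 q =>
    lgm ε i M (sh i d.op) s1 (e1 (e a)) fun s2 e2 p => Ψ s2 (fun x => e2 (e1 (e x))) fun x =>
      F (fun b => x (e2 (e1 b))) * d.K (s2.shr p (e2 q) M.length + c) (x p) (x (e2 q))

/-- a program -/
def PW (ε : ℝ) (i c : ℕ) (M : List (Lv Θ)) (W : List (ι × Ins S)) (Ψ : MF ι S) : MF ι S :=
  W.foldr (fun p => Pg ε i c M p.1 p.2) Ψ

theorem PW_cons (M : List (Lv Θ)) (p : ι × Ins S) (W : List (ι × Ins S)) (Ψ : MF ι S) :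
    PW ε i c M (p :: W) Ψ = Pg ε i c M p.1 p.2 (PW ε i c M W Ψ) := rfl

theorem PW_append (M : List (Lv Θ)) (W W' : List (ι × Ins S)) (Ψ : MF ι S) :
    PW ε i c M (W ++ W') Ψ = PW ε i c M W (PW ε i c M W' Ψ) := List.foldr_append

theorem lgm_step (l : Lv Θ) (M : List (Lv Θ)) (o : Md) (s : Sh) (a : s.Lf)
    (Ψ : ∀ s' : Sh, ((Sh.step s).Lf → s'.Lf) → s'.Lf → ℝ) :
    lgm ε (i + 1) (l :: M) (sh (i + 1) o) (.step s) a Ψ =
      lgm ε i M (sh i o) s a fun s' e c => Ψ (.step s') e c := by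
  cases o
  · rfl
  · exact lg_step l M s a Ψ
  · rfl

theorem lgm_inl (M : List (Lv Θ)) (o : Md) (s t : Sh) (a : s.Lf)
    (Ψ : ∀ s' : Sh, ((Sh.split s t).Lf → s'.Lf) → s'.Lf → ℝ) :
    lgm ε i M o (.split s t) (.inl a) Ψ =
      lgm ε i M o s a fun s' e c => Ψ (.split s' t) (Sum.map e id) (.inl c) := by
  cases o
  · exact congrArg (fun e => Ψ (.split s t) e (.inl a)) Sum.map_id_id.symm
  · exact lg_inl M s t a Ψ
  · rfl

theorem lgm_inr (M : List (Lv Θ)) (o : Md) (s t : Sh) (a : t.Lf)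
    (Ψ : ∀ s' : Sh, ((Sh.split s t).Lf → s'.Lf) → s'.Lf → ℝ) :
    lgm ε i M o (.split s t) (.inr a) Ψ =
      lgm ε i M o t a fun t' e c => Ψ (.split s t') (Sum.map id e) (.inr c) := by
  cases o
  · exact congrArg (fun e => Ψ (.split s t) e (.inr a)) Sum.map_id_id.symm
  · exact lg_inr M s t a Ψ
  · rfl

theorem lgm_one (l : Lv Θ) (M : List (Lv Θ)) (o : Md) (a : Sh.one.Lf)
    {Ψ : ∀ s' : Sh, (Sh.one.Lf → s'.Lf) → s'.Lf → ℝ} (h : Ψ .one id a = Ψ (.step .one) id a) :
    lgm ε (i + 1) (l :: M) (sh (i + 1) o) .one a Ψ =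
      lgm ε (i + 1) (l :: M) (sh (i + 1) o) (.step .one) a Ψ := by
  cases o
  · exact h
  · refine (lg_eq (l :: M) .one a _).trans (Eq.trans ?_ (lg_eq (l :: M) (.step .one) a _).symm)
    refine Finset.sum_congr rfl fun b _ => if_congr (iff_of_true rfl (shr_self (.step .one) b _))
      (ac h (mc (Finset.sum_congr rfl fun k hk => ?_))) rfl
    obtain ⟨k, rfl⟩ := Nat.exists_eq_succ_of_ne_zero
      (show k ≠ 0 by have := (Finset.mem_Ioc.1 hk).1; omega)
    exact congrArg₂ (· * ·) (cf_one_step l M b _) rfl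
  · rfl

theorem lgm_mul' (M : List (Lv Θ)) (o : Md) (s : Sh) (a : s.Lf) (r : ℝ)
    (Ψ : ∀ s' : Sh, (s.Lf → s'.Lf) → s'.Lf → ℝ) :
    lgm ε i M o s a (fun s' e c => Ψ s' e c * r) = lgm ε i M o s a Ψ * r := by
  simp only [mul_comm _ r, lgm_mul]

theorem PW_one_step (l : Lv Θ) (M : List (Lv Θ)) {Λ : Fn S}
    (h : ∀ F, Λ .one F = Λ (.step .one) F) : ∀ (W : List (ι × Ins S)) (e : ι → Sh.one.Lf)
    (F : (Sh.one.Lf → S) → ℝ), PW ε (i + 1) c (l :: M) W (cst Λ) .one e F =
      PW ε (i + 1) c (l :: M) W (cst Λ) (.step .one) e F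
  | [], _, F => h F
  | p :: W, e, F => lgm_one l M _ (e p.1) (lgm_one l M _ (e p.1) ((PW_one_step l M h W e _).trans
      (congrArg (PW ε (i + 1) c (l :: M) W (cst Λ) (.step .one) e) (funext fun x =>
        congrArg (fun k => _ * p.2.K (k + c) (x (e p.1)) (x (e p.1)))
          ((shr_self .one (e p.1) _).trans (shr_self (.step .one) (e p.1) _).symm)))))

theorem PW_split (M : List (Lv Θ)) {Λ : Fn S} (h : ∀ s t F G, Λ (.split s t)
      (fun x => F (fun a => x (.inl a)) * G fun a => x (.inr a)) = Λ s F * Λ t G) :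
    ∀ (W : List ((ι ⊕ ι') × Ins S)) (s t : Sh) (e : ι → s.Lf) (e' : ι' → t.Lf)
      (F : (s.Lf → S) → ℝ) (G : (t.Lf → S) → ℝ),
      PW ε i c M W (cst Λ) (.split s t) (Sum.map e e')
          (fun x => F (fun a => x (.inl a)) * G fun a => x (.inr a)) =
        PW ε i c M (lft W) (cst Λ) s e F * PW ε i c M (rgt W) (cst Λ) t e' G
  | [], s, t, _, _, F, G => h s t F G
  | (.inl a, d) :: W, s, t, e, e', F, G => by
      refine (lgm_inl M _ s t (e a) _).trans (Eq.trans ?_
        (lgm_mul' M (sh i d.oq) s (e a) (PW ε i c M (rgt W) (cst Λ) t e' G) _))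
      refine congrArg (lgm ε i M _ s _) (funext fun s1 => funext fun e1 => funext fun q => ?_)
      refine (lgm_inl M _ s1 t (e1 (e a)) _).trans (Eq.trans ?_
        (lgm_mul' M (sh i d.op) s1 (e1 (e a)) (PW ε i c M (rgt W) (cst Λ) t e' G) _))
      refine congrArg (lgm ε i M _ s1 _) (funext fun s2 => funext fun e2 => funext fun p => ?_)
      refine Eq.trans ?_ (PW_split M h W s2 t (fun x => e2 (e1 (e x))) e' (fun x =>
        F (fun b => x (e2 (e1 b))) * d.K (s2.shr p (e2 q) M.length + c) (x p) (x (e2 q))) G)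
      exact congrArg₂ (PW ε i c M W (cst Λ) (.split s2 t)) (funext fun x => by cases x <;> rfl)
        (funext fun x => mul_right_comm _ _ _)
  | (.inr a, d) :: W, s, t, e, e', F, G => by
      refine (lgm_inr M _ s t (e' a) _).trans (Eq.trans ?_
        (lgm_mul (sh i d.oq) t (e' a) (PW ε i c M (lft W) (cst Λ) s e F) _))
      refine congrArg (lgm ε i M _ t _) (funext fun s1 => funext fun e1 => funext fun q => ?_)
      refine (lgm_inr M _ s s1 (e1 (e' a)) _).trans (Eq.trans ?_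
        (lgm_mul (sh i d.op) s1 (e1 (e' a)) (PW ε i c M (lft W) (cst Λ) s e F) _))
      refine congrArg (lgm ε i M _ s1 _) (funext fun s2 => funext fun e2 => funext fun p => ?_)
      refine Eq.trans ?_ (PW_split M h W s s2 e (fun x => e2 (e1 (e' x))) F fun x =>
        G (fun b => x (e2 (e1 b))) * d.K (s2.shr p (e2 q) M.length + c) (x p) (x (e2 q)))
      exact congrArg₂ (PW ε i c M W (cst Λ) (.split s s2)) (funext fun x => by cases x <;> rfl)
        (funext fun x => mul_assoc _ _ _)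

variable [Fintype S] {w : S → ℝ}

theorem eg_lgm (M : List (Lv Θ)) (o : Md) (s : Sh) (a : s.Lf)
    {Ψ : (S → ℝ) → ∀ s' : Sh, (s.Lf → s'.Lf) → s'.Lf → ℝ} (h : ∀ s' e c, Eg fun z => Ψ z s' e c) :
    Eg fun z => lgm ε i M o s a (Ψ z) := by
  cases o
  · exact h _ _ _
  · exact (Eg.sum _ fun _ _ => h _ _ _).add
      ((Eg.sum _ fun _ _ => (h _ _ _).const_mul _).const_mul ε)
  · exact h _ _ _

theorem tE_lgm {F : (S → ℝ) → ℝ} (hF : T157.Casc.Lg F) (l : Lv S) (M : List (Lv Θ)) (o : Md)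
    (s : Sh) (a : s.Lf) {Ψ : (S → ℝ) → ∀ s' : Sh, (s.Lf → s'.Lf) → s'.Lf → ℝ}
    (h : ∀ s' e c, Eg fun z => Ψ z s' e c) (y : S → ℝ) :
    tE l F (fun z => lgm ε i M o s a (Ψ z)) y =
      lgm ε i M o s a fun s' e c => tE l F (fun z => Ψ z s' e c) y := by
  cases o
  · rfl
  · simp only [lgm, lg]
    rw [tE_add hF (Eg.sum _ fun _ _ => h _ _ _)
      ((Eg.sum _ fun _ _ => (h _ _ _).const_mul _).const_mul ε), tE_const_mul,
      tE_sum hF _ fun _ _ => h _ _ _, tE_sum hF _ fun _ _ => (h _ _ _).const_mul _]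
    simp only [tE_const_mul]
  · rfl

theorem eg_PW (hw : Wt w) (M' : List (Lv Θ)) (M : List (Lv S)) : ∀ (W : List (ι × Ins S))
    (s : Sh) (e : ι → s.Lf) (F : (s.Lf → S) → ℝ),
    Eg fun z => PW ε i c M' W (cst (TEf w M z)) s e F
  | [], s, _, F => Law.eg_TE hw s M F
  | _ :: W, s, e, _ => eg_lgm M' _ s _ fun _ _ _ => eg_lgm M' _ _ _ fun _ _ _ =>
      eg_PW hw M' M W _ _ _

theorem PW_step_TE (hw : Wt w) (l : Lv S) (M : List (Lv S)) (h : S → ℝ) :
    ∀ (W : List (ι × Ins S)) (s : Sh) (e : ι → s.Lf) (F : (s.Lf → S) → ℝ),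
    PW ε (i + 1) c (l :: M) W (cst (TEf w (l :: M) h)) (.step s) e F =
      tE l (X w M) (fun z => PW ε i (c + 1) M W (cst (TEf w M z)) s e F) h
  | [], s, _, F => Law.TE_step hw s l M h F
  | p :: W, s, e, F => by
      refine (lgm_step l M _ s (e p.1) _).trans (Eq.trans ?_ (tE_lgm (lg_X hw M) l M _ s (e p.1)
        (fun _ _ _ => eg_lgm M _ _ _ fun _ _ _ => eg_PW hw M M W _ _ _) h).symm)
      refine congrArg (lgm ε i M _ s _) (funext fun s1 => funext fun e1 => funext fun q => ?_)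
      refine (lgm_step l M _ s1 _ _).trans (Eq.trans ?_ (tE_lgm (lg_X hw M) l M _ s1 _
        (fun _ _ _ => eg_PW hw M M W _ _ _) h).symm)
      refine congrArg (lgm ε i M _ s1 _) (funext fun s2 => funext fun e2 => funext fun r => ?_)
      refine Eq.trans (congrArg (PW ε (i + 1) c (l :: M) W _ (.step s2) _) (funext fun x => ?_))
        (PW_step_TE hw l M h W s2 _ _)
      exact congrArg (fun k => _ * p.2.K k (x r) (x (e2 q))) (Nat.add_right_comm _ 1 c)

theorem PW_one_TE (hw : Wt w) (W : List (ι × Ins S)) (e : ι → Sh.one.Lf)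
    (F : (Sh.one.Lf → S) → ℝ) {N : ℕ} : ∀ (i c : ℕ) (M : List (Lv S)) (h : S → ℝ), i ≤ M.length →
    c + i = N → PW ε i c M W (cst (TEf w M h)) .one e F =
      node w M i (fun z => PW ε 0 N (M.drop i) W (cst (TEf w (M.drop i) z)) .one e F) h
  | 0, c, M, h, _, hN => by rw [node_zero, ← hN]; rfl
  | i + 1, c, l :: M, h, hi, hN => by
      rw [PW_one_step l M fun F => Gf.tX_one_cons w l M h _]
      refine (PW_step_TE hw l M h W .one e F).trans ?_
      rw [node_cons, funext fun z => PW_one_TE hw W e F (N := N) i (c + 1) M z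
        (Nat.le_of_succ_le_succ hi) (by omega)]
      rfl

/-- **value of a cluster** with the program `W` -/
def CV (ε : ℝ) (w : S → ℝ) (B : List (Lv S)) (c : ℕ) (W : List (Ins S)) (z : S → ℝ) : ℝ :=
  PW ε 0 c B (W.map fun d => ((), d)) (cst (TEf w B z)) .one id fun _ => 1

theorem eg_CV (hw : Wt w) (B : List (Lv S)) (W : List (Ins S)) : Eg (CV ε w B c W) :=
  eg_PW hw B B _ _ _ _

/-- **evaluation on a skeleton** -/
theorem PW_SK (hw : Wt w) {N : ℕ} : ∀ (t : Sh) (M : List (Lv S)) (i c : ℕ), t.dep ≤ i →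
    i ≤ M.length → c + i = N → ∀ (W : List (t.Lf × Ins S)) (h : S → ℝ),
    PW ε i c M W (cst (TEf w M h)) t id (fun _ => 1) =
      SK w t M i (fun a => CV ε w (M.drop i) N (legs W a)) h
  | .one, M, i, c, _, hi, hN, W, h => by
      refine (PW_one_TE hw W id _ i c M h hi hN).trans (congrArg (fun Ψ => node w M i Ψ h) ?_)
      funext z
      exact congrArg (fun V => PW ε 0 N (M.drop i) V (cst (TEf w (M.drop i) z)) .one id _)
        (legs_unit W).symm
  | .step _, _, 0, _, hd, _, _, _, _ => absurd hd (Nat.not_succ_le_zero _)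
  | .step _, [], _ + 1, _, _, hi, _, _, _ => absurd hi (Nat.not_succ_le_zero _)
  | .step t, l :: M, i + 1, c, hd, hi, hN, W, h => by
      refine (PW_step_TE hw l M h W t id _).trans (congrArg (fun Ψ => tE l (X w M) Ψ h) ?_)
      exact funext fun z => PW_SK hw t M i (c + 1) (Nat.le_of_succ_le_succ hd)
        (Nat.le_of_succ_le_succ hi) (by omega) W z
  | .split s t, M, i, c, hd, hi, hN, W, h => by
      have h1 := PW_split (ε := ε) (i := i) (c := c) M (TEf_split hw M h) W s t id id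
        (fun _ => 1) fun _ => 1
      rw [PW_SK hw s M i c ((le_max_left _ _).trans hd) hi hN,
        PW_SK hw t M i c ((le_max_right _ _).trans hd) hi hN] at h1
      refine Eq.trans ?_ (h1.trans (congrArg₂ (fun Ψ Ψ' => SK w s M i Ψ h * SK w t M i Ψ' h)
        (funext fun a => congrArg (CV ε w _ _) (legs_lft a W))
        (funext fun a => congrArg (CV ε w _ _) (legs_rgt a W))))
      exact congrArg₂ (PW ε i c M W _ (.split s t)) Sum.map_id_id.symm
        (funext fun x => (mul_one _).symm)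

/-! ### the link with the edge lists -/

/-- one end with the function `f` -/
def hf (o : Md) (f : S → ℝ) : Ins S := ⟨o, .fix, fun _ x _ => f x⟩

theorem PW_leg (M : List (Lv Θ)) (Ψ : MF ι S) : ∀ W : List (ι × (S → ℝ)),
    PW ε i c M (W.map (Prod.map id (hf .leg))) Ψ = LW ε i M W Ψ
  | [] => rfl
  | p :: W => by
      rw [List.map_cons, PW_cons, PW_leg M Ψ W]
      rfl

theorem PW_fix (M : List (Lv Θ)) (Ψ : MF ι S) (s : Sh) (e : ι → s.Lf) :
    ∀ (W : List (ι × (S → ℝ))) (F : (s.Lf → S) → ℝ),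
    PW ε i c M (W.map (Prod.map id (hf .fix))) Ψ s e F =
      Ψ s e fun x => F x * pm W fun b => x (e b)
  | [], F => congrArg (Ψ s e) (funext fun x => by simp [pm])
  | p :: W, F => (PW_fix M Ψ s e W fun x => F x * p.2 (x (e p.1))).trans
      (congrArg (Ψ s e) (funext fun x => by simp [pm, mul_assoc]))

theorem PW_tilt {Θ' : Type} {M : List (Lv Θ)} {M' : List (Lv Θ')} (H : M.map Lv.m = M'.map Lv.m)
    (Ψ : MF ι S) : ∀ W : List (ι × Ins S), PW ε i c M W Ψ = PW ε i c M' W Ψ
  | [] => rfl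
  | p :: W => by
      have h : ∀ o s a Φ, lgm ε i M o s a Φ = lgm ε i M' o s a Φ := fun o s a Φ => by
        cases o
        · rfl
        · exact lg_tilt H s a Φ
        · rfl
      funext s e F
      simp only [PW_cons, PW_tilt H Ψ W, Pg, h, Cav22.len_tilt H]

/-- the edge of an instruction -/
def toEd (i : ℕ) (p : ι × Ins S) : Ed ι := ⟨p.1, p.1, sh i p.2.op, sh i p.2.oq⟩

/-- the program of the ends of plain edges -/
def hp (E : List (Ed ι)) (fs : List (S → ℝ)) : List (ι × Ins S) :=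
  (ends false E fs).map (Prod.map id (hf .fix)) ++ (ends true E fs).map (Prod.map id (hf .leg))

theorem LE_PW {M : List (Lv Θ)} (Λ : Fn S) {E : List (Ed ι)} {fs : List (S → ℝ)}
    (hE : ∀ d ∈ E, d.op.Lo ∧ d.oq.Lo) (hl : E.length = fs.length) : ∀ (P : List (ι × Ins S)),
    (∀ p ∈ P, (toEd i p).Hi i M.length) → ∀ (Z : List (ℕ → S → S → ℝ)) (s : Sh) (e : ι → s.Lf)
    (cs : EL s), Z.length = cs.length →
    LE ε i M (P.map (toEd i) ++ E)
        (cs' (PhiS M.length Λ (Z ++ (P.map (fun p => p.2.K) ++ fs.map ff)))) s e cs =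
      PW ε i 0 M (P ++ hp E fs) (cst Λ) s e (prE M.length Z cs)
  | [], _, Z, s, e, cs, hZ => by
      refine (LE_LW Λ E fs hE hl Z s e cs hZ).trans ?_
      rw [List.nil_append, hp, PW_append, PW_fix, PW_leg]
  | p :: P, hP, Z, s, e, cs, hZ => by
      have hd := hP p List.mem_cons_self
      refine lgm_congr hd.2 s _ fun s1 e1 q r1 => lgm_congr hd.1 s1 _ fun s2 e2 r r2 => ?_
      have h3 := LE_PW Λ hE hl P (fun p hp => hP p (List.mem_cons_of_mem _ hp)) (Z ++ [p.2.K]) s2
        (fun x => e2 (e1 (e x))) (mv (fun x => e2 (e1 x)) cs ++ [(r, e2 q)]) (by simp [mv, hZ])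
      rw [List.append_assoc] at h3
      refine h3.trans (congrArg (PW ε i 0 M _ (cst Λ) s2 _) (funext fun x => ?_))
      have h4 := prE_mv (n := M.length)
        (fun a b => (r2.shr _ _ M.length).trans (r1.shr a b M.length)) x
      rw [prE_snoc M.length _ [] _ x Z (mv _ cs) (hZ.trans (List.length_map _).symm), h4,
        prE_ext _ _ Z cs hZ]
      rfl

theorem prE_sq' {M : List (Lv Θ)} {t s : Sh} {e : t.Lf → s.Lf} (H : Sk i M t s e) (hs : Sep i t)
    (hi : i < M.length) (x : s.Lf → S) {E : List (Ed t.Lf)} (hE : ∀ d ∈ E, d.p ≠ d.q)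
    {Z : List (ℕ → S → S → ℝ)} {fs : List (S → ℝ)} (hZ : Sq i Z fs) :
    ∀ (P : List (Ed t.Lf)) (K : List (ℕ → S → S → ℝ)) (cs : EL s), P.length = K.length →
    List.Forall₂ (At i M.length s e) (P ++ E) cs →
    prE M.length (K ++ Z) cs x = prE M.length (K ++ fs.map ff) cs x
  | [], [], _, _, h => prE_sq H hs hi x h hE hZ
  | _ :: P, _ :: K, _ :: cs, hl, .cons _ h => by
      rw [List.cons_append, List.cons_append, prE_cons, prE_cons,
        prE_sq' H hs hi x hE hZ P K cs (Nat.succ.inj hl) h]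

theorem legs_map {β γ : Type} [DecidableEq ι] (g : β → γ) (a : ι) (W : List (ι × β)) :
    legs (W.map (Prod.map id g)) a = (legs W a).map g := by
  simp [legs, List.filter_map, Function.comp_def]

/-- **site factor**: a program `P` inside the clusters, then plain low edges -/
theorem LE_siteP (hw : Wt w) {M : List (Lv Θ)} {L : List (Lv S)} (hL : M.map Lv.m = L.map Lv.m)
    (h : S → ℝ) {t : Sh} (hs : Sep i t) (ht : t.dep ≤ i) (hi : i < M.length)
    {P : List (t.Lf × Ins S)} (hP : ∀ p ∈ P, (toEd i p).Hi i M.length) {E : List (Ed t.Lf)}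
    (hE : Pl E) {Z : List (ℕ → S → S → ℝ)} {fs : List (S → ℝ)} (hZ : Sq i Z fs)
    (hl : E.length = fs.length) :
    LE ε i M (P.map (toEd i) ++ E)
        (cs' (PhiS M.length (TEf w L h) (P.map (fun p => p.2.K) ++ Z))) t id [] =
      SK w t L i (fun a => CV ε w (L.drop i) i (legs P a ++ ((legs (ends false E fs) a).map
        (hf .fix) ++ (legs (ends true E fs) a).map (hf .leg)))) h := by
  rw [LE_congr' (Ψ := cs' (PhiS M.length (TEf w L h) (P.map (fun p => p.2.K) ++ Z)))
      (Ψ' := cs' (PhiS M.length (TEf w L h) ([] ++ (P.map (fun p => p.2.K) ++ fs.map ff))))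
      (P.map (toEd i) ++ E) [] (fun d hd => (List.mem_append.1 hd).elim (fun u => by
        obtain ⟨p, hp, rfl⟩ := List.mem_map.1 u
        exact hP p hp) (hE.hi _ _ d)) t id [] Rch.nil
      fun s e cs H => congrArg (TEf w L h s) (funext fun x => prE_sq' H.sk hs hi x
        (fun d hd => (hE d hd).2) hZ _ _ cs (by simp) H.ends),
    LE_PW _ (fun d hd => (hE d hd).1) hl P hP [] t id [] rfl, PW_tilt hL, prE_nil,
    PW_SK hw t L i 0 ht (Cav22.len_tilt hL ▸ hi.le) (zero_add i)]
  simp only [hp, legs_append, legs_map]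

end MxU51

end Crest.Agent.T156.Cas
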