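import Crest.Agent.T156.MxU_51
import Crest.Agent.T156.R2H0_6

/-!
# Row 156 (helper51): an upper letter is a pair of legs; weighted bounds; cluster values
-/

set_option autoImplicit false
set_option linter.unusedSectionVars false
set_option linter.unusedVariables false

noncomputable section

namespace Crest.Agent.T156.Cas

open MeasureTheory Real Set Filter Topology
open Crest.Agent.T157.E Crest.Agent.T157.Casc Crest.Agent.T157.SL
open Wt87 (shr_emb shr_nw shr_nw' shr_self shr_comm shr_le shr_congr shr_min card_graft sum_cw_eq)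
open Leg51
open Swp99 (Val Leg gm tmk SG)

namespace MxU51

open Low51 hiding Eg

variable {Ω S Θ ι : Type} {ε : ℝ} {i c K : ℕ} {M : List (Lv Θ)}

/-! ### functionals that only read the split matrix -/

/-- bulk and site test functions -/
def IV2 (K : ℕ) (B : (s : Sh) → ((s.Lf → Ω) → ℝ) → ((s.Lf → S) → ℝ) → ℝ) : Prop :=
  ∀ (ι : Type) [Fintype ι] (G : (ι → Ω) → ℝ) (ξ : (ι → S) → ℝ), Swp99.Inv K
    fun s (m : ι → s.Lf) => B s (fun x => G fun a => x (m a)) fun x => ξ fun a => x (m a)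

/-- one test function -/
def IV (K : ℕ) (Λ : Fn S) : Prop := ∀ (ι : Type) [Fintype ι] (ξ : (ι → S) → ℝ), Swp99.Inv K
  fun s (m : ι → s.Lf) => Λ s fun x => ξ fun a => x (m a)

theorem IV2.one {B : (s : Sh) → ((s.Lf → Ω) → ℝ) → ((s.Lf → S) → ℝ) → ℝ} (H : IV2 K B) :
    IV K fun s ξ => B s (fun _ => 1) ξ := fun ι _ ξ => H ι (fun _ => 1) ξ

theorem IV2.wB {B : (s : Sh) → ((s.Lf → Ω) → ℝ) → ((s.Lf → S) → ℝ) → ℝ} (H : IV2 M.length B)
    (hB : ∀ s ξ, B s (fun _ => 0) ξ = 0) : ∀ V : List ((ℕ → Ω → Ω → ℝ) × (ℕ → S → S → ℝ)),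
    (∀ p ∈ V, p.1 M.length = 0) → IV2 M.length (Mul55.wB (-1) M B V)
  | [], _ => H
  | p :: V, hV => fun ι _ G ξ => by
      have ih := IV2.wB H hB V fun p hp => hV p (List.mem_cons_of_mem _ hp)
      let W : Val (Option (Option ι)) := fun s m => Mul55.wB (-1) M B V s
        (fun x => G (fun a => x (m (some (some a)))) *
          p.1 (s.shr (m (some none)) (m none) M.length) (x (m (some none))) (x (m none)))
        fun x => ξ (fun a => x (m (some (some a)))) *
          p.2 (s.shr (m (some none)) (m none) M.length) (x (m (some none))) (x (m none))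
      have hW : Swp99.Inv M.length W := fun s m s' m' h => by
        simp only [W]
        rw [h.shr]
        exact ih _ (fun y => G (fun a => y (some (some a))) * p.1 _ (y (some none)) (y none))
          (fun y => ξ (fun a => y (some (some a))) * p.2 _ (y (some none)) (y none)) s m s' m' h
      have e : ∀ s (m : ι → s.Lf), Mul55.wB (-1) M B (p :: V) s (fun x => G fun a => x (m a))
          (fun x => ξ fun a => x (m a)) = SG M W s m := fun s m =>
        sg_congr _ M s fun τ h => by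
          simp only [W, tmk, Swp99.ad_none, Swp99.ad_some, h.shr]
          rfl
      intro s m s' m' h
      refine (e s m).trans (Eq.trans ?_ (e s' m').symm)
      refine hW.sg (fun s m u => ?_) s m s' m' h
      simp only [W]
      rw [u, shr_self, hV p List.mem_cons_self]
      simpa using wB_zero hB V s _

theorem iv_TE [Fintype S] {w : S → ℝ} (hw : Wt w) (L : List (Lv S)) (h : S → ℝ) :
    IV L.length (TEf w L h) := fun _ _ ξ _ _ _ _ H => Swp99.TE_sim hw H ξ

theorem IV.lop {L : List (Lv S)} {Λ : Fn S} (H : IV L.length Λ) (f : S → ℝ) :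
    IV L.length (H06.Lop L f Λ) := fun ι _ ξ => by
  have e : ∀ s (m : ι → s.Lf), H06.Lop L f Λ s (fun x => ξ fun a => x (m a)) = Leg (-1) L
      (fun s m => Λ s fun x => ξ (fun a => x (m (some a))) * f (x (m none))) s m := fun s m => by
    rw [H06.Lop, Leg, ← sum_cw_eq, neg_one_mul, ← sub_eq_add_neg]
    rfl
  intro s m s' m' h
  exact (e s m).trans (((H _ fun y => ξ (fun a => y (some a)) * f (y none)).leg s m s' m' h).trans
    (e s' m').symm)

theorem IV.lops {L : List (Lv S)} {Λ : Fn S} (H : IV L.length Λ) (f : S → ℝ) :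
    ∀ k, IV L.length ((H06.Lop L f)^[k] Λ)
  | 0 => H
  | k + 1 => by
      rw [Function.iterate_succ_apply']
      exact (IV.lops H f k).lop f

/-! ### an upper letter -/

theorem lg_cls {s : Sh} {a b : s.Lf} (h : s.shr a b (i + 1) = i + 1)
    (Ψ : ∀ s' : Sh, (s.Lf → s'.Lf) → s'.Lf → ℝ) : lg ε i M s a Ψ = lg ε i M s b Ψ := by
  have : Leg51.cls i s a = Leg51.cls i s b := Finset.ext fun x => by
    rw [mem_cls, mem_cls, shr_comm s a, shr_congr s h, shr_comm s x]
  simp only [lg, pos, this]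

/-- the second leg stays in the cluster of the first one -/
theorem Leg_in (hi : i < M.length) {W : Val (Option (Option ι))}
    (h0 : ∀ s m, s.shr (m none) (m (some none)) M.length ≤ i → W s m = 0) (s : Sh)
    (m : Option ι → s.Lf) : Leg ε M W s m =
      lg ε i M s (m none) fun s2 e2 p => W s2 (Swp99.ad p fun x => e2 (m x)) := by
  have k : ∀ (a : s.Lf) (j : ℕ), s.shr (m none) a (i + 1) ≠ i + 1 ∨ j ≤ i →
      s.shr (m none) a (min j M.length) ≤ i := fun a j h => by
    have h1 := shr_min s (m none) a (i + 1) M.length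
    have h2 := shr_min s (m none) a j M.length
    rw [min_eq_left hi] at h1
    omega
  rw [Leg, lg, ← sum_cw_eq, ← Finset.sum_product']
  refine ac (Finset.sum_subset (Finset.subset_univ _) fun b _ hb => h0 _ _ ?_).symm
    (mc (Finset.sum_subset (fun p hp => ?_) fun p hp hp' => mul_eq_zero_of_right _
      (h0 _ _ ?_)).symm)
  · have := k b M.length (.inl fun u => hb (mem_cls.2 u))
    rw [min_self, shr_comm] at this
    exact this
  · simpa [Nat.lt_succ_iff] using (mem_pos.1 hp).2.2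
  · have h1 : p.2 ≤ M.length := by simpa [Nat.lt_succ_iff] using hp
    refine (shr_nw' s p.1 p.2 (m none) M.length).trans_le (k _ _ ?_)
    by_contra hc
    push Not at hc
    exact hp' (mem_pos.2 ⟨hc.1, hc.2, h1⟩)

/-- **an upper letter on one cluster**: two legs in the cluster, or a new cluster -/
theorem sg_up {s : Sh} {a : s.Lf} (H : Sk i M .one s fun _ => a) (hi : i < M.length) {Λ : Fn S}
    (hΛ : IV M.length Λ) (h0 : ∀ s, Λ s (fun _ => 0) = 0) {V : ℕ → S → S → ℝ}
    (hs : ∀ j x y, V j x y = V j y x) (hlo : ∀ j ≤ i, V j = 0) (ht : ∀ y, V M.length y y = 0)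
    (F : (s.Lf → S) → ℝ) : sg (-1) M s (fun τ => Λ τ.sh (τ.ev V F)) =
      lg (-1) i M s a (fun s1 e1 q => lg (-1) i M s1 (e1 a) fun s2 e2 p => Λ s2 fun x =>
        F (fun b => x (e2 (e1 b))) * V (s2.shr p (e2 q) M.length) (x p) (x (e2 q))) -
      ∑ j ∈ Finset.range (i + 1), dm M 0 j * lg (-1) i M (s.graft a j) (s.nw a j) fun s2 e2 p =>
        Λ s2 fun x => F (fun b => x (e2 (s.emb a j b))) *
          V (s2.shr p (e2 (s.nw a j)) M.length) (x p) (x (e2 (s.nw a j))) := by
  let W : Val (Option (Option s.Lf)) := fun s' m => Λ s' fun x =>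
    F (fun b => x (m (some (some b)))) *
      V (s'.shr (m none) (m (some none)) M.length) (x (m none)) (x (m (some none)))
  have hW : Swp99.Inv M.length W := fun s m s' m' h => by
    simp only [W]
    rw [h.shr]
    exact hΛ _ (fun y => F (fun a => y (some (some a))) * V _ (y none) (y (some none))) s m s' m' h
  have hl := Leg_in (ε := -1) hi (W := W) fun s m u => by
    simp only [W]
    rw [hlo _ u]
    simpa using h0 s
  have ha : ∀ b, s.shr a b (i + 1) = i + 1 := fun b => (H.sur b).elim fun _ h => h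
  rw [sg_congr _ M s (Ψ := fun τ => W τ.sh (tmk τ id)) fun τ h => by
      simp only [W, tmk, Swp99.ad_none, Swp99.ad_some, shr_comm _ τ.q, h.shr]
      exact congrArg (Λ τ.sh) (funext fun x => mc (hs _ _ _)),
    Swp99.sg_eq hW (fun s m u => by
      simp only [W]
      rw [u, shr_self]
      simpa [ht] using h0 s) (by norm_num), Leg, ← sum_cw_eq, H.wsplit (sep_one i) hi.le,
    Wt87.sum_one, Wt87.sum_one, lg, mul_add, add_comm (-1 * _), ← add_assoc, neg_one_mul (∑ j ∈
      Finset.range _, _), ← sub_eq_add_neg]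
  simp only [hl]
  refine congrArg₂ (· - ·) (ac ?_ (mc (Finset.sum_congr rfl fun p hp => mc ?_)))
    (Finset.sum_congr rfl fun j _ => congrArg₂ (· * ·) (Lsg89.cw_one M () j) rfl)
  · exact Finset.sum_congr (Finset.eq_univ_of_forall fun b => mem_cls.2 (ha b)).symm
      fun b _ => (lg_cls (ha b) _).symm
  · refine (lg_cls (a := s.emb p.1 p.2 a) ?_ _).symm
    exact (shr_nw s p.1 p.2 a _).trans (by rw [min_eq_right (mem_pos.1 hp).2.1]; exact ha _)

/-! ### bounds weighted by the levels of the tree -/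

section wt
variable {g : ℕ → ℝ} {β : ℝ}

theorem abs_lg_wt (hε : |ε| ≤ 1) (hM : Mono 0 M) (hg : ∀ j, 0 ≤ g j) (hβ : 0 ≤ β) (s : Sh)
    (a : s.Lf) {Ψ : ∀ s' : Sh, (s.Lf → s'.Lf) → s'.Lf → ℝ}
    (h : ∀ s' e c, Rc i M.length s a .leg s' e c → |Ψ s' e c| ≤ β * Nv M g s') :
    |lg ε i M s a Ψ| ≤ 6 * (Fintype.card s.Lf : ℝ) ^ 2 * (β * Nv M g s) := by
  classical
  have h0 := mul_nonneg hβ (Tay38.Nv_nonneg hM hg s)
  have h1 : (1 : ℝ) ≤ Fintype.card s.Lf := Tay38.one_le_card s
  have h2 := Lsg89.abs_sum_card (Leg51.cls i s a) h0 fun b hb => h s id b (.old hb)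
  have h3 := Tay38.sum_cw_aff hM hg s (α := 3 * (β * Nv M g s)) (β := 2 * Fintype.card s.Lf * β)
    (X := fun b k => if (b, k) ∈ pos i M.length s a then
      Ψ (s.graft b k) (s.emb b k) (s.nw b k) else 0) (by positivity) fun b k hk => by
      have := hg k
      split_ifs with u
      · refine (h _ _ _ (.new (mem_cls.2 (mem_pos.1 u).1) (mem_pos.1 u).2.1 hk)).trans ?_
        exact (mul_le_mul_of_nonneg_left (Tay38.Nv_graft hM hg s b hk) hβ).trans_eq (by ring)
      · rw [abs_zero]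
        positivity
  rw [← Finset.sum_product', ← Finset.sum_subset (s₁ := pos i M.length s a) (fun p hp => by
      simpa [Nat.lt_succ_iff] using (mem_pos.1 hp).2.2)
    (fun p _ hp => by rw [if_neg hp, mul_zero]),
    Finset.sum_congr rfl fun p hp => by rw [if_pos hp]] at h3
  refine (abs_add_le _ _).trans ?_
  rw [abs_mul]
  have h4 := mul_le_mul hε h3 (abs_nonneg _) zero_le_one
  nlinarith [mul_nonneg (sub_nonneg.2 h1) (mul_nonneg (zero_le_one.trans h1) h0)]

theorem abs_LE_wt {t : Sh} (hε : |ε| ≤ 1) (hM : Mono 0 M) (hg : ∀ j, 0 ≤ g j) (hβ : 0 ≤ β)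
    {Ψ : PF t.Lf} {N : ℕ} : ∀ (E E0 : List (Ed t.Lf)), (∀ d ∈ E, d.op.Lo ∧ d.oq.Lo) →
    Fintype.card t.Lf + 2 * (E0.length + E.length) ≤ N →
    ∀ (s : Sh) (e : t.Lf → s.Lf) (cs : EL s), Rch i M t E0 s e cs →
    (∀ s e cs, Rch i M t (E0 ++ E) s e cs → |Ψ s e cs| ≤ β * Nv M g s) →
    |LE ε i M E Ψ s e cs| ≤ (6 * (N : ℝ) ^ 2) ^ (2 * E.length) * β * Nv M g s
  | [], E0, _, _, s, e, cs, H, h => (h s e cs (by rwa [List.append_nil])).trans_eq (by simp)
  | d :: E, E0, hE, hN, s, e, _, H, h => by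
      have k : ∀ {o : Md}, o.Lo → ∀ (s : Sh) (a : s.Lf) {β : ℝ}, 0 ≤ β → Fintype.card s.Lf ≤ N →
          ∀ {Ψ : ∀ s' : Sh, (s.Lf → s'.Lf) → s'.Lf → ℝ},
          (∀ s' e c, Rc i M.length s a o s' e c → |Ψ s' e c| ≤ β * Nv M g s') →
          |lgm ε i M o s a Ψ| ≤ 6 * (N : ℝ) ^ 2 * β * Nv M g s := fun {o} ho s a β hβ hs Ψ h => by
        have h0 := mul_nonneg hβ (Tay38.Nv_nonneg hM hg s)
        have h1 : (Fintype.card s.Lf : ℝ) ≤ N := Nat.cast_le.2 hs
        have h2 : (1 : ℝ) ≤ N ^ 2 := one_le_pow₀ ((Tay38.one_le_card s).trans h1)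
        rw [mul_assoc _ β]
        cases o
        · exact (h _ _ _ .fix).trans (by nlinarith)
        · exact (abs_lg_wt hε hM hg hβ s a h).trans (by gcongr)
        · exact ho.elim
      rw [List.length_cons] at hN ⊢
      have hc := H.card
      refine (k (hE d List.mem_cons_self).2 s _ (by positivity) (by omega) fun s1 _ _ h1 =>
        k (hE d List.mem_cons_self).1 _ _ (by positivity) (by have := h1.card; omega)
          fun _ _ _ h2 => abs_LE_wt hε hM hg hβ E (E0 ++ [d])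
            (fun d hd => hE d (List.mem_cons_of_mem _ hd))
            (by rw [List.length_append, List.length_singleton]; omega) _ _ _ (H.step h1 h2)
            (by rwa [List.append_assoc])).trans_eq (by ring)

theorem abs_K_le (hM : Mono 0 M) (hg : ∀ j, 0 ≤ g j) {V : ℕ → S → S → ℝ}
    (hV : ∀ j ≤ M.length, ∀ x y, |V j x y| ≤ g j) (ht : ∀ y, V M.length y y = 0) (s : Sh)
    (p q : s.Lf) (x : s.Lf → S) : |V (s.shr p q M.length) (x p) (x q)| ≤ Nv M g s := by
  by_cases h : p = q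
  · rw [h, shr_self, ht, abs_zero]
    exact Tay38.Nv_nonneg hM hg s
  · exact (hV _ (shr_le _ _ _ _) _ _).trans ((Tay38.le_prs s
      (G := fun a b => g (s.shr a b M.length)) (fun _ _ => hg _) h).trans
        (le_add_of_nonneg_right (Tay38.N0_nonneg hM hg)))

end wt

/-! ### legs against derivatives -/

section cluster
variable [Fintype S] {w : S → ℝ} {T : List (Lv S)}

theorem Lop_lg {s : Sh} {a : s.Lf} (hs : ∀ b, s.shr a b 1 = 1) (f : S → ℝ) (Λ : Fn S)
    (F : (s.Lf → S) → ℝ) : H06.Lop T f Λ s F =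
      lg (-1) 0 T s a (fun s' e c => Λ s' fun x => F (fun b => x (e b)) * f (x c)) -
      ∑ b, ∑ j ∈ Finset.range (0 + 1), cw s T b j *
        Λ (s.graft b j) fun x => F (fun c => x (s.emb b j c)) * f (x (s.nw b j)) := by
  have e : Leg51.cls 0 s a = Finset.univ := Finset.eq_univ_of_forall fun b => mem_cls.2 (hs b)
  rw [H06.Lop, lg, pos, e, Finset.sum_product, neg_one_mul, ← sub_eq_add_neg, sub_sub,
    ← Finset.sum_add_distrib]
  simp only [sum_rng (Nat.zero_le T.length), add_comm (∑ j ∈ Finset.range (0 + 1), _)]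
  rfl

theorem Rc.one {s s' : Sh} {a : s.Lf} {o : Md} {n : ℕ} {e : s.Lf → s'.Lf} {c : s'.Lf}
    (h : Rc 0 n s a o s' e c) (hs : ∀ b, s.shr a b 1 = 1) (b : s'.Lf) : s'.shr (e a) b 1 = 1 := by
  have k : ∀ {x : s.Lf} {j : ℕ}, 0 < j → ∀ b : (s.graft x j).Lf,
      (s.graft x j).shr (s.emb x j a) b 1 = 1 := fun {x j} hj b => by
    rcases Wt87.graft_cases _ _ _ b with ⟨y, rfl⟩ | rfl
    · exact (shr_emb _ _ _ _ _ _).trans (hs y)
    · rw [shr_nw, min_eq_right hj]
      exact hs x
  cases h with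
  | fix => exact hs b
  | old => exact hs b
  | new _ h => exact k h b
  | gr h => exact k h b

/-- legs on one cluster are state derivatives up to `O (x₁)` -/
theorem LW_DK (hw : Wt w) (hT : Mono 0 T) {f : S → ℝ} (hf : ∀ y, |f y| ≤ 1) (h : S → ℝ) (u : ι)
    {R : ℕ} : ∀ (k : ℕ) (s : Sh) (e : ι → s.Lf), (∀ b, s.shr (e u) b 1 = 1) →
    Fintype.card s.Lf + k ≤ R → ∀ (F : (s.Lf → S) → ℝ) (B : ℝ), 0 ≤ B → (∀ x, |F x| ≤ B) →
    |LW (-1) 0 T (List.replicate k (u, f)) (cst (TEf w T h)) s e F - H06.DK w T f k h s F| ≤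
      k * (2 * R) ^ k * (ex T 0 * B)
  | 0, s, e, _, _, F, B, _, _ => by
      rw [show LW (-1) 0 T (List.replicate 0 (u, f)) (cst (TEf w T h)) s e F =
        H06.DK w T f 0 h s F from rfl]
      simp
  | k + 1, s, e, hs, hR, F, B, hB, hF => by
      have hx := Lsg89.ex_nn hT 0
      have hc : (Fintype.card s.Lf : ℝ) + 1 + k ≤ R := by exact_mod_cast (by omega)
      have hc' : (Fintype.card s.Lf : ℝ) ≤ R := by exact_mod_cast (by omega)
      have hb : ∀ {s' : Sh} (e' : s.Lf → s'.Lf) (c : s'.Lf) (x : s'.Lf → S),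
          |F (fun b => x (e' b)) * f (x c)| ≤ B := fun e' c x => by
        rw [abs_mul]
        exact (mul_le_of_le_one_right (abs_nonneg _) (hf _)).trans (hF _)
      have h1 := Low51.abs_lgm_le (ε := -1) (i := 0) (by simp) hT (o := .leg) trivial s (e u)
        (β := k * (2 * R) ^ k * (ex T 0 * B)) (by positivity) fun s' e' c H =>
          LW_DK hw hT hf h u k s' (fun x => e' (e x)) (Rc.one H hs) (by have := H.card; omega) _ B
            hB (hb e' c)
      have h2 := Lsg89.abs_cw_lo hT s 0 (β := (2 * R) ^ k * B) (by positivity) fun b j _ =>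
        (H06.bnd_DK hw hT zero_le_one hf k h (N := Fintype.card s.Lf + 1) (by positivity)
          (s.graft b j) _ B (by rw [card_graft]; push_cast; rfl) hB
            (hb (s.emb b j) (s.nw b j))).trans (by rw [mul_one]; gcongr)
      simp only [sub_eq_add_neg, ← neg_one_mul (H06.DK _ _ _ _ _ _ _), lgm_add, lgm_mul] at h1
      rw [neg_one_mul] at h1
      rw [H06.DK, Function.iterate_succ_apply', Lop_lg hs, List.replicate_succ, LW_lg,
        ← sub_add, sub_eq_add_neg]
      refine (abs_add_le _ _).trans ((add_le_add h1 h2).trans ?_)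
      have h3 : 0 ≤ (2 * R : ℝ) ^ k * (ex T 0 * B) := by positivity
      push_cast
      calc _ = (2 * k + 1) * Fintype.card s.Lf * ((2 * R) ^ k * (ex T 0 * B)) := by ring
        _ ≤ (2 * k + 2) * R * ((2 * R) ^ k * (ex T 0 * B)) := by gcongr; norm_num
        _ = _ := by ring

theorem node_two (hw : Wt w) {L : List (Lv S)} {j : ℕ} (hj : j ≤ i) {Φ Ψ D : (S → ℝ) → ℝ}
    (hΦ : Eg Φ) (hΨ : Eg Ψ) (hD : Eg D) {a b α β : ℝ} (h1 : ∀ z, |Φ z - a| ≤ α * D z) (ha : |a| ≤ α)
    (h2 : ∀ z, |Ψ z - b| ≤ β * D z) (hb : ∀ z, |Ψ z| ≤ β) (h : S → ℝ) :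
    |node w L j (fun z => node w (L.drop j) (i - j) Φ z * node w (L.drop j) (i - j) Ψ z) h -
      a * b| ≤ 2 * (α * β) * node w L i D h := by
  have k : ∀ {Φ : (S → ℝ) → ℝ} {a α : ℝ}, Eg Φ → (∀ z, |Φ z - a| ≤ α * D z) → ∀ z,
      |node w (L.drop j) (i - j) Φ z - a| ≤ α * node w (L.drop j) (i - j) D z :=
    fun {Φ a α} hΦ h1 z => by
      have := One15.abs_node_le hw (hΦ.sub (Eg.const a)) (hD.const_mul α) h1 (L.drop j) (i - j) z
      rwa [node_sub hw hΦ (Eg.const _), node_const hw, node_const_mul] at this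
  have e := (hΦ.node hw (L.drop j) (i - j)).mul (hΨ.node hw (L.drop j) (i - j))
  have := One15.abs_node_le hw (e.sub (Eg.const (a * b)))
    ((hD.node hw (L.drop j) (i - j)).const_mul (2 * (α * β))) (fun z => ?_) L j h
  · rwa [node_sub hw e (Eg.const _), node_const hw, node_const_mul, node_node,
      Nat.sub_add_cancel hj] at this
  · have h3 := One15.abs_node_le hw hΨ (Eg.const β) hb (L.drop j) (i - j) z
    rw [node_const hw] at h3
    have h4 := k hΦ h1 z
    have h5 := k hΨ h2 z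
    set A := node w (L.drop j) (i - j) Φ z
    set B := node w (L.drop j) (i - j) Ψ z
    rw [show A * B - a * b = (A - a) * B + a * (B - b) by ring]
    refine (abs_add_le _ _).trans ((add_le_add (H06.abs_mul_le h4 h3)
      (H06.abs_mul_le ha h5)).trans_eq ?_)
    ring

end cluster

section site
open Crest.ProbabilityR.SpinGlassDynamics (spin)
open One15 (xs w1)
open H06 (DY)

variable {T : List (Lv Bool)} {g : ℕ → ℝ} {Q V : ℕ → Bool → Bool → ℝ} {r : ℕ}

/-- the distance to the frozen cluster -/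
def dz (T : List (Lv Bool)) (z : Bool → ℝ) : ℝ := ex T 0 + |xs z|

theorem dz_nn (hT : Mono 0 T) (z : Bool → ℝ) : 0 ≤ dz T z :=
  add_nonneg (Lsg89.ex_nn hT 0) (abs_nonneg _)

theorem abs_spin (b : Bool) : |spin b| ≤ 1 := by cases b <;> simp [spin]

theorem LW_DY (hT : Mono 0 T) (z : Bool → ℝ) (u : ι) {k : ℕ} (hk : k ≤ 2) (s : Sh) (e : ι → s.Lf)
    (hs : ∀ b, s.shr (e u) b 1 = 1) (hc : Fintype.card s.Lf ≤ 4) (F : (s.Lf → Bool) → ℝ) {B : ℝ}
    (hB : 0 ≤ B) (hF : ∀ x, |F x| ≤ B) :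
    |LW (-1) 0 T (List.replicate k (u, spin)) (cst (TEf (fun _ => 1) T z)) s e F - DY T k 0 s F| ≤
      14 ^ 3 * dz T z * B := by
  have h1 := LW_DK w1 hT abs_spin (fun b => xs z * spin b) u (R := 6) k s e hs (by omega) F B hB hF
  have h2 := abs_le_of_deriv (H06.der_DY (Φ := fun E => E s F) (fun _ _ _ _ e => e s F) T k) (xs z) fun y _ =>
    H06.bnd_DY hT (k + 1) y (N := 4) (by norm_num) s F B (by exact_mod_cast hc) hB hF
  have e1 : LW (-1) 0 T (List.replicate k (u, spin)) (cst (TEf (fun _ => 1) T z)) =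
      LW (-1) 0 T (List.replicate k (u, spin)) (cst (TEf (fun _ => 1) T fun b => xs z * spin b)) := by
    conv_lhs => rw [One15.eq_xs z]
    exact LW_shift w1 _ _ _ _ _
  rw [e1]
  refine (abs_sub_le _ (DY T k (xs z) s F) _).trans ((add_le_add h1 h2).trans ?_)
  have h3 := mul_nonneg (Lsg89.ex_nn hT 0) hB
  have h4 := mul_nonneg (abs_nonneg (xs z)) hB
  rw [dz]
  interval_cases k <;> push_cast <;> nlinarith

theorem DY_zero' (hT : Mono 0 T) (k : ℕ) (s : Sh) : DY T k 0 s (fun _ => 0) = 0 := by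
  simpa using H06.bnd_DY hT k 0 (N := Fintype.card s.Lf) (by positivity) s (fun _ => 0) 0 le_rfl
    le_rfl fun _ => by simp

theorem iv_DY (T : List (Lv Bool)) (k : ℕ) (y : ℝ) : IV T.length (DY T k y) :=
  (iv_TE w1 T _).lops spin k

/-- the marked pair -/
def pr (r : ℕ) (Q : ℕ → S → S → ℝ) : Ins S := ⟨.fix, .gr r, Q⟩
/-- an upper letter in an old cluster -/
def dl (V : ℕ → S → S → ℝ) : Ins S := ⟨.leg, .leg, V⟩
/-- an upper letter that opens a cluster -/
def fl (V : ℕ → S → S → ℝ) : Ins S := ⟨.leg, .fix, V⟩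
/-- spin legs -/
abbrev lgs (k : ℕ) : List (Ins Bool) := (List.replicate k spin).map (hf .leg)

theorem CV_eq (P : List (Ins Bool)) (k : ℕ) (z : Bool → ℝ) :
    CV (-1) (fun _ => 1) T c (P ++ lgs k) z = PW (-1) 0 c T (P.map fun d => ((), d))
      (LW (-1) 0 T (List.replicate k ((), spin)) (cst (TEf (fun _ => 1) T z))) .one id
        fun _ => 1 := by
  rw [CV, List.map_append, PW_append, ← PW_leg (c := c)]
  simp only [List.map_replicate]
  rfl

theorem one_two (hr : 0 < r) (b : (Sh.two r).Lf) : (Sh.two r).shr (Sh.twoL r) b 1 = 1 :=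
  Rc.one (n := r) (s := .one) (a := ()) (.gr hr le_rfl) (fun _ => rfl) b

theorem pr_eq (hr : r ≤ T.length) (Ψ : MF Unit Bool) :
    Pg (-1) 0 c T () (pr r Q) Ψ .one id (fun _ => 1) =
      Ψ (.two r) (fun _ => Sh.twoL r) (pr2 r (Q (r + c))) :=
  congrArg (Ψ (.two r) _) (funext fun x => (one_mul _).trans
    (congrArg (fun k => Q (k + c) (x (Sh.twoL r)) (x (Sh.twoR r)))
      ((Wt87.shr_two r _).trans (min_eq_left hr))))

theorem fl_eq (Ψ : MF Unit Bool) : Pg (-1) 0 c T () (fl V) Ψ .one id (fun _ => 1) =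
    lg (-1) 0 T .one () fun s2 e2 p => Ψ s2 (fun _ => e2 ()) fun x =>
      1 * V (s2.shr p (e2 ()) T.length + c) (x p) (x (e2 ())) := rfl

theorem PW_nil (Ψ : MF ι S) : PW ε i c M [] Ψ = Ψ := rfl

/-- a plain cluster -/
theorem CV_0 (hT : Mono 0 T) (z : Bool → ℝ) :
    |CV (-1) (fun _ => 1) T c ([hf .fix spin] ++ lgs 1) z| ≤ 14 ^ 3 ∧
    |CV (-1) (fun _ => 1) T c ([hf .fix spin] ++ lgs 1) z - DY T 1 0 .one fun x => spin (x ())| ≤
      14 ^ 3 * dz T z := by
  have e : CV (-1) (fun _ => 1) T c ([hf .fix spin] ++ lgs 1) z = LW (-1) 0 T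
      (List.replicate 1 ((), spin)) (cst (TEf (fun _ => 1) T z)) .one id fun x => spin (x ()) :=
    (CV_eq _ 1 z).trans (congrArg (LW (-1) 0 T _ _ .one id) (funext fun x => one_mul _))
  rw [e]
  refine ⟨(abs_LW_le (by simp) hT (fun s F B h => One15.abs_TE_le w1 s T z h) zero_le_one (N := 2) _
    (fun p hp y => by rw [List.eq_of_mem_replicate hp]; exact abs_spin y) _ _ _ 1 zero_le_one
    (fun x => abs_spin _) le_rfl).trans (by norm_num), ?_⟩
  simpa using LW_DY hT z () one_le_two .one id (fun _ => rfl) (by decide) _ zero_le_one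
    fun x => abs_spin (x ())

/-- the marked cluster -/
theorem CV_M (hT : Mono 0 T) (h0 : 0 < r) (hr : r ≤ T.length) (hQ : ∀ x y, |Q (r + c) x y| ≤ 2)
    (z : Bool → ℝ) : |CV (-1) (fun _ => 1) T c ([pr r Q] ++ lgs 2) z| ≤ 2 * 14 ^ 3 ∧
    |CV (-1) (fun _ => 1) T c ([pr r Q] ++ lgs 2) z - twoF r (Q (r + c)) (DY T 2 0)| ≤
      2 * 14 ^ 3 * dz T z := by
  rw [CV_eq, List.map_cons, PW_cons, pr_eq hr, List.map_nil, PW_nil]
  refine ⟨(abs_LW_le (by simp) hT (fun s F B h => One15.abs_TE_le w1 s T z h) zero_le_one (N := 4) _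
    (fun p hp y => by rw [List.eq_of_mem_replicate hp]; exact abs_spin y) _ _ _ 2 zero_le_two
    (fun x => hQ _ _) (by rw [Wt87.card_two]; rfl)).trans (by norm_num), ?_⟩
  exact (LW_DY hT z () le_rfl (.two r) _ (one_two h0) (by rw [Wt87.card_two]; norm_num) _
    zero_le_two fun x => hQ _ _).trans_eq (by ring)

/-- an upper letter: symmetric, zero at the cut and on the diagonal, of size `g` -/
structure Up (n c : ℕ) (V : ℕ → Bool → Bool → ℝ) (g : ℕ → ℝ) : Prop where
  sym : ∀ j x y, V j x y = V j y x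
  bot : V c = 0
  top : ∀ y, V (n + c) y y = 0
  nn : ∀ j, 0 ≤ g j
  g0 : g c = 0
  le : ∀ j ≤ n, ∀ x y, |V (j + c) x y| ≤ g (j + c)

theorem lg_sub (s : Sh) (a : s.Lf) (Ψ Ψ' : ∀ s' : Sh, (s.Lf → s'.Lf) → s'.Lf → ℝ) :
    lg ε i M s a Ψ - lg ε i M s a Ψ' = lg ε i M s a fun s' e c => Ψ s' e c - Ψ' s' e c := by
  simp only [lg, mul_sub, Finset.sum_sub_distrib]
  ring

/-- the cluster opened by the upper letter -/
theorem CV_B (hT : Mono 0 T) (H : Up T.length c V g) (z : Bool → ℝ) :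
    |CV (-1) (fun _ => 1) T c ([fl V] ++ lgs 2) z + pairF T (fun j => V (j + c)) (DY T 2 0)| ≤
      6 * 14 ^ 3 * Nv T (fun j => g (j + c)) .one * dz T z := by
  have e : pairF T (fun j => V (j + c)) (DY T 2 0) = -lg (-1) 0 T .one () fun s2 e2 p =>
      DY T 2 0 s2 fun x => 1 * V (s2.shr p (e2 ()) T.length + c) (x p) (x (e2 ())) := by
    refine Eq.trans ?_ (congrArg Neg.neg ((lg_eq T .one () _).trans
      ((Wt87.sum_one _).trans (if_pos rfl)))).symm
    rw [pairF, sum_rng (Nat.zero_le _), Finset.sum_range_one,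
      zero_add, H.bot, neg_one_mul, neg_add, neg_neg]
    refine ac ((mul_eq_zero_of_right _ (DY_zero' hT 2 _)).trans (neg_eq_zero.2 ?_).symm)
      (Finset.sum_congr rfl fun k hk => congrArg₂ (· * ·) ?_
        (congrArg (DY T 2 0 (.two k)) (funext fun x => ?_)))
    · exact (congrArg (DY T 2 0 .one) (funext fun x => (one_mul _).trans (H.top _))).trans
        (DY_zero' hT 2 _)
    · exact ((Lsg89.cw_one T () k).symm.trans (cw_pos _ _ _ (Finset.mem_Ioc.1 hk).1.ne'))
    · exact ((one_mul _).trans ((congrArg (fun j => V (j + c) (x (Sh.twoR k)) (x (Sh.twoL k)))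
        ((shr_comm _ _ _ _).trans ((Wt87.shr_two k _).trans
          (min_eq_left (Finset.mem_Ioc.1 hk).2)))).trans (H.sym _ _ _))).symm
  rw [e, ← sub_eq_add_neg, CV_eq, List.map_cons, PW_cons, fl_eq, List.map_nil, PW_nil]
  refine (congrArg abs (lg_sub .one () _ _)).trans_le ((abs_lg_wt (ε := -1) (by simp) hT
    (g := fun j => g (j + c)) (fun j => H.nn _) (β := 14 ^ 3 * dz T z)
    (by have := dz_nn hT z; positivity) .one () fun s e p h => ?_).trans_eq ?_)
  · exact LW_DY hT z () le_rfl s _ (Rc.one h fun _ => rfl) (h.card.trans (by decide)) _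
      (Tay38.Nv_nonneg hT (fun j => H.nn _) s) fun x => (congrArg abs (one_mul _)).trans_le
        (abs_K_le hT (V := fun j => V (j + c)) (fun j => H.nn _) H.le H.top s p _ x)
  · rw [show Fintype.card Sh.one.Lf = 1 from rfl]
    ring

/-- the marked cluster with the upper letter -/
theorem CV_A (hT : Mono 0 T) (h0 : 0 < r) (hr : r ≤ T.length) (hQ : ∀ x y, |Q (r + c) x y| ≤ 2)
    (H : Up T.length c V g) (z : Bool → ℝ) :
    |CV (-1) (fun _ => 1) T c ([pr r Q, dl V] ++ lgs 2) z -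
      twoF r (Q (r + c)) (Dop T (fun j => V (j + c)) (DY T 2 0))| ≤
      10 ^ 7 * Nv T (fun j => g (j + c)) (.two r) * dz T z := by
  have hg : ∀ j, 0 ≤ g (j + c) := fun j => H.nn _
  have hd := dz_nn hT z
  have hF : ∀ {s : Sh} (e : (Sh.two r).Lf → s.Lf) (p q : s.Lf) (x : s.Lf → Bool),
      |pr2 r (Q (r + c)) (fun b => x (e b)) * V (s.shr p q T.length + c) (x p) (x q)| ≤
        2 * Nv T (fun j => g (j + c)) s := fun {s} e p q x => H06.abs_mul_le (hQ _ _)
    (abs_K_le hT (V := fun j => V (j + c)) hg H.le H.top s p q x)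
  have h1 := sg_up (i := 0) (M := T) ((Sk.refl 0 T .one).graft () h0 hr) (h0.trans_le hr)
    (iv_DY T 2 0) (DY_zero' hT 2) (V := fun j => V (j + c)) (fun j => H.sym _)
    (fun j hj => by rw [Nat.le_zero.1 hj, zero_add, H.bot]) H.top (pr2 r (Q (r + c)))
  have hN := Tay38.Nv_nonneg hT hg (.two r)
  have h2 := abs_lg_wt (ε := -1) (i := 0) (by simp) hT hg (β := 14 ^ 2 * 2) (by norm_num)
    ((Sh.two r).graft (Sh.twoL r) 0) ((Sh.two r).nw (Sh.twoL r) 0) fun s e p h =>
      (H06.bnd_DY hT 2 0 (N := 4) (by norm_num) s _ _ (by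
        have := h.card
        rw [card_graft, Wt87.card_two] at this
        exact_mod_cast this) (mul_nonneg zero_le_two (Tay38.Nv_nonneg hT hg s))
        (hF (fun b => e ((Sh.two r).emb (Sh.twoL r) 0 b)) p
          (e ((Sh.two r).nw (Sh.twoL r) 0)))).trans (by
        have := Tay38.Nv_nonneg hT hg s
        norm_num
        linarith)
  have h3 := Tay38.Nv_graft hT hg (.two r) (Sh.twoL r) (Nat.zero_le _)
  rw [zero_add, H.g0, mul_zero, add_zero] at h3
  rw [card_graft, Wt87.card_two] at h2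
  have h4 := abs_lg_wt (ε := -1) (i := 0) (by simp) hT hg (β := 6 * 3 ^ 2 * (14 ^ 3 * dz T z * 2))
    (by positivity) (Sh.two r) (Sh.twoL r) fun s1 e1 q r1 => (abs_lg_wt (ε := -1) (i := 0)
      (by simp) hT hg (β := 14 ^ 3 * dz T z * 2) (by positivity) s1 (e1 (Sh.twoL r))
      fun s2 e2 p r2 => (LW_DY hT z () le_rfl s2 (fun _ => e2 (e1 (Sh.twoL r)))
        (Rc.one r2 (Rc.one r1 (one_two h0))) (by
          have := r1.card
          have := r2.card
          rw [Wt87.card_two] at *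
          omega) _ (mul_nonneg zero_le_two (Tay38.Nv_nonneg hT hg s2))
        (hF (fun b => e2 (e1 b)) p (e2 q))).trans_eq (mul_assoc _ _ _).symm).trans (by
      have h5 : (Fintype.card s1.Lf : ℝ) ≤ 3 := by
        have := r1.card
        rw [Wt87.card_two] at this
        exact_mod_cast this
      have := Tay38.Nv_nonneg hT hg s1
      rw [mul_assoc _ (_ * _)]
      gcongr)
  simp only [← lg_sub] at h4
  rw [Wt87.card_two] at h4
  rw [twoF, Dop_eq_sg, CV_eq, List.map_cons, PW_cons, pr_eq hr]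
  refine (congrArg (fun y => |_ - y|) h1).trans_le ?_
  rw [← sub_add, Finset.sum_range_one]
  refine (abs_add_le _ _).trans ((add_le_add h4 (H06.abs_mul_le
    (show |dm T 0 0| ≤ dz T z from ?_) h2)).trans ?_)
  · rw [show dm T 0 0 = ex T 0 from sub_zero _, abs_of_nonneg (Lsg89.ex_nn hT 0)]
    exact le_add_of_nonneg_right (abs_nonneg _)
  · push_cast
    nlinarith [mul_le_mul_of_nonneg_left h3 hd, mul_nonneg hd hN]

end site

end MxU51

end Crest.Agent.T156.Cas
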