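import Crest.Agent.T156.MxV_51
import Crest.Agent.T156.CLad_90
import Crest.Agent.T156.CMxM_23
import Crest.Agent.T156.LowC_51

/-!
# Row 156, block C (helper51): the mean part of the mixed word, test direction
-/

set_option autoImplicit false
set_option linter.unusedSectionVars false
set_option linter.unusedVariables false

noncomputable section

namespace Crest.Agent.T156.Cas

open MeasureTheory Real Set Filter Topology
open Crest.Agent.T157.E Crest.Agent.T157.Casc Crest.Agent.T157.SL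
open Wt87 (shr_emb shr_nw shr_self shr_comm shr_le shr_min shr_two card_graft)
open Leg51

namespace MxU51

open Low51 hiding Eg

variable {Ω S Θ ι : Type} {i k n N : ℕ} {M : List (Lv Θ)} {t : Sh} {Φ : EF} {x γ β : ℝ}

/-- the upper letter in the marked cluster -/
def eA (k : ℕ) : List (Ed Sh.one.Lf) := [em () k, ⟨(), (), .leg, .leg⟩]
/-- the upper letter opens a cluster -/
def eB (y k : ℕ) : List (Ed (Sh.two y).Lf) :=
  [em (Sh.twoL y) k, ⟨Sh.twoR y, Sh.twoR y, .leg, .fix⟩]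

theorem lg_congr {ε : ℝ} {s : Sh} {a : s.Lf} {Ψ Ψ' : ∀ s' : Sh, (s.Lf → s'.Lf) → s'.Lf → ℝ}
    (h : ∀ s' e c, Rc i M.length s a .leg s' e c → Ψ s' e c = Ψ' s' e c) :
    lg ε i M s a Ψ = lg ε i M s a Ψ' := lgm_congr (o := .leg) trivial s a h

theorem LE_eA (Ψ : EF) : LE (-1) i M (eA k) (cs' Ψ) .one id [] =
    lg (-1) i M (.two k) (Sh.twoL k) fun s1 e1 q => lg (-1) i M s1 (e1 (Sh.twoL k))
      fun s2 e2 p => Ψ s2 [(e2 (e1 (Sh.twoL k)), e2 (e1 (Sh.twoR k))), (p, e2 q)] := rfl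

theorem LE_eB (hk : i < k) (hk' : k ≤ M.length) {y : ℕ} (hy : y ≤ i) (Ψ : EF) :
    LE (-1) i M (eB y k) (cs' Ψ) (.two y) id [] =
      lg (-1) i M ((Sh.two k).graft (Sh.twoL k) y) ((Sh.two k).nw (Sh.twoL k) y) fun s2 e2 p =>
        Ψ s2 [(e2 ((Sh.two k).emb (Sh.twoL k) y (Sh.twoL k)),
          e2 ((Sh.two k).emb (Sh.twoL k) y (Sh.twoR k))), (p, e2 ((Sh.two k).nw (Sh.twoL k) y))] := by
  have h3 := LE_pull (ε := -1) (hk.le.trans hk') (ι := Unit) () hy
    (Low51.Eg (-1) i M ⟨none, none, .leg, .fix⟩ (cs' Ψ)) [em () k]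
    (by simp only [List.forall_mem_cons]; exact ⟨⟨trivial, hk, hk'⟩, by simp⟩)
  exact (LE_map (ε := -1) (i := i) (M := M)
    (fun o : Option Unit => o.elim (Sh.twoR y) fun _ => Sh.twoL y) Ψ
    [em (some ()) k, ⟨none, none, .leg, .fix⟩] (.two y) id []).trans
      (congrFun (congrFun (congrFun h3 .one) id) []).symm

/-- **exact cluster form**: marked pair, one upper site letter, low letters -/
theorem wB_up {B : (s : Sh) → ((s.Lf → Ω) → ℝ) → ((s.Lf → S) → ℝ) → ℝ}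
    {V : List ((ℕ → Ω → Ω → ℝ) × (ℕ → S → S → ℝ))} (hi : i < M.length)
    (hB : ∀ s ξ, B s (fun _ => 0) ξ = 0)
    (hB' : ∀ s G c ξ, B s G (fun x => c * ξ x) = c * B s G ξ) (hI : IV2 M.length B)
    (hV : ∀ p ∈ V, ∀ j, i < j → p.1 j = 0) {U : ℕ → S → S → ℝ} (hs : ∀ j x y, U j x y = U j y x)
    (hlo : ∀ j ≤ i, U j = 0) (ht : ∀ y, U M.length y y = 0) (hk : i < k) (hk' : k ≤ M.length)
    (Z : ℕ → S → S → ℝ) :
    Mul55.wB (-1) M B ((fun _ _ _ => 1, U) :: V) (.two k) (fun _ => 1) (pr2 k (Z k)) =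
      CW (-1) i M (PhiB M.length B ([fun _ _ _ => 1, fun _ _ _ => 1] ++ V.map Prod.fst)
        ([Z, U] ++ V.map Prod.snd)) (List.replicate V.length (lo i)) .one (eA k) -
      ∑ y ∈ Finset.range (i + 1), dm M 0 y * CW (-1) i M (PhiB M.length B
        ([fun _ _ _ => 1, fun _ _ _ => 1] ++ V.map Prod.fst) ([Z, U] ++ V.map Prod.snd))
          (List.replicate V.length (lo i)) (.two y) (eB y k) := by
  have hC : ∀ c ∈ List.replicate V.length (lo i), ∀ j, i < j → c j = 0 := fun c hc j hj => by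
    rw [List.eq_of_mem_replicate hc, lo, if_neg (not_le.2 hj)]
  have cv : ∀ (s : Sh) (a b p q : s.Lf), s.shr a b M.length = k → Mul55.wB (-1) M B V s (fun _ => 1)
      (fun x => Z k (x a) (x b) * U (s.shr p q M.length) (x p) (x q)) =
      (List.replicate V.length (lo i)).foldr (St (-1) M) (PhiB M.length B
        ([fun _ _ _ => 1, fun _ _ _ => 1] ++ V.map Prod.fst) ([Z, U] ++ V.map Prod.snd)) s
        [(a, b), (p, q)] := fun s a b p q h => by
    refine Eq.trans (congrArg₂ (Mul55.wB (-1) M B V s) (funext fun x => ?_) (funext fun x => ?_))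
      (wB_St hB V hV _ _ s _ rfl rfl)
    · simp [prE]
    · simp [prE, h]
  have h2 : (Sh.two k).shr (Sh.twoL k) (Sh.twoR k) M.length = k :=
    (shr_two k _).trans (min_eq_left hk')
  have e := sg_up (s := .two k) (a := Sh.twoL k) ((Sk.refl i M .one).graft () hk hk') hi
    (IV2.wB hI hB V fun p hp => hV p hp _ hi).one (fun s => by
      simpa using C40.Mx23.wB_mul (ε := -1) (M := M) hB' V s (fun _ => 1) 0 fun _ => 0) hs hlo ht
    (pr2 k (Z k))
  rw [Mul55.wB]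
  refine Eq.trans (congrArg _ (funext fun τ => congrArg (Mul55.wB (-1) M B V τ.sh · _)
    (funext fun x => one_mul _)))
    (e.trans (congrArg₂ (· - ·) ?_ (Finset.sum_congr rfl fun y hy => mc ?_)))
  · rw [← LE_St hi (by norm_num) _ _ hC _ (sep_one i) _ (by
      simp only [eA, List.forall_mem_cons]
      exact ⟨⟨trivial, hk, hk'⟩, ⟨trivial, trivial⟩, by simp⟩)]
    rw [LE_eA]
    exact lg_congr fun s1 e1 q h1 =>
      lg_congr fun s2 e2 p h3 =>
        cv s2 _ _ _ _ ((h3.shr _ _ _).trans ((h1.shr _ _ _).trans h2))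
  · have hy := Nat.lt_succ_iff.1 (Finset.mem_range.1 hy)
    rw [← LE_St hi (by norm_num) _ _ hC _ (sep_two hy) _ (by
      simp only [eB, List.forall_mem_cons]
      exact ⟨⟨trivial, hk, hk'⟩, ⟨trivial, trivial⟩, by simp⟩), LE_eB hk hk' hy]
    exact lg_congr fun s2 e2 p h3 =>
      cv s2 _ _ _ _ ((h3.shr _ _ _).trans ((shr_emb _ _ _ _ _ _).trans h2))

/-! ### crude terms -/

/-- a skeleton, the marked pair first, then edges without grafts -/
def Iv (i k : ℕ) (t : Sh) (E : List (Ed t.Lf)) : Prop :=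
  Sep i t ∧ ∃ m E', E = em m k :: E' ∧ ∀ d ∈ E', d.op.Lo ∧ d.oq.Lo

theorem Iv.app {E E' : List (Ed t.Lf)} (h : Iv i k t E) (h' : ∀ d ∈ E', d.op.Lo ∧ d.oq.Lo) :
    Iv i k t (E ++ E') := by
  obtain ⟨h, m, E, rfl, hE⟩ := h
  exact ⟨h, m, E ++ E', rfl, fun d hd => (List.mem_append.1 hd).elim (hE d) (h' d)⟩

theorem Iv.nx {E : List (Ed t.Lf)} (h : Iv i k t E) {τ : GT t} {op oq : Bool}
    (H : LM i n t τ op oq) : Iv i k τ.sh (nx τ op oq E) := by
  obtain ⟨h, m, E, rfl, hE⟩ := h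
  refine Iv.app ⟨H.sep h, τ.e m, E.map (Ed.map τ.e), rfl, fun d hd => ?_⟩ fun d hd => ?_
  · obtain ⟨d', h', rfl⟩ := List.mem_map.1 hd
    exact hE d' h'
  · rw [List.mem_singleton.1 hd]
    exact ⟨md_lo _, md_lo _⟩

theorem abs_LE_iv {g : ℕ → ℝ} (hM : Mono 0 M) (hg : ∀ j, 0 ≤ g j) (g0 : ∀ j ≤ i, g j = 0)
    (hk : i < k) (hk' : k ≤ M.length) (hβ : 0 ≤ β)
    (h : ∀ s cs, cs.length = 4 → |Φ s cs| ≤ β * Nv M g s) {E : List (Ed t.Lf)} (H : Iv i k t E)
    (hl : E.length = 4) (hN : Fintype.card t.Lf ≤ 6) : |LE (-1) i M E (cs' Φ) t id []| ≤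
      (6 * 14 ^ 2) ^ 6 * 12 * β * (g k + Nv M g .one) := by
  obtain ⟨hs, m, E, rfl, hE⟩ := H
  have hl' : E.length = 3 := Nat.succ.inj hl
  have e : ∀ {t : Sh}, Sep i t → Nv M g t = ∑ j ∈ Finset.range (M.length + 1), dm M 0 j * g j :=
    fun {t} hs => by
    rw [Nv, prs, Finset.sum_eq_zero fun a _ => Finset.sum_eq_zero fun b _ => ?_, zero_add]
    split_ifs with u
    · rfl
    · have := shr_min t a b (i + 1) M.length
      have h1 := shr_le t a b (i + 1)
      rw [min_eq_left (by omega)] at this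
      exact g0 _ (by have := mt (hs a b) u; omega)
  have h1 := abs_LE_wt (ε := -1) (Ψ := cs' Φ) (N := 14) (by simp) hM hg hβ E [em m k] hE
    (by simp; omega) _ _ _ (Rch.nil.step (d := em m k) (.gr hk hk') .fix) fun s e cs H =>
      h s cs (H.ends.length_eq.symm.trans hl)
  have h2 := Tay38.Nv_graft hM hg t m hk'
  have h3 : (Fintype.card t.Lf : ℝ) ≤ 6 := by exact_mod_cast hN
  have h4 := Tay38.Nv_nonneg hM hg .one
  rw [e hs, ← e (sep_one i)] at h2
  rw [hl'] at h1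
  refine h1.trans ?_
  have h5 : Nv M g (t.graft m k) ≤ 12 * (g k + Nv M g .one) := by nlinarith [hg k]
  calc _ ≤ (6 * 14 ^ 2) ^ 6 * β * (12 * (g k + Nv M g .one)) := by
        push_cast; exact mul_le_mul_of_nonneg_left h5 (by positivity)
    _ = _ := by ring

section cw
variable (hM : Mono 0 M) (hi : i < M.length) (hγ : 0 ≤ γ) (hb : ∀ t E, Iv i k t E → E.length = 4 →
  Fintype.card t.Lf ≤ 6 → |LE (-1) i M E (cs' Φ) t id []| ≤ γ)
include hM hi hγ hb

theorem abs_CW_iv : ∀ (l : ℕ) (t : Sh) (E : List (Ed t.Lf)), Iv i k t E → E.length + l = 4 →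
    Fintype.card t.Lf + 2 * l ≤ 6 →
    |CW (-1) i M Φ (List.replicate l (lo i)) t E| ≤ 180 ^ l * γ
  | 0, t, E, H, h1, h2 => (hb t E H h1 h2).trans_eq (by simp)
  | l + 1, t, E, H, h1, h2 => by
      have hs : (Fintype.card t.Lf : ℝ) ≤ 6 := by exact_mod_cast (by omega)
      refine (Lsg89.abs_lsg_le (by simp) hM (β := 180 ^ l * γ) (by positivity)
        fun τ op oq u => ?_).trans ?_
      · have := Lsg89.LM.card u hi.le
        rw [abs_mul]
        exact (mul_le_of_le_one_left (abs_nonneg _) (Y89.abs_lo_le _)).trans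
          (abs_CW_iv l _ _ (H.nx u) (by rw [len_nx]; omega) (by omega))
      · calc _ ≤ 5 * (6 : ℝ) ^ 2 * (180 ^ l * γ) := by gcongr
          _ = _ := by ring

/-- two clusters: up to `O (x)` all further edges join them -/
theorem CW_two (hx : ex M i ≤ x) {p q : t.Lf} (hpq : p ≠ q) (hc : ∀ a, a = p ∨ a = q) {v : ℝ} :
    ∀ (l : ℕ) (E : List (Ed t.Lf)), Iv i k t E → E.length + l = 4 →
    Fintype.card t.Lf + 2 * l ≤ 6 → (∀ E', E'.length = l → (∀ d ∈ E', Y89.PQ p q d) →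
      |LE (-1) i M (E ++ E') (cs' Φ) t id [] - v| ≤ x * γ) →
    |CW (-1) i M Φ (List.replicate l (lo i)) t E - 2 ^ l * v| ≤ 180 ^ l * (x * γ)
  | 0, E, _, _, _, hv => by simpa [CW] using hv [] rfl (by simp)
  | l + 1, E, H, h1, h2, hv => by
      have hN : (Fintype.card t.Lf : ℝ) ≤ 6 := by exact_mod_cast (by omega)
      have x0 := Lsg89.ex_nn hM i
      have x1 := x0.trans hx
      have h3 := Lsg89.abs_lsg_sub_old (ε := -1) (i := i) (t := t) (by simp) hM (β := 180 ^ l * γ)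
        (Φ := fun τ op oq => lo i τ.j * CW (-1) i M Φ (List.replicate l (lo i)) τ.sh (nx τ op oq E))
        (by positivity) fun τ op oq u => by
          have := Lsg89.LM.card u hi.le
          rw [abs_mul]
          exact (mul_le_of_le_one_left (abs_nonneg _) (Y89.abs_lo_le _)).trans
            (abs_CW_iv hM hi hγ hb l _ _ (H.nx u) (by rw [len_nx]; omega) (by omega))
      have key : ∀ a b : t.Lf, b ≠ a → Y89.PQ p q ⟨a, b, .leg, .leg⟩ →
          |lo i (GT.g0 t M.length a b).j * CW (-1) i M Φ (List.replicate l (lo i)) t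
            (nx (.g0 t M.length a b) true true E) - 2 ^ l * v| ≤ 180 ^ l * (x * γ) :=
          fun a b hab hd => by
        have e : @Eq (List (Ed t.Lf)) (nx (.g0 t M.length a b) true true E)
            (E ++ [⟨a, b, .leg, .leg⟩]) :=
          congrArg (· ++ [(⟨a, b, .leg, .leg⟩ : Ed t.Lf)]) (List.map_id' E)
        rw [lo, if_pos (Lsg89.LM.j_le (.g0 hab) H.1 hi), one_mul, e]
        refine CW_two hx hpq hc l _ (H.app fun d hd => ?_) (by simp; omega) (by omega)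
            fun E' hE' hd' => ?_
        · rw [List.mem_singleton.1 hd]
          exact ⟨trivial, trivial⟩
        · rw [List.append_assoc]
          exact hv _ (by simp [hE']) fun d h' => (List.mem_cons.1 h').elim (· ▸ hd) (hd' d)
      have k1 := key p q hpq.symm (.inl rfl)
      have k2 := key q p hpq (.inr rfl)
      rw [Lsg89.old_pair hpq hc] at h3
      rw [List.replicate_succ, CW]
      have h4 : 4 * (Fintype.card t.Lf : ℝ) ^ 2 * ex M i * (180 ^ l * γ) ≤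
          4 * 6 ^ 2 * x * (180 ^ l * γ) := by gcongr
      have h5 : 0 ≤ 180 ^ l * (x * γ) := by positivity
      have h6 := abs_add_three _ _ _ |>.trans (add_le_add (add_le_add (h3.trans h4) k1) k2)
      refine Eq.trans_le (congrArg abs ?_) (h6.trans (by rw [pow_succ _ l]; linarith))
      rw [pow_succ]
      exact (by intros; ring : ∀ a b c d : ℝ,
        a - d * 2 * v = a - (b + c) + (b - d * v) + (c - d * v)) _ _ _ _

theorem abs_low {T : ℕ → ℝ} {c : ℝ} (hx : ex M i ≤ x) (hc : 0 ≤ c) (h : ∀ y ≤ i, |T y| ≤ c) :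
    |∑ y ∈ Finset.range (i + 1), dm M 0 y * T y| ≤ x * c := by
  have := Lsg89.abs_cw_lo hM .one i (G := fun _ y => T y) hc fun _ y hy => h y hy
  rw [Wt87.sum_one] at this
  rw [show Fintype.card Sh.one.Lf = 1 from rfl, Nat.cast_one, one_mul,
    Finset.sum_congr rfl fun y _ => congrArg (· * T y) (Lsg89.cw_one M () y)] at this
  exact this.trans (mul_le_mul_of_nonneg_right hx hc)

/-- one cluster: the first low letter opens a cluster, the second one joins the two -/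
theorem CW_one (hx : ex M i ≤ x) {v : ℕ → ℝ} (hv : ∀ y ≤ i, ∀ d : Ed (Sh.two y).Lf,
      d = ⟨Sh.twoL y, Sh.twoR y, .leg, .fix⟩ ∨ d = ⟨Sh.twoR y, Sh.twoL y, .fix, .leg⟩ → ∀ E',
      E'.length = 1 → (∀ d ∈ E', Y89.PQ (Sh.twoL y) (Sh.twoR y) d) → |LE (-1) i M
        ([em (Sh.twoL y) k, ⟨Sh.twoL y, Sh.twoL y, .leg, .leg⟩, d] ++ E') (cs' Φ) (.two y) id [] -
          v y| ≤ x * γ) :
    |CW (-1) i M Φ (List.replicate 2 (lo i)) .one (eA k) +
      ∑ y ∈ Finset.range (i + 1), dm M 0 y * (4 * v y)| ≤ 720 * (x ^ 2 * γ) := by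
  have x0 := Lsg89.ex_nn hM i
  have x1 := x0.trans hx
  have H : Iv i k .one (eA k) := ⟨sep_one i, (), _, rfl, fun d hd => by
    rw [List.mem_singleton.1 hd]; exact ⟨trivial, trivial⟩⟩
  set Ψ : GT .one → Bool → Bool → ℝ := fun τ op oq => lo i τ.j *
    CW (-1) i M Φ (List.replicate 1 (lo i)) τ.sh (nx τ op oq (eA k)) with hΨ
  have h1 := abs_low hM hi hγ hb (T := fun y => Ψ (.g1 .one () y ()) true false +
      Ψ (.g1' .one () y ()) false true - 4 * v y) (c := 360 * (x * γ)) hx (by positivity)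
    fun y hy => by
      have c : Fintype.card (Sh.two y).Lf + 2 * 1 ≤ 6 := by rw [Wt87.card_two]; omega
      have t1 := CW_two hM hi hγ hb hx (Tay38.two_ne y) (Wt87.two_cases y) 1 _
        (H.nx (n := M.length) (LM.g1 (t := .one) () () hy)) rfl c (hv y hy _ (.inl rfl))
      have t2 := CW_two hM hi hγ hb hx (Tay38.two_ne y) (Wt87.two_cases y) 1 _
        (H.nx (n := M.length) (LM.g1' (t := .one) () () hy)) rfl c (hv y hy _ (.inr rfl))
      have e : lo i y = 1 := if_pos hy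
      refine Eq.trans_le (congrArg abs ?_) (((abs_add_le _ _).trans (add_le_add t1 t2)).trans_eq
        (by ring))
      refine Eq.trans (congrArg₂ (· - ·) (congrArg₂ (· + ·) ((congrArg (· * _) e).trans (one_mul _))
        ((congrArg (· * _) e).trans (one_mul _))) rfl) ?_
      exact (by intros; ring : ∀ a b c : ℝ, a + b - 4 * c = a - 2 ^ 1 * c + (b - 2 ^ 1 * c)) _ _ _
  have h2 := Lsg89.abs_two_le (i := i) (Φ := Ψ) (β := 180 ^ 1 * γ) hM (by positivity) fun τ u => by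
    have := Lsg89.LM.card u hi.le
    rw [abs_mul]
    exact (mul_le_of_le_one_left (abs_nonneg _) (Y89.abs_lo_le _)).trans
      (abs_CW_iv hM hi hγ hb 1 _ _ (H.nx u) (by rw [len_nx]; rfl)
        (by change _ ≤ 1 + 2 at this; omega))
  have h4 : 2 * (Fintype.card Sh.one.Lf : ℝ) ^ 2 * ex M i ^ 2 * (180 ^ 1 * γ) ≤
      360 * (x ^ 2 * γ) := by
    calc _ = 360 * (ex M i ^ 2 * γ) := by
          rw [show Fintype.card Sh.one.Lf = 1 from rfl]; push_cast; ring
      _ ≤ _ := by gcongr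
  show |lsg (-1) i M .one Ψ + _| ≤ _
  rw [Lsg89.lsg_eq, Lsg89.old_one, Lsg89.one_one]
  replace h2 := h2.trans h4
  simp only [mul_sub, Finset.sum_sub_distrib] at h1
  rw [abs_le] at h1 h2 ⊢
  constructor <;> nlinarith [h1.1, h1.2, h2.1, h2.2]

end cw

end MxU51

namespace C40.Mx51

open MxU51 Mul55 L90
open Low51 hiding Eg
open Crest.Agent.T157.G1 (ov)
open Crest.ProbabilityR.SpinGlassDynamics (spin)
open One15 (xs w1)
open Y44 (bet r2)
open Y4 (RR ZZ RR_lo RR_hi ZZ_lo cutS tiltB monoS abs_ZZ)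
open Mx23 (b2 b2_nn bet_sq sum_bet pM pL MxM)
open H06 (DY)

variable {D : CD} {τ0 : ℝ}

/-- the value of a tree -/
abbrev PT (D : CD) : EF := PhiB D.B.length (cB D) [fun _ _ _ => 1, fun _ _ _ => 1, RR D, RR D]
  [oE D.q, D.Sd, ZZ D, ZZ D]

/-- the size of the mean letter -/
def gS (D : CD) (τ0 : ℝ) (j : ℕ) : ℝ := if D.J < j then 2 * τ0 * D.g j else 0

theorem gS_nn (H : D.Ok τ0) (j : ℕ) : 0 ≤ gS D τ0 j := by
  have := H.tau0
  have := D.g0 j
  unfold gS
  split_ifs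
  · positivity
  · rfl

theorem gS_lo {j : ℕ} (hj : j ≤ D.J) : gS D τ0 j = 0 := if_neg (not_lt.2 hj)

theorem abs_Sd (H : D.Ok τ0) (j : ℕ) (hj : j ≤ D.B.length) (a b : Bool) :
    |D.Sd j a b| ≤ gS D τ0 j := by
  unfold CD.Sd gS
  split_ifs
  · have h1 := H.tau_mem j
    have h2 := (Mx23.abs_del D j).trans (Ck32.u_le_g (D := D) (p := 1) (by norm_num) j)
    have h3 := D.g0 j
    rw [pow_one] at h2
    rw [abs_mul, abs_mul, abs_of_nonneg (by linarith : 0 ≤ D.τ j / 2)]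
    calc _ ≤ τ0 / 2 * (2 * D.g j) * 2 := by
          gcongr
          exacts [by have := H.tau0; positivity, by have := H.tau0; positivity, h1.2,
            abs_ZZ H j hj a b]
      _ = _ := by ring
  · exact abs_zero.le

theorem Sd_sym (j : ℕ) (a b : Bool) : D.Sd j a b = D.Sd j b a := by
  simp only [CD.Sd, oE, mul_comm (spin a)]

theorem Sd_lo {j : ℕ} (hj : j ≤ D.J) : D.Sd j = 0 := by
  funext a b
  exact if_neg (not_lt.2 hj)

theorem Sd_top (H : D.Ok τ0) (a : Bool) : D.Sd D.B.length a a = 0 := by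
  simp [CD.Sd, Mx23.oE_top H.ook]

theorem Lc_sq (H : D.Ok τ0) (s : Sh) (a b : s.Lf) : R90.Lc (fun _ => 1) D.B 0 D.J Unit s
    (fun y => RR D (s.shr a b D.B.length) (y a) (y b) ^ 2) = bet D (s.shr a b D.B.length) ^ 2 := by
  rcases le_or_gt (s.shr a b D.B.length) D.J with h | h
  · rw [RR_lo H h, Y89.Lc_pair wt_one90 (cutB H) s h fun x y => (D.τ _ / 2 * ov x y) ^ 2, bet,
      if_pos h]
    simp only [mul_pow]
    rw [pi2_const_mul, sq_sqrt (Y44.r2_nn D _)]
    rfl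
  · simp only [RR_hi h, bet, if_neg (not_le.2 h), Pi.zero_apply]
    exact R90.Lc_const wt_one90 _ s _

theorem abs_PT (H : D.Ok τ0) (s : Sh) : ∀ cs : Low51.EL s, cs.length = 4 →
    |PT D s cs| ≤ 16 * b2 D τ0 * Nv D.B (gS D τ0) s
  | [a, b, c, d], _ => by
      have b0 := b2_nn H
      have h1 := One15.abs_TE_le w1 s D.S 0 (B := 8 * Nv D.B (gS D τ0) s)
        (F := prE D.B.length [oE D.q, D.Sd, ZZ D, ZZ D] [a, b, c, d]) fun x => by
          have := abs_K_le H.mono (gS_nn H) (abs_Sd H) (Sd_top H) s b.1 b.2 x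
          have n0 := (abs_nonneg _).trans this
          have k := fun c : s.Lf × s.Lf => abs_ZZ H _ (shr_le s c.1 c.2 _) (x c.1) (x c.2)
          simp only [prE_cons, prE_nil, abs_mul, abs_one]
          calc _ ≤ 2 * (Nv D.B (gS D τ0) s * (2 * (2 * 1))) := by
                gcongr
                exacts [k a, k c, k d]
            _ = _ := by ring
      have h2 : |R90.Lc (fun _ => 1) D.B 0 D.J Unit s (prE D.B.length
          [fun _ _ _ => 1, fun _ _ _ => 1, RR D, RR D] [a, b, c, d])| ≤ 2 * b2 D τ0 := by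
        refine (R90.abs_Lc_le wt_one90 _ s (G := fun y => ∑ t : Bool,
          RR D (s.shr (cond t c d).1 (cond t c d).2 D.B.length) (y (cond t c d).1)
            (y (cond t c d).2) ^ 2) fun y => ?_).trans ?_
        · simp only [prE_cons, prE_nil, Fintype.sum_bool, one_mul, mul_one, cond]
          exact (by intro a b; rw [abs_le]; constructor <;> nlinarith [sq_nonneg (a - b),
            sq_nonneg (a + b)] : ∀ a b : ℝ, |a * b| ≤ a ^ 2 + b ^ 2) _ _
        · rw [R90.Lc_sum]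
          exact (Finset.sum_le_card_nsmul _ _ _ fun t _ =>
            (Lc_sq H s _ _).trans_le (bet_sq H _)).trans_eq (by simp)
      exact (abs_mul _ _).trans_le ((mul_le_mul h2 h1 (abs_nonneg _) (by positivity)).trans_eq
        (by ring))

theorem iv_cB (H : D.Ok τ0) : IV2 D.B.length (cB D) := fun ι _ G ξ s m s' m' h =>
  congrArg₂ (· * ·) (R90.Lc_map wt_one90 (cutB H) m m' (fun a b => by
    rw [R90.shr_cut (cutB H), R90.shr_cut (cutB H), h.shr]) G)
    (iv_TE w1 D.S 0 ι ξ s m s' m' (Cav22.len_tilt (tiltB D) ▸ h))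

/-- an edge between the two clusters -/
def Jn (y : ℕ) (d : Ed (Sh.two y).Lf) : Prop := (d.op.Lo ∧ d.oq.Lo) ∧
  (d.p = Sh.twoL y ∧ d.q = Sh.twoR y ∨ d.p = Sh.twoR y ∧ d.q = Sh.twoL y)

theorem jn_PQ {y : ℕ} {d : Ed (Sh.two y).Lf} (h : Y89.PQ (Sh.twoL y) (Sh.twoR y) d) : Jn y d := by
  rcases h with rfl | rfl
  exacts [⟨⟨trivial, trivial⟩, .inl ⟨rfl, rfl⟩⟩, ⟨⟨trivial, trivial⟩, .inr ⟨rfl, rfl⟩⟩]

/-- two clusters split at `y` -/
def N2 (D : CD) (y : ℕ) (W W' : List (Ins Bool)) : ℝ := node (fun _ => 1) D.S y (fun z =>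
  node (fun _ => 1) (D.S.drop y) (D.J - y) (CV (-1) (fun _ => 1) (D.S.drop D.J) D.J W) z *
  node (fun _ => 1) (D.S.drop y) (D.J - y) (CV (-1) (fun _ => 1) (D.S.drop D.J) D.J W') z) 0

theorem main (H : D.Ok τ0) {y r : ℕ} (hy : y ≤ D.J) (hr : 0 < r) (hk : r + D.J ≤ D.B.length)
    (a : (Sh.two y).Lf) {o : Md} (ho : o.Lo) {d d' : Ed (Sh.two y).Lf} (hd : Jn y d)
    (hd' : Jn y d') {W : (Sh.two y).Lf → List (Ins Bool)} (hW : ∀ b, W b =
      legs [(Sh.twoL y, pr r (oE D.q)), (a, ⟨.leg, o, D.Sd⟩)] b ++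
        ((List.replicate (cnt false [d, d'] b) spin).map (hf .fix) ++ lgs (cnt true [d, d'] b))) :
    LE (-1) D.J D.B [em (Sh.twoL y) (r + D.J), ⟨a, a, .leg, sh D.J o⟩, d, d'] (cs' (PT D)) (.two y)
      id [] = bet D y ^ 2 * N2 D y (W (Sh.twoL y)) (W (Sh.twoR y)) := by
  have ne : ∀ {d}, Jn y d → d.p ≠ d.q := fun {d} h e => by
    rcases h.2 with ⟨u, v⟩ | ⟨u, v⟩ <;> rw [u, v] at e
    exacts [Tay38.two_ne y e, Tay38.two_ne y e.symm]
  have pl : Pl [d, d'] := by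
    simp only [Pl, List.forall_mem_cons]
    exact ⟨⟨hd.1, ne hd⟩, ⟨hd'.1, ne hd'⟩, by simp⟩
  have hP : ∀ p ∈ [(Sh.twoL y, pr r (oE D.q)), (a, (⟨.leg, o, D.Sd⟩ : Ins Bool))],
      (toEd D.J p).Hi D.J D.B.length := by
    simp only [List.forall_mem_cons]
    refine ⟨⟨trivial, Nat.lt_add_of_pos_left hr, hk⟩, ⟨trivial, ?_⟩, by simp⟩
    cases o
    exacts [trivial, trivial, ho.elim]
  have h1 := LE_siteP (ε := -1) w1 (tiltB D) 0 (sep_two hy) (dep_two hy) (cutB H) hP pl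
    (Z := [ZZ D, ZZ D]) (fs := List.replicate [d, d'].length spin)
    (.cons (fun j hj => ZZ_lo H hj) (.cons (fun j hj => ZZ_lo H hj) .nil)) (by simp)
  simp only [legs_ends] at h1
  rw [SK_two w1 y _ _ hy (cutS H).le, ← hW, ← hW] at h1
  refine (LE_PhiB (cl_Lc wt_one90 0 (cutB H) Unit) _ (sep_two hy) (cutB H) (fun e he => ?_)
    (fun p hp => ?_) _).trans (congrArg₂ (· * ·) ?_ h1)
  · simp only [List.mem_cons, List.not_mem_nil, or_false] at he
    rcases he with rfl | rfl | rfl | rfl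
    exacts [hP _ List.mem_cons_self, hP _ (List.mem_cons_of_mem _ List.mem_cons_self),
      ⟨hd.1.1.hi _ _, hd.1.2.hi _ _⟩, ⟨hd'.1.1.hi _ _, hd'.1.2.hi _ _⟩]
  · simp only [List.zip_cons_cons, List.zip_nil_right, List.mem_cons, List.not_mem_nil,
      or_false] at hp
    rcases hp with rfl | rfl | rfl | rfl
    exacts [fun _ => rfl, fun _ => rfl, fun e => (ne hd e).elim, fun e => (ne hd' e).elim]
  · have h2 : (Sh.two y).shr (Sh.twoL y) (Sh.twoR y) D.B.length = y :=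
      (shr_two y _).trans (min_eq_left (hy.trans (cutB H).le))
    have k : ∀ {d}, Jn y d → ∀ x : (Sh.two y).Lf → Unit → Cube D.n,
        RR D ((Sh.two y).shr d.p d.q D.B.length) (x d.p) (x d.q) =
          RR D y (x (Sh.twoL y)) (x (Sh.twoR y)) := fun {d} h x => by
      rcases h.2 with ⟨u, v⟩ | ⟨u, v⟩ <;> rw [u, v]
      · rw [h2]
      · rw [shr_comm, h2, RR_lo H hy]
        exact mc (Y4.ov_symm _ _)
    have h3 := Lc_sq H (.two y) (Sh.twoL y) (Sh.twoR y)
    rw [h2] at h3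
    refine Eq.trans (congrArg _ (funext fun x => ?_)) h3
    simp only [sk, List.map_cons, List.map_nil, prE_cons, prE_nil, k hd, k hd', one_mul, mul_one, sq]

/-! ### the frozen values -/

/-- the marked pair with the mean letter -/
def vA (D : CD) (k : ℕ) : ℝ := twoF (k - D.J) (oE D.q k)
  (Dop (D.S.drop D.J) (fun j => D.Sd (j + D.J)) (DY (D.S.drop D.J) 2 0))
/-- the marked pair -/
def vM (D : CD) (k : ℕ) : ℝ := twoF (k - D.J) (oE D.q k) (DY (D.S.drop D.J) 2 0)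
/-- the mean letter alone -/
def vB (D : CD) : ℝ := -pairF (D.S.drop D.J) (fun j => D.Sd (j + D.J)) (DY (D.S.drop D.J) 2 0)
/-- the weight of the node `k` -/
def wk (D : CD) (τ0 : ℝ) (k : ℕ) : ℝ := gS D τ0 k + 2 * τ0 * D.N1

theorem lenT (H : D.Ok τ0) : (D.S.drop D.J).length + D.J = D.B.length := by
  rw [List.length_drop, Nat.sub_add_cancel (cutS H).le, Cav22.len_tilt (tiltB D)]

theorem up_Sd (H : D.Ok τ0) : Up (D.S.drop D.J).length D.J D.Sd (gS D τ0) :=
  ⟨Sd_sym, Sd_lo le_rfl, fun y => lenT H ▸ Sd_top H y, gS_nn H, gS_lo le_rfl, fun j hj =>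
    abs_Sd H _ (lenT H ▸ Nat.add_le_add_right hj _)⟩

theorem sum_gS (D : CD) (τ0 : ℝ) : ∑ j ∈ D.up, D.dx j * gS D τ0 j = 2 * τ0 * D.N1 := by
  rw [CD.N1, ← CD.I_mul]
  exact Finset.sum_congr rfl fun j hj => mc (if_pos (CD.mem_up.1 hj).1)

theorem n0T (H : D.Ok τ0) : ∑ j ∈ Finset.range ((D.S.drop D.J).length + 1),
    dm (D.S.drop D.J) 0 j * gS D τ0 (j + D.J) = 2 * τ0 * D.N1 :=
  (Hd50.sum_up H.top le_rfl H.cut fun j hj => gS_lo hj).trans (sum_gS D τ0)

theorem Nv_one {Θ : Type} (M : List (Lv Θ)) (g : ℕ → ℝ) :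
    Nv M g .one = ∑ j ∈ Finset.range (M.length + 1), dm M 0 j * g j := by
  rw [Nv, prs, Finset.sum_eq_zero fun a _ => Finset.sum_eq_zero fun b _ => ?_, zero_add]
  exact if_pos rfl

theorem n0B (H : D.Ok τ0) : Nv D.B (gS D τ0) .one = 2 * τ0 * D.N1 := by
  have := Hd50.sum_up (i := 0) H.top (Nat.zero_le _) H.cut (g := gS D τ0) fun j hj => gS_lo hj
  rw [Nv_one, ← sum_gS, ← this, Cav22.len_tilt (tiltB D)]
  exact Finset.sum_congr rfl fun j _ => congrArg (· * _) (Cav22.dm_tilt (tiltB D) 0 j)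

theorem n0_nn (H : D.Ok τ0) : 0 ≤ 2 * τ0 * D.N1 := by
  have := H.tau0
  have := H.N10
  positivity

theorem eg_dz (T : List (Lv Bool)) : Crest.Agent.T157.Casc.Eg (dz T) :=
  (Eg.const _).add One15.lg_xs.eg.abs

theorem node_dz (H : D.Ok τ0) : node (fun _ => 1) D.S D.J (dz (D.S.drop D.J)) 0 ≤ 21 * D.X := by
  obtain ⟨l, L, e, -, h⟩ := Y4.exists_drop H
  have h1 := Y4.node_xs H
  unfold dz
  rw [node_add w1 (Eg.const _) One15.lg_xs.eg.abs, node_const w1, e]
  change l.m + _ ≤ _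
  linarith

variable {y r : ℕ}

theorem N2_A (H : D.Ok τ0) (hy : y ≤ D.J) (hr : 0 < r) (hk : r + D.J ≤ D.B.length) :
    |N2 D y ([pr r (oE D.q), dl D.Sd] ++ lgs 2) ([hf .fix spin] ++ lgs 1) -
      vA D (r + D.J) * D.lam| ≤ D.X * (10 ^ 21 * wk D τ0 (r + D.J)) := by
  have hT := H06.monoJ H D.J
  have hr' : r ≤ (D.S.drop D.J).length := by have := lenT H; omega
  have hQ := abs_ZZ H _ hk
  have h0 := n0_nn H
  have h1 := gS_nn H (r + D.J)
  have hX := H.X0
  have e : Nv (D.S.drop D.J) (fun j => gS D τ0 (j + D.J)) (.two r) =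
      2 * gS D τ0 (r + D.J) + 2 * τ0 * D.N1 := by rw [H06.Nv_two _ _ hr', n0T H]
  have h2 := (H06.bnd_DY hT 2 0 (N := 4) (by norm_num)).two_wt hT (by positivity)
    (fun j => gS_nn H (j + D.J)) (up_Sd H).le hr' zero_le_two hQ
  rw [n0T H] at h2
  have h3 := node_two w1 (L := D.S) hy (eg_CV w1 _ _) (eg_CV w1 _ _) (eg_dz _)
    (CV_A hT hr hr' hQ (up_Sd H)) (h2.trans (by rw [e]; push_cast; linarith))
    (fun z => (CV_0 (c := D.J) hT z).2) (fun z => (CV_0 hT z).1) 0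
  rw [vA, Nat.add_sub_cancel, show D.lam = _ from H06.iter_Ph _ 1 0]
  refine h3.trans ?_
  rw [e]
  calc _ ≤ 2 * (10 ^ 7 * (2 * gS D τ0 (r + D.J) + 2 * τ0 * D.N1) * 14 ^ 3) * (21 * D.X) :=
        mul_le_mul_of_nonneg_left (node_dz H) (by positivity)
    _ ≤ _ := by unfold wk; nlinarith [mul_nonneg hX h0, mul_nonneg hX h1]

theorem N2_B (H : D.Ok τ0) (hy : y ≤ D.J) (hr : 0 < r) (hk : r + D.J ≤ D.B.length) :
    |N2 D y ([pr r (oE D.q)] ++ lgs 2) ([fl D.Sd] ++ lgs 2) - vB D * vM D (r + D.J)| ≤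
      D.X * (10 ^ 21 * wk D τ0 (r + D.J)) := by
  have hT := H06.monoJ H D.J
  have hr' : r ≤ (D.S.drop D.J).length := by have := lenT H; omega
  have hQ := abs_ZZ H _ hk
  have h0 := n0_nn H
  have h1 := gS_nn H (r + D.J)
  have hX := H.X0
  have e : Nv (D.S.drop D.J) (fun j => gS D τ0 (j + D.J)) .one = 2 * τ0 * D.N1 := by
    rw [Nv_one, n0T H]
  have h2 := (H06.bnd_DY hT 2 0 (N := 2) (by norm_num)).pair hT
    (fun j => gS_nn H (j + D.J)) (up_Sd H).le
  rw [n0T H] at h2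
  have h3 := node_two w1 (L := D.S) hy (eg_CV w1 _ _) (eg_CV w1 _ _) (eg_dz _) (a := vB D)
    (fun z => by rw [vB, sub_neg_eq_add]; exact CV_B hT (up_Sd H) z)
    (by rw [vB, abs_neg, e]; exact h2.trans (by push_cast; linarith))
    (fun z => (CV_M hT hr hr' hQ z).2) (fun z => (CV_M hT hr hr' hQ z).1) 0
  rw [vM, Nat.add_sub_cancel, N2]
  simp only [mul_comm (node _ _ _ (CV _ _ _ _ ([pr r (oE D.q)] ++ lgs 2)) _)]
  refine h3.trans ?_
  rw [e]
  calc _ ≤ 2 * (6 * 14 ^ 3 * (2 * τ0 * D.N1) * (2 * 14 ^ 3)) * (21 * D.X) :=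
        mul_le_mul_of_nonneg_left (node_dz H) (by positivity)
    _ ≤ _ := by unfold wk; nlinarith [mul_nonneg hX h0, mul_nonneg hX h1]

theorem wk_nn (H : D.Ok τ0) (k : ℕ) : 0 ≤ wk D τ0 k := add_nonneg (gS_nn H k) (n0_nn H)

theorem scale (H : D.Ok τ0) {a b : ℝ} {k : ℕ} (h : |a - b| ≤ D.X * (10 ^ 21 * wk D τ0 k)) :
    |bet D y ^ 2 * a - bet D y ^ 2 * b| ≤ D.X * (10 ^ 21 * wk D τ0 k * b2 D τ0) := by
  rw [← mul_sub, abs_mul, abs_sq, ← mul_assoc, mul_comm]
  exact mul_le_mul h (bet_sq H y) (sq_nonneg _) ((abs_nonneg _).trans h)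

/-- **one marked node** -/
theorem node_k (H : D.Ok τ0) {k : ℕ} (hk : k ∈ D.up) :
    |wB (-1) D.B (cB D) ([pM D, pL D, pL D].map cc) (.two k) (fun _ => 1) (pr2 k (oE D.q k)) +
      D.S2 * (vA D k * D.lam + vB D * vM D k)| ≤
      40000 * (D.X ^ 2 * (10 ^ 21 * wk D τ0 k * b2 D τ0)) := by
  obtain ⟨k1, k2⟩ := CD.mem_up.1 hk
  have hk' : k ≤ D.B.length := D.B_len ▸ k2.le
  have e0 := wB_up (B := cB D) (V := [(RR D, ZZ D), (RR D, ZZ D)]) (cutB H) (Y4.cB_zero D)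
    (fun s G c ξ => (congrArg (_ * ·) (Law.TE_const_mul w1 _ _ _ _ _)).trans (mul_left_comm _ _ _))
    (iv_cB H) (fun p hp j hj => by
      simp only [List.mem_cons, List.not_mem_nil, or_self, or_false] at hp
      exact hp ▸ RR_hi hj) Sd_sym (fun j hj => Sd_lo hj) (Sd_top H) k1 hk' (oE D.q)
  refine Eq.trans_le (congrArg abs (congrArg₂ (· + ·) e0 rfl)) ?_
  obtain ⟨r, rfl⟩ : ∃ r, k = r + D.J := ⟨k - D.J, by omega⟩
  have hr : 0 < r := by omega
  have b0 := b2_nn H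
  have w0 := wk_nn H (r + D.J)
  have hX := H.X0
  have ne := fun y => Tay38.two_ne y
  set γ := 10 ^ 21 * wk D τ0 (r + D.J) * b2 D τ0 with hγ
  have g0 : 0 ≤ γ := by positivity
  have hb : ∀ t E, Iv D.J (r + D.J) t E → E.length = 4 → Fintype.card t.Lf ≤ 6 →
      |LE (-1) D.J D.B E (cs' (PT D)) t id []| ≤ γ := fun t E h1 h2 h3 => by
    refine (abs_LE_iv H.mono (gS_nn H) (fun j => gS_lo) k1 hk' (by positivity) (abs_PT H) h1 h2
      h3).trans ?_
    rw [n0B H, hγ]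
    change _ * wk D τ0 _ ≤ _
    nlinarith [mul_nonneg w0 b0]
  have hA := CW_one H.mono (cutB H) g0 hb H.x1
    (v := fun y => bet D y ^ 2 * (vA D (r + D.J) * D.lam)) fun y hy d hd E' h1 h2 => by
      obtain ⟨d', rfl⟩ := List.length_eq_one_iff.1 h1
      have h3 := h2 d' List.mem_cons_self
      have h4 : Jn y d := by
        rcases hd with rfl | rfl
        exacts [⟨⟨trivial, trivial⟩, .inl ⟨rfl, rfl⟩⟩, ⟨⟨trivial, trivial⟩, .inr ⟨rfl, rfl⟩⟩]
      refine Eq.trans_le (congrArg abs (congrArg (· - _) ((main H hy hr hk' (Sh.twoL y)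
        (o := .leg) trivial h4 (jn_PQ h3) fun _ => rfl).trans (mc ?_)))) (scale H (N2_A H hy hr hk'))
      rcases hd with rfl | rfl <;> rcases h3 with rfl | rfl <;>
        simp [cnt, legs, Md.lg, ne, (ne y).symm, dl]
  have hB := abs_low H.mono (cutB H) g0 hb H.x1 (c := 180 ^ 2 * (D.X * γ)) (by positivity)
    (T := fun y => CW (-1) D.J D.B (PT D) (List.replicate 2 (lo D.J)) (.two y) (eB y (r + D.J)) -
      2 ^ 2 * (bet D y ^ 2 * (vB D * vM D (r + D.J)))) fun y hy =>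
    CW_two H.mono (cutB H) g0 hb H.x1 (ne y) (Wt87.two_cases y) 2 _ ⟨sep_two hy, _, _, rfl,
      fun d hd => by rw [List.mem_singleton.1 hd]; exact ⟨trivial, trivial⟩⟩ rfl
      (by rw [Wt87.card_two]) fun E' h1 h2 => by
      obtain ⟨d, d', rfl⟩ := List.length_eq_two.1 h1
      have h3 := h2 d List.mem_cons_self
      have h4 := h2 d' (List.mem_cons_of_mem _ List.mem_cons_self)
      refine Eq.trans_le (congrArg abs (congrArg (· - _) ((main H hy hr hk' (Sh.twoR y)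
        (o := .fix) trivial (jn_PQ h3) (jn_PQ h4) fun _ => rfl).trans (mc ?_))))
        (scale H (N2_B H hy hr hk'))
      rcases h3 with rfl | rfl <;> rcases h4 with rfl | rfl <;>
        simp [cnt, legs, Md.lg, ne, (ne y).symm, fl]
  have s : ∀ c a : ℝ, ∑ y ∈ Finset.range (D.J + 1), dm D.B 0 y * (c * (bet D y ^ 2 * a)) =
      c * a * (D.S2 / 4) := fun c a => by
    rw [← sum_bet, Finset.mul_sum]
    exact Finset.sum_congr rfl fun y _ => by ring
  simp only [mul_sub, Finset.sum_sub_distrib, s] at hA hB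
  have h5 := mul_nonneg (sq_nonneg D.X) g0
  change |CW (-1) D.J D.B (PT D) (List.replicate 2 (lo D.J)) .one (eA (r + D.J)) -
    ∑ y ∈ Finset.range (D.J + 1), dm D.B 0 y * CW (-1) D.J D.B (PT D) (List.replicate 2 (lo D.J))
      (.two y) (eB y (r + D.J)) + _| ≤ _
  rw [abs_le] at hA hB ⊢
  constructor <;> nlinarith [hA.1, hA.2, hB.1, hB.2]

theorem hc_true : Bd true fun D => hc D [pM D, pL D, pL D] - D.S2 * D.dmx := by
  refine Bd.mk' fun τ0 => ⟨10 ^ 26 * τ0 ^ 3 * 2 * (17 + 1), fun D H hW => ?_⟩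
  have e1 : D.dP 2 [] = -∑ j ∈ D.up, D.om j * vM D j := by
    rw [H06.dP_eq, H06.hd, CD.dd_test hW]; rfl
  have e2 : D.dP 2 [D.Sd] = -∑ j ∈ D.up, D.om j * vA D j := by
    rw [H06.dP_eq, H06.hd, CD.dd_test hW]; rfl
  have e3 : D.val.dP 2 [D.Sd] = vB D := H06.dP_eq D.val 2 _
  have e : hc D [pM D, pL D, pL D] - D.S2 * D.dmx = ∑ k ∈ D.up, D.om k *
      (wB (-1) D.B (cB D) ([pM D, pL D, pL D].map cc) (.two k) (fun _ => 1) (pr2 k (oE D.q k)) +
        D.S2 * (vA D k * D.lam + vB D * vM D k)) := by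
    rw [hc, CD.dmx, CD.dd_test hW, CD.dd_test hW, e1, e2, e3]
    simp only [mul_add, Finset.sum_add_distrib, mul_left_comm (D.om _), ← Finset.mul_sum,
      mul_comm _ D.lam]
    ring
  have t0 := H.tau0
  have hX := H.X0
  have ht := H.tl0
  have n0 := H.N10
  have x2 : D.X ^ 2 ≤ 1 := pow_le_one₀ hX H.X1
  have gl : ∀ j ∈ D.up, D.g j ≤ 2 := fun j hj => by
    refine le_of_pow_le_pow_left₀ three_ne_zero zero_le_two ((D.g_cube j).trans_le ?_)
    simp only [CD.u, uM]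
    exact (pi2_mono wt_one90 D.B j (K' := fun _ _ => 2 ^ 3) (fun x y => pow_le_pow_left₀
      (abs_nonneg _) (abs_oU_le H.ook (CD.mem_up.1 hj).2.le x y) 3) 0).trans_eq
        (pi2_const wt_one90 _ _ _ _)
  have n1 : D.N1 ≤ 2 := H.I_le zero_le_two gl
  rw [e, mul_assoc _ (17 + 1 : ℝ)]
  refine (D.abs_sum_om (b := fun j => 10 ^ 26 * τ0 ^ 3 * 2 *
    (D.X ^ 4 * D.g j + (D.X ^ 4 * D.N1 + 16 * D.tl))) fun k hk => (node_k H hk).trans ?_).trans ?_
  · have g0 := D.g0 k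
    have g2 := gl k hk
    have h1 : D.X ^ 2 * ((D.g k + D.N1) * D.tl) ≤ 4 * D.tl :=
      (mul_le_of_le_one_left (by positivity) x2).trans (by nlinarith)
    rw [wk, gS, if_pos (CD.mem_up.1 hk).1, b2]
    have h2 : D.X ^ 2 * ((D.g k + D.N1) * (D.X ^ 2 + 2 * D.tl)) ≤
        D.X ^ 4 * D.g k + (D.X ^ 4 * D.N1 + 16 * D.tl) := by nlinarith
    calc _ = 4 * 10 ^ 25 * τ0 ^ 3 * 2 * (D.X ^ 2 * ((D.g k + D.N1) * (D.X ^ 2 + 2 * D.tl))) := by
          ring
      _ ≤ _ := by gcongr; norm_num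
  · rw [D.Iw_mul]
    refine mul_le_mul_of_nonneg_left (H.Iw_split hW (by norm_num) zero_le_one ?_ ?_) (by positivity)
    · linarith [H.XN1_le, H.tl_le]
    · linarith [H.IwXg_le]

end C40.Mx51

/-- **the mean part, test direction** -/
theorem C40.Mx51.mxM_true : C40.Mx23.MxM true :=
  ((C40.L90.lad_MLL true).add C40.Mx51.hc_true).congr fun _ D _ _ => by ring

end Crest.Agent.T156.Cas
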