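import Mathlib

/-!
# Row 156: discrete maximum principle for the kernel `min (q i) (q j)` (helper8)

Frame-free linear algebra for the linearised equation `(μ + K) G = s`, `K i j = min (q i) (q j) w j`.
-/

set_option autoImplicit false

noncomputable section

namespace Crest.Agent.T156.Mx

open Finset

variable {ι : Type*} [Fintype ι]

/-- the piecewise linear potential `t ↦ ∑ min t (q j) a j` -/
def pot (q a : ι → ℝ) (t : ℝ) : ℝ := ∑ j, min t (q j) * a j

open Classical in
/-- its slope to the right of `t` -/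
def slp (q a : ι → ℝ) (t : ℝ) : ℝ := ∑ j, if t < q j then a j else 0

theorem pot_zero {q : ι → ℝ} (hq : ∀ j, 0 ≤ q j) (a : ι → ℝ) : pot q a 0 = 0 := by
  unfold pot
  exact sum_eq_zero fun j _ => by rw [min_eq_left (hq j), zero_mul]

theorem pot_add (q a b : ι → ℝ) (t : ℝ) :
    pot q (fun j => a j + b j) t = pot q a t + pot q b t := by
  unfold pot; rw [← sum_add_distrib]; exact sum_congr rfl fun j _ => by ring

theorem pot_sub (q a b : ι → ℝ) (t : ℝ) :
    pot q (fun j => a j - b j) t = pot q a t - pot q b t := by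
  unfold pot; rw [← sum_sub_distrib]; exact sum_congr rfl fun j _ => by ring

theorem pot_neg (q a : ι → ℝ) (t : ℝ) : pot q (fun j => -a j) t = -pot q a t := by
  unfold pot; rw [← sum_neg_distrib]; exact sum_congr rfl fun j _ => by ring

theorem pot_smul (q a : ι → ℝ) (c t : ℝ) : pot q (fun j => c * a j) t = c * pot q a t := by
  unfold pot; rw [mul_sum]; exact sum_congr rfl fun j _ => by ring

theorem pot_congr {q a b : ι → ℝ} (h : ∀ j, a j = b j) (t : ℝ) : pot q a t = pot q b t := by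
  unfold pot; exact sum_congr rfl fun j _ => by rw [h j]

theorem pot_nonneg {q a : ι → ℝ} (hq : ∀ j, 0 ≤ q j) (ha : ∀ j, 0 ≤ a j) {t : ℝ} (ht : 0 ≤ t) :
    0 ≤ pot q a t := sum_nonneg fun j _ => mul_nonneg (le_min ht (hq j)) (ha j)

/-- no node strictly between `s` and `t`: the potential is affine there -/
theorem pot_gap {q : ι → ℝ} (a : ι → ℝ) {s t : ℝ} (hst : s ≤ t) (h : ∀ j, s < q j → t ≤ q j) :
    pot q a t - pot q a s = (t - s) * slp q a s := by
  unfold pot slp
  rw [← sum_sub_distrib, mul_sum]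
  refine sum_congr rfl fun j _ => ?_
  split_ifs with hj
  · rw [min_eq_left (h j hj), min_eq_left hj.le]; ring
  · have h1 : q j ≤ s := not_lt.mp hj
    rw [min_eq_right h1, min_eq_right (h1.trans hst)]; ring

/-- **maximum principle**: if `a j ≥ 0` wherever `u (q j) < 0`, then `u = α + pot ≥ 0` -/
theorem nonneg_of {q a : ι → ℝ} {α : ℝ} (hq : ∀ j, 0 ≤ q j) (hα : 0 ≤ α)
    (h : ∀ j, α + pot q a (q j) < 0 → 0 ≤ a j) {t : ℝ} (ht : 0 ≤ t) : 0 ≤ α + pot q a t := by
  classical
  by_contra hneg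
  push Not at hneg
  set T : Finset ℝ := insert t (insert 0 (univ.image q)) with hT
  have hT0 : ∀ s ∈ T, 0 ≤ s := by
    intro s hs
    simp only [hT, mem_insert, mem_image, mem_univ, true_and] at hs
    rcases hs with rfl | rfl | ⟨j, rfl⟩
    exacts [ht, le_rfl, hq j]
  have hTq : ∀ j, q j ∈ T := fun j => by simp [hT]
  obtain ⟨m, hm, hmin⟩ := exists_min_image T (pot q a) ⟨t, by simp [hT]⟩
  have hne : (T.filter fun s => pot q a s = pot q a m).Nonempty := ⟨m, by simp [hm]⟩
  obtain ⟨t0, ht0, hsm⟩ := exists_min_image _ id hne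
  obtain ⟨ht0T, ht0m⟩ := mem_filter.mp ht0
  have hlt : α + pot q a t0 < 0 := by
    have := hmin t (by simp [hT]); linarith
  have hpos : 0 < t0 := by
    rcases (hT0 t0 ht0T).eq_or_lt with h0 | h0
    · rw [← h0, pot_zero hq] at hlt; linarith
    · exact h0
  -- the slope on the right is nonnegative
  have hr : 0 ≤ slp q a t0 := by
    by_cases hex : (T.filter fun s => t0 < s).Nonempty
    · obtain ⟨t2, ht2, h2⟩ := exists_min_image _ id hex
      obtain ⟨ht2T, ht02⟩ := mem_filter.mp ht2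
      have e := pot_gap (q := q) a ht02.le fun j hj => h2 (q j) (mem_filter.mpr ⟨hTq j, hj⟩)
      have := hmin t2 ht2T
      by_contra hc
      push Not at hc
      have := mul_neg_of_pos_of_neg (sub_pos.mpr ht02) hc
      linarith
    · refine le_of_eq (sum_eq_zero fun j _ => ?_).symm
      rw [if_neg fun hj => hex ⟨q j, mem_filter.mpr ⟨hTq j, hj⟩⟩]
  obtain ⟨t1, ht1, h1⟩ := exists_max_image (T.filter fun s => s < t0) id
    ⟨0, mem_filter.mpr ⟨by simp [hT], hpos⟩⟩
  obtain ⟨ht1T, ht10⟩ := mem_filter.mp ht1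
  have hgap : ∀ j, t1 < q j → t0 ≤ q j := fun j hj => by
    by_contra hc
    exact absurd (h1 (q j) (mem_filter.mpr ⟨hTq j, not_le.mp hc⟩)) (not_le.mpr hj)
  have e := pot_gap a ht10.le hgap
  have hl : slp q a t0 ≤ slp q a t1 := by
    refine sum_le_sum fun j _ => ?_
    by_cases h0 : t0 < q j
    · rw [if_pos h0, if_pos (ht10.trans h0)]
    · rw [if_neg h0]
      split_ifs with hj
      · have : q j = t0 := le_antisymm (not_lt.mp h0) (hgap j hj)
        exact h j (by rw [this]; exact hlt)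
      · exact le_rfl
  have h2 : 0 ≤ (t0 - t1) * slp q a t1 := mul_nonneg (by linarith) (hr.trans hl)
  have h3 : pot q a t1 = pot q a m := le_antisymm (by linarith) (hmin t1 ht1T)
  exact absurd (hsm t1 (mem_filter.mpr ⟨ht1T, h3⟩)) (not_le.mpr ht10)

/-- `U` solves `U + K (c U) = α + K ν` -/
def Sol (q c ν : ι → ℝ) (α : ℝ) (U : ι → ℝ) : Prop :=
  ∀ i, U i + pot q (fun j => c j * U j) (q i) = α + pot q ν (q i)

/-- the interpolation of a solution between the nodes -/
def ext (q c ν : ι → ℝ) (α : ℝ) (U : ι → ℝ) (t : ℝ) : ℝ := α + pot q (fun j => ν j - c j * U j) t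

variable {q c ν ν' U U' : ι → ℝ} {α α' : ℝ}

theorem Sol.ext_eq (h : Sol q c ν α U) (i : ι) : ext q c ν α U (q i) = U i := by
  have := h i
  unfold ext; rw [pot_sub]; linarith

theorem Sol.sub (h : Sol q c ν α U) (h' : Sol q c ν' α' U') :
    Sol q c (fun j => ν j - ν' j) (α - α') fun j => U j - U' j := fun i => by
  have e1 := h i
  have e2 := h' i
  rw [pot_congr (b := fun j => c j * U j - c j * U' j) (fun j => by ring), pot_sub, pot_sub]
  linarith

theorem Sol.add (h : Sol q c ν α U) (h' : Sol q c ν' α' U') :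
    Sol q c (fun j => ν j + ν' j) (α + α') fun j => U j + U' j := fun i => by
  have e1 := h i
  have e2 := h' i
  rw [pot_congr (b := fun j => c j * U j + c j * U' j) (fun j => by ring), pot_add, pot_add]
  linarith

theorem Sol.smul (h : Sol q c ν α U) (r : ℝ) :
    Sol q c (fun j => r * ν j) (r * α) fun j => r * U j := fun i => by
  have e1 := h i
  rw [pot_congr (b := fun j => r * (c j * U j)) (fun j => by ring), pot_smul, pot_smul, ← mul_add,
    e1, mul_add]

theorem sol_const (q c : ι → ℝ) (M : ℝ) : Sol q c (fun j => c j * M) M fun _ => M := fun _ => rfl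

theorem Sol.ext_nonneg (h : Sol q c ν α U) (hq : ∀ j, 0 ≤ q j) (hc : ∀ j, 0 ≤ c j)
    (hν : ∀ j, 0 ≤ ν j) (hα : 0 ≤ α) {t : ℝ} (ht : 0 ≤ t) : 0 ≤ ext q c ν α U t := by
  refine nonneg_of hq hα (fun j hj => ?_) ht
  have e : α + pot q (fun j => ν j - c j * U j) (q j) = U j := h.ext_eq j
  have := mul_nonneg (hc j) (neg_nonneg.mpr (e ▸ hj).le)
  have := hν j
  linarith

/-- nonnegative data give a nonnegative solution -/
theorem Sol.nonneg (h : Sol q c ν α U) (hq : ∀ j, 0 ≤ q j) (hc : ∀ j, 0 ≤ c j)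
    (hν : ∀ j, 0 ≤ ν j) (hα : 0 ≤ α) (i : ι) : 0 ≤ U i := by
  rw [← h.ext_eq i]; exact h.ext_nonneg hq hc hν hα (hq i)

/-- comparison -/
theorem Sol.le (h : Sol q c ν α U) (h' : Sol q c ν' α' U') (hq : ∀ j, 0 ≤ q j)
    (hc : ∀ j, 0 ≤ c j) (hν : ∀ j, ν j ≤ ν' j) (hα : α ≤ α') (i : ι) : U i ≤ U' i :=
  sub_nonneg.mp ((h'.sub h).nonneg hq hc (fun j => sub_nonneg.mpr (hν j)) (sub_nonneg.mpr hα) i)

theorem Sol.abs_le (h : Sol q c ν α U) (h' : Sol q c ν' α' U') (hq : ∀ j, 0 ≤ q j)
    (hc : ∀ j, 0 ≤ c j) (hν : ∀ j, |ν j| ≤ ν' j) (hα : |α| ≤ α') (i : ι) : |U i| ≤ U' i := by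
  refine _root_.abs_le.mpr ⟨?_, h.le h' hq hc (fun j => (le_abs_self _).trans (hν j))
    ((le_abs_self _).trans hα) i⟩
  have := (h'.add h).nonneg hq hc (fun j => by linarith [neg_abs_le (ν j), hν j])
    (by linarith [neg_abs_le α]) i
  linarith

theorem Sol.unique (h : Sol q c ν α U) (h' : Sol q c ν α U') (hq : ∀ j, 0 ≤ q j)
    (hc : ∀ j, 0 ≤ c j) : U = U' :=
  funext fun i => le_antisymm (h.le h' hq hc (fun _ => le_rfl) le_rfl i)
    (h'.le h hq hc (fun _ => le_rfl) le_rfl i)

/-- sup bound: `|ν| ≤ c M`, `|α| ≤ M` give `|U| ≤ M` -/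
theorem Sol.abs_le_const (h : Sol q c ν α U) (hq : ∀ j, 0 ≤ q j) (hc : ∀ j, 0 ≤ c j) {M : ℝ}
    (hν : ∀ j, |ν j| ≤ c j * M) (hα : |α| ≤ M) (i : ι) : |U i| ≤ M :=
  h.abs_le (sol_const q c M) hq hc hν hα i

theorem Sol.le_const (h : Sol q c ν α U) (hq : ∀ j, 0 ≤ q j) (hc : ∀ j, 0 ≤ c j) {M : ℝ}
    (hν : ∀ j, ν j ≤ c j * M) (hα : α ≤ M) (i : ι) : U i ≤ M :=
  h.le (sol_const q c M) hq hc hν hα i

/-- no screening at all is an upper bound -/
theorem Sol.le_pot (h : Sol q c ν α U) (hq : ∀ j, 0 ≤ q j) (hc : ∀ j, 0 ≤ c j)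
    (hν : ∀ j, 0 ≤ ν j) (hα : 0 ≤ α) (i : ι) : U i ≤ α + pot q ν (q i) := by
  have := pot_nonneg hq (fun j => mul_nonneg (hc j) (h.nonneg hq hc hν hα j)) (hq i)
  linarith [h i]

/-! ### solvability -/

/-- every right-hand side: `U + K (c U) = s` has a solution -/
theorem exists_solve (hq : ∀ j, 0 ≤ q j) (hc : ∀ j, 0 ≤ c j) (s : ι → ℝ) :
    ∃ U : ι → ℝ, ∀ i, U i + pot q (fun j => c j * U j) (q i) = s i := by
  let T : (ι → ℝ) →ₗ[ℝ] (ι → ℝ) :=
    { toFun := fun U i => U i + pot q (fun j => c j * U j) (q i)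
      map_add' := fun U V => funext fun i => by
        simp only [Pi.add_apply]
        rw [pot_congr (b := fun j => c j * U j + c j * V j) (fun j => by ring), pot_add]; ring
      map_smul' := fun r U => funext fun i => by
        simp only [Pi.smul_apply, smul_eq_mul, RingHom.id_apply]
        rw [pot_congr (b := fun j => r * (c j * U j)) (fun j => by ring), pot_smul]; ring }
  have hinj : Function.Injective T := by
    rw [injective_iff_map_eq_zero]
    intro U hU
    have h0 : Sol q c (fun _ => 0) 0 U := fun i => by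
      have : U i + pot q (fun j => c j * U j) (q i) = 0 := congrFun hU i
      rw [this]; simp [pot]
    have h1 : Sol q c (fun _ => 0) 0 fun _ => 0 := fun i => by simp [pot]
    exact h0.unique h1 hq hc
  obtain ⟨U, hU⟩ := LinearMap.injective_iff_surjective.mp hinj s
  exact ⟨U, fun i => congrFun hU i⟩

theorem exists_sol (hq : ∀ j, 0 ≤ q j) (hc : ∀ j, 0 ≤ c j) (ν : ι → ℝ) (α : ℝ) :
    ∃ U, Sol q c ν α U := exists_solve hq hc _

/-- `μ G + K (w G) = s` has a solution for positive masses -/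
theorem exists_mass {μ w : ι → ℝ} (hq : ∀ j, 0 ≤ q j) (hw : ∀ j, 0 ≤ w j) (hμ : ∀ j, 0 < μ j)
    (s : ι → ℝ) : ∃ G : ι → ℝ, ∀ i, μ i * G i + pot q (fun j => w j * G j) (q i) = s i := by
  obtain ⟨U, hU⟩ := exists_solve (c := fun j => w j / μ j) hq
    (fun j => div_nonneg (hw j) (hμ j).le) s
  refine ⟨fun j => U j / μ j, fun i => ?_⟩
  rw [mul_div_cancel₀ _ (hμ i).ne', ← hU i]
  congr 1
  exact pot_congr (fun j => by ring) _

/-- the mass form is the form `Sol` for the flux `μ G` -/
theorem sol_of_mass {μ w G : ι → ℝ} (hμ : ∀ j, 0 < μ j)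
    (h : ∀ i, μ i * G i + pot q (fun j => w j * G j) (q i) = α + pot q ν (q i)) :
    Sol q (fun j => w j / μ j) ν α fun j => μ j * G j := fun i => by
  rw [← h i]
  congr 1
  exact pot_congr (fun j => by field_simp [(hμ j).ne']) _

/-! ### the quadratic form -/

theorem pot_symm (q a b : ι → ℝ) :
    ∑ i, a i * pot q b (q i) = ∑ i, b i * pot q a (q i) := by
  unfold pot
  simp only [mul_sum]
  rw [sum_comm]
  exact sum_congr rfl fun i _ => sum_congr rfl fun j _ => by rw [min_comm]; ring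

/-- duality: test the equation for `J` with the solution `G` -/
theorem dual {μ w G J s s' : ι → ℝ}
    (hG : ∀ i, μ i * G i + pot q (fun j => w j * G j) (q i) = s i)
    (hJ : ∀ i, μ i * J i + pot q (fun j => w j * J j) (q i) = s' i) :
    ∑ i, w i * J i * s i = ∑ i, w i * G i * s' i := by
  have e := pot_symm q (fun j => w j * J j) fun j => w j * G j
  have e1 : ∑ i, w i * J i * s i = ∑ i, w i * μ i * G i * J i +
      ∑ i, w i * J i * pot q (fun j => w j * G j) (q i) := by
    rw [← sum_add_distrib]; exact sum_congr rfl fun i _ => by rw [← hG i]; ring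
  have e2 : ∑ i, w i * G i * s' i = ∑ i, w i * μ i * G i * J i +
      ∑ i, w i * G i * pot q (fun j => w j * J j) (q i) := by
    rw [← sum_add_distrib]; exact sum_congr rfl fun i _ => by rw [← hJ i]; ring
  rw [e1, e2, e]

open MeasureTheory in
theorem min_eq_int {x y : ℝ} (hx : 0 ≤ x) (hy : 0 ≤ y) :
    min x y = ∫ t in Set.Ioi (0 : ℝ), (Set.Iio (min x y)).indicator (fun _ => (1 : ℝ)) t := by
  rw [setIntegral_indicator measurableSet_Iio, Set.Ioi_inter_Iio, setIntegral_const]
  rw [smul_eq_mul, mul_one, Measure.real, Real.volume_Ioo, sub_zero,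
    ENNReal.toReal_ofReal (le_min hx hy)]

open MeasureTheory in
/-- the bilinear form is the `L²` product of the slopes (the `H⁻¹` product) -/
theorem form_eq_int (hq : ∀ j, 0 ≤ q j) (a b : ι → ℝ) :
    ∑ i, a i * pot q b (q i) = ∫ t in Set.Ioi (0 : ℝ), slp q a t * slp q b t := by
  have hI : ∀ i j, IntegrableOn (fun t => a i * b j *
      (Set.Iio (min (q i) (q j))).indicator (fun _ => (1 : ℝ)) t) (Set.Ioi (0 : ℝ)) := by
    intro i j
    refine Integrable.const_mul ?_ _
    rw [integrable_indicator_iff measurableSet_Iio, IntegrableOn,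
      Measure.restrict_restrict measurableSet_Iio, Set.Iio_inter_Ioi]
    exact integrableOn_const (by simp)
  have e : ∀ t, slp q a t * slp q b t = ∑ i, ∑ j, a i * b j *
      (Set.Iio (min (q i) (q j))).indicator (fun _ => (1 : ℝ)) t := by
    intro t
    unfold slp
    rw [sum_mul_sum]
    refine sum_congr rfl fun i _ => sum_congr rfl fun j _ => ?_
    by_cases h1 : t < q i <;> by_cases h2 : t < q j <;> simp [Set.indicator, h1, h2]
  simp only [e]
  rw [integral_finsetSum _ fun i _ => integrable_finsetSum _ fun j _ => hI i j]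
  refine sum_congr rfl fun i _ => ?_
  rw [integral_finsetSum _ fun j _ => hI i j]
  unfold pot
  rw [mul_sum]
  refine sum_congr rfl fun j _ => ?_
  rw [integral_const_mul, ← min_eq_int (hq i) (hq j)]; ring

/-- the kernel is positive semidefinite -/
theorem form_nonneg (hq : ∀ j, 0 ≤ q j) (a : ι → ℝ) : 0 ≤ ∑ i, a i * pot q a (q i) := by
  rw [form_eq_int hq]
  exact MeasureTheory.integral_nonneg fun t => mul_self_nonneg _

/-- Cauchy–Schwarz for the kernel -/
theorem form_sq_le (hq : ∀ j, 0 ≤ q j) (a b : ι → ℝ) :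
    (∑ i, a i * pot q b (q i)) ^ 2 ≤ (∑ i, a i * pot q a (q i)) * ∑ i, b i * pot q b (q i) := by
  have key : ∀ x : ℝ, 0 ≤ (∑ i, a i * pot q a (q i)) * (x * x) +
      2 * (∑ i, a i * pot q b (q i)) * x + ∑ i, b i * pot q b (q i) := by
    intro x
    have h := form_nonneg hq fun j => x * a j + b j
    have e : ∑ i, (x * a i + b i) * pot q (fun j => x * a j + b j) (q i) =
        (∑ i, a i * pot q a (q i)) * (x * x) + (∑ i, a i * pot q b (q i)) * x +
          (∑ i, b i * pot q a (q i)) * x + ∑ i, b i * pot q b (q i) := by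
      simp only [sum_mul, ← sum_add_distrib]
      exact sum_congr rfl fun i _ => by rw [pot_add, pot_smul]; ring
    rw [e, pot_symm q b a] at h
    linarith
  have := discrim_le_zero key
  unfold discrim at this
  nlinarith

/-- coercivity in `L²(w μ)` -/
theorem coercive {μ w G s : ι → ℝ} (hq : ∀ j, 0 ≤ q j)
    (hG : ∀ i, μ i * G i + pot q (fun j => w j * G j) (q i) = s i) :
    ∑ i, w i * μ i * G i ^ 2 ≤ ∑ i, w i * G i * s i := by
  have h := form_nonneg hq fun j => w j * G j
  have e : ∑ i, w i * G i * s i = ∑ i, w i * μ i * G i ^ 2 +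
      ∑ i, w i * G i * pot q (fun j => w j * G j) (q i) := by
    rw [← sum_add_distrib]; exact sum_congr rfl fun i _ => by rw [← hG i]; ring
  linarith

/-- energy bound `∑ w μ G² ≤ ∑ w s² / μ` -/
theorem energy_le {μ w G s : ι → ℝ} (hq : ∀ j, 0 ≤ q j) (hw : ∀ j, 0 ≤ w j) (hμ : ∀ j, 0 < μ j)
    (hG : ∀ i, μ i * G i + pot q (fun j => w j * G j) (q i) = s i) :
    ∑ i, w i * μ i * G i ^ 2 ≤ ∑ i, w i * s i ^ 2 / μ i := by
  have h1 := coercive hq hG
  have h2 : ∑ i, w i * G i * s i ≤ ∑ i, (w i * μ i * G i ^ 2 + w i * s i ^ 2 / μ i) / 2 := by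
    refine sum_le_sum fun i _ => ?_
    have hm := hμ i
    have : (w i * μ i * G i ^ 2 + w i * s i ^ 2 / μ i) / 2 - w i * G i * s i =
        w i * (μ i * G i - s i) ^ 2 / (2 * μ i) := by field_simp; ring
    have : 0 ≤ w i * (μ i * G i - s i) ^ 2 / (2 * μ i) := by
      have := hw i; positivity
    linarith
  rw [← sum_div, sum_add_distrib] at h2
  linarith

/-! ### total mass, slopes, decay -/

/-- slope at a point where the interpolation is minimal on the right -/
theorem slp_nonneg_of {a : ι → ℝ} {s : ℝ} (h : ∀ t, s ≤ t → pot q a s ≤ pot q a t) :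
    0 ≤ slp q a s := by
  classical
  by_cases hex : (univ.filter fun j => s < q j).Nonempty
  · obtain ⟨j, hj, h2⟩ := exists_min_image _ q hex
    have hj' := (mem_filter.mp hj).2
    have e := pot_gap a hj'.le fun k hk => h2 k (mem_filter.mpr ⟨mem_univ _, hk⟩)
    have := h _ hj'.le
    by_contra hc
    push Not at hc
    have := mul_neg_of_pos_of_neg (sub_pos.mpr hj') hc
    linarith
  · refine le_of_eq (sum_eq_zero fun j _ => ?_).symm
    rw [if_neg fun hj => hex ⟨j, mem_filter.mpr ⟨mem_univ _, hj⟩⟩]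

/-- total mass: the screening charge is at most the source -/
theorem Sol.mass_le (h : Sol q c ν 0 U) (hq : ∀ j, 0 ≤ q j) (hc : ∀ j, 0 ≤ c j)
    (hν : ∀ j, 0 ≤ ν j) : ∑ j, c j * U j ≤ ∑ j, ν j := by
  have h0 : 0 ≤ slp q (fun j => ν j - c j * U j) 0 := slp_nonneg_of fun t ht => by
    have := h.ext_nonneg hq hc hν le_rfl ht
    unfold ext at this
    rw [pot_zero hq]; linarith
  have h1 : slp q (fun j => ν j - c j * U j) 0 ≤ ∑ j, (ν j - c j * U j) := by
    refine sum_le_sum fun j _ => ?_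
    split_ifs with hj
    · exact le_rfl
    · have e : q j = 0 := le_antisymm (not_lt.mp hj) (hq j)
      have : U j = 0 := by
        rw [← h.ext_eq j, e]; unfold ext; rw [pot_zero hq]; ring
      rw [this]; linarith [hν j]
  rw [sum_sub_distrib] at h1
  linarith

/-- `ℓ¹` bound for signed sources -/
theorem Sol.mass_abs_le (h : Sol q c ν 0 U) (hq : ∀ j, 0 ≤ q j) (hc : ∀ j, 0 ≤ c j) :
    ∑ j, c j * |U j| ≤ ∑ j, |ν j| := by
  obtain ⟨U', h'⟩ := exists_sol hq hc (fun j => |ν j|) 0
  refine le_trans (sum_le_sum fun j _ => mul_le_mul_of_nonneg_left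
    (h.abs_le h' hq hc (fun _ => le_rfl) (by simp) j) (hc j)) ?_
  exact h'.mass_le hq hc fun j => abs_nonneg _

open Classical in
theorem slp_sub (a : ι → ℝ) {s t : ℝ} (hst : s ≤ t) :
    slp q a s - slp q a t = ∑ j, if s < q j ∧ q j ≤ t then a j else 0 := by
  unfold slp
  rw [← sum_sub_distrib]
  refine sum_congr rfl fun j _ => ?_
  by_cases h1 : t < q j
  · rw [if_pos h1, if_pos (hst.trans_lt h1), if_neg fun h => absurd h.2 (not_le.mpr h1)]; ring
  · by_cases h2 : s < q j
    · rw [if_pos h2, if_neg h1, if_pos ⟨h2, not_lt.mp h1⟩]; ring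
    · rw [if_neg h2, if_neg h1, if_neg fun h => h2 h.1]; ring

/-- convexity where the charges are nonpositive -/
theorem pot_ge_tangent {a : ι → ℝ} {s t : ℝ} (hst : s ≤ t)
    (ha : ∀ j, s < q j → q j < t → a j ≤ 0) : (t - s) * slp q a s ≤ pot q a t - pot q a s := by
  unfold pot slp
  rw [← sum_sub_distrib, mul_sum]
  refine sum_le_sum fun j _ => ?_
  split_ifs with hj
  · rw [min_eq_left hj.le]
    rcases le_or_gt t (q j) with h | h
    · rw [min_eq_left h]; linarith
    · rw [min_eq_right h.le]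
      nlinarith [ha j hj h]
  · have h1 : q j ≤ s := not_lt.mp hj
    rw [min_eq_right h1, min_eq_right (h1.trans hst)]; simp

section decay

variable (h : Sol q c ν 0 U) (hq : ∀ j, 0 ≤ q j) (hc : ∀ j, 0 ≤ c j) (hν : ∀ j, 0 ≤ ν j)
  {y : ℝ} (hy : ∀ j, q j < y → ν j = 0)
include h hq hc hν hy

theorem Sol.charge {j : ι} (hj : q j < y) : ν j - c j * U j ≤ 0 := by
  rw [hy j hj]; linarith [mul_nonneg (hc j) (h.nonneg hq hc hν le_rfl j)]

/-- below the source the slope is nonnegative -/
theorem Sol.slp_nonneg {s : ℝ} (hs : 0 ≤ s) (hsy : s < y) :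
    0 ≤ slp q (fun j => ν j - c j * U j) s := by
  have h0 : 0 ≤ slp q (fun j => ν j - c j * U j) 0 := slp_nonneg_of fun t ht => by
    have := h.ext_nonneg hq hc hν le_rfl ht
    unfold ext at this
    rw [pot_zero hq]; linarith
  have e := slp_sub (q := q) (fun j => ν j - c j * U j) hs
  have : (∑ j, if 0 < q j ∧ q j ≤ s then ν j - c j * U j else 0) ≤ 0 :=
    sum_nonpos fun j _ => by
      split_ifs with hj
      · exact h.charge hq hc hν hy (hj.2.trans_lt hsy)
      · exact le_rfl
  have e' : slp q (fun j => ν j - c j * U j) 0 - slp q (fun j => ν j - c j * U j) s ≤ 0 := by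
    rw [e]; convert this
  linarith

/-- below the source the solution is nondecreasing -/
theorem Sol.ext_mono {s t : ℝ} (hs : 0 ≤ s) (hst : s ≤ t) (hty : t ≤ y) :
    ext q c ν 0 U s ≤ ext q c ν 0 U t := by
  rcases hst.eq_or_lt with rfl | hlt
  · exact le_rfl
  have h1 := pot_ge_tangent (q := q) (a := fun j => ν j - c j * U j) hst
    fun j _ hj => h.charge hq hc hν hy (hj.trans_le hty)
  have h2 := mul_nonneg (sub_nonneg.mpr hst) (h.slp_nonneg hq hc hν hy hs (hlt.trans_le hty))
  unfold ext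
  linarith

open Classical in
/-- one window: `c`-mass `≥ γ` on `(s, s + l]` gains the factor `1 + γ l` at `s + 2 l` -/
theorem Sol.window {s l γ : ℝ} (hs : 0 ≤ s) (hl : 0 < l) (hsy : s + 2 * l ≤ y)
    (hγ : γ ≤ ∑ j, if s < q j ∧ q j ≤ s + l then c j else 0) :
    (1 + γ * l) * ext q c ν 0 U s ≤ ext q c ν 0 U (s + 2 * l) := by
  have hu := h.ext_nonneg hq hc hν le_rfl hs
  have e := slp_sub (q := q) (fun j => ν j - c j * U j) (show s ≤ s + l by linarith)
  have h1 : (∑ j, if s < q j ∧ q j ≤ s + l then ν j - c j * U j else 0) ≤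
      -((∑ j, if s < q j ∧ q j ≤ s + l then c j else 0) * ext q c ν 0 U s) := by
    rw [sum_mul, ← sum_neg_distrib]
    refine sum_le_sum fun j _ => ?_
    split_ifs with hj
    · have := h.ext_mono hq hc hν hy hs hj.1.le (by linarith [hj.2])
      rw [h.ext_eq j] at this
      rw [hy j (by linarith [hj.2])]
      nlinarith [hc j]
    · simp
  have h2 := h.slp_nonneg hq hc hν hy hs (by linarith)
  have h3 : γ * ext q c ν 0 U s ≤ slp q (fun j => ν j - c j * U j) (s + l) := by
    have := mul_le_mul_of_nonneg_right hγ hu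
    linarith
  have h4 := pot_ge_tangent (q := q) (a := fun j => ν j - c j * U j)
    (show s + l ≤ s + 2 * l by linarith)
    fun j _ hj => h.charge hq hc hν hy (hj.trans_le hsy)
  have h5 := h.ext_mono hq hc hν hy hs (show s ≤ s + l by linarith) (by linarith)
  have h6 := mul_le_mul_of_nonneg_left h3 hl.le
  unfold ext at *
  have : s + 2 * l - (s + l) = l := by ring
  rw [this] at h4
  nlinarith

open Classical in
/-- **exponential decay below the source** -/
theorem Sol.decay {s l γ : ℝ} (hs : 0 ≤ s) (hl : 0 < l) (hγ0 : 0 ≤ γ) (k : ℕ)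
    (hsy : s + 2 * l * k ≤ y)
    (hγ : ∀ m : ℕ, m < k → γ ≤ ∑ j, if s + 2 * l * m < q j ∧ q j ≤ s + 2 * l * m + l
      then c j else 0) :
    (1 + γ * l) ^ k * ext q c ν 0 U s ≤ ext q c ν 0 U (s + 2 * l * k) := by
  induction k with
  | zero => simp
  | succ k ih =>
    have hk : (0 : ℝ) ≤ 2 * l * k := by positivity
    push_cast at hsy ⊢
    have h1 := ih (by nlinarith) fun m hm => hγ m (by omega)
    have h2 := h.window hq hc hν hy (s := s + 2 * l * k) (by linarith) hl (by linarith)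
      (hγ k (by omega))
    have h3 := mul_le_mul_of_nonneg_left h1 (show 0 ≤ 1 + γ * l by positivity)
    have : s + 2 * l * (k + 1) = s + 2 * l * k + 2 * l := by ring
    rw [this, pow_succ]
    linarith

end decay

end Crest.Agent.T156.Mx

end
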