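import Crest.Agent.T156.NRk_67

/-!
# Row 156, R1: the branch `Λ₀' = θ Φ² n / s⁶` of `NR` (helper67)
-/

set_option autoImplicit false

noncomputable section

namespace Crest.Agent.T156.Alt.Nr67

open Real Set

variable {β c0 C0 : ℝ} {A : ℕ} {c η K : ℝ} {p : Pm} {σ E ε δ Φ t : ℝ}

theorem dich_lg (H : Reg β c0 C0 A c η K p) (hη : η ≤ ε) (hε : 1000 * ε ≤ c) (M : p.MemG σ)
    (E1 : 1 ≤ E) (E2 : E ≤ (p.n : ℝ) ^ ε) (Φ0 : 0 < Φ) (hΦ : Φ ≤ (p.n : ℝ) ^ ε * p.PhG E σ) :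
    logb p.n (p.muG σ) + 2 * logb p.n Φ + 1 ≤ 10 * ε + 6 * logb p.n p.s ∨
    2 * logb p.n (p.muG σ) + 3 * logb p.n Φ + c / 10 + 3 * c + 5 / 3 ≤ 10 * logb p.n p.s := by
  obtain ⟨u1, u2, u3⟩ := H.lg_muG66 M
  obtain ⟨s1, s2⟩ := H.lg_s
  obtain ⟨x1, x2⟩ := H.lg_sgG M
  have r1 := H.lg_r
  have c0 := H.c_pos
  have c1 := H.c_le
  have η0 := H.η_pos
  by_contra hc
  push Not at hc
  obtain ⟨k1, k2⟩ := hc
  rcases H.lg_Phi hη hε M E1 E2 Φ0 hΦ with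
    h | h | ⟨h, h', h''⟩ | h | ⟨h, h'⟩ | h | h | ⟨h, h', h''⟩ | ⟨h, h'⟩ | h | ⟨h, h'⟩ <;>
    rcases le_total (logb p.n σ) (-(1 / 4)) with k | k <;> linarith

/-- `ms(t)² / t ≤ n^{2η} θ² / ye` above `r` -/
theorem ms_lg (H : Reg β c0 C0 A c η K p) (M : p.MemG σ) (hr : p.r ≤ t) :
    2 * logb p.n (p.msG σ t) - logb p.n t ≤ 2 * logb p.n (p.muG σ) + 3 * c + 2 * η := by
  have t0 := H.r0.trans_le hr
  have η0 := H.η_pos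
  rcases le_total p.ye t with h | h
  · have a4 := H.lg_mono H.ye0 h
    rw [H.lg_ye] at a4
    rw [H.msG_top h]
    linarith
  obtain ⟨-, a1, a2⟩ := H.lg_msG66 M t
  obtain ⟨a3, -, -⟩ := H.lg_muG66 M
  have a4 := H.lg_mono t0 h
  rw [Reg.Tc_mid hr h] at a1 a2
  rw [H.lg_ye] at a4
  rcases a3 with a3 | a3 <;> linarith [H.c_pos]

/-- **the dichotomy** -/
theorem dich (H : Reg β c0 C0 A c η K p) (hη : η ≤ ε) (hε : 1000 * ε ≤ c) (M : p.MemG σ)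
    (E1 : 1 ≤ E) (E2 : E ≤ (p.n : ℝ) ^ ε) (Φ0 : 0 < Φ) (hΦ : Φ ≤ (p.n : ℝ) ^ ε * p.PhG E σ)
    (hδ : (p.n : ℝ) ^ (-(c / 100)) ≤ δ) :
    p.muG σ * Φ ^ 2 * p.n / p.s ^ 6 ≤ (p.n : ℝ) ^ (10 * ε) ∨
    (3 * (p.muG σ ^ 2 * Φ ^ 3) ≤ p.ye * (δ * ((p.n : ℝ) ^ (-(5 : ℝ) / 6) * p.s ^ 5)) ^ 2 ∧
      ∀ t, p.r ≤ t → p.msG σ t ^ 2 * Φ ^ 3 / t ≤ (δ * ((p.n : ℝ) ^ (-(5 : ℝ) / 6) * p.s ^ 5)) ^ 2) := by
  have h2 := H.lg_mono (H.rp0 _) hδ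
  have := (H.rp0 _).trans_le hδ
  have := H.muG_pos M
  have := H.s0
  have := H.N0
  have := H.ye0
  have c0 := H.c_pos
  have η0 := H.η_pos
  rw [H.lg_rp] at h2
  rcases dich_lg H hη hε M E1 E2 Φ0 hΦ with h | h
  · left
    refine H.le_of_lg (by positivity) (by positivity) ?_
    lg_norm
    simp only [H.lg_n]
    linarith
  right
  refine ⟨H.le_of_lg (by positivity) (by positivity) ?_, fun t ht => ?_⟩
  · have h3 : logb p.n 3 ≤ η := (H.lg_num (by norm_num) (by norm_num)).2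
    lg_norm
    simp only [H.lg_n, H.lg_ye]
    linarith
  · have t0 := H.r0.trans_le ht
    have m1 := H.msG_pos M t
    have a := ms_lg H M ht
    refine H.le_of_lg (by positivity) (by positivity) ?_
    lg_norm
    simp only [H.lg_n]
    linarith

end Crest.Agent.T156.Alt.Nr67

end
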