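import Crest.Agent.T156.NRl_67
import Crest.Agent.T156.NRi_67
import Crest.Agent.T156.NRa_44

/-!
# Row 156, R1: `NR` on the graded path from four lines (helper67)
-/

set_option autoImplicit false

noncomputable section

namespace Crest.Agent.T156.Alt.Nr67

open Real Set
open Crest.Agent.T156.Alt.R62 Crest.Agent.T156.Alt.R82

variable {β c0 C0 c0' C0' η' : ℝ} {A : ℕ} {c η K K' : ℝ} {p : Pm}
  {σ σ' E E' ε δ l Φ Λ Pt u1 V4 : ℝ} {P : ℝ → ℝ} {Q : Pl}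

theorem T0_le (G : GrD K c0' C0' η' p σ σ' Q) :
    T0 (p.scG K σ σ' Q) (p.gst Q σ') ≤ 8 * K ^ 2 := by
  have h := G.cl.1
  have a := (h.sm h.i3).trans h.sT
  have b := h.C1
  change 1 ≤ 8 * K ^ 2 at b
  change _ ≤ 8 * K ^ 2 at a
  unfold T0
  linarith

theorem e0 (H : Reg β c0 C0 A c η K' p) (h : Nr44.Hy c η ε p σ E l Φ δ) (Λ0 : 0 < Λ)
    (hΛ : Λ ≤ (p.n : ℝ) ^ (5 / 2 * c)) :
    2 * (l ^ 2 / (p.n * p.l0G σ l ^ 3)) + Λ / p.n ≤ δ * n5 p := by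
  have X := Nr44.ex H h
  have U := X.e (Nr44.up H h (t := p.l0G σ l) le_rfl)
  have N0 := H.N0
  have l0 := h.l0
  have l1 := Nr44.l00 H (σ := σ) (l := l)
  have δ0 := Nr44.δ0 H h
  have d1 := Nr44.lgδ H h
  have d2 := Nr44.lgl H h
  obtain ⟨n0, n1⟩ := Nr44.lg_n5 H
  have a5 := H.lg_mono Λ0 hΛ
  rw [H.lg_rp] at a5
  have k4 : logb p.n 4 ≤ η := (H.lg_num (by norm_num) (by norm_num)).2
  have k2 := H.lg_two.2
  have := h.hη
  have a1 : 4 * (l ^ 2 / (p.n * p.l0G σ l ^ 3)) ≤ δ * n5 p := by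
    refine H.le_of_lg (by positivity) (by positivity) ?_
    lg_norm
    rw [H.lg_n]
    linarith
  have a2 : 2 * (Λ / p.n) ≤ δ * n5 p := by
    refine H.le_of_lg (by positivity) (by positivity) ?_
    lg_norm
    rw [H.lg_n]
    linarith [X.c0, X.c1, X.e1, X.s0]
  linarith

/-- **`NR` on the graded path**: the lines left are `bm`, `bt`, `hc`, `hd` -/
theorem nr_gst (H : Reg β c0 C0 A c η K' p) (G : GrD K c0' C0' η' p σ σ' Q)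
    (h : Nr44.Hy c η ε p σ' E' l Φ δ) (lo : 512 * p.PhG E' σ' ≤ l ^ 3) (hδ1 : δ ≤ 1 / 3)
    (hE : (8 * K ^ 2) ^ 2 ≤ E) (L1 : (p.n : ℝ) ^ (10 * ε) ≤ Λ) (L2' : Λ ≤ (p.n : ℝ) ^ (5 / 2 * c))
    (P0 : ∀ t, 0 ≤ P t ∧ P t ≤ Φ) (Plo : ∀ t, t ≤ l → P t = Φ)
    (Pt0 : 0 ≤ u1 ∧ u1 ≤ Pt ∧ Pt ≤ Φ ∧ u1 ≤ V4)
    (bm : ∀ t, (p.n : ℝ) ^ ε * l ≤ t → t ≤ (p.n : ℝ) ^ (-(5 * c)) →
      p.msG σ' t * P t / t ≤ δ ^ 2 * n4 p)
    (bt : ∀ t, (p.n : ℝ) ^ (-(5 * c)) ≤ t → t ≤ T0 (p.scG K σ σ' Q) (p.gst Q σ') →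
      Λ * (8 * K ^ 2) ^ 2 * (p.msG σ' t * P t / t) ≤ δ ^ 2 * n4 p)
    (hc : p.muG σ' * Λ * (Pt + V4 + p.r ^ 4) ≤ δ ^ 2 * n4 p) (hd : p.muG σ' * V4 ≤ δ * n5 p) :
    NR E δ p (p.scG K σ σ' Q) (p.gst Q σ') l Φ P (p.l0G σ' l) (L2 p (p.muG σ') Φ Λ) Pt u1 V4 := by
  have hθ : (p.scG K σ σ' Q).θ = p.muG σ' := G.top
  have X := Nr44.ex H h
  have c0 := H.c_pos
  have e0' := X.e0
  have N1 := H.N1
  have l0 := h.l0
  have C1 : 1 ≤ 8 * K ^ 2 := G.cl.1.C1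
  have Λ1 : 1 ≤ Λ := (one_le_rpow N1.le (by linarith)).trans L1
  have Λ0 : 0 < Λ := one_pos.trans_le Λ1
  have r0 := Nr44.r0 (p := p) (σ := σ') (l := l)
  have hη : 2 * η ≤ c := by linarith [h.hη, h.hε, H.η_pos]
  have ly := Nr44.ly H h
  have ly' : l ≤ p.ye := ly.trans (mul_le_of_le_one_left H.ye0.le (by linarith))
  have lE : l ≤ (p.n : ℝ) ^ ε * l := le_mul_of_one_le_left l0.le (one_le_rpow N1.le e0')
  have l5c : l ≤ (p.n : ℝ) ^ (-(5 * c)) := by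
    refine H.le_of_lg l0 (H.rp0 _) ?_
    have := (H.lg_PhG_bds h.hη h.hε h.M h.E1 h.E2).2
    have a := H.lg_mono (Nr44.Φ0 H h) h.up
    rw [logb_mul (H.rp0 _).ne' (H.PhG0 h.M (one_pos.trans_le h.E1)).ne', H.lg_rp] at a
    rw [Nr44.lgl H h, H.lg_rp]
    linarith [X.c1, X.e1]
  have bij : ∀ t, p.l0G σ' l ≤ t → t ≤ T0 (p.scG K σ σ' Q) (p.gst Q σ') →
      p.msG σ' t * P t * max t l ^ 3 / t ^ 4 ≤ δ ^ 2 * n4 p ∧
      p.muG σ' * Λ * (t * P t) ≤ δ ^ 2 * n4 p ∧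
      Λ * p.msG σ' t ^ 2 * P t / t ≤ p.muG σ' * (δ ^ 2 * n4 p) := fun t a b => by
    rcases le_total t ((p.n : ℝ) ^ (-(5 * c))) with k | k
    · have hb : p.msG σ' t * P t * max t l ^ 3 / t ^ 4 ≤ δ ^ 2 * n4 p := by
        rcases le_total t ((p.n : ℝ) ^ ε * l) with k' | k'
        · exact Nr44.b_low H h (P0 t).2 a k'
        · have t0 := l0.trans_le (lE.trans k')
          rw [max_eq_left (lE.trans k')]
          exact le_trans (le_of_eq (by field_simp)) (bm t k' k)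
      exact ⟨hb, ij_lo H hη h.M (r0.trans a) k Λ0 L2' (P0 t).1 hb⟩
    · exact bij_hi H h.M (r0.trans a) (l5c.trans k) (b.trans (T0_le G)) C1 Λ1 (P0 t).1 (bt t k b)
  have N0 : NR0 E δ p (p.scG K σ σ' Q) (p.gst Q σ') l Φ P (p.l0G σ' l) Λ Pt u1 V4 :=
    { l3 := h.l3, r0 := r0, jl := (Nr44.jl H G (by linarith [h.hη, h.hε])).trans r0
      l0l := Nr44.l0l H h.M h.E1 l0 lo, ly := ly
      w0 := fun t a _ => Nr44.w0 H h.M h.hc a
      P0 := P0, Plo := Plo, L1 := Λ1, Pt0 := Pt0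
      a := Nr44.a H h
      b := fun t a b => (bij t a b).1
      c := hθ ▸ hc, d := hθ ▸ hd
      e := e0 H h Λ0 L2'
      f := fun t a _ => Nr44.f H h a
      i := fun t a b => hθ ▸ (bij t a b).2.1
      j := fun t a b => hθ ▸ (bij t a b).2.2
      k := fun t a b => by
        have t0 := H.r0.trans_le (r0.trans a)
        rw [hθ]
        refine k H h.M l0 ly' (r0.trans a) ?_ ((one_le_pow₀ C1).trans hE)
          ((pow_le_pow_left₀ t0.le (b.trans (T0_le G)) 2).trans hE)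
        have a1 : l * (p.n : ℝ) ^ (-(4 * p.c)) ≤ t :=
          ((le_max_right _ _).trans (le_max_left _ _)).trans a
        have a2 := H.lg_mono (mul_pos l0 (H.rp0 _)) a1
        rw [logb_mul l0.ne' (H.rp0 _).ne', H.lg_rp, H.hc] at a2
        refine H.le_of_lg l0 (mul_pos (H.rp0 _) t0) ?_
        rw [logb_mul (H.rp0 _).ne' t0.ne', H.lg_rp]
        linarith
      l5 := hθ ▸ l5 H h.hη h.hε h.M h.E1 h.E2 l0 (h.l3 ▸ h.up)
        ((rpow_le_rpow_of_exponent_le N1.le (by linarith)).trans h.hδ) }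
  rw [← hθ]
  exact N0.lift H h.hη h.hε h.M h.E1 h.E2 h.up h.hδ hδ1 hθ (fun _ => rfl)
    ((mul_le_mul_of_nonneg_right (T0_le G) H.ye0.le).trans G.nb.ye) L1

end Crest.Agent.T156.Alt.Nr67

end
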