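import Crest.Agent.T156.NRg_67

/-!
# Row 156, R1: the lines `i`, `j` of `NR` at the low levels and from the cap (helper67)
-/

set_option autoImplicit false

noncomputable section

namespace Crest.Agent.T156.Alt.Nr67

open Real Set
open Crest.Agent.T156.Alt.R62 Crest.Agent.T156.Alt.R82

theorem ex_i {s c ε x μ φ u L : ℝ} (h : Nr44.Ex s c ε x μ φ) (u5 : u ≤ φ / 3 + ε)
    (L1 : L ≤ 8 / 25 * c + s) (L2 : L ≤ 8 / 25 * c - 2 * c - μ) :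
    μ + L + u + φ ≤ -(c / 50) - 2 / 3 + 4 * s := by
  obtain ⟨c0, c1, e0, e1, s0, s1, x0, x1, m0, m1, m2, up⟩ := h
  rcases up with
    h | h | ⟨h, h', h''⟩ | h | ⟨h, h'⟩ | h | h | ⟨h, h', h''⟩ | ⟨h, h'⟩ | h | ⟨h, h'⟩ <;>
    rcases le_total x (-(1 / 4)) with k | k <;> linarith

theorem ex_j {s c ε x μ φ u m L : ℝ} (h : Nr44.Ex s c ε x μ φ) (u5 : u ≤ φ / 3 + ε)
    (a1 : m ≤ -c + 2 * u + ε) (a2 : m ≤ -c + x + 3 / 2 * u + ε)
    (L1 : L ≤ 8 / 25 * c + s) : L + 2 * m + φ - u ≤ μ + (-(c / 50) - 2 / 3 + 4 * s) := by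
  have t := h.th
  obtain ⟨c0, c1, e0, e1, s0, s1, x0, x1, m0, m1, m2, up⟩ := h
  rcases m0 with m0 | m0 <;> rcases up with
    h | h | ⟨h, h', h''⟩ | h | ⟨h, h'⟩ | h | h | ⟨h, h', h''⟩ | ⟨h, h'⟩ | h | ⟨h, h'⟩ <;>
    rcases le_total x (-(1 / 4)) with k | k <;> linarith

variable {β c0 C0 : ℝ} {A : ℕ} {c η K : ℝ} {p : Pm} {σ E ε δ l Φ Λ X t : ℝ}

/-- **`i` and `j` at the levels `t ≤ n^ε l`** -/
theorem ij_low (H : Reg β c0 C0 A c η K p) (h : Nr44.Hy c η ε p σ E l Φ δ) (Λ0 : 0 < Λ)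
    (hΛ : Λ ≤ (p.n : ℝ) ^ (8 / 25 * c) * min p.s (p.κ ^ 2 / p.muG σ)) (hX : X ≤ Φ) (hr : p.r ≤ t)
    (ht : t ≤ (p.n : ℝ) ^ ε * l) :
    p.muG σ * Λ * (t * X) ≤ δ ^ 2 * n4 p ∧
      Λ * p.msG σ t ^ 2 * X / t ≤ p.muG σ * (δ ^ 2 * n4 p) := by
  have Y := Nr44.ex H h
  have t0 := H.r0.trans_le hr
  have m0 := H.muG_pos h.M
  have m1 := H.msG_pos h.M t
  have l0 := h.l0
  have Φ0 := Nr44.Φ0 H h
  have δ0 := Nr44.δ0 H h
  have d1 := Nr44.lgδ H h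
  have d2 := Nr44.lgl H h
  have s0 := H.s0
  have k0 := H.κ0
  have N0 := H.N0
  obtain ⟨n0, n1⟩ := Nr44.lg_n4 H
  obtain ⟨a1, a2⟩ := Nr44.ms H h hr
  have u5 := H.lg_mono t0 ht
  rw [logb_mul (H.rp0 _).ne' l0.ne', H.lg_rp, d2] at u5
  have L1 := H.lg_mono Λ0 (hΛ.trans (mul_le_mul_of_nonneg_left (min_le_left _ _) (H.rp0 _).le))
  have L2 := H.lg_mono Λ0 (hΛ.trans (mul_le_mul_of_nonneg_left (min_le_right _ _) (H.rp0 _).le))
  rw [logb_mul (H.rp0 _).ne' s0.ne', H.lg_rp] at L1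
  rw [logb_mul (H.rp0 _).ne' (by positivity), H.lg_rp, logb_div (by positivity) m0.ne', logb_pow,
    H.lg_κ] at L2
  have i := ex_i Y (u := logb p.n t) (by linarith) L1 (by push_cast at L2; linarith)
  have j := ex_j Y (u := logb p.n t) (by linarith) a1 a2 L1
  constructor
  · refine le_trans (b := p.muG σ * Λ * (t * Φ)) (by gcongr) ?_
    refine H.le_of_lg (by positivity) (by positivity) ?_
    lg_norm
    linarith
  · refine le_trans (b := Λ * p.msG σ t ^ 2 * Φ / t) (by gcongr) ?_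
    refine H.le_of_lg (by positivity) (by positivity) ?_
    lg_norm
    linarith

/-- **`b`, `i`, `j` from the cap** `X ≤ Y t / (m max 1 (F max (m/θ) (θ t²/m)))`, `Λ ≤ F` -/
theorem bij_cap {m θ F Y : ℝ} (m0 : 0 < m) (θ0 : 0 < θ) (t0 : 0 < t) (hl : l ≤ t) (Λ0 : 0 ≤ Λ)
    (hF : Λ ≤ F) (X0 : 0 ≤ X)
    (h : X ≤ Y * t / (m * max 1 (F * max (m / θ) (θ * t ^ 2 / m)))) :
    m * X * max t l ^ 3 / t ^ 4 ≤ Y ∧ θ * Λ * (t * X) ≤ Y ∧ Λ * m ^ 2 * X / t ≤ θ * Y := by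
  set W := max 1 (F * max (m / θ) (θ * t ^ 2 / m)) with hW
  have W1 : 1 ≤ W := le_max_left _ _
  have F0 := Λ0.trans hF
  have h' : W * (m * X / t) ≤ Y := by
    rw [le_div_iff₀ (by positivity)] at h
    rw [← mul_div_assoc, div_le_iff₀ t0]
    linarith
  have z0 : 0 ≤ m * X / t := by positivity
  have w : ∀ a, 0 ≤ a → a ≤ max (m / θ) (θ * t ^ 2 / m) → Λ * a * (m * X / t) ≤ Y := fun a a0 ha =>
    (mul_le_mul_of_nonneg_right ((mul_le_mul hF ha a0 F0).trans (le_max_right _ _)) z0).trans h'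
  refine ⟨?_, ?_, ?_⟩
  · rw [max_eq_left hl]
    exact le_trans (le_of_eq (by field_simp)) ((le_mul_of_one_le_left z0 W1).trans h')
  · exact le_trans (le_of_eq (by field_simp)) (w _ (by positivity) (le_max_right _ _))
  · calc Λ * m ^ 2 * X / t = θ * (Λ * (m / θ) * (m * X / t)) := by field_simp
      _ ≤ _ := mul_le_mul_of_nonneg_left (w _ (by positivity) (le_max_left _ _)) θ0.le

end Crest.Agent.T156.Alt.Nr67

end
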