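import Crest.Agent.T156.R1MK_77
import Crest.Agent.T156.NRa_44

/-!
# Row 156 (helper29): the EXPLICIT numbers of the location kit on the graded path

`σ` = amplitude of the plateau data, `t` = amplitude of the member (`OctR σ t`).
-/

set_option autoImplicit false

noncomputable section

namespace Crest.Agent.T156.Alt

open Real

namespace Pm

variable (p : Pm)

/-- the gain `δ = n^{-c/4000}` -/
def dN : ℝ := (p.n : ℝ) ^ (-(p.c / 4000))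
/-- the energy -/
def PhN (t : ℝ) : ℝ := (p.n : ℝ) ^ (p.c / 4000) * p.PhG ((p.n : ℝ) ^ (p.c / 1000)) t
/-- the crude level -/
def lN (t : ℝ) : ℝ := p.PhN t ^ ((1 : ℝ) / 3)
/-- the factor `s`, cut at `κ² / θ` -/
def sM (t : ℝ) : ℝ := min p.s (p.κ ^ 2 / p.muG t)
/-- the target of the thick blocks -/
def PbN (t x : ℝ) : ℝ := p.dN ^ 2 * R82.n4 p * x / (p.msG t x *
  max 1 ((p.n : ℝ) ^ (8 / 25 * p.c) * p.sM t *
    max (p.msG t x / p.muG t) (p.muG t * x ^ 2 / p.msG t x)))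
open Classical in
/-- the energy of the block of the level `x` -/
def PN (t x : ℝ) : ℝ :=
  if x ≤ (p.n : ℝ) ^ (p.c / 2000) * p.lN t then p.PhN t else min (p.PhN t) (p.PbN t x)
/-- the energy of the top zone -/
def PtN (σ t : ℝ) : ℝ := min (p.PhN t) ((p.n : ℝ) ^ (5 / 8 * p.c) * (p.sM t * p.laG σ) ^ 2)
def L1N : ℝ := (p.n : ℝ) ^ (p.c / 400)
def L0N (σ t : ℝ) : ℝ := (p.n : ℝ) ^ (p.c / 200) * (√(p.PtN σ t) / p.laG σ)
def VtN (σ t : ℝ) : ℝ := (p.n : ℝ) ^ (p.c / 400) * (p.Vc (p.mt (p.muG σ)) + √(p.PhN t))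
def u1N (σ : ℝ) : ℝ := p.u2 (p.mt (p.muG σ))
def V4N (σ t : ℝ) : ℝ := (p.n : ℝ) ^ (p.c / 20) *
  (p.u1N σ + p.PtN σ t * (p.Vc (p.mt (p.muG σ)) ^ 2 + p.lN t ^ 2))
/-- the factor at which `NR` is read -/
def L2N (σ t : ℝ) : ℝ := max (max (p.L0N σ t) ((p.n : ℝ) ^ (p.c / 100)))
  (p.muG t * p.PhN t ^ 2 * p.n / p.s ^ 6)

/-- **the numbers**; `N` is free (helper43) -/
def nb (σ t N : ℝ) : R77.Nb where
  l := p.lN t
  Φ := p.PhN t
  P := p.PN t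
  l0 := p.l0G t (p.lN t)
  Λ₀ := p.L0N σ t
  Λ₁ := p.L1N
  Pt := p.PtN σ t
  Vt := p.VtN σ t
  u1 := p.u1N σ
  V4 := p.V4N σ t
  N := N
  Λ₂ := p.L2N σ t

end Pm

end Crest.Agent.T156.Alt

end
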