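import Crest.Agent.T156.NRn_44

/-!
# Row 156 (helper44): where the targets `PN`, `PtN` are below the total energy
-/

set_option autoImplicit false
set_option linter.unusedSectionVars false

noncomputable section

namespace Crest.Agent.T156.Alt.Nr44

open Real Set

/-- the exponents `u` of a level, `m` of its mass, `z` of `sM`, when `PbN ≤ PhN` there -/
structure Hp (s c ε x μ φ u m z : ℝ) : Prop where
  ex : Ex s c ε x μ φ
  he : 1000 * ε = c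
  U : Up s c x φ u
  hu : u ≤ ε
  ul : φ / 3 + c / 2000 ≤ u
  a0 : (-c + 2 * u ≤ m ∨ -c + x + 3 / 2 * u ≤ m) ∨ (-(3 * c) ≤ u ∧ m = μ)
  a1 : m ≤ -c + 2 * u + ε
  a2 : m ≤ -c + x + 3 / 2 * u + ε
  a3 : m ≤ μ
  z1 : z ≤ s
  z2 : z ≤ -(2 * c) - μ
  hp : -(c / 2000) - 2 / 3 + 4 * s + u - m ≤ φ ∨
    -(c / 2000) - 2 / 3 + 4 * s + u - 2 * m - 8 / 25 * c - z + μ ≤ φ ∨
    -(c / 2000) - 2 / 3 + 4 * s - u - 8 / 25 * c - z - μ ≤ φ

section lin
variable {s c ε x μ φ u m z : ℝ}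

set_option hygiene false in
macro "hp44" : tactic => `(tactic| (
  obtain ⟨⟨c0, c1, e0, e1, s0, s1, x0, x1, m0, m1, m2, up⟩, he, ⟨u1, u2, u3, u4⟩, hu, ul, a0, a1,
    a2, a3, z1, z2, hp⟩ := h
  rcases hp with hp | hp | hp <;>
  rcases up with up | up | ⟨up, _, _⟩ | up | ⟨up, _⟩ | up | up | ⟨up, _, _⟩ | ⟨up, _⟩ | up |
    ⟨up, _⟩ <;>
  first | linarith | (rcases m0 with m0 | m0 <;> linarith) |
    (rcases a0 with (a0 | a0) | ⟨_, _⟩ <;>
      first | linarith | (rcases m0 with m0 | m0 <;> linarith))))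

theorem Hp.lev (h : Hp s c ε x μ φ u m z) : φ / 3 + c / 20 ≤ u := by hp44
set_option maxHeartbeats 1000000 in
theorem Hp.B1 (h : Hp s c ε x μ φ u m z) (q : m ≤ -(1 / 3) - 14 * ε) : -(10 * c) ≤ u := by hp44
theorem Hp.B2 (h : Hp s c ε x μ φ u m z) (q : m ≤ -(1 / 3) - 14 * ε) : -(1 / 3) - 4 * c ≤ μ := by
  hp44
set_option maxHeartbeats 1000000 in
theorem Hp.B3 (h : Hp s c ε x μ φ u m z) : -(1 / 3) - 11 * c ≤ m := by hp44
theorem Hp.B4 (h : Hp s c ε x μ φ u m z) (q : m ≤ -(1 / 3) - 14 * ε) : φ ≤ -(1 / 3) + 4 * c := by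
  hp44

end lin

namespace Cx

variable {β c0 C0 : ℝ} {A : ℕ} {c η K : ℝ} {p : Pm} {σ t x : ℝ}
  (X : Cx β c0 C0 A c η K p σ t)
include X

/-- **T1**, raw form -/
theorem hp (h0 : p.l0G t (p.lN t) ≤ x) (h1 : x ≤ (p.n : ℝ) ^ η) (h : p.PN t x < p.PhN t) :
    Hp (logb p.n p.s) c (c / 1000) (logb p.n t) (logb p.n (p.muG t)) (logb p.n (p.PhN t))
      (logb p.n x) (logb p.n (p.msG t x)) (logb p.n (p.sM t)) := by
  have H := X.H
  have y := X.hy
  have x0 := (l00 H).trans_le h0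
  have q : (p.n : ℝ) ^ (p.c / 2000) * p.lN t < x := by
    by_contra q
    exact (P_lo (not_lt.1 q)).not_lt h
  have b : p.PbN t x < p.PhN t := by
    rw [Pm.PN, if_neg (not_le.2 q)] at h
    exact (min_lt_iff.1 h).resolve_left (lt_irrefl _)
  have b' := H.lg_mono (X.Pb0 x0) b.le
  rw [X.lg_Pb' x0] at b'
  have q' := H.lg_mono X.lo_pos q.le
  rw [logb_mul (H.rp0 _).ne' X.lN0.ne', H.lg_rp, lgl H y, H.hc] at q'
  obtain ⟨m1, m2⟩ := ms H y (r0.trans h0)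
  have r := H.lg_mono H.r0 (r0.trans h0)
  have m3 : p.msG t x ≤ p.muG t := by
    rw [← H.msG_top (σ := t) (le_max_right x p.ye)]
    exact H.msG_mono (H.sgG_pos X.Mt) (le_max_left _ _)
  refine ⟨ex H y, by ring, up H y h0, (H.lg_le x0 h1).trans y.hη, by linarith, ?_, m1, m2,
    H.lg_mono (H.msG_pos X.Mt x) m3, X.lg_sM.2.1, X.lg_sM.2.2, ?_⟩
  · rcases H.lg_Tc_cases (σ := t) x0 with ⟨_, _⟩ | ⟨_, _, _⟩ | ⟨a, _, e⟩
    · exact .inl ((H.lg_msG66 X.Mt x).1.imp (fun _ => by linarith) fun _ => by linarith)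
    · exact .inl ((H.lg_msG66 X.Mt x).1.imp (fun _ => by linarith) fun _ => by linarith)
    · exact .inr ⟨a, by rw [e]⟩
  · rcases max_choice 0 (8 / 25 * c + logb p.n (p.sM t) +
      max (logb p.n (p.msG t x) - logb p.n (p.muG t))
        (logb p.n (p.muG t) + 2 * logb p.n x - logb p.n (p.msG t x))) with e | e <;> rw [e] at b'
    · exact .inl (by linarith)
    · rcases max_choice (logb p.n (p.msG t x) - logb p.n (p.muG t))
        (logb p.n (p.muG t) + 2 * logb p.n x - logb p.n (p.msG t x)) with e | e <;> rw [e] at b'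
      · exact .inr (.inl (by linarith))
      · exact .inr (.inr (by linarith))

/-- **T1**: a level with `PN < PhN` is thick -/
theorem t1 (h0 : p.l0G t (p.lN t) ≤ x) (h1 : x ≤ (p.n : ℝ) ^ η) (h : p.PN t x < p.PhN t) :
    logb p.n (p.PhN t) / 3 + c / 20 ≤ logb p.n x ∧
    -(1 / 3) - 11 * c ≤ logb p.n (p.msG t x) ∧
    (-(1 / 3) - 7 / 500 * c ≤ logb p.n (p.msG t x) ∨
      (-(10 * c) ≤ logb p.n x ∧ -(1 / 3) - 4 * c ≤ logb p.n (p.muG t) ∧
        logb p.n (p.PhN t) ≤ -(1 / 3) + 4 * c)) := by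
  have k := X.hp h0 h1 h
  refine ⟨k.lev, k.B3, ?_⟩
  rcases le_total (-(1 / 3) - 14 * (c / 1000)) (logb p.n (p.msG t x)) with q | q
  · exact .inl (by linarith)
  · exact .inr ⟨k.B1 q, k.B2 q, k.B4 q⟩

/-- **T2**: the top target is below the total energy only for `θ n^{1/3} ≥ κ^{23/40}` -/
theorem t2 (h : p.PtN σ t < p.PhN t) : -(1 / 3) - 23 / 40 * c ≤ logb p.n (p.muG t) ∧
    5 / 8 * c + 2 * logb p.n (p.sM t) + 2 * logb p.n (p.laG σ) ≤ logb p.n (p.PhN t) := by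
  have H := X.H
  have b : (p.n : ℝ) ^ (5 / 8 * p.c) * (p.sM t * p.laG σ) ^ 2 < p.PhN t :=
    (min_lt_iff.1 h).resolve_left (lt_irrefl _)
  have b' := H.lg_mono (mul_pos (H.rp0 _) (pow_pos (mul_pos X.sM0 X.la0) 2)) b.le
  rw [X.lg_Pt2] at b'
  refine ⟨?_, b'⟩
  by_contra q
  push Not at q
  have e : logb p.n (p.sM t) = logb p.n p.s := by
    have a := pow_pos H.κ0 2
    rw [Pm.sM, lg_min H.N1 H.s0 (div_pos a X.θ0), logb_div a.ne' X.θ0.ne', logb_pow, H.lg_κ]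
    push_cast
    exact min_eq_left (by linarith [H.lg_s.2, X.hc, H.c_pos])
  have m := H.muG_pos X.Mσ
  have o1 := H.lg_mono m (H.oct_mu X.o).1
  have o2 := H.lg_mono X.θ0 (H.oct_mu X.o).2
  rw [logb_mul two_ne_zero m.ne'] at o2
  have := H.lg_two; have := X.hη
  obtain ⟨c0, c1, e0, e1, s0, s1, x0, x1, m0, m1, m2, up⟩ := ex H X.hy
  rcases H.lg_laG X.Mσ with ⟨_, _⟩ | ⟨_, _, _⟩ | ⟨_, _, _⟩ | ⟨_, _⟩ <;>
  rcases up with up | up | ⟨up, _, _⟩ | up | ⟨up, _⟩ | up | up | ⟨up, _, _⟩ | ⟨up, _⟩ | up |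
    ⟨up, _⟩ <;>
  first | linarith | (rcases m0 with m0 | m0 <;> linarith)

end Cx

end Crest.Agent.T156.Alt.Nr44

end
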