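import Crest.Agent.T156.NbU_44

/-!
# Row 156 (helper44): the dichotomies give `Need2`
-/

set_option autoImplicit false

noncomputable section

namespace Crest.Agent.T156.Alt.Nr44

open Real

section lin
variable {s c ε x μ φ u m z : ℝ}
set_option maxHeartbeats 1000000 in
theorem Hp.big (h : Hp s c ε x μ φ u m z) (hc : c ≤ 1 / 2000) (hs : 7 / 200 ≤ s) :
    -(1 / 3) + 1 / 20 ≤ μ := by hp44

end lin

namespace Cx
variable {β c0 C0 : ℝ} {A : ℕ} {c η K : ℝ} {p : Pm} {σ t x : ℝ}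
  (X : Cx β c0 C0 A c η K p σ t)
include X
theorem t2b (h : p.PtN σ t < p.PhN t) (hs : 7 / 200 ≤ logb p.n p.s) :
    -(1 / 3) + 1 / 20 ≤ logb p.n (p.muG t) := by
  have H := X.H
  have b' := (X.t2 h).2
  by_contra q
  push Not at q
  have e : logb p.n (p.sM t) = logb p.n p.s := by
    have a := pow_pos H.κ0 2
    rw [Pm.sM, lg_min H.N1 H.s0 (div_pos a X.θ0), logb_div a.ne' X.θ0.ne', logb_pow, H.lg_κ]
    push_cast
    exact min_eq_left (by linarith [H.lg_s.2, X.hc, H.c_pos])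
  have m := H.muG_pos X.Mσ
  have o1 := H.lg_mono m (H.oct_mu X.o).1
  have o2 := H.lg_mono X.θ0 (H.oct_mu X.o).2
  rw [logb_mul two_ne_zero m.ne'] at o2
  have := H.lg_two; have := X.hη; have := X.hc
  obtain ⟨c0, c1, e0, e1, s0, s1, x0, x1, m0, m1, m2, up⟩ := ex H X.hy
  rcases H.lg_laG X.Mσ with ⟨_, _⟩ | ⟨_, _, _⟩ | ⟨_, _, _⟩ | ⟨_, _⟩ <;>
  rcases up with up | up | ⟨up, _, _⟩ | up | ⟨up, _⟩ | up | up | ⟨up, _, _⟩ | ⟨up, _⟩ | up |
    ⟨up, _⟩ <;>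
  first | linarith | (rcases m0 with m0 | m0 <;> linarith)

theorem need2_iff : p.Need2 t ↔
    logb p.n p.s ≤ 7 / 200 ∨ -(1 / 3) + 1 / 20 ≤ logb p.n (p.muG t) := by
  rw [Pm.Need2, ← logb_le_logb X.H.N1 X.H.s0 (X.H.rp0 _),
    ← logb_le_logb X.H.N1 (X.H.rp0 _) X.lg_x.1, X.lg_x.2, X.H.lg_rp, X.H.lg_rp]
  exact or_congr Iff.rfl ⟨fun _ => by linarith, fun _ => by linarith⟩

/-- **T1** gives `Need2` -/
theorem t1N (h0 : p.l0G t (p.lN t) ≤ x) (h1 : x ≤ (p.n : ℝ) ^ η) (h : p.PN t x < p.PhN t) :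
    p.Need2 t :=
  X.need2_iff.2 ((le_total _ _).imp id ((X.hp h0 h1 h).big X.hc))

/-- **T2** gives `Need2` -/
theorem t2N (h : p.PtN σ t < p.PhN t) : p.Need2 t :=
  X.need2_iff.2 ((le_total _ _).imp id (X.t2b h))

end Cx

end Crest.Agent.T156.Alt.Nr44

end
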