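import Crest.Agent.T156.ClTh_9
import Crest.Agent.T156.ClE1b_61
import Crest.Agent.T156.Env_96

/-!
Row 156, block (L) (helper9): one step of the induction for (L0), abstract sizes.
-/

set_option autoImplicit false

noncomputable section

namespace Crest.Agent.T156.Alt.Sz9

open Real Finset
open Crest.Agent.T156.Alt.E61 Crest.Agent.T156.Alt.Mp9
open Crest.Agent.T156.Alt.Md67 (Lg dz_succ)

variable {S : Sc} {M : Md} {m : ℕ} {a T : ℝ}

/-- the envelope vanishes at a good node -/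
theorem ev_good (A : At S M m a T) {κ : ℝ} (hκ : 0 ≤ κ) {U V j : ℕ} (h0 : S.j0 ≤ U) (h1 : U ≤ j)
    (h2 : j ≤ V) (h3 : V < S.J) (g : Gd M m a (κ / S.C) U V j) :
    Env96.ev (M.rb m a) (κ * S.v) U V j = 0 := by
  have C0 := A.c_pos
  have e : ∀ x : ℝ, κ / S.C * (x * (S.C * S.v)) = κ * S.v * x := fun x => by field_simp
  refine le_antisymm (Env96.ev_le le_rfl fun i p q => ?_) Env96.ev_nonneg
  rw [zero_add]
  rcases le_total j i with c | c
  · have r := mul_le_mul_of_nonneg_left (A.cl.z_tel (h0.trans h1) c (q.trans_lt h3)).2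
      (div_nonneg hκ C0.le)
    rw [abs_of_nonneg (sub_nonneg.2 (rb_mono A.m_pos c)),
      abs_of_nonneg (sub_nonneg.2 (Nat.cast_le.2 c)), ← e]
    exact (g.1 i c q).trans r
  · have r := mul_le_mul_of_nonneg_left (A.cl.z_tel (h0.trans p) c (h2.trans_lt h3)).2
      (div_nonneg hκ C0.le)
    rw [abs_sub_comm, abs_of_nonneg (sub_nonneg.2 (rb_mono A.m_pos c)), abs_sub_comm,
      abs_of_nonneg (sub_nonneg.2 (Nat.cast_le.2 c)), ← e]
    exact (g.2 i p c).trans r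

theorem sb_le' (A : At S M m a T) {k : ℕ} (hk : k ≤ M.N) :
    sb M m a (k + 1) ≤ S.C * M.rb m a k + M.H k := by
  obtain ⟨d1, d2⟩ := d_mem A.cl hk
  have := mul_le_mul_of_nonneg_right ((mul_le_of_le_one_left (by linarith) (kp_mem m).2).trans
    (d2.trans A.cl.b1)) (rb_mem (M := M) (a := a) A.m_pos k).1
  simp only [sb]
  linarith

theorem abs_Gd_le (A : At S M m a T) {k : ℕ} (h1 : S.jl ≤ k) (h2 : k ≤ S.Jp) :
    |L0.Gd (lb M S m a T) (sb M m a (k + 1))| ≤ 4 * sb M m a (k + 1) + 2 * M.z k := by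
  have mk := A.sb_mem h2
  have p := L0.Gd_le (L0.ap_of_ok A.okb.1) (t := sb M m a (k + 1)) (by rwa [A.okb.2])
  have q := L0.Gd_ge A.okb.1.1 (sb M m a (k + 1))
  rw [A.lvb_node h1 h2] at q
  exact abs_le.2 ⟨by linarith [mk.1], by linarith [A.cl.z_pos k]⟩

/-- the label clock between two good nodes -/
theorem clock_le (A : At S M m a T) {κ L U0 R : ℝ} {u : ℕ → ℝ} (hκ : 0 < κ) {U V i k : ℕ}
    (h0 : S.j0 ≤ U) (h1 : U ≤ i) (h2 : i ≤ k) (h3 : k ≤ V) (h4 : V < S.J)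
    (gi : Gd M m a (κ / S.C) U V i) (gk : Gd M m a (κ / S.C) U V k)
    (hu : ∀ y, i < y → y < k → 0 ≤ u y ∧ u y ≤ L * (U0 + Env96.ev (M.rb m a) (κ * S.v) U V y))
    (hR : M.rb m a k - M.rb m a i ≤ R) :
    ∑ y ∈ Ioo i k, M.dz m a y * u y ^ 2 ≤ 2 * L ^ 2 * U0 ^ 2 * (M.z k - M.z i) +
      16 * S.C * L ^ 2 * R ^ 2 / κ * (sb M m a (k + 1) - sb M m a (i + 1)) := by
  have G := lg A
  have C0 := A.c_pos
  have v0 := A.cl.v0
  have kN : k ≤ M.N := ((h3.trans_lt h4).trans A.cl.J_lt).le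
  have w := Env96.win (f := M.rb m a) (c := κ * S.v) (a := U) (b := V) (by positivity)
    (fun j _ _ => rb_mono A.m_pos j.le_succ) h1 h2 h3
  rw [ev_good A hκ.le h0 h1 (h2.trans h3) h4 gi, ev_good A hκ.le h0 (h1.trans h2) h3 h4 gk,
    zero_add] at w
  have r0 := sub_nonneg.2 (rb_mono (M := M) (a := a) A.m_pos h2)
  have r1 := A.sb_rb h2 kN
  have r2 := sub_nonneg.2 (A.cl.leg.Hm h2)
  have r3 : (M.rb m a k - M.rb m a i) ^ 3 ≤ R ^ 2 * (2 * (sb M m a (k + 1) - sb M m a (i + 1))) := by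
    rw [pow_succ]
    exact mul_le_mul (pow_le_pow_left₀ r0 hR 2) (by linarith) r0 (sq_nonneg _)
  have s1 : ∑ y ∈ Ioo i k, M.dz m a y * u y ^ 2 ≤
      2 * L ^ 2 * U0 ^ 2 * ∑ y ∈ Ioo i k, M.dz m a y +
        2 * L ^ 2 * (S.C * S.v) * ∑ y ∈ Ioo i k, Env96.ev (M.rb m a) (κ * S.v) U V y ^ 2 := by
    rw [mul_sum, mul_sum, ← sum_add_distrib]
    refine sum_le_sum fun y hy => ?_
    obtain ⟨y1, y2⟩ := mem_Ioo.1 hy
    obtain ⟨p0, p1⟩ := hu y y1 y2
    have d0 := G.dz_nonneg y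
    have d1 : M.dz m a y ≤ S.C * S.v := by
      obtain ⟨y, rfl⟩ : ∃ j, y = j + 1 := ⟨y - 1, by omega⟩
      rw [dz_succ G.toLeg]
      exact (A.cl.zs y (by omega) (by omega)).2
    generalize Env96.ev (M.rb m a) (κ * S.v) U V y = e at *
    have q1 : u y ^ 2 ≤ 2 * L ^ 2 * U0 ^ 2 + 2 * L ^ 2 * e ^ 2 := by
      have := pow_le_pow_left₀ p0 p1 2
      nlinarith [sq_nonneg (L * (U0 - e))]
    have q2 := mul_le_mul_of_nonneg_left q1 d0
    have q3 := mul_le_mul_of_nonneg_right d1 (by positivity : 0 ≤ 2 * L ^ 2 * e ^ 2)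
    linarith
  have s2 : ∑ y ∈ Ioo i k, M.dz m a y ≤ M.z k - M.z i := by
    rw [← Md67.sum_dz (m := m) (a := a) G.toLeg h2]
    exact sum_le_sum_of_subset_of_nonneg Ioo_subset_Ioc_self fun y _ _ => G.dz_nonneg y
  have s3 := mul_le_mul_of_nonneg_left s2 (by positivity : 0 ≤ 2 * L ^ 2 * U0 ^ 2)
  generalize ∑ y ∈ Ioo i k, Env96.ev (M.rb m a) (κ * S.v) U V y ^ 2 = Z at *
  have s4 : 2 * L ^ 2 * (S.C * S.v) * Z ≤
      16 * S.C * L ^ 2 * R ^ 2 / κ * (sb M m a (k + 1) - sb M m a (i + 1)) := by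
    rw [div_mul_eq_mul_div, le_div_iff₀ hκ]
    have := mul_le_mul_of_nonneg_left (show κ * S.v * Z ≤
      4 * (R ^ 2 * (2 * (sb M m a (k + 1) - sb M m a (i + 1)))) by linarith)
      (by positivity : 0 ≤ 2 * L ^ 2 * S.C)
    linarith
  linarith

theorem low_sum9 (G : Lg M m a) {f : ℕ → ℝ} {j : ℕ} {b x : ℝ} (hb : 0 ≤ b) (hz : M.z j ≤ x)
    (hf : ∀ k < j, f k ≤ b) : ∑ k ∈ range j, M.dz m a k * f k ≤ x * b := by
  have h1 : ∑ k ∈ range j, M.dz m a k ≤ x := by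
    have := Md67.sum_dz_range (m := m) (a := a) G.toLeg j
    rw [sum_range_succ] at this
    linarith [G.dz_nonneg j, G.a0]
  refine (sum_le_sum fun k hk => mul_le_mul_of_nonneg_left (hf k (mem_range.1 hk))
    (G.dz_nonneg k)).trans ?_
  rw [← sum_mul]
  exact mul_le_mul_of_nonneg_right h1 hb

/-- the window of the level `τ` -/
structure Wn (S : Sc) (M : Md) (m : ℕ) (a L τ c μ : ℝ) (p : ℕ) : Prop where
  τ0 : 0 < τ
  τc : τ ≤ c
  c1 : L ^ 10 * c ≤ 1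
  jl : S.jl < p
  J : 7 * p < S.J
  pv : 4 * S.C * τ ≤ p * S.v
  zL : M.z (7 * p) ≤ L * τ
  HL : M.H (7 * p) ≤ L ^ 2 * c ^ 3
  rL : M.rb m a (7 * p) ≤ L ^ 11 * c
  μ0 : 0 < μ
  μs : μ ≤ S.ms (M.s p) / S.F
  μc : μ * τ ≤ c ^ 3

theorem pb_le_w (A : At S M m a T) {L τ c μ ms : ℝ} {p j : ℕ} (W : Wn S M m a L τ c μ p)
    (hL : 8000 * S.C ≤ L) (hm : ms ≤ c) (hj : j ≤ 7 * p) : pb M m a ms j ≤ L ^ 12 * c := by
  have C1 := A.cl.C1
  have L1 : 1 ≤ L := by linarith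
  have c0 : 0 < c := W.τ0.trans_le W.τc
  have c1 : c ≤ 1 := (le_mul_of_one_le_left c0.le (one_le_pow₀ L1)).trans W.c1
  have p := pb_le' (ms := ms) (lg A) ((hj.trans_lt W.J).trans A.cl.J_lt).le
  have r1 := (rb_mono (M := M) (a := a) A.m_pos hj).trans W.rL
  have r2 := mul_le_mul A.cl.b1 r1 (rb_mem A.m_pos j).1 A.c_pos.le
  have h1 := (A.cl.leg.Hm hj).trans W.HL
  have z1 := (A.cl.leg.zm hj).trans W.zL
  have y0 : 0 ≤ L ^ 11 * c := by positivity
  have a1 : L ^ 2 * c ^ 3 ≤ L ^ 11 * c := mul_le_mul (pow_le_pow_right₀ L1 (by norm_num))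
    (pow_le_of_le_one c0.le c1 (by norm_num)) (by positivity) (by positivity)
  have a2 : c ≤ L ^ 11 * c := le_mul_of_one_le_left c0.le (one_le_pow₀ L1)
  have a3 : L * τ ≤ L ^ 11 * c := mul_le_mul (le_self_pow₀ L1 (by norm_num)) W.τc W.τ0.le
    (by positivity)
  have a4 := mul_le_mul_of_nonneg_right hL y0
  have a5 := mul_le_mul_of_nonneg_right C1 y0
  calc _ ≤ L * (L ^ 11 * c) := by linarith
    _ = _ := by ring

theorem gd_le_w (A : At S M m a T) {L τ c μ : ℝ} {p j : ℕ} (W : Wn S M m a L τ c μ p)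
    (hL : 8000 * S.C ≤ L) (h1 : p ≤ j) (hj : j ≤ 7 * p) :
    |L0.Gd (lb M S m a T) (sb M m a (j + 1))| ≤ L ^ 12 * c := by
  have C1 := A.cl.C1
  have L1 : 1 ≤ L := by linarith
  have c0 : 0 < c := W.τ0.trans_le W.τc
  have c1 : c ≤ 1 := (le_mul_of_one_le_left c0.le (one_le_pow₀ L1)).trans W.c1
  have jJ := hj.trans_lt W.J
  have p := abs_Gd_le A (W.jl.le.trans h1) (jJ.le.trans A.cl.i3)
  have q := sb_le' A (jJ.trans A.cl.J_lt).le
  have r1 := mul_le_mul_of_nonneg_left ((rb_mono (M := M) (a := a) A.m_pos hj).trans W.rL)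
    A.c_pos.le
  have h1 := (A.cl.leg.Hm hj).trans W.HL
  have z1 := (A.cl.leg.zm hj).trans W.zL
  have y0 : 0 ≤ L ^ 11 * c := by positivity
  have a1 : L ^ 2 * c ^ 3 ≤ L ^ 11 * c := mul_le_mul (pow_le_pow_right₀ L1 (by norm_num))
    (pow_le_of_le_one c0.le c1 (by norm_num)) (by positivity) (by positivity)
  have a3 : L * τ ≤ L ^ 11 * c := mul_le_mul (le_self_pow₀ L1 (by norm_num)) W.τc W.τ0.le
    (by positivity)
  have a4 := mul_le_mul_of_nonneg_right hL y0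
  have a5 := mul_le_mul_of_nonneg_right C1 y0
  calc _ ≤ L * (L ^ 11 * c) := by linarith
    _ = _ := by ring

set_option maxHeartbeats 800000 in
/-- **one step** -/
theorem step (C : ℝ) : ∃ K : ℝ, 1 ≤ K ∧ ∀ {S : Sc} {M : Md} {m : ℕ} {a : ℝ}, At S M m a (2 * C) →
    S.C = C → ∀ {L τ c μ U κ e0 ms : ℝ} {p : ℕ} {u : ℕ → ℝ}, K ≤ L → Wn S M m a L τ c μ p →
    Mj M m a u → 0 < ms → ms ≤ c → L ^ 25 ≤ κ → S.C * M.rb m a (7 * p) < κ * τ →
    (∀ y, 2 * p ≤ y → y ≤ 5 * p → u y ≤ L * (U + Env96.ev (M.rb m a) (κ * S.v) p (7 * p) y)) →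
    (∀ y ≤ 5 * p, u y ≤ L ^ 12 * c) →
    (∀ j, 2 * p ≤ j → j ≤ 5 * p → Gd M m a (κ / S.C) p (7 * p) j → u j ≤ L * U →
      ∃ G, Tn S M m a u ms j G ∧ en M m a u ms (n3 true M m a u ms j) G j ≤ e0) →
    Nu M m a u 2 ≤ c ^ 2 → 1 / (m : ℝ) ≤ c ^ 2 → L ^ 3 * U ^ 2 ≤ μ → L ^ 16 * (U ^ 2 * c) ≤ μ * τ →
    L ^ 2 * e0 ≤ μ * τ → ∀ j ≤ 2 * p, M.rb m a j ≤ L ^ 10 * c / 4 := by
  obtain ⟨K0, K1, H0⟩ := At.l0_floor (2 * C) C
  obtain ⟨CE, E0, HE⟩ := e1C2 true C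
  refine ⟨8 * K0 + 8000 * max C 1 ^ 3 * (1 + CE), by
    have : 0 ≤ 8000 * max C 1 ^ 3 * (1 + CE) := by positivity
    linarith, fun {S M m a} A hC {L τ c μ U κ e0 ms p u} hK W hu m0 mc hκ hb hP hlo hN h2 hm
      n1 n2 n4 => ?_⟩
  subst hC
  have C1 := A.cl.C1
  have C0 := A.c_pos
  rw [max_eq_left C1] at hK
  have C3 : S.C ≤ S.C ^ 3 := le_self_pow₀ C1 (by norm_num)
  have C23 : S.C ^ 2 ≤ S.C ^ 3 := pow_le_pow_right₀ C1 (by norm_num)
  have CE0 : 0 ≤ S.C ^ 3 * CE := by positivity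
  have hL : 8000 * S.C ≤ L := by nlinarith
  have hL2 : 8000 * (S.C ^ 3 * CE) + 8000 ≤ L := by nlinarith
  have hL3 : 8 * K0 ≤ L := by nlinarith
  have L1 : 1 ≤ L := by linarith
  have Lp : 0 < L := by linarith
  have c0 : 0 < c := W.τ0.trans_le W.τc
  have τ0 := W.τ0
  have μ0 := W.μ0
  have v0 := A.cl.v0
  have κ0 : 0 < κ := (pow_pos Lp 25).trans_le hκ
  have G := lg A
  have j0p : S.j0 ≤ p := A.cl.i1.trans W.jl.le
  have ex : ∀ q : ℕ, p ≤ q → q + p ≤ 7 * p → ∃ i, q ≤ i ∧ i ≤ q + p ∧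
      Gd M m a (κ / S.C) p (7 * p) i := fun q q1 q2 =>
    A.exists_good (by positivity) j0p q1 (by omega) q2 W.J (by
      have r0 := (rb_mem (M := M) (a := a) A.m_pos p).1
      have e : κ / S.C * S.v * (((q + p : ℕ) : ℝ) - q + 1) = κ / S.C * (p * S.v + S.v) := by
        push_cast; ring
      have e2 : κ / S.C * (4 * S.C * τ) = 4 * (κ * τ) := by field_simp
      have := mul_le_mul_of_nonneg_left (show 4 * S.C * τ ≤ p * S.v + S.v by linarith [W.pv])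
        (by positivity : 0 ≤ κ / S.C)
      have := mul_pos κ0 τ0
      rw [e]
      nlinarith)
  obtain ⟨i, i1, i2, gi⟩ := ex (2 * p) (by omega) (by omega)
  obtain ⟨k, k1, k2, gk⟩ := ex (4 * p) (by omega) (by omega)
  have p0 : 0 < p := by have := W.jl; omega
  have ik : i < k := by omega
  have kJ : k < S.J := by have := W.J; omega
  have ug : ∀ j, 2 * p ≤ j → j ≤ 5 * p → Gd M m a (κ / S.C) p (7 * p) j → u j ≤ L * U :=
    fun j a b g => by
      have := hP j a b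
      rwa [ev_good A κ0.le j0p (by omega) (by omega) W.J g, add_zero] at this
  obtain ⟨Gi, Ti, ei⟩ := hN i i1 (by omega) gi (ug i i1 (by omega) gi)
  obtain ⟨Gk, Tk, ek⟩ := hN k (by omega) (by omega) gk (ug k (by omega) (by omega) gk)
  have og : ∀ j, 2 * p ≤ j → j ≤ 5 * p → Gd M m a (κ / S.C) p (7 * p) j →
      L * (4 * r2 M m a j * |L0.Gd (lb M S m a (2 * S.C)) (sb M m a (j + 1))|) ≤ μ * τ :=
    fun j ha b g => by
      have jN : j < M.N := (show j < S.J by have := W.J; omega).trans A.cl.J_lt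
      have r1 : r2 M m a j ≤ (L * U) ^ 2 := ((r2_le A.m_pos j).trans (U2_le hu jN)).trans
        (pow_le_pow_left₀ (hu.u0 j).1 (ug j ha b g) 2)
      have r3 := mul_le_mul r1 (gd_le_w A W hL (by omega) (show j ≤ 7 * p by omega)) (abs_nonneg _)
        (sq_nonneg _)
      have r4 : 0 ≤ L ^ 15 * (U ^ 2 * c) := by positivity
      have r5 := mul_le_mul_of_nonneg_right (show 4 ≤ L by linarith) r4
      have r6 := mul_le_mul_of_nonneg_left r3 (by positivity : 0 ≤ 4 * L)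
      calc _ = 4 * L * (r2 M m a j * |L0.Gd (lb M S m a (2 * S.C)) (sb M m a (j + 1))|) := by ring
        _ ≤ 4 * (L ^ 15 * (U ^ 2 * c)) := r6.trans_eq (by ring)
        _ ≤ L ^ 16 * (U ^ 2 * c) := r5.trans_eq (by ring)
        _ ≤ _ := n2
  have oi := og i i1 (by omega) gi
  have ok := og k (by omega) (by omega) gk
  obtain ⟨ab, df⟩ := HE S M m a _ u ms A A.cl.b1 hu m0 i Gi Ti
  have df := (le_abs_self _).trans (df k Gk Tk ik)
  have rk : M.rb m a k - M.rb m a i ≤ L ^ 11 * c := by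
    linarith [rb_mono (M := M) (a := a) A.m_pos (show k ≤ 7 * p by omega), W.rL,
      (rb_mem (M := M) (a := a) A.m_pos i).1]
  have ck := clock_le A κ0 j0p (by omega) ik.le (by omega) W.J gi gk (u := u) (L := L) (U0 := U)
    (fun y a b => ⟨(hu.u0 y).1, hP y (by omega) (by omega)⟩) rk
  have D0 := sub_nonneg.2 (A.sb_mono (Nat.succ_le_succ ik.le))
  have ck2 : 16 * S.C * L ^ 2 * (L ^ 11 * c) ^ 2 / κ ≤ c ^ 2 := by
    rw [div_le_iff₀ κ0]
    have a1 := mul_le_mul_of_nonneg_right (show 16 * S.C ≤ L by linarith)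
      (by positivity : 0 ≤ L ^ 24 * c ^ 2)
    have a2 := mul_le_mul_of_nonneg_left hκ (sq_nonneg c)
    calc _ = 16 * S.C * (L ^ 24 * c ^ 2) := by ring
      _ ≤ c ^ 2 * L ^ 25 := a1.trans_eq (by ring)
      _ ≤ _ := a2
  have ck3 := mul_le_mul_of_nonneg_right ck2 D0
  have ck4 := mul_le_mul_of_nonneg_right (mul_le_mul_of_nonneg_left h2
    (by positivity : 0 ≤ 1 + 2 * S.C)) D0
  generalize 4 * r2 M m a i * |L0.Gd (lb M S m a (2 * S.C)) (sb M m a (i + 1))| = o1 at *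
  generalize 4 * r2 M m a k * |L0.Gd (lb M S m a (2 * S.C)) (sb M m a (k + 1))| = o2 at *
  have μτ : 0 < μ * τ := mul_pos μ0 τ0
  have n5 : L * e0 ≤ μ * τ := by
    rcases le_total e0 0 with h | h
    · exact (mul_nonpos_of_nonneg_of_nonpos Lp.le h).trans μτ.le
    · exact (mul_le_mul_of_nonneg_right (le_self_pow₀ L1 (by norm_num)) h).trans n4
  have dv : ∀ x, L * x ≤ μ * τ → x ≤ μ * τ / L := fun x h => by rwa [le_div_iff₀ Lp, mul_comm]
  set y := μ * τ / L with hy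
  have y0 : 0 < y := div_pos μτ Lp
  have yL : L * y = μ * τ := by rw [hy]; field_simp
  have y1 : y ≤ c ^ 3 := (div_le_self μτ.le L1).trans W.μc
  have b1 := dv _ n5
  have b2 := dv _ oi
  have b3 := dv _ ok
  have Z4 : 4 * τ ≤ M.z k - M.z i := by
    have a1 := (A.cl.z_tel (j0p.trans (by omega)) ik.le kJ).1
    have a2 : (p : ℝ) ≤ (k : ℝ) - i := by
      have : i + p ≤ k := by omega
      have := (Nat.cast_le (α := ℝ)).2 this
      push_cast at this; linarith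
    have a3 := mul_le_mul_of_nonneg_right a2 (by positivity : 0 ≤ S.v / S.C)
    have a4 : 4 * τ ≤ p * (S.v / S.C) := by
      rw [← mul_div_assoc, le_div_iff₀ C0]; linarith [W.pv]
    linarith
  have fl : μ / S.C ^ 2 * (M.z k - M.z i) ≤ M.H k - M.H i := by
    refine le_trans (mul_le_mul_of_nonneg_right ?_ (by linarith))
      (A.h_fl W.jl.le (show p ≤ i by omega) ik.le kJ)
    rw [mul_comm (S.C ^ 2), ← div_div]
    exact div_le_div_of_nonneg_right W.μs (sq_nonneg _)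
  have pbi := pb_le_w A W hL mc (show i ≤ 7 * p by omega)
  have lo := low_sum9 G (f := fun k => u k ^ 2) (j := i) (sq_nonneg (L ^ 12 * c))
    ((A.cl.leg.zm (show i ≤ 7 * p by omega)).trans W.zL)
    fun y hy => pow_le_pow_left₀ (hu.u0 y).1 (hlo y (by omega)) 2
  have c3 : 0 < c ^ 3 := by positivity
  have P1 : ∀ j : ℕ, j ≤ 25 → L ^ j * c ^ 3 ≤ L ^ 25 * c ^ 3 := fun j hj =>
    mul_le_mul_of_nonneg_right (pow_le_pow_right₀ L1 hj) c3.le
  have lo2 : L * τ * (L ^ 12 * c) ^ 2 ≤ L ^ 25 * c ^ 3 :=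
    (mul_le_mul_of_nonneg_right (mul_le_mul_of_nonneg_left W.τc Lp.le) (sq_nonneg _)).trans_eq
      (by ring)
  have pn : pb M m a ms i * Nu M m a u 2 ≤ L ^ 25 * c ^ 3 :=
    (mul_le_mul pbi h2 (Nu_nn G hu 2) (by positivity)).trans
      ((le_of_eq (by ring)).trans (P1 12 (by norm_num)))
  have P0 := P1 0 (by norm_num)
  rw [pow_zero, one_mul] at P0
  have fin := (H0 A le_rfl le_rfl (i := i) (k := k)
    (er := CE * (4 * y + 2 * L ^ 2 * U ^ 2 * (M.z k - M.z i))) (la := CE * ((2 + 2 * S.C) * c ^ 2))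
    (ρ := CE * (4 * (L ^ 25 * c ^ 3))) (lam := L ^ 9 * c) (by have := W.jl; omega) ik
    (kJ.le.trans A.cl.i3)
    (df.trans ((mul_le_mul_of_nonneg_left (show _ ≤ 4 * y + 2 * L ^ 2 * U ^ 2 * (M.z k - M.z i) +
      (2 + 2 * S.C) * c ^ 2 * (sb M m a (k + 1) - sb M m a (i + 1)) by linarith) E0).trans_eq
        (by ring)))
    (by positivity) ?_
    (by linarith [(abs_le.1 (ab.trans (mul_le_mul_of_nonneg_left
      (show _ ≤ 4 * (L ^ 25 * c ^ 3) by linarith) E0))).1])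
    (by positivity) ?_ ?_ ?_ ?_).2
  · intro j hj
    have := mul_le_mul_of_nonneg_right hL3 (by positivity : 0 ≤ L ^ 9 * c)
    calc _ ≤ 2 * K0 * (L ^ 9 * c) := fin j (by omega)
      _ ≤ L * (L ^ 9 * c) / 4 := by linarith
      _ = _ := by ring
  · refine le_trans ?_ fl
    have Z0 : 0 ≤ M.z k - M.z i := by linarith
    refine (mul_le_mul_of_nonneg_right A.cl.b1 (by positivity)).trans ?_
    rw [div_mul_eq_mul_div, le_div_iff₀ (by positivity)]
    have a1 := mul_le_mul_of_nonneg_right (show 8 * (S.C ^ 3 * CE) ≤ L by linarith) y0.le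
    have a2 := mul_le_mul_of_nonneg_right (show 4 * (S.C ^ 3 * CE) ≤ L by linarith)
      (by positivity : 0 ≤ L ^ 2 * U ^ 2 * (M.z k - M.z i))
    have a3 := mul_le_mul_of_nonneg_right n1 Z0
    have a4 := mul_le_mul_of_nonneg_left Z4 μ0.le
    calc _ = 8 * (S.C ^ 3 * CE) * y / 2 +
          4 * (S.C ^ 3 * CE) * (L ^ 2 * U ^ 2 * (M.z k - M.z i)) / 2 := by ring
      _ ≤ L * y / 2 + L ^ 3 * U ^ 2 * (M.z k - M.z i) / 2 := by linarith
      _ ≤ _ := by linarith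
  · exact ((A.cl.leg.zm (show k ≤ 7 * p by omega)).trans W.zL).trans
      (mul_le_mul (le_self_pow₀ L1 (by norm_num)) W.τc τ0.le (by positivity))
  · exact (mul_le_mul_of_nonneg_right (pow_le_pow_right₀ L1 (by norm_num)) c0.le).trans W.c1
  · have a0 : S.C * CE * (2 + 2 * S.C) ≤ 4 * (S.C ^ 3 * CE) := by
      nlinarith [mul_le_mul_of_nonneg_right C3 E0, mul_le_mul_of_nonneg_right C23 E0]
    have a1 := mul_le_mul_of_nonneg_right a0 (sq_nonneg c)
    have a2 : 4 * (S.C ^ 3 * CE) + 1 < L ^ 18 := by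
      linarith [le_self_pow₀ L1 (show 18 ≠ 0 by norm_num)]
    have a3 := mul_lt_mul_of_pos_right a2 (by positivity : 0 < c ^ 2)
    calc _ ≤ (4 * (S.C ^ 3 * CE) + 1) * c ^ 2 := by linarith
      _ < _ := a3.trans_eq (by ring)
  · have a0 := (A.cl.leg.Hm (show i ≤ 7 * p by omega)).trans W.HL
    have a1 := P1 2 (by norm_num)
    have a2 : 4 * (S.C * CE) + 1 ≤ L ^ 2 := by
      nlinarith [mul_le_mul_of_nonneg_right C3 E0, le_self_pow₀ L1 (show 2 ≠ 0 by norm_num)]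
    have a3 := mul_le_mul_of_nonneg_right a2 (by positivity : 0 ≤ L ^ 25 * c ^ 3)
    calc _ ≤ (4 * (S.C * CE) + 1) * (L ^ 25 * c ^ 3) := by linarith
      _ ≤ _ := a3.trans_eq (by ring)

end Crest.Agent.T156.Alt.Sz9

end
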