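import Crest.Agent.T156.NdD_22
import Crest.Agent.T156.TL0A_9
import Crest.Agent.T156.ClE1t_49

/-!
# Row 156, block (L): the errors of (E1) at good nodes (helper22)
-/

set_option autoImplicit false
set_option linter.unusedSectionVars false

noncomputable section

namespace Crest.Agent.T156.Alt.Nd22

open Real Finset Filter
open Crest.Agent.T156.Alt.E61 Crest.Agent.T156.Alt.Mp9 Crest.Agent.T156.Alt.Sz9
open Crest.Agent.T156.Alt.L69 Crest.Agent.T156.Alt.C33 Pre29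
open Crest.Agent.T156.Alt.Md67 (Lg)

/-! ### numbers -/

theorem hold {Q A B A' B' r s : ℝ} (Q0 : 0 < Q) (a0 : 0 ≤ A') (a1 : A' ≤ Q * A) (b0 : 0 ≤ B')
    (b1 : B' ≤ Q * B) (r0 : 0 ≤ r) (s0 : 0 ≤ s) (e : r + s = 1) :
    A' ^ r * B' ^ s ≤ Q * (A ^ r * B ^ s) := by
  have A0 : 0 ≤ A := le_of_mul_le_mul_left (by simpa using a0.trans a1) Q0
  have B0 : 0 ≤ B := le_of_mul_le_mul_left (by simpa using b0.trans b1) Q0
  have p := rpow_le_rpow a0 a1 r0
  have q := rpow_le_rpow b0 b1 s0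
  rw [mul_rpow Q0.le A0] at p
  rw [mul_rpow Q0.le B0] at q
  calc _ ≤ Q ^ r * A ^ r * (Q ^ s * B ^ s) := mul_le_mul p q (rpow_nonneg b0 _) (by positivity)
    _ = Q ^ (r + s) * (A ^ r * B ^ s) := by rw [rpow_add Q0]; ring
    _ = _ := by rw [e, rpow_one]

theorem min_sc {Q a b a' b' : ℝ} (Q0 : 0 ≤ Q) (h1 : a' ≤ Q * a) (h2 : b' ≤ Q * b) :
    min a' b' ≤ Q * min a b := by
  rw [mul_min_of_nonneg _ _ Q0]; exact min_le_min h1 h2

section
variable {L t c w X : ℝ} (L1 : 1 ≤ L) (t0 : 0 ≤ t) (c0 : 0 ≤ c) (w0 : 0 ≤ w) (X0 : 0 ≤ X)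
include L1

theorem pw {x : ℝ} (x0 : 0 ≤ x) {i j : ℕ} (h : i ≤ j) : L ^ i * x ≤ L ^ j * x :=
  mul_le_mul_of_nonneg_right (pow_le_pow_right₀ L1 h) x0

include X0 in
theorem mX : min X ((L * c) ^ 3) ≤ L ^ 3 * min X (c ^ 3) :=
  min_sc (by positivity) (le_mul_of_one_le_left X0 (one_le_pow₀ L1)) (mul_pow _ _ _).le

include t0 c0 w0 X0

theorem sc2 : min (t * (L * c) ^ 2) (t * (L * w) ^ 2 +
    (t * (L * w) ^ 2) ^ ((3 : ℝ) / 7) * min X ((L * c) ^ 3) ^ ((4 : ℝ) / 7)) ≤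
    L ^ 3 * min (t * c ^ 2) (t * w ^ 2 +
      (t * w ^ 2) ^ ((3 : ℝ) / 7) * min X (c ^ 3) ^ ((4 : ℝ) / 7)) := by
  have L0 : 0 < L := by linarith
  have e : ∀ x : ℝ, t * (L * x) ^ 2 ≤ L ^ 3 * (t * x ^ 2) := fun x =>
    (le_of_eq (by ring)).trans (pw L1 (x := t * x ^ 2) (by positivity) (by norm_num : 2 ≤ 3))
  refine min_sc (by positivity) (e c) ?_
  rw [mul_add]
  exact add_le_add (e w) (hold (by positivity) (by positivity) (e w)
    (le_min X0 (by positivity)) (mX L1 X0) (by norm_num) (by norm_num) (by norm_num))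

theorem sc3 : t * (L * w) ^ 3 +
    (t * (L * w) ^ 3) ^ ((1 : ℝ) / 7) * (L * w * min X ((L * c) ^ 3)) ^ ((6 : ℝ) / 7) ≤
    L ^ 4 * (t * w ^ 3 + (t * w ^ 3) ^ ((1 : ℝ) / 7) * (w * min X (c ^ 3)) ^ ((6 : ℝ) / 7)) := by
  have L0 : 0 < L := by linarith
  have e : t * (L * w) ^ 3 ≤ L ^ 4 * (t * w ^ 3) :=
    (le_of_eq (by ring)).trans (pw L1 (x := t * w ^ 3) (by positivity) (by norm_num : 3 ≤ 4))
  have m0 : 0 ≤ min X ((L * c) ^ 3) := le_min X0 (by positivity)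
  rw [mul_add]
  exact add_le_add e (hold (by positivity) (by positivity) e (by positivity)
    ((mul_le_mul_of_nonneg_left (mX L1 X0) (by positivity)).trans_eq (by ring))
    (by norm_num) (by norm_num) (by norm_num))

theorem sc4 : min 1 (L * c) * min (t * (L * c) ^ 3) (t * (L * w) ^ 3 +
    (t * (L * w) ^ 3) ^ ((1 : ℝ) / 7) * (L * w * min X ((L * c) ^ 3)) ^ ((6 : ℝ) / 7)) ≤
    L ^ 5 * (min 1 c * min (t * c ^ 3) (t * w ^ 3 +
      (t * w ^ 3) ^ ((1 : ℝ) / 7) * (w * min X (c ^ 3)) ^ ((6 : ℝ) / 7))) := by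
  have L0 : 0 < L := by linarith
  have m0 : 0 ≤ min X ((L * c) ^ 3) := le_min X0 (by positivity)
  have p : min 1 (L * c) ≤ L * min 1 c := min_sc L0.le (by linarith) le_rfl
  have q := min_sc (Q := L ^ 4) (a := t * c ^ 3) (a' := t * (L * c) ^ 3) (by positivity)
    ((le_of_eq (by ring)).trans (pw L1 (x := t * c ^ 3) (by positivity) (by norm_num : 3 ≤ 4)))
    (sc3 L1 t0 c0 w0 X0)
  have := le_min zero_le_one c0
  exact (mul_le_mul p q (le_min (by positivity) (by positivity)) (by positivity)).trans_eq (by ring)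

end

/-- the node error, numbers -/
theorem en_num {l L ν ms r P G u N1 N2 N4 n3 U g G0 A X2 X3 W y : ℝ} (l1 : 100000 ≤ l) (L1 : 1 ≤ L)
    (m0 : 0 ≤ ms) (m1 : ms ≤ ν) (r1 : r ≤ 4) (U0 : 0 ≤ U) (g0 : 0 ≤ g) (G00 : 0 ≤ G0) (A0 : 0 ≤ A)
    (hA : A ^ 2 = X2) (X0 : 0 ≤ X3) (W0 : 0 ≤ W) (y0 : 0 ≤ y) (hP : P ≤ l * U ^ 3)
    (hG : G ≤ l * (g + 2 * L ^ 2 * G0)) (u0 : 0 ≤ u) (hu : u ≤ l * U) (n0 : 0 ≤ N1)
    (n1 : N1 ^ 2 ≤ N2) (n2 : N2 ≤ l ^ 4 * L ^ 3 * X2)
    (h3 : n3 ≤ 2 * (l ^ 5 * L ^ 5 * X3) + l * L ^ 4 * y + 3 * W)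
    (h4 : N4 ≤ 4 * (l ^ 5 * L ^ 5 * X3) + 2 * W) :
    15360 * ms * r + P + G * (u + N1) + (u ^ 3 + n3 + (u + N1) * (N2 + N1 ^ 2) + N4 + ms) ≤
      l ^ 7 * L ^ 5 * (U ^ 3 + (g + G0 + X2) * (U + A) + X3 + W + y + ν) := by
  have l0 : 1 ≤ l := by linarith
  have X20 : 0 ≤ X2 := hA ▸ sq_nonneg A
  have k : ∀ (c x : ℝ) (i j : ℕ), c ≤ l → i ≤ 6 → j ≤ 5 → 0 ≤ x →
      c * (l ^ i * L ^ j * x) ≤ l ^ 7 * L ^ 5 * x := fun c x i j h1 h2 h3 h4 => by
    have a1 := mul_le_mul (pow_le_pow_right₀ l0 h2) (pow_le_pow_right₀ L1 h3) (by positivity)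
      (by positivity)
    calc _ ≤ l * (l ^ 6 * L ^ 5 * x) :=
          mul_le_mul h1 (mul_le_mul_of_nonneg_right a1 h4) (by positivity) (by positivity)
      _ = _ := by ring
  have a1 : N1 ≤ l ^ 2 * L ^ 2 * A := by
    refine le_of_pow_le_pow_left₀ two_ne_zero (by positivity) (n1.trans (n2.trans ?_))
    calc _ ≤ l ^ 4 * L ^ 4 * X2 := mul_le_mul_of_nonneg_right (mul_le_mul_of_nonneg_left
          (pow_le_pow_right₀ L1 (by norm_num)) (by positivity)) X20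
      _ = _ := by rw [← hA]; ring
  have a2 : u + N1 ≤ l ^ 2 * L ^ 2 * (U + A) := by
    have : l ≤ l ^ 2 * L ^ 2 := (le_self_pow₀ l0 two_ne_zero).trans
      (le_mul_of_one_le_right (by positivity) (one_le_pow₀ L1))
    linarith [mul_le_mul_of_nonneg_right this U0]
  have a3 : G ≤ 2 * (l * L ^ 2 * (g + G0)) := by
    have : l * g ≤ l * L ^ 2 * g := mul_le_mul_of_nonneg_right
      (le_mul_of_one_le_right (by positivity) (one_le_pow₀ L1)) g0
    have : 0 ≤ l * L ^ 2 * g := by positivity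
    linarith
  have b1 := (mul_le_mul_of_nonneg_right a3 (by positivity : 0 ≤ u + N1)).trans
    (mul_le_mul_of_nonneg_left a2 (by positivity))
  have b2 := mul_le_mul a2 (show N2 + N1 ^ 2 ≤ 2 * (l ^ 4 * L ^ 3 * X2) by linarith)
    (by linarith [sq_nonneg N1]) (by positivity)
  have b3 := pow_le_pow_left₀ u0 hu 3
  have b4 := mul_le_mul_of_nonneg_left r1 m0
  have b5 : l * U ^ 3 ≤ l ^ 3 * U ^ 3 :=
    mul_le_mul_of_nonneg_right (le_self_pow₀ l0 (by norm_num)) (by positivity)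
  have c1 := k 2 (U ^ 3) 3 0 (by linarith) (by norm_num) (by norm_num) (by positivity)
  have c2 := k 2 ((g + G0) * (U + A)) 3 4 (by linarith) (by norm_num) (by norm_num) (by positivity)
  have c3 := k 2 (X2 * (U + A)) 6 5 (by linarith) (by norm_num) (by norm_num) (by positivity)
  have c4 := k 6 X3 5 5 (by linarith) (by norm_num) (by norm_num) X0
  have c5 := k 5 W 0 0 (by linarith) (by norm_num) (by norm_num) W0
  have c6 := k 1 y 1 4 (by linarith) (by norm_num) (by norm_num) y0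
  have c7 := k 61441 ν 0 0 (by linarith) (by norm_num) (by norm_num) (m0.trans m1)
  simp only [pow_zero, pow_one, mul_one, one_mul] at c1 c5 c6 c7
  linarith

/-! ### the crude ratio -/

variable {S : Sc} {M : Md} {m : ℕ} {a : ℝ}

theorem cr1 (S : Sc) (t : ℝ) : 1 ≤ cr S t := le_max_left _ _

theorem cb3 {x : ℝ} (hx : 0 ≤ x) : (x ^ ((1 : ℝ) / 3)) ^ 3 = x := by
  rw [← rpow_natCast, ← rpow_mul hx]; norm_num

section fn
variable (F : Fn S M m a)
include F

theorem cr_fl {t : ℝ} (t0 : 0 < t) : S.F * S.ms t ≤ cr S t ^ 3 * t ^ 2 := by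
  have := F.F0; have := F.ms_pos t0.le
  rw [← div_le_iff₀ (by positivity), ← cb3 (by positivity : 0 ≤ S.F * S.ms t / t ^ 2)]
  exact pow_le_pow_left₀ (by positivity) (le_max_right _ _) 3

theorem cr_cases {t : ℝ} (t0 : 0 < t) : cr S t = 1 ∨ cr S t ^ 3 * t ^ 2 = S.F * S.ms t := by
  have := F.F0; have := F.ms_pos t0.le
  rcases max_choice 1 ((S.F * S.ms t / t ^ 2) ^ ((1 : ℝ) / 3)) with e | e
  · exact Or.inl e
  · right
    rw [cr, e, cb3 (by positivity)]; field_simp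

theorem c_mono {t t' : ℝ} (t0 : 0 < t) (h : t ≤ t') : cr S t * t ≤ cr S t' * t' := by
  have t1 := t0.trans_le h
  have c1 := cr1 S t'
  rcases cr_cases F t0 with e | e
  · rw [e, one_mul]; exact h.trans (le_mul_of_one_le_left t1.le c1)
  · refine le_of_pow_le_pow_left₀ (by norm_num : 3 ≠ 0) (by positivity) ?_
    have a1 := mul_le_mul ((mul_le_mul_of_nonneg_left (F.msm h) F.F0.le).trans (cr_fl F t1)) h t0.le
      (by positivity)
    calc _ = cr S t ^ 3 * t ^ 2 * t := by ring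
      _ ≤ cr S t' ^ 3 * t' ^ 2 * t' := by rwa [e]
      _ = _ := by ring

theorem cr_dbl {t t' : ℝ} (t0 : 0 < t) (h : t ≤ t') : cr S t' ≤ 2 * cr S t := by
  have t1 := t0.trans_le h
  have c1 := cr1 S t
  rcases cr_cases F t1 with e | e
  · linarith
  · refine le_of_pow_le_pow_left₀ (by norm_num : 3 ≠ 0) (by positivity) ?_
    have a1 := mul_le_mul_of_nonneg_left (E49.ms_quad F t0 h) F.F0.le
    have a2 := mul_le_mul_of_nonneg_left (cr_fl F t0) (by positivity : 0 ≤ 4 * t' ^ 2)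
    refine le_of_mul_le_mul_right ?_ (by positivity : 0 < t' ^ 2 * t ^ 2)
    have a3 : 0 ≤ cr S t ^ 3 * (t' ^ 2 * t ^ 2) := by positivity
    calc _ = cr S t' ^ 3 * t' ^ 2 * t ^ 2 := by ring
      _ ≤ _ := by rw [e]; linarith

theorem cl_ge {V t : ℝ} (V0 : 0 ≤ V) (t0 : 0 ≤ t) : t ≤ cl S V t :=
  (le_mul_of_one_le_left t0 (cr1 S t)).trans (le_add_of_nonneg_right V0)

theorem cl_mono {V t t' : ℝ} (t0 : 0 < t) (h : t ≤ t') : cl S V t ≤ cl S V t' :=
  add_le_add (c_mono F t0 h) le_rfl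

theorem ws_nn {V t : ℝ} (V0 : 0 ≤ V) (t0 : 0 < t) : 0 ≤ ws S V t := by
  have := t0.le.trans (cl_ge F V0 t0.le)
  have := F.w3_pos t0
  unfold ws; positivity

variable {E l0 l V X Lg X2 X3 G0 L : ℝ} {η : ℝ → ℝ} (N : LN E S M l0 l V X Lg X2 X3 G0 η)
  (E1 : 1 ≤ E)
include N E1

theorem jl_le : M.s S.jl ≤ l0 := (le_mul_of_one_le_left (F.s_nonneg _) E1).trans N.l0s

theorem l0_pos : 0 < l0 := (F.toCl.s_pos (F.i0.trans F.i1)).trans_le (jl_le F N E1)

/-- `Cf` from `LN` and the crude location -/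
theorem cf_of (L1 : 1 ≤ L) (cru : ∀ k ≤ S.Jp, M.rb m a k ≤ L * cl S V (max (M.z k) l0)) :
    Cf E S M m a l0 fun t => L * cl S V t := by
  have p := l0_pos F N E1
  have V0 := N.V0
  have ge : ∀ t, l0 ≤ t → cl S V t ≤ L * cl S V t := fun t ht =>
    le_mul_of_one_le_left ((p.le.trans ht).trans (cl_ge F V0 (p.le.trans ht))) L1
  refine ⟨N.l0s, N.l0w, (mul_le_mul_of_nonneg_left N.l0l (by linarith)).trans N.l1,
    fun t t' a1 a2 => mul_le_mul_of_nonneg_left (cl_mono F (p.trans_le a1) a2) (by linarith),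
    fun t a1 => (cl_ge F V0 (p.le.trans a1)).trans (ge t a1), fun t a1 => ?_,
    fun t t' a1 a2 => ?_, cru⟩
  · have t0 := p.trans_le a1
    have c1 := cr1 S t
    calc _ ≤ cr S t ^ 3 * t ^ 2 * t := mul_le_mul_of_nonneg_right (cr_fl F t0) t0.le
      _ = (cr S t * t) ^ 3 := by ring
      _ ≤ _ := pow_le_pow_left₀ (by positivity) ((le_add_of_nonneg_right V0).trans (ge t a1)) 3
  · have t0 := p.trans_le a1
    have t1 := t0.trans_le a2
    have e : ∀ s, 0 < s → L * cl S V s / s = L * (cr S s + V / s) := fun s hs => by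
      unfold cl; field_simp
    have b1 : V / t' ≤ V / t := div_le_div_of_nonneg_left V0 t0 a2
    have b2 : 0 ≤ V / t := by positivity
    have b3 := mul_le_mul_of_nonneg_left (show cr S t' + V / t' ≤ 2 * (cr S t + V / t) by
      linarith [cr_dbl F t0 a2]) (by linarith : 0 ≤ L)
    rw [e _ t0, e _ t1]
    linarith

/-- `SN'` from `LN` -/
theorem sn_of (L1 : 1 ≤ L) (hX : Phi M S m a ≤ X) : ∃ Y : ℝ → ℝ, (∀ t, l ≤ t → Y t = L ^ 4 * η t) ∧
    SN' E S M m a l0 X (L ^ 3 * X2) (L ^ 5 * X3) (fun t => L * cl S V t) Y := by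
  have p := l0_pos F N E1
  have V0 := N.V0
  have L0 : 0 < L := by linarith
  have X0 := N.X0
  have e : ∀ t, wc S (fun t => L * cl S V t) t = L * ws S V t := fun t => by
    unfold wc ws; ring
  have c0 : ∀ t, l0 ≤ t → 0 ≤ cl S V t := fun t h => (p.le.trans h).trans (cl_ge F V0 (p.le.trans h))
  set B := cl S V S.C / l0 * S.w3 l0 ^ ((1 : ℝ) / 3) with hB
  refine ⟨fun t => if l ≤ t then L ^ 4 * η t else L ^ 4 * (S.C * B ^ 3 +
    (S.C * B ^ 3) ^ ((1 : ℝ) / 7) * (B * X) ^ ((6 : ℝ) / 7)), fun t h => if_pos h, hX, X0, N.X1,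
    fun t a1 a2 => ?_, fun t a1 a2 => ?_, fun t t' a1 a2 a3 => ?_⟩
  · rw [e]
    exact (sc2 L1 (p.le.trans a1) (c0 t a1) (ws_nn F V0 (p.trans_le a1)) X0.le).trans
      (mul_le_mul_of_nonneg_left (N.x2b t a1 a2) (by positivity))
  · rw [e]
    exact (sc4 L1 (p.le.trans a1) (c0 t a1) (ws_nn F V0 (p.trans_le a1)) X0.le).trans
      (mul_le_mul_of_nonneg_left (N.x3b t a1 a2) (by positivity))
  · have a4 := a1.trans a2
    have t0 := p.trans_le a4
    have w0 := ws_nn F V0 t0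
    rw [e]
    refine (sc3 L1 t0.le (c0 t' a4) w0 X0.le).trans ?_
    split_ifs with h
    · exact mul_le_mul_of_nonneg_left (N.ηc t t' h a2 a3) (by positivity)
    · refine mul_le_mul_of_nonneg_left ?_ (by positivity)
      have c1 := c0 t' a4
      have w1 : ws S V t' ≤ B := mul_le_mul
        (div_le_div₀ (c0 _ (a4.trans a3)) (cl_mono F t0 a3) p a4)
        (rpow_le_rpow (F.w3_pos t0).le (P33.w3_anti F.toCl p a4) (by norm_num))
        (rpow_nonneg (F.w3_pos t0).le _) (div_nonneg (c0 _ (a4.trans a3)) p.le)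
      have w2 : t' * ws S V t' ^ 3 ≤ S.C * B ^ 3 :=
        mul_le_mul a3 (pow_le_pow_left₀ w0 w1 3) (by positivity) F.C0.le
      have m0 : 0 ≤ min X (cl S V t' ^ 3) := le_min X0.le (by positivity)
      have C0 := F.C0
      have B0 := w0.trans w1
      exact add_le_add w2 (mul_le_mul (rpow_le_rpow (by positivity) w2 (by norm_num))
        (rpow_le_rpow (by positivity) (mul_le_mul w1 (min_le_left _ _) m0 B0) (by norm_num))
        (by positivity) (by positivity))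

theorem G0_nn : 0 ≤ G0 := (mul_nonneg (l0_pos F N E1).le (sq_nonneg _)).trans N.g0a
theorem X2_nn : 0 ≤ X2 := (mul_nonneg (l0_pos F N E1).le (sq_nonneg _)).trans N.x2a
theorem X3_nn : 0 ≤ X3 := (mul_nonneg (l0_pos F N E1).le (by positivity)).trans N.x3a

/-- the side condition of `SzN` -/
theorem side (L1 : 1 ≤ L) {κ s : ℝ} (hκ : 20 * S.C ^ 2 * S.F * L ^ 3 ≤ κ) (hs : s ≤ S.C) (t : ℝ)
    (h1 : l0 ≤ t) (h2 : t ≤ s) : (L * cl S V t) ^ 3 / t * (S.F / (S.n * S.ms t)) ≤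
      (2 * L ^ 2 * G0) ^ 2 + κ * (S.F / (S.n * S.ms s)) := by
  have p := l0_pos F N E1
  have t0 := p.trans_le h1
  have s0 := t0.trans_le h2
  have V0 := N.V0
  have L0 : 0 < L := by linarith
  have C1 := F.C1
  have F1 := F.F1
  have g1 := E49.gg_pos F t0.le
  have g2 := E49.gg_pos F s0.le
  change _ * E49.gg S t ≤ _ + κ * E49.gg S s
  have k0 : 0 ≤ κ * E49.gg S s := mul_nonneg (le_trans (by positivity) hκ) g2.le
  have q : L ^ 3 * G0 ^ 2 ≤ L ^ 4 * G0 ^ 2 := pw L1 (sq_nonneg _) (by norm_num)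
  have q0 : 0 ≤ L ^ 3 * G0 ^ 2 := by positivity
  rcases le_total t l with c | c
  · have := mul_le_mul_of_nonneg_left (N.g0b t h1 c) (by positivity : 0 ≤ L ^ 3)
    change L ^ 3 * (_ * E49.gg S t) ≤ _ at this
    calc _ = L ^ 3 * (cl S V t ^ 3 / t * E49.gg S t) := by ring
      _ ≤ _ := by linarith
  · have l1 := p.trans_le N.l0l
    have b1 : V ^ 3 / t * E49.gg S t ≤ G0 ^ 2 := by
      refine le_trans (mul_le_mul (div_le_div₀ ?_ (pow_le_pow_left₀ V0 ?_ 3) l1 c)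
        (E49.gg_anti F l1.le c) g1.le ?_) (N.g0b l N.l0l le_rfl)
      · exact pow_nonneg (l1.le.trans (cl_ge F V0 l1.le)) 3
      · exact le_add_of_nonneg_left (mul_nonneg (zero_le_one.trans (cr1 S l)) l1.le)
      · exact div_nonneg (pow_nonneg (l1.le.trans (cl_ge F V0 l1.le)) 3) l1.le
    have b2 : cr S t ^ 3 * t ^ 2 * E49.gg S t ≤ 5 * S.C ^ 2 * S.F * E49.gg S s := by
      have d0 : 0 ≤ S.C ^ 2 * E49.gg S s := by positivity
      have d1 := mul_le_mul_of_nonneg_right F1 d0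
      rcases cr_cases F t0 with e | e
      · have := mul_le_mul_of_nonneg_right (pow_le_pow_left₀ s0.le hs 2) g2.le
        rw [e]
        linarith [E49.gg_quad F t0 h2]
      · have m1 := F.ms_pos t0.le
        have m2 := F.ms_pos s0.le
        have n1 := F.n1
        have e1 : S.F * S.ms t * E49.gg S t = S.F * E49.gg S s * S.ms s := by
          unfold E49.gg; field_simp
        have d2 := mul_le_of_le_one_right (by positivity : 0 ≤ S.F * E49.gg S s) (F.ms_le_one s)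
        have d3 := mul_le_mul_of_nonneg_right (one_le_pow₀ (n := 2) C1)
          (by positivity : 0 ≤ S.F * E49.gg S s)
        rw [e, e1]
        linarith
    have c1 := cr1 S t
    have b3 : cl S V t ^ 3 ≤ 4 * ((cr S t * t) ^ 3 + V ^ 3) := by
      have x0 : 0 ≤ cr S t * t := by positivity
      unfold cl
      generalize cr S t * t = x at *
      nlinarith [mul_nonneg (add_nonneg x0 V0) (sq_nonneg (x - V))]
    have b4 := mul_le_mul_of_nonneg_right b3 (by positivity : 0 ≤ L ^ 3 / t * E49.gg S t)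
    have b5 := mul_le_mul_of_nonneg_right hκ g2.le
    have b6 := mul_le_mul_of_nonneg_left (add_le_add b1 b2) (by positivity : 0 ≤ 4 * L ^ 3)
    calc _ = cl S V t ^ 3 * (L ^ 3 / t * E49.gg S t) := by ring
      _ ≤ 4 * L ^ 3 * (V ^ 3 / t * E49.gg S t + cr S t ^ 3 * t ^ 2 * E49.gg S t) :=
          b4.trans_eq (by field_simp; ring)
      _ ≤ _ := by linarith

end fn

end Crest.Agent.T156.Alt.Nd22

end
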