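import Crest.Agent.T156.NdS_89
import Crest.Agent.T156.Abel_33
import Crest.Agent.T156.TL0A_9

/-!
# Row 156, block (L): the net of good nodes, level numbers (helper89)
-/

set_option autoImplicit false

noncomputable section

namespace Crest.Agent.T156.Alt.G89

open Real Finset
open Crest.Agent.T156.Alt.E61 Crest.Agent.T156.Alt.Mp9 Crest.Agent.T156.Alt.Sz9
open Crest.Agent.T156.Alt.L69 (LN cr cl mf uw gg Phi)
open Crest.Agent.T156.Alt.Nd22 (NI NO NodeS ee Go)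

/-- the pointwise context -/
structure Cz (D E Λ L : ℝ) (S : Sc) (M : Md) (m : ℕ) (a T G1 l0 l V X Lg X2 X3 G0 W3 : ℝ)
    (η : ℝ → ℝ) : Prop where
  A : At S M m a T
  ce : CeiG S M G1
  ln : LN E S M l0 l V X Lg X2 X3 G0 η
  ni : NI L S M m a l0 V X2 G0 W3
  no : NO Λ L S M m a l0 l V Lg X2 X3 G0 W3 η
  Vl : V ≤ cr S l * l
  hW : W3 ≤ L * η S.C
  CD : 10000 * S.C ^ 10 ≤ D
  Λ1 : 1 ≤ Λ
  ΛD : Λ ≤ D
  LD : L ≤ D
  lg : log S.n ≤ D
  DE : D ^ 40 ≤ E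
  hv : S.C * S.v * (S.n : ℝ) ^ 2 ≤ 1
  mn : S.n ≤ m
  hθ : S.C * S.θ ≤ 1 / 2

theorem U_cube {S : Sc} {κ t : ℝ} (k0 : 0 ≤ κ) (w0 : 0 ≤ S.w3 t) :
    Nd22.U S κ t ^ 3 = κ ^ 2 * S.w3 t := by
  rw [Nd22.U, w1, mul_pow, ← rpow_natCast, ← rpow_natCast (S.w3 t ^ _), ← rpow_mul k0,
    ← rpow_mul w0]
  norm_num

theorem uw_cube {S : Sc} {Lg t : ℝ} (w0 : 0 ≤ S.w3 t) :
    uw S Lg t ^ 3 = (Lg ^ 2 * cr S t) ^ 3 * S.w3 t := by
  rw [uw, mul_pow, ← rpow_natCast (S.w3 t ^ _), ← rpow_mul w0]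
  norm_num

namespace Cz

variable {D E Λ L : ℝ} {S : Sc} {M : Md} {m : ℕ} {a T G1 l0 l V X Lg X2 X3 G0 W3 : ℝ} {η : ℝ → ℝ}
  (Z : Cz D E Λ L S M m a T G1 l0 l V X Lg X2 X3 G0 W3 η)
include Z

theorem Cp {k : ℕ} (hk : k ≤ 10) : 10000 * S.C ^ k ≤ D :=
  le_trans (by gcongr; exact Z.A.cl.C1) Z.CD

theorem D4 : 10000 ≤ D := by simpa using Z.Cp (k := 0) (by norm_num)

theorem Dp {i j : ℕ} (h : i ≤ j) : D ^ i ≤ D ^ j := pow_le_pow_right₀ (by linarith [Z.D4]) h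

theorem DpE {i : ℕ} (h : i ≤ 40) : D ^ i ≤ E := (Z.Dp h).trans Z.DE

theorem D_E : D ≤ E := by simpa using Z.DpE (i := 1) (by norm_num)

theorem E1 : 1 ≤ E := by linarith [Z.D4, Z.D_E]

theorem EL : E ≤ Lg :=
  (le_mul_of_one_le_right (by linarith [Z.E1]) (one_le_pow₀ Z.A.cl.F1)).trans Z.ln.Lg0

theorem En : E ≤ S.n := Z.EL.trans Z.ln.Lg1

theorem l0p : 0 < l0 := by
  have := Z.A.cl.s_pos (k := S.jl) (Z.A.cl.i0.trans Z.A.cl.i1)
  exact lt_of_lt_of_le (mul_pos (by linarith [Z.E1]) this) Z.ln.l0s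

theorem lp : 0 < l := Z.l0p.trans_le Z.ln.l0l

theorem lC : l ≤ S.C := by nlinarith [Z.ln.l1, Z.E1, Z.lp, Z.A.cl.C1]

theorem mf_pos {t : ℝ} (h : 0 ≤ t) : 0 < mf S t :=
  div_pos (Z.A.cl.ms_pos h) (by linarith [Z.A.cl.F1])

theorem mf_mono {t t' : ℝ} (h : t ≤ t') : mf S t ≤ mf S t' :=
  div_le_div_of_nonneg_right (Z.A.cl.msm h) (by linarith [Z.A.cl.F1])

theorem mf_le (t : ℝ) : mf S t ≤ 1 / 2 := by
  have h := Z.A.cl
  rw [mf, div_le_iff₀ (by linarith [h.F1])]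
  nlinarith [h.ms1 t, Z.hθ, h.C1, h.θ0, h.F1]

theorem w3p {t : ℝ} (h : 0 < t) : 0 < S.w3 t := by
  have := Z.A.cl.ms_pos h.le
  have := Z.A.cl.N0
  have := Z.A.cl.F1
  unfold Sc.w3; positivity

theorem cx : Cx E S M m a l0 fun t => L * cl S V t := by
  have h := Z.A.cl
  have p := Z.l0p
  have L1 := Z.ni.L1
  have V0 := Z.ln.V0
  refine ⟨h, Z.A.m_pos, ⟨Z.ln.l0s, Z.ln.l0w, ?_, fun t t' u1 u2 => ?_, fun t u => ?_, fun t u => ?_,
    fun t t' u1 u2 => ?_, Z.ni.cru⟩, ?_⟩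
  · exact (mul_le_mul_of_nonneg_left Z.ln.l0l (by linarith [Z.E1])).trans Z.ln.l1
  · exact mul_le_mul_of_nonneg_left (by
      unfold cl; linarith [Ab33.cc_mono h (p.trans_le u1) u2]) (by linarith)
  · have := le_mul_of_one_le_left (p.le.trans u) (Ab33.cr_one S t)
    unfold cl; nlinarith
  · have a1 := le_mul_of_one_le_left (p.le.trans u) (Ab33.cr_one S t)
    refine ((le_max_right _ _).trans_eq (Ab33.cc_cube h (p.trans_le u)).symm).trans ?_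
    exact pow_le_pow_left₀ (by linarith) (by unfold cl; nlinarith) 3
  · have t0 := p.trans_le u1
    have t1 := t0.trans_le u2
    have a1 := Ab33.cr_dbl h t0 u2
    have a2 : V / t' ≤ V / t := div_le_div_of_nonneg_left V0 t0 u2
    have a3 : 0 ≤ V / t := by positivity
    have e : ∀ s, 0 < s → L * cl S V s / s = L * (cr S s + V / s) := fun s s0 => by
      unfold cl; field_simp
    rw [e t t0, e t' t1]
    nlinarith
  · linarith [Z.Cp (k := 1) (by norm_num), Z.D_E, h.C1]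

theorem cl_le {t : ℝ} (h1 : l ≤ t) : cl S V t ≤ 2 * (cr S t * t) := by
  unfold cl; linarith [Ab33.cc_mono Z.A.cl Z.lp h1, Z.Vl]

theorem Ug_nn {t : ℝ} (h1 : l ≤ t) : 0 ≤ Ug S Lg t := by
  have := Z.w3p (Z.lp.trans_le h1)
  have := Ab33.cr_one S t
  have := Z.E1.trans Z.EL
  unfold Ug Nd22.U w1; positivity

theorem Ug_cube {t : ℝ} (h1 : l ≤ t) : Ug S Lg t ^ 3 = (Lg * cr S t) ^ 2 * S.w3 t :=
  U_cube (by have := Ab33.cr_one S t; have := Z.E1.trans Z.EL; positivity)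
    (Z.w3p (Z.lp.trans_le h1)).le

theorem uw_nn {t : ℝ} (h1 : l ≤ t) : 0 ≤ uw S Lg t := by
  have := Z.w3p (Z.lp.trans_le h1)
  have := Ab33.cr_one S t
  unfold uw; positivity

theorem Ug_le {t : ℝ} (h1 : l ≤ t) : Lg * Ug S Lg t ≤ uw S Lg t := by
  have w := Z.w3p (Z.lp.trans_le h1)
  have c := Ab33.cr_one S t
  have g := Z.E1.trans Z.EL
  refine (pow_le_pow_iff_left₀ (mul_nonneg (by linarith) (Z.Ug_nn h1)) (Z.uw_nn h1)
    three_ne_zero).1 ?_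
  rw [mul_pow, Z.Ug_cube h1, uw_cube w.le]
  have : 1 ≤ Lg * cr S t := one_le_mul_of_one_le_of_one_le g c
  nlinarith [mul_le_mul_of_nonneg_left this
    (show 0 ≤ Lg ^ 3 * (Lg * cr S t) ^ 2 * S.w3 t by positivity)]

theorem Ug_uw {t : ℝ} (h1 : l ≤ t) : Ug S Lg t ≤ uw S Lg t :=
  (le_mul_of_one_le_left (Z.Ug_nn h1) (Z.E1.trans Z.EL)).trans (Z.Ug_le h1)

theorem kap_le {t : ℝ} (h1 : l ≤ t) (h2 : t ≤ S.C) : Lg * cr S t ≤ S.n := by
  have h := Z.A.cl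
  have t0 := Z.lp.trans_le h1
  have w := Z.w3p t0
  have c := Ab33.cr_one S t
  have g := Z.E1.trans Z.EL
  have u0 := Z.uw_nn h1
  have a1 : uw S Lg t ≤ 1 := by
    nlinarith [Z.ln.th2 t h1 h2, Z.mf_le t, mul_le_mul_of_nonneg_right Z.E1 (sq_nonneg (uw S Lg t))]
  have a2 : (Lg ^ 2 * cr S t) ^ 3 * S.w3 t ≤ 1 := by rw [← uw_cube w.le]; exact pow_le_one₀ u0 a1
  have a3 : 1 ≤ S.n * S.w3 t := by
    have m0 := h.ms_pos t0.le
    have := h.N0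
    rw [Sc.w3, ← mul_div_assoc, le_div_iff₀ (by positivity), mul_assoc, one_mul]
    gcongr
    nlinarith [h.ms1 t, Z.hθ, h.F1, mul_le_mul h2 (h.ms1 t) m0.le h.C0.le]
  have a4 : 1 ≤ Lg * cr S t := one_le_mul_of_one_le_of_one_le g c
  have a5 : Lg * cr S t ≤ Lg ^ 2 * cr S t := by nlinarith
  have a6 : Lg ^ 2 * cr S t ≤ (Lg ^ 2 * cr S t) ^ 3 := le_self_pow₀ (by linarith) three_ne_zero
  refine le_of_mul_le_mul_right ?_ w
  nlinarith [mul_le_mul_of_nonneg_right (a5.trans a6) w.le]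

theorem X20 : 0 ≤ X2 := le_trans (mul_nonneg Z.l0p.le (sq_nonneg _)) Z.ln.x2a
theorem X30 : 0 ≤ X3 := le_trans (mul_nonneg Z.l0p.le (by positivity)) Z.ln.x3a
theorem G00 : 0 ≤ G0 := le_trans (mul_nonneg Z.l0p.le (sq_nonneg _)) Z.ln.g0a

theorem eta_b {t : ℝ} (h1 : l ≤ t) (h2 : t ≤ S.C) : 1 / S.n ≤ η t ∧ uw S Lg t ^ 3 ≤ η t ∧
    ee S X2 X3 G0 W3 (Lg * cr S t) t (η t) ≤ (2 + L) * η t := by
  have b := Z.ln.ηb t h1 h2
  have t0 := Z.lp.trans_le h1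
  have u0 := Z.uw_nn h1
  have m0 := Z.A.cl.ms_pos t0.le
  have n0 := Z.A.cl.N0
  have x2 := Z.X20
  have x3 := Z.X30
  have g0 := Z.G00
  have a1 : 0 ≤ uw S Lg t ^ 2 * min (S.ms t / t) t := mul_nonneg (sq_nonneg _)
    (le_min (by positivity) t0.le)
  have a2 : 0 ≤ (√(Lg * cr S t * gg S t) + G0 + X2) * (uw S Lg t + √X2) := by positivity
  have a3 : 0 ≤ uw S Lg t ^ 3 := by positivity
  have a4 : (0 : ℝ) ≤ 1 / S.n := by positivity
  refine ⟨by linarith, by linarith, ?_⟩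
  have a5 := pow_le_pow_left₀ (Z.Ug_nn h1) (Z.Ug_uw h1) 3
  have a6 := mul_le_mul_of_nonneg_left (add_le_add_left (Z.Ug_uw h1) √X2)
    (show 0 ≤ √(Lg * cr S t * gg S t) + G0 + X2 by positivity)
  have a7 := mul_le_mul_of_nonneg_left (Z.ln.ηa h2) (show 0 ≤ L by linarith [Z.ni.L1])
  have a8 := Z.hW
  unfold ee
  unfold Ug at a5 a6
  linarith

theorem eta_pos {t : ℝ} (h1 : l ≤ t) (h2 : t ≤ S.C) : 0 < η t :=
  lt_of_lt_of_le (by have := Z.A.cl.N0; positivity) (Z.eta_b h1 h2).1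

/-- the key smallness of `o |Γ''|` -/
theorem key {t : ℝ} (h1 : l ≤ t) (h2 : t ≤ S.C) : E * (Ug S Lg t ^ 2 * cr S t) ≤ mf S t := by
  have h := Z.A.cl
  have t0 := Z.lp.trans_le h1
  have u0 := Z.Ug_nn h1
  have E1 := Z.E1
  have g := E1.trans Z.EL
  have c := Ab33.cr_one S t
  have r0 := Z.mf_pos t0.le
  rcases max_choice 1 (S.F * S.ms t / t ^ 2) with e | e
  · have : cr S t = 1 := (pow_eq_one_iff_of_nonneg (by linarith) three_ne_zero).1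
      ((Ab33.cr_cube h t0).trans e)
    rw [this, mul_one]
    exact le_trans (by gcongr; exact Z.Ug_uw h1) (Z.ln.th2 t h1 h2)
  · have F0 : 0 < S.F := by linarith [h.F1]
    have e1 : cr S t ^ 3 * t ^ 2 = S.F ^ 2 * mf S t := by
      rw [Ab33.cr_cube h t0, e, mf]; field_simp
    have a1 : E * (Lg * Ug S Lg t) ^ 3 ≤ mf S t * t := le_trans (by
      gcongr
      exact (pow_le_pow_left₀ (by positivity) (Z.Ug_le h1) 3).trans (Z.eta_b h1 h2).2.1)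
      (Z.ln.th4 t h1 h2)
    have a2 := pow_le_pow_left₀ (by positivity) a1 2
    have a3 : E * S.F ^ 2 ≤ Lg ^ 6 := Z.ln.Lg0.trans (le_self_pow₀ g (by norm_num))
    refine (pow_le_pow_iff_left₀ (by positivity) r0.le three_ne_zero).1 ?_
    refine le_of_mul_le_mul_right ?_ (show 0 < S.F ^ 2 by positivity)
    calc (E * (Ug S Lg t ^ 2 * cr S t)) ^ 3 * S.F ^ 2
        = E * S.F ^ 2 * (E ^ 2 * Ug S Lg t ^ 6 * cr S t ^ 3) := by ring
      _ ≤ Lg ^ 6 * (E ^ 2 * Ug S Lg t ^ 6 * cr S t ^ 3) := by gcongr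
      _ = (E * (Lg * Ug S Lg t) ^ 3) ^ 2 * cr S t ^ 3 := by ring
      _ ≤ (mf S t * t) ^ 2 * cr S t ^ 3 := by gcongr
      _ = mf S t ^ 2 * (cr S t ^ 3 * t ^ 2) := by ring
      _ = _ := by rw [e1]; ring

/-- comparable levels -/
theorem cmp {t t' : ℝ} (h1 : l ≤ t) (h2 : l ≤ t') (h3 : t ≤ S.C) (u1 : t' ≤ 2 * S.C ^ 2 * t)
    (u2 : t ≤ 2 * S.C ^ 2 * t') : η t' ≤ D * η t ∧ 100 * S.C ^ 2 * mf S t' ≤ D * mf S t ∧
      Ug S Lg t' ≤ D * Ug S Lg t ∧ cr S t' * t' ≤ 4 * S.C ^ 2 * (cr S t * t) := by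
  have h := Z.A.cl
  have C1 := h.C1
  have c2 : 1 ≤ 2 * S.C ^ 2 := by nlinarith
  have t0 := Z.lp.trans_le h1
  have t1 := Z.lp.trans_le h2
  have D4 := Z.D4
  have e0 := Z.eta_pos h1 h3
  have c := Ab33.cr_one S t
  have c' := Ab33.cr_one S t'
  have F0 : 0 < S.F := by linarith [h.F1]
  have ms : ∀ s s', 0 ≤ s → s' ≤ 2 * S.C ^ 2 * s → S.ms s' ≤ 16 * S.C ^ 4 * S.ms s :=
    fun s s' a1 a2 => ((h.msm a2).trans (h.ms_mul a1 c2)).trans_eq (by ring)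
  have cc : cr S t' * t' ≤ 4 * S.C ^ 2 * (cr S t * t) ∧ cr S t' ≤ 2 * S.C ^ 2 * cr S t := by
    rcases le_total t t' with v | v
    · have a1 := Ab33.cr_dbl h t0 v
      exact ⟨by nlinarith [mul_le_mul a1 u1 t1.le (by linarith)], by
        nlinarith [mul_le_mul_of_nonneg_right (one_le_pow₀ (n := 2) C1) (show 0 ≤ cr S t by linarith)]⟩
    · have a1 := Ab33.cc_mono h t1 v
      refine ⟨by nlinarith [mul_pos t0 (show 0 < cr S t by linarith)],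
        le_of_mul_le_mul_right ?_ t1⟩
      nlinarith [mul_le_mul_of_nonneg_left u2 (show 0 ≤ cr S t by linarith)]
  refine ⟨?_, ?_, ?_, cc.1⟩
  · rcases le_total t t' with v | v
    · nlinarith [Z.ln.ηa v]
    · obtain ⟨r, hr⟩ : ∃ r : ℕ, 2 * S.C ^ 2 ≤ 2 ^ r ∧ (2 : ℝ) ^ r ≤ 4 * S.C ^ 2 := by
        obtain ⟨r, a1, a2⟩ := exists_nat_pow_near c2 one_lt_two
        exact ⟨r + 1, a2.le, by rw [pow_succ]; linarith⟩
      have a1 := Ab33.dbl_pow (φ := η) (K := 16) Z.lp.le (by norm_num)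
        (fun s hs => Z.ln.η2 s (Z.lp.trans_le hs)) h2 r
      have a2 : η (2 ^ r * t') ≤ η t := Z.ln.ηa (u2.trans (by gcongr; exact hr.1))
      have a3 : (16 : ℝ) ^ r ≤ D := calc
        (16 : ℝ) ^ r = (2 ^ r) ^ 4 := by rw [← pow_mul, mul_comm, pow_mul]; norm_num
        _ ≤ (4 * S.C ^ 2) ^ 4 := by gcongr; exact hr.2
        _ ≤ D := by linarith [Z.Cp (k := 8) (by norm_num), show 0 < S.C ^ 8 by positivity]
      exact (a1.trans (mul_le_mul_of_nonneg_left a2 (by positivity))).trans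
        (mul_le_mul_of_nonneg_right a3 e0.le)
  · have a1 := ms t t' t0.le u1
    have a2 := Z.Cp (k := 6) (by norm_num)
    have a3 := h.ms_pos t0.le
    unfold mf
    rw [← mul_div_assoc, ← mul_div_assoc]
    gcongr ?_ / _
    nlinarith [mul_le_mul_of_nonneg_left a1 (show 0 ≤ 100 * S.C ^ 2 by positivity),
      mul_le_mul_of_nonneg_right a2 a3.le, show 0 < S.C ^ 6 * S.ms t by positivity]
  · have g := Z.E1.trans Z.EL
    refine (pow_le_pow_iff_left₀ (Z.Ug_nn h2) (mul_nonneg (by linarith) (Z.Ug_nn h1))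
      three_ne_zero).1 ?_
    have a1 := ms t' t t1.le u2
    have m0 := h.ms_pos t0.le
    have m1 := h.ms_pos t1.le
    have n0 := h.N0
    have a2 : S.w3 t' ≤ 32 * S.C ^ 6 * S.w3 t := by
      unfold Sc.w3
      rw [← mul_div_assoc, div_le_div_iff₀ (by positivity) (by positivity)]
      nlinarith [mul_le_mul_of_nonneg_left (mul_le_mul u2 a1 m0.le (by positivity))
        (show 0 ≤ S.F * S.n by positivity)]
    have w := Z.w3p t0
    rw [mul_pow, Z.Ug_cube h1, Z.Ug_cube h2]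
    calc _ ≤ (Lg * (2 * S.C ^ 2 * cr S t)) ^ 2 * (32 * S.C ^ 6 * S.w3 t) := by
          have := Z.w3p t1
          gcongr; exact cc.2
      _ = 128 * S.C ^ 10 * ((Lg * cr S t) ^ 2 * S.w3 t) := by ring
      _ ≤ _ := by
          gcongr
          linarith [Z.CD, le_self_pow₀ (show 1 ≤ D by linarith) three_ne_zero,
            show 0 < S.C ^ 10 by positivity]

end Cz

end Crest.Agent.T156.Alt.G89

end
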