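import Crest.Agent.T156.NdB_89

/-!
# Row 156, block (L): the net of good nodes, the window of a gap (helper89)
-/

set_option autoImplicit false

noncomputable section

namespace Crest.Agent.T156.Alt.G89

open Real Finset
open Crest.Agent.T156.Alt.E61 Crest.Agent.T156.Alt.Mp9 Crest.Agent.T156.Alt.Sz9
open Crest.Agent.T156.Alt.L69 (LN cr cl mf uw gg Phi)

section gq

open Classical in
/-- label measure of the good nodes -/
def gq (M : Md) (Gn : ℕ → Prop) (i k : ℕ) : ℝ :=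
  ∑ y ∈ Ioc i k, if Gn y then M.z y - M.z (y - 1) else 0

variable {S : Sc} {M : Md} {m : ℕ} {a T θ δ τ : ℝ} {Gn : ℕ → Prop} {U V : ℕ}

theorem gq_add {i j k : ℕ} (h1 : i ≤ j) (h2 : j ≤ k) : gq M Gn i j + gq M Gn j k = gq M Gn i k :=
  sum_Ioc_consecutive _ h1 h2

theorem gq_nn (A : At S M m a T) (i k : ℕ) : 0 ≤ gq M Gn i k := sum_nonneg fun y _ => by
  split_ifs
  exacts [A.dz_nn y, le_rfl]

theorem gq_le (A : At S M m a T) {i k : ℕ} (h : i ≤ k) : gq M Gn i k ≤ M.z k - M.z i := by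
  rw [← At.sum_dz M h]
  refine sum_le_sum fun y _ => ?_
  split_ifs
  exacts [le_rfl, A.dz_nn y]

theorem gq_gap {p q : ℕ} (n : Nx Gn U V p q) (h : p < q) : gq M Gn p q = M.z q - M.z (q - 1) := by
  rw [gq, ← Ioo_insert_right h, sum_insert (by simp), if_pos n.2.2.2.2.1, sum_eq_zero, add_zero]
  intro y hy
  rw [mem_Ioo] at hy
  exact if_neg (n.2.2.2.2.2 y hy.1 hy.2)

theorem nx_prev {i k : ℕ} (h0 : U ≤ i) (h : i < k) (hk : k ≤ V) (gi : Gn i) (gk : Gn k) :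
    ∃ r, i ≤ r ∧ r < k ∧ Nx Gn U V r k := by
  classical
  have i1 : i ≤ Nat.findGreatest Gn (k - 1) := Nat.le_findGreatest (by omega) gi
  have i2 : Nat.findGreatest Gn (k - 1) ≤ k - 1 := Nat.findGreatest_le _
  exact ⟨_, i1, by omega, by omega, by omega, hk, Nat.findGreatest_spec (by omega : i ≤ k - 1) gi,
    gk, fun y c d => Nat.findGreatest_is_greatest c (by omega)⟩

theorem badm (lab : ∀ r k, Nx Gn U V r k → r < k → M.z (k - 1) - M.z r ≤ θ * ds M m a r k)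
    {i : ℕ} (h0 : U ≤ i) (gi : Gn i) : ∀ k, i ≤ k → k ≤ V → Gn k →
      M.z k - M.z i ≤ gq M Gn i k + θ * ds M m a i k := by
  intro k
  induction k using Nat.strong_induction_on with
  | _ k ih =>
  intro h1 h2 gk
  rcases h1.eq_or_lt with rfl | c
  · simp [ds, gq]
  obtain ⟨r, r1, r2, n⟩ := nx_prev h0 c h2 gi gk
  have a1 := ih r r2 r1 (by omega) n.2.2.2.1
  have a2 := lab r k n r2
  rw [← gq_add r1 r2.le, gq_gap n r2]
  unfold ds at *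
  linarith

theorem win_up (A : At S M m a T) {p q : ℕ} (n : Nx Gn U V p q) (h : p < q) (gV : Gn V)
    (τ0 : 0 ≤ τ) (hδ : ∀ y, p < y → y ≤ V → M.z y - M.z (y - 1) ≤ δ) (hδτ : δ ≤ τ)
    (big : 2 * τ < gq M Gn p V) :
    ∃ j, q ≤ j ∧ j ≤ V ∧ Gn j ∧ M.z q + τ ≤ M.z j ∧ gq M Gn p j ≤ 3 * τ := by
  classical
  have qV := n.2.2.1
  have a1 := (gq_gap (M := M) n h).trans_le (hδ q h qV)
  have ex : ∃ j, q ≤ j ∧ j ≤ V ∧ Gn j ∧ M.z q + τ ≤ M.z j := ⟨V, qV, le_rfl, gV, by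
    linarith [gq_add (M := M) (Gn := Gn) h.le qV, gq_le (Gn := Gn) A qV]⟩
  obtain ⟨j1, j2, j3, j4⟩ := Nat.find_spec ex
  refine ⟨_, j1, j2, j3, j4, ?_⟩
  rw [← gq_add h.le j1]
  rcases j1.eq_or_lt with c | c
  · rw [← c]; simp only [gq, Ioc_self, sum_empty] at a1 ⊢; linarith
  obtain ⟨r, r1, r2, n'⟩ := nx_prev (n.1.trans h.le) c j2 n.2.2.2.2.1 j3
  have a2 : M.z r < M.z q + τ := not_le.1 fun d =>
    Nat.find_min ex r2 ⟨r1, by omega, n'.2.2.2.1, d⟩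
  have a3 := (gq_gap (M := M) n' r2).trans_le (hδ _ (by omega) j2)
  rw [← gq_add r1 r2.le]
  linarith [gq_le (Gn := Gn) A r1]

end gq

theorem pw89 {D y ε : ℝ} (D4 : 10000 ≤ D) (y0 : 0 ≤ y) (hy : D ^ 6 * y ≤ 1) (hε : 1 ≤ ε * D)
    (i j : ℕ) (h : i + 2 ≤ 6 * j) : 10000 * (D ^ i * y ^ j) ≤ ε := by
  have D0 : 0 < D := by linarith
  have a1 : D ^ (i + 2) * y ^ j ≤ 1 := calc
    _ ≤ D ^ (6 * j) * y ^ j := by gcongr; linarith
    _ = (D ^ 6 * y) ^ j := by rw [mul_pow, pow_mul]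
    _ ≤ 1 := pow_le_one₀ (by positivity) hy
  have a2 : D * (D ^ i * y ^ j) ≤ ε := le_of_mul_le_mul_right (by
    calc _ = D ^ (i + 2) * y ^ j := by ring
      _ ≤ _ := a1.trans hε) D0
  exact le_trans (by gcongr) a2

theorem wn_num {D y ε r η U X2 F θ v mi : ℝ} (D4 : 10000 ≤ D) (y0 : 0 < y) (hy : D ^ 6 * y ≤ 1)
    (hε : 1 ≤ ε * D) (ε1 : ε ≤ 1) (r0 : 0 < r) (r1 : r ≤ 1) (η0 : 0 < η) (X0 : 0 ≤ X2)
    (h1 : η ≤ y ^ 6 * r ^ 3) (h2 : U ^ 2 ≤ y ^ 6 * r ^ 2) (h3 : X2 ≤ y ^ 6 * r ^ 2) (F1 : 1 ≤ F)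
    (θ0 : 0 ≤ θ) (h4 : θ * F ^ 2 ≤ D ^ 2 * y ^ 6) (v0 : 0 ≤ v) (h5 : F ^ 2 * v ≤ η) (h6 : mi ≤ η) :
    θ * (1 + 8 * D ^ 3 * (1 + D)) ≤ ε ∧
    (v ≤ ε * (r * y / 2) ∧ D ^ 12 * η / r ^ 2 ≤ ε * (r * y / 2)) ∧
    D ^ 4 * X2 + (2 * D ^ 5 * U ^ 2 + D * F ^ 2 * r ^ 2) * θ + D ^ 3 * U ^ 2 ≤ ε * (r * y / 2) ^ 2 ∧
    2 * D ^ 5 * U ^ 2 + D ^ 3 * U ^ 2 ≤ ε * (r ^ 2 / D) ∧
    D ^ 9 * η + D * F ^ 2 * r ^ 2 * v ≤ ε * (r * y / 2) ^ 3 ∧
    D ^ 9 * η + mi + v ^ 3 ≤ ε * (r ^ 2 / D * (D ^ 12 * η / r ^ 2)) := by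
  have D1 : 1 ≤ D := by linarith
  have D0 : 0 < D := by linarith
  have P := pw89 D4 y0.le hy hε
  have Dp : ∀ i j : ℕ, i ≤ j → D ^ i ≤ D ^ j := fun i j h => pow_le_pow_right₀ D1 h
  have F2 : 1 ≤ F ^ 2 := one_le_pow₀ F1
  have t1 : θ ≤ D ^ 2 * y ^ 6 := (le_mul_of_one_le_right θ0 F2).trans h4
  have t2 : θ ≤ 1 := by linarith [P 2 6 (by norm_num)]
  have v1 : v ≤ η := (le_mul_of_one_le_left v0 F2).trans h5
  have ry : 0 < r * y := by positivity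
  have r3 : r ^ 3 ≤ r := by nlinarith [mul_le_mul r1 r1 r0.le zero_le_one]
  have u0 := sq_nonneg U
  have z0 : 0 ≤ y ^ 6 * r ^ 2 := by positivity
  refine ⟨?_, ⟨?_, ?_⟩, ?_, ?_, ?_, ?_⟩
  · have a1 : 1 + 8 * D ^ 3 * (1 + D) ≤ 17 * D ^ 4 := by
      linarith [Dp 0 4 (by norm_num), Dp 3 4 (by norm_num)]
    linarith [mul_le_mul t1 a1 (by positivity) (by positivity), P 6 6 (by norm_num),
      show 0 ≤ D ^ 6 * y ^ 6 by positivity]
  · have a1 : y ^ 6 * r ^ 3 ≤ y ^ 6 * r := by gcongr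
    linarith [mul_le_mul_of_nonneg_right (P 0 5 (by norm_num)) ry.le,
      show 0 ≤ y ^ 6 * r by positivity]
  · rw [div_le_iff₀ (by positivity)]
    linarith [mul_le_mul_of_nonneg_right (P 12 5 (by norm_num)) (show 0 ≤ r ^ 3 * y by positivity),
      mul_le_mul_of_nonneg_left h1 (show 0 ≤ D ^ 12 by positivity),
      show 0 ≤ D ^ 12 * y ^ 6 * r ^ 3 by positivity]
  · have a1 := mul_le_mul (Dp 4 5 (by norm_num)) h3 X0 (by positivity)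
    have a2 := mul_le_mul (Dp 3 5 (by norm_num)) h2 u0 (by positivity)
    have a3 := mul_le_mul (mul_le_mul_of_nonneg_left h2 (show 0 ≤ D ^ 5 by positivity)) t2 θ0
      (by positivity)
    have a4 := mul_le_mul_of_nonneg_left h4 (show 0 ≤ D * r ^ 2 by positivity)
    have a5 := mul_le_mul_of_nonneg_right (Dp 3 5 (by norm_num)) z0
    linarith [mul_le_mul_of_nonneg_right (P 5 4 (by norm_num)) (show 0 ≤ r ^ 2 * y ^ 2 by positivity),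
      show 0 ≤ D ^ 5 * (y ^ 6 * r ^ 2) by positivity]
  · rw [← mul_div_assoc, le_div_iff₀ D0]
    have a1 := mul_le_mul (Dp 4 6 (by norm_num)) h2 u0 (by positivity)
    have a2 := mul_le_mul_of_nonneg_left h2 (show 0 ≤ D ^ 6 by positivity)
    linarith [mul_le_mul_of_nonneg_right (P 6 6 (by norm_num)) (show 0 ≤ r ^ 2 by positivity),
      show 0 ≤ D ^ 6 * (y ^ 6 * r ^ 2) by positivity]
  · have a1 : D * r ^ 2 * (F ^ 2 * v) ≤ D ^ 9 * 1 * η := by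
      gcongr
      exacts [by simpa using Dp 1 9 (by norm_num), pow_le_one₀ r0.le r1]
    have a2 := mul_le_mul_of_nonneg_left h1 (show 0 ≤ D ^ 9 by positivity)
    linarith [mul_le_mul_of_nonneg_right (P 9 3 (by norm_num)) (show 0 ≤ r ^ 3 * y ^ 3 by positivity),
      show 0 ≤ D ^ 9 * (y ^ 6 * r ^ 3) by positivity]
  · rw [show ε * (r ^ 2 / D * (D ^ 12 * η / r ^ 2)) = ε * D * (D * (D ^ 9 * η)) by field_simp]
    have y1 : y ^ 6 * r ^ 3 ≤ 1 := by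
      have := P 0 6 (by norm_num)
      nlinarith [pow_le_one₀ (n := 3) r0.le r1, show 0 ≤ y ^ 6 by positivity]
    have a1 : v ^ 3 ≤ v := by
      have : v ≤ 1 := by linarith
      nlinarith [mul_le_mul this this v0 zero_le_one]
    have a2 : η ≤ D ^ 9 * η := le_mul_of_one_le_left η0.le (one_le_pow₀ D1)
    have a3 := mul_le_mul_of_nonneg_right D4 (show 0 ≤ D ^ 9 * η by positivity)
    linarith [le_mul_of_one_le_left (show 0 ≤ D * (D ^ 9 * η) by positivity) hε]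

namespace Cz

variable {D E Λ L : ℝ} {S : Sc} {M : Md} {m : ℕ} {a T G1 l0 l V X Lg X2 X3 G0 W3 : ℝ} {η : ℝ → ℝ}
  (Z : Cz D E Λ L S M m a T G1 l0 l V X Lg X2 X3 G0 W3 η)
include Z

theorem s_cmp {i j : ℕ} (h1 : l ≤ M.s i) (h2 : l ≤ M.s j) (h : j ≤ 2 * i) (hi : i ≤ S.J)
    (hj : j ≤ S.J) : M.s j ≤ 2 * S.C ^ 2 * M.s i := by
  have := Z.cx.tl_cmp h hi hj
  rwa [tl_eq (Z.ln.l0l.trans h1), tl_eq (Z.ln.l0l.trans h2)] at this

theorem v_n : (S.n : ℝ) * (S.C * S.v) ≤ 1 / S.n := by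
  rw [le_div_iff₀ Z.A.cl.N0]; linarith [Z.hv]

set_option maxHeartbeats 800000 in
/-- the window of a gap -/
theorem wn {Gn : ℕ → Prop} {W : ℕ → ℝ} {U V1 p q i j : ℕ} {ε y τ Dm : ℝ} (hε : 1 ≤ ε * D)
    (ε1 : ε ≤ 1) (y0 : 0 < y) (hy : E * y ^ 6 = 1) (hU : l ≤ M.s U) (hV : V1 < S.J) (i0 : U ≤ i)
    (ip : i ≤ p) (pq : p ≤ q) (qj : q ≤ j) (j1 : j ≤ V1) (gi : Gn i) (gj : Gn j) (c1 : p ≤ 2 * i)
    (c2 : j ≤ 2 * p) (dn : M.z i + τ ≤ M.z p) (up : M.z q + τ ≤ M.z j)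
    (hτ : D ^ 12 * (η (M.s p) + Ug S Lg (M.s p) ^ 2 * Dm) ≤ τ * mf S (M.s p))
    (Dp : gd M S m a T p ≤ Dm) (Dq : gd M S m a T q ≤ Dm)
    (hW : ∀ k, i ≤ k → k ≤ j → W k ≤ D * W p) (w1 : mf S (M.s p) * y ^ 2 / 4 ≤ W p) :
    ∃ i j η' α o' μ Mc τ0 Dm w, Wn S M m a T Gn U V1 (fun k => D ^ 8 * η (M.s k))
      (fun k => D * Ug S Lg (M.s k) ^ 2) (fun k => 2 * D ^ 3 * Ug S Lg (M.s k) ^ 2) W (D ^ 4 * X2)
      (8 * D ^ 3) (D ^ 2 / Lg) ε D p q i j η' α o' μ Mc τ0 Dm w := by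
  have h := Z.A.cl
  have D4 := Z.D4
  have D0 : 0 < D := by linarith
  have E0 : 0 < E := by linarith [Z.E1]
  have F0 : 0 < S.F := by linarith [h.F1]
  have g0 : 0 < Lg := by linarith [Z.EL]
  have lv : ∀ k, i ≤ k → l ≤ M.s k := fun k u => hU.trans (h.sm (by omega))
  have t1 := lv p ip
  have t2 := Z.sC (show p < S.J by omega)
  have m0 := Z.mf_pos (h.s_nn p)
  have e0 := Z.eta_pos t1 t2
  have jl := Z.jl4 (Z.ln.l0l.trans (lv i le_rfl)) (show i ≤ S.J by omega)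
  have := h.i0
  have := h.i1
  obtain ⟨r, r0, hr⟩ : ∃ r, 0 < r ∧ mf S (M.s p) = r ^ 2 := ⟨_, sqrt_pos.2 m0, (sq_sqrt m0.le).symm⟩
  have cm : ∀ k, i ≤ k → k ≤ j → _ := fun k u1 u2 => Z.cmp t1 (lv k u1) t2
    (Z.s_cmp t1 (lv k u1) (by omega) (by omega) (by omega))
    (Z.s_cmp (lv k u1) t1 (by omega) (by omega) (by omega))
  have cm' := (Z.cmp (lv i le_rfl) t1 (Z.sC (by omega))
    (Z.s_cmp (lv i le_rfl) t1 (by omega) (by omega) (by omega))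
    (Z.s_cmp t1 (lv i le_rfl) (by omega) (by omega) (by omega))).2.1
  have dv : ∀ {x z : ℝ}, E * x ≤ z → x ≤ y ^ 6 * z := fun {x z} u =>
    calc x = y ^ 6 * (E * x) := by rw [← mul_assoc, mul_comm (y ^ 6), hy, one_mul]
      _ ≤ _ := by gcongr
  have y6 : D ^ 6 * y ≤ 1 := (pow_le_one_iff_of_nonneg (by positivity) (show 6 ≠ 0 by norm_num)).1
    (by rw [mul_pow, ← pow_mul, ← hy]; gcongr; exact Z.DpE (by norm_num))
  have n1 := (Z.eta_b t1 t2).1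
  have u0 := Z.Ug_nn t1
  obtain ⟨N1, N2, N3, N4, N5, N6⟩ := wn_num (η := η (M.s p)) (U := Ug S Lg (M.s p)) (X2 := X2)
    (F := S.F) (θ := D ^ 2 / Lg) (v := S.v) (mi := 1 / (m + 1)) D4 y0 y6 hε ε1 r0
    (by nlinarith [Z.mf_le (M.s p)]) e0 Z.X20
    (dv (by
      have := Z.ln.th1 _ t1 t2
      rwa [hr, ← rpow_natCast, ← rpow_mul r0.le, show ((2 : ℕ) : ℝ) * (3 / 2) = (3 : ℕ) by norm_num,
        rpow_natCast] at this))
    (dv (hr ▸ le_trans (by gcongr; exact Z.Ug_uw t1) (Z.ln.th2 _ t1 t2)))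
    (dv (hr ▸ Z.ln.th3.trans (Z.mf_mono t1))) h.F1 (by positivity)
    (by
      rw [div_mul_eq_mul_div, mul_div_assoc]
      gcongr
      rw [div_le_iff₀ g0]
      exact dv Z.ln.Lg0) h.v0.le
    (by
      have a1 : S.F ^ 2 ≤ S.n := by nlinarith [Z.ln.Lg0, Z.ln.Lg1, Z.E1, sq_nonneg S.F]
      have a2 : S.v ≤ S.C * S.v := le_mul_of_one_le_left h.v0.le h.C1
      exact (mul_le_mul a1 a2 h.v0.le h.N0.le).trans (Z.v_n.trans n1))
    (le_trans (one_div_le_one_div_of_le h.N0 (by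
      have : (S.n : ℝ) ≤ m := by exact_mod_cast Z.mn
      linarith)) n1)
  have ε0 : 0 < ε := (mul_pos_iff_of_pos_right D0).1 (by linarith)
  have Dm0 : 0 ≤ Dm := (abs_nonneg _).trans Dp
  have mg : D ^ 12 * η (M.s p) / r ^ 2 + D ^ 3 * Ug S Lg (M.s p) ^ 2 * Dm / (ε * (r ^ 2 / D)) ≤ τ := by
    have a1 : D ^ 3 * Ug S Lg (M.s p) ^ 2 * Dm / (ε * (r ^ 2 / D)) ≤
        D ^ 12 * (Ug S Lg (M.s p) ^ 2 * Dm) / r ^ 2 := by
      rw [div_le_div_iff₀ (by positivity) (by positivity),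
        show D ^ 12 * (Ug S Lg (M.s p) ^ 2 * Dm) * (ε * (r ^ 2 / D)) =
          ε * D * (D ^ 10 * Ug S Lg (M.s p) ^ 2 * Dm * r ^ 2) by field_simp]
      refine le_trans ?_ (le_mul_of_one_le_left (by positivity) hε)
      gcongr
      exacts [by linarith, by norm_num]
    refine (add_le_add_right a1 _).trans ?_
    rw [← add_div, div_le_iff₀ (by positivity), ← hr]
    linarith
  refine ⟨i, j, D ^ 9 * η (M.s p), 2 * D ^ 5 * Ug S Lg (M.s p) ^ 2, D ^ 3 * Ug S Lg (M.s p) ^ 2,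
    r ^ 2 / D, D * S.F ^ 2 * r ^ 2, D ^ 12 * η (M.s p) / r ^ 2, Dm, r * y / 2, i0, ip, qj, j1, gi,
    gj, by linarith, by linarith, fun k u1 u2 => ?_, fun x z u1 u2 u3 => ?_, ?_, Dp, Dq,
    by positivity, by rw [hr] at w1; linarith, by positivity, by positivity,
    ⟨by positivity, by positivity, by positivity, by positivity⟩, N1, N2, N3, N4, N5, N6⟩
  · obtain ⟨a1, -, a2, -⟩ := cm k u1 u2
    have a3 := pow_le_pow_left₀ (Z.Ug_nn (lv k u1)) a2 2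
    refine ⟨hW k u1 u2, ?_, fun _ => ⟨?_, ?_⟩⟩
    · linarith [mul_le_mul_of_nonneg_left a3 (show 0 ≤ D ^ 3 by positivity)]
    · linarith [mul_le_mul_of_nonneg_left a1 (show 0 ≤ D ^ 8 by positivity)]
    · linarith [mul_le_mul_of_nonneg_left a3 D0.le]
  · refine le_trans (mul_le_mul_of_nonneg_right ?_ (sub_nonneg.2 (h.leg.zm u2)))
      (Z.A.h_fl (u := i) (by omega) u1 u2 (by omega))
    have c0 := h.C0
    rw [← hr, show S.ms (M.s i) / (S.C ^ 2 * S.F) = mf S (M.s i) / S.C ^ 2 by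
      unfold mf; field_simp, div_le_div_iff₀ D0 (by positivity)]
    linarith [show 0 < S.C ^ 2 * mf S (M.s p) by positivity]
  · refine (Z.A.h_up Z.ce.up (by omega) pq (by omega)).trans
      (mul_le_mul_of_nonneg_right ?_ (sub_nonneg.2 (h.leg.zm pq)))
    have a1 := mul_le_mul_of_nonneg_left (cm q (by omega) qj).2.1 (sq_nonneg S.F)
    have a2 := Z.mf_pos (h.s_nn q)
    have c0 := h.C0
    rw [← hr, show S.ms (M.s q) = S.F * mf S (M.s q) by unfold mf; field_simp]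
    linarith [show 0 < S.F ^ 2 * S.C ^ 2 * mf S (M.s q) by positivity]

end Cz

end Crest.Agent.T156.Alt.G89

end
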