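import Crest.Agent.T156.NdC_89

/-!
# Row 156, block (L): the net of good nodes, short gaps (helper89)
-/

set_option autoImplicit false

noncomputable section

namespace Crest.Agent.T156.Alt.G89

open Real Finset
open Crest.Agent.T156.Alt.E61 Crest.Agent.T156.Alt.Mp9 Crest.Agent.T156.Alt.Sz9
open Crest.Agent.T156.Alt.L69 (LN cr cl mf uw gg Phi)

theorem blog {D : ℝ} {y p h : ℕ} (h1 : 4 * D ^ 2 * h ≤ p) (h2 : p ≤ y + 2 * h) (h3 : p ≤ 2 * y)
    (p0 : 0 < p) : D ^ 2 * (log p - log y) ≤ 1 := by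
  have y0 : (0 : ℝ) < y := by exact_mod_cast (show 0 < y by omega)
  have p1 : (0 : ℝ) < p := by exact_mod_cast p0
  have a1 := log_le_sub_one_of_pos (div_pos p1 y0)
  rw [log_div p1.ne' y0.ne', div_sub_one y0.ne'] at a1
  refine (mul_le_mul_of_nonneg_left a1 (sq_nonneg D)).trans ?_
  rw [← mul_div_assoc, div_le_one y0]
  have b2 : (p : ℝ) ≤ y + 2 * h := by exact_mod_cast h2
  have b3 : (p : ℝ) ≤ 2 * y := by exact_mod_cast h3
  nlinarith [mul_le_mul_of_nonneg_left b2 (sq_nonneg D)]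

theorem exp_three : exp 3 ≤ 27 := by
  rw [show (3 : ℝ) = (3 : ℕ) * 1 by norm_num, exp_nat_mul]
  exact (pow_le_pow_left₀ (exp_pos _).le exp_one_lt_three.le 3).trans_eq (by norm_num)

theorem exp_rat {x y : ℝ} (h : x ≤ y + 3) : exp x ≤ 27 * exp y :=
  (exp_le_exp.2 h).trans (by rw [exp_add, mul_comm]; gcongr; exact exp_three)

namespace Cz

variable {D E Λ L : ℝ} {S : Sc} {M : Md} {m : ℕ} {a T G1 l0 l V X Lg X2 X3 G0 W3 : ℝ} {η : ℝ → ℝ}
  (Z : Cz D E Λ L S M m a T G1 l0 l V X Lg X2 X3 G0 W3 η)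
include Z

theorem lE {t : ℝ} (h1 : l ≤ t) (h2 : t ≤ S.C) : E * (1 / S.n) ≤ mf S t * t :=
  (mul_le_mul_of_nonneg_left (Z.eta_b h1 h2).1 (by linarith [Z.E1])).trans (Z.ln.th4 t h1 h2)

theorem Jv : 1 ≤ 3 * S.C ^ 4 * (S.J * S.v) := by
  have h := Z.A.cl
  nlinarith [Ab33.sJ_ge h, mul_le_mul_of_nonneg_left (h.s_bds le_rfl).2
    (show 0 ≤ 3 * S.C ^ 3 by have := h.C0; positivity)]

/-- the index step -/
theorem step {p : ℕ} (h1 : l ≤ M.s p) (hp : p < S.J) : ∃ h : ℕ, 4 * D ^ 2 * h ≤ p ∧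
    (p : ℝ) ≤ 8 * D ^ 2 * h ∧ 100 * h ≤ p ∧ 1 ≤ h ∧ ∀ p', l ≤ M.s p' → p ≤ 2 * p' → p' ≤ 2 * p →
      p' + h < S.J → ∃ i, p' ≤ i ∧ i ≤ p' + h ∧ GN S M m a l0 V L Lg i := by
  have c := Z.A.cl
  have D4 := Z.D4
  have n0 := c.N0
  have t0 := c.s_nn p
  have E1 := Z.E1
  have a1 : E ≤ p := by
    have b1 := Z.lE h1 (Z.sC hp)
    have b2 : mf S (M.s p) * M.s p ≤ 1 * (p * (S.C * S.v)) :=
      mul_le_mul (by linarith [Z.mf_le (M.s p)]) (c.s_bds hp.le).2 t0 zero_le_one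
    have b3 : (p : ℝ) * (S.C * S.v) ≤ p * (1 / S.n) := by
      gcongr
      refine le_trans (le_mul_of_one_le_left (mul_pos c.C0 c.v0).le ?_) Z.v_n
      exact_mod_cast c.n1
    exact le_of_mul_le_mul_right (by linarith) (show (0 : ℝ) < 1 / S.n by positivity)
  have a2 : 8 * D ^ 2 ≤ p := by nlinarith [Z.DpE (i := 3) (by norm_num), sq_nonneg D]
  have d0 : 0 < 4 * D ^ 2 := by positivity
  have f1 := Nat.floor_le (show (0 : ℝ) ≤ p / (4 * D ^ 2) by positivity)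
  have f2 := Nat.lt_floor_add_one ((p : ℝ) / (4 * D ^ 2))
  generalize ⌊(p : ℝ) / (4 * D ^ 2)⌋₊ = h at f1 f2
  rw [le_div_iff₀ d0] at f1
  rw [div_lt_iff₀ d0] at f2
  have h0 : (0 : ℝ) ≤ h := by positivity
  have f3 : (1 : ℝ) < h := lt_of_mul_lt_mul_right (by linarith) d0.le
  have f4 : (p : ℝ) ≤ 8 * D ^ 2 * h := by nlinarith
  have f5 : 100 * h ≤ p := by
    have : (100 : ℝ) * h ≤ p := by
      nlinarith [mul_le_mul_of_nonneg_right (show 100 ≤ 4 * D ^ 2 by nlinarith) h0]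
    exact_mod_cast this
  refine ⟨h, by linarith, f4, f5, by exact_mod_cast f3.le, fun p' u1 u2 u3 u4 => ?_⟩
  refine Z.ex u1 (by omega) u4 (by omega) ?_
  have b1 : (p' : ℝ) ≤ 2 * p := by exact_mod_cast u3
  have b2 := (c.s_bds (show p' ≤ S.J by omega)).2
  have v0 := c.v0
  have b3 : 16 * S.C ≤ D := by linarith [Z.Cp (k := 1) (by norm_num), c.C0]
  have C0 := c.C0
  push_cast
  calc D ^ 3 * M.s p' ≤ D ^ 3 * ((16 * D ^ 2 * h) * (S.C * S.v)) := by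
        gcongr; exact b2.trans (by gcongr; linarith)
    _ = D ^ 5 * (16 * S.C) * S.v * h := by ring
    _ ≤ D ^ 5 * D * S.v * h := by gcongr
    _ ≤ _ := by
        have := Z.EL
        have : 0 < Lg := by linarith
        gcongr
        · linarith [Z.DpE (i := 6) (by norm_num), Z.EL]
        · linarith

/-- crude size of `Γ''` -/
theorem gd_cru {p k : ℕ} (h1 : l ≤ M.s p) (h : p ≤ k) (h2 : k ≤ 2 * p) (hk : k < S.J) :
    gd M S m a T k ≤ D ^ 2 * (cr S (M.s p) * M.s p) := by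
  have c := Z.A.cl
  have t1 := h1.trans (c.sm h)
  have jl := Z.jl4 (Z.ln.l0l.trans t1) hk.le
  have := c.i0
  have := c.i1
  have := c.i3
  have X := Z.cx.cf
  have a1 := abs_Gd_le Z.A (k := k) (by omega) (by omega)
  have a2 := Ab33.sb_le Z.A Z.ce Z.ln.HJ (l := l0) (cf := fun t => L * cl S V t)
    ⟨Z.l0p, Z.l0p.le.trans (X.ge _ le_rfl), X.mono, X.fl, X.dbl, X.cru⟩ (k := k) (by omega) hk
    (Z.ln.l0l.trans t1)
  have a3 := Ab33.z_le c (k := k) (by omega) hk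
  have a4 := (Z.cmp h1 t1 (Z.sC (by omega)) (Z.s_cmp h1 t1 h2 (by omega) hk.le)
    (Z.s_cmp t1 h1 (by omega) hk.le (by omega))).2.2.2
  have a5 := le_mul_of_one_le_left (c.s_nn k) (Ab33.cr_one S (M.s k))
  have a6 := Z.cl_le t1
  have C0 := c.C0
  have L1 := Z.ni.L1
  have D4 := Z.D4
  have x0 : 0 ≤ cr S (M.s p) * M.s p := mul_nonneg (by linarith [Ab33.cr_one S (M.s p)]) (c.s_nn p)
  have b1 : 8 * S.C ^ 3 * (L * cl S V (M.s k)) ≤
      8 * S.C ^ 3 * (D * (2 * (4 * S.C ^ 2 * (cr S (M.s p) * M.s p)))) := by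
    gcongr
    exacts [le_trans (c.s_nn k) (by unfold cl; linarith [Z.ln.V0]), Z.LD, by linarith]
  have b2 := mul_le_mul_of_nonneg_left (a5.trans a4) (show 0 ≤ 3 * S.C ^ 2 by positivity)
  have b3 := mul_le_mul_of_nonneg_right (Z.Cp (k := 5) (by norm_num)) (mul_nonneg (by linarith :
    0 ≤ D) x0)
  have b4 := mul_le_mul_of_nonneg_right (Z.Cp (k := 4) (by norm_num)) x0
  have b5 := mul_le_mul_of_nonneg_right D4 (mul_nonneg (by linarith : 0 ≤ D) x0)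
  have b6 : 0 ≤ D * (cr S (M.s p) * M.s p) := by positivity
  unfold gd
  linarith

theorem tiny {t y : ℝ} (h1 : l ≤ t) (h2 : t ≤ S.C) (y0 : 0 < y) (hy : E * y ^ 6 = 1) :
    900 * D * exp (-(100 * D)) ≤ mf S t * y ^ 2 / 4 := by
  have c := Z.A.cl
  have n0 := c.N0
  have D4 := Z.D4
  have E1 := Z.E1
  have m0 := Z.mf_pos (Z.lp.le.trans h1)
  have a1 : (S.n : ℝ) ≤ exp D := by rw [← exp_log n0]; exact exp_le_exp.2 Z.lg
  have a2 : 1 ≤ S.n * mf S t := by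
    have b1 := (Z.lE h1 h2).trans (mul_le_mul_of_nonneg_left (h2.trans Z.cx.CE) m0.le)
    rw [mul_one_div, div_le_iff₀ n0] at b1
    exact le_of_mul_le_mul_left (by linarith) (show 0 < E by linarith)
  have y1 : y ≤ 1 := (pow_le_one_iff_of_nonneg y0.le (show 6 ≠ 0 by norm_num)).1
    (by nlinarith [show 0 < y ^ 6 by positivity])
  have a3 : 1 ≤ S.n * y ^ 2 := hy ▸ mul_le_mul Z.En (pow_le_pow_of_le_one y0.le y1 (by norm_num))
    (by positivity) n0.le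
  have a4 : 3600 * D ≤ S.n := by nlinarith [Z.DpE (i := 2) (by norm_num), Z.En]
  have a5 : (S.n : ℝ) ^ 3 ≤ exp (100 * D) := (pow_le_pow_left₀ n0.le a1 3).trans (by
    rw [← exp_nat_mul]; exact exp_le_exp.2 (by push_cast; linarith))
  rw [exp_neg, ← div_eq_mul_inv, div_le_div_iff₀ (exp_pos _) (by norm_num)]
  calc 900 * D * 4 = 3600 * D * (1 * 1) := by ring
    _ ≤ S.n * (S.n * mf S t * (S.n * y ^ 2)) := by gcongr
    _ = mf S t * y ^ 2 * (S.n : ℝ) ^ 3 := by ring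
    _ ≤ _ := by gcongr

theorem gh {U V1 : ℕ} (hU : max l (2 * l0) ≤ M.s U) (uV : U ≤ V1)
    (ok : ∀ y ≤ V1, Okn S M m a Lg y) :
    GH S M m a T (GN S M m a l0 V L Lg) U V1 (fun k => D ^ 8 * η (M.s k))
      (fun k => D * Ug S Lg (M.s k) ^ 2) (fun k => D * u4 M m a k ^ 2)
      (fun k => 2 * D ^ 3 * Ug S Lg (M.s k) ^ 2) (D ^ 4 * X2) (8 * D ^ 3) (D ^ 2 / Lg) := by
  have c := Z.A.cl
  have D0 : 0 < D := by linarith [Z.D4]
  have hV := (ok V1 le_rfl).1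
  have lv : ∀ k, U ≤ k → l ≤ M.s k := fun k u => ((le_max_left _ _).trans hU).trans (c.sm u)
  have jl := Z.jl4 (Z.ln.l0l.trans (lv U le_rfl)) (show U ≤ S.J by omega)
  have := c.i0
  have := c.i1
  have g0 : 0 < Lg := by linarith [Z.EL, Z.E1]
  have X0 := Z.X20
  have cb : ∀ i k, Nx (GN S M m a l0 V L Lg) U V1 i k → ∀ y, i ≤ y → y ≤ k →
      D * u4 M m a y ^ 2 ≤ 2 * D ^ 3 * Ug S Lg (M.s y) ^ 2 + 8 * D ^ 3 * ds M m a i k ^ 2 :=
    fun i k n y u1 u2 => by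
    obtain ⟨n1, n2, n3, gi, gk, -⟩ := n
    have a1 := Z.pt (lv y (by omega)) gi gk u1 u2 (by omega) (ok y (by omega))
    have a2 := Z.Ug_nn (lv y (by omega))
    have a3 := ds_nn Z.A n2
    have a4 := pow_le_pow_left₀ (u4_nn y) (a1.trans
      (mul_le_mul_of_nonneg_right Z.ΛD (by positivity))) 2
    nlinarith [mul_le_mul_of_nonneg_left a4 D0.le, mul_nonneg (show 0 ≤ D ^ 3 by positivity)
      (sq_nonneg (Ug S Lg (M.s y) - 2 * ds M m a i k))]
  refine ⟨Z.A, by omega, by omega, by positivity, by positivity, by positivity,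
    fun y => by positivity, fun i k u1 u2 u3 gi gk => ?_, fun i k n h => (Z.lab
      (Z.ln.l0l.trans (lv i n.1)) h (by have := n.2.2.1; omega) n.2.2.2.1 (Or.inl n.2.2.2.2.1)
      n.2.2.2.2.2).1, fun y u1 u2 g => ?_, fun i k n y u1 u2 => cb i k n y u1.le u2.le⟩
  · refine (Z.e1 (hU.trans (c.sm u1)) u2 gi gk (ok i (by omega)) (ok k u3)).trans_eq ?_
    rw [mul_sum]
    congr 2
    refine sum_congr rfl fun y hy => ?_
    rw [Md67.dz_up c.leg (by have := (mem_Ioo.1 hy).1; omega)]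
    ring
  · simpa [ds] using cb y y ⟨u1, le_rfl, u2, g, g, fun k a b => by omega⟩ y le_rfl le_rfl

end Cz

end Crest.Agent.T156.Alt.G89

end
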