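import Crest.Agent.T156.NdE_89

/-!
# Row 156, block (L): the net of good nodes, proof (helper89)
-/

set_option autoImplicit false

noncomputable section

namespace Crest.Agent.T156.Alt.G89

open Real Finset
open Crest.Agent.T156.Alt.E61 Crest.Agent.T156.Alt.Mp9 Crest.Agent.T156.Alt.Sz9
open Crest.Agent.T156.Alt.L69 (LN cr cl mf uw gg Phi)

/-- the weight -/
def Wt (S : Sc) (M : Md) (Gn : ℕ → Prop) (D y τ : ℝ) (U V k : ℕ) : ℝ :=
  mf S (M.s k) * y ^ 2 / 4 + 30 * D * exp (D ^ 2 * (log U - log k)) +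
    30 * D * exp (-(gq M Gn k V / τ))

namespace Cz

variable {D E Λ L : ℝ} {S : Sc} {M : Md} {m : ℕ} {a T G1 l0 l V X Lg X2 X3 G0 W3 : ℝ} {η : ℝ → ℝ}
  (Z : Cz D E Λ L S M m a T G1 l0 l V X Lg X2 X3 G0 W3 η)
include Z

theorem tau {D1 τ1 : ℝ} (P : Tau E S M m a T Lg D1 τ1 η) (h : l ≤ M.s (S.J - 1)) :
    S.C * S.v ≤ τ1 ∧ D ^ 8 * (D ^ 12 * τ1) ≤ 1 := by
  have c := Z.A.cl
  have := c.i2
  have D4 := Z.D4
  have a1 := (P.t1 (S.J - 1) (by omega) (by omega)).1
  have a2 := (Z.eta_b h (Z.sC (by omega))).1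
  have a3 := mul_nonneg (sq_nonneg (Ug S Lg (M.s (S.J - 1))))
    ((abs_nonneg _).trans (P.d1 (S.J - 1) (by omega) (by omega)))
  have m0 := Z.mf_pos (c.s_nn (S.J - 1))
  have a4 : S.C * S.v ≤ 1 / S.n := le_trans (le_mul_of_one_le_left (mul_pos c.C0 c.v0).le
    (by exact_mod_cast c.n1)) Z.v_n
  have a5 := mul_pos c.C0 c.v0
  have t0 : 0 < τ1 := (mul_pos_iff_of_pos_right m0).1 (by linarith)
  refine ⟨by nlinarith [Z.mf_le (M.s (S.J - 1))], ?_⟩
  refine (pow_le_one_iff_of_nonneg (by positivity) two_ne_zero).1 (le_trans ?_ P.t2)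
  rw [show (D ^ 8 * (D ^ 12 * τ1)) ^ 2 = D ^ 40 * τ1 ^ 2 by ring]
  gcongr
  exact Z.DE

theorem ds_le (hT : T ^ 2 ≤ D) {i k : ℕ} (h : i ≤ k) (hk : k < S.J) : ds M m a i k ^ 2 ≤ D := by
  have := Z.A.cl.i3
  have a1 := (Z.A.sb_mem (k := i) (by omega)).1
  have a2 := (Z.A.sb_mem (k := k) (by omega)).2
  exact (pow_le_pow_left₀ (ds_nn Z.A h) (by unfold ds; linarith) 2).trans hT

/-- the good measure of the upper third -/
theorem gup (hT : T ^ 2 ≤ D) {U V1 : ℕ} (hU : max l (2 * l0) ≤ M.s U) (uV : U ≤ V1)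
    (ok : ∀ y ≤ V1, Okn S M m a Lg y) (gV : GN S M m a l0 V L Lg V1)
    (big : ∀ j, GN S M m a l0 V L Lg j → 4 * j < 3 * S.J → j ≤ V1) {j : ℕ} (h1 : U ≤ j)
    (h2 : 8 * j ≤ 5 * S.J) (gj : GN S M m a l0 V L Lg j) :
    1 ≤ D * gq M (GN S M m a l0 V L Lg) j V1 := by
  have c := Z.A.cl
  have G := Z.gh hU uV ok
  have := G.hU
  have := c.i0
  have := c.i1
  have hV := G.hV
  have D4 := Z.D4
  have D0 : 0 < D := by linarith
  have lv : ∀ k, U ≤ k → l ≤ M.s k := fun k u => ((le_max_left _ _).trans hU).trans (c.sm u)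
  obtain ⟨h, -, -, s3, s4, s5⟩ := Z.step (lv ((2 * S.J + 2) / 3) (by omega)) (by omega)
  obtain ⟨g, g1, g2, g3⟩ := s5 _ (lv ((2 * S.J + 2) / 3) (by omega)) (by omega) (by omega) (by omega)
  have g4 := big g g3 (by omega)
  have a1 := badm G.lab h1 gj V1 (by omega) le_rfl gV
  have a2 := c.leg.zm g4
  have a3 := (c.z_tel (i := j) (j := g) (by omega) (by omega) (by omega)).1
  have a4 : (S.J : ℝ) ≤ 24 * ((g : ℝ) - j) := by
    have : ((S.J + 24 * j : ℕ) : ℝ) ≤ (24 * g : ℕ) := by exact_mod_cast (by omega)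
    push_cast at this; linarith
  have C0 := c.C0
  have v0 := c.v0
  have a5 : 2 ≤ D * (((g : ℝ) - j) * (S.v / S.C)) := by
    rw [← mul_div_assoc, ← mul_div_assoc, le_div_iff₀ C0]
    have b1 := mul_le_mul_of_nonneg_left Z.Jv C0.le
    have b2 := mul_le_mul_of_nonneg_right a4 (show 0 ≤ S.C ^ 5 * S.v by positivity)
    have b3 := mul_le_mul_of_nonneg_right (Z.Cp (k := 5) (by norm_num))
      (show 0 ≤ ((g : ℝ) - j) * S.v from mul_nonneg (by linarith [(Nat.cast_nonneg S.J : (0 : ℝ) ≤ _)])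
        v0.le)
    linarith
  have a6 : D * (D ^ 2 / Lg * ds M m a j V1) ≤ 1 := by
    have b1 := Z.ds_le hT (show j ≤ V1 by omega) hV
    have b2 : ds M m a j V1 ≤ D := by nlinarith
    have g0 : 0 < Lg := by linarith [Z.EL, Z.E1]
    rw [div_mul_eq_mul_div, ← mul_div_assoc, div_le_one g0]
    linarith [mul_le_mul_of_nonneg_left b2 (show 0 ≤ D ^ 3 by positivity),
      Z.DpE (i := 4) (by norm_num), Z.EL]
  linarith [mul_le_mul_of_nonneg_left (show ((g : ℝ) - j) * (S.v / S.C) ≤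
    gq M (GN S M m a l0 V L Lg) j V1 + D ^ 2 / Lg * ds M m a j V1 by linarith) D0.le]

set_option maxHeartbeats 800000 in
/-- every long gap has a window -/
theorem win {D1 τ1 ε y : ℝ} (P : Tau E S M m a T Lg D1 τ1 η) (hT : T ^ 2 ≤ D) (hε : 1 ≤ ε * D)
    (ε1 : ε ≤ 1) (y0 : 0 < y) (hy : E * y ^ 6 = 1) {U V1 : ℕ} (hU : max l (2 * l0) ≤ M.s U)
    (uV : U ≤ V1) (ok : ∀ y ≤ V1, Okn S M m a Lg y) (gV : GN S M m a l0 V L Lg V1)
    (big : ∀ j, GN S M m a l0 V L Lg j → 4 * j < 3 * S.J → j ≤ V1) {p q : ℕ}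
    (n : Nx (GN S M m a l0 V L Lg) U V1 p q)
    (hW : Wt S M (GN S M m a l0 V L Lg) D y (D ^ 12 * τ1) U V1 p < ds M m a p q ^ 2) :
    ∃ i j η' α o' μ Mc τ0 Dm w, Wn S M m a T (GN S M m a l0 V L Lg) U V1
      (fun k => D ^ 8 * η (M.s k)) (fun k => D * Ug S Lg (M.s k) ^ 2)
      (fun k => 2 * D ^ 3 * Ug S Lg (M.s k) ^ 2) (Wt S M (GN S M m a l0 V L Lg) D y (D ^ 12 * τ1) U V1)
      (D ^ 4 * X2) (8 * D ^ 3) (D ^ 2 / Lg) ε D p q i j η' α o' μ Mc τ0 Dm w := by
  have c := Z.A.cl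
  have G := Z.gh hU uV ok
  have := G.hU
  have := c.i0
  have := c.i1
  have hV := (ok V1 le_rfl).1
  have D4 := Z.D4
  have D0 : 0 < D := by linarith
  have C0 := c.C0
  have v0 := c.v0
  have lv : ∀ k, U ≤ k → l ≤ M.s k := fun k u => ((le_max_left _ _).trans hU).trans (c.sm u)
  obtain ⟨n1, n2, n3, gp, gq', hb⟩ := id n
  obtain ⟨τa, τb⟩ := Z.tau P (lv _ (by omega))
  have τ0 : 0 < τ1 := (mul_pos C0 v0).trans_le τa
  have τc : τ1 ≤ D ^ 12 * τ1 := le_mul_of_one_le_left τ0.le (one_le_pow₀ (by linarith))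
  set τ := D ^ 12 * τ1 with hτ
  have τp : 0 < τ := by linarith
  have t1 := lv p n1
  have t2 := Z.sC (show p < S.J by omega)
  have m0 := Z.mf_pos (c.s_nn p)
  have w0 : 0 < mf S (M.s p) * y ^ 2 / 4 := by positivity
  have x1 := exp_pos (D ^ 2 * (log U - log p))
  have x2 := exp_pos (-(gq M (GN S M m a l0 V L Lg) p V1 / τ))
  have y1 := mul_pos D0 x1
  have y2 := mul_pos D0 x2
  have dl := Z.ds_le hT n2 (by omega)
  have pq : p < q := lt_of_le_of_ne n2 fun e => by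
    subst e; simp only [ds, sub_self, Wt] at hW; linarith
  obtain ⟨h, s1, s2, s3, s4, s5⟩ := Z.step t1 (show p < S.J by omega)
  have lo : ∀ x, -3 ≤ x → D ≤ 30 * D * exp x := fun x hx => by
    have := exp_rat (x := 0) (y := x) (by linarith)
    rw [exp_zero] at this
    nlinarith [exp_pos x]
  have uh : U + 2 * h ≤ p := by
    by_contra d
    have a1 := blog (y := U) s1 (by omega) (by omega) (by omega)
    have a2 := lo (D ^ 2 * (log U - log p)) (by linarith)
    unfold Wt at hW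
    linarith
  obtain ⟨i, i1, i2, gi⟩ := s5 (p - 2 * h) (lv _ (by omega)) (by omega) (by omega) (by omega)
  have hz : ∀ x z, U ≤ x → x + h ≤ z → z < S.J → M.z x + h * (S.v / S.C) ≤ M.z z :=
    fun x z u1 u2 u3 => by
    have a1 := (c.z_tel (i := x) (j := z) (by omega) (by omega) u3).1
    have a2 : (h : ℝ) ≤ (z : ℝ) - x := by
      have : ((x + h : ℕ) : ℝ) ≤ z := by exact_mod_cast u2
      push_cast at this; linarith
    linarith [mul_le_mul_of_nonneg_right a2 (show 0 ≤ S.v / S.C by positivity)]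
  suffices ∃ j τ' Dm, q ≤ j ∧ j ≤ V1 ∧ j ≤ 2 * p ∧ GN S M m a l0 V L Lg j ∧
      τ' ≤ h * (S.v / S.C) ∧ M.z q + τ' ≤ M.z j ∧
      D ^ 12 * (η (M.s p) + Ug S Lg (M.s p) ^ 2 * Dm) ≤ τ' * mf S (M.s p) ∧ gd M S m a T p ≤ Dm ∧
      gd M S m a T q ≤ Dm ∧ 30 * D * exp (-(gq M (GN S M m a l0 V L Lg) j V1 / τ)) ≤
        27 * (mf S (M.s p) * y ^ 2 / 4 + 30 * D * exp (-(gq M (GN S M m a l0 V L Lg) p V1 / τ))) by
    obtain ⟨j, τ', Dm, j1, j2, j3, gj, k1, k2, k3, k4, k5, k6⟩ := this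
    refine Z.wn hε ε1 y0 hy (lv U le_rfl) (by omega) (show U ≤ i by omega) (by omega) n2 j1 j2 gi gj
      (by omega) j3 (by linarith [hz i p (by omega) (by omega) (by omega)]) k2 k3 k4 k5
      (fun k u1 u2 => ?_) (by unfold Wt; linarith)
    have a1 := (Z.cmp t1 (lv k (by omega)) t2
      (Z.s_cmp t1 (lv k (by omega)) (by omega) (by omega) (by omega))
      (Z.s_cmp (lv k (by omega)) t1 (by omega) (by omega) (by omega))).2.1
    have a2 := mul_le_mul_of_nonneg_right (one_le_pow₀ (n := 2) c.C1) (Z.mf_pos (c.s_nn k)).le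
    have a3 := mul_le_mul_of_nonneg_right (show 100 * mf S (M.s k) ≤ D * mf S (M.s p) by linarith)
      (sq_nonneg y)
    have a4 := mul_le_mul_of_nonneg_left (exp_rat (x := D ^ 2 * (log U - log k))
      (y := D ^ 2 * (log U - log p))
      (by linarith [blog (y := k) s1 (by omega) (by omega) (by omega)])) D0.le
    have a5 := mul_le_mul_of_nonneg_left (exp_le_exp.2 (neg_le_neg (div_le_div_of_nonneg_right
      (show gq M (GN S M m a l0 V L Lg) j V1 ≤ gq M (GN S M m a l0 V L Lg) k V1 by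
        linarith [gq_add (M := M) (Gn := GN S M m a l0 V L Lg) u2 j2,
          gq_nn (Gn := GN S M m a l0 V L Lg) Z.A k j]) τp.le))) D0.le
    have b1 := mul_le_mul_of_nonneg_right D4 w0.le
    have b2 := mul_le_mul_of_nonneg_right D4 y1.le
    have b3 := mul_le_mul_of_nonneg_right D4 y2.le
    unfold Wt
    linarith
  have tp := (c.s_bds (show p ≤ S.J by omega)).2
  have h0 : (0 : ℝ) ≤ h := by positivity
  rcases lt_or_ge (2 * p) S.J with d | d
  · obtain ⟨r, r1, r2, r3⟩ := s5 (p + 1) (lv _ (by omega)) (by omega) (by omega) (by omega)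
    have qr : q ≤ r := by
      by_contra e
      exact hb r (by omega) (by omega) r3
    obtain ⟨j, j1, j2, gj⟩ := s5 (q + h) (lv _ (by omega)) (by omega) (by omega) (by omega)
    have E0 : 0 < E := by linarith [Z.E1]
    refine ⟨j, h * (S.v / S.C), D ^ 2 * (cr S (M.s p) * M.s p), by omega, big j gj (by omega),
      by omega, gj, le_rfl, hz q j (by omega) j1 (by omega), ?_,
      Z.gd_cru t1 le_rfl (by omega) (by omega), Z.gd_cru t1 n2 (by omega) (by omega), ?_⟩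
    · refine le_of_mul_le_mul_left ?_ E0
      have s0 := c.s_nn p
      have a1 := mul_le_mul_of_nonneg_left (Z.ln.th4 _ t1 t2) (show 0 ≤ D ^ 12 by positivity)
      have a2 := mul_le_mul_of_nonneg_left (Z.key t1 t2) (show 0 ≤ D ^ 14 * M.s p by positivity)
      have a3 := mul_le_mul_of_nonneg_right (Z.Dp (show 12 ≤ 14 by norm_num))
        (show 0 ≤ mf S (M.s p) * M.s p by positivity)
      have a4 : 2 * D ^ 14 * M.s p ≤ E * (h * (S.v / S.C)) := by
        rw [← mul_div_assoc, ← mul_div_assoc, le_div_iff₀ C0]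
        calc _ ≤ 2 * D ^ 14 * (8 * D ^ 2 * h * (S.C * S.v)) * S.C := by
              gcongr; exact tp.trans (by gcongr)
          _ = D ^ 16 * (16 * S.C ^ 2) * (h * S.v) := by ring
          _ ≤ D ^ 16 * D * (h * S.v) := by
              gcongr; linarith [Z.Cp (k := 2) (by norm_num), show 0 < S.C ^ 2 by positivity]
          _ ≤ _ := by gcongr; linarith [Z.DpE (i := 17) (by norm_num)]
      linarith [mul_le_mul_of_nonneg_right a4 m0.le]
    · have a1 := Z.gup hT hU uV ok gV big (j := j) (by omega) (by omega) gj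
      have a2 : 100 * D ≤ gq M (GN S M m a l0 V L Lg) j V1 / τ := by
        rw [le_div_iff₀ τp]
        refine le_of_mul_le_mul_left (le_trans ?_ a1) D0
        have := mul_le_mul_of_nonneg_right (Z.Dp (show 3 ≤ 8 by norm_num)) τp.le
        nlinarith [mul_le_mul_of_nonneg_right D4 (show 0 ≤ D ^ 2 * τ by positivity)]
      have a3 := mul_le_mul_of_nonneg_left (exp_le_exp.2 (neg_le_neg a2)) D0.le
      have a4 := Z.tiny t1 t2 y0 hy
      have a5 := mul_pos D0 (exp_pos (-(100 * D)))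
      linarith
  · have a0 : 2 * τ < gq M (GN S M m a l0 V L Lg) p V1 := by
      by_contra e
      have a1 := lo (-(gq M (GN S M m a l0 V L Lg) p V1 / τ)) (by
        rw [neg_le_neg_iff, div_le_iff₀ τp]; linarith)
      unfold Wt at hW
      linarith
    obtain ⟨j, j1, j2, gj, j3, j4⟩ := win_up Z.A n pq gV τp.le (δ := S.C * S.v) (fun x u1 u2 => by
      have := (c.zs (x - 1) (by omega) (by omega)).2
      rwa [show x - 1 + 1 = x by omega] at this) (τa.trans τc) a0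
    refine ⟨j, τ, D1, j1, j2, by omega, gj, ?_, j3, ?_, P.d1 p d (by omega),
      P.d1 q (by omega) (by omega), ?_⟩
    · rw [← mul_div_assoc, le_div_iff₀ C0]
      have a1 : (S.J : ℝ) ≤ 2 * p := by exact_mod_cast d
      refine le_of_mul_le_mul_left ?_ (show 0 < D ^ 8 by positivity)
      calc D ^ 8 * (τ * S.C) = D ^ 8 * τ * S.C := by ring
        _ ≤ 1 * S.C := by gcongr
        _ ≤ 3 * S.C ^ 4 * ((16 * D ^ 2 * h) * S.v) * S.C := by
            gcongr; exact Z.Jv.trans (by gcongr; linarith)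
        _ = D ^ 2 * (48 * S.C ^ 5) * (h * S.v) := by ring
        _ ≤ D ^ 7 * D * (h * S.v) := by
            gcongr
            exacts [by linarith, by norm_num,
              by linarith [Z.Cp (k := 5) (by norm_num), show 0 < S.C ^ 5 by positivity]]
        _ = _ := by ring
    · linarith [mul_le_mul_of_nonneg_left (P.t1 p d (by omega)).1 (show 0 ≤ D ^ 12 by positivity)]
    · have a1 := exp_rat (x := -(gq M (GN S M m a l0 V L Lg) j V1 / τ))
        (y := -(gq M (GN S M m a l0 V L Lg) p V1 / τ)) (by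
        rw [← gq_add (show p ≤ j by omega) j2, add_div]
        linarith [(div_le_iff₀ τp).2 j4])
      linarith [mul_le_mul_of_nonneg_left a1 D0.le]

end Cz

end Crest.Agent.T156.Alt.G89

end
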