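import Crest.Agent.T156.NdF_89

/-!
# Row 156, block (L): the net of good nodes, conclusion (helper89)
-/

set_option autoImplicit false

noncomputable section

namespace Crest.Agent.T156.Alt.G89

open Real Finset
open Crest.Agent.T156.Alt.E61 Crest.Agent.T156.Alt.Mp9 Crest.Agent.T156.Alt.Sz9
open Crest.Agent.T156.Alt.L69 (LN cr cl mf uw gg Phi)

namespace Cz

variable {D E Λ L : ℝ} {S : Sc} {M : Md} {m : ℕ} {a T G1 l0 l V X Lg X2 X3 G0 W3 : ℝ} {η : ℝ → ℝ}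
  (Z : Cz D E Λ L S M m a T G1 l0 l V X Lg X2 X3 G0 W3 η)
include Z

/-- the first good node -/
theorem exU : ∃ U, GN S M m a l0 V L Lg U ∧ max l (2 * l0) ≤ M.s U ∧
    M.s U ≤ 33 / 32 * max l (2 * l0) ∧ 2 * U ≤ S.J := by
  have c := Z.A.cl
  have C0 := c.C0
  have v0 := c.v0
  have lp := Z.lp
  have D4 := Z.D4
  have E1 := Z.E1
  have l1 : l ≤ max l (2 * l0) := le_max_left _ _
  have l2 : max l (2 * l0) ≤ 2 * l := max_le (by linarith) (by linarith [Z.ln.l0l])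
  set lo := max l (2 * l0)
  have cE : ∀ k ≤ 10, 10000 * S.C ^ k * l ≤ 1 := fun k hk =>
    (mul_le_mul_of_nonneg_right ((Z.Cp hk).trans Z.D_E) lp.le).trans Z.ln.l1
  have a1 : lo < M.s S.J := by
    refine lt_of_mul_lt_mul_left ?_ (show 0 ≤ 3 * S.C ^ 3 by positivity)
    nlinarith [cE 3 (by norm_num), Ab33.sJ_ge c, mul_le_mul_of_nonneg_left l2
      (show 0 ≤ S.C ^ 3 by positivity)]
  obtain ⟨k, k1, k2, k3, -⟩ := c.exists_node (by linarith) a1
  have k4 := (c.ss k k1).2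
  have a2 : 100 * (S.C * S.v) ≤ l := by
    have b1 := Z.lE le_rfl Z.lC
    have b2 : S.C * S.v ≤ 1 / S.n := le_trans (le_mul_of_one_le_left (mul_pos c.C0 c.v0).le
      (by exact_mod_cast c.n1)) Z.v_n
    have b3 := mul_le_mul (show 100 ≤ E by linarith [Z.D_E]) b2 (by positivity) (by linarith)
    nlinarith [Z.mf_le l]
  have a3 := (c.s_bds (show k + 1 ≤ S.J by omega)).1
  rw [← mul_div_assoc, div_le_iff₀ C0] at a3
  have a4 : 4 * (k + 1) ≤ S.J := by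
    have : ((4 * (k + 1) : ℕ) : ℝ) ≤ S.J := by
      refine le_of_mul_le_mul_right ?_ (show 0 < 3 * S.C ^ 4 * S.v by positivity)
      have b1 := mul_le_mul_of_nonneg_left (a3.trans (mul_le_mul_of_nonneg_right
        (show M.s (k + 1) ≤ 3 * l by linarith) C0.le)) (show 0 ≤ 12 * S.C ^ 4 by positivity)
      push_cast at b1 ⊢
      linarith [Z.Jv, cE 5 (by norm_num), show 0 < S.C ^ 5 * l by positivity]
    exact_mod_cast this
  obtain ⟨h, s1, -, s3, -, s5⟩ := Z.step (p := k + 1) (by linarith) (by omega)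
  obtain ⟨U, u1, u2, gU⟩ := s5 (k + 1) (by linarith) (by omega) (by omega) (by omega)
  refine ⟨U, gU, k3.le.trans (c.sm u1), ?_, by omega⟩
  have b1 := (c.s_tel u1 (by omega)).2
  have b2 : (U : ℝ) - (k + 1 : ℕ) ≤ h := by
    have : (U : ℝ) ≤ (k + 1 + h : ℕ) := by exact_mod_cast u2
    push_cast at this ⊢; linarith
  have b3 : 100 * (h * (S.C * S.v)) ≤ M.s (k + 1) := by
    refine le_of_mul_le_mul_right ?_ C0
    have d1 : 100 * S.C ^ 2 ≤ 4 * D ^ 2 := by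
      nlinarith [Z.Cp (k := 2) (by norm_num), show 0 < S.C ^ 2 by positivity]
    have d2 := mul_le_mul_of_nonneg_right d1 (show 0 ≤ h * S.v by positivity)
    have d3 := mul_le_mul_of_nonneg_right s1 v0.le
    linarith
  linarith [mul_le_mul_of_nonneg_right b2 (mul_pos C0 v0).le]

theorem beta {U i : ℕ} {lo : ℝ} (l0' : 0 < lo) (h1 : M.s U ≤ 33 / 32 * lo) (h2 : 9 / 8 * lo ≤ M.s i)
    (U0 : 0 < U) (hi : i < S.J) : U ≤ i ∧ D ^ 2 * (log U - log i) ≤ -(100 * D) := by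
  have c := Z.A.cl
  have C0 := c.C0
  have v0 := c.v0
  have D4 := Z.D4
  have ui : U < i := lt_of_not_ge fun h => by linarith [c.sm h]
  refine ⟨ui.le, ?_⟩
  have u0 : (0 : ℝ) < U := by exact_mod_cast U0
  have u1 : (U : ℝ) < i := by exact_mod_cast ui
  have i0 := u0.trans u1
  have a1 := log_le_sub_one_of_pos (div_pos u0 i0)
  rw [log_div u0.ne' i0.ne', div_sub_one i0.ne'] at a1
  have a2 := (c.s_tel ui.le hi.le).2
  have a3 := (c.s_bds (show U ≤ S.J by omega)).1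
  rw [← mul_div_assoc, div_le_iff₀ C0] at a3
  have a4 : (U : ℝ) ≤ 11 * S.C ^ 2 * (i - U) := by
    refine le_of_mul_le_mul_right ?_ v0
    linarith [mul_le_mul_of_nonneg_right (show M.s U ≤ 11 * (((i : ℝ) - U) * (S.C * S.v)) by
      linarith) C0.le]
  have a5 := mul_le_mul_of_nonneg_right (one_le_pow₀ (n := 2) c.C1) (sub_nonneg.2 u1.le)
  have a6 := mul_le_mul_of_nonneg_right (Z.Cp (k := 2) (by norm_num)) (sub_nonneg.2 u1.le)
  refine (mul_le_mul_of_nonneg_left a1 (sq_nonneg D)).trans ?_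
  rw [← mul_div_assoc, div_le_iff₀ i0]
  linarith [mul_le_mul_of_nonneg_left (show 100 * (i : ℝ) ≤ D * (i - U) by linarith)
    (show 0 ≤ D by linarith)]

theorem ab16 {i : ℕ} (h1 : max l (2 * l0) ≤ M.s i) (gi : GN S M m a l0 V L Lg i)
    (oi : Okn S M m a Lg i) : |res M S m a T i| ≤
      D ^ 16 * η (M.s i) + D ^ 16 * Ug S Lg (M.s i) ^ 2 * gd M S m a T i +
      D ^ 16 * (pb M m a (S.C * S.v) i * X2 + ∑ k ∈ range i, M.dz m a k * u4 M m a k ^ 2) := by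
  have a1 := (le_max_left _ _).trans h1
  have b1 := Z.sC (show i < S.J by have := oi.1; omega)
  have g1 : 0 ≤ gd M S m a T i := abs_nonneg _
  have d1 : Λ ≤ D ^ 16 := Z.ΛD.trans (by simpa using Z.Dp (show 1 ≤ 16 by norm_num))
  have c1 := Z.no.ab T Z.A i _ _ (Z.go h1 gi oi)
  have c2 := mul_le_mul_of_nonneg_right d1 (mul_nonneg (sq_nonneg (Ug S Lg (M.s i))) g1)
  have c3 := mul_le_mul_of_nonneg_right (Z.Dp (show 8 ≤ 16 by norm_num)) (Z.eta_pos a1 b1).le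
  have c4 := mul_le_mul_of_nonneg_right (Z.la_le.trans (mul_le_mul_of_nonneg_right
    (Z.Dp (show 4 ≤ 16 by norm_num)) Z.X20)) (pb_nn (E61.lg Z.A) (mul_pos Z.A.cl.C0 Z.A.cl.v0) i)
  have c5 := mul_le_mul_of_nonneg_right d1 (sum_nonneg (s := range i)
    (f := fun y => M.dz m a y * u4 M m a y ^ 2) fun y _ => mul_nonneg ((E61.lg Z.A).dz_nonneg y) (sq_nonneg _))
  have c6 := Z.ee_le a1 b1
  unfold Ug gd at *
  linarith

end Cz

set_option maxHeartbeats 800000 in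
/-- **the net of good nodes** -/
theorem ng (T0 C0 : ℝ) : ∃ K : ℝ, ∀ {D E Λ L : ℝ} {S : Sc} {M : Md} {m : ℕ}
    {a T G1 l0 l V X Lg X2 X3 G0 W3 D1 τ1 : ℝ} {η : ℝ → ℝ},
    Cz D E Λ L S M m a T G1 l0 l V X Lg X2 X3 G0 W3 η → K ≤ D → S.C ≤ C0 → T ≤ T0 →
    Tau E S M m a T Lg D1 τ1 η →
    ∃ V0, NG E (D ^ 16) S M m a T (max l (2 * l0)) Lg X2 τ1 η (GN S M m a l0 V L Lg) V0 := by
  classical
  obtain ⟨ε, ε0, ε1, hg⟩ := gapW T0 C0
  refine ⟨max (T0 ^ 2) (1 / ε), fun {D E Λ L S M m a T G1 l0 l V X Lg X2 X3 G0 W3 D1 τ1 η} Z hK hC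
    hT P => ?_⟩
  have c := Z.A.cl
  have D4 := Z.D4
  have D0 : 0 < D := by linarith
  have E0 : 0 < E := by linarith [Z.E1]
  have g0 : 0 < Lg := by linarith [Z.EL]
  have T1 := Z.A.sb_mem (k := 0) (Nat.zero_le _)
  have hT2 : T ^ 2 ≤ D := (pow_le_pow_left₀ (T1.1.trans T1.2) hT 2).trans
    ((le_max_left _ _).trans hK)
  have hε : 1 ≤ ε * D := (div_le_iff₀' ε0).1 ((le_max_right _ _).trans hK)
  obtain ⟨y, y0, hy⟩ : ∃ y, 0 < y ∧ E * y ^ 6 = 1 := ⟨E ^ (-(1 : ℝ) / 6), by positivity, by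
    rw [← rpow_natCast, ← rpow_mul E0.le]; norm_num; rw [rpow_neg_one, mul_inv_cancel₀ E0.ne']⟩
  obtain ⟨U, gU, u1, u2, u3⟩ := Z.exU
  have l1 : l ≤ max l (2 * l0) := le_max_left _ _
  have := c.i2
  obtain ⟨V1, gV, ok, big, top⟩ := Z.exV P (l1.trans u1) gU (by omega)
  have uV := big U gU (by omega)
  have G := Z.gh u1 uV ok
  have := G.hU
  have := c.i0
  have := c.i1
  have hV := (ok V1 le_rfl).1
  obtain ⟨τa, τb⟩ := Z.tau P ((l1.trans u1).trans (c.sm (by omega)))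
  have cv := mul_pos c.C0 c.v0
  have τ0 : 0 < τ1 := cv.trans_le τa
  have SH := hg G hC hT (W := Wt S M (GN S M m a l0 V L Lg) D y (D ^ 12 * τ1) U V1)
    (fun k => by have := Z.mf_pos (c.s_nn k); unfold Wt; positivity) D0.le
    fun p q n hW => Z.win P hT2 hε ε1 y0 hy u1 uV ok gV big n hW
  have hq : ∀ j, U ≤ j → 8 * j ≤ 5 * S.J → GN S M m a l0 V L Lg j →
      D ^ 14 * τ1 ≤ gq M (GN S M m a l0 V L Lg) j V1 := fun j a1 a2 a3 => by
    refine le_of_mul_le_mul_left (le_trans ?_ (Z.gup hT2 u1 uV ok gV big a1 a2 a3)) D0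
    linarith [mul_le_mul_of_nonneg_right (Z.Dp (show 15 ≤ 20 by norm_num)) τ0.le]
  set Q : ℕ → Prop := fun k => GN S M m a l0 V L Lg k ∧
    D ^ 14 * τ1 ≤ gq M (GN S M m a l0 V L Lg) k V1 with hQ
  have qU : Q U := ⟨gU, hq U le_rfl (by omega) gU⟩
  obtain ⟨g0', q0⟩ : Q (Nat.findGreatest Q V1) := Nat.findGreatest_spec uV qU
  have v1 : ∀ j, j ≤ V1 → Q j → j ≤ Nat.findGreatest Q V1 := fun j a b => Nat.le_findGreatest a b
  have v2 : Nat.findGreatest Q V1 ≤ V1 := Nat.findGreatest_le _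
  generalize Nat.findGreatest Q V1 = V0 at g0' q0 v1 v2
  have uV0 := v1 U uV qU
  have p1 : ∀ {i : ℕ}, i ≤ 16 → D ^ i ≤ D ^ 16 := fun h => Z.Dp h
  have pL : D ^ 2 / Lg ≤ D ^ 16 / Lg := by gcongr; exacts [by linarith, by norm_num]
  refine ⟨V0, g0', by omega, fun j gj hj => ?_, ?_, fun i k a1 a2 a3 gi gk => ?_,
    fun i a1 a2 gi => Z.ab16 a1 gi (ok i (by omega)), fun U' i k x n a1 a2 a3 => ?_,
    fun i k a1 a2 a3 gi gk hb => ?_, fun p q a1 a2 a3 a4 a5 => Z.ex (l1.trans a1) a2 a3 a4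
      ((mul_le_mul_of_nonneg_right (p1 (by norm_num)) (c.s_nn p)).trans a5),
    fun p q D0 a1 a2 a3 a4 a5 => Z.exs a1 a2 a3 a4
      ((mul_le_mul_of_nonneg_right (p1 (by norm_num)) a3.le).trans a5), fun U' i k n a1 => ?_⟩
  · rcases le_total j U with d | d
    · omega
    · exact v1 j (big j gj (by omega)) ⟨gj, hq j d hj gj⟩
  · have vV : V0 < V1 := lt_of_le_of_ne v2 fun e => by
      rw [e] at q0
      simp only [gq, Ioc_self, sum_empty] at q0
      linarith [show 0 < D ^ 14 * τ1 by positivity]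
    have ex : ∃ r, V0 < r ∧ GN S M m a l0 V L Lg r := ⟨V1, vV, gV⟩
    obtain ⟨r1, r2⟩ := Nat.find_spec ex
    have r3 : Nat.find ex ≤ V1 := Nat.find_min' ex ⟨vV, gV⟩
    have n : Nx (GN S M m a l0 V L Lg) U V1 V0 (Nat.find ex) :=
      ⟨uV0, r1.le, r3, g0', r2, fun x a b g => Nat.find_min ex b ⟨a, g⟩⟩
    generalize Nat.find ex = r at r1 r2 r3 n
    have a1 : gq M (GN S M m a l0 V L Lg) r V1 < D ^ 14 * τ1 := not_le.1 fun d => by
      have := v1 r r3 ⟨r2, d⟩; omega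
    have a2 := gq_gap (M := M) n r1
    have a3 := (c.zs (r - 1) (by omega) (by omega)).2
    rw [show r - 1 + 1 = r by omega] at a3
    have a4 := gq_add (M := M) (Gn := GN S M m a l0 V L Lg) r1.le r3
    have a5 := badm G.lab uV0 g0' V1 v2 le_rfl gV
    have a6 := ds_nn Z.A v2
    have a7 := ds_nn Z.A (show V1 ≤ S.J - 1 by omega)
    have a8 : 2 * D ^ 2 / Lg ≤ D ^ 16 / Lg := by
      gcongr; nlinarith [p1 (i := 3) (by norm_num), sq_nonneg D]
    have b1 := mul_le_mul_of_nonneg_right pL a6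
    have b2 := mul_le_mul_of_nonneg_right a8 a7
    have b3 : D ^ 14 + D ^ 2 + 2 ≤ D ^ 16 := by
      nlinarith [Z.Dp (show 2 ≤ 14 by norm_num), Z.Dp (show 0 ≤ 14 by norm_num),
        Z.Dp (show 15 ≤ 16 by norm_num), mul_le_mul_of_nonneg_right D4 (show 0 ≤ D ^ 14 by positivity)]
    have b4 := mul_le_mul_of_nonneg_right b3 τ0.le
    unfold ds at *
    linarith
  · have t1 := l1.trans a1
    have t2 := t1.trans (c.sm a2)
    have e1 := Z.eta_pos t1 (Z.sC (by omega))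
    have e2 := Z.eta_pos t2 (Z.sC (by omega))
    have x0 := Z.X20
    have d0 := ds_nn Z.A a2
    have d1 : D ≤ D ^ 16 := by simpa using p1 (i := 1) (by norm_num)
    have g1 : 0 ≤ gd M S m a T i := abs_nonneg _
    have g2 : 0 ≤ gd M S m a T k := abs_nonneg _
    have s0 : 0 ≤ ∑ y ∈ Ioo i k, M.dz m a y * u4 M m a y ^ 2 :=
      sum_nonneg fun y _ => mul_nonneg ((E61.lg Z.A).dz_nonneg y) (sq_nonneg _)
    refine (Z.e1 a1 a2 gi gk (ok i (by omega)) (ok k (by omega))).trans ?_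
    gcongr <;> linarith
  · obtain ⟨-, n2, n3, gi, gk, -⟩ := n
    have t1 := (l1.trans a1).trans (c.sm a2)
    refine (Z.pt t1 gi gk a2 a3 (by omega) (ok x (by omega))).trans ?_
    have b1 := Z.Ug_nn t1
    have b2 := ds_nn Z.A n2
    have b3 : 2 * Λ ≤ D ^ 16 := by nlinarith [p1 (i := 2) (by norm_num), Z.ΛD]
    linarith [mul_le_mul_of_nonneg_right b3 (add_nonneg b1 b2), mul_nonneg (zero_le_one.trans Z.Λ1) b1]
  · obtain ⟨b1, b2⟩ := Z.lab (Z.ln.l0l.trans (l1.trans a1)) a2 a3 gi gk hb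
    have b3 := mul_le_mul_of_nonneg_right pL (ds_nn Z.A a2.le)
    constructor <;> linarith
  · obtain ⟨-, n2, n3, gi, gk, hb⟩ := n
    obtain ⟨b1, b2⟩ := Z.beta (Z.lp.trans_le l1) u2 a1 (by omega) (by omega)
    have b3 := SH i k ⟨b1, n2, by omega, gi, gk, hb⟩
    have t1 := (l1.trans u1).trans (c.sm b1)
    have b4 := Z.tiny t1 (Z.sC (by omega)) y0 hy
    have b5 : 100 * D ≤ gq M (GN S M m a l0 V L Lg) i V1 / (D ^ 12 * τ1) := by
      rw [le_div_iff₀ (by positivity)]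
      have d1 := gq_add (M := M) (Gn := GN S M m a l0 V L Lg) (show i ≤ V0 by omega) v2
      have d2 := gq_nn (Gn := GN S M m a l0 V L Lg) Z.A i V0
      linarith [mul_le_mul_of_nonneg_right D4 (show 0 ≤ D ^ 13 * τ1 by positivity),
        show 0 ≤ D ^ 13 * τ1 by positivity]
    have b6 := mul_le_mul_of_nonneg_left (exp_le_exp.2 b2) D0.le
    have b7 := mul_le_mul_of_nonneg_left (exp_le_exp.2 (neg_le_neg b5)) D0.le
    have b8 := mul_pos D0 (exp_pos (-(100 * D)))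
    have b9 := pow_le_pow_left₀ (sq_nonneg _) (show ds M m a i k ^ 2 ≤ mf S (M.s i) * y ^ 2 by
      unfold Wt at b3; linarith) 3
    calc E * ds M m a i k ^ 6 = E * (ds M m a i k ^ 2) ^ 3 := by ring
      _ ≤ E * (mf S (M.s i) * y ^ 2) ^ 3 := by gcongr
      _ = E * y ^ 6 * mf S (M.s i) ^ 3 := by ring
      _ = _ := by rw [hy, one_mul]

end Crest.Agent.T156.Alt.G89

end
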