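import Crest.Agent.T156.TL0C_9
import Crest.Agent.T156.ClSzB_61
import Crest.Agent.T156.SzN_49

/-!
Row 156, block (L) (helper9): the induction for (L0).
-/

set_option autoImplicit false

noncomputable section

namespace Crest.Agent.T156.Alt.Sz9

open Real Finset
open Crest.Agent.T156.Alt.E61 Crest.Agent.T156.Alt.Mp9 Crest.Agent.T156.Alt.L69

/-- the sums over the top window and the plateau -/
def TpS (Λ : ℝ) (S : Sc) (M : Md) (m : ℕ) (a X2 X3 G0 : ℝ) (η : ℝ → ℝ) : Prop :=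
  ∑ k ∈ Tp S M, M.dz m a k * u4 M m a k ^ 2 ≤ Λ * X2 ∧
  ∑ k ∈ Tp S M, M.dz m a k * u4 M m a k ^ 3 ≤ Λ * (X3 + η 1) ∧
  ∑ k ∈ Icc S.J S.Jp, M.dz m a k * Cost41.aM M m a k ≤ Λ * G0 ^ 2

/-- the sizes at margin `D`, loss `L` -/
structure I9 (L D : ℝ) (S : Sc) (M : Md) (m : ℕ) (a : ℝ) : Prop where
  szL : ∀ l0 cf, Cf D S M m a l0 cf → ∀ k < M.N, u4 M m a k ≤ L * cf (max (M.z k) l0)
  szP : ∀ l0 cf, Cf D S M m a l0 cf → ∀ k κ, l0 ≤ M.s k →
    k + k / 3 < S.J → cf (M.s k) ≤ κ * M.s k → κ ≤ S.n →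
    u4 M m a k ≤ L * (κ ^ ((2 : ℝ) / 3) * w1 S (M.s k) +
      Env96.ev (M.rb m a) (κ * S.v) (k - k / 3) (k + k / 3) k)
  szB : ∀ l0 X X2 X3 cf Y3, Cf D S M m a l0 cf → SN' D S M m a l0 X X2 X3 cf Y3 →
    ∑ k ∈ Bu S M l0, M.dz m a k * u4 M m a k ^ 2 ≤ L * X2 ∧
    ∑ k ∈ Bu S M l0, M.dz m a k * (min 1 (cf (max (M.z k) l0)) * u4 M m a k ^ 3) ≤ L * X3 ∧
    ∀ t, l0 ≤ t → t ≤ S.C → ∑ k ∈ Bu S M t, M.dz m a k * u4 M m a k ^ 3 ≤ L * Y3 t
  szN : ∀ G1 l0 cf G0, CeiG S M G1 → M.H S.Jp ≤ S.C →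
    Cf D S M m a l0 cf → l0 * cf l0 ^ 2 ≤ G0 →
    ∑ k ∈ Icc S.J S.Jp, M.dz m a k * Cost41.aM M m a k ≤ G0 ^ 2 →
    ∀ j κ, 2 * l0 ≤ M.s j → j + j / 3 < S.J → cf (M.s j) ≤ κ * M.s j → κ ≤ S.n →
    (∀ t, l0 ≤ t → t ≤ M.s j → cf t ^ 3 / t * (S.F / (S.n * S.ms t)) ≤
      G0 ^ 2 + κ * (S.F / (S.n * S.ms (M.s j)))) →
    Gd M m a κ (j - j / 3) (j + j / 3) j →
    ∃ G, Tn S M m a (u4 M m a) (S.C * S.v) j G ∧
      G ≤ L * (√(κ * (S.F / (S.n * S.ms (M.s j)))) + G0) ∧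
      pb M m a (S.C * S.v) j * Vn M m a j + VVn M m a j ≤ L * (κ ^ 2 * S.w3 (M.s j))

variable {S : Sc} {M : Md} {m : ℕ} {a L D G1 l X Lg X2 X3 G0 τ : ℝ} {η : ℝ → ℝ}

namespace C9
variable (H : C9 L D S M m a G1 l X Lg X2 X3 G0 η) (I : I9 L D S M m a)
  (hτ : l ≤ τ) (hX : τ ^ 3 ≤ 8 * X) (hy : Hy L S M m a τ)
include H hτ

theorem slope {t : ℝ} (ht : τ ≤ t) : L ^ 10 * cc S t ≤ Lg * cr S τ / S.C * t := by
  have h := H.A.cl
  have τ0 := H.l0.trans_le hτ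
  have c1 := cr1 S τ
  have L0 : 0 < L := by linarith [H.Lb]
  rw [cc, ← mul_assoc]
  refine mul_le_mul_of_nonneg_right ?_ (τ0.le.trans ht)
  rw [le_div_iff₀ h.C0]
  have a1 : 2 * S.C * L ^ 10 ≤ Lg := by
    have := mul_le_mul_of_nonneg_right (H.Ci (i := 1) (by norm_num)) (by positivity : 0 ≤ L ^ 10)
    have := H.Li (i := 11) (by norm_num)
    have : 0 ≤ S.C * L ^ 10 := by have := h.C0; positivity
    have : 0 ≤ L ^ 11 := by positivity
    linarith [H.Lg2, pow_succ' L 10, show 62000 * S.C ^ 1 * L ^ 10 = 62000 * (S.C * L ^ 10) by ring]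
  calc _ ≤ L ^ 10 * (2 * cr S τ) * S.C := by
        have := cr_dbl h τ0 ht; have := h.C0; gcongr
    _ = 2 * S.C * L ^ 10 * cr S τ := by ring
    _ ≤ _ := mul_le_mul_of_nonneg_right a1 (by linarith)

include hX

theorem weak {t s : ℝ} (ht : τ ≤ t) (hs : t ≤ s) (hs' : s ≤ 35 * S.C ^ 2 * τ) :
    (L ^ 10 * cc S t) ^ 3 / t * (S.F / (S.n * S.ms t)) ≤
      Lg * cr S τ / S.C * (S.F / (S.n * S.ms s)) := by
  have h := H.A.cl
  have τ0 := H.l0.trans_le hτ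
  have t0 := τ0.trans_le ht
  have C0 := h.C0
  have C1 := h.C1
  have F1 := h.F1
  have n0 := h.N0
  have L0 : 0 < L := by linarith [H.Lb]
  have m0 := h.ms_pos t0.le
  have m1 := h.ms_pos (t0.le.trans hs)
  have t1 : t ≤ 1 := by
    have := mul_le_mul_of_nonneg_right (H.Ci (i := 2) (by norm_num)) τ0.le
    have := mul_le_mul_of_nonneg_right (H.Li (i := 1) (by norm_num)) τ0.le
    have := mul_pos L0 τ0
    have : 0 ≤ S.C ^ 2 * τ := by positivity
    linarith [H.τ1 hτ hX]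
  have a1 : cc S t ^ 3 ≤ S.F * t := by
    rw [cc_cube h t0]
    exact max_le ((pow_le_of_le_one t0.le t1 three_ne_zero).trans (le_mul_of_one_le_left t0.le F1))
      (mul_le_mul_of_nonneg_right (mul_le_of_le_one_right (by linarith) ((h.ms1 t).trans H.θ1)) t0.le)
  have a2 : S.ms s ≤ 4900 * S.C ^ 4 * S.ms t := ((h.msm (hs'.trans (by gcongr))).trans
    (h.ms_mul t0.le (k := 35 * S.C ^ 2) (by linarith [one_le_pow₀ (n := 2) C1]))).trans_eq (by ring)
  have a3 : S.F / (S.n * S.ms t) ≤ 4900 * S.C ^ 4 * (S.F / (S.n * S.ms s)) := by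
    rw [← mul_div_assoc, div_le_div_iff₀ (by positivity) (by positivity)]
    linarith [mul_le_mul_of_nonneg_left a2 (by positivity : 0 ≤ S.F * S.n)]
  have a4 : (L ^ 10 * cc S t) ^ 3 / t ≤ L ^ 30 * S.F := by
    rw [div_le_iff₀ t0, mul_pow, ← pow_mul, mul_assoc]
    exact mul_le_mul_of_nonneg_left a1 (by positivity)
  have a5 : L ^ 30 * S.F * (4900 * S.C ^ 4) ≤ Lg * cr S τ / S.C := by
    rw [le_div_iff₀ C0]
    have b1 := mul_le_mul_of_nonneg_right H.L1 (by positivity : 0 ≤ L ^ 30)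
    have b2 := H.Li (i := 31) (by norm_num)
    have b3 : 4900 * S.C ^ 5 * L ^ 30 ≤ D ^ 12 := by
      have : 0 ≤ S.C ^ 5 * L ^ 30 := by positivity
      have : 0 ≤ L ^ 31 := by positivity
      linarith [H.DE, pow_succ' L 30]
    have b4 := mul_le_mul_of_nonneg_right b3 (by linarith : 0 ≤ S.F)
    have b5 := le_mul_of_one_le_right (by linarith [H.Lg2, H.Db] : 0 ≤ Lg) (cr1 S τ)
    linarith [H.Lg1]
  calc _ ≤ L ^ 30 * S.F * (4900 * S.C ^ 4 * (S.F / (S.n * S.ms s))) :=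
        mul_le_mul a4 a3 (by positivity) (by positivity)
    _ ≤ _ := by rw [← mul_assoc]; exact mul_le_mul_of_nonneg_right a5 (by positivity)

include I hy

/-- the sums above the level -/
theorem ups (T : TpS L S M m a X2 X3 G0 η) {j : ℕ} (hj : τ ≤ M.s j) :
    ∑ k ∈ Ico j M.N, M.dz m a k * u4 M m a k ^ 2 ≤ L ^ 32 * X2 ∧
      ∑ k ∈ Ico j M.N, M.dz m a k * u4 M m a k ^ 3 ≤ L ^ 42 * η τ := by
  have h := H.A.cl
  have τ0 := H.l0.trans_le hτ
  have τ1 := H.τ1' hτ hX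
  obtain ⟨b2, -, b3⟩ := I.szB _ _ _ _ _ _ (H.cf hτ hX hy)
    (sn_of h H.N H.DE (one_le_pow₀ (n := 10) H.l1) τ0 hτ H.phi)
  have b3 := b3 τ le_rfl (τ1.trans h.C1)
  obtain ⟨e1, e2, -⟩ := H.ηp hτ hX
  have η0 := H.X30.trans e2
  have L0 : 0 < L := by linarith [H.Lb]
  have t3 := T.2.1.trans (mul_le_mul_of_nonneg_left (add_le_add e2 (H.N.ηa τ1)) L0.le)
  have p2 := up_sum9 h (lg H.A) (f := fun k => u4 M m a k ^ 2) (fun _ => sq_nonneg _) hj
  have p3 := up_sum9 h (lg H.A) (f := fun k => u4 M m a k ^ 3) (fun k => pow_nonneg (u4_nn k) 3) hj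
  have q1 := mul_le_mul_of_nonneg_right (H.Lp (i := 31) (j := 32) (by norm_num)) H.X20
  have q2 := mul_le_mul_of_nonneg_right (le_self_pow₀ H.l1 (n := 31) (by norm_num)) H.X20
  have q3 := mul_le_mul_of_nonneg_right (H.Lp (i := 41) (j := 42) (by norm_num)) η0
  have q4 := mul_le_mul_of_nonneg_right (le_self_pow₀ H.l1 (n := 41) (by norm_num)) η0
  have q5 := mul_nonneg L0.le H.X20
  have q6 := mul_nonneg L0.le η0
  exact ⟨by linarith [T.1, show L * ((L ^ 10) ^ 3 * X2) = L ^ 31 * X2 by ring],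
    by linarith [show L * ((L ^ 10) ^ 4 * η τ) = L ^ 41 * η τ by ring]⟩

/-- **one level** -/
theorem level (T : TpS L S M m a X2 X3 G0 η) (hK : (step S.C).choose ≤ L) {k : ℕ}
    (hk : M.z k ≤ τ) : M.rb m a k ≤ L ^ 10 * cc S τ / 4 := by
  have A := H.A
  have h := A.cl
  have G := lg A
  have hu := mj_u4 (M := M) (a := a) A.m_pos
  have τ0 := H.l0.trans_le hτ
  have τ1 := H.τ1' hτ hX
  have C1 := h.C1
  have C0 := h.C0
  have v0 := h.v0
  have n0 := h.N0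
  have Lb := H.Lb
  have L0 : 0 < L := by linarith
  have D0 : 0 < D := by linarith [H.Db]
  have G00 := H.G00
  have X20 := H.X20
  have cf := H.cf hτ hX hy
  obtain ⟨p, W, z7, sw⟩ := H.win hτ hX hy
  obtain ⟨e1, -, e3, e4⟩ := H.ηp hτ hX
  have U0 := H.U0 τ0
  have U3 := H.U3 τ0
  have κn := H.κn hτ hX
  have th2 := H.N.th2 τ hτ (τ1.trans C1)
  have cr1 := cr1 S τ
  have g1 : 1 ≤ Lg := H.D1.trans H.Lg2
  obtain ⟨c, ec⟩ : ∃ c, c = cc S τ := ⟨_, rfl⟩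
  obtain ⟨μ, eμ⟩ : ∃ μ, μ = mf S τ := ⟨_, rfl⟩
  obtain ⟨U, eU⟩ : ∃ U, U = uw S Lg τ := ⟨_, rfl⟩
  obtain ⟨g, eg⟩ : ∃ g, g = √(Lg * cr S τ * gg S τ) := ⟨_, rfl⟩
  obtain ⟨n1, n2, n3', n4, n5, n6, n7, n8, n9, n10, n11⟩ := H.num hτ hX ec eμ eU eg
  rw [← ec, ← eμ] at W
  rw [← eU] at e1 e4 U0 U3 th2
  rw [← eg] at e4
  rw [← eμ] at th2
  rw [← ec]
  have g0 : 0 ≤ g := eg ▸ sqrt_nonneg _
  have c0 := τ0.trans_le W.τc
  have c1 : c ≤ 1 := (le_mul_of_one_le_left c0.le (one_le_pow₀ H.l1)).trans W.c1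
  have μ0 := W.μ0
  have pJ := W.J
  have jp := W.jl
  have i1 := h.i1
  have JN := h.J_lt
  have η0 : 0 ≤ η τ := le_trans (by positivity) e3
  obtain ⟨y, ey⟩ : ∃ y, y = μ * τ / D := ⟨_, rfl⟩
  have ty : ∀ x, D * x ≤ μ * τ → x ≤ y := fun x hx => by rw [ey, le_div_iff₀ D0]; linarith
  have ty' : ∀ x, D * x ≤ μ → τ * x ≤ y := fun x hx =>
    ty _ (by linarith [mul_le_mul_of_nonneg_right hx τ0.le])
  have ηy := ty _ n11
  have y0 := η0.trans ηy
  have ηc : η τ ≤ c ^ 3 := ((le_mul_of_one_le_left η0 H.D1).trans n11).trans n2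
  have msc : S.C * S.v ≤ c :=
    ((H.vn.trans e3).trans ηc).trans (pow_le_of_le_one c0.le c1 three_ne_zero)
  have hL : 8000 * S.C ≤ L := by linarith [H.Ci (i := 1) (by norm_num), pow_one S.C]
  have κ1 : 1 ≤ Lg * cr S τ := one_le_mul_of_one_le_of_one_le g1 cr1
  have κC : Lg * cr S τ / S.C ≤ Lg * cr S τ := div_le_self (by linarith) C1
  have lo : ∀ i ≤ 7 * p, u4 M m a i ≤ L ^ 12 * c := fun i hi => by
    have C3 : 1 ≤ S.C ^ 3 := one_le_pow₀ C1
    have a1 := cc_mul h τ0 (le_max_right (M.z i) τ) (K := 37 * S.C ^ 3)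
      (max_le ((h.leg.zm hi).trans z7) (le_mul_of_one_le_left τ0.le (by linarith)))
    rw [← ec] at a1
    calc _ ≤ _ := I.szL _ _ cf i (by omega)
      _ ≤ L * (L ^ 10 * (L * c)) := by
          have := a1.trans (mul_le_mul_of_nonneg_right
            (show _ ≤ L by linarith [H.Ci (i := 3) (by norm_num)]) c0.le)
          gcongr
      _ = _ := by ring
  have low : ∀ (i : ℕ) {j : ℕ}, j ≤ 7 * p →
      ∑ k ∈ range j, M.dz m a k * u4 M m a k ^ i ≤ L * τ * (L ^ 12 * c) ^ i := fun i j hj =>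
    low_sum9 G (f := fun k => u4 M m a k ^ i) (by positivity) ((h.leg.zm hj).trans W.zL)
      fun k hk => pow_le_pow_left₀ (u4_nn k) (lo k (by omega)) i
  have sp : τ ≤ M.s p := by linarith [(sw p le_rfl (by omega)).1]
  obtain ⟨u2, u3⟩ := H.ups I hτ hX hy T sp
  have spl : ∀ i, Nu M m a (u4 M m a) i = ∑ k ∈ range p, M.dz m a k * u4 M m a k ^ i +
      ∑ k ∈ Ico p M.N, M.dz m a k * u4 M m a k ^ i := fun i =>
    (sum_range_add_sum_Ico _ (by omega)).symm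
  have x2 : √X2 ^ 2 = X2 := sq_sqrt X20
  have N1 : Nu M m a (u4 M m a) 1 ≤ L ^ 16 * (√X2 + τ * c) := by
    have a1 := Zb9.sum_le_sqrt (U := Ico p M.N) (w := M.dz m a) (f := u4 M m a)
      (fun k _ => G.dz_nonneg k) (by linarith [G.sum_dz_le (Ico p M.N), G.a0])
    simp only [abs_of_nonneg (u4_nn _)] at a1
    have a2 : √(∑ k ∈ Ico p M.N, M.dz m a k * u4 M m a k ^ 2) ≤ L ^ 16 * √X2 :=
      sqrt_le_iff.2 ⟨by positivity, u2.trans_eq (by rw [mul_pow, x2]; ring)⟩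
    have a3 := low 1 (show p ≤ 7 * p by omega)
    have a4 := mul_le_mul_of_nonneg_right (pow_le_pow_right₀ H.l1 (show 13 ≤ 16 by norm_num))
      (by positivity : 0 ≤ τ * c)
    rw [spl]
    simp only [pow_one] at a3 ⊢
    linarith
  have N2 : Nu M m a (u4 M m a) 2 ≤ L ^ 32 * (√X2 ^ 2 + τ * c ^ 2) := by
    have a3 := low 2 (show p ≤ 7 * p by omega)
    have a4 := mul_le_mul_of_nonneg_right (pow_le_pow_right₀ H.l1 (show 25 ≤ 32 by norm_num))
      (by positivity : 0 ≤ τ * c ^ 2)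
    rw [spl, x2]
    linarith
  have c4 := mul_le_mul_of_nonneg_left (ty' _ n3') (by positivity : 0 ≤ L ^ 49)
  have c5 : 62000 * (L ^ 42 * η τ) ≤ L ^ 49 * y := by
    rw [← mul_assoc]
    exact mul_le_mul (H.Lp (by norm_num)) ηy η0 (by positivity)
  have c6 : 0 ≤ L ^ 42 * η τ := by positivity
  have N4 : Nu M m a (u4 M m a) 4 ≤ L ^ 49 * (2 * y) := by
    have a3 := low 4 (show p ≤ 7 * p by omega)
    have a4 : ∑ k ∈ Ico p M.N, M.dz m a k * u4 M m a k ^ 4 ≤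
        2 * ∑ k ∈ Ico p M.N, M.dz m a k * u4 M m a k ^ 3 := by
      rw [mul_sum]
      refine sum_le_sum fun k _ => ?_
      have := mul_le_mul_of_nonneg_left (hu.u0 k).2
        (mul_nonneg (G.dz_nonneg k) (pow_nonneg (u4_nn (M := M) (m := m) (a := a) k) 3))
      linarith
    rw [spl]
    linarith
  have hP : (g + G0 + √X2 ^ 2 + τ * c ^ 2) * (U + √X2 + τ * c) ≤ 7 * y := by
    have a1 : τ * c ^ 2 * (τ * c) ≤ τ * c ^ 4 := by
      have := mul_le_mul_of_nonneg_right W.τc (by positivity : 0 ≤ τ * c ^ 3)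
      linarith
    rw [x2] at n6 ⊢
    linarith [ty' _ n3', ty' _ n4, ty' _ n5, ty' _ n6, ty' _ n7, ty' _ n8]
  refine le_trans (rb_mono A.m_pos ?_) ((step S.C).choose_spec.2 A rfl hK W hu
    (ms := S.C * S.v) (U := U) (κ := Lg * cr S τ) (e0 := L ^ 50 * y) (by positivity) msc
    ?_ ?_ (fun j j1 j2 => ?_) (fun j hj => lo j (by omega)) (fun j j1 j2 gj uj => ?_) ?_ ?_ ?_ ?_ ?_
    (2 * p) le_rfl)
  · by_contra d
    have a1 := (h.z_tel (i := p) (j := 2 * p) (by omega) (by omega) (by omega)).1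
    have a2 : 4 * τ ≤ (((2 * p : ℕ) : ℝ) - p) * (S.v / S.C) := by
      rw [← mul_div_assoc, le_div_iff₀ C0]; push_cast; linarith [W.pv]
    linarith [h.leg.zm (not_le.1 d).le, h.z_pos p]
  · have : 0 ≤ L ^ 25 := by positivity
    linarith [H.Li (i := 25) (by norm_num), H.Lg2,
      le_mul_of_one_le_right (zero_le_one.trans g1) cr1]
  · have a1 := mul_le_mul_of_nonneg_left W.rL C0.le
    have a2 := mul_le_mul_of_nonneg_right hL (by positivity : 0 ≤ L ^ 11 * c)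
    have a3 := mul_le_mul_of_nonneg_right ((H.Li (i := 12) (by norm_num)).trans H.Lg2) c0.le
    have a4 : 0 < L ^ 12 * c := by positivity
    have a5 : 0 ≤ S.C * (L ^ 11 * c) := by positivity
    rw [mul_assoc, ← cc, ← ec]
    linarith
  · obtain ⟨s1, s2⟩ := sw j (by omega) (by omega)
    have sj : τ ≤ M.s j := by linarith
    refine (I.szP _ _ cf j _ sj (by omega) ((H.slope hτ sj).trans
      (mul_le_mul_of_nonneg_right κC (by linarith))) κn).trans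
      (mul_le_mul_of_nonneg_left (add_le_add ?_ (ev_win (by omega) (by omega))) L0.le)
    rw [eU]
    refine mul_le_mul ((rpow_le_self_of_one_le κ1 (by norm_num)).trans
      (mul_le_mul_of_nonneg_right (le_self_pow₀ g1 two_ne_zero) (by linarith)))
      (rpow_le_rpow (P33.w3_pos h (by linarith)).le (P33.w3_anti h τ0 sj) (by norm_num))
      (rpow_nonneg (P33.w3_pos h (by linarith)).le _) (by positivity)
  · obtain ⟨s1, s2⟩ := sw j (by omega) (by omega)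
    have sj : τ ≤ M.s j := by linarith
    have LG : L * G0 ^ 2 ≤ (L ^ 20 * (τ * c ^ 2) + L * G0) ^ 2 := le_trans (by
      rw [mul_pow]; exact mul_le_mul_of_nonneg_right (le_self_pow₀ H.l1 two_ne_zero) (sq_nonneg _))
      (pow_le_pow_left₀ (by positivity) (le_add_of_nonneg_left (by positivity)) 2)
    obtain ⟨Gj, Tj, b1, b2⟩ := I.szN G1 τ _ (L ^ 20 * (τ * c ^ 2) + L * G0) H.cei H.N.HJ cf
      (by rw [← ec]; linarith [mul_nonneg L0.le G00]) (T.2.2.trans LG) j _ (by linarith) (by omega)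
      (H.slope hτ sj) (κC.trans κn)
      (fun t t1 t2 => (H.weak hτ hX t1 t2 s2).trans (le_add_of_nonneg_left (sq_nonneg _)))
      (gd_win (by omega) (by omega) gj)
    refine ⟨Gj, Tj, ?_⟩
    have m0 := h.ms_pos τ0.le
    have F0 : 0 ≤ S.F := by linarith [h.F1]
    have b3 : √(Lg * cr S τ / S.C * (S.F / (S.n * S.ms (M.s j)))) ≤ g := by
      rw [eg]
      exact sqrt_le_sqrt (mul_le_mul κC (div_le_div_of_nonneg_left F0 (by positivity)
        (mul_le_mul_of_nonneg_left (h.msm sj) n0.le))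
        (by have := h.ms_pos (τ0.le.trans sj); positivity) (by linarith))
    have b4 : Gj ≤ L ^ 22 * (g + G0 + τ * c ^ 2) := by
      have d1 := mul_le_mul_of_nonneg_right (le_self_pow₀ H.l1 (n := 22) (by norm_num)) g0
      have d2 := mul_le_mul_of_nonneg_right (pow_le_pow_right₀ H.l1 (show 2 ≤ 22 by norm_num)) G00
      have d3 := mul_le_mul_of_nonneg_right (pow_le_pow_right₀ H.l1 (show 21 ≤ 22 by norm_num))
        (by positivity : 0 ≤ τ * c ^ 2)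
      linarith [mul_le_mul_of_nonneg_left b3 L0.le]
    have b5 : (Lg * cr S τ / S.C) ^ 2 * S.w3 (M.s j) ≤ y := by
      refine le_trans ?_ (e1.trans ηy)
      rw [U3]
      refine mul_le_mul ((pow_le_pow_left₀ (by positivity) κC 2).trans ?_) (P33.w3_anti h τ0 sj)
        (P33.w3_pos h (by linarith)).le (by positivity)
      rw [mul_pow]
      exact mul_le_mul (pow_le_pow_right₀ g1 (by norm_num)) (pow_le_pow_right₀ cr1 (by norm_num))
        (by positivity) (by positivity)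
    have jN : j < M.N := by omega
    have b6 : N3 M m a (u4 M m a) (S.C * S.v) j ≤ L ^ 49 * (2 * y) := by
      have d1 := low_sum9 G (f := fun k => pb M m a (S.C * S.v) k * u4 M m a k ^ 3) (j := j)
        (b := L ^ 12 * c * (L ^ 12 * c) ^ 3) (by positivity)
        ((h.leg.zm (show j ≤ 7 * p by omega)).trans W.zL) fun k hk =>
          mul_le_mul (pb_le_w A W hL msc (by omega)) (pow_le_pow_left₀ (u4_nn k) (lo k (by omega)) 3)
            (pow_nonneg (u4_nn k) 3) (by positivity)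
      rw [N3_eq jN.le]
      linarith [(H.ups I hτ hX hy T sj).2]
    have := en_num Lb U0 (sqrt_nonneg X2) (add_nonneg g0 G00) (by positivity : 0 ≤ τ * c)
      (by positivity : 0 ≤ τ * c ^ 2) (u4_nn j) (Nu_nn G hu 1) (by positivity : 0 ≤ S.C * S.v) uj b4
      (b2.trans (mul_le_mul_of_nonneg_left b5 L0.le)) N1 N2 (Nu_one_sq G) b6 N4
      (((r2_le A.m_pos j).trans (U2_le hu jN)).trans
        ((pow_le_pow_left₀ (hu.u0 j).1 (hu.u0 j).2 2).trans_eq (by norm_num)))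
      ((H.vn.trans e3).trans ηy) (e1.trans ηy) hP
    simp only [en, n3, if_true]
    linarith
  · have a1 := mul_le_mul_of_nonneg_right (H.Li (i := 32) (by norm_num)) (sq_nonneg √X2)
    have a2 := mul_le_mul_of_nonneg_right (H.Li (i := 32) (by norm_num))
      (by positivity : 0 ≤ τ * c ^ 2)
    have a3 := mul_le_mul_of_nonneg_right (H.τ1 hτ hX) (sq_nonneg c)
    linarith [sq_nonneg c]
  · have a1 : (S.n : ℝ) ≤ m := by exact_mod_cast A.mem.m1
    exact (((one_div_le_one_div_of_le n0 a1).trans e3).trans ηc).trans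
      (pow_le_pow_of_le_one c0.le c1 (by norm_num))
  · have a1 := mul_le_mul_of_nonneg_right ((H.Li (i := 3) (by norm_num)).trans H.DE) (sq_nonneg U)
    have : 0 ≤ L ^ 3 * U ^ 2 := by positivity
    linarith
  · have a1 := mul_le_mul_of_nonneg_right (H.Li (i := 16) (by norm_num))
      (by positivity : 0 ≤ U ^ 2 * c)
    have : 0 ≤ L ^ 16 * (U ^ 2 * c) := by positivity
    linarith
  · have a1 := mul_le_mul_of_nonneg_right (H.Li (i := 52) (by norm_num)) y0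
    have a2 : D * y = μ * τ := by rw [ey]; field_simp
    have := mul_nonneg (pow_nonneg L0.le 52) y0
    linarith

omit hτ hX hy in
theorem cru (T : TpS L S M m a X2 X3 G0 η) (hK : (step S.C).choose ≤ L) :
    Cru (L ^ 10) S M m a l := by
  have key : ∀ (d : ℕ) (τ : ℝ), l ≤ τ → X ≤ (2 ^ d * τ) ^ 3 → Hy L S M m a τ := fun d => by
    induction d with
    | zero => exact fun τ h1 h2 => H.base h1 (by simpa using h2)
    | succ d ih =>
      intro τ h1 h2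
      have τ0 := H.l0.trans_le h1
      rcases le_total X (τ ^ 3) with c | c
      · exact H.base h1 c
      have h3 : l ≤ 2 * τ := by linarith
      have hy := ih (2 * τ) h3 (h2.trans_eq (by ring))
      intro k hk
      rcases le_total (M.z k) (2 * τ) with e | e
      · have p := H.level I h3 (by linarith [show (2 * τ) ^ 3 = 8 * τ ^ 3 by ring]) hy T hK e
        have q := (cc_mul H.A.cl τ0 (by linarith) (le_refl (2 * τ))).trans
          (mul_le_mul_of_nonneg_left (cc_mono H.A.cl τ0 (le_max_right (M.z k) τ)) (by norm_num))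
        linarith [mul_le_mul_of_nonneg_left q (by have := H.Lb; positivity : 0 ≤ L ^ 10)]
      · have := hy k hk
        rwa [max_eq_left e, ← max_eq_left (show τ ≤ M.z k by linarith)] at this
  obtain ⟨d, hd⟩ := pow_unbounded_of_one_lt (1 / l) (one_lt_two (α := ℝ))
  rw [div_lt_iff₀ H.l0] at hd
  exact key d l le_rfl (((le_mul_of_one_le_left H.N.X0.le (one_le_pow₀ H.D1)).trans H.N.X1).trans
    (one_le_pow₀ hd.le))

end C9

theorem CL_powE {P : CP} (H : CL P) {k : ℕ} (hk : 0 < k) :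
    CL fun E Λ S M m a => P (E ^ k) Λ S M m a := fun C => by
  filter_upwards [H C] with A H ε hε η hη
  filter_upwards [H (ε * k) (by positivity) η hη] with n H S M b1 b2 b3 b4 m a b5
  rw [Pre29.rp_pow]
  exact H S M b1 b2 b3 b4 m a b5

/-- **(L0) from the top sums**, for any family `P` of side conditions -/
theorem tl0_gen {P : ℝ → Sc → Md → ℕ → ℝ → ℝ → ℝ → ℝ → ℝ → ℝ → ℝ → ℝ → (ℝ → ℝ) → Prop}
    (hT : CL fun E Λ S M m a => ∀ G1 l X Lg X2 X3 G0 η, CeiG S M G1 →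
      LN E S M l l (cr S l * l) X Lg X2 X3 G0 η → Phi M S m a ≤ X →
      P E S M m a G1 l X Lg X2 X3 G0 η → TpS Λ S M m a X2 X3 G0 η) :
    CL fun E Λ S M m a => ∀ G1 l X Lg X2 X3 G0 η, CeiG S M G1 →
      LN E S M l l (cr S l * l) X Lg X2 X3 G0 η → S.F ^ 40 ≤ E → Phi M S m a ≤ X →
      P E S M m a G1 l X Lg X2 X3 G0 η → Cru Λ S M m a l := by
  refine ((P33.szL.and P33.szP).and ((szB'.and szN).and (CL_powE hT (k := 12) (by norm_num)))).glue'
    (fun E Λ Λ' S M m a h1 h2 H G1 l X Lg X2 X3 G0 η a1 a2 a3 a4 a5 k hk =>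
      (H G1 l X Lg X2 X3 G0 η a1 a2 a3 a4 a5 k hk).trans ?_) 2 (i := 12) (by norm_num) 60 10
    fun C A ε η hε hη => ⟨max (step C).choose (62000 * C ^ 5),
      fun S M m a R hA h1 h2 h I ⟨⟨p1, p2⟩, ⟨p3, p4⟩, p5⟩ G1 l X Lg X2 X3 G0 η' a1 a2 a3 a4 a5 => ?_⟩
  · have : 0 ≤ max (M.z k) l := le_max_of_le_right
      ((mul_nonneg_iff_of_pos_left (by linarith [cr1 S l])).1 a2.V0)
    exact mul_le_mul_of_nonneg_right h2 (mul_nonneg (by linarith [cr1 S (max (M.z k) l)]) this)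
  obtain rfl := R.hC
  have n1 : 1 ≤ S.n := h.n1
  have n0 := h.N0
  have C1 := h.C1
  have hL := (le_max_right _ _).trans R.K_le
  have Ln : ((S.n : ℝ) ^ η) ^ 2 ≤ S.n := by
    rw [Pre29.rp_pow]
    exact (Pre29.rp_le n1 (by push_cast at h2 ⊢; linarith)).trans_eq (rpow_one _)
  have vn : S.C * S.v ≤ 1 / S.n := by
    have b1 : S.v * (S.n : ℝ) ^ 2 ≤ S.C := le_trans (mul_le_mul_of_nonneg_left
      (pow_le_pow_right₀ (by exact_mod_cast n1) (R.hA ▸ R.A2)) h.v0.le) h.v2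
    have b2 : S.C ^ 2 ≤ S.n := le_trans (pow_le_pow_left₀ h.C0.le (by
      linarith [le_self_pow₀ C1 (show 5 ≠ 0 by norm_num)]) 2) Ln
    rw [le_div_iff₀ n0]
    refine le_of_mul_le_mul_right ?_ n0
    linarith [mul_le_mul_of_nonneg_left b1 h.C0.le]
  exact C9.cru (D := (S.n : ℝ) ^ ε) ⟨⟨h, I, by linarith [h.b1, a2.HJ], by linarith [h.sT]⟩, a1, a2, a3,
    a4, hL, by rw [Pre29.rp_pow]; exact Pre29.rp_le n1 (by push_cast at h1 ⊢; linarith), vn, R.θ1 h⟩ ⟨p1, p2, p3, p4⟩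
    (p5 G1 l X Lg X2 X3 G0 η' a1 a2 a4 a5) ((le_max_left _ _).trans R.K_le)

/-- the top sums under the hypotheses of `TL0` -/
def SzT9 : Prop := CL fun E Λ S M m a => ∀ G1 u1 u2 j γ Lc ηc τ l X Xp Vt Lg Lp X2 X3 G0 η N,
  CeiG S M G1 → LN E S M l l (cr S l * l) X Lg X2 X3 G0 η →
  LP E S M Xp Vt Lg Lp X2 X3 G0 G1 u1 u2 j γ Lc ηc τ η N →
  Ap S M m a l X Xp Vt u1 j → TpS Λ S M m a X2 X3 G0 η

/-- **(TL0)** -/
theorem tl0_of (hT : SzT9) : TL0 :=
  (tl0_gen (P := fun E S M m a G1 l X Lg X2 X3 G0 η => ∃ u1 u2 j γ Lc ηc τ Xp Vt Lp N,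
    LP E S M Xp Vt Lg Lp X2 X3 G0 G1 u1 u2 j γ Lc ηc τ η N ∧ Ap S M m a l X Xp Vt u1 j)
    (CL.mono hT fun _ _ _ _ _ _ _ _ _ _ H G1 l X Lg X2 X3 G0 η a1 a2 _
      ⟨u1, u2, j, γ, Lc, ηc, τ, Xp, Vt, Lp, N, b1, b2⟩ =>
      H G1 u1 u2 j γ Lc ηc τ l X Xp Vt Lg Lp X2 X3 G0 η N a1 a2 b1 b2)).mono
    fun _ _ _ _ _ _ _ _ _ _ H G1 u1 u2 j γ Lc ηc τ l X Xp Vt Lg Lp X2 X3 G0 η N a1 a2 a3 a4 a5 =>
      H G1 l X Lg X2 X3 G0 η a1 a2 a4 a5.all ⟨u1, u2, j, γ, Lc, ηc, τ, Xp, Vt, Lp, N, a3, a5⟩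

end Crest.Agent.T156.Alt.Sz9

end
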