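import Crest.Agent.T156.Fin_26

/-!
# Row 156 (helper39): finite nesting, from model classes that depend on the tilt scale to `Fam`

The class of models used to compare `L n` and `L n'` at root tilt `s` may depend on `s`
(`NFam`), or on a free scale `R` (`RFam`).  Finitely many nested tilt intervals and a polynomial
a priori bound close the comparison on the reference curves alone.
-/

set_option autoImplicit false
open Filter Topology Set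

namespace Crest.Agent.T156.Soft.Nest39

open Fin26

/-- the reference curves of `n' ∈ [n,2n]` -/
def FS (L : ℕ → ℝ → ℝ) (n : ℕ) : Set (ℝ → ℝ) := {f | ∃ n' : ℕ, n ≤ n' ∧ n' ≤ 2 * n ∧ f = L n'}

/-- classes attached to `(n,s)` -/
structure NFam (L : ℕ → ℝ → ℝ) (G : ℕ → ℝ → Set (ℝ → ℝ)) (s₁ l A D c k C' : ℝ) (J n₀ : ℕ) :
    Prop where
  s1 : 1 ≤ s₁
  hl : 1 ≤ l
  hc : 0 < c
  hk : 0 < k
  hC : 0 ≤ C'
  hJ : A ≤ J * c
  mem : ∀ n n' : ℕ, n₀ ≤ n → n ≤ n' → n' ≤ 2 * n → ∀ s, s₁ ≤ s → s ≤ (n : ℝ) ^ k → L n' ∈ G n s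
  triv : ∀ n, n₀ ≤ n → ∀ s, s₁ ≤ s → s ≤ (n : ℝ) ^ k → ∀ f ∈ G n s, ∀ u, s₁ ≤ u →
    u ≤ l ^ (J + 1) * s → f u ≤ (n : ℝ) ^ A
  cmp : ∀ n, n₀ ≤ n → ∀ s, s₁ ≤ s → s ≤ (n : ℝ) ^ k → ∀ u, s₁ ≤ u → u ≤ l ^ J * s → ∀ B, 0 ≤ B →
    (∀ g ∈ G n s, ∀ v, s₁ ≤ v → v ≤ l * u → g v ≤ B) →
    ∀ f ∈ G n s, |f u - L n u| ≤ D * (n : ℝ) ^ (-c) * (B + s ^ C')

variable {L : ℕ → ℝ → ℝ} {G : ℕ → ℝ → Set (ℝ → ℝ)} {s₁ l A A₀ r D c k C' : ℝ} {J n₀ : ℕ}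

/-- the nested bound: all curves of the class are bounded by the reference curve -/
theorem NFam.bound (h : NFam L G s₁ l A D c k C' J n₀) {n : ℕ} (hn : n₀ ≤ n)
    (hε : |D| * (n : ℝ) ^ (-c) ≤ 1 / 2) {s : ℝ} (hs : s₁ ≤ s) (hs' : s ≤ (n : ℝ) ^ k) {B : ℝ}
    (hB : 0 ≤ B) (hL : ∀ u, s₁ ≤ u → u ≤ l ^ J * s → L n u ≤ B) :
    ∀ i : ℕ, i ≤ J → ∀ f ∈ G n s, ∀ u, s₁ ≤ u → u ≤ l ^ (J + 1 - i) * s →
      f u ≤ 2 * (B + s ^ C') + (|D| * (n : ℝ) ^ (-c)) ^ i * (n : ℝ) ^ A := by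
  have hs1 := h.s1
  have hl1 := h.hl
  have hs0 : 0 < s := by linarith
  have hsC : 0 ≤ s ^ C' := by positivity
  set ε := |D| * (n : ℝ) ^ (-c) with hεd
  have hε0 : 0 ≤ ε := by positivity
  intro i
  induction i with
  | zero =>
    intro _ f hf u hu hu'
    have := h.triv n hn s hs hs' f hf u hu (by simpa using hu')
    rw [pow_zero]; linarith
  | succ i ih =>
    intro hi f hf u hu hu'
    have e : J + 1 - (i + 1) = J - i := by omega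
    rw [e] at hu'
    have hu2 : u ≤ l ^ J * s :=
      hu'.trans (mul_le_mul_of_nonneg_right (pow_le_pow_right₀ hl1 (by omega)) hs0.le)
    have hp : 0 ≤ ε ^ i * (n : ℝ) ^ A := by positivity
    have h1 := h.cmp n hn s hs hs' u hu hu2 (2 * (B + s ^ C') + ε ^ i * (n : ℝ) ^ A) (by linarith)
      (fun g hg v hv hv' => ih (by omega) g hg v hv (hv'.trans (by
        have e2 : J + 1 - i = (J - i) + 1 := by omega
        rw [e2, pow_succ', mul_assoc]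
        exact mul_le_mul_of_nonneg_left hu' (by linarith)))) f hf
    have h2 : D * (n : ℝ) ^ (-c) * (2 * (B + s ^ C') + ε ^ i * (n : ℝ) ^ A + s ^ C') ≤
        ε * (2 * (B + s ^ C') + ε ^ i * (n : ℝ) ^ A + s ^ C') :=
      mul_le_mul_of_nonneg_right
        (mul_le_mul_of_nonneg_right (le_abs_self D) (by positivity)) (by linarith)
    have h3 := (abs_le.1 (h1.trans h2)).2
    have h4 := hL u hu hu2
    have h5 : ε * (2 * (B + s ^ C') + s ^ C') ≤ 1 / 2 * (2 * (B + s ^ C') + s ^ C') :=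
      mul_le_mul_of_nonneg_right hε (by linarith)
    rw [pow_succ]
    nlinarith

/-- uniform form of the nested bound -/
theorem NFam.bound' (h : NFam L G s₁ l A D c k C' J n₀) {n : ℕ} (hn : n₀ ≤ n) (hn1 : 1 ≤ n)
    (hε : |D| * (n : ℝ) ^ (-c) ≤ 1 / 2) {s : ℝ} (hs : s₁ ≤ s) (hs' : s ≤ (n : ℝ) ^ k) {B : ℝ}
    (hB : 0 ≤ B) (hL : ∀ u, s₁ ≤ u → u ≤ l ^ J * s → L n u ≤ B) :
    ∀ f ∈ G n s, ∀ u, s₁ ≤ u → u ≤ l * s → f u ≤ (2 + |D| ^ J) * (B + s ^ C') := by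
  intro f hf u hu hu'
  have h1 := h.bound hn hε hs hs' hB hL J le_rfl f hf u hu (by simpa using hu')
  have hn0 : (0 : ℝ) < n := by exact_mod_cast hn1
  have h2 : (|D| * (n : ℝ) ^ (-c)) ^ J * (n : ℝ) ^ A ≤ |D| ^ J := by
    rw [mul_pow, mul_assoc, ← Real.rpow_natCast ((n : ℝ) ^ (-c)), ← Real.rpow_mul hn0.le,
      ← Real.rpow_add hn0]
    refine mul_le_of_le_one_right (by positivity) ?_
    exact Real.rpow_le_one_of_one_le_of_nonpos (by exact_mod_cast hn1) (by have := h.hJ; linarith)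
  have h3 : 1 ≤ s ^ C' := Real.one_le_rpow (h.s1.trans hs) h.hC
  have h4 : |D| ^ J ≤ |D| ^ J * (B + s ^ C') := le_mul_of_one_le_right (by positivity) (by linarith)
  linarith

/-- **nesting**: the comparison closes on the reference curves -/
theorem NFam.fam (h : NFam L G s₁ l A D c k C' J n₀) (hr : 0 ≤ r)
    (hT : ∀ n n' : ℕ, n₀ ≤ n → n ≤ n' → n' ≤ 2 * n → ∀ s, s₁ ≤ s → L n' s ≤ A₀ * s * (n : ℝ) ^ r) :
    ∃ n₁ : ℕ, Fam L (FS L) s₁ (l ^ J) A₀ r (|D| * (3 + |D| ^ J)) c k C' n₁ := by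
  obtain ⟨n₂, hn₂⟩ := eventually_atTop.1 (ev_small h.hc |D| (1 / 2) (by norm_num))
  refine ⟨max n₀ (max n₂ 1), h.s1, one_le_pow₀ h.hl, h.hc, h.hk, hr, h.hC,
    fun n n' _ a b => ⟨n', a, b, rfl⟩, ?_, ?_⟩
  · rintro n hn f ⟨n', a, b, rfl⟩ s hs
    exact hT n n' (by omega) a b s hs
  · rintro n hn s hs hs' B hB hg f ⟨n', a, b, rfl⟩
    have hs0 : 0 < s := by linarith [h.s1]
    have hb := h.bound' (n := n) (by omega) (by omega) (hn₂ n (by omega)) hs hs' hB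
      (hg (L n) ⟨n, le_rfl, by omega, rfl⟩)
    have hsC : 0 ≤ s ^ C' := by positivity
    have h1 := h.cmp n (by omega) s hs hs' s hs
      (le_mul_of_one_le_left hs0.le (one_le_pow₀ h.hl)) _ (by positivity) hb (L n')
      (h.mem n n' (by omega) a b s hs hs')
    refine h1.trans ?_
    have hx : 0 ≤ (n : ℝ) ^ (-c) := by positivity
    have hD : 0 ≤ |D| ^ J := by positivity
    calc D * (n : ℝ) ^ (-c) * ((2 + |D| ^ J) * (B + s ^ C') + s ^ C')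
        ≤ |D| * (n : ℝ) ^ (-c) * ((3 + |D| ^ J) * (B + s ^ C')) :=
          mul_le_mul (mul_le_mul_of_nonneg_right (le_abs_self D) hx) (by nlinarith)
            (by positivity) (by positivity)
      _ = _ := by ring

/-- classes attached to `(n,R)`, `R ∈ [n^κ, n^k]` a free scale, root tilts `u ≤ R n^{-ε}` -/
structure RFam (L : ℕ → ℝ → ℝ) (G : ℕ → ℝ → Set (ℝ → ℝ)) (s₁ l A D c κ ε k C' : ℝ) (n₀ : ℕ) :
    Prop where
  s1 : 1 ≤ s₁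
  hl : 1 ≤ l
  hε : 0 ≤ ε
  hκ : 0 ≤ κ
  hκk : κ ≤ k
  hεk : ε < k
  hC : 0 ≤ C'
  hc : C' * max κ ε < c
  mem : ∀ n n' : ℕ, n₀ ≤ n → n ≤ n' → n' ≤ 2 * n → ∀ R, (n : ℝ) ^ κ ≤ R → R ≤ (n : ℝ) ^ k →
    L n' ∈ G n R
  triv : ∀ n, n₀ ≤ n → ∀ R, (n : ℝ) ^ κ ≤ R → R ≤ (n : ℝ) ^ k → ∀ f ∈ G n R, ∀ u, s₁ ≤ u →
    u * (n : ℝ) ^ ε ≤ R → f u ≤ (n : ℝ) ^ A
  cmp : ∀ n, n₀ ≤ n → ∀ R, (n : ℝ) ^ κ ≤ R → R ≤ (n : ℝ) ^ k → ∀ u, s₁ ≤ u →
    l * u * (n : ℝ) ^ ε ≤ R → ∀ B, 0 ≤ B → (∀ g ∈ G n R, ∀ v, s₁ ≤ v → v ≤ l * u → g v ≤ B) →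
    ∀ f ∈ G n R, |f u - L n u| ≤ D * (n : ℝ) ^ (-c) * (B + R ^ C')

theorem RFam.nfam {κ ε k' : ℝ} (h : RFam L G s₁ l A D c κ ε k C' n₀) (hk0 : 0 < k')
    (hk' : k' < k - ε) : ∃ (J n₁ : ℕ) (D' : ℝ), n₀ ≤ n₁ ∧
      NFam L (fun n s => G n (max ((n : ℝ) ^ κ) (l ^ (J + 1) * s * (n : ℝ) ^ ε))) s₁ l A D'
        (c - C' * max κ ε) k' C' J n₁ := by
  have hc := h.hc
  have hl1 := h.hl
  have hs1 := h.s1
  have hC := h.hC
  set μ := max κ ε with hμ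
  have hμ0 : 0 ≤ μ := le_max_of_le_left h.hκ
  obtain ⟨J, hJ⟩ := exists_nat_ge (A / (c - C' * μ))
  rw [div_le_iff₀ (by linarith)] at hJ
  obtain ⟨n₂, hn₂⟩ := eventually_atTop.1
    (ev_small (c := k - ε - k') (by linarith) (l ^ (J + 1)) 1 one_pos)
  have hlJ : 1 ≤ l ^ (J + 1) := one_le_pow₀ hl1
  have hR : ∀ n : ℕ, max n₀ (max n₂ 1) ≤ n → ∀ s, s ≤ (n : ℝ) ^ k' →
      max ((n : ℝ) ^ κ) (l ^ (J + 1) * s * (n : ℝ) ^ ε) ≤ (n : ℝ) ^ k := by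
    intro n hn s hs
    have hn1 : (1 : ℝ) ≤ n := by exact_mod_cast (by omega : 1 ≤ n)
    have hn0 : (0 : ℝ) < n := by linarith
    refine max_le (Real.rpow_le_rpow_of_exponent_le hn1 h.hκk) ?_
    have e : (n : ℝ) ^ k' * (n : ℝ) ^ ε = (n : ℝ) ^ (-(k - ε - k')) * (n : ℝ) ^ k := by
      rw [← Real.rpow_add hn0, ← Real.rpow_add hn0]; congr 1; ring
    have h1 := hn₂ n (by omega)
    calc l ^ (J + 1) * s * (n : ℝ) ^ ε ≤ l ^ (J + 1) * (n : ℝ) ^ k' * (n : ℝ) ^ ε := by gcongr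
      _ = l ^ (J + 1) * (n : ℝ) ^ (-(k - ε - k')) * (n : ℝ) ^ k := by rw [mul_assoc, e]; ring
      _ ≤ 1 * (n : ℝ) ^ k := mul_le_mul_of_nonneg_right h1 (by positivity)
      _ = _ := one_mul _
  refine ⟨J, max n₀ (max n₂ 1), |D| * (l ^ (J + 1)) ^ C', le_max_left _ _, hs1, hl1, by linarith,
    hk0, hC, hJ, ?_, ?_, ?_⟩
  · intro n n' hn a b s _ hs'
    exact h.mem n n' (by omega) a b _ (le_max_left _ _) (hR n hn s hs')
  · intro n hn s _ hs' f hf u hu hu'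
    exact h.triv n (by omega) _ (le_max_left _ _) (hR n hn s hs') f hf u hu
      (le_max_of_le_right (mul_le_mul_of_nonneg_right hu' (by positivity)))
  · intro n hn s hs hs' u hu hu' B hB hg f hf
    have hn1 : (1 : ℝ) ≤ n := by exact_mod_cast (by omega : 1 ≤ n)
    have hn0 : (0 : ℝ) < n := by linarith
    have hs0 : 0 < s := by linarith
    have h1 := h.cmp n (by omega) _ (le_max_left _ _) (hR n hn s hs') u hu
      (le_max_of_le_right (mul_le_mul_of_nonneg_right (by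
        rw [pow_succ', mul_assoc]; exact mul_le_mul_of_nonneg_left hu' (by linarith))
        (by positivity))) B hB hg f hf
    refine h1.trans ?_
    have hnμ : 1 ≤ (n : ℝ) ^ μ := Real.one_le_rpow hn1 hμ0
    have h2 : max ((n : ℝ) ^ κ) (l ^ (J + 1) * s * (n : ℝ) ^ ε) ≤ l ^ (J + 1) * s * (n : ℝ) ^ μ := by
      refine max_le ?_ (mul_le_mul_of_nonneg_left
        (Real.rpow_le_rpow_of_exponent_le hn1 (le_max_right _ _)) (by positivity))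
      exact (Real.rpow_le_rpow_of_exponent_le hn1 (le_max_left _ _)).trans
        (le_mul_of_one_le_left (by positivity) (by nlinarith))
    have h3 : (max ((n : ℝ) ^ κ) (l ^ (J + 1) * s * (n : ℝ) ^ ε)) ^ C' ≤
        (l ^ (J + 1)) ^ C' * (n : ℝ) ^ (C' * μ) * s ^ C' := by
      refine (Real.rpow_le_rpow (by positivity) h2 hC).trans (le_of_eq ?_)
      rw [Real.mul_rpow (by positivity) (by positivity), Real.mul_rpow (by positivity) hs0.le,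
        ← Real.rpow_mul hn0.le, mul_comm μ]
      ring
    have h4 : 1 ≤ (l ^ (J + 1)) ^ C' * (n : ℝ) ^ (C' * μ) :=
      one_le_mul_of_one_le_of_one_le (Real.one_le_rpow hlJ hC) (Real.one_le_rpow hn1 (by positivity))
    have e : (n : ℝ) ^ (-(c - C' * μ)) = (n : ℝ) ^ (-c) * (n : ℝ) ^ (C' * μ) := by
      rw [← Real.rpow_add hn0]; congr 1; ring
    have hx : 0 ≤ (n : ℝ) ^ (-c) := by positivity
    calc D * (n : ℝ) ^ (-c) * (B + (max ((n : ℝ) ^ κ) (l ^ (J + 1) * s * (n : ℝ) ^ ε)) ^ C')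
        ≤ |D| * (n : ℝ) ^ (-c) * ((l ^ (J + 1)) ^ C' * (n : ℝ) ^ (C' * μ) * (B + s ^ C')) :=
          mul_le_mul (mul_le_mul_of_nonneg_right (le_abs_self D) hx) (by nlinarith)
            (by positivity) (by positivity)
      _ = _ := by rw [e]; ring

/-- `NFam` + trivial bound + weak lower bound for the SK curves give `Key` -/
theorem key_of_nfam {β : ℝ} (h : NFam (fun n => Ln n β s₁) G s₁ l A D c k C' J n₀) (hr : 0 ≤ r)
    (hT : ∀ n n' : ℕ, n₀ ≤ n → n ≤ n' → n' ≤ 2 * n → ∀ s, s₁ ≤ s →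
      Ln n' β s₁ s ≤ A₀ * s * (n : ℝ) ^ r)
    (hlb : ∀ K δ : ℝ, 0 < δ → ∃ᶠ n : ℕ in atTop, ∃ s, s₁ ≤ s ∧
      s ≤ δ * (n : ℝ) ^ k ∧ K * (n : ℝ) ^ (-c) * s ^ C' ≤ Ln n β s₁ s) : Key β := by
  obtain ⟨n₁, hF⟩ := h.fam hr hT
  exact key_of_family hF fun K δ hδ => (hlb K δ hδ).mono fun n ⟨s, a, b, d⟩ =>
    ⟨_, ⟨n, le_rfl, by omega, rfl⟩, s, a, b, d⟩

/-- **`RFam` + trivial bound + `γ s^{C'} ≤ L_n(s₁,s)` at one `s ≤ n^{k₀}`, `k₀ < k - ε` give `Key`** -/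
theorem key_of_rfam {β κ ε k₀ γ : ℝ} (h : RFam (fun n => Ln n β s₁) G s₁ l A D c κ ε k C' n₀)
    (hr : 0 ≤ r)
    (hT : ∀ n n' : ℕ, n₀ ≤ n → n ≤ n' → n' ≤ 2 * n → ∀ s, s₁ ≤ s →
      Ln n' β s₁ s ≤ A₀ * s * (n : ℝ) ^ r)
    (hk₀ : k₀ < k - ε) (hγ : 0 < γ)
    (hlb : ∃ᶠ n : ℕ in atTop, ∃ s, s₁ ≤ s ∧ s ≤ (n : ℝ) ^ k₀ ∧ γ * s ^ C' ≤ Ln n β s₁ s) :
    Key β := by
  have hεk := h.hεk
  obtain ⟨k', h1, h2, h3⟩ : ∃ k', 0 < k' ∧ k₀ < k' ∧ k' < k - ε :=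
    ⟨(max k₀ 0 + (k - ε)) / 2, by have := le_max_right k₀ 0; linarith,
      by have := le_max_left k₀ 0; linarith, by have := max_lt hk₀ (sub_pos.2 hεk); linarith⟩
  obtain ⟨J, n₁, D', hn₁, hN⟩ := h.nfam h1 h3
  refine key_of_nfam hN hr (fun n n' a => hT n n' (hn₁.trans a)) fun K δ hδ => ?_
  have e1 := ev_small (c := k' - k₀) (by linarith) 1 δ hδ
  have e2 := ev_small hN.hc K γ hγ
  refine (hlb.and_eventually (e1.and (e2.and (eventually_ge_atTop 1)))).mono ?_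
  rintro n ⟨⟨s, hs, hs', hlt⟩, a1, a2, a3⟩
  have hn : (0 : ℝ) < n := by exact_mod_cast a3
  have h0 : 0 ≤ s := by linarith [h.s1]
  refine ⟨s, hs, hs'.trans ?_, le_trans (mul_le_mul_of_nonneg_right a2 (by positivity)) hlt⟩
  have e : (n : ℝ) ^ k₀ = (n : ℝ) ^ (-(k' - k₀)) * (n : ℝ) ^ k' := by
    rw [← Real.rpow_add hn]; congr 1; ring
  rw [e]
  have : 0 < (n : ℝ) ^ k' := by positivity
  nlinarith

end Crest.Agent.T156.Soft.Nest39
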