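import Crest.Agent.T156.TopL_27
import Crest.Agent.T156.CutN_93

/-!
Row 156 (helper27): node data with the two-sided clamp; the zones of the nested cuts.
-/

set_option autoImplicit false

namespace Crest.Agent.T156.Gap27

open MeasureTheory Set
open Crest.Agent.R164.GC Crest.Agent.R339.B Crest.Agent.R339.Var Crest.Agent.T157.Pf
open Crest.Agent.T156.L0 Crest.Agent.T156.Cut8 Crest.Agent.T156.Pp.Area50

noncomputable section

variable {lb lh : List (ℝ × ℝ)} {T C b θ : ℝ}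

/-- the size of the fast part on one gap -/
theorem bound_diff (hC : 0 ≤ C) (hA : HLip Pr.AA T C) (hN : HLip Pr.NN T C) (hb : Pr.Ok lb)
    (hh : Pr.Ok lh) (eb : TT lb = T) (eh : TT lh = T) (b0 : b ≠ 0)
    {hm r : ℝ → ℝ} {t p q Gm Dz jh D η ω lam : ℝ}
    (G : GapD lb lh T b hm r t p q Gm Dz jh D η ω) :
    |Pr.Gam lb t - Pr.Gam lh t + (hm t - (t - b * Pr.Gam lh t)) / b - r p| +
      (η + ω * |Gd lb p| + lam * |lvr 1 lb t - lvr 1 lh t|) ≤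
      7 * η + 2 * D + (7 * ω + 2 * Gm ^ 2) * (jh + (2 + 3 * C * Gm) * Dz) +
      ((7 * ω + 2 * Gm ^ 2) * (2 + 3 * C * Gm) + lam) * |lvr 1 lb t - lvr 1 lh t| +
      3 * C * (7 * ω + 2 * Gm ^ 2) *
        (|Sc48.Jf lh lb T t| + ∫ s in (0 : ℝ)..T, |Sc48.Jf lh lb T s|) := by
  have pq : p ≤ q := G.pt.trans G.tq
  have k := fun s hs => Gd_gap hC hA hN hb hh eb eh G.p0 G.qT G.len G.dz G.jh ⟨G.pt, G.tq⟩
    (s := s) hs
  have kp := k p ⟨le_rfl, pq⟩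
  have kq := k q ⟨pq, le_rfl⟩
  set κ := jh + (2 + 3 * C * Gm) * (|lvr 1 lb t - lvr 1 lh t| + Dz) +
    3 * C * (|Sc48.Jf lh lb T t| + ∫ s in (0 : ℝ)..T, |Sc48.Jf lh lb T s|) with hκ
  have w1 := mul_le_mul_of_nonneg_left kp G.ω0
  have w2 := mul_le_mul_of_nonneg_left kq G.ω0
  have n1 : 0 ≤ ω * |Gd lb p| := mul_nonneg G.ω0 (abs_nonneg _)
  have η0 := G.η0
  have a := gap_pt hC hA hN hb hh eb eh (φ := fun s => hm s / b - r p) (b := b)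
    (η := 2 * η + 2 * (ω * κ)) (ω := 0) (D := D) G.p0 G.qT G.len le_rfl G.dz G.jh
    (fun s hs => by simpa using G.osc s hs)
    (by
      have := G.rp
      rw [show Pr.Gam lb p - p / b + (hm p / b - r p) = Pr.Gam lb p - p / b + hm p / b - r p by ring]
      linarith)
    (by
      have a1 := abs_le.1 G.rq
      have a2 := abs_le.1 G.e1
      rw [abs_le]
      constructor <;> nlinarith [a1.1, a1.2, a2.1, a2.2]) ⟨G.pt, G.tq⟩
  rw [← hκ] at a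
  have e1 : Pr.Gam lb t - Pr.Gam lh t + (hm t - (t - b * Pr.Gam lh t)) / b - r p =
      Pr.Gam lb t - t / b + (hm t / b - r p) := by
    field_simp
    ring
  have e4 : (7 * ω + 2 * Gm ^ 2) * κ = (7 * ω + 2 * Gm ^ 2) * (jh + (2 + 3 * C * Gm) * Dz) +
      (7 * ω + 2 * Gm ^ 2) * (2 + 3 * C * Gm) * |lvr 1 lb t - lvr 1 lh t| +
      3 * C * (7 * ω + 2 * Gm ^ 2) *
        (|Sc48.Jf lh lb T t| + ∫ s in (0 : ℝ)..T, |Sc48.Jf lh lb T s|) := by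
    rw [hκ]; ring
  rw [e1]
  nlinarith

/-- the three coefficients of the fast part -/
def cA0 (C : ℝ) (Gm Dz jh D η ω : ℝ → ℝ) (t : ℝ) : ℝ :=
  7 * η t + 2 * D t + (7 * ω t + 2 * Gm t ^ 2) * (jh t + (2 + 3 * C * Gm t) * Dz t)
def cA1 (C : ℝ) (Gm ω lam : ℝ → ℝ) (t : ℝ) : ℝ :=
  (7 * ω t + 2 * Gm t ^ 2) * (2 + 3 * C * Gm t) + lam t
def cA2 (C : ℝ) (Gm ω : ℝ → ℝ) (t : ℝ) : ℝ := 3 * C * (7 * ω t + 2 * Gm t ^ 2)

/-- the raw mark term -/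
def yN (lh : List (ℝ × ℝ)) (b : ℝ) (σ h : ℕ → ℝ) (J : ℕ) (t : ℝ) : ℝ :=
  (stp h σ J t - (t - b * Pr.Gam lh t)) / b

/-- the clamped mark term -/
def HN (lb lh : List (ℝ × ℝ)) (b : ℝ) (σ h : ℕ → ℝ) (J : ℕ) (m Mx : ℝ → ℝ) (t : ℝ) : ℝ :=
  Zb9.two (m t) (Mx t) (lvr 1 lb t - lvr 1 lh t) (yN lh b σ h J t)

/-- **`Res` from node data**, two-sided clamp, with the size of the fast part -/
theorem res_nodes2 (hC : 0 ≤ C) (hA : HLip Pr.AA T C) (hN : HLip Pr.NN T C) {x σ h en on : ℕ → ℝ}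
    {J u v : ℕ} (Db : Zb9.Dat x σ J T) (hh : Pr.Ok lh) (eh : TT lh = T) (hθ : 0 < θ) (b0 : 0 < b)
    {Gn : ℕ → Prop} {l0 δ : ℝ} {Ω ϖ Gm Dz jh D η ω lam m Mx f ζ : ℝ → ℝ}
    (hlb : lb = Zb9.zl x σ J T)
    (N : Nodes lb lh b x σ h en on Gn J u v l0 δ Ω ϖ Gm Dz jh D η ω lam)
    (lϖ : LB T ϖ) (lm : LB T m) (lM : LB T Mx) (lf : LB T f)
    (nn : ∀ t, σ u < t → t < σ v → 0 ≤ ϖ t ∧ 0 ≤ m t ∧ 0 ≤ f t ∧ 0 ≤ ζ t ∧ m t ≤ Mx t)
    (fl : ∀ t, σ u < t → t < σ v → m t * (lvr 1 lb t - lvr 1 lh t) ^ 2 -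
      ζ t * |lvr 1 lb t - lvr 1 lh t| ≤ yN lh b σ h J t * (lvr 1 lb t - lvr 1 lh t))
    (num : ∀ t, σ u < t → t < σ v → Num θ (m t) (f t) (cA0 C Gm Dz jh D η ω t + ζ t)
      (cA1 C Gm ω lam t) (cA2 C Gm ω t)) :
    ∃ r1 r2 β : ℝ → ℝ, Res T (fun t => lvr 1 lb t - lvr 1 lh t)
      (fun t => Pr.Gam lb t - Pr.Gam lh t) (HN lb lh b σ h J m Mx) r1 r2 ϖ β
      (fun t => xi θ (m t) (f t) (∫ s in (0 : ℝ)..T, |Sc48.Jf lh lb T s|)
        (lvr 1 lb t - lvr 1 lh t) (Sc48.Jf lh lb T t)) (σ u) (σ v) ∧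
      (∀ k, u ≤ k → k ≤ v → Gn k → r2 (σ k) = resN lb b σ h k ∧
        β (σ k) = betN lb lh η ω lam (σ k)) ∧
      ∀ t, σ u ≤ t → t ≤ σ v → |r1 t| + β t ≤ cA0 C Gm Dz jh D η ω t +
        |HN lb lh b σ h J m Mx t - yN lh b σ h J t| +
        cA1 C Gm ω lam t * |lvr 1 lb t - lvr 1 lh t| + cA2 C Gm ω t *
          (|Sc48.Jf lh lb T t| + ∫ s in (0 : ℝ)..T, |Sc48.Jf lh lb T s|) := by
  have ob : Pr.Ok lb := hlb ▸ Db.ok
  have eb : TT lb = T := hlb ▸ Db.tt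
  have hT : 0 ≤ T := (Db.mem le_rfl).1.trans (Db.mem le_rfl).2
  have mb := Sc48.lvr_mono ob.1
  have cn : ∀ k, u ≤ k → k ≤ v → Gn k → Zb9.Cell σ J k (σ k) := fun k a c g =>
    Zb9.cell_node (c.trans N.vJ) (N.str k a c g)
  have zx : ∀ k, u ≤ k → k ≤ v → Gn k → lvr 1 lb (σ k) = x k := fun k a c g => by
    rw [hlb]; exact Db.lv_cell (Db.nn (c.trans N.vJ)) (cn k a c g)
  have hx : ∀ k, u ≤ k → k ≤ v → Gn k → stp h σ J (σ k) = h k := fun k a c g =>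
    (cn k a c g).stp Db.us h
  obtain ⟨I, M, mI, xI, hI⟩ := exists_net (σ := σ) N.uv N.gu N.gv
  set r : ℝ → ℝ := fun s => Pr.Gam lb s - s / b + stp h σ J s / b with hr
  have rn : ∀ k, u ≤ k → k ≤ v → Gn k → r (σ k) = resN lb b σ h k := fun k a c g => by
    simp only [hr, resN, hx k a c g]
  have ld : LB T fun t => lvr 1 lb t - lvr 1 lh t :=
    (LB.of_mono mb).sub (LB.of_mono (Sc48.lvr_mono hh.1))
  have lJ : LB T (Sc48.Jf lh lb T) := .of_cont (ld.tail (right_mem_Icc.mpr hT))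
  have l4 : LB T fun t => (lvr 1 lb t - lvr 1 lh t) ^ 4 := by simpa [← pow_mul] using ld.sq.sq
  have lG : LB T (Pr.Gam lh) := .of_cont (eh ▸ Pp.Ode3.Gam_cont (L0.ap_of_ok hh))
  have G : ∀ t, σ u ≤ t → t ≤ σ v → GapD lb lh T b (stp h σ J) r t (σ (I t)) (σ (M t)) (Gm t)
      (Dz t) (jh t) (D t) (η t) (ω t) := fun t a c => by
    obtain ⟨K, p, q⟩ := hI t a c
    obtain ⟨g1, g2, g3, g4, g5, g5', g6, g7, g8, g9⟩ := N.gap _ _ K t p q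
    have iv := K.ij.trans K.jv
    have uj := K.ui.trans K.ij
    have s0 : σ (I t) ≤ σ (M t) := p.trans q
    have x0 : x (I t) ≤ x (M t) := Db.ux.le K.ij (K.jv.trans N.vJ)
    have o0 := N.Ωm x0
    have o1 := mul_nonneg N.l00 (sub_nonneg.2 s0)
    have δ0 := N.δ0
    refine ⟨Db.nn (iv.trans N.vJ), p, q, (Db.mem (K.jv.trans N.vJ)).2, g1, g6.trans g7,
      by linarith, by rw [zx _ K.ui iv K.gi, zx _ uj K.jv K.gj]; exact g2, g3, fun s hs => ?_,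
      by simp only [hr, sub_self, abs_zero]; linarith,
      by simp only [hr, sub_self, abs_zero]; linarith, ?_⟩
    · have a1 := stp_mono σ N.hm hs.1
      have a2 := stp_mono σ N.hm hs.2
      rw [hx _ uj K.jv K.gj] at a2
      rw [← sub_div, abs_of_nonneg (div_nonneg (sub_nonneg.2 a1) b0.le), hx _ K.ui iv K.gi]
      exact (div_le_div_of_nonneg_right (by linarith) b0.le).trans g4
    · rw [rn _ K.ui iv K.gi, rn _ uj K.jv K.gj]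
      have := N.e1 _ _ K.ui K.ij K.jv K.gi K.gj
      nlinarith [mul_le_mul_of_nonneg_right g7 (abs_nonneg (Gd lb (σ (I t)))),
        mul_le_mul_of_nonneg_right g8 (abs_nonneg (Gd lb (σ (M t))))]
  have B := fun t (a : σ u ≤ t) (c : t ≤ σ v) =>
    bound_diff (lam := lam t) hC hA hN ob hh eb eh b0.ne' (G t a c)
  refine ⟨_, fun t => r (σ (I t)), fun t => η t + ω t * |Gd lb (σ (I t))| +
    lam t * |lvr 1 lb t - lvr 1 lh t|, Zb9.res_two (ζ := ζ) (y := yN lh b σ h J)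
    (r1 := fun t => Pr.Gam lb t - Pr.Gam lh t + yN lh b σ h J t - r (σ (I t)))
    ((Sc48.lvr_meas lb).sub (Sc48.lvr_meas lh)) lm lM ld
    (((LB.of_mono (stp_mono σ N.hm)).sub ((LB.of_cont continuousOn_id).sub
      ((LB.const b).mul lG))).div b) lϖ
    ((LB.const θ).mul ((((((LB.const 2).mul l4).add (((LB.const 2).mul lm).mul ld.sq)).add
      lJ.sq).add (LB.const _)).add lf)) (fun t _ _ => by ring) (fun t a c => (nn t a c).1)
    (fun s t a st c => ?_) (fun t a c => ⟨(nn t a c).2.1, (nn t a c).2.2.2.2⟩)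
    (fun t a c => (nn t a c).2.2.2.1) fl
    (fun t a c => xi_nn hθ.le (nn t a c).2.1 (nn t a c).2.2.1) (fun t a c => ?_),
    fun k a c g => ?_, fun t a c => ?_⟩
  · obtain ⟨K, p, q⟩ := hI s a (st.trans c)
    obtain ⟨K', p', q'⟩ := hI t (a.trans st) c
    obtain ⟨-, -, -, -, g5, g5', -, g7, -, g9⟩ := N.gap _ _ K s p q
    obtain ⟨-, -, -, -, k5, k5', -, k7, -, k9⟩ := N.gap _ _ K' t p' q'
    have iv := K.ij.trans K.jv
    have iv' := K'.ij.trans K'.jv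
    have e := N.e1 _ _ K.ui (mI s t a st) iv' K.gi K'.gi
    rw [rn _ K.ui iv K.gi, rn _ K'.ui iv' K'.gi]
    have a1 : Ω (x (I t)) ≤ Ω (lvr 1 lb t) := N.Ωm (zx _ K'.ui iv' K'.gi ▸ mb p')
    have a2 : Ω (lvr 1 lb s) ≤ Ω (x (M s)) := N.Ωm (zx _ (K.ui.trans K.ij) K.jv K.gj ▸ mb q)
    have a3 := abs_le.1 (N.o1 s a (st.trans c)).2
    have a4 := abs_le.1 (N.o1 t (a.trans st) c).2
    have a5 := N.o2 s t a st c
    have a6 := mul_le_mul_of_nonneg_left p' N.l00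
    have a7 := mul_le_mul_of_nonneg_left q N.l00
    have a8 := N.Ωm (Db.ux.le K'.ij (K'.jv.trans N.vJ))
    have a9 := mul_nonneg N.l00 (sub_nonneg.2 (p'.trans q'))
    have := N.δ0
    nlinarith [mul_le_mul_of_nonneg_right g7 (abs_nonneg (Gd lb (σ (I s)))),
      mul_le_mul_of_nonneg_right k7 (abs_nonneg (Gd lb (σ (I t)))), a3.1, a4.2]
  · refine pair_diff hC hA hN ob hh eb eh hθ b0.ne' (nn t a c).2.1 (N.o1 t a.le c.le).1
      (nn t a c).2.2.2.1 (G t a.le c.le) ?_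
    have := num t a c
    rwa [cA0, cA1, cA2, show ∀ p q r : ℝ, p + q + r = p + r + q from fun _ _ _ => by ring] at this
  · have a0 : σ u ≤ σ k := Db.us.le a (c.trans N.vJ)
    have a1 : σ k ≤ σ v := Db.us.le c N.vJ
    obtain ⟨K, p, q⟩ := hI (σ k) a0 a1
    have e : σ (I (σ k)) = σ k :=
      le_antisymm p (Db.us.le (xI _ k a c g le_rfl) ((K.ij.trans K.jv).trans N.vJ))
    simp only [e, betN]
    exact ⟨rn k a c g, trivial⟩
  · have := B t a c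
    have := abs_add_le (Pr.Gam lb t - Pr.Gam lh t + yN lh b σ h J t - r (σ (I t)))
      (HN lb lh b σ h J m Mx t - yN lh b σ h J t)
    simp only [cA0, cA1, cA2, HN, yN] at *
    linarith

/-- floor and square bound of the clamped term -/
theorem HN_floor {σ h : ℕ → ℝ} {J : ℕ} {m Mx : ℝ → ℝ} {t : ℝ} (hm : m t ≤ Mx t) :
    m t * (lvr 1 lb t - lvr 1 lh t) ^ 2 ≤ HN lb lh b σ h J m Mx t * (lvr 1 lb t - lvr 1 lh t) :=
  Zb9.two_floor hm _ _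

theorem HN_ceil {σ h : ℕ → ℝ} {J : ℕ} {m Mx : ℝ → ℝ} {t : ℝ} :
    HN lb lh b σ h J m Mx t * (lvr 1 lb t - lvr 1 lh t) ≤ Mx t * (lvr 1 lb t - lvr 1 lh t) ^ 2 := by
  rw [HN, Zb9.two, Zb9.up_mul]; exact min_le_left _ _

theorem HN_sq {σ h : ℕ → ℝ} {J : ℕ} {m Mx : ℝ → ℝ} {t M : ℝ} (h0 : 0 ≤ m t) (hm : m t ≤ Mx t)
    (hM : Mx t ≤ M) : HN lb lh b σ h J m Mx t ^ 2 ≤
      M * (HN lb lh b σ h J m Mx t * (lvr 1 lb t - lvr 1 lh t)) :=
  (Zb9.two_sq h0 hm _ _).trans (mul_le_mul_of_nonneg_right hM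
    ((mul_nonneg h0 (sq_nonneg _)).trans (HN_floor hm)))

/-- crude distance of the clamped term from the raw one -/
theorem HN_near {σ h : ℕ → ℝ} {J : ℕ} {m Mx : ℝ → ℝ} {t : ℝ} (h0 : 0 ≤ m t) (hm : m t ≤ Mx t) :
    |HN lb lh b σ h J m Mx t - yN lh b σ h J t| ≤
      |yN lh b σ h J t| + Mx t * |lvr 1 lb t - lvr 1 lh t| := by
  have a := Zb9.two_sq h0 hm (lvr 1 lb t - lvr 1 lh t) (yN lh b σ h J t)
  change HN lb lh b σ h J m Mx t ^ 2 ≤ Mx t * (HN lb lh b σ h J m Mx t * _) at a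
  have c : |HN lb lh b σ h J m Mx t| ≤ Mx t * |lvr 1 lb t - lvr 1 lh t| := by
    have M0 := h0.trans hm
    have e := le_abs_self (HN lb lh b σ h J m Mx t * (lvr 1 lb t - lvr 1 lh t))
    rw [abs_mul] at e
    rw [← sq_abs] at a
    by_contra hc
    nlinarith [mul_le_mul_of_nonneg_left e M0, mul_nonneg M0 (abs_nonneg (lvr 1 lb t - lvr 1 lh t)),
      not_le.1 hc]
  linarith [abs_sub (HN lb lh b σ h J m Mx t) (yN lh b σ h J t)]

/-- `Zn` from a `Res` with the clamped term -/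
theorem zn_of {c Ff Om a s : ℝ} {σ h : ℕ → ℝ} {J : ℕ} {m Mx f r1 r2 ϖ β : ℝ → ℝ} (hb : Pr.Ok lb)
    (hh : Pr.Ok lh) (R : Res T (fun t => lvr 1 lb t - lvr 1 lh t)
      (fun t => Pr.Gam lb t - Pr.Gam lh t) (HN lb lh b σ h J m Mx) r1 r2 ϖ β
      (fun t => xi θ (m t) (f t) (∫ s in (0 : ℝ)..T, |Sc48.Jf lh lb T s|)
        (lvr 1 lb t - lvr 1 lh t) (Sc48.Jf lh lb T t)) a s) (a0 : 0 ≤ a) (sT : s ≤ T) (hθ : 0 ≤ θ)
    (lm : LB T m) (lf : LB T f) (nn : ∀ t, a < t → t < s → 0 ≤ f t ∧ m t ≤ Mx t)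
    (hF : ∫ t in a..s, f t ≤ Ff) (om : ∀ x y, a ≤ x → x ≤ y → y ≤ s → (∫ t in x..y, ϖ t ^ 2) / c ≤
      Om + θ * ∫ t in x..y, (lvr 1 lb t - lvr 1 lh t) ^ 4) :
    Zn T c θ (lvr 1 lh) (lvr 1 lb) (fun t => Pr.Gam lb t - Pr.Gam lh t) (HN lb lh b σ h J m Mx)
      r1 r2 ϖ β m f a s 1 0 Ff Om := by
  have ld : LB T fun t => lvr 1 lb t - lvr 1 lh t :=
    (LB.of_mono (Sc48.lvr_mono hb.1)).sub (LB.of_mono (Sc48.lvr_mono hh.1))
  refine ⟨R, a0, sT, hθ, zero_le_one, lm, lf, fun t p q => (nn t p q).1, hF,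
    fun x y p q r => ?_, om⟩
  rw [one_mul, add_zero]
  exact int_mono (lm.mul ld.sq) (R.lH.mul ld) (a0.trans p) q (r.trans sT) fun t t0 t1 =>
    HN_floor (nn t (p.trans_lt t0) (t1.trans_le r)).2

end

end Crest.Agent.T156.Gap27
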