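import Crest.Agent.T156.TopL_27
import Crest.Agent.T156.CutN_93

/-!
Row 156 (helper93): nested cuts from node data.
-/

set_option autoImplicit false

namespace Crest.Agent.T156.Gap27

open MeasureTheory Set
open Crest.Agent.R164.GC Crest.Agent.R339.B Crest.Agent.R339.Var Crest.Agent.T157.Pf
open Crest.Agent.T156.L0 Crest.Agent.T156.Cut8 Crest.Agent.T156.Pp.Area50

noncomputable section

variable {lb lh : List (ℝ × ℝ)} {T c C b θ : ℝ}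

/-- the size of the fast residual on one gap -/
theorem bd_diff (hC : 0 ≤ C) (hA : HLip Pr.AA T C) (hN : HLip Pr.NN T C) (hb : Pr.Ok lb)
    (hh : Pr.Ok lh) (eb : TT lb = T) (eh : TT lh = T) (b0 : b ≠ 0)
    {hm r : ℝ → ℝ} {t p q Gm Dz jh D η ω lam : ℝ}
    (G : GapD lb lh T b hm r t p q Gm Dz jh D η ω) :
    |Pr.Gam lb t - Pr.Gam lh t + (hm t - (t - b * Pr.Gam lh t)) / b - r p| +
      (η + ω * |Gd lb p| + lam * |lvr 1 lb t - lvr 1 lh t|) ≤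
      7 * η + 2 * D + (7 * ω + 2 * Gm ^ 2) * (jh + (2 + 3 * C * Gm) * Dz) +
        ((7 * ω + 2 * Gm ^ 2) * (2 + 3 * C * Gm) + lam) * |lvr 1 lb t - lvr 1 lh t| +
        3 * C * (7 * ω + 2 * Gm ^ 2) *
          (|Sc48.Jf lh lb T t| + ∫ s in (0 : ℝ)..T, |Sc48.Jf lh lb T s|) := by
  have pq : p ≤ q := G.pt.trans G.tq
  have k := fun s hs => Gd_gap hC hA hN hb hh eb eh G.p0 G.qT G.len G.dz G.jh ⟨G.pt, G.tq⟩
    (s := s) hs
  have kp := k p ⟨le_rfl, pq⟩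
  have kq := k q ⟨pq, le_rfl⟩
  set κ := jh + (2 + 3 * C * Gm) * (|lvr 1 lb t - lvr 1 lh t| + Dz) +
    3 * C * (|Sc48.Jf lh lb T t| + ∫ s in (0 : ℝ)..T, |Sc48.Jf lh lb T s|) with hκ
  have w1 := mul_le_mul_of_nonneg_left kp G.ω0
  have w2 := mul_le_mul_of_nonneg_left kq G.ω0
  have n1 : 0 ≤ ω * |Gd lb p| := mul_nonneg G.ω0 (abs_nonneg _)
  have η0 := G.η0
  have a := gap_pt hC hA hN hb hh eb eh (φ := fun s => hm s / b - r p) (b := b)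
    (η := 2 * η + 2 * (ω * κ)) (ω := 0) (D := D) G.p0 G.qT G.len le_rfl G.dz G.jh
    (fun s hs => by simpa using G.osc s hs)
    (by
      have := G.rp
      rw [show Pr.Gam lb p - p / b + (hm p / b - r p) = Pr.Gam lb p - p / b + hm p / b - r p by ring]
      linarith)
    (by
      have a1 := abs_le.1 G.rq
      have a2 := abs_le.1 G.e1
      rw [abs_le]
      constructor <;> nlinarith [a1.1, a1.2, a2.1, a2.2]) ⟨G.pt, G.tq⟩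
  rw [← hκ] at a
  have e1 : Pr.Gam lb t - Pr.Gam lh t + (hm t - (t - b * Pr.Gam lh t)) / b - r p =
      Pr.Gam lb t - t / b + (hm t / b - r p) := by
    field_simp
    ring
  have e4 : (7 * ω + 2 * Gm ^ 2) * κ = (7 * ω + 2 * Gm ^ 2) * (jh + (2 + 3 * C * Gm) * Dz) +
      (7 * ω + 2 * Gm ^ 2) * (2 + 3 * C * Gm) * |lvr 1 lb t - lvr 1 lh t| +
      3 * C * (7 * ω + 2 * Gm ^ 2) *
        (|Sc48.Jf lh lb T t| + ∫ s in (0 : ℝ)..T, |Sc48.Jf lh lb T s|) := by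
    rw [hκ]; ring
  rw [e1]
  nlinarith

variable {x σ h en on : ℕ → ℝ} {J u v : ℕ} {Gn : ℕ → Prop} {l0 δ : ℝ}
  {Ω ϖ Gm Dz jh D η ω lam m Mx f ζ : ℝ → ℝ}

/-- the raw mark term -/
def yy (lh : List (ℝ × ℝ)) (b : ℝ) (σ h : ℕ → ℝ) (J : ℕ) (t : ℝ) : ℝ :=
  (stp h σ J t - (t - b * Pr.Gam lh t)) / b

/-- the clamped mark term -/
def H2 (lb lh : List (ℝ × ℝ)) (b : ℝ) (σ h : ℕ → ℝ) (J : ℕ) (m Mx : ℝ → ℝ) (t : ℝ) : ℝ :=
  Zb9.two (m t) (Mx t) (lvr 1 lb t - lvr 1 lh t) (yy lh b σ h J t)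

/-- the three coefficients of the size of the residual -/
def a0 (C : ℝ) (Gm Dz jh D η ω ζ : ℝ → ℝ) (t : ℝ) : ℝ :=
  7 * η t + 2 * D t + ζ t + (7 * ω t + 2 * Gm t ^ 2) * (jh t + (2 + 3 * C * Gm t) * Dz t)
def a1 (C : ℝ) (Gm ω lam : ℝ → ℝ) (t : ℝ) : ℝ :=
  (7 * ω t + 2 * Gm t ^ 2) * (2 + 3 * C * Gm t) + lam t
def a2 (C : ℝ) (Gm ω : ℝ → ℝ) (t : ℝ) : ℝ := 3 * C * (7 * ω t + 2 * Gm t ^ 2)

/-- bulk data of the energy method on `[σ u, σ v]` -/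
structure Bk (lb lh : List (ℝ × ℝ)) (T C b θ : ℝ) (x σ h en on : ℕ → ℝ) (Gn : ℕ → Prop)
    (J u v : ℕ) (l0 δ : ℝ) (Ω ϖ Gm Dz jh D η ω lam m Mx f ζ : ℝ → ℝ) : Prop where
  db : Zb9.Dat x σ J T
  hlb : lb = Zb9.zl x σ J T
  okh : Spl27.okT T lh
  θ0 : 0 < θ
  b0 : 0 < b
  N : Nodes lb lh b x σ h en on Gn J u v l0 δ Ω ϖ Gm Dz jh D η ω lam
  lϖ : LB T ϖ
  lm : LB T m
  lM : LB T Mx
  lf : LB T f
  nn : ∀ t, σ u < t → t < σ v → 0 ≤ ϖ t ∧ 0 ≤ m t ∧ 0 ≤ f t ∧ 0 ≤ ζ t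
  mM : ∀ t, σ u < t → t < σ v → m t ≤ Mx t
  fl : ∀ t, σ u < t → t < σ v → m t * (lvr 1 lb t - lvr 1 lh t) ^ 2 -
    ζ t * |lvr 1 lb t - lvr 1 lh t| ≤ yy lh b σ h J t * (lvr 1 lb t - lvr 1 lh t)
  num : ∀ t, σ u < t → t < σ v →
    Num θ (m t) (f t) (a0 C Gm Dz jh D η ω ζ t) (a1 C Gm ω lam t) (a2 C Gm ω t)

/-- **`Res` from node data**, two-sided clamp, with the size of the residual -/
theorem Bk.res (hC : 0 ≤ C) (hA : HLip Pr.AA T C) (hN : HLip Pr.NN T C)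
    (B : Bk lb lh T C b θ x σ h en on Gn J u v l0 δ Ω ϖ Gm Dz jh D η ω lam m Mx f ζ) :
    ∃ r1 r2 β : ℝ → ℝ, Res T (fun t => lvr 1 lb t - lvr 1 lh t)
      (fun t => Pr.Gam lb t - Pr.Gam lh t) (H2 lb lh b σ h J m Mx) r1 r2 ϖ β
      (fun t => xi θ (m t) (f t) (∫ s in (0 : ℝ)..T, |Sc48.Jf lh lb T s|)
        (lvr 1 lb t - lvr 1 lh t) (Sc48.Jf lh lb T t)) (σ u) (σ v) ∧
      (∀ k, u ≤ k → k ≤ v → Gn k → r2 (σ k) = resN lb b σ h k ∧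
        β (σ k) = betN lb lh η ω lam (σ k)) ∧
      ∀ t, σ u ≤ t → t ≤ σ v → |H2 lb lh b σ h J m Mx t - yy lh b σ h J t| ≤ ζ t →
        |r1 t| + β t ≤ a0 C Gm Dz jh D η ω ζ t + a1 C Gm ω lam t * |lvr 1 lb t - lvr 1 lh t| +
          a2 C Gm ω t * (|Sc48.Jf lh lb T t| + ∫ s in (0 : ℝ)..T, |Sc48.Jf lh lb T s|) := by
  obtain ⟨Db, hlb, ⟨hh, eh⟩, hθ, b0, N, lϖ, lm, lM, lf, nn, mM, fl, num⟩ := B
  have ob : Pr.Ok lb := hlb ▸ Db.ok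
  have eb : TT lb = T := hlb ▸ Db.tt
  have hT : 0 ≤ T := (Db.mem le_rfl).1.trans (Db.mem le_rfl).2
  have mb := Sc48.lvr_mono ob.1
  have cn : ∀ k, u ≤ k → k ≤ v → Gn k → Zb9.Cell σ J k (σ k) := fun k a c g =>
    Zb9.cell_node (c.trans N.vJ) (N.str k a c g)
  have zx : ∀ k, u ≤ k → k ≤ v → Gn k → lvr 1 lb (σ k) = x k := fun k a c g => by
    rw [hlb]; exact Db.lv_cell (Db.nn (c.trans N.vJ)) (cn k a c g)
  have hx : ∀ k, u ≤ k → k ≤ v → Gn k → stp h σ J (σ k) = h k := fun k a c g =>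
    (cn k a c g).stp Db.us h
  obtain ⟨I, M, mI, xI, hI⟩ := exists_net (σ := σ) N.uv N.gu N.gv
  set r : ℝ → ℝ := fun s => Pr.Gam lb s - s / b + stp h σ J s / b with hr
  have rn : ∀ k, u ≤ k → k ≤ v → Gn k → r (σ k) = resN lb b σ h k := fun k a c g => by
    simp only [hr, resN, hx k a c g]
  have ld : LB T fun t => lvr 1 lb t - lvr 1 lh t :=
    (LB.of_mono mb).sub (LB.of_mono (Sc48.lvr_mono hh.1))
  have lJ : LB T (Sc48.Jf lh lb T) := .of_cont (ld.tail (right_mem_Icc.mpr hT))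
  have l4 : LB T fun t => (lvr 1 lb t - lvr 1 lh t) ^ 4 := by simpa [← pow_mul] using ld.sq.sq
  have lG : LB T (Pr.Gam lh) := .of_cont (eh ▸ Pp.Ode3.Gam_cont (L0.ap_of_ok hh))
  have G : ∀ t, σ u ≤ t → t ≤ σ v → GapD lb lh T b (stp h σ J) r t (σ (I t)) (σ (M t)) (Gm t)
      (Dz t) (jh t) (D t) (η t) (ω t) := fun t a c => by
    obtain ⟨K, p, q⟩ := hI t a c
    obtain ⟨g1, g2, g3, g4, g5, g5', g6, g7, g8, g9⟩ := N.gap _ _ K t p q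
    have iv := K.ij.trans K.jv
    have uj := K.ui.trans K.ij
    have s0 : σ (I t) ≤ σ (M t) := p.trans q
    have x0 : x (I t) ≤ x (M t) := Db.ux.le K.ij (K.jv.trans N.vJ)
    have o0 := N.Ωm x0
    have o1 := mul_nonneg N.l00 (sub_nonneg.2 s0)
    have δ0 := N.δ0
    refine ⟨Db.nn (iv.trans N.vJ), p, q, (Db.mem (K.jv.trans N.vJ)).2, g1, g6.trans g7,
      by linarith, by rw [zx _ K.ui iv K.gi, zx _ uj K.jv K.gj]; exact g2, g3, fun s hs => ?_,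
      by simp only [hr, sub_self, abs_zero]; linarith,
      by simp only [hr, sub_self, abs_zero]; linarith, ?_⟩
    · have a1 := stp_mono σ N.hm hs.1
      have a2 := stp_mono σ N.hm hs.2
      rw [hx _ uj K.jv K.gj] at a2
      rw [← sub_div, abs_of_nonneg (div_nonneg (sub_nonneg.2 a1) b0.le), hx _ K.ui iv K.gi]
      exact (div_le_div_of_nonneg_right (by linarith) b0.le).trans g4
    · rw [rn _ K.ui iv K.gi, rn _ uj K.jv K.gj]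
      have := N.e1 _ _ K.ui K.ij K.jv K.gi K.gj
      nlinarith [mul_le_mul_of_nonneg_right g7 (abs_nonneg (Gd lb (σ (I t)))),
        mul_le_mul_of_nonneg_right g8 (abs_nonneg (Gd lb (σ (M t))))]
  refine ⟨_, fun t => r (σ (I t)), fun t => η t + ω t * |Gd lb (σ (I t))| +
    lam t * |lvr 1 lb t - lvr 1 lh t|, Zb9.res_two (ζ := ζ) (M := Mx) (y := yy lh b σ h J)
    (r1 := fun t => Pr.Gam lb t - Pr.Gam lh t + (stp h σ J t - (t - b * Pr.Gam lh t)) / b -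
      r (σ (I t)))
    ((Sc48.lvr_meas lb).sub (Sc48.lvr_meas lh)) lm lM ld
    (((LB.of_mono (stp_mono σ N.hm)).sub ((LB.of_cont continuousOn_id).sub
      ((LB.const b).mul lG))).div b) lϖ
    ((LB.const θ).mul ((((((LB.const 2).mul l4).add (((LB.const 2).mul lm).mul ld.sq)).add
      lJ.sq).add (LB.const _)).add lf)) (fun t _ _ => by unfold yy; ring)
    (fun t a c => (nn t a c).1)
    (fun s t a st c => ?_) (fun t a c => ⟨(nn t a c).2.1, mM t a c⟩)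
    (fun t a c => (nn t a c).2.2.2) fl
    (fun t a c => xi_nn hθ.le (nn t a c).2.1 (nn t a c).2.2.1) (fun t a c => ?_),
    fun k a c g => ?_, fun t a c hz => ?_⟩
  · obtain ⟨K, p, q⟩ := hI s a (st.trans c)
    obtain ⟨K', p', q'⟩ := hI t (a.trans st) c
    obtain ⟨-, -, -, -, g5, g5', -, g7, -, g9⟩ := N.gap _ _ K s p q
    obtain ⟨-, -, -, -, k5, k5', -, k7, -, k9⟩ := N.gap _ _ K' t p' q'
    have iv := K.ij.trans K.jv
    have iv' := K'.ij.trans K'.jv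
    have e := N.e1 _ _ K.ui (mI s t a st) iv' K.gi K'.gi
    rw [rn _ K.ui iv K.gi, rn _ K'.ui iv' K'.gi]
    have a1 : Ω (x (I t)) ≤ Ω (lvr 1 lb t) := N.Ωm (zx _ K'.ui iv' K'.gi ▸ mb p')
    have a2 : Ω (lvr 1 lb s) ≤ Ω (x (M s)) := N.Ωm (zx _ (K.ui.trans K.ij) K.jv K.gj ▸ mb q)
    have a3 := abs_le.1 (N.o1 s a (st.trans c)).2
    have a4 := abs_le.1 (N.o1 t (a.trans st) c).2
    have a5 := N.o2 s t a st c
    have a6 := mul_le_mul_of_nonneg_left p' N.l00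
    have a7 := mul_le_mul_of_nonneg_left q N.l00
    have a8 := N.Ωm (Db.ux.le K'.ij (K'.jv.trans N.vJ))
    have a9 := mul_nonneg N.l00 (sub_nonneg.2 (p'.trans q'))
    have := N.δ0
    nlinarith [mul_le_mul_of_nonneg_right g7 (abs_nonneg (Gd lb (σ (I s)))),
      mul_le_mul_of_nonneg_right k7 (abs_nonneg (Gd lb (σ (I t)))), a3.1, a4.2]
  · exact pair_diff hC hA hN ob hh eb eh hθ b0.ne' (nn t a c).2.1 (N.o1 t a.le c.le).1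
      (nn t a c).2.2.2 (G t a.le c.le) (num t a c)
  · have a0 : σ u ≤ σ k := Db.us.le a (c.trans N.vJ)
    have a1 : σ k ≤ σ v := Db.us.le c N.vJ
    obtain ⟨K, p, q⟩ := hI (σ k) a0 a1
    have e : σ (I (σ k)) = σ k :=
      le_antisymm p (Db.us.le (xI _ k a c g le_rfl) ((K.ij.trans K.jv).trans N.vJ))
    simp only [e]
    exact ⟨rn k a c g, rfl⟩
  · have k := bd_diff (lam := lam t) hC hA hN ob hh eb eh b0.ne' (G t a c)
    have k2 := abs_add_le (Pr.Gam lb t - Pr.Gam lh t + (stp h σ J t - (t - b * Pr.Gam lh t)) / b -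
      r (σ (I t))) (H2 lb lh b σ h J m Mx t - yy lh b σ h J t)
    unfold a0 a1 a2
    exact le_trans (add_le_add_left k2 _) (by linarith)

/-- the clamp is within `ζ` of the raw term -/
theorem two_rep {m M u y μ ζ : ℝ} (h0 : 0 ≤ m) (h1 : m ≤ μ) (h2 : μ ≤ M) (h : |y - μ * u| ≤ ζ) :
    |Zb9.two m M u y - y| ≤ ζ := by
  obtain ⟨a, b⟩ := abs_le.1 h
  refine Zb9.two_near ((abs_nonneg _).trans h) (h1.trans h2)
    (fun c => by nlinarith) (fun c => by nlinarith) ?_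
  have := abs_add_le (y - μ * u) (μ * u)
  rw [sub_add_cancel, abs_mul, abs_of_nonneg (h0.trans h1)] at this
  nlinarith [abs_nonneg u]

/-- a margin zone `[p, q]` in node form -/
structure Mn (lb lh : List (ℝ × ℝ)) (T C b : ℝ) (σ h : ℕ → ℝ) (J : ℕ)
    (Gm Dz jh D η ω lam m Mx ζ : ℝ → ℝ) (p q γ M η' c1 C1 δ' : ℝ) : Prop where
  lo : ∀ t t', p ≤ t → t ≤ t' → t' ≤ q → c1 * (t' - t) - δ' ≤ lvr 1 lh t' - lvr 1 lh t
  crude : ∀ t, p ≤ t → t ≤ q → |lvr 1 lb t - lvr 1 lh t| + δ' ≤ 2 * C1 * γ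
  rep : ∀ t, p ≤ t → t < q → 0 ≤ m t ∧ Mx t ≤ M ∧ ∃ μ, m t ≤ μ ∧ μ ≤ Mx t ∧
    |yy lh b σ h J t - μ * (lvr 1 lb t - lvr 1 lh t)| ≤ ζ t
  sz : ∀ t, p ≤ t → t < q → a0 C Gm Dz jh D η ω ζ t + a1 C Gm ω lam t * |lvr 1 lb t - lvr 1 lh t| +
    a2 C Gm ω t * (|Sc48.Jf lh lb T t| + ∫ s in (0 : ℝ)..T, |Sc48.Jf lh lb T s|) ≤ η'

theorem Mn.mz {p q γ M η' c1 C1 δ' : ℝ} {e : ℝ → ℝ}
    (g : Mn lb lh T C b σ h J Gm Dz jh D η ω lam m Mx ζ p q γ M η' c1 C1 δ')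
    (he : ∀ t, p ≤ t → t < q → |H2 lb lh b σ h J m Mx t - yy lh b σ h J t| ≤ ζ t →
      e t ≤ a0 C Gm Dz jh D η ω ζ t + a1 C Gm ω lam t * |lvr 1 lb t - lvr 1 lh t| +
        a2 C Gm ω t * (|Sc48.Jf lh lb T t| + ∫ s in (0 : ℝ)..T, |Sc48.Jf lh lb T s|)) :
    Mz (lvr 1 lh) (lvr 1 lb) (H2 lb lh b σ h J m Mx) e p q γ M η' c1 C1 δ' := by
  refine ⟨g.lo, g.crude, fun t a c => ?_, fun t a c => ?_⟩
  · obtain ⟨m0, m1, μ, m2, m3, -⟩ := g.rep t a c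
    refine (Zb9.two_sq m0 (m2.trans m3) _ _).trans (mul_le_mul_of_nonneg_right m1 ?_)
    exact (mul_nonneg m0 (sq_nonneg _)).trans (Zb9.two_floor (m2.trans m3) _ _)
  · obtain ⟨m0, -, μ, m2, m3, m4⟩ := g.rep t a c
    exact (he t a c (two_rep m0 m2 m3 m4)).trans (g.sz t a c)

theorem Bk.okb (B : Bk lb lh T C b θ x σ h en on Gn J u v l0 δ Ω ϖ Gm Dz jh D η ω lam m Mx f ζ) :
    Spl27.okT T lb := B.hlb ▸ B.db.okT

theorem Bk.ld (B : Bk lb lh T C b θ x σ h en on Gn J u v l0 δ Ω ϖ Gm Dz jh D η ω lam m Mx f ζ) :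
    LB T fun t => lvr 1 lb t - lvr 1 lh t :=
  (LB.of_mono (Sc48.lvr_mono B.okb.1.1)).sub (LB.of_mono (Sc48.lvr_mono B.okh.1.1))

theorem Bk.lH (B : Bk lb lh T C b θ x σ h en on Gn J u v l0 δ Ω ϖ Gm Dz jh D η ω lam m Mx f ζ) :
    LB T (H2 lb lh b σ h J m Mx) :=
  Zb9.LB_two ((Sc48.lvr_meas lb).sub (Sc48.lvr_meas lh)) B.lm B.lM B.ld
    (((LB.of_mono (stp_mono σ B.N.hm)).sub ((LB.of_cont continuousOn_id).sub ((LB.const b).mul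
      (.of_cont (B.okh.2 ▸ Pp.Ode3.Gam_cont (L0.ap_of_ok B.okh.1)))))).div b)

/-- floor and ceiling of the mass term -/
theorem Bk.mass (B : Bk lb lh T C b θ x σ h en on Gn J u v l0 δ Ω ϖ Gm Dz jh D η ω lam m Mx f ζ)
    {p q : ℝ} (hp : σ u ≤ p) (hpq : p ≤ q) (hq : q ≤ σ v) :
    (∫ t in p..q, m t * (lvr 1 lb t - lvr 1 lh t) ^ 2 ≤
      ∫ t in p..q, H2 lb lh b σ h J m Mx t * (lvr 1 lb t - lvr 1 lh t)) ∧
    ∫ t in p..q, H2 lb lh b σ h J m Mx t * (lvr 1 lb t - lvr 1 lh t) ≤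
      ∫ t in p..q, Mx t * (lvr 1 lb t - lvr 1 lh t) ^ 2 := by
  have p0 := (B.db.nn (B.N.uv.trans B.N.vJ)).trans hp
  have qT := hq.trans (B.db.mem B.N.vJ).2
  exact ⟨int_mono (B.lm.mul B.ld.sq) (B.lH.mul B.ld) p0 hpq qT fun t a c =>
      Zb9.two_floor (B.mM t (by linarith) (by linarith)) _ _,
    int_mono (B.lH.mul B.ld) (B.lM.mul B.ld.sq) p0 hpq qT fun t _ _ => by
      unfold H2 Zb9.two; rw [Zb9.up_mul]; exact min_le_left _ _⟩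

theorem Bk.zn (B : Bk lb lh T C b θ x σ h en on Gn J u v l0 δ Ω ϖ Gm Dz jh D η ω lam m Mx f ζ)
    {r1 r2 β : ℝ → ℝ} (R : Res T (fun t => lvr 1 lb t - lvr 1 lh t)
      (fun t => Pr.Gam lb t - Pr.Gam lh t) (H2 lb lh b σ h J m Mx) r1 r2 ϖ β
      (fun t => xi θ (m t) (f t) (∫ s in (0 : ℝ)..T, |Sc48.Jf lh lb T s|)
        (lvr 1 lb t - lvr 1 lh t) (Sc48.Jf lh lb T t)) (σ u) (σ v)) {p q Ff Om : ℝ}
    (hp : σ u ≤ p) (hq : q ≤ σ v) (hF : ∫ t in p..q, f t ≤ Ff)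
    (om : ∀ y y', p ≤ y → y ≤ y' → y' ≤ q → (∫ t in y..y', ϖ t ^ 2) / c ≤
      Om + θ * ∫ t in y..y', (lvr 1 lb t - lvr 1 lh t) ^ 4) :
    Zn T c θ (lvr 1 lh) (lvr 1 lb) (fun t => Pr.Gam lb t - Pr.Gam lh t) (H2 lb lh b σ h J m Mx)
      r1 r2 ϖ β m f p q 1 0 Ff Om :=
  ⟨R.sub hp hq, (B.db.nn (B.N.uv.trans B.N.vJ)).trans hp, hq.trans (B.db.mem B.N.vJ).2, B.θ0.le,
    zero_le_one, B.lm, B.lf, fun t a c => (B.nn t (by linarith) (by linarith)).2.2.1, hF,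
    fun y y' a c d => by
      rw [one_mul, add_zero]; exact (B.mass (hp.trans a) c (d.trans hq)).1, om⟩

variable {p p' q' q γ g L M η' c1 C1 δ' μ E0 Ff Om ε r X : ℝ} {K : ℕ}

/-- **nested two-sided cuts from node data** -/
theorem Bk.nest2 (F : Fr T c C (Spl27.okT T) (lvr 1) Pr.Gam Pr.GG) (hA : HLip Pr.AA T C)
    (hN : HLip Pr.NN T C)
    (B : Bk lb lh T C b θ x σ h en on Gn J u v l0 δ Ω ϖ Gm Dz jh D η ω lam m Mx f ζ)
    (hp : σ u ≤ p) (hq : q ≤ σ v) (hF : ∫ t in p..q, f t ≤ Ff)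
    (om : ∀ y y', p ≤ y → y ≤ y' → y' ≤ q → (∫ t in y..y', ϖ t ^ 2) / c ≤
      Om + θ * ∫ t in y..y', (lvr 1 lb t - lvr 1 lh t) ^ 4)
    (n : Nn T c γ g L M η' c1 C1 δ' μ E0)
    (lo : Mn lb lh T C b σ h J Gm Dz jh D η ω lam m Mx ζ p p' γ M η' c1 C1 δ')
    (hi : Mn lb lh T C b σ h J Gm Dz jh D η ω lam m Mx ζ q' q γ M η' c1 C1 δ')
    (up : ∀ s t, p ≤ s → s ≤ t → t ≤ q → lvr 1 lh t - lvr 1 lh s ≤ C1 * (t - s) + δ')
    (crude : ∀ t, p ≤ t → t ≤ q → |lvr 1 lb t - lvr 1 lh t| + δ' ≤ 2 * C1 * γ) (hpq : p' ≤ q')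
    {len : ℝ} (hl : q - p ≤ len) (hε : (∫ t in (0 : ℝ)..p', |Sc48.Jf lh lb T t|) +
      (∫ t in q'..T, |Sc48.Jf lh lb T t|) ≤ ε) (hK : p + K * (γ + g + L) ≤ p')
    (hK' : q' ≤ q - K * (γ + g + L))
    (hE : c / 2 * (∫ t in p..q, Sc48.Jf lh lb T t ^ 2) +
      (∫ t in p..q, Mx t * (lvr 1 lb t - lvr 1 lh t) ^ 2) / 2 ≤ E0)
    (hr : rhoN T c C θ 1 c1 C1 L g len * (2 / c) ≤ r) (hr0 : 0 ≤ r) (hr2 : r ≤ 1 / 2)
    (hX : srcN c C θ 0 Ff Om M η' c1 L len ε + rhoN T c C θ 1 c1 C1 L g len * μ ≤ X)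
    (X0 : 0 ≤ X) : c / 2 * (∫ t in p'..q', Sc48.Jf lh lb T t ^ 2) +
      (∫ t in p'..q', m t * (lvr 1 lb t - lvr 1 lh t) ^ 2) / 2 ≤ 2 * X + r ^ K * E0 := by
  obtain ⟨r1, r2, β, R, -, sz⟩ := B.res F.C_nn hA hN
  have K0 : 0 ≤ (K : ℝ) * (γ + g + L) := by
    have := n.γ0; have := n.g0; have := n.L0; positivity
  have k := F.nest2 B.okb B.okh (B.zn R hp hq hF om) n
    (lo.mz fun t a d => sz t (by linarith) (by linarith))
    (hi.mz fun t a d => sz t (by linarith) (by linarith)) up crude hpq hl hε hK hK'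
    (le_trans (add_le_add_right (div_le_div_of_nonneg_right
      (B.mass hp (by linarith) hq).2 zero_le_two) _) hE) hr hr0 hr2 hX X0
  exact le_trans (add_le_add_right (div_le_div_of_nonneg_right
    (B.mass (by linarith) hpq (by linarith)).1 zero_le_two) _) k

/-- **nested lower cuts from node data**; `ext` is the continuation above `σ v` -/
theorem Bk.nest (F : Fr T c C (Spl27.okT T) (lvr 1) Pr.Gam Pr.GG) (hA : HLip Pr.AA T C)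
    (hN : HLip Pr.NN T C)
    (B : Bk lb lh T C b θ x σ h en on Gn J u v l0 δ Ω ϖ Gm Dz jh D η ω lam m Mx f ζ)
    (hp : σ u ≤ p) (hF : ∫ t in p..σ v, f t ≤ Ff)
    (om : ∀ y y', p ≤ y → y ≤ y' → y' ≤ σ v → (∫ t in y..y', ϖ t ^ 2) / c ≤
      Om + θ * ∫ t in y..y', (lvr 1 lb t - lvr 1 lh t) ^ 4)
    (n : Nn T c γ g L M η' c1 C1 δ' μ E0)
    (lo : Mn lb lh T C b σ h J Gm Dz jh D η ω lam m Mx ζ p p' γ M η' c1 C1 δ') {s' : ℝ}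
    (hs : σ v ≤ s') (hT : s' ≤ T) (hp' : p' + γ ≤ σ v)
    (up : ∀ s t, p ≤ s → s ≤ t → t ≤ s' → lvr 1 lh t - lvr 1 lh s ≤ C1 * (t - s) + δ')
    (h1 : x v ≤ lvr 1 lh s' + δ') (hε : ∫ t in (0 : ℝ)..p', |Sc48.Jf lh lb T t| ≤ ε)
    {θ1 P0 : ℝ} {Q : ℝ → Prop}
    (ext : ∀ (A E : ℝ) (H' r1' r2' ω' β' ξ' : ℝ → ℝ), p ≤ A → A ≤ p' →
      (∫ t in A..T, Sc48.Jf lh lb T t ^ 2) + (∫ t in (0 : ℝ)..A, |Sc48.Jf lh lb T t|) ^ 2 ≤ E →
      Res T (fun t => lvr 1 lb t - lvr 1 lh t) (fun t => Pr.Gam lb t - Pr.Gam lh t)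
        H' r1' r2' ω' β' ξ' A (σ v) →
      r2' (σ v) = resN lb b σ h v → β' (σ v) = betN lb lh η ω lam (σ v) → ∃ Y, 0 ≤ Y ∧ Q Y ∧
        ExtA T (fun t => lvr 1 lb t - lvr 1 lh t) (fun t => Pr.Gam lb t - Pr.Gam lh t)
          H' r1' ω' β' ξ' A (σ v) T (θ1 * E + Y / 4 + P0) Y)
    (hK : p + (K + 1) * (γ + g + L) ≤ p')
    (hE : c / 2 * (∫ t in p..T, Sc48.Jf lh lb T t ^ 2) +
      (∫ t in p..σ v, Mx t * (lvr 1 lb t - lvr 1 lh t) ^ 2) / 2 ≤ E0)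
    (hr : (rhoN T c C θ 1 c1 C1 L g T + θ1) * (2 / c) ≤ r) (hr0 : 0 ≤ r) (hr2 : r ≤ 1 / 2)
    (hX : srcN c C θ 0 Ff Om M η' c1 L T ε + θ1 * ε ^ 2 + P0 +
      (rhoN T c C θ 1 c1 C1 L g T + θ1) * μ ≤ X) (X0 : 0 ≤ X) :
    ∃ Y, 0 ≤ Y ∧ Q Y ∧ c / 2 * (∫ t in p'..T, Sc48.Jf lh lb T t ^ 2) +
      (∫ t in p'..σ v, m t * (lvr 1 lb t - lvr 1 lh t) ^ 2) / 2 + Y / 4 ≤
        2 * X + r ^ (K + 1) * E0 := by
  obtain ⟨r1, r2, β, R, e, sz⟩ := B.res F.C_nn hA hN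
  have γ0 := n.γ0
  have K0 : 0 ≤ ((K : ℝ) + 1) * (γ + g + L) := by
    have := n.g0; have := n.L0; positivity
  obtain ⟨v1, v2⟩ := e v B.N.uv le_rfl B.N.gv
  have zv : lvr 1 lb (σ v) = x v := by
    rw [B.hlb]
    exact B.db.lv_cell (B.db.nn B.N.vJ) (Zb9.cell_node B.N.vJ (B.N.str v B.N.uv le_rfl B.N.gv))
  obtain ⟨Y, Y0, hQ, k⟩ := F.nest B.okb B.okh (B.zn R hp le_rfl hF om) n
    (lo.mz fun t a d => sz t (by linarith) (by linarith)) hs hT hp' up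
    (fun t ht => ((F.mono lb B.okb ht.le).trans_eq zv).trans h1) hε (Q := Q) (θ1 := θ1) (P0 := P0)
    (fun A E a d hE => ext A E _ _ _ _ _ _ a d hE (R.sub (hp.trans a) le_rfl) v1 v2) hK
    (le_trans (add_le_add_right (div_le_div_of_nonneg_right
      (B.mass hp (by linarith) le_rfl).2 zero_le_two) _) hE) hr hr0 hr2 hX X0
  exact ⟨Y, Y0, hQ, le_trans (add_le_add_left (add_le_add_right (div_le_div_of_nonneg_right
    (B.mass (by linarith) (by linarith) le_rfl).1 zero_le_two) _) _) k⟩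

end

end Crest.Agent.T156.Gap27
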