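import Crest.Agent.T156.NxA_43

/-!
# Row 156, R1: the lines of `NX` on `Φ = n^{c/4000} PhG`, `δ = n^{-c/4000}` (helper43)
-/

set_option autoImplicit false
set_option linter.all false

noncomputable section

namespace Crest.Agent.T156.Alt

open Real Set

namespace Reg

variable {β c0 C0 : ℝ} {A : ℕ} {c η K : ℝ} {p : Pm} (H : Reg β c0 C0 A c η K p) {σ t E : ℝ}
include H

/-- above `θ n^{1/3} = κ⁴` the energy is at most `s² n^{-1/3}` -/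
theorem lg_win43 (hη : 10000 * η ≤ c) (M : p.MemG σ) (E1 : 1 ≤ E)
    (E2 : E ≤ (p.n : ℝ) ^ (c / 1000)) (w : -(4 * c) ≤ logb p.n (p.muG σ) + 1 / 3) :
    logb p.n (p.PhG E σ) ≤ 2 * logb p.n p.s - 1 / 3 + η := by
  have E0 : 0 < E := by linarith
  have a3 := H.lg_nn E1
  have a4 := (H.lg_mono E0 E2).trans_eq (H.lg_rp _)
  obtain ⟨u1, u2, u3⟩ := H.lg_muG66 M
  obtain ⟨s1, s2⟩ := H.lg_s
  obtain ⟨-, -, -, y4⟩ := H.lg_yS M E0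
  obtain ⟨-, p4⟩ := H.lg_PhG M E0
  have l1 := H.lg_laG M
  have t1 := H.lg_rtG (σ := σ) E0
  have t3 := min_le_right (logb p.n (p.yG E σ)) 0
  have r1 := H.lg_r
  have c0 := H.c_pos
  have c1 := H.c_le
  have η0 := H.η_pos
  rcases p4 with p4 | p4 | p4 | p4
  · rcases y4 with y4 | y4 | ⟨y4, y5⟩ <;> linarith
  · linarith
  · rcases l1 with ⟨l1, l2⟩ | ⟨l0, l1, l2⟩ | ⟨l0, l1, l2⟩ | ⟨l1, l2⟩ <;> linarith
  · linarith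

omit H in
theorem oct_l (o : p.OctR σ t) : p.MemG σ := ⟨o.1, o.2.1.trans o.2.2.2⟩
omit H in
theorem oct_r (o : p.OctR σ t) : p.MemG t := ⟨o.1.trans o.2.1, o.2.2.2⟩

/-- the masses along an octave -/
theorem lg_oct43 (o : p.OctR σ t) : logb p.n (p.muG σ) ≤ logb p.n (p.muG t) ∧
    logb p.n (p.muG t) ≤ logb p.n (p.muG σ) + η := by
  have m1 := H.muG_pos (oct_l o)
  have m2 := H.muG_pos (oct_r o)
  have a1 := H.muG_oct (H.sgG_pos (oct_r o)) (σ' := σ) le_rfl (by linarith [o.2.1])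
  have a2 := H.lg_mono m2 (H.muG_oct (H.sgG_pos (oct_l o)) (σ' := t) one_le_two o.2.2.1)
  rw [logb_mul two_ne_zero m1.ne'] at a2
  exact ⟨H.lg_mono m1 (by linarith), by linarith [H.lg_two66.2]⟩

/-- the static marks along an octave -/
theorem lg_la43 (o : p.OctR σ t) : 2 * logb p.n (p.laG σ) ≤ 2 * logb p.n (p.laG t) + η ∧
    2 * logb p.n (p.laG t) ≤ 2 * logb p.n (p.laG σ) ∧
    1 / 5 ≤ 2 * logb p.n (p.laG σ) + 1 + logb p.n (p.muG σ) := by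
  obtain ⟨a1, a2⟩ := H.lg_oct43 o
  obtain ⟨u1, u2, u3⟩ := H.lg_muG66 (oct_l o)
  obtain ⟨x1, x2⟩ := H.lg_sgG (oct_l o)
  have c0 := H.c_pos
  have c1 := H.c_le
  have η0 := H.η_pos
  refine ⟨?_, ?_, ?_⟩
  · rcases H.lg_laG (oct_l o) with ⟨l1, l2⟩ | ⟨l0, l1, l2⟩ | ⟨l0, l1, l2⟩ | ⟨l1, l2⟩ <;>
    rcases H.lg_laG (oct_r o) with ⟨k1, k2⟩ | ⟨k0, k1, k2⟩ | ⟨k0, k1, k2⟩ | ⟨k1, k2⟩ <;> linarith
  · rcases H.lg_laG (oct_l o) with ⟨l1, l2⟩ | ⟨l0, l1, l2⟩ | ⟨l0, l1, l2⟩ | ⟨l1, l2⟩ <;>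
    rcases H.lg_laG (oct_r o) with ⟨k1, k2⟩ | ⟨k0, k1, k2⟩ | ⟨k0, k1, k2⟩ | ⟨k1, k2⟩ <;> linarith
  · rcases H.lg_laG (oct_l o) with ⟨l1, l2⟩ | ⟨l0, l1, l2⟩ | ⟨l0, l1, l2⟩ | ⟨l1, l2⟩ <;>
    rcases u1 with u1 | u1 <;> linarith

/-- `NX.la`, first half -/
theorem la_Ph43 (hη : 10000 * η ≤ c) (o : p.OctR σ t) (E0 : 0 < E) :
    p.laG σ ^ 2 ≤ (p.n : ℝ) ^ (c / 4000) * p.PhG E t := by
  have a0 := H.laG0 (oct_l o)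
  have a1 := H.PhG0 (oct_r o) E0
  have a2 := H.N0
  have b1 := (H.lg_la43 o).1
  have b2 := (H.lg_PhG (oct_r o) E0).1.2.2.1
  have c0 := H.c_pos
  refine H.le_of_lg (by positivity) (by positivity) ?_
  lg_norm
  rw [H.lg_n]
  linarith

/-- the lines of `NX` on `Λ₀ = n^{c/200} √Pt / la` -/
theorem lam43 (o : p.OctR σ t) {Pt : ℝ} (h1 : p.laG σ ^ 2 ≤ Pt)
    (h2 : Pt ≤ (p.n : ℝ) ^ c * p.s ^ 2 * p.laG σ ^ 2) (hc : c ≤ 1 / 1000) :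
    (p.n : ℝ) ^ (c / 200) * (√Pt / p.laG σ) ≤ (p.n : ℝ) ^ ((1 : ℝ) / 18) ∧
    Pt ≤ ((p.n : ℝ) ^ (c / 200) * (√Pt / p.laG σ) * p.laG σ) ^ 2 ∧
    (p.n : ℝ) ^ (c / 200) * (√Pt / p.laG σ) / (p.n * p.muG t) ≤ Pt ∧
    (p.n : ℝ) ^ (c / 200) ≤ (p.n : ℝ) ^ (c / 200) * (√Pt / p.laG σ) := by
  have a0 := H.laG0 (oct_l o)
  have a1 : 0 < Pt := (pow_pos a0 2).trans_le h1
  have a2 := H.N0
  have a3 := H.s0
  have a4 := H.muG_pos (oct_r o)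
  have b1 := H.lg_mono (by positivity) h1
  have b2 := H.lg_mono a1 h2
  have b3 := (H.lg_la43 o).2.2
  have b4 := (H.lg_oct43 o).1
  obtain ⟨s1, s2⟩ := H.lg_s
  have c0 := H.c_pos
  revert b1 b2
  lg_norm
  rw [H.lg_n]
  intro b1 b2
  refine ⟨?_, ?_, ?_, ?_⟩ <;> refine H.le_of_lg (by positivity) (by positivity) ?_ <;> lg_norm <;>
    rw [H.lg_n] <;> linarith

/-- **the number `N`, no side condition** -/
theorem nx43' (hη : 10000 * η ≤ c) (M : p.MemG t) {Φ δ l l0 T L Pt u1 : ℝ} {P : ℝ → ℝ}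
    (hΦ : Φ = (p.n : ℝ) ^ (c / 4000) * p.PhG ((p.n : ℝ) ^ (c / 1000)) t)
    (hδ : δ = (p.n : ℝ) ^ (-(c / 4000)))
    (hT : T ≤ (p.n : ℝ) ^ η) (l3 : l ^ 3 = Φ) (r0 : p.r ≤ l0) (l0l : l0 ≤ l)
    (P0 : ∀ t, 0 ≤ P t ∧ P t ≤ Φ) (L1 : 1 ≤ L) (h1 : u1 ≤ Pt) (h2 : Pt ≤ Φ)
    (b : ∀ x, l0 ≤ x → x ≤ T → p.msG t x * P x * max x l ^ 3 / x ^ 4 ≤
      δ ^ 2 * ((p.n : ℝ) ^ (-(2 : ℝ) / 3) * p.s ^ 4))
    (c' : p.muG t * L * Pt ≤ δ ^ 2 * ((p.n : ℝ) ^ (-(2 : ℝ) / 3) * p.s ^ 4))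
    (i : ∀ x, l0 ≤ x → x ≤ T → p.muG t * L * (x * P x) ≤
      δ ^ 2 * ((p.n : ℝ) ^ (-(2 : ℝ) / 3) * p.s ^ 4))
    (l5 : p.muG t * l ^ 5 ≤ δ * ((p.n : ℝ) ^ (-(5 : ℝ) / 6) * p.s ^ 5))
    (n' : p.muG t * Φ ^ 2 ≤ L * p.s ^ 6 / p.n) :
    ∃ N, 0 < N ∧ NL43 (p.msG t) P (p.muG t) l l0 T Pt u1
      (δ * ((p.n : ℝ) ^ (-(5 : ℝ) / 6) * p.s ^ 5)) N := by
  have c0 := H.c_pos
  have η0 := H.η_pos
  have a0 := H.N0
  have a1 := H.s0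
  have a2 := H.muG_pos M
  have a4 := H.κ0
  have n1 := H.N1.le
  have E1 : 1 ≤ (p.n : ℝ) ^ (c / 1000) := one_le_rpow n1 (by linarith)
  have g0 := H.PhG0 M (H.rp0 (c / 1000))
  have Φ0 : 0 < Φ := by rw [hΦ]; positivity
  have d0 : 0 < δ := by rw [hδ]; positivity
  refine H.nx43 (ε := c / 1000) (by linarith) (by linarith) M E1 le_rfl Φ0
    (hΦ.trans_le (mul_le_mul_of_nonneg_right (rpow_le_rpow_of_exponent_le n1 (by linarith)) g0.le))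
    (hδ ▸ rpow_le_rpow_of_exponent_le n1 (by linarith))
    (hδ ▸ rpow_le_one_of_one_le_of_nonpos n1 (by linarith))
    (hT.trans (rpow_le_rpow_of_exponent_le n1 (by linarith))) l3 r0 l0l P0 L1 h1 h2 b c' i l5 n'
    fun w _ => ?_
  have w' := H.lg_mono (by positivity) w
  revert w'
  lg_norm
  rw [H.lg_n, H.lg_κ]
  intro w'
  have k0 := H.lg_win43 hη M E1 le_rfl (by linarith)
  have k : (p.n : ℝ) ^ η * Φ ≤ (p.s * (p.n : ℝ) ^ (-(1 : ℝ) / 6) / δ) ^ 2 := by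
    refine H.le_of_lg (by positivity) (by positivity) ?_
    rw [hΦ, hδ]
    lg_norm
    rw [H.lg_n]
    linarith
  exact ⟨(h2.trans (le_mul_of_one_le_left Φ0.le (one_le_rpow n1 η0.le))).trans k,
    fun x _ hx => (mul_le_mul (hx.trans hT) (P0 x).2 (P0 x).1 (by positivity)).trans k⟩

end Reg

end Crest.Agent.T156.Alt

end
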