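import Crest.Agent.T156.NxB_43
import Crest.Agent.T156.R1MK_77
import Crest.Agent.T156.NRa_44

/-!
# Row 156, R1: `NX` from `NR` (helper43)
-/

set_option autoImplicit false
set_option linter.all false

noncomputable section

namespace Crest.Agent.T156.Alt

open Real Set

/-- **`NX` from `NR`** (read at any factor `L`), any `P`, `u1`, `V4`; `Pt ∈ [la², n^c s² la²]` -/
theorem Reg.nx_gen43 {β c0 C0 : ℝ} {A : ℕ} {c η K : ℝ} {p : Pm} (H : Reg β c0 C0 A c η K p)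
    {σ t E Φ δ l L Pt u1 V4 Λ₀ Λ₂ : ℝ} {P : ℝ → ℝ} {S : Sc} {M : Md}
    (hc : c ≤ 1 / 1000) (hη : 10000 * η ≤ c) (o : p.OctR σ t)
    (hΦ : Φ = (p.n : ℝ) ^ (c / 4000) * p.PhG ((p.n : ℝ) ^ (c / 1000)) t)
    (hδ : δ = (p.n : ℝ) ^ (-(c / 4000)))
    (hθ : S.θ = p.muG t) (hms : ∀ x, S.ms x = p.msG t x) (hT : R62.T0 S M ≤ (p.n : ℝ) ^ η)
    (h1 : p.laG σ ^ 2 ≤ Pt) (h2 : Pt ≤ (p.n : ℝ) ^ c * p.s ^ 2 * p.laG σ ^ 2)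
    (hΛ : Λ₀ = (p.n : ℝ) ^ (c / 200) * (√Pt / p.laG σ)) (hΛ' : Λ₀ ≤ Λ₂)
    (N : R82.NR E δ p S M l Φ P (p.l0G t l) L Pt u1 V4) :
    ∃ N, 0 < N ∧ R77.NX δ p σ t (R62.T0 S M) l Φ P (p.l0G t l) Λ₀ Pt u1 N Λ₂ := by
  have M' := Reg.oct_r o
  have a2 := H.muG_pos M'
  have c0 := H.c_pos
  have g0 := H.PhG0 M' (H.rp0 (c / 1000))
  have l0 : 0 < l := H.r0.trans_le (N.r0.trans N.l0l)
  have cc : p.muG t * L * Pt ≤ δ ^ 2 * R82.n4 p := by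
    refine le_trans ?_ (hθ ▸ N.c)
    have := N.L1
    have := N.Pt0.1.trans N.Pt0.2.2.2
    have := pow_pos H.r0 4
    gcongr
    linarith
  obtain ⟨n, n0, X⟩ := H.nx43' hη M' hΦ hδ hT N.l3 N.r0 N.l0l N.P0 N.L1 N.Pt0.2.1 N.Pt0.2.2.1
    (fun x a b => hms x ▸ N.b x a b) cc (fun x a b => hθ ▸ N.i x a b) (hθ ▸ N.l5) (hθ ▸ N.n)
  obtain ⟨k1, k2, k3, -⟩ := H.lam43 o h1 h2 hc
  rw [← hΛ] at k1 k2 k3
  refine ⟨n, n0, ?_, X.n1, X.n2, X.n3, X.n4, X.a3, X.a4, h1, k1, Nr44.lk H l0, hΛ', k2, k3⟩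
  rw [hΦ, H.hc]
  exact mul_le_mul_of_nonneg_right (rpow_le_rpow_of_exponent_le H.N1.le (by linarith)) g0.le

end Crest.Agent.T156.Alt

end
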