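import Crest.Agent.T156.LtK_15
import Crest.Agent.T156.HyD_77
import Crest.Agent.T156.NRo_44

/-!
# Row 156 (helper44): the leaf `NxL`
-/

set_option autoImplicit false

namespace Crest.Agent.T156.Alt.Lt15

open Crest.Agent.T156.Alt.R77

/-- **the leaf `NxL`** -/
theorem nxlG {β : ℝ} (hβ : 1 < β) : OnG NxL β :=
  Nr44.onG_cx hβ (fun _ => 1) fun _ _ _ _ _ _ _ _ _ _ _ _ _ _ _ X _ _ _ nd _ => NL_XpL X nd

end Crest.Agent.T156.Alt.Lt15
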