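import Crest.Agent.T156.PExp_50

/-!
Row 156 (helper50): the site constants (Mu), (A), (B), (H), (E) of docs/T156_40C.md and
docs/T156_58.md for every admissible list, in terms of `Z1 = ∫ zh`, `M1 = ∫ s zh`,
`eps0 = 1 - b χ²`.
-/

set_option autoImplicit false

namespace Crest.Agent.T156.Pr.Exp50

open Crest.Agent.R164.GC Crest.Agent.R339.B Crest.Agent.R339.Var Crest.Agent.T157.Pf
open Crest.Agent.T156.Pp Crest.Agent.T156.Pp.Ode3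

noncomputable section

/-- `1 - b χ²` -/
def eps0 (b : ℝ) (l : List (ℝ × ℝ)) : ℝ := 1 - b * Pr.chi l ^ 2
/-- `μ = 1 - b χ_x²` -/
def mu (b : ℝ) (l : List (ℝ × ℝ)) (x t : ℝ) : ℝ := 1 - b * cx l x t ^ 2
/-- `e = 1 - b Γ'` -/
def ev (b : ℝ) (l : List (ℝ × ℝ)) (t : ℝ) : ℝ := 1 - b * GG l t
/-- the mark `h = σ - b q` -/
def hv (b : ℝ) (l : List (ℝ × ℝ)) (t : ℝ) : ℝ := t - b * Pr.Gam l t
/-- `k4 = b⁴ k² / 12` -/
def kc (b : ℝ) (l : List (ℝ × ℝ)) : ℝ := b ^ 4 * k4 l ^ 2 / 12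
/-- (A) -/
def Aq (b : ℝ) (l : List (ℝ × ℝ)) (x t : ℝ) : ℝ := mu b l x t + √b * x * Pr.Gam l t
/-- (B) -/
def Bq (l : List (ℝ × ℝ)) (x t : ℝ) : ℝ := x * Pr.Gam l t ^ 2 - 3 * I2 l x t
/-- (E), first expression -/
def E1 (b : ℝ) (l : List (ℝ × ℝ)) (x t : ℝ) : ℝ :=
  b / 2 * mu b l x t * Pr.Gam l t - hv b l t / 2 - kc b l * Pr.Gam l t ^ 3 +
    b * √b / 2 * (x * Pr.Gam l t ^ 2 + I2 l x t)
/-- (E), second expression -/
def E2 (b : ℝ) (l : List (ℝ × ℝ)) (x t : ℝ) : ℝ :=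
  b / 2 * mu b l x t - 3 * kc b l * Pr.Gam l t ^ 2 + b * √b * x * Pr.Gam l t - b / 2 * ev b l t

/-- the data of one site -/
structure Pt (T0 B0 : ℝ) where
  l : List (ℝ × ℝ)
  t : ℝ
  u : ℝ
  x : ℝ
  b : ℝ
  ok : Ok l
  hT : TT l ≤ T0
  sm : Sm l t u
  x0 : 0 ≤ x
  xu : x ≤ u
  b0 : 0 ≤ b
  bB : b ≤ B0

variable {T0 B0 : ℝ}

/-- `f = O(u^k)` uniformly -/
def OO (k : ℕ) (f : Pt T0 B0 → ℝ) : Prop := ∃ K, 0 ≤ K ∧ ∀ p, |f p| ≤ K * p.u ^ k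

namespace OO
variable {a b : ℕ} {f g : Pt T0 B0 → ℝ}

theorem weak (h : OO a f) (hb : b ≤ a) : OO b f := by
  obtain ⟨K, hK, h⟩ := h
  exact ⟨K, hK, fun p => (h p).trans
    (mul_le_mul_of_nonneg_left (pow_le_pow_of_le_one p.sm.u0 p.sm.u1 hb) hK)⟩

theorem const (c : ℝ) : OO 0 fun _ : Pt T0 B0 => c := ⟨|c|, abs_nonneg c, fun _ => by simp⟩

theorem add (hf : OO a f) (hg : OO b g) : OO (min a b) fun p => f p + g p := by
  obtain ⟨K, hK, h⟩ := hf.weak (min_le_left a b)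
  obtain ⟨L, hL, h'⟩ := hg.weak (min_le_right a b)
  exact ⟨K + L, add_nonneg hK hL, fun p => (abs_add_le _ _).trans (by
    rw [add_mul]; exact add_le_add (h p) (h' p))⟩

theorem mul (hf : OO a f) (hg : OO b g) : OO (a + b) fun p => f p * g p := by
  obtain ⟨K, hK, h⟩ := hf
  obtain ⟨L, hL, h'⟩ := hg
  refine ⟨K * L, mul_nonneg hK hL, fun p => ?_⟩
  rw [abs_mul, pow_add, mul_mul_mul_comm]
  exact mul_le_mul (h p) (h' p) (abs_nonneg _) (mul_nonneg hK (pow_nonneg p.sm.u0 _))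

theorem neg (hf : OO a f) : OO a fun p => -f p := by
  obtain ⟨K, hK, h⟩ := hf
  exact ⟨K, hK, fun p => by rw [abs_neg]; exact h p⟩

theorem sub (hf : OO a f) (hg : OO b g) : OO (min a b) fun p => f p - g p := by
  simpa only [sub_eq_add_neg] using hf.add hg.neg

theorem pow (n : ℕ) (hf : OO a f) : OO (a * n) fun p => f p ^ n := by
  obtain ⟨K, hK, h⟩ := hf
  refine ⟨K ^ n, pow_nonneg hK n, fun p => ?_⟩
  rw [abs_pow, pow_mul, ← mul_pow]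
  exact pow_le_pow_left₀ (abs_nonneg _) (h p) n

theorem div (c : ℝ) (hf : OO a f) : OO a fun p => f p / c := by
  simpa only [div_eq_mul_inv, add_zero] using hf.mul (const c⁻¹)

theorem of_eq (hf : OO a f) (e : ∀ p, g p = f p) : OO a g := by
  rwa [show g = f from funext e]

end OO

/-- bottom-up order count -/
macro "ord50" : tactic => `(tactic| (
  apply OO.weak
  · repeat' first
      | assumption | exact OO.const _ | apply OO.add | apply OO.sub | apply OO.mul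
      | apply OO.pow | apply OO.neg | apply OO.div
  · decide))

section atoms
variable (T0 B0)

theorem o_chi : OO 0 fun p : Pt T0 B0 => Pr.chi p.l := ⟨1, zero_le_one, fun p => by
  have h := AP.of_ok p.ok
  beta_reduce
  rw [chi_eq h, abs_of_pos (chi_pos h)]
  simpa using chi_le h⟩

theorem o_b : OO 0 fun p : Pt T0 B0 => p.b := ⟨|B0|, abs_nonneg _, fun p => by
  rw [abs_of_nonneg p.b0, pow_zero, mul_one]; exact p.bB.trans (le_abs_self _)⟩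

theorem o_r : OO 0 fun p : Pt T0 B0 => √p.b := ⟨√B0, Real.sqrt_nonneg _, fun p => by
  rw [abs_of_nonneg (Real.sqrt_nonneg _), pow_zero, mul_one]; exact Real.sqrt_le_sqrt p.bB⟩

theorem o_t : OO 1 fun p : Pt T0 B0 => p.t := ⟨1, zero_le_one, fun p => by
  rw [abs_of_nonneg p.sm.t0, pow_one, one_mul]; exact p.sm.tu⟩

theorem o_x : OO 1 fun p : Pt T0 B0 => p.x := ⟨1, zero_le_one, fun p => by
  rw [abs_of_nonneg p.x0, pow_one, one_mul]; exact p.xu⟩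

variable {T0 B0} in
theorem oo_of {f : Pt T0 B0 → ℝ} {C : ℝ} (hC : 0 ≤ C) (i j : ℕ)
    (h : ∀ p, |f p| ≤ C * p.u ^ i * p.t ^ j) : OO (i + j) f := ⟨C, hC, fun p => (h p).trans (by
  rw [pow_add, ← mul_assoc]
  exact mul_le_mul_of_nonneg_left (pow_le_pow_left₀ p.sm.t0 p.sm.tu j)
    (mul_nonneg hC (pow_nonneg p.sm.u0 i)))⟩

theorem o_Z : OO 2 fun p : Pt T0 B0 => Z1 p.l p.t :=
  oo_of zero_le_one 1 1 fun p => by simpa using Z1_le (AP.of_ok p.ok) p.sm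

theorem o_M : OO 3 fun p : Pt T0 B0 => M1 p.l p.t :=
  oo_of zero_le_one 1 2 fun p => by simpa using M1_le (AP.of_ok p.ok) p.sm

end atoms

/-- remainders -/
def dG (l : List (ℝ × ℝ)) (t : ℝ) : ℝ :=
  GG l t - (Pr.chi l ^ 2 + k4 l ^ 2 * t ^ 2 / 2 - 2 * Pr.chi l ^ 3 * Z1 l t)
def dq0 (l : List (ℝ × ℝ)) (t : ℝ) : ℝ := Pr.Gam l t - Pr.chi l ^ 2 * t
def dq (l : List (ℝ × ℝ)) (t : ℝ) : ℝ :=
  Pr.Gam l t - (Pr.chi l ^ 2 * t + k4 l ^ 2 * t ^ 3 / 6 - 2 * Pr.chi l ^ 3 * (t * Z1 l t - M1 l t))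
def dX (l : List (ℝ × ℝ)) (t : ℝ) : ℝ := XX l t - (Pr.chi l - Pr.chi l ^ 2 * Z1 l t)
def dJ (l : List (ℝ × ℝ)) (t : ℝ) : ℝ := J2 l t - 2 * Pr.chi l ^ 4 * M1 l t
def dc (l : List (ℝ × ℝ)) (x t : ℝ) : ℝ := cx l x t - (Pr.chi l + Pr.chi l ^ 2 * (x * t - Z1 l t))
def dmu (b : ℝ) (l : List (ℝ × ℝ)) (x t : ℝ) : ℝ :=
  mu b l x t - (eps0 b l - 2 * b * Pr.chi l ^ 3 * (x * t - Z1 l t))

theorem o_rem (T0 B0 : ℝ) : (OO 0 fun p : Pt T0 B0 => k4 p.l) ∧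
    (OO 3 fun p : Pt T0 B0 => dG p.l p.t) ∧ (OO 3 fun p : Pt T0 B0 => dq0 p.l p.t) ∧
    (OO 4 fun p : Pt T0 B0 => dq p.l p.t) ∧ (OO 4 fun p : Pt T0 B0 => dX p.l p.t) ∧
    (OO 5 fun p : Pt T0 B0 => dJ p.l p.t) := by
  obtain ⟨C, hC, h⟩ := expand T0
  have c0 : 0 ≤ C := by linarith
  have H := fun p : Pt T0 B0 => (h p.l p.ok p.hT).2 p.t p.u p.sm
  refine ⟨⟨C, c0, fun p => by simpa using (h p.l p.ok p.hT).1⟩,
    oo_of c0 1 2 fun p => ?_, oo_of c0 1 2 fun p => ?_, oo_of c0 1 3 fun p => ?_,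
    oo_of c0 2 2 fun p => (H p).2.2.2.2.2.2.1, oo_of c0 2 3 fun p => (H p).2.2.2.2.2.2.2⟩
  · rw [pow_one]; exact (H p).2.2.2.1
  · rw [pow_one]; exact (H p).2.2.2.2.1
  · rw [pow_one]; exact (H p).2.2.2.2.2.1

theorem rho_le {b c : ℝ} (hb : 0 ≤ b) (hc : 0 ≤ c) : |√b * c - 1| ≤ |1 - b * c ^ 2| := by
  have e : 1 - b * c ^ 2 = -((√b * c - 1) * (√b * c + 1)) := by
    have := Real.sq_sqrt hb
    linear_combination (c ^ 2) * this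
  have : 0 ≤ √b * c := mul_nonneg (Real.sqrt_nonneg _) hc
  rw [e, abs_neg, abs_mul]
  exact le_mul_of_one_le_right (abs_nonneg _) (by rw [abs_of_nonneg (by linarith)]; linarith)

/-- assembling `eps0 a1 + ρ a2 + a3` -/
theorem asm1 {j k : ℕ} {f a1 a2 a3 : Pt T0 B0 → ℝ} (h1 : OO j a1) (h2 : OO j a2)
    (h3 : OO k a3) (e : ∀ p, f p = eps0 p.b p.l * a1 p +
      (√p.b * Pr.chi p.l - 1) * a2 p + a3 p) :
    ∃ K, 0 ≤ K ∧ ∀ (p : Pt T0 B0) (ε : ℝ), |eps0 p.b p.l| ≤ ε →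
      |f p| ≤ K * (ε * p.u ^ j + p.u ^ k) := by
  obtain ⟨K1, k1, h1⟩ := h1
  obtain ⟨K2, k2, h2⟩ := h2
  obtain ⟨K3, k3, h3⟩ := h3
  refine ⟨K1 + K2 + K3, by positivity, fun p ε hε => ?_⟩
  have h := AP.of_ok p.ok
  have e0 : 0 ≤ ε := (abs_nonneg _).trans hε
  have hr : |√p.b * Pr.chi p.l - 1| ≤ ε :=
    (rho_le p.b0 (by rw [chi_eq h]; exact (chi_pos h).le)).trans hε
  have u0 := p.sm.u0
  have b1 : |eps0 p.b p.l * a1 p| ≤ ε * (K1 * p.u ^ j) := by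
    rw [abs_mul]; exact mul_le_mul hε (h1 p) (abs_nonneg _) e0
  have b2 : |(√p.b * Pr.chi p.l - 1) * a2 p| ≤ ε * (K2 * p.u ^ j) := by
    rw [abs_mul]; exact mul_le_mul hr (h2 p) (abs_nonneg _) e0
  have b3 := h3 p
  have p2 : 0 ≤ ε * p.u ^ j := by positivity
  have p3 : 0 ≤ p.u ^ k := by positivity
  rw [e]
  refine ((abs_add_le _ _).trans (add_le_add ((abs_add_le _ _).trans (add_le_add b1 b2)) b3)).trans ?_
  nlinarith [mul_nonneg k1 p3, mul_nonneg k2 p3, mul_nonneg k3 p2]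

/-- assembling `eps0² a0 + eps0 a1 + ρ a2 + a3` -/
theorem asm {i j k : ℕ} {f a0 a1 a2 a3 : Pt T0 B0 → ℝ} (h0 : OO i a0) (h1 : OO j a1) (h2 : OO j a2)
    (h3 : OO k a3) (e : ∀ p, f p = eps0 p.b p.l ^ 2 * a0 p + eps0 p.b p.l * a1 p +
      (√p.b * Pr.chi p.l - 1) * a2 p + a3 p) :
    ∃ K, 0 ≤ K ∧ ∀ (p : Pt T0 B0) (ε : ℝ), |eps0 p.b p.l| ≤ ε →
      |f p| ≤ K * (ε ^ 2 * p.u ^ i + ε * p.u ^ j + p.u ^ k) := by
  obtain ⟨K0, k0, h0⟩ := h0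
  obtain ⟨K1, k1, h1⟩ := asm1 (f := fun p => f p - eps0 p.b p.l ^ 2 * a0 p) h1 h2 h3 fun p => by
    rw [e]; ring
  refine ⟨K0 + K1, by positivity, fun p ε hε => ?_⟩
  have e0 : 0 ≤ ε := (abs_nonneg _).trans hε
  have u0 := p.sm.u0
  have b0 : |eps0 p.b p.l ^ 2 * a0 p| ≤ ε ^ 2 * (K0 * p.u ^ i) := by
    rw [abs_mul, abs_pow]
    exact mul_le_mul (pow_le_pow_left₀ (abs_nonneg _) hε 2) (h0 p) (abs_nonneg _) (by positivity)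
  have b1 := h1 p ε hε
  have p1 : 0 ≤ ε ^ 2 * p.u ^ i := by positivity
  have p2 : 0 ≤ ε * p.u ^ j := by positivity
  have p3 : 0 ≤ p.u ^ k := by positivity
  have := abs_add_le (eps0 p.b p.l ^ 2 * a0 p) (f p - eps0 p.b p.l ^ 2 * a0 p)
  rw [add_sub_cancel] at this
  nlinarith [mul_nonneg k0 p2, mul_nonneg k0 p3, mul_nonneg k1 p1]

theorem o_zero (k : ℕ) : OO k fun _ : Pt T0 B0 => (0 : ℝ) := ⟨0, le_rfl, fun _ => by simp⟩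

/-- **the site constants** -/
theorem consts (T0 B0 : ℝ) : ∃ C : ℝ, 1 ≤ C ∧ ∀ (l : List (ℝ × ℝ)) (t u x b ε : ℝ), Ok l →
    TT l ≤ T0 → Sm l t u → 0 ≤ x → x ≤ u → 0 ≤ b → b ≤ B0 → |eps0 b l| ≤ ε →
    |cx l x t - Pr.chi l| ≤ C * u ^ 2 ∧
    |cx l x t - (Pr.chi l + Pr.chi l ^ 2 * (x * t - Z1 l t))| ≤ C * u ^ 4 ∧
    |mu b l x t - (eps0 b l - 2 * b * Pr.chi l ^ 3 * (x * t - Z1 l t))| ≤ C * u ^ 4 ∧
    |ev b l t - (eps0 b l - b * k4 l ^ 2 * t ^ 2 / 2 + 2 * b * Pr.chi l ^ 3 * Z1 l t)| ≤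
      C * u ^ 3 ∧
    |hv b l t - (eps0 b l * t - b * k4 l ^ 2 * t ^ 3 / 6 +
      2 * b * Pr.chi l ^ 3 * (t * Z1 l t - M1 l t))| ≤ C * u ^ 4 ∧
    |t * ev b l t - 3 * hv b l t + 2 * eps0 b l * t +
      2 * b * Pr.chi l ^ 3 * (2 * t * Z1 l t - 3 * M1 l t)| ≤ C * u ^ 4 ∧
    |Aq b l x t - (eps0 b l + √b * Pr.chi l ^ 2 * (2 * Z1 l t - x * t))| ≤
      C * (ε * u ^ 2 + u ^ 4) ∧
    |Aq b l x t - (eps0 b l + b * Pr.chi l ^ 3 * (2 * Z1 l t - x * t))| ≤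
      C * (ε * u ^ 2 + u ^ 4) ∧
    |Bq l x t - 2 * Pr.chi l ^ 4 * (3 * M1 l t - x * t ^ 2)| ≤ C * u ^ 5 ∧
    |E1 b l x t| ≤ C * (ε ^ 2 * u + ε * u ^ 3 + u ^ 4) ∧
    |E2 b l x t| ≤ C * (ε * u ^ 2 + u ^ 3) := by
  have a1 := o_chi T0 B0
  have a2 := o_b T0 B0
  have a3 := o_r T0 B0
  have a4 := o_t T0 B0
  have a5 := o_x T0 B0
  have a6 := o_Z T0 B0
  have a7 := o_M T0 B0
  obtain ⟨a8, a9, a10, a11, a12, a13⟩ := o_rem T0 B0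
  have q1 : OO 1 fun p : Pt T0 B0 => Pr.Gam p.l p.t :=
    OO.of_eq (f := fun p => Pr.chi p.l ^ 2 * p.t + dq0 p.l p.t) (by ord50) fun p => by
      unfold dq0; ring
  have c4 : OO 4 fun p : Pt T0 B0 => dc p.l p.x p.t :=
    OO.of_eq (f := fun p => dX p.l p.t + p.x * dq0 p.l p.t) (by ord50) fun p => by
      unfold dc dX dq0 cx; ring
  have c2 : OO 2 fun p : Pt T0 B0 => cx p.l p.x p.t - Pr.chi p.l :=
    OO.of_eq (f := fun p => Pr.chi p.l ^ 2 * (p.x * p.t - Z1 p.l p.t) + dc p.l p.x p.t)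
      (by ord50) fun p => by unfold dc; ring
  have m4 : OO 4 fun p : Pt T0 B0 => dmu p.b p.l p.x p.t :=
    OO.of_eq (f := fun p => -(p.b * (2 * Pr.chi p.l * dc p.l p.x p.t +
      (Pr.chi p.l ^ 2 * (p.x * p.t - Z1 p.l p.t) + dc p.l p.x p.t) ^ 2))) (by ord50) fun p => by
      unfold dmu mu eps0 dc; ring
  have e3 : OO 3 fun p : Pt T0 B0 => ev p.b p.l p.t - (eps0 p.b p.l -
      p.b * k4 p.l ^ 2 * p.t ^ 2 / 2 + 2 * p.b * Pr.chi p.l ^ 3 * Z1 p.l p.t) :=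
    OO.of_eq (f := fun p => -(p.b * dG p.l p.t)) (by ord50) fun p => by
      unfold ev eps0 dG; ring
  have h4 : OO 4 fun p : Pt T0 B0 => hv p.b p.l p.t - (eps0 p.b p.l * p.t -
      p.b * k4 p.l ^ 2 * p.t ^ 3 / 6 +
      2 * p.b * Pr.chi p.l ^ 3 * (p.t * Z1 p.l p.t - M1 p.l p.t)) :=
    OO.of_eq (f := fun p => -(p.b * dq p.l p.t)) (by ord50) fun p => by
      unfold hv eps0 dq; ring
  have H4 : OO 4 fun p : Pt T0 B0 => p.t * ev p.b p.l p.t - 3 * hv p.b p.l p.t +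
      2 * eps0 p.b p.l * p.t +
      2 * p.b * Pr.chi p.l ^ 3 * (2 * p.t * Z1 p.l p.t - 3 * M1 p.l p.t) :=
    OO.of_eq (f := fun p => 3 * p.b * dq p.l p.t - p.b * p.t * dG p.l p.t) (by ord50) fun p => by
      unfold ev hv eps0 dq dG; ring
  have B5 : OO 5 fun p : Pt T0 B0 => Bq p.l p.x p.t -
      2 * Pr.chi p.l ^ 4 * (3 * M1 p.l p.t - p.x * p.t ^ 2) :=
    OO.of_eq (f := fun p => 3 * dJ p.l p.t -
      2 * p.x * dq0 p.l p.t * (2 * Pr.chi p.l ^ 2 * p.t + dq0 p.l p.t)) (by ord50) fun p => by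
      unfold Bq I2 dJ dq0; ring
  have rr : ∀ p : Pt T0 B0, √p.b ^ 2 = p.b := fun p => Real.sq_sqrt p.b0
  obtain ⟨K1, k1, A1⟩ := asm1 (j := 2) (k := 4) (f := fun p : Pt T0 B0 =>
      Aq p.b p.l p.x p.t - (eps0 p.b p.l + √p.b * Pr.chi p.l ^ 2 * (2 * Z1 p.l p.t - p.x * p.t)))
    (a1 := fun _ => 0)
    (a2 := fun p => -(2 * √p.b * Pr.chi p.l ^ 2 * (p.x * p.t - Z1 p.l p.t)))
    (a3 := fun p => dmu p.b p.l p.x p.t + √p.b * p.x * dq0 p.l p.t)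
    (o_zero _) (by ord50) (by ord50) fun p => by
      unfold Aq dmu dq0
      linear_combination (2 * Pr.chi p.l ^ 3 * (p.x * p.t - Z1 p.l p.t)) * rr p
  obtain ⟨K2, k2, A2⟩ := asm1 (j := 2) (k := 4) (f := fun p : Pt T0 B0 =>
      Aq p.b p.l p.x p.t - (eps0 p.b p.l + p.b * Pr.chi p.l ^ 3 * (2 * Z1 p.l p.t - p.x * p.t)))
    (a1 := fun _ => 0)
    (a2 := fun p => -(√p.b * Pr.chi p.l ^ 2 * (p.x * p.t)))
    (a3 := fun p => dmu p.b p.l p.x p.t + √p.b * p.x * dq0 p.l p.t)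
    (o_zero _) (by ord50) (by ord50) fun p => by
      unfold Aq dmu dq0
      linear_combination (Pr.chi p.l ^ 3 * (p.x * p.t)) * rr p
  obtain ⟨K3, k3, A3⟩ := asm (i := 1) (j := 3) (k := 4)
    (f := fun p : Pt T0 B0 => E1 p.b p.l p.x p.t) (a0 := fun p => -(p.t / 2))
    (a1 := fun p => p.b / 2 * dq0 p.l p.t + p.b * k4 p.l ^ 2 * p.t ^ 3 / 12 *
      (1 + p.b * Pr.chi p.l ^ 2 + (p.b * Pr.chi p.l ^ 2) ^ 2) -
      p.b * Pr.chi p.l ^ 3 * Z1 p.l p.t * p.t)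
    (a2 := fun p => -(p.b * √p.b * Pr.chi p.l ^ 4 * p.x * p.t ^ 2) -
      p.b * Pr.chi p.l ^ 3 * M1 p.l p.t)
    (a3 := fun p => p.b / 2 * (dmu p.b p.l p.x p.t * Pr.Gam p.l p.t -
        2 * p.b * Pr.chi p.l ^ 3 * (p.x * p.t - Z1 p.l p.t) * dq0 p.l p.t) +
      p.b * dq p.l p.t / 2 - p.b ^ 4 * k4 p.l ^ 2 / 12 * dq0 p.l p.t *
        (Pr.Gam p.l p.t ^ 2 + Pr.Gam p.l p.t * Pr.chi p.l ^ 2 * p.t + Pr.chi p.l ^ 4 * p.t ^ 2) +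
      p.b * √p.b / 2 * (2 * p.x * dq0 p.l p.t * (Pr.Gam p.l p.t + Pr.chi p.l ^ 2 * p.t) -
        dJ p.l p.t))
    (by ord50) (by ord50) (by ord50) (by ord50) fun p => by
      unfold E1 hv kc I2 dmu dq0 dq dJ eps0
      linear_combination (p.b * Pr.chi p.l ^ 5 * p.x * p.t ^ 2) * rr p
  obtain ⟨K4, k4', A4⟩ := asm1 (j := 2) (k := 3) (f := fun p : Pt T0 B0 => E2 p.b p.l p.x p.t)
    (a1 := fun p => p.b ^ 2 * k4 p.l ^ 2 * p.t ^ 2 / 4 * (1 + p.b * Pr.chi p.l ^ 2))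
    (a2 := fun p => -(p.b * √p.b * Pr.chi p.l ^ 2 * p.x * p.t))
    (a3 := fun p => p.b / 2 * (dmu p.b p.l p.x p.t + p.b * dG p.l p.t) -
      p.b ^ 4 * k4 p.l ^ 2 / 4 * dq0 p.l p.t * (Pr.Gam p.l p.t + Pr.chi p.l ^ 2 * p.t) +
      p.b * √p.b * p.x * dq0 p.l p.t)
    (by ord50) (by ord50) (by ord50) fun p => by
      unfold E2 ev kc dmu dq0 dG eps0
      linear_combination (p.b * Pr.chi p.l ^ 3 * p.x * p.t) * rr p
  simp only [pow_one] at A3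
  obtain ⟨L1, l1, c2⟩ := c2
  obtain ⟨L2, l2, c4⟩ := c4
  obtain ⟨L3, l3, m4⟩ := m4
  obtain ⟨L4, l4, e3⟩ := e3
  obtain ⟨L5, l5, h4⟩ := h4
  obtain ⟨L6, l6, H4⟩ := H4
  obtain ⟨L7, l7, B5⟩ := B5
  obtain ⟨C, hC⟩ : ∃ C, C = 1 + (L1 + L2 + L3 + L4 + L5 + L6 + L7) + (K1 + K2 + K3 + K4) := ⟨_, rfl⟩
  refine ⟨C, by linarith, fun l t u x b ε ok hT sm x0 xu b0 bB hε => ?_⟩
  let p : Pt T0 B0 := ⟨l, t, u, x, b, ok, hT, sm, x0, xu, b0, bB⟩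
  have u0 := sm.u0
  have e0 : 0 ≤ ε := (abs_nonneg _).trans hε
  refine ⟨(c2 p).trans ?_, (c4 p).trans ?_, (m4 p).trans ?_, (e3 p).trans ?_, (h4 p).trans ?_,
    (H4 p).trans ?_, (A1 p ε hε).trans ?_, (A2 p ε hε).trans ?_, (B5 p).trans ?_,
    (A3 p ε hε).trans ?_, (A4 p ε hε).trans ?_⟩ <;>
  exact mul_le_mul_of_nonneg_right (by linarith) (by positivity)

/-- **(Mu)** -/
theorem mu_pair (T0 B0 : ℝ) : ∃ C : ℝ, 1 ≤ C ∧ ∀ (l : List (ℝ × ℝ)) (t t' u x x' b : ℝ), Ok l →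
    TT l ≤ T0 → Sm l t u → Sm l t' u → 0 ≤ x → x ≤ u → 0 ≤ x' → x' ≤ u → 0 ≤ b → b ≤ B0 →
    |b * cx l x t * cx l x' t' - 1| ≤ |eps0 b l| + C * u ^ 2 := by
  obtain ⟨C, hC, h⟩ := consts T0 B0
  refine ⟨1 + |B0| * (C * (2 + C)), le_add_of_nonneg_right (by positivity),
    fun l t t' u x x' b ok hT sm sm' x0 xu x0' xu' b0 bB => ?_⟩
  have h1 := (h l t u x b _ ok hT sm x0 xu b0 bB le_rfl).1
  have h2 := (h l t' u x' b _ ok hT sm' x0' xu' b0 bB le_rfl).1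
  have ap := AP.of_ok ok
  have c1 : |Pr.chi l| ≤ 1 := by rw [chi_eq ap, abs_of_pos (chi_pos ap)]; exact chi_le ap
  have u2 : u ^ 2 ≤ 1 := pow_le_one₀ sm.u0 sm.u1
  have cu : 0 ≤ C * u ^ 2 := by positivity
  have e : b * cx l x t * cx l x' t' - 1 = -eps0 b l + b * (Pr.chi l * (cx l x t - Pr.chi l) +
      Pr.chi l * (cx l x' t' - Pr.chi l) + (cx l x t - Pr.chi l) * (cx l x' t' - Pr.chi l)) := by
    unfold eps0; ring
  have b1 : |Pr.chi l * (cx l x t - Pr.chi l)| ≤ C * u ^ 2 := by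
    rw [abs_mul]; exact (mul_le_of_le_one_left (abs_nonneg _) c1).trans h1
  have b2 : |Pr.chi l * (cx l x' t' - Pr.chi l)| ≤ C * u ^ 2 := by
    rw [abs_mul]; exact (mul_le_of_le_one_left (abs_nonneg _) c1).trans h2
  have b3 : |(cx l x t - Pr.chi l) * (cx l x' t' - Pr.chi l)| ≤ C * u ^ 2 * C := by
    rw [abs_mul]
    exact mul_le_mul h1 (h2.trans (mul_le_of_le_one_right (by linarith) u2)) (abs_nonneg _) cu
  rw [e]
  refine (abs_add_le _ _).trans (add_le_add (abs_neg _).le ?_)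
  rw [abs_mul, abs_of_nonneg b0]
  refine (mul_le_mul (bB.trans (le_abs_self _)) ((abs_add_le _ _).trans
    (add_le_add ((abs_add_le _ _).trans (add_le_add b1 b2)) b3)) (abs_nonneg _)
    (abs_nonneg _)).trans ?_
  nlinarith [sq_nonneg u]

end

end Crest.Agent.T156.Pr.Exp50
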