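import Crest.Agent.T156.PCmp_3
import Crest.Agent.T156.PArea_50

/-!
Row 156 (helper50): small-time expansions of the one-site moments for every admissible list, node
sums, and the site constants (Mu), (A), (B), (E) of docs/T156_40C.md, docs/T156_58.md.
-/

set_option autoImplicit false

namespace Crest.Agent.T156.Pr.Exp50

open MeasureTheory Filter Topology Set
open Crest.Agent.R164.GC Crest.Agent.R339.B Crest.Agent.R339.Var Crest.Agent.T157.Pf
open Crest.Agent.T156.Pp Crest.Agent.T156.Pp.Ode3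

noncomputable section

variable {l : List (ℝ × ℝ)} {t u : ℝ}

/-- `∫_0^t zh f` -/
def Iz (l : List (ℝ × ℝ)) (f : ℝ → ℝ) (t : ℝ) : ℝ := ∫ s in (0 : ℝ)..t, lvr 1 l s * f s
/-- `∫_0^t zh` -/
def Z1 (l : List (ℝ × ℝ)) : ℝ → ℝ := Iz l fun _ => 1
/-- `∫_0^t s zh(s) ds` -/
def M1 (l : List (ℝ × ℝ)) : ℝ → ℝ := Iz l fun s => s
/-- `∫_0^t zh d(Γ²)` -/
def J2 (l : List (ℝ × ℝ)) : ℝ → ℝ := Iz l fun s => 2 * Pr.Gam l s * GG l s
/-- `E Φ_xx(t, X_t)` -/
def XX (l : List (ℝ × ℝ)) (t : ℝ) : ℝ := Pr.Et l t (Pr.Dk 1 l t)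
/-- `χ_x = E [Φ_xx + x Φ_x²] = 1 - ∫_x^1 Γ` -/
def cx (l : List (ℝ × ℝ)) (x t : ℝ) : ℝ := XX l t + x * Pr.Gam l t
/-- `∫_0^x q² dx` -/
def I2 (l : List (ℝ × ℝ)) (x t : ℝ) : ℝ := x * Pr.Gam l t ^ 2 - J2 l t

theorem XX_eq : XX = X2 := rfl
theorem Z1_eq (l : List (ℝ × ℝ)) (t : ℝ) : Z1 l t = ∫ s in (0 : ℝ)..t, lvr 1 l s := by
  simp [Z1, Iz]
theorem M1_eq (l : List (ℝ × ℝ)) (t : ℝ) : M1 l t = ∫ s in (0 : ℝ)..t, s * lvr 1 l s := by
  simp [M1, Iz, mul_comm]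

theorem Iz_zero (l : List (ℝ × ℝ)) (f : ℝ → ℝ) : Iz l f 0 = 0 := by simp [Iz]

theorem Iz_cont (h : AP l) {f : ℝ → ℝ} (hf : ContinuousOn f (Icc 0 (TT l))) :
    ContinuousOn (Iz l f) (Icc 0 (TT l)) := by
  have := intervalIntegral.continuousOn_primitive_interval' (a := 0)
    (ii_lvr_mul h.adm hf ⟨le_rfl, h.TT_nn⟩ ⟨h.TT_nn, le_rfl⟩) left_mem_uIcc
  rwa [uIcc_of_le h.TT_nn] at this

theorem Iz_rder (h : AP l) {f : ℝ → ℝ} (hf : ContinuousOn f (Icc 0 (TT l))) (h0 : 0 ≤ t)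
    (h1 : t < TT l) : HasDerivWithinAt (Iz l f) (lvr 1 l t * f t) (Ici t) t := by
  obtain ⟨e, _, a1, _, _, _, _, _, a7⟩ := PhiT_local one_pos h.adm h0 h1
  refine intervalIntegral.integral_hasDerivWithinAt_right (t := Ioi t)
    (ii_lvr_mul h.adm hf ⟨le_rfl, h.TT_nn⟩ ⟨h0, h1.le⟩) ⟨Ioc t (TT l), Ioc_mem_nhdsGT h1,
      (ii_lvr_mul h.adm hf ⟨h0, h1.le⟩ ⟨h.TT_nn, le_rfl⟩).1.aestronglyMeasurable⟩ ?_
  refine ContinuousWithinAt.mul ?_
    ((hf t ⟨h0, h1.le⟩).mono_of_mem_nhdsWithin (Icc_mem_nhdsGT_of_mem ⟨h0, h1⟩))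
  refine (continuousWithinAt_const (b := lvr 1 l t)).congr_of_eventuallyEq ?_ rfl
  filter_upwards [Ioo_mem_nhdsGT a1] with r hr
  exact a7 r ⟨hr.1.le, hr.2⟩

theorem mvt0 {φ φ' : ℝ → ℝ} {T K : ℝ} (h0 : 0 ≤ t) (hT : t ≤ T) (hc : ContinuousOn φ (Icc 0 T))
    (hd : ∀ r, 0 ≤ r → r < T → HasDerivWithinAt φ (φ' r) (Ici r) r)
    (hb : ∀ r, 0 ≤ r → r < t → |φ' r| ≤ K) : |φ t - φ 0| ≤ K * t := by
  have := abs_sub_le_of_rder (C := K) hc (fun r hr => hd r hr.1 hr.2) ⟨le_rfl, h0.trans hT⟩ ⟨h0, hT⟩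
    fun r hr => by
      rw [min_eq_left h0, max_eq_right h0] at hr
      exact hb r hr.1 hr.2
  rwa [sub_zero, abs_of_nonneg h0] at this

/-- time `t` and tilts before `t` are of size `u ≤ 1` -/
structure Sm (l : List (ℝ × ℝ)) (t u : ℝ) : Prop where
  t0 : 0 ≤ t
  tT : t ≤ TT l
  tu : t ≤ u
  u1 : u ≤ 1
  hz : ∀ s, 0 ≤ s → s < t → lvr 1 l s ≤ u

theorem Sm.mono (h : Sm l t u) {s : ℝ} (h0 : 0 ≤ s) (h1 : s < t) : Sm l s u :=
  ⟨h0, h1.le.trans h.tT, h1.le.trans h.tu, h.u1, fun r a b => h.hz r a (b.trans h1)⟩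

theorem Sm.u0 (h : Sm l t u) : 0 ≤ u := h.t0.trans h.tu

theorem rd_id (r : ℝ) : HasDerivWithinAt (fun s : ℝ => s) 1 (Ici r) r := hasDerivWithinAt_id r _

section est
variable (h : AP l) (hs : Sm l t u)
include h hs

theorem Iz_le {f : ℝ → ℝ} (hf : ContinuousOn f (Icc 0 (TT l))) {K : ℝ}
    (hK : ∀ r, 0 ≤ r → r < t → |f r| ≤ K) : |Iz l f t| ≤ u * K * t := by
  have := mvt0 (K := u * K) hs.t0 hs.tT (Iz_cont h hf) (fun r a b => Iz_rder h hf a b)
    fun r a b => by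
      rw [abs_mul, abs_of_pos (lvr_pos h.adm r)]
      exact mul_le_mul (hs.hz r a b) (hK r a b) (abs_nonneg _) hs.u0
  rwa [Iz_zero, sub_zero] at this

theorem Z1_le : |Z1 l t| ≤ u * t := by
  have := Iz_le h hs (f := fun _ => 1) continuousOn_const (K := 1) fun _ _ _ => by simp
  rwa [mul_one] at this

theorem M1_le : |M1 l t| ≤ u * t ^ 2 := by
  have := Iz_le h hs (f := fun s => s) continuousOn_id (K := t) fun r a b => by
    rw [abs_of_nonneg a]; exact b.le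
  rwa [mul_assoc, ← sq] at this

theorem A_est : |Am l t - Ode3.chi l ^ 3| ≤ 15 * u * t := by
  have := mvt0 (K := 15 * u) hs.t0 hs.tT (Am_cont h) (fun r a b => Am_rder h a b) fun r a b => by
    have a1 := Bm_nonneg h.adm r
    have a2 := Bm_le h ⟨a, b.le.trans hs.tT⟩
    have a3 := mul_nonneg (lvr_pos h.adm r).le (A4_nonneg h.adm r)
    have a4 := mul_le_mul (hs.hz r a b) (A4_le_one h.adm r) (A4_nonneg h.adm r) hs.u0
    rw [abs_le]
    constructor <;> linarith [hs.tu, hs.u0]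
  rwa [Am_zero h] at this

theorem G_est0 : |Gp l t - Ode3.chi l ^ 2| ≤ 6 * u * t := by
  have := mvt0 (K := 6 * u) hs.t0 hs.tT (Gp_cont h) (fun r a b => Gp_rder h a b) fun r a b => by
    have a1 := Nm_nonneg l r
    have a2 := Nm_le h ⟨a, b.le.trans hs.tT⟩
    have a3 := mul_nonneg (lvr_pos h.adm r).le (Am_nonneg h.adm r)
    have a4 := mul_le_mul (hs.hz r a b) (Am_le_one h.adm r) (Am_nonneg h.adm r) hs.u0
    rw [abs_le]
    constructor <;> linarith [hs.tu, hs.u0]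
  rwa [Gp_zero h] at this

theorem Gam_est0 : |Ode3.Gam l t - Ode3.chi l ^ 2 * t| ≤ 6 * u * t ^ 2 := by
  have := mvt0 (φ := fun s => Ode3.Gam l s - Ode3.chi l ^ 2 * s) (K := 6 * u * t) hs.t0 hs.tT
    ((Gam_cont h).sub (by fun_prop))
    (fun r a b => (Gam_rder h a b).fun_sub ((rd_id r).const_mul _)) fun r a b => by
      rw [mul_one]
      exact (G_est0 h (hs.mono a b)).trans (mul_le_mul_of_nonneg_left b.le (by linarith [hs.u0]))
  rw [Gam_zero h] at this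
  simpa [mul_assoc, sq] using this

theorem X_est : |X2 l t - (Ode3.chi l - Ode3.chi l ^ 2 * Z1 l t)| ≤ 6 * u ^ 2 * t ^ 2 := by
  have := mvt0 (φ := fun s => X2 l s + Ode3.chi l ^ 2 * Z1 l s) (K := u * (6 * u * t)) hs.t0 hs.tT
    ((X2_cont h).add ((Iz_cont h continuousOn_const).const_smul (Ode3.chi l ^ 2)))
    (fun r a b => (X2_rder h a b).fun_add ((Iz_rder h continuousOn_const a b).const_mul _))
    fun r a b => by
      rw [show -(lvr 1 l r * Gp l r) + Ode3.chi l ^ 2 * (lvr 1 l r * 1) =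
        -(lvr 1 l r * (Gp l r - Ode3.chi l ^ 2)) by ring, abs_neg, abs_mul,
        abs_of_pos (lvr_pos h.adm r)]
      exact mul_le_mul (hs.hz r a b) ((G_est0 h (hs.mono a b)).trans
        (mul_le_mul_of_nonneg_left b.le (by linarith [hs.u0]))) (abs_nonneg _) hs.u0
  rw [X2_zero h, Z1, Iz_zero] at this
  convert this using 1
  · rw [Z1]; congr 1; ring
  · ring

theorem J2_est : |J2 l t - 2 * Ode3.chi l ^ 4 * M1 l t| ≤ 24 * u ^ 2 * t ^ 3 := by
  have c1 : ContinuousOn (fun s => 2 * Ode3.Gam l s * Gp l s) (Icc 0 (TT l)) :=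
    (continuousOn_const.mul (Gam_cont h)).mul (Gp_cont h)
  have := mvt0 (φ := fun s => J2 l s - 2 * Ode3.chi l ^ 4 * M1 l s) (K := u * (24 * u * t ^ 2))
    hs.t0 hs.tT ((Iz_cont h c1).sub ((Iz_cont h continuousOn_id).const_smul (2 * Ode3.chi l ^ 4)))
    (fun r a b => (Iz_rder h c1 a b).fun_sub ((Iz_rder h continuousOn_id a b).const_mul _))
    fun r a b => by
      rw [show lvr 1 l r * (2 * Ode3.Gam l r * Gp l r) - 2 * Ode3.chi l ^ 4 * (lvr 1 l r * id r) =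
        lvr 1 l r * (2 * ((Ode3.Gam l r - Ode3.chi l ^ 2 * r) * Gp l r +
          Ode3.chi l ^ 2 * r * (Gp l r - Ode3.chi l ^ 2))) by rw [id]; ring, abs_mul,
        abs_of_pos (lvr_pos h.adm r)]
      refine mul_le_mul (hs.hz r a b) ?_ (abs_nonneg _) hs.u0
      have a1 := Gam_est0 h (hs.mono a b)
      have a2 := G_est0 h (hs.mono a b)
      have c2 : Ode3.chi l ^ 2 ≤ 1 := pow_le_one₀ (chi_pos h).le (chi_le h)
      have b1 : |(Ode3.Gam l r - Ode3.chi l ^ 2 * r) * Gp l r| ≤ 6 * u * r ^ 2 := by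
        rw [abs_mul, abs_of_nonneg (Gp_nonneg l r)]
        exact (mul_le_of_le_one_right (abs_nonneg _) (Gp_le_one h.adm r)).trans a1
      have b2 : |Ode3.chi l ^ 2 * r * (Gp l r - Ode3.chi l ^ 2)| ≤ r * (6 * u * r) := by
        rw [abs_mul, abs_of_nonneg (mul_nonneg (sq_nonneg _) a)]
        exact mul_le_mul (mul_le_of_le_one_left a c2) a2 (abs_nonneg _) a
      have b3 : u * r ^ 2 ≤ u * t ^ 2 :=
        mul_le_mul_of_nonneg_left (pow_le_pow_left₀ a b.le 2) hs.u0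
      rw [abs_mul, abs_two]
      nlinarith [abs_add_le ((Ode3.Gam l r - Ode3.chi l ^ 2 * r) * Gp l r)
        (Ode3.chi l ^ 2 * r * (Gp l r - Ode3.chi l ^ 2))]
  rw [J2, M1, Iz_zero, Iz_zero] at this
  convert this using 1
  · rw [J2, M1]; congr 1; ring
  · ring

variable {C : ℝ} (hC : 0 ≤ C) (hN : ∀ s ∈ Icc 0 (TT l), |Ode3.N4 l s - kk l ^ 2| ≤ C * s)
include hC hN

theorem N_est : |Nm l t - kk l ^ 2 * t| ≤ (C + 24) * t ^ 2 := by
  have := mvt0 (φ := fun s => Nm l s - kk l ^ 2 * s) (K := (C + 24) * t) hs.t0 hs.tT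
    ((Nm_cont h).sub (by fun_prop))
    (fun r a b => (Nm_rder h a b).fun_sub ((rd_id r).const_mul _)) fun r a b => by
      have a0 := abs_le.1 (hN r ⟨a, b.le.trans hs.tT⟩)
      have a1 := Bm_nonneg h.adm r
      have a2 := Bm_le h ⟨a, b.le.trans hs.tT⟩
      have a3 := mul_nonneg (lvr_pos h.adm r).le a1
      have a4 := mul_le_of_le_one_left a1 (lvr_le_one h.adm r)
      have a5 := mul_le_mul_of_nonneg_left b.le hC
      rw [abs_le]
      constructor <;> nlinarith [a0.1, a0.2]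
  rw [Nm_zero h] at this
  simpa [mul_assoc, sq] using this

theorem G_est : |Gp l t - (Ode3.chi l ^ 2 + kk l ^ 2 * t ^ 2 / 2 - 2 * Ode3.chi l ^ 3 * Z1 l t)| ≤
    (C + 54) * u * t ^ 2 := by
  have := mvt0 (φ := fun s => Gp l s - kk l ^ 2 * s ^ 2 / 2 + 2 * Ode3.chi l ^ 3 * Z1 l s)
    (K := (C + 54) * u * t) hs.t0 hs.tT
    (((Gp_cont h).sub (by fun_prop)).add
      ((Iz_cont h continuousOn_const).const_smul (2 * Ode3.chi l ^ 3)))
    (fun r a b => ((Gp_rder h a b).fun_sub ((((rd_id r).fun_pow 2).const_mul _).div_const 2)).fun_add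
      ((Iz_rder h continuousOn_const a b).const_mul _)) fun r a b => by
      have a1 := abs_le.1 (N_est h (hs.mono a b) hC hN)
      have a2 : |lvr 1 l r * (Am l r - Ode3.chi l ^ 3)| ≤ u * (15 * u * r) := by
        rw [abs_mul, abs_of_pos (lvr_pos h.adm r)]
        exact mul_le_mul (hs.hz r a b) (A_est h (hs.mono a b)) (abs_nonneg _) hs.u0
      have a3 : r ^ 2 ≤ u * t := by
        rw [sq]; exact mul_le_mul (b.le.trans hs.tu) b.le a hs.u0
      have a4 : u * (u * r) ≤ u * t :=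
        mul_le_mul_of_nonneg_left ((mul_le_of_le_one_left a hs.u1).trans b.le) hs.u0
      have a5 := mul_le_mul_of_nonneg_left a3 (show 0 ≤ C + 24 by linarith)
      rw [abs_le] at a2 ⊢
      simp only [Nat.cast_ofNat, Nat.add_one_sub_one, pow_one, mul_one]
      constructor <;> nlinarith [a1.1, a1.2, a2.1, a2.2]
  rw [Gp_zero h, Z1, Iz_zero] at this
  convert this using 1
  · rw [Z1]; congr 1; ring
  · ring

theorem Gam_est : |Ode3.Gam l t - (Ode3.chi l ^ 2 * t + kk l ^ 2 * t ^ 3 / 6 -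
    2 * Ode3.chi l ^ 3 * (t * Z1 l t - M1 l t))| ≤ (C + 54) * u * t ^ 3 := by
  have := mvt0 (φ := fun s => Ode3.Gam l s - (Ode3.chi l ^ 2 * s + kk l ^ 2 * s ^ 3 / 6 -
      2 * Ode3.chi l ^ 3 * (s * Z1 l s - M1 l s))) (K := (C + 54) * u * t ^ 2) hs.t0 hs.tT
    ((Gam_cont h).sub (ContinuousOn.sub (by fun_prop) (continuousOn_const.mul
      ((continuousOn_id.mul (Iz_cont h continuousOn_const)).sub (Iz_cont h continuousOn_id)))))
    (fun r a b => (Gam_rder h a b).fun_sub ((((rd_id r).const_mul _).fun_add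
      ((((rd_id r).fun_pow 3).const_mul _).div_const 6)).fun_sub
      ((((rd_id r).fun_mul (Iz_rder h continuousOn_const a b)).fun_sub
        (Iz_rder h continuousOn_id a b)).const_mul _))) fun r a b => by
      refine le_trans (le_of_eq ?_) ((G_est h (hs.mono a b) hC hN).trans
        (mul_le_mul_of_nonneg_left (pow_le_pow_left₀ a b.le 2)
          (mul_nonneg (by linarith) hs.u0)))
      congr 1
      simp only [Z1, id]
      push_cast
      ring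
  rw [Gam_zero h, M1, Iz_zero] at this
  convert this using 1
  · rw [M1]; congr 1; ring
  · ring

end est

/-- **small-time expansions**, names of `PrDef_28` -/
theorem expand (T0 : ℝ) : ∃ C : ℝ, 1 ≤ C ∧ ∀ l, Ok l → TT l ≤ T0 → |k4 l| ≤ C ∧ ∀ t u, Sm l t u →
    |AA l t - Pr.chi l ^ 3| ≤ C * u * t ∧ |NN l t - k4 l ^ 2 * t| ≤ C * t ^ 2 ∧
    |GG l t - Pr.chi l ^ 2| ≤ C * u * t ∧
    |GG l t - (Pr.chi l ^ 2 + k4 l ^ 2 * t ^ 2 / 2 - 2 * Pr.chi l ^ 3 * Z1 l t)| ≤ C * u * t ^ 2 ∧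
    |Pr.Gam l t - Pr.chi l ^ 2 * t| ≤ C * u * t ^ 2 ∧
    |Pr.Gam l t - (Pr.chi l ^ 2 * t + k4 l ^ 2 * t ^ 3 / 6 -
      2 * Pr.chi l ^ 3 * (t * Z1 l t - M1 l t))| ≤ C * u * t ^ 3 ∧
    |XX l t - (Pr.chi l - Pr.chi l ^ 2 * Z1 l t)| ≤ C * u ^ 2 * t ^ 2 ∧
    |J2 l t - 2 * Pr.chi l ^ 4 * M1 l t| ≤ C * u ^ 2 * t ^ 3 := by
  obtain ⟨C, hC, hN⟩ := N4_lip T0
  obtain ⟨K, hK, hD⟩ := Dn_PhiT T0 3
  refine ⟨C + 54 + K, by linarith, fun l hl hT => ⟨(hD l hl.1 hT 0 le_rfl 3 le_rfl 0).trans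
    (by linarith), fun t u hs => ?_⟩⟩
  have h := AP.of_ok hl
  have hN' : ∀ s ∈ Icc 0 (TT l), |Ode3.N4 l s - kk l ^ 2| ≤ C * s := fun s hs => by
    have := hN l h hT 0 ⟨le_rfl, h.TT_nn⟩ s hs
    rwa [N4_zero h, sub_zero, abs_of_nonneg hs.1] at this
  have c0 : 0 ≤ C := by linarith
  have t0 := hs.t0
  have u0 := hs.u0
  have d1 : 15 ≤ C + 54 + K := by linarith
  have d2 : C + 24 ≤ C + 54 + K := by linarith
  have d3 : C + 54 ≤ C + 54 + K := by linarith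
  have d4 : 6 ≤ C + 54 + K := by linarith
  have d5 : 24 ≤ C + 54 + K := by linarith
  generalize C + 54 + K = D at d1 d2 d3 d4 d5 ⊢
  rw [chi_eq h, kk_eq h]
  refine ⟨(A_est h hs).trans ?_, (N_est h hs c0 hN').trans ?_, (G_est0 h hs).trans ?_,
    (G_est h hs c0 hN').trans ?_, (Gam_est0 h hs).trans ?_, (Gam_est h hs c0 hN').trans ?_,
    (X_est h hs).trans ?_, (J2_est h hs).trans ?_⟩ <;> gcongr

/-! ### node sums -/

section nodes
open Finset Crest.Agent.T156.Pp.Area50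
variable {z s : ℕ → ℝ} {N : ℕ}

/-- integration by parts against the step function -/
theorem Iz_node (hz : Lab z N) (h0 : s 0 = 0) (hs : StrictMono s) {F f : ℝ → ℝ}
    (hf : ContinuousOn f (Set.Icc 0 (s N)))
    (hF : ∀ a b, 0 ≤ a → a ≤ b → b ≤ s N → F b - F a = ∫ r in a..b, f r) {k : ℕ} (hk : k ≤ N) :
    Iz (lst z s N) f (s k) =
      z k * F (s k) - z 0 * F 0 - ∑ j ∈ range k, Pr.dm z j * F (s (j + 1)) := by
  have hm := hs.monotone
  have nn : ∀ j, 0 ≤ s j := fun j => h0 ▸ hm (Nat.zero_le j)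
  have hi : IntervalIntegrable f volume 0 (s k) :=
    (hf.mono (Set.Icc_subset_Icc_right (hm hk))).intervalIntegrable_of_Icc (nn k)
  unfold Iz
  rw [lvr_lst hz h0 hm]
  unfold stp
  simp only [add_mul, sum_mul, mul_assoc]
  rw [intervalIntegral.integral_add (hi.const_mul _) ((IntervalIntegrable.sum (range N)
      (f := fun j r => (z (j + 1) - z j) * (ind (s (j + 1)) r * f r))
      fun j _ => (ii_ind hi _).const_mul _).congr fun r _ => by simp only [Finset.sum_apply]),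
    intervalIntegral.integral_const_mul,
    intervalIntegral.integral_finsetSum fun j _ => (ii_ind hi _).const_mul _,
    ← hF 0 _ le_rfl (nn k) (hm hk), ← sum_range_add_sum_Ico _ hk,
    sum_eq_zero (s := Finset.Ico k N) fun j hj => ?_,
    sum_congr rfl (g := fun j => (z (j + 1) - z j) * F (s k) - Pr.dm z j * F (s (j + 1)))
      fun j hj => ?_, sum_sub_distrib, ← sum_mul, sum_range_sub]
  · ring
  · rw [Finset.mem_range] at hj
    have : s (j + 1) ≤ s k := hm hj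
    rw [intervalIntegral.integral_const_mul, int_ind (nn k) hi, cl_of_mem (nn _) this,
      ← hF _ _ (nn _) this (hm hk), Pr.dm]
    ring
  · rw [Finset.mem_Ico] at hj
    rw [intervalIntegral.integral_const_mul, int_ind (nn k) hi,
      cl_of_ge (nn k) (hm (by omega)), intervalIntegral.integral_same, mul_zero]

theorem X2_top (h : AP l) : X2 l (TT l) = 1 - Ode3.Gam l (TT l) := by
  have e : PhiT 1 l (TT l) = phi0 1 := PhiT_end (fun p hp => ⟨(Adm.pos h.adm p hp).1, h.nn p hp⟩) le_rfl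
  obtain ⟨K, hK⟩ := Et_bc bfn_W0 l (TT l)
  have e2 : Dn 1 (PhiT 1 l (TT l)) = fun y => 1 + -1 * W0 (PhiT 1 l (TT l)) y := by
    funext y
    rw [W0, e, Dn_one, Dn_zero, phi0_deriv2 one_pos, phi0_deriv one_pos]
    ring
  have hK' : BC (fun y => -1 * W0 (PhiT 1 l (TT l)) y) K :=
    ⟨continuous_const.mul hK.cont, fun y => by simpa using hK.bd y⟩
  unfold X2 Ode3.Gam Ode3.Et
  rw [e2, EX_add one_pos l _ (BC.const 1) hK', EX_const one_pos, EX_const_mul one_pos]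
  ring

variable (hz : Lab z N) (h0 : s 0 = 0) (hs : StrictMono s)
include hz h0 hs

theorem ap_lst : AP (lst z s N) ∧ TT (lst z s N) = s N :=
  ⟨AP.of_ok (areaS z s N hz h0 hs).1.1, (areaS z s N hz h0 hs).1.2.1⟩

/-- `χ_{z_k} = χ + ∑_{j ≤ k} dm_j q_j` -/
theorem cx_low {k : ℕ} (hk : k ≤ N) : cx (lst z s N) (z k) (s k) =
    Pr.chi (lst z s N) + ∑ j ∈ range k, Pr.dm z j * Pr.Gam (lst z s N) (s (j + 1)) := by
  obtain ⟨h, hT⟩ := ap_lst hz h0 hs
  have nn : 0 ≤ s k := h0 ▸ hs.monotone (Nat.zero_le k)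
  have a := Iz_node hz h0 hs (F := Ode3.Gam (lst z s N)) (hT ▸ Gp_cont h)
    (fun a b ha hab hb => Gam_int h ha hab (hT ▸ hb)) hk
  have b := X2_int h le_rfl nn (hT ▸ hs.monotone hk)
  rw [X2_zero h] at b
  rw [Gam_zero h, Iz] at a
  rw [cx, XX_eq, chi_eq h, Gam_eq]
  linarith

/-- `χ = 1 - ∑ dm_j q_j` -/
theorem chi_sum : Pr.chi (lst z s N) =
    1 - ∑ j ∈ range N, Pr.dm z j * Pr.Gam (lst z s N) (s (j + 1)) := by
  obtain ⟨h, hT⟩ := ap_lst hz h0 hs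
  have a := cx_low hz h0 hs le_rfl
  have b := X2_top h
  rw [hT] at b
  rw [cx, XX_eq, b, hz.top N le_rfl, Gam_eq] at a
  rw [Gam_eq]
  linarith

/-- `χ_{z_k} = 1 - ∑_{j > k} dm_j q_j` -/
theorem cx_up {k : ℕ} (hk : k ≤ N) : cx (lst z s N) (z k) (s k) =
    1 - ∑ j ∈ Finset.Ico k N, Pr.dm z j * Pr.Gam (lst z s N) (s (j + 1)) := by
  rw [cx_low hz h0 hs hk, chi_sum hz h0 hs, ← sum_range_add_sum_Ico _ hk]
  ring

/-- `I2 = ∑_{j ≤ k} dm_j q_j²` -/
theorem I2_sum {k : ℕ} (hk : k ≤ N) : I2 (lst z s N) (z k) (s k) =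
    ∑ j ∈ range k, Pr.dm z j * Pr.Gam (lst z s N) (s (j + 1)) ^ 2 := by
  obtain ⟨h, hT⟩ := ap_lst hz h0 hs
  have c1 : ContinuousOn (fun r => 2 * Ode3.Gam (lst z s N) r * Gp (lst z s N) r)
      (Set.Icc 0 (TT (lst z s N))) := (continuousOn_const.mul (Gam_cont h)).mul (Gp_cont h)
  have a := Iz_node hz h0 hs (F := fun r => Ode3.Gam (lst z s N) r ^ 2) (hT ▸ c1)
    (fun a b ha hab hb => (ftc_r ((Gam_cont h).pow 2) (fun r hr =>
      ((Gam_rder h hr.1 hr.2).fun_pow 2).congr_deriv (by push_cast; ring)) ha hab (hT ▸ hb)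
      (ii_of_cont c1 ⟨ha, hT ▸ hab.trans hb⟩ ⟨ha.trans hab, hT ▸ hb⟩)).symm) hk
  rw [Gam_zero h] at a
  rw [I2, J2, Gam_eq, GG_eq, a]
  ring

omit hz h0 hs in
/-- the same node seen from below: tilt `z k` at the node `k + 1` -/
theorem cx_below (k : ℕ) : cx (lst z s N) (z k) (s (k + 1)) =
    cx (lst z s N) (z (k + 1)) (s (k + 1)) - Pr.dm z k * Pr.Gam (lst z s N) (s (k + 1)) := by
  unfold cx Pr.dm; ring

theorem Z1_node {k : ℕ} (hk : k ≤ N) :
    z k * s k - Z1 (lst z s N) (s k) = ∑ j ∈ range k, Pr.dm z j * s (j + 1) := by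
  have a := Iz_node hz h0 hs (F := fun r => r) (f := fun _ => 1) continuousOn_const
    (fun a b _ _ _ => by simp) hk
  rw [Z1, a]
  ring

theorem M1_node {k : ℕ} (hk : k ≤ N) :
    z k * s k ^ 2 - 2 * M1 (lst z s N) (s k) = ∑ j ∈ range k, Pr.dm z j * s (j + 1) ^ 2 := by
  have a := Iz_node hz h0 hs (F := fun r => r ^ 2 / 2) (f := fun r => r) continuousOn_id
    (fun a b _ _ _ => by rw [integral_id]; ring) hk
  rw [M1, a]
  simp only [← mul_div_assoc, ← sum_div]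
  ring

end nodes

end

end Crest.Agent.T156.Pr.Exp50
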