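import Crest.Agent.T156.PFam_3

/-!
Row 156 (helper3): section 4 of docs/T156_28.md, the `g = 2` family
`wF lam r Y t = lam t S(2t/r - 1) (1 - S(2t/Y - 1))` (stage A: `lam` grows at `Y = 2r`; stage B:
`Y` grows).
-/

set_option autoImplicit false

namespace Crest.Agent.T156.Pr.Fam3

open MeasureTheory Filter Topology Set
open Crest.Agent.R164.GC Crest.Agent.R339.B Crest.Agent.R339.Var Crest.Agent.T157.Pf
open Crest.Agent.T156.Pp

noncomputable section

/-- the smooth step -/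
abbrev St : ℝ → ℝ := Real.smoothTransition
/-- its derivative -/
def St' : ℝ → ℝ := deriv St

theorem St_der (u : ℝ) : HasDerivAt St (St' u) u :=
  ((Real.smoothTransition.contDiff (n := 1)).differentiable (by simp) u).hasDerivAt

theorem St'_cont : Continuous St' :=
  (Real.smoothTransition.contDiff (n := 1)).continuous_deriv (by simp)

theorem St'_nn (u : ℝ) : 0 ≤ St' u := Real.smoothTransition.monotone.deriv_nonneg

theorem St'_lo {u : ℝ} (h : u < 0) : St' u = 0 := by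
  have : St =ᶠ[𝓝 u] fun _ => 0 := by
    filter_upwards [Iio_mem_nhds h] with x hx using Real.smoothTransition.zero_of_nonpos hx.le
  unfold St'; rw [this.deriv_eq, deriv_const]

theorem St'_hi {u : ℝ} (h : 1 < u) : St' u = 0 := by
  have : St =ᶠ[𝓝 u] fun _ => 1 := by
    filter_upwards [Ioi_mem_nhds h] with x hx using Real.smoothTransition.one_of_one_le hx.le
  unfold St'; rw [this.deriv_eq, deriv_const]

theorem exists_Cs : ∃ C : ℝ, 1 ≤ C ∧ ∀ u, St' u ≤ C := by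
  obtain ⟨C, hC⟩ := isCompact_Icc.exists_bound_of_continuousOn (s := Icc (0:ℝ) 1)
    St'_cont.continuousOn
  refine ⟨max C 1, le_max_right _ _, fun u => ?_⟩
  rcases lt_or_ge u 0 with a | a
  · rw [St'_lo a]; positivity
  rcases lt_or_ge 1 u with b | b
  · rw [St'_hi b]; positivity
  · exact le_max_of_le_left ((le_abs_self _).trans (hC u ⟨a, b⟩))

/-- a bound for the slope of the step -/
def Cs : ℝ := Classical.choose exists_Cs
theorem Cs_ge : 1 ≤ Cs := (Classical.choose_spec exists_Cs).1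
theorem St'_le (u : ℝ) : St' u ≤ Cs := (Classical.choose_spec exists_Cs).2 u

theorem mul_St' (u : ℝ) : 0 ≤ (u + 1) * St' u ∧ (u + 1) * St' u ≤ 2 * Cs ∧
    (u + 1) ^ 2 * St' u ≤ 4 * Cs := by
  have c := Cs_ge
  rcases lt_or_ge u 0 with a | a
  · rw [St'_lo a]; simp only [mul_zero]; exact ⟨le_rfl, by linarith, by linarith⟩
  rcases lt_or_ge 1 u with b | b
  · rw [St'_hi b]; simp only [mul_zero]; exact ⟨le_rfl, by linarith, by linarith⟩
  · exact ⟨mul_nonneg (by linarith) (St'_nn u),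
      mul_le_mul (by linarith) (St'_le u) (St'_nn u) (by norm_num),
      mul_le_mul (by nlinarith) (St'_le u) (St'_nn u) (by norm_num)⟩

theorem St_half {u : ℝ} (h : 1 / 2 ≤ u) : 1 / 2 ≤ St u := by
  refine le_trans (le_of_eq ?_) (Real.smoothTransition.monotone h)
  have := expNegInvGlue.pos_of_pos (show (0:ℝ) < 1 / 2 by norm_num)
  unfold Real.smoothTransition
  rw [show (1:ℝ) - 1 / 2 = 1 / 2 by norm_num]
  field_simp
  ring

/-- cutoff at scale `ρ`: `1` below `ρ/2`, `0` above `ρ` -/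
def ct (ρ s : ℝ) : ℝ := 1 - St (2 * s / ρ - 1)

variable {ρ r Y s t lam : ℝ}

theorem ct_nn (ρ s : ℝ) : 0 ≤ ct ρ s := sub_nonneg.2 (Real.smoothTransition.le_one _)
theorem ct_le (ρ s : ℝ) : ct ρ s ≤ 1 := sub_le_self _ (Real.smoothTransition.nonneg _)

theorem ct_lo (h : 0 < ρ) (hs : s ≤ ρ / 2) : ct ρ s = 1 := by
  unfold ct St
  rw [Real.smoothTransition.zero_of_nonpos (by
    rw [sub_nonpos, div_le_one h]; linarith), sub_zero]

theorem ct_hi (h : 0 < ρ) (hs : ρ ≤ s) : ct ρ s = 0 := by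
  unfold ct St
  rw [Real.smoothTransition.one_of_one_le (by
    rw [le_sub_iff_add_le, le_div_iff₀ h]; linarith), sub_self]

theorem ct_half (h : 0 < ρ) (hs : 3 / 4 * ρ ≤ s) : ct ρ s ≤ 1 / 2 := by
  have := St_half (u := 2 * s / ρ - 1) (by rw [le_sub_iff_add_le, le_div_iff₀ h]; linarith)
  unfold ct; linarith

theorem ct_cont (ρ : ℝ) : Continuous (ct ρ) := by unfold ct; fun_prop

theorem ct_der (ρ s : ℝ) : HasDerivAt (ct ρ) (-(St' (2 * s / ρ - 1) * (2 / ρ))) s := by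
  have d : HasDerivAt (fun s => 2 * s / ρ - 1) (2 / ρ) s := by
    simpa using (((hasDerivAt_id' s).const_mul 2).div_const ρ).sub_const 1
  exact ((St_der _).comp s d).const_sub 1

theorem ct_derY (h : ρ ≠ 0) (s : ℝ) :
    HasDerivAt (fun ρ => ct ρ s) (St' (2 * s / ρ - 1) * (2 * s / ρ ^ 2)) ρ := by
  have d : HasDerivAt (fun ρ => 2 * s / ρ - 1) (-(2 * s / ρ ^ 2)) ρ := by
    have := ((hasDerivAt_inv h).const_mul (2 * s)).sub_const 1
    simp only [← div_eq_mul_inv] at this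
    exact this.congr_deriv (by field_simp)
  exact (((St_der _).comp ρ d).const_sub 1).congr_deriv (by ring)

theorem ct_monoY {ρ' : ℝ} (h : 0 < ρ) (hh : ρ ≤ ρ') (hs : 0 ≤ s) : ct ρ s ≤ ct ρ' s := by
  unfold ct
  have : 2 * s / ρ' ≤ 2 * s / ρ := div_le_div_of_nonneg_left (by linarith) h hh
  linarith [Real.smoothTransition.monotone (show 2 * s / ρ' - 1 ≤ 2 * s / ρ - 1 by linarith)]

/-- `∫_0^t s ct ρ s ds` -/
def F0 (ρ t : ℝ) : ℝ := ∫ s in (0:ℝ)..t, s * ct ρ s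
/-- the taper constant -/
def k0 : ℝ := F0 1 1

theorem F0_ii (ρ a b : ℝ) : IntervalIntegrable (fun s => s * ct ρ s) volume a b :=
  (continuous_id'.mul (ct_cont ρ)).intervalIntegrable _ _

theorem F0_lo (h : 0 < ρ) (h0 : 0 ≤ t) (ht : t ≤ ρ / 2) : F0 ρ t = t ^ 2 / 2 := by
  unfold F0
  rw [intervalIntegral.integral_congr (g := fun s => s) (fun s hs => by
    rw [uIcc_of_le h0] at hs
    simp only
    rw [ct_lo h (hs.2.trans ht), mul_one]), integral_id]
  ring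

theorem F0_hi (h : 0 < ρ) (ht : ρ ≤ t) : F0 ρ t = k0 * ρ ^ 2 := by
  have e1 : F0 ρ t = F0 ρ ρ := by
    unfold F0
    rw [← intervalIntegral.integral_add_adjacent_intervals (F0_ii ρ 0 ρ) (F0_ii ρ ρ t),
      intervalIntegral.integral_congr (a := ρ) (b := t) (g := fun _ => 0) (fun s hs => by
        rw [uIcc_of_le ht] at hs
        simp only
        rw [ct_hi h hs.1, mul_zero])]
    simp
  have e2 := intervalIntegral.integral_comp_div (a := 0) (b := ρ) (fun u => u * ct 1 u) h.ne'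
  rw [zero_div, div_self h.ne', smul_eq_mul] at e2
  have e3 : F0 ρ ρ = ρ * ∫ x in (0:ℝ)..ρ, x / ρ * ct 1 (x / ρ) := by
    unfold F0
    rw [← intervalIntegral.integral_const_mul]
    refine intervalIntegral.integral_congr fun s _ => ?_
    unfold ct
    rw [div_one, mul_div_assoc]
    field_simp
  rw [e1, e3, e2]
  unfold k0 F0
  ring

theorem k0_bds : 1 / 8 ≤ k0 ∧ k0 ≤ 25 / 64 := by
  unfold k0 F0
  constructor
  · rw [← intervalIntegral.integral_add_adjacent_intervals (F0_ii 1 0 (1 / 2)) (F0_ii 1 (1 / 2) 1)]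
    have a := F0_lo (ρ := 1) (t := 1 / 2) one_pos (by norm_num) le_rfl
    have b := intervalIntegral.integral_nonneg (μ := volume) (a := 1 / 2) (b := 1)
      (f := fun s => s * ct 1 s) (by norm_num)
      fun s hs => mul_nonneg (by linarith [hs.1]) (ct_nn 1 s)
    unfold F0 at a
    linarith
  · rw [← intervalIntegral.integral_add_adjacent_intervals (F0_ii 1 0 (3 / 4)) (F0_ii 1 (3 / 4) 1)]
    have a := intervalIntegral.integral_mono_on (μ := volume) (a := 0) (b := 3 / 4) (by norm_num)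
      (F0_ii 1 _ _) (continuous_id'.intervalIntegrable _ _)
      fun s hs => mul_le_of_le_one_right hs.1 (ct_le 1 s)
    have b := intervalIntegral.integral_mono_on (μ := volume) (a := 3 / 4) (b := 1) (by norm_num)
      (F0_ii 1 _ _) ((continuous_id'.intervalIntegrable _ _).const_mul (1 / 2))
      fun s hs => by
        have := mul_le_mul_of_nonneg_left (ct_half (s := s) one_pos (by linarith [hs.1]))
          (show 0 ≤ s by linarith [hs.1])
        linarith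
    rw [integral_id] at a
    rw [intervalIntegral.integral_const_mul, integral_id] at b
    linarith

/-- the `g = 2` shape -/
def wF (lam r Y t : ℝ) : ℝ := lam * (t * (1 - ct r t) * ct Y t)

theorem wF_lo (lam : ℝ) (hr : 0 < r) (Y : ℝ) (ht : t ≤ r / 2) : wF lam r Y t = 0 := by
  unfold wF; rw [ct_lo hr ht]; ring

theorem wF_mid (lam : ℝ) (hr : 0 < r) (hY : 0 < Y) (h1 : r ≤ t) (h2 : t ≤ Y / 2) :
    wF lam r Y t = lam * t := by
  unfold wF; rw [ct_hi hr h1, ct_lo hY h2]; ring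

theorem wF_hi (lam r : ℝ) (hY : 0 < Y) (ht : Y ≤ t) : wF lam r Y t = 0 := by
  unfold wF; rw [ct_hi hY ht]; ring

theorem wF_nn (hl : 0 ≤ lam) (r Y : ℝ) (ht : 0 ≤ t) : 0 ≤ wF lam r Y t :=
  mul_nonneg hl (mul_nonneg (mul_nonneg ht (sub_nonneg.2 (ct_le r t))) (ct_nn Y t))

theorem wF_le (hl : 0 ≤ lam) (r Y : ℝ) (ht : 0 ≤ t) : wF lam r Y t ≤ lam * t := by
  refine mul_le_mul_of_nonneg_left ?_ hl
  have a := mul_le_of_le_one_right ht (show 1 - ct r t ≤ 1 by linarith [ct_nn r t])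
  exact (mul_le_of_le_one_right (mul_nonneg ht (sub_nonneg.2 (ct_le r t))) (ct_le Y t)).trans a

theorem wF_split (lam : ℝ) (hr : 0 < r) (hY : 2 * r ≤ Y) (t : ℝ) :
    wF lam r Y t = lam * (t * ct Y t - t * ct r t) := by
  unfold wF
  rcases le_total r t with a | a
  · rw [ct_hi hr a]; ring
  · rw [ct_lo (ρ := Y) (by linarith) (by linarith)]; ring

/-- derivative in the time -/
theorem wF_der (lam r Y t : ℝ) : HasDerivAt (wF lam r Y) (lam * ((1 - ct r t) * ct Y t +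
    (2 * t / r - 1 + 1) * St' (2 * t / r - 1) * ct Y t -
    (1 - ct r t) * ((2 * t / Y - 1 + 1) * St' (2 * t / Y - 1)))) t :=
  (((((hasDerivAt_id' t).fun_mul ((ct_der r t).const_sub 1)).fun_mul
    (ct_der Y t)).const_mul lam).congr_deriv (by ring))

theorem wF_sh (hl : 0 ≤ lam) (r : ℝ) (hY : 0 < Y) : Sh Y (lam * (1 + 2 * Cs)) (wF lam r Y) := by
  refine ⟨by simp [wF], fun t ht => wF_nn hl r Y ht, fun t ht => wF_hi lam r hY ht,
    lip_of_deriv_le (wF_der lam r Y) fun t => ?_⟩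
  rw [abs_mul, abs_of_nonneg hl]
  refine mul_le_mul_of_nonneg_left ?_ hl
  obtain ⟨a1, a2, _⟩ := mul_St' (2 * t / r - 1)
  obtain ⟨b1, b2, _⟩ := mul_St' (2 * t / Y - 1)
  have c1 := sub_nonneg.2 (ct_le r t)
  have c2 : 1 - ct r t ≤ 1 := by linarith [ct_nn r t]
  have d1 := mul_nonneg c1 (ct_nn Y t)
  have d2 := mul_le_one₀ c2 (ct_nn Y t) (ct_le Y t)
  have d3 := mul_nonneg a1 (ct_nn Y t)
  have d4 := mul_le_of_le_one_right a1 (ct_le Y t)
  have d5 := mul_nonneg c1 b1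
  have d6 := mul_le_of_le_one_left b1 c2
  rw [abs_le]; constructor <;> linarith

/-- derivative in the end of the support -/
def dY (lam r Y t : ℝ) : ℝ := lam * (t * (1 - ct r t) * (St' (2 * t / Y - 1) * (2 * t / Y ^ 2)))

theorem wF_derY (lam r : ℝ) (hY : Y ≠ 0) (t : ℝ) :
    HasDerivAt (fun Y => wF lam r Y t) (dY lam r Y t) Y :=
  ((ct_derY hY t).const_mul _).const_mul lam

theorem wF_derL (lam r Y t : ℝ) : HasDerivAt (fun lam => wF lam r Y t) (wF 1 r Y t) lam := by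
  simpa [wF] using (hasDerivAt_id' lam).mul_const (t * (1 - ct r t) * ct Y t)

theorem dY_bds (hl : 0 ≤ lam) (r : ℝ) (hY : 0 < Y) (t : ℝ) :
    0 ≤ dY lam r Y t ∧ dY lam r Y t ≤ lam * (2 * Cs) := by
  have e : dY lam r Y t =
      lam * ((1 - ct r t) * ((2 * t / Y - 1 + 1) ^ 2 * St' (2 * t / Y - 1) / 2)) := by
    unfold dY; field_simp; ring
  obtain ⟨_, _, b⟩ := mul_St' (2 * t / Y - 1)
  have b0 := mul_nonneg (sq_nonneg (2 * t / Y - 1 + 1)) (St'_nn (2 * t / Y - 1))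
  have c1 := sub_nonneg.2 (ct_le r t)
  have c2 : 1 - ct r t ≤ 1 := by linarith [ct_nn r t]
  rw [e]
  exact ⟨mul_nonneg hl (mul_nonneg c1 (by linarith)), mul_le_mul_of_nonneg_left
    ((mul_le_of_le_one_left (by linarith) c2).trans (by linarith)) hl⟩

theorem dY_lo (lam r : ℝ) (hY : 0 < Y) (ht : t < Y / 2) : dY lam r Y t = 0 := by
  unfold dY; rw [St'_lo (by rw [sub_neg, div_lt_one hY]; linarith)]; ring

theorem dY_hi (lam r : ℝ) (hY : 0 < Y) (ht : Y < t) : dY lam r Y t = 0 := by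
  unfold dY; rw [St'_hi (by rw [lt_sub_iff_add_lt, lt_div_iff₀ hY]; linarith)]; ring

theorem dY_cont (lam r t : ℝ) : ContinuousOn (fun Y => dY lam r Y t) (Ioi 0) := by
  unfold dY
  refine continuousOn_const.mul (continuousOn_const.mul ((St'_cont.comp_continuousOn
    ((continuousOn_const.div continuousOn_id fun _ h => ne_of_gt h).sub continuousOn_const)).mul
    (continuousOn_const.div (continuousOn_id.pow 2) fun _ h => pow_ne_zero 2 (ne_of_gt h))))

theorem wF_monoY (hl : 0 ≤ lam) (r : ℝ) {Y' : ℝ} (hY : 0 < Y) (h : Y ≤ Y') (ht : 0 ≤ t) :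
    wF lam r Y t ≤ wF lam r Y' t :=
  mul_le_mul_of_nonneg_left (mul_le_mul_of_nonneg_left (ct_monoY hY h ht)
    (mul_nonneg ht (sub_nonneg.2 (ct_le r t)))) hl

theorem wF_monoL {lam' : ℝ} (h : lam ≤ lam') (r Y : ℝ) (ht : 0 ≤ t) :
    wF lam r Y t ≤ wF lam' r Y t :=
  mul_le_mul_of_nonneg_right h (mul_nonneg (mul_nonneg ht (sub_nonneg.2 (ct_le r t))) (ct_nn Y t))

theorem wF_lipY (hl : 0 ≤ lam) (r : ℝ) {Y' : ℝ} (hY : 0 < Y) (h : Y ≤ Y') (t : ℝ) :
    |wF lam r Y' t - wF lam r Y t| ≤ lam * (2 * Cs) * (Y' - Y) := by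
  have := abs_sub_le_of_rder (f := fun Y => wF lam r Y t) (f' := fun Y => dY lam r Y t) (a := Y)
    (b := Y') (C := lam * (2 * Cs))
    (fun y hy => (wF_derY lam r (hY.trans_le hy.1).ne' t).continuousAt.continuousWithinAt)
    (fun y hy => (wF_derY lam r (hY.trans_le hy.1).ne' t).hasDerivWithinAt) ⟨le_rfl, h⟩ ⟨h, le_rfl⟩
    fun y hy => by
      rw [min_eq_left h] at hy
      obtain ⟨a, b⟩ := dY_bds hl r (hY.trans_le hy.1) t
      rwa [abs_of_nonneg a]
  rwa [abs_of_nonneg (sub_nonneg.2 h)] at this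

/-! ### the mass function -/

theorem Ms_wF (lam : ℝ) (hr : 0 < r) (hY : 2 * r ≤ Y) (t : ℝ) :
    Ms (wF lam r Y) t = lam * (F0 Y t - F0 r t) := by
  unfold Ms F0
  rw [funext (wF_split lam hr hY), intervalIntegral.integral_const_mul,
    intervalIntegral.integral_sub (F0_ii _ _ _) (F0_ii _ _ _)]

theorem Ms_lo (lam : ℝ) (hr : 0 < r) (hY : 2 * r ≤ Y) (h0 : 0 ≤ t) (ht : t ≤ r / 2) :
    Ms (wF lam r Y) t = 0 := by
  rw [Ms_wF lam hr hY, F0_lo hr h0 ht, F0_lo (by linarith) h0 (by linarith)]; ring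

theorem Ms_mid (lam : ℝ) (hr : 0 < r) (hY : 2 * r ≤ Y) (h1 : r ≤ t) (h2 : t ≤ Y / 2) :
    Ms (wF lam r Y) t = lam * (t ^ 2 / 2 - k0 * r ^ 2) := by
  rw [Ms_wF lam hr hY, F0_hi hr h1, F0_lo (by linarith) (by linarith) h2]

theorem Ms_hi (lam : ℝ) (hr : 0 < r) (hY : 2 * r ≤ Y) (ht : Y ≤ t) :
    Ms (wF lam r Y) t = lam * (k0 * (Y ^ 2 - r ^ 2)) := by
  rw [Ms_wF lam hr hY, F0_hi hr (by linarith), F0_hi (by linarith) ht]; ring

theorem Ms_top_bds (hl : 0 ≤ lam) (hr : 0 < r) (hY : 2 * r ≤ Y) :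
    3 / 32 * (lam * Y ^ 2) ≤ Ms (wF lam r Y) Y ∧ Ms (wF lam r Y) Y ≤ lam * Y ^ 2 / 2 := by
  obtain ⟨a, b⟩ := k0_bds
  have r2 : 4 * r ^ 2 ≤ Y ^ 2 := by nlinarith
  have p := sq_nonneg r
  rw [Ms_hi lam hr hY le_rfl]
  have q1 := mul_le_mul_of_nonneg_left (mul_le_mul a (show 3 / 4 * Y ^ 2 ≤ Y ^ 2 - r ^ 2 by linarith)
    (by positivity) (by linarith)) hl
  have q2 := mul_le_mul_of_nonneg_left (mul_le_mul (show k0 ≤ 1 / 2 by linarith)
    (show Y ^ 2 - r ^ 2 ≤ Y ^ 2 by linarith) (by linarith) (by norm_num)) hl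
  constructor <;> linarith

theorem Ms_le_sq (hl : 0 ≤ lam) (r : ℝ) (hY : 0 < Y) (ht : 0 ≤ t) :
    Ms (wF lam r Y) t ≤ lam * t ^ 2 / 2 := by
  have := intervalIntegral.integral_mono_on (μ := volume) ht
    ((wF_sh hl r hY).cont.intervalIntegrable _ _)
    ((continuous_id'.intervalIntegrable _ _).const_mul lam) fun s hs => wF_le hl r Y hs.1
  rw [intervalIntegral.integral_const_mul, integral_id] at this
  unfold Ms; linarith

theorem Ms_ge_sq (hl : 0 ≤ lam) (hr : 0 < r) (hY : 2 * r ≤ Y) (h1 : r ≤ t) (h2 : t ≤ Y) :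
    7 / 256 * (lam * t ^ 2) ≤ Ms (wF lam r Y) t := by
  have key : ∀ t, r ≤ t → t ≤ Y / 2 → 7 / 64 * (lam * t ^ 2) ≤ Ms (wF lam r Y) t := fun t a b => by
    rw [Ms_mid lam hr hY a b]
    have q1 : k0 * r ^ 2 ≤ 25 / 64 * t ^ 2 :=
      mul_le_mul k0_bds.2 (pow_le_pow_left₀ hr.le a 2) (sq_nonneg r) (by norm_num)
    have := mul_le_mul_of_nonneg_left (show 7 / 64 * t ^ 2 ≤ t ^ 2 / 2 - k0 * r ^ 2 by linarith) hl
    linarith
  have p : 0 ≤ lam * t ^ 2 := by positivity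
  rcases le_total t (Y / 2) with a | a
  · linarith [key t h1 a]
  · have q1 := key (Y / 2) (by linarith) le_rfl
    have q2 := (wF_sh hl r (show 0 < Y by linarith)).Ms_mono (by linarith) a
    have q3 := mul_le_mul_of_nonneg_left (pow_le_pow_left₀ (by linarith) h2 2) hl
    linarith

/-- **the `g = 2` family** -/
def FamG : Prop := ∀ b0 c C T0 : ℝ, 1 ≤ b0 → 0 < c → 1 ≤ C → ∃ c2 C2 Y0 η0 l0 : ℝ, 0 < c2 ∧ c2 ≤ 1 ∧
  1 ≤ C2 ∧ 0 < Y0 ∧ Y0 ≤ 1 ∧ 0 < η0 ∧ 0 < l0 ∧ l0 * (1 + 2 * Cs) ≤ 1 / 2 ∧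
  ∀ (η v : ℝ) (J : ℕ) (z : ℕ → ℝ), Base b0 c C η v J z → η ≤ η0 →
  ∀ (N : ℕ) (lam r Y eps : ℝ), J ≤ N → N * v ≤ T0 → 0 ≤ lam → lam ≤ l0 → 0 < r → 2 * r ≤ Y →
    Y ≤ Y0 → C2 * (η + v + lam * Y ^ 2 * r ^ 2) ≤ eps → eps ≤ 1 / 4 →
    (Om v Y (lam * (1 + 2 * Cs)) (omw (wF lam r Y) v) ∧ Ok (lo z v (omw (wF lam r Y) v) N) ∧
      TT (lo z v (omw (wF lam r Y) v) N) = N * v ∧ Y ≤ J * v ∧
      3 / 4 ≤ bb (lo z v (omw (wF lam r Y) v) N) eps ∧
      bb (lo z v (omw (wF lam r Y) v) N) eps ≤ 2 * b0) ∧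
    (∀ t ∈ Icc 0 (J * v), c2 * eps ≤ ee (lo z v (omw (wF lam r Y) v) N) eps t ∧
      (r ≤ t → c2 * (eps + lam * min t Y ^ 2) ≤ ee (lo z v (omw (wF lam r Y) v) N) eps t) ∧
      ee (lo z v (omw (wF lam r Y) v) N) eps t ≤ C2 * (eps + lam * min t Y ^ 2) ∧
      (t ≤ r / 4 → ee (lo z v (omw (wF lam r Y) v) N) eps t ≤ C2 * eps) ∧
      ee (lo z v (omw (wF lam r Y) v) N) eps t ≤ 1 / 2) ∧
    (c2 * (eps + lam * Y ^ 2) ≤ thh b0 (lo z v (omw (wF lam r Y) v) N) eps ∧
      thh b0 (lo z v (omw (wF lam r Y) v) N) eps ≤ C2 * (eps + lam * Y ^ 2)) ∧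
    (∀ t ∈ Icc Y (J * v), |ee (lo z v (omw (wF lam r Y) v) N) eps t -
      thh b0 (lo z v (omw (wF lam r Y) v) N) eps| ≤ C2 * (√Y * (lam * Y ^ 2) + η + v)) ∧
    ∀ t ∈ Icc (J * v) (N * v), c2 * (eps + lam * Y ^ 2) + (1 - Real.exp (-((t - J * v) / 2))) / 2 ≤
      ee (lo z v (omw (wF lam r Y) v) N) eps t ∧ ee (lo z v (omw (wF lam r Y) v) N) eps t ≤ 1

theorem famG_of (H : FamE) : FamG := by
  intro b0 c C T0 hb0 hc hC
  obtain ⟨c2, C2, Y0, η0, hc2, hc21, hC2, hY0, hY1, hη0, H⟩ := H b0 c C T0 hb0 hc hC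
  have cs := Cs_ge
  refine ⟨c2 / 40, 3 * C2, min Y0 (1 / (20 * C2)), η0, 1 / (2 * (1 + 2 * Cs)), by positivity,
    by linarith, by linarith, by positivity, (min_le_left _ _).trans hY1, hη0, by positivity,
    le_of_eq (by field_simp), fun η v J z hB hη N lam r Y eps hN hT hl hl0 hr hY hYY he he' => ?_⟩
  have Y0' : 0 < Y := by linarith
  have Y1 : Y ≤ 1 := hYY.trans ((min_le_left _ _).trans hY1)
  have h := wF_sh hl r Y0'
  have hL : lam * (1 + 2 * Cs) ≤ 1 / 2 := by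
    have := mul_le_mul_of_nonneg_right hl0 (show 0 ≤ 1 + 2 * Cs by linarith)
    rwa [show 1 / (2 * (1 + 2 * Cs)) * (1 + 2 * Cs) = 1 / 2 by field_simp] at this
  obtain ⟨m1, m2⟩ := Ms_top_bds hl hr hY
  have hv := hB.v_pos
  have η0' := base_eta_nn hB
  have CY : C2 * Y ^ 2 ≤ 1 / 20 := by
    have q := mul_le_mul_of_nonneg_left (hYY.trans (min_le_right _ _)) (show 0 ≤ C2 by linarith)
    rw [show C2 * (1 / (20 * C2)) = 1 / 20 by field_simp] at q
    have : C2 * Y * Y ≤ C2 * Y := mul_le_of_le_one_right (by positivity) Y1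
    linarith
  have lr : 0 ≤ lam * Y ^ 2 * r ^ 2 := by positivity
  have e1 : C2 * (η + v + lam * Y ^ 2 * r ^ 2) ≤ eps := by
    have : 0 ≤ C2 * (η + v + lam * Y ^ 2 * r ^ 2) := by positivity
    linarith
  have e2 : η + v + lam * Y ^ 2 * r ^ 2 ≤ eps := (le_mul_of_one_le_left (by positivity) hC2).trans e1
  obtain ⟨h0, h1, h2, h3, h4⟩ := H η v J z hB hη N (wF lam r Y) Y _ eps r hN hT h Y0'.le
    (hYY.trans (min_le_left _ _)) hL (fun t ht => by
      have q1 := Ms_ge_sq hl hr hY ht.1 ht.2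
      have q2 := mul_le_mul_of_nonneg_left (mul_le_mul_of_nonneg_right m2 (sq_nonneg t))
        (show 0 ≤ C2 by linarith)
      have q3 := mul_le_mul_of_nonneg_right CY (show 0 ≤ lam * t ^ 2 by positivity)
      have q4 : 0 ≤ lam * t ^ 2 := by positivity
      linarith)
    (le_trans (mul_le_mul_of_nonneg_left (by
      have := mul_le_mul_of_nonneg_right m2 (sq_nonneg r)
      linarith) (by linarith)) e1) he'
  have mono := fun t (ht : 0 ≤ t) => Ms_le_sq hl r Y0' ht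
  have ge := fun t => Ms_ge_sq (t := t) hl hr hY
  have lo0 := fun t => Ms_lo (t := t) lam hr hY
  have top := fun t => h.Ms_top (t := t)
  have nn := fun t => h.Ms_nn (t := t)
  have om := h.om hv
  generalize lo z v (omw (wF lam r Y) v) N = l at *
  generalize Ms (wF lam r Y) = M at *
  have eps0 : 0 ≤ eps := by linarith
  have lY : 0 ≤ lam * Y ^ 2 := by positivity
  have C0 : 0 ≤ C2 := by linarith
  have lw : ∀ x y, 0 ≤ x → x / 40 ≤ y → c2 / 40 * (eps + x) ≤ c2 * (eps + y) := fun x y hx hy => by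
    have := mul_le_mul_of_nonneg_left (show (eps + x) / 40 ≤ eps + y by linarith) hc2.le
    linarith
  have uw : ∀ x y, y ≤ 2 * eps + 3 * x → C2 * (eps + y) ≤ 3 * C2 * (eps + x) := fun x y hy => by
    have := mul_le_mul_of_nonneg_left (show eps + y ≤ 3 * (eps + x) by linarith) C0
    linarith
  refine ⟨⟨om, h0⟩, fun t ht => ?_, ⟨(lw _ _ lY (by linarith)).trans h2.1,
    h2.2.trans (uw _ _ (by linarith))⟩, fun t ht => (h3 t ht).trans ?_,
    fun t ht => ⟨le_trans ?_ (h4 t ht).1, (h4 t ht).2⟩⟩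
  · obtain ⟨a1, a2, a3, a4⟩ := h1 t ht
    have t0 := ht.1
    have lt : 0 ≤ lam * t ^ 2 := by positivity
    refine ⟨?_, fun a => le_trans ?_ a1, ?_, fun a => a2.trans ?_, a4⟩
    · have := lw 0 (M t) le_rfl (by linarith [nn t t0])
      rw [add_zero] at this
      exact this.trans a1
    · rcases le_total t Y with b | b
      · rw [min_eq_left b]; exact lw _ _ lt (by linarith [ge t a b])
      · rw [min_eq_right b, top t b]; exact lw _ _ lY (by linarith)
    · rcases le_total t Y with b | b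
      · rw [min_eq_left b]
        refine a2.trans ?_
        rw [add_assoc]
        refine uw _ _ ?_
        have q1 := mono (2 * t) (by linarith)
        have q2 := mul_le_mul_of_nonneg_right m2 (sq_nonneg t)
        have q3 : lam * t ^ 2 * Y ^ 2 ≤ lam * t ^ 2 :=
          mul_le_of_le_one_right lt (pow_le_one₀ Y0'.le Y1)
        linarith
      · rw [min_eq_right b]; exact a3.trans (uw _ _ (by linarith))
    · have := uw 0 (M (2 * t) + M Y * t ^ 2) (by
        rw [lo0 (2 * t) (by linarith) (by linarith)]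
        have q2 := mul_le_mul m2 (pow_le_pow_left₀ t0 (show t ≤ r by linarith) 2) (sq_nonneg t)
          (by linarith)
        linarith)
      rw [add_zero, ← add_assoc] at this
      exact this
  · have q1 := mul_le_mul_of_nonneg_left m2 (Real.sqrt_nonneg Y)
    have q2 : 0 ≤ √Y * (lam * Y ^ 2) := by positivity
    have := mul_le_mul_of_nonneg_left (show √Y * M Y + η + v ≤ 3 * (√Y * (lam * Y ^ 2) + η + v) by
      linarith) C0
    linarith
  · linarith [lw _ _ lY (show lam * Y ^ 2 / 40 ≤ M Y by linarith)]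

theorem famG_of_P1 (H : P1B) : FamG := famG_of (famE_of H)

end

end Crest.Agent.T156.Pr.Fam3
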