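import Crest.Agent.T156.PLin_81
import Crest.Agent.T156.Spl_27
import Crest.Agent.T156.FamSq_28
import Crest.Agent.T156.AltP1_3

/-!
Row 156 (helper81): the site constants (A), (B), (H), (E) for the reference lists of the concrete
family (static or spread plateau).
-/

set_option autoImplicit false

noncomputable section

namespace Crest.Agent.T156.Pr.Ref81

open MeasureTheory Set Filter
open Crest.Agent.R164.GC Crest.Agent.R339.B Crest.Agent.R339.Var Crest.Agent.T157.Pf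
open Exp50 (Iz Z1 M1 J2 XX eps0 mu ev hv kc Aq Bq E1 E2 Sm)
open Spr41 (Spr Near)

variable {l l2 : List (ℝ × ℝ)} {b α K δ t x : ℝ}

theorem red' {T1 : ℝ} (h : Ker.Tp T1 l) : ∃ u, Ok u ∧ TT u = T1 ∧ Ker.Same u l T1 ∧
    ∀ s, 0 ≤ s → lvr 1 l s = lvr 1 u s := by
  obtain ⟨a, b, c, -⟩ := h.ext
  obtain ⟨u, o, e, -⟩ := Spl27.exists_ok a
  have tu : TT u = T1 := e.tt.symm.trans b
  have lv : ∀ s, 0 ≤ s → lvr 1 l s = lvr 1 u s := fun s hs => by rw [← e.lv s hs, c]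
  exact ⟨u, o, tu, tu ▸ Ker.same_le o.1 h.adm (tu.trans_le h.mem.2) fun s hs _ => lv s hs.le, lv⟩

/-- **any list with linear tilts near `0`**; the constants depend on the time where the tilt
reaches `1` -/
theorem linRef_tp (T0 K : ℝ) : ∃ K' η1 : ℝ, 1 ≤ K' ∧ K ≤ K' ∧ 0 < η1 ∧
    ∀ (l : List (ℝ × ℝ)) (T1 b α e v t1 t x : ℝ), Ker.Tp T1 l → T1 ≤ T0 →
    (∀ s, 0 ≤ s → s < t1 → |lvr 1 l s - α * s| ≤ K * (s ^ 2 + (e + v))) → 0 ≤ b → b ≤ K → 0 ≤ α →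
    α ≤ K → 0 ≤ e → 0 ≤ v → e ≤ η1 → v ≤ η1 → t1 ≤ T1 → t1 ≤ η1 → 0 ≤ t → t ≤ t1 → 0 ≤ x →
    |x - α * t| ≤ K * (t ^ 2 + (e + v)) → LinRef l b α K' (e + v) t x := by
  obtain ⟨K1, k1, k1', hK1⟩ := exists_ctx T0 K
  obtain ⟨K2, k2, hK2⟩ := Ctx.linRef T0 K1
  have K0 : 0 < K1 := by linarith
  have k3 : K1 ≤ K2 * K1 := le_mul_of_one_le_left K0.le k2
  refine ⟨K2 * K1, min 1 (1 / (12 * K1 ^ 2)), k1'.trans k3, k1.trans k3, by positivity,
    fun l T1 b α e v t1 t x h hT hl b0 b1 a0 a1 e0 v0 e1 v1 tT t2 t0 tt x0 hx => ?_⟩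
  simp only [le_min_iff] at e1 v1 t2
  obtain ⟨u, o, tu, su, lu⟩ := red' h
  obtain ⟨d1, d2⟩ := small_aux k1' e1.2 v1.2 (tt.trans t2.2)
  have w : K * (e + v) ≤ K1 * (e + v) := mul_le_mul_of_nonneg_right k1 (by positivity)
  have hi : ∀ s, 0 ≤ s → s < t1 → |lvr 1 u s - α * s| ≤ K * s ^ 2 + K1 * (e + v) := fun s s0 s1 => by
    rw [← lu s s0]; linarith [hl s s0 s1]
  have cx := hK1 u b α 0 0 (K1 * (e + v)) t1 o (tu ▸ hT)
    ⟨fun s a c => by rw [zero_mul, zero_add]; exact hi s a c, hi⟩ b0 b1 a0 a1 le_rfl zero_le_one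
    (by positivity) d1 le_rfl (t0.trans tt) (tu ▸ tT) t2.1
  have r := hK2 u b α _ t1 t x cx (tu ▸ hT) t0 tt d2 x0 (by
    linarith [mul_le_mul_of_nonneg_right k1 (sq_nonneg t)])
  exact (r.scale (zero_le_one.trans k2) k1' t0).same su lu ⟨t0, tt.trans tT⟩

theorem LinRef.del {δ' : ℝ} (h : LinRef l b α K δ t x) (K0 : 0 ≤ K) (hd : δ ≤ δ') :
    LinRef l b α K δ' t x := by
  have up : ∀ {a X : ℝ}, a ≤ K * (X + δ) → a ≤ K * (X + δ') := fun a =>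
    a.trans (mul_le_mul_of_nonneg_left (by linarith) K0)
  exact ⟨up h.xa, up h.q, up h.cx, up h.A, up h.B, up h.e, up h.h, up h.E1, up h.E2, up h.H⟩

/-- one cell of **(H)** -/
theorem Psi_step (h : Ok l) (b : ℝ) {a a' x x' : ℝ} (a0 : 0 ≤ a) (aa : a ≤ a') (aT : a' ≤ TT l)
    (hl : ∀ u, a ≤ u → u < a' → lvr 1 l u = x) :
    Psi b l x' a' - Psi b l x a = x * (hv b l a' - hv b l a) - 3 * ((x' - x) * hv b l a') +
      2 * eps0 b l * ((x' - x) * a') := by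
  have ap := Pp.Ode3.AP.of_ok h
  have sub : Icc a a' ⊆ Icc 0 (TT l) := Icc_subset_Icc a0 aT
  have key : ∀ f F : ℝ → ℝ, ContinuousOn f (Icc 0 (TT l)) → ContinuousOn F (Icc 0 (TT l)) →
      (∀ u, 0 ≤ u → u < TT l → HasDerivWithinAt F (f u) (Ici u) u) →
      Iz l f a' - Iz l f a = x * (F a' - F a) := fun f F hf hF hd => by
    have := mvt_cmp (f := fun u => Iz l f u - x * F u) (g := fun _ => 0) (g' := fun _ => 0) (E := 0)
      aa (((Exp50.Iz_cont ap hf).sub (continuousOn_const.mul hF)).mono sub)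
      (fun u hu => (Exp50.Iz_rder ap hf (a0.trans hu.1) (hu.2.trans_le aT)).sub
        ((hd u (a0.trans hu.1) (hu.2.trans_le aT)).const_mul x))
      (fun s => hasDerivAt_const s 0) (fun u hu => by rw [hl u hu.1 hu.2]; simp)
    rw [zero_mul, abs_nonpos_iff] at this
    linarith
  have k1 := key (ev b l) (hv b l)
    (continuousOn_const.sub (continuousOn_const.mul (Pp.Ode3.Gp_cont ap)))
    (continuousOn_id.sub (continuousOn_const.mul (Pp.Ode3.Gam_cont ap)))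
    fun u u0 u1 => (hasDerivWithinAt_id u _).sub ((Pp.Ode3.Gam_rder ap u0 u1).const_mul b)
  have k2 := key (fun _ => 1) (fun u => u) continuousOn_const continuousOn_id
    fun u _ _ => hasDerivWithinAt_id u _
  unfold Psi Z1
  linear_combination 4 * k1 - 2 * eps0 b l * k2

/-- **(H)** between two nodes -/
theorem Psi_Ico (h : Ok l) (b : ℝ) {z s : ℕ → ℝ} {i : ℕ} (s0 : 0 ≤ s i) (sm : Monotone s) :
    ∀ m, i ≤ m → s m ≤ TT l → (∀ k, i ≤ k → k < m → ∀ u, s k ≤ u → u < s (k + 1) → lvr 1 l u = z k) →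
    ∑ k ∈ Finset.Ico i m, (z k * (hv b l (s (k + 1)) - hv b l (s k)) -
      3 * ((z (k + 1) - z k) * hv b l (s (k + 1))) + 2 * eps0 b l * ((z (k + 1) - z k) * s (k + 1))) =
      Psi b l (z m) (s m) - Psi b l (z i) (s i) := by
  intro m hm
  induction m, hm using Nat.le_induction with
  | base => intro _ _; simp
  | succ m hm ih =>
    intro hT hl
    rw [Finset.sum_Ico_succ_top hm, ih ((sm m.le_succ).trans hT) fun k a c => hl k a (by omega),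
      ← Psi_step h b (s0.trans (sm hm)) (sm m.le_succ) hT (hl m hm m.lt_succ_self)]
    ring

theorem near_aux {C g B A Q : ℝ} (N : Near C g l l2) (o : Ok l) (o2 : Ok l2) (b0 : 0 ≤ b) (b1 : b ≤ B)
    (a0 : 0 ≤ α) (a1 : α ≤ A) (q1 : |k4 l| ≤ Q) (q2 : |k4 l2| ≤ Q) :
    |eps0 b l2 - eps0 b l| ≤ B * (2 * (C * g)) ∧
      |k3 l2 b α - k3 l b α| ≤ B * ((3 * A + Q) * (C * g)) := by
  have hb : |b| ≤ B := (abs_of_nonneg b0).le.trans b1
  have ha : |α| ≤ A := (abs_of_nonneg a0).le.trans a1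
  have c : ∀ {l : List (ℝ × ℝ)}, Ok l → |chi l| ≤ 1 := fun o => by
    have ap := Pp.Ode3.AP.of_ok o
    rw [Pp.Ode3.chi_eq ap, abs_of_pos (Pp.Ode3.chi_pos ap)]; exact Pp.Ode3.chi_le ap
  have c1 := abs_le.1 (c o)
  have c2 := abs_le.1 (c o2)
  constructor
  · rw [show eps0 b l2 - eps0 b l = b * (-(chi l2 + chi l) * (chi l2 - chi l)) by unfold eps0; ring]
    exact amul hb (amul (abs_le.2 ⟨by linarith, by linarith⟩) N.chi)
  · have i1 := abs_le.1 (amul (c o) (c o))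
    have i2 := abs_le.1 (amul (c o2) (c o2))
    have i3 := abs_le.1 (amul (c o2) (c o))
    have w1 : |chi l2 * chi l2 + chi l2 * chi l + chi l * chi l| ≤ 3 :=
      abs_le.2 ⟨by linarith, by linarith⟩
    have j1 := abs_le.1 q1
    have j2 := abs_le.1 q2
    have w2 : |(k4 l2 + k4 l) / 2| ≤ Q := abs_le.2 ⟨by linarith, by linarith⟩
    have w3 := abs_le.1 (amul ha (amul w1 N.chi))
    have w4 := abs_le.1 (amul w2 N.k4)
    rw [show k3 l2 b α - k3 l b α = b * (α * ((chi l2 * chi l2 + chi l2 * chi l + chi l * chi l) *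
      (chi l2 - chi l)) - (k4 l2 + k4 l) / 2 * (k4 l2 - k4 l)) by unfold k3; ring]
    exact amul hb (abs_le.2 ⟨by linarith, by linarith⟩)

/-- **lists with the tilts of a linear profile below `J v` and tilt `1` from `J v + g` on** -/
theorem lin_spr (b0 c C : ℝ) (hb : 1 ≤ b0) (hc : 0 < c) (hC : 1 ≤ C) : ∃ K η0 : ℝ, 1 ≤ K ∧
    0 < η0 ∧ ∀ (η v : ℝ) (J : ℕ) (z : ℕ → ℝ), Base b0 c C η v J z → η ≤ η0 → v ≤ η0 →
    ∀ (om : ℕ → ℝ) (Y L lam y b g : ℝ) (N : ℕ) (l2 : List (ℝ × ℝ)), Om v Y L om → L ≤ 1 / 2 →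
    0 ≤ Y → Y ≤ J * v → 0 ≤ lam → lam ≤ 1 / 2 → y ≤ J * v → y ≤ η0 →
    (∀ j : ℕ, j * v ≤ y → om j = lam * (j * v)) → 0 ≤ b → b ≤ 2 * b0 → J ≤ N → Ok l2 →
    Spr (J * v) g (lo z v om N) l2 → g ≤ 1 → lvr 1 l2 0 = lvr 1 (lo z v om N) 0 →
    (1 / K ≤ al z v J lam ∧ al z v J lam ≤ K) ∧
    |eps0 b l2 - eps0 b (lo z v om N)| ≤ K * g ∧ |k3 l2 b (al z v J lam)| ≤ K * (lam + L * Y + g) ∧
    ∀ k : ℕ, k * v ≤ y / 2 → ∀ x, 0 ≤ x → |x - z k| ≤ C * v →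
      LinRef l2 b (al z v J lam) K (√η + v) (sig v om k) x := by
  obtain ⟨K1, η1, k1, p1, H⟩ := lin_ref b0 c C hb hc hC
  obtain ⟨K2, η2, k2, k2', p2, H2⟩ := linRef_tp (b0 + 1) (K1 + 2 * b0)
  obtain ⟨CN, cN, hN'⟩ := Spr41.near (b0 + 1)
  obtain ⟨Q, q1, hQ⟩ := Ker.Dn_bound' (b0 + 1) 3
  obtain ⟨K, j1, j2, j3, j4, j5⟩ : ∃ K, K2 ≤ K ∧ 2 * b0 * (2 * CN) ≤ K ∧ 2 * b0 * K1 ≤ K ∧
      2 * b0 * ((3 * K1 + Q) * CN) ≤ K ∧ K1 ≤ K := by
    have f1 : 0 ≤ 2 * b0 * (2 * CN) := by positivity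
    have f2 : 0 ≤ 2 * b0 * K1 := by positivity
    have f3 : 0 ≤ 2 * b0 * ((3 * K1 + Q) * CN) := by positivity
    exact ⟨K2 + 2 * b0 * (2 * CN) + 2 * b0 * K1 + 2 * b0 * ((3 * K1 + Q) * CN), by linarith,
      by linarith, by linarith, by linarith, by linarith⟩
  refine ⟨K, min η1 (min η2 (η2 ^ 2)), k2.trans j1, by positivity,
    fun η v J z h hη hv om Y L lam y b g N l2 ho hL Y0 YJ l0 l1 yJ hy hom b0' b1 hN o2 S g1 e0 => ?_⟩
  simp only [le_min_iff] at hη hv hy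
  obtain ⟨⟨a1, a2, -, a4, a5⟩, a6, a7⟩ := H η v J z h hη.1 hv.1 om Y L lam y b N ho hL YJ l0 l1 yJ
    hy.1 hom b0' b1 hN
  have v0 := h.v_pos
  have K0 : 0 < K1 := by linarith only [k1]
  have α0 : 0 ≤ al z v J lam := le_trans (by positivity) a1
  have hT : J * v + g ≤ b0 + 1 := add_le_add h.hi g1
  have g0 := S.g0
  obtain ⟨o, -⟩ := lo_ok areaS (h.lab.up hN) ho v0 hL
    (YJ.trans (mul_le_mul_of_nonneg_right (Nat.cast_le.2 hN) v0.le))
  obtain ⟨n1, n2⟩ := near_aux (hN' _ _ _ _ S hT) o o2 b0' b1 α0 a2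
    (hQ _ _ S.tp hT 0 le_rfl 3 le_rfl 0) (hQ _ _ S.tp2 hT 0 le_rfl 3 le_rfl 0)
  refine ⟨⟨(one_div_le_one_div_of_le K0 j5).trans a1, a2.trans j5⟩, n1.trans ?_, ?_,
    fun k hk x x0 hx => ?_⟩
  · linarith only [mul_le_mul_of_nonneg_right j2 g0]
  · have d1 := DD_le h.lab ho v0 Y0
    have d0 := DD_nn h.lab 0 om
    have m0 : 0 < 1 - lam := by linarith only [l1]
    have f1 : lam / (1 - lam) ≤ 2 * lam := by rw [div_le_iff₀ m0]; nlinarith only [l0, l1]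
    have f0 : 0 ≤ lam / (1 - lam) := by positivity
    have f2 : b * k4 (lo z v 0 J) ^ 2 / 2 * (lam / (1 - lam)) ≤ 2 * b0 * K1 / 2 * (2 * lam) := by
      gcongr
    have f3 : 0 ≤ b * k4 (lo z v 0 J) ^ 2 / 2 * (lam / (1 - lam)) := by positivity
    have f4 := mul_le_mul_of_nonneg_right j3 l0
    have f5 := mul_le_mul j5 d1 d0 (K0.le.trans j5)
    have f6 := mul_le_mul_of_nonneg_right j4 g0
    have f7 : 0 ≤ K * lam := mul_nonneg (K0.le.trans j5) l0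
    have u1 := abs_le.1 a5
    have u2 := abs_le.1 n2
    rw [abs_le]; constructor <;> linarith only [u1.1, u1.2, u2.1, u2.2, f2, f3, f4, f5, f6, f7]
  · have g0' : 0 ≤ (k:ℝ) * v := by positivity
    have y0 : 0 ≤ y / 2 := g0'.trans hk
    have y1 : y / 2 ≤ y := by linarith only [y0]
    have t0 := ho.sig_nn v0 hL k
    have i1 : K1 ≤ K1 + 2 * b0 := by linarith only [hb]
    refine (H2 l2 _ b _ (√η) v (y / 2) _ x S.tp2 hT (fun s s0 s1 => ?_) b0'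
      (by linarith only [b1, K0]) α0 (a2.trans i1) (Real.sqrt_nonneg η) v0.le
      (Real.sqrt_le_iff.2 ⟨p2.le, hη.2.2⟩) hv.2.1 (by linarith only [y1, yJ, g0]) (y1.trans hy.2.1)
      t0 ((ho.sig_le k).trans hk) x0 ((a7 k hk x x0 hx).xa.trans
        (mul_le_mul_of_nonneg_right i1 (by positivity)))).mono j1 (by positivity) t0
    have e : lvr 1 l2 s = lvr 1 (lo z v om N) s := by
      rcases s0.eq_or_lt with a | a
      · rw [← a]; exact e0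
      · exact S.eq s a (s1.trans_le (y1.trans yJ))
    rw [e]
    exact (a6 s s0 s1).trans (mul_le_mul_of_nonneg_right i1 (by positivity))

end Crest.Agent.T156.Pr.Ref81

namespace Crest.Agent.T156.Alt

open Real Set Filter Topology
open Crest.Agent.R164.GC Crest.Agent.R339.B Crest.Agent.R339.Var Crest.Agent.T157.Pf
open Pr.Ref81 Pr.Exp50

/-- slope of the tilts of the reference list at `0` -/
def Pm.al (p : Pm) (τ : ℝ) : ℝ := Pr.Ref81.al p.z p.v p.J (τ * p.κ)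

/-- the site constants of the family, any plateau with `0 ≤ γ ≤ 1`; the mesh error is `√v` -/
def LinP (K : ℝ) (p : Pm) : Prop := ∀ τ y, p.Mem τ y → ∀ P : Pl, 0 ≤ P.γ → P.γ ≤ 1 → P.x 0 = p.xs →
  (∀ i < P.I, P.x i < P.x (i + 1)) → P.x P.I ≤ 1 →
  (1 / K ≤ p.al τ ∧ p.al τ ≤ K) ∧ |eps0 (p.b τ y) (p.lP P τ y) - p.eps τ| ≤ K * P.γ ∧
  |k3 (p.lP P τ y) (p.b τ y) (p.al τ)| ≤ K * (p.κ + P.γ) ∧
  (∀ k : ℕ, k * p.v ≤ y / 2 → k + 1 < p.J ∧ p.zP P k = p.z k ∧ k * p.v / 2 ≤ p.sP P τ y k ∧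
    p.sP P τ y k ≤ k * p.v ∧ ∀ x, x = p.z k ∨ x = p.z (k - 1) →
      LinRef (p.lP P τ y) (p.b τ y) (p.al τ) K (√p.v) (p.sP P τ y k) x) ∧
  ∀ i m : ℕ, i ≤ m → m * p.v ≤ y / 2 → ∀ H : ℕ → ℝ,
    (∀ k, i ≤ k → k ≤ m → H k = p.sP P τ y k - p.b τ y * p.qP P τ y k) →
    |∑ k ∈ Finset.Ico i m, (p.z k * (H (k + 1) - H k) - 3 * ((p.z (k + 1) - p.z k) * H (k + 1)) +
      2 * eps0 (p.b τ y) (p.lP P τ y) * ((p.z (k + 1) - p.z k) * p.sP P τ y (k + 1)))| ≤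
      K * (|eps0 (p.b τ y) (p.lP P τ y)| * (m * p.v) ^ 3 + (m * p.v) ^ 5 + √p.v)

/-- **(A), (B), (H), (E) for the family** -/
theorem linP (β : ℝ) (hβ : 1 < β) : Cst β LinP := by
  intro c0 C0 hc0 hC0
  have hb : 1 ≤ β ^ 2 := one_le_pow₀ hβ.le
  obtain ⟨K, η0, k1, p0, H⟩ := lin_spr (β ^ 2) c0 C0 hb hc0 hC0
  obtain ⟨C1, c1, h1⟩ := p1 β hβ c0 C0 hc0 hC0
  have K0 : 0 < K := by linarith
  have q1 : 1 ≤ C0 + 1 := by linarith
  have j1 : K ≤ K * (C0 + 1) := le_mul_of_one_le_right K0.le q1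
  have j0 : 0 ≤ K * (C0 + 1) := by positivity
  have j2 : K * (C0 + 1) ≤ 2 * (K * (C0 + 1)) := by linarith
  have j3 : 2 * K ≤ 2 * (K * (C0 + 1)) := by linarith
  have j4 : K ≤ 2 * (K * (C0 + 1)) := j1.trans j2
  obtain ⟨δ, hδ, d0, d1, d2⟩ : ∃ δ : ℝ, 0 < δ ∧ δ ≤ 1 / 8 ∧ δ ≤ η0 ∧ δ ≤ c0 / 2 :=
    ⟨min (1 / 8) (min η0 (c0 / 2)), by positivity, min_le_left _ _,
      (min_le_right _ _).trans (min_le_left _ _), (min_le_right _ _).trans (min_le_right _ _)⟩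
  refine ⟨2 * (K * (C0 + 1)), k1.trans j4, fun A hA c hc hc' => ?_⟩
  filter_upwards [PP3.ev_small β c0 C0 hA hc hc' hδ, h1 A hA c hc hc', eventually_ge_atTop 3]
    with n hS hP n3 p hβ' hn hA' hc'' hp τ y hm P g0 g1 x0 xm x1
  have S := hS p hβ' hn hA' hc'' hp
  obtain ⟨ho, ok, ⟨b1, -⟩, -⟩ := hP p hβ' hn hA' hc'' hp τ y hm
  clear hS hP h1
  subst hβ'
  obtain ⟨k0, r0, m0, t0, t1, ry, yd, -⟩ := PP3.mem_facts S hp.s1 hm
  have hB := hp.base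
  have v0 := hB.v_pos
  have y0 : 0 < y := r0.trans_le ry
  have l0 : 0 ≤ τ * p.κ := by positivity
  have l1 : τ * p.κ ≤ p.κ := mul_le_of_le_one_left k0.le t1
  have kd := S.κ
  have hL : 4 * p.κ ≤ 1 / 2 := by linarith only [kd, d0]
  have e0 := Pr.Sharp81.eta_nn hB
  have ηv : C0 / (p.n : ℝ) ^ p.A + p.v ≤ δ := S.ηv.trans (mul_le_of_le_one_right hδ.le S.μ1)
  have yJ : 2 * y ≤ p.J * p.v := by linarith only [yd, d2, hB.lo]
  have J0 : 0 < (p.J : ℝ) * p.v := hc0.trans_le hB.lo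
  have G : Mem37.Geo c0 C0 _ (2 * y) p P (p.om τ y) := ⟨hB, ⟨ho.zero, ho.nn, ho.supp, fun j =>
    (ho.lip j).trans (mul_le_mul_of_nonneg_right hL v0.le)⟩, yJ,
    Nat.pos_of_ne_zero (fun h => by simp [h] at J0), g0, x0, xm, x1⟩
  have ep : p.eps τ ≤ 1 := by
    have : p.r ^ 2 ≤ 1 := pow_le_one₀ r0.le (by linarith only [ry, yd, d0])
    unfold Pm.eps
    exact mul_le_one₀ (by linarith only [l1, hL]) (sq_nonneg _) this
  have b0 : 0 ≤ p.b τ y := div_nonneg (sub_nonneg.2 ep) (sq_nonneg _)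
  have b2 : p.b τ y ≤ 2 * p.β ^ 2 := by
    have a : 0 ≤ p.μ τ y / C1 := by unfold Pm.μ; positivity
    have : p.b τ y / p.β ^ 2 ≤ 1 := by linarith only [a, b1]
    rw [div_le_one (by positivity)] at this
    linarith only [this, hb]
  have ee : eps0 (p.b τ y) (Pr.lo p.z p.v (p.om τ y) (p.J + p.Nr)) = p.eps τ := by
    have ap := Pp.Ode3.AP.of_ok ok
    have : Pr.chi (p.l τ y) ≠ 0 := by rw [Pp.Ode3.chi_eq ap]; exact (Pp.Ode3.chi_pos ap).ne'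
    change 1 - (1 - p.eps τ) / Pr.chi (p.l τ y) ^ 2 * Pr.chi (p.l τ y) ^ 2 = _
    field_simp; ring
  obtain ⟨⟨a1, a2⟩, a3, a4, a5⟩ := H _ _ _ _ hB (by linarith only [ηv, v0, d1])
    (by linarith only [ηv, e0, d1]) (p.om τ y) (2 * y) (4 * p.κ) (τ * p.κ) y (p.b τ y) P.γ
    (p.J + p.Nr) (p.lO P (p.om τ y)) ho hL (by positivity) yJ l0 (by linarith only [l1, hL, k0])
    (by linarith only [yJ, y0]) (yd.trans d1) (fun j hj => by
      unfold Pm.om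
      rw [PP3.sm_lo (by rw [sub_nonpos, div_le_one y0]; exact hj)]; ring) b0 b2
    (Nat.le_add_right _ _) G.ok (G.spr (g1.trans (p.one_le_Nr v0 (by omega) (by omega)))) g1
    (G.lv_lo le_rfl J0)
  rw [ee] at a3
  have sv : √(C0 / (p.n : ℝ) ^ p.A) + p.v ≤ (C0 + 1) * √p.v := by
    have v1 : p.v ≤ √p.v := Real.le_sqrt_of_sq_le (by nlinarith only [v0, ηv, e0, d0])
    have s2 : √p.v ^ 2 = p.v := Real.sq_sqrt v0.le
    have n0 : 0 < (p.n : ℝ) ^ p.A := by have := S.n1; positivity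
    have u : C0 / (p.n : ℝ) ^ p.A ≤ (C0 * √p.v) ^ 2 := by
      rw [mul_pow, s2, Pm.v, ← mul_div_assoc]
      exact div_le_div_of_nonneg_right (by nlinarith only [hC0, hb, mul_nonneg (sub_nonneg.2 hC0) (sub_nonneg.2 hb), mul_nonneg (sq_nonneg C0) (sub_nonneg.2 hb)]) n0.le
    have := Real.sqrt_le_iff.2 ⟨by positivity, u⟩
    linarith only [this, v1]
  have node : ∀ k : ℕ, k * p.v ≤ y / 2 → k + 1 < p.J ∧ p.zP P k = p.z k ∧
      k * p.v / 2 ≤ p.sP P τ y k ∧ p.sP P τ y k ≤ k * p.v ∧ ∀ x, x = p.z k ∨ x = p.z (k - 1) →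
      LinRef (p.lP P τ y) (p.b τ y) (p.al τ) (K * (C0 + 1)) (√p.v) (p.sP P τ y k) x := fun k hk => by
    have kJ : k + 1 < p.J := by
      have : ((k + 1 : ℕ) : ℝ) * p.v < p.J * p.v := by
        push_cast; linarith only [hk, yd, ηv, e0, d2, hB.lo, hc0]
      exact_mod_cast lt_of_mul_lt_mul_right this v0.le
    have e : p.sP P τ y k = Pr.sig p.v (p.om τ y) k := Mem37.sP_lo (om := p.om τ y) (by omega)
    refine ⟨kJ, Mem37.zP_lo (by omega), e ▸ ho.sig_ge v0 hL k, e ▸ ho.sig_le k, fun x hx => ?_⟩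
    have zn : ∀ j, 0 ≤ p.z j := fun j => hB.lab.pos.le.trans (hB.lab.mono (Nat.zero_le j))
    rw [e]
    refine ((a5 k hk x (by rcases hx with h | h <;> exact h ▸ zn _) ?_).del K0.le sv).scale K0.le q1
      (ho.sig_nn v0 hL k)
    rcases hx with h | h
    · rw [h, sub_self, abs_zero]; positivity
    · rw [h]
      refine (Pr.Sharp81.lab_abs hB (by omega) (by omega)).trans
        (mul_le_mul_of_nonneg_left ?_ (by linarith only [hC0]))
      rcases k with _ | k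
      · simp [v0.le]
      · rw [Nat.add_sub_cancel, abs_sub_comm]; push_cast
        rw [show ((k:ℝ) + 1) * p.v - k * p.v = p.v by ring, abs_of_pos v0]
  refine ⟨⟨(one_div_le_one_div_of_le K0 j4).trans a1, a2.trans j4⟩,
    a3.trans (mul_le_mul_of_nonneg_right j4 g0), a4.trans ?_, fun k hk => ?_,
    fun i m him hm' Hh hH => ?_⟩
  · have : 4 * p.κ * (2 * y) ≤ p.κ := by nlinarith only [k0, yd, d0]
    calc _ ≤ K * (2 * (p.κ + P.γ)) := mul_le_mul_of_nonneg_left (by linarith only [this, l1, g0]) K0.le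
      _ = 2 * K * (p.κ + P.γ) := by ring
      _ ≤ _ := mul_le_mul_of_nonneg_right j3 (by positivity)
  · obtain ⟨u1, u2, u3, u4, u5⟩ := node k hk
    exact ⟨u1, u2, u3, u4, fun x hx => (u5 x hx).mono j2 (Real.sqrt_nonneg _) (G.sP_nn k)⟩
  · have mv : ∀ k : ℕ, k ≤ m → (k:ℝ) * p.v ≤ m * p.v := fun k hk =>
      mul_le_mul_of_nonneg_right (Nat.cast_le.2 hk) v0.le
    have mJ := (node m hm').1
    have e := Psi_Ico G.ok (p.b τ y) (z := p.zP P) (G.sP_nn i) G.sP_mono m him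
      (G.sP_le_tt (by unfold Pm.NP; omega)) fun k _ _ u => G.ref.2.2.1 k u
    have bd : ∀ k, k ≤ m → |Psi (p.b τ y) (p.lP P τ y) (p.zP P k) (p.sP P τ y k)| ≤ K * (C0 + 1) *
        (|eps0 (p.b τ y) (p.lP P τ y)| * (m * p.v) ^ 3 + (m * p.v) ^ 5 + √p.v) := fun k hk => by
      obtain ⟨-, u2, -, u4, u5⟩ := node k ((mv k hk).trans hm')
      have w0 : 0 ≤ p.sP P τ y k := G.sP_nn k
      have w1 := u4.trans (mv k hk)
      rw [u2]
      exact (u5 _ (Or.inl rfl)).H.trans (by gcongr)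
    have w1 := abs_le.1 (bd m le_rfl)
    have w2 := abs_le.1 (bd i him)
    rw [Finset.sum_congr rfl (g := fun k => p.zP P k * (hv (p.b τ y) (p.lP P τ y) (p.sP P τ y (k + 1)) -
      hv (p.b τ y) (p.lP P τ y) (p.sP P τ y k)) - 3 * ((p.zP P (k + 1) - p.zP P k) *
      hv (p.b τ y) (p.lP P τ y) (p.sP P τ y (k + 1))) + 2 * eps0 (p.b τ y) (p.lP P τ y) *
      ((p.zP P (k + 1) - p.zP P k) * p.sP P τ y (k + 1))) fun k hk => by
        rw [Finset.mem_Ico] at hk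
        rw [hH k hk.1 hk.2.le, hH (k + 1) (by omega) hk.2, Mem37.zP_lo (k := k) (by omega),
          Mem37.zP_lo (k := k + 1) (by omega)]
        rfl]
    change _ = Psi (p.b τ y) (p.lP P τ y) (p.zP P m) (p.sP P τ y m) -
      Psi (p.b τ y) (p.lP P τ y) (p.zP P i) (p.sP P τ y i) at e
    refine (congrArg abs e).le.trans (abs_le.2 ⟨?_, ?_⟩) <;> linarith only [w1.1, w1.2, w2.1, w2.2]

end Crest.Agent.T156.Alt

end
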