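import Crest.Agent.T156.PRef_81
import Crest.Agent.T156.PExpB_50
import Crest.Agent.T156.Top_31
import Crest.Agent.T156.PrU_28

/-!
Row 156 (helper81): text (P), the site constants (A), (B), (H), (E) of docs/T156_58.md for the
profiles whose displacement is linear near `0`.
-/

set_option autoImplicit false

namespace Crest.Agent.T156.Pr.Ref81

open MeasureTheory Set Filter
open Crest.Agent.R164.GC Crest.Agent.R339.B Crest.Agent.R339.Var Crest.Agent.T157.Pf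
open Crest.Agent.T156.Pp.Ode3 (AP X2)
open Exp50 (Iz Z1 M1 J2 XX eps0 mu ev hv kc Aq Bq E1 E2 Sm)

noncomputable section

variable {l l2 : List (ℝ × ℝ)} {b α Λ r K δ t1 s t x : ℝ}

/-- primitive of `x h' - 3 h + 2 ε σ` in the label -/
def Psi (b : ℝ) (l : List (ℝ × ℝ)) (x t : ℝ) : ℝ :=
  4 * Iz l (ev b l) t - 3 * (x * hv b l t) + 2 * eps0 b l * (x * t - Z1 l t)

theorem hd_q (c d s : ℝ) :
    HasDerivAt (fun s => c * s ^ 2 / 2 + d * s ^ 4 / 4) (c * s + d * s ^ 3) s := by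
  have := (((hasDerivAt_pow 2 s).const_mul c).div_const 2).add
    (((hasDerivAt_pow 4 s).const_mul d).div_const 4)
  refine HasDerivAt.congr_deriv this ?_
  norm_num
  ring

theorem pw (t0 : 0 ≤ t) (t1 : t ≤ 1) (d0 : 0 ≤ δ) (d1 : δ ≤ 1) :
    ∀ k : ℕ, (t + δ) ^ k ≤ t ^ k + (2 ^ k - 1) * δ
  | 0 => by simp
  | k + 1 => by
    have a := mul_le_mul_of_nonneg_right (pw t0 t1 d0 d1 k) t0
    have c : (t + δ) ^ k * δ ≤ 2 ^ k * δ :=
      mul_le_mul_of_nonneg_right (pow_le_pow_left₀ (by positivity) (by linarith) k) d0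
    have e : (2 ^ k - 1) * δ * t ≤ (2 ^ k - 1) * δ :=
      mul_le_of_le_one_right (mul_nonneg (sub_nonneg.2 (one_le_pow₀ one_le_two)) d0) t1
    rw [pow_succ, pow_succ, pow_succ]
    linarith

namespace Ctx

theorem Iz_near (h : Ctx l b α Λ r K δ t1) {f g g' : ℝ → ℝ} {E : ℝ}
    (hf : ContinuousOn f (Icc 0 (TT l))) (hg : ∀ s, HasDerivAt g (g' s) s) (g0 : g 0 = 0)
    (h0 : 0 ≤ t) (h1 : t ≤ t1) (hb : ∀ u ∈ Ico 0 t, |lvr 1 l u * f u - g' u| ≤ E) :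
    |Iz l f t - g t| ≤ E * t := by
  have := mvt_cmp h0 ((Exp50.Iz_cont h.ap hf).mono (Icc_subset_Icc le_rfl (h1.trans h.t1T)))
    (fun u hu => Exp50.Iz_rder h.ap hf hu.1 ((hu.2.trans_le h1).trans_le h.t1T)) hg hb
  simpa [Exp50.Iz_zero, g0] using this

theorem zD (h : Ctx l b α Λ r K δ t1) (h1 : t ≤ t1) {u : ℝ} (hu : u ∈ Ico 0 t) :
    |lvr 1 l u - α * u| ≤ Λ * t + (K * t ^ 2 + δ) :=
  (h.lin.lo u hu.1 (hu.2.trans_le h1)).trans (by
    have := h.L0; have := h.K1; have := hu.1; have := hu.2.le; gcongr)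

theorem Z1_lo (h : Ctx l b α Λ r K δ t1) (h0 : 0 ≤ t) (h1 : t ≤ t1) :
    |Z1 l t - α * t ^ 2 / 2| ≤ (Λ * t + (K * t ^ 2 + δ)) * t := by
  have := h.Iz_near (f := fun _ => 1) continuousOn_const (hd_q α 0) (by simp) h0 h1
    (fun u hu => by simpa using h.zD h1 hu)
  simpa [Z1] using this

theorem M1_lo (h : Ctx l b α Λ r K δ t1) (h0 : 0 ≤ t) (h1 : t ≤ t1) :
    |M1 l t - α * t ^ 3 / 3| ≤ (Λ * t + (K * t ^ 2 + δ)) * t * t := by
  have := h.Iz_near (f := fun s => s) continuousOn_id (hd_cub α 0) (by simp) h0 h1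
    (E := (Λ * t + (K * t ^ 2 + δ)) * t) (fun u hu => by
      refine (le_of_eq ?_).trans (amul (h.zD h1 hu) ((abs_of_nonneg hu.1).le.trans hu.2.le))
      congr 1; ring)
  simpa [M1] using this

theorem k3_le (h : Ctx l b α Λ r K δ t1) : |k3 l b α| ≤ 2 * K ^ 2 := by
  have a := abs_le.1 (amul (h.chiP 3) h.absa)
  have c : |chi l ^ 3 * α - k4 l ^ 2 / 2| ≤ 2 * K := by
    rw [abs_le]; constructor <;> linarith [a.1, a.2, h.kK, sq_nonneg (k4 l), h.K1]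
  exact (amul h.absb c).trans (le_of_eq (by ring))

theorem eps_le (h : Ctx l b α Λ r K δ t1) : |eps0 b l| ≤ 2 * K := by
  have a := abs_le.1 (amul h.absb (h.chiP 2))
  unfold eps0
  rw [abs_le]; constructor <;> linarith [a.1, a.2, h.K1]

theorem err_le (h : Ctx l b α Λ r K δ t1) (h0 : 0 ≤ t) :
    2 * K * (Λ * t) + 93 * K ^ 2 * (t ^ 2 + δ) ≤ 93 * K ^ 2 * (Λ * t + (K * t ^ 2 + δ)) := by
  have K1 := h.K1
  have a : 2 * K * (Λ * t) ≤ 93 * K ^ 2 * (Λ * t) :=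
    mul_le_mul_of_nonneg_right (by nlinarith) (mul_nonneg h.L0 h0)
  have c : 93 * K ^ 2 * t ^ 2 ≤ 93 * K ^ 2 * (K * t ^ 2) :=
    mul_le_mul_of_nonneg_left (le_mul_of_one_le_left (sq_nonneg t) K1) (by positivity)
  linarith

theorem ev_lo (h : Ctx l b α Λ r K δ t1) (h0 : 0 ≤ t) (h1 : t ≤ t1) :
    |ev b l t - eps0 b l - k3 l b α * t ^ 2| ≤ 93 * K ^ 2 * (Λ * t + (K * t ^ 2 + δ)) * t :=
  (h.e_lo h0 h1).trans (mul_le_mul_of_nonneg_right (h.err_le h0) h0)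

theorem hv_lo (h : Ctx l b α Λ r K δ t1) (h0 : 0 ≤ t) (h1 : t ≤ t1) :
    |hv b l t - eps0 b l * t - k3 l b α * t ^ 3 / 3| ≤
      93 * K ^ 2 * (Λ * t + (K * t ^ 2 + δ)) * t ^ 2 :=
  (h.h_lo h0 h1).trans (mul_le_mul_of_nonneg_right (h.err_le h0) (sq_nonneg t))

/-- **(H)**, weak form -/
theorem Psi_lo (h : Ctx l b α Λ r K δ t1) (h0 : 0 ≤ t) (h1 : t ≤ t1)
    (hx : |x - α * t| ≤ Λ * t + (K * t ^ 2 + δ)) :
    |Psi b l x t| ≤ 2000 * K ^ 3 * ((Λ * t + (K * t ^ 2 + δ)) * t * (|eps0 b l| + t ^ 2 + δ * t)) := by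
  have K1 := h.K1
  have d0 := h.d0
  have L0 := h.L0
  have tt : t ≤ 1 := h1.trans h.t11
  obtain ⟨D, hD⟩ : ∃ D, D = Λ * t + (K * t ^ 2 + δ) := ⟨_, rfl⟩
  have D0 : 0 ≤ D := by rw [hD]; positivity
  have D1 : D ≤ 2 * K * t + δ := by
    have a := mul_le_mul_of_nonneg_right (h.L1.trans K1) h0
    have c : K * t ^ 2 ≤ K * t := mul_le_mul_of_nonneg_left (by nlinarith) (by linarith)
    linarith
  have e0 := abs_nonneg (eps0 b l)
  have i1 := h.Iz_near (f := ev b l) (continuousOn_const.sub (continuousOn_const.mul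
    (Pp.Ode3.Gp_cont h.ap))) (hd_q (α * eps0 b l) (α * k3 l b α)) (by simp) h0 h1
    (E := D * (|eps0 b l| + 2 * K ^ 2 * t ^ 2 + 93 * K ^ 2 * D * t) + K * t * (93 * K ^ 2 * D * t))
    (fun u hu => by
      have u0 := hu.1
      have u1 := hu.2.le
      have a : |ev b l u - eps0 b l - k3 l b α * u ^ 2| ≤ 93 * K ^ 2 * D * t :=
        (h.ev_lo u0 (u1.trans h1)).trans (by rw [hD]; gcongr)
      have a' := abs_le.1 a
      have c := abs_le.1 (amul h.k3_le (show |u ^ 2| ≤ t ^ 2 by rw [abs_of_nonneg (sq_nonneg u)]; gcongr))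
      have c' : |ev b l u| ≤ |eps0 b l| + 2 * K ^ 2 * t ^ 2 + 93 * K ^ 2 * D * t := by
        rw [abs_le]
        constructor <;> linarith [a'.1, a'.2, c.1, c.2, le_abs_self (eps0 b l), neg_abs_le (eps0 b l)]
      have p := abs_le.1 (amul (hD ▸ h.zD h1 hu) c')
      have q := abs_le.1 (amul (amul h.absa ((abs_of_nonneg u0).le.trans u1)) a)
      rw [abs_le]; constructor <;> linarith [p.1, p.2, q.1, q.2])
  have a := hD ▸ h.hv_lo h0 h1
  have a' := abs_le.1 a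
  have c := abs_le.1 (amul h.k3_le (show |t ^ 3| ≤ t ^ 3 from (abs_of_nonneg (by positivity)).le))
  have c2 := abs_le.1 (amul (le_refl |eps0 b l|) (abs_of_nonneg h0).le)
  have p3 : 0 ≤ K ^ 2 * t ^ 3 := by positivity
  have c' : |hv b l t| ≤ |eps0 b l| * t + K ^ 2 * t ^ 3 + 93 * K ^ 2 * D * t ^ 2 := by
    rw [abs_le]; constructor <;> linarith [a'.1, a'.2, c.1, c.2, c2.1, c2.2]
  have j1 := abs_le.1 i1
  have j2 := abs_le.1 (amul (hD ▸ hx) c')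
  have j3 := abs_le.1 (amul (amul h.absa (abs_of_nonneg h0).le) a)
  have j4 := abs_le.1 (amul (le_refl |eps0 b l|) (amul (hD ▸ hx) (abs_of_nonneg h0).le))
  have j5 := abs_le.1 (amul (le_refl |eps0 b l|) (hD ▸ h.Z1_lo h0 h1))
  rw [← hD]
  have K2 : K ^ 2 ≤ K ^ 3 := pow_le_pow_right₀ K1 (by norm_num)
  have K3 : 1 ≤ K ^ 3 := one_le_pow₀ K1
  have m1 : D * t * |eps0 b l| ≤ K ^ 3 * (D * t * |eps0 b l|) :=
    le_mul_of_one_le_left (by positivity) K3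
  have m2 : K ^ 2 * (D * t ^ 3) ≤ K ^ 3 * (D * t ^ 3) := mul_le_mul_of_nonneg_right K2 (by positivity)
  have m3 : K ^ 2 * (D * t ^ 2) * D ≤ K ^ 2 * (D * t ^ 2) * (2 * K * t + δ) :=
    mul_le_mul_of_nonneg_left D1 (by positivity)
  have m4 : K ^ 2 * (D * t ^ 2 * δ) ≤ K ^ 3 * (D * t ^ 2 * δ) :=
    mul_le_mul_of_nonneg_right K2 (by positivity)
  have n1 : 0 ≤ D * t * |eps0 b l| := by positivity
  have n2 : 0 ≤ K ^ 3 * (D * t ^ 3) := by positivity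
  have n3 : 0 ≤ K ^ 3 * (D * t ^ 2 * δ) := by positivity
  unfold Psi
  rw [abs_le]
  constructor <;> linarith [j1.1, j1.2, j2.1, j2.2, j3.1, j3.2, j4.1, j4.2, j5.1, j5.2]

end Ctx

/-- **(H)** at the nodes -/
theorem Psi_node {z s : ℕ → ℝ} {N : ℕ} (hz : Lab z N) (h0 : s 0 = 0) (hs : StrictMono s) (b : ℝ)
    {k : ℕ} (hk : k ≤ N) :
    ∑ j ∈ Finset.range k, (z j * (hv b (lst z s N) (s (j + 1)) - hv b (lst z s N) (s j)) -
      3 * (dm z j * hv b (lst z s N) (s (j + 1))) + 2 * eps0 b (lst z s N) * (dm z j * s (j + 1))) =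
      Psi b (lst z s N) (z k) (s k) := by
  obtain ⟨h, hT⟩ := Exp50.ap_lst hz h0 hs
  have cG := Pp.Ode3.Gp_cont h
  have a := Exp50.Iz_node hz h0 hs (F := hv b (lst z s N)) (f := ev b (lst z s N))
    (hT ▸ continuousOn_const.sub (continuousOn_const.mul cG)) (fun p q hp hpq hq => by
      have i := Pp.Ode3.Gam_int h hp hpq (hT ▸ hq)
      have ii : IntervalIntegrable (GG (lst z s N)) volume p q :=
        (cG.mono (Icc_subset_Icc hp (hT ▸ hq))).intervalIntegrable_of_Icc hpq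
      unfold hv ev
      rw [intervalIntegral.integral_sub intervalIntegrable_const (ii.const_mul b),
        intervalIntegral.integral_const_mul, intervalIntegral.integral_const]
      change Gam _ q - Gam _ p = ∫ r in p..q, GG _ r at i
      rw [← i, smul_eq_mul]; ring) hk
  have g0 : hv b (lst z s N) 0 = 0 := by
    unfold hv; rw [show Gam (lst z s N) 0 = 0 from Pp.Ode3.Gam_zero h]; ring
  have tel := Finset.sum_range_sub (fun j => z j * hv b (lst z s N) (s j)) k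
  have e : ∀ j, z j * (hv b (lst z s N) (s (j + 1)) - hv b (lst z s N) (s j)) -
      3 * (dm z j * hv b (lst z s N) (s (j + 1))) + 2 * eps0 b (lst z s N) * (dm z j * s (j + 1)) =
      (z (j + 1) * hv b (lst z s N) (s (j + 1)) - z j * hv b (lst z s N) (s j)) -
      4 * (dm z j * hv b (lst z s N) (s (j + 1))) + 2 * eps0 b (lst z s N) * (dm z j * s (j + 1)) :=
    fun j => by unfold dm; ring
  simp only [e, Finset.sum_add_distrib, Finset.sum_sub_distrib _ _, ← Finset.mul_sum] at tel ⊢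
  rw [tel, ← Exp50.Z1_node hz h0 hs hk, Psi, a, h0, g0]
  ring

/-- the site constants at the time `t` and the label `x` of a linear profile -/
structure LinRef (l : List (ℝ × ℝ)) (b α K δ t x : ℝ) : Prop where
  xa : |x - α * t| ≤ K * (t ^ 2 + δ)
  q : |Gam l t - chi l ^ 2 * t| ≤ K * (t ^ 3 + δ)
  cx : |Exp50.cx l x t - chi l| ≤ K * (t ^ 2 + δ)
  A : |Aq b l x t - eps0 b l| ≤ K * (|eps0 b l| * t ^ 2 + t ^ 3 + δ)
  B : |Bq l x t| ≤ K * (t ^ 4 + δ)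
  e : |ev b l t - eps0 b l - k3 l b α * t ^ 2| ≤ K * (t ^ 3 + δ)
  h : |hv b l t - eps0 b l * t - k3 l b α * t ^ 3 / 3| ≤ K * (t ^ 4 + δ)
  E1 : |E1 b l x t| ≤ K * (eps0 b l ^ 2 * t + |eps0 b l| * t ^ 3 + t ^ 4 + δ)
  E2 : |E2 b l x t| ≤ K * (|eps0 b l| * t ^ 2 + t ^ 3 + δ)
  H : |Psi b l x t| ≤ K * (|eps0 b l| * t ^ 3 + t ^ 5 + δ)

theorem LinRef.scale {c : ℝ} (h : LinRef l b α K (c * δ) t x) (K0 : 0 ≤ K) (c1 : 1 ≤ c)
    (t0 : 0 ≤ t) : LinRef l b α (K * c) δ t x := by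
  have key : ∀ {y X : ℝ}, y ≤ K * (X + c * δ) → 0 ≤ X → y ≤ K * c * (X + δ) := fun {y X} a h0 => by
    have := mul_le_mul_of_nonneg_left (le_mul_of_one_le_left h0 c1) K0
    linarith
  exact ⟨key h.xa (by positivity), key h.q (by positivity), key h.cx (by positivity),
    key h.A (by positivity), key h.B (by positivity), key h.e (by positivity),
    key h.h (by positivity), key h.E1 (by positivity), key h.E2 (by positivity),
    key h.H (by positivity)⟩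

theorem Iz_same {f f2 : ℝ → ℝ} (hl : ∀ s, 0 ≤ s → lvr 1 l2 s = lvr 1 l s) (t0 : 0 ≤ t)
    (hf : ∀ s ∈ Icc 0 t, f2 s = f s) : Iz l2 f2 t = Iz l f t :=
  intervalIntegral.integral_congr fun s hs => by
    rw [uIcc_of_le t0] at hs
    simp only [hl s hs.1, hf s hs]

/-- the site constants only see the tilt function -/
theorem same50 {T : ℝ} (h : Ker.Same l l2 T) (hl : ∀ s, 0 ≤ s → lvr 1 l2 s = lvr 1 l s)
    (ht : t ∈ Icc 0 T) (b x α : ℝ) :
    Z1 l2 t = Z1 l t ∧ M1 l2 t = M1 l t ∧ J2 l2 t = J2 l t ∧ Exp50.cx l2 x t = Exp50.cx l x t ∧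
    Exp50.I2 l2 x t = Exp50.I2 l x t ∧ eps0 b l2 = eps0 b l ∧ mu b l2 x t = mu b l x t ∧
    ev b l2 t = ev b l t ∧ hv b l2 t = hv b l t ∧ kc b l2 = kc b l ∧ k3 l2 b α = k3 l b α ∧
    Aq b l2 x t = Aq b l x t ∧ Bq l2 x t = Bq l x t ∧ E1 b l2 x t = E1 b l x t ∧
    E2 b l2 x t = E2 b l x t ∧ Psi b l2 x t = Psi b l x t := by
  have m : ∀ s ∈ Icc 0 t, s ∈ Icc 0 T := fun s hs => ⟨hs.1, hs.2.trans ht.2⟩
  have a1 : Z1 l2 t = Z1 l t := Iz_same hl ht.1 fun _ _ => rfl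
  have a2 : M1 l2 t = M1 l t := Iz_same hl ht.1 fun _ _ => rfl
  have a3 : J2 l2 t = J2 l t := Iz_same hl ht.1 fun s hs => by
    rw [h.gam s (m s hs), h.gg s (m s hs)]
  have a4 : Iz l2 (ev b l2) t = Iz l (ev b l) t := Iz_same hl ht.1 fun s hs => by
    unfold ev; rw [h.gg s (m s hs)]
  have a5 : XX l2 t = XX l t := by
    unfold XX Et; rw [h.dk 1 t ht.1, h.ex t ht _ (Ker.Dk_bd 1 l t)]
  simp only [Psi, a4, Exp50.E1, Exp50.E2, Aq, Bq, Exp50.I2, mu, Exp50.cx, eps0, ev, hv, kc, k3, a1,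
    a2, a3, a5, h.gam t ht, h.gg t ht, h.chi, h.k4, and_self]

theorem LinRef.same {T : ℝ} (h : Ker.Same l l2 T) (hl : ∀ s, 0 ≤ s → lvr 1 l2 s = lvr 1 l s)
    (ht : t ∈ Icc 0 T) (r : LinRef l b α K δ t x) : LinRef l2 b α K δ t x := by
  obtain ⟨-, -, -, a4, -, a6, -, a8, a9, -, a11, a12, a13, a14, a15, a16⟩ := same50 h hl ht b x α
  refine ⟨r.xa, ?_, ?_, ?_, ?_, ?_, ?_, ?_, ?_, ?_⟩
  · rw [h.gam t ht, h.chi]; exact r.q
  · rw [a4, h.chi]; exact r.cx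
  · rw [a12, a6]; exact r.A
  · rw [a13]; exact r.B
  · rw [a8, a6, a11]; exact r.e
  · rw [a9, a6, a11]; exact r.h
  · rw [a14, a6]; exact r.E1
  · rw [a15, a6]; exact r.E2
  · rw [a16, a6]; exact r.H

theorem sc {C K X Y y c : ℝ} {n : ℕ} (C1 : 1 ≤ C) (K1 : 1 ≤ K) (hy : y ≤ c * (C * K ^ n) * X)
    (hc : c ≤ 10000) (hn : n ≤ 5) (X0 : 0 ≤ X) (hX : X ≤ Y) : y ≤ 10000 * (C * K ^ 5) * Y :=
  hy.trans (by
    have : C * K ^ n ≤ C * K ^ 5 := mul_le_mul_of_nonneg_left (pow_le_pow_right₀ K1 hn) (by linarith)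
    gcongr)

/-- all site constants for a profile linear from `0` -/
theorem Ctx.linRef (T0 K : ℝ) : ∃ K' : ℝ, 1 ≤ K' ∧ ∀ (l : List (ℝ × ℝ)) (b α δ t1 t x : ℝ),
    Ctx l b α 0 0 K δ t1 → TT l ≤ T0 → 0 ≤ t → t ≤ t1 → 3 * K * (t + δ) ≤ 1 → 0 ≤ x →
    |x - α * t| ≤ K * t ^ 2 + δ → LinRef l b α K' δ t x := by
  obtain ⟨C, C1, hC⟩ := Exp50.consts T0 K
  refine ⟨max 1 (10000 * (C * K ^ 5)), le_max_left _ _, fun l b α δ t1 t x h hT t0 h1 hu x0 hx => ?_⟩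
  have K1 := h.K1
  have d0 := h.d0
  have d1 := h.d1
  have tt : t ≤ 1 := h1.trans h.t11
  have CK : ∀ n : ℕ, K ^ n ≤ C * K ^ n := fun n => le_mul_of_one_le_left (by positivity) C1
  rw [max_eq_right (by nlinarith [CK 5, one_le_pow₀ (n := 5) K1])]
  have e0 := abs_nonneg (eps0 b l)
  have e1 := h.eps_le
  have sm : Sm l t (3 * K * (t + δ)) := ⟨t0, h1.trans h.t1T, by nlinarith, hu, fun s s0 s1 =>
    ((le_abs_self _).trans (h.z_le s0 (s1.trans_le h1))).trans (by gcongr)⟩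
  obtain ⟨-, -, -, -, -, -, -, -, hB, hE1, hE2⟩ := hC l t _ x b _ h.ok hT sm x0
    (((le_abs_self _).trans (h.x_le t0 h1 hx)).trans (by gcongr; norm_num)) h.b0 h.bK le_rfl
  have up : ∀ {y c X : ℝ} {n : ℕ}, y ≤ c * K ^ n * X → 0 ≤ c → 0 ≤ X → y ≤ c * (C * K ^ n) * X :=
    fun {y c X n} a c0 X0 => a.trans (by have := CK n; gcongr)
  have dt : ∀ k : ℕ, δ * t ^ k ≤ δ := fun k => mul_le_of_le_one_right d0 (pow_le_one₀ t0 tt)
  have dK : δ ≤ K * δ := le_mul_of_one_le_left d0 K1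
  have hD : K * t ^ 2 + δ ≤ K * (t ^ 2 + δ) := by linarith
  have ed : |eps0 b l| * δ ≤ 2 * K * δ := mul_le_mul_of_nonneg_right e1 d0
  have p2 := pw t0 tt d0 d1 2
  have p3 := pw t0 tt d0 d1 3
  have p4 := pw t0 tt d0 d1 4
  have p5 := pw t0 tt d0 d1 5
  norm_num at p2 p3 p4 p5
  have t54 : t ^ 5 ≤ t ^ 4 := pow_le_pow_of_le_one t0 tt (by norm_num)
  have ee : Ref81.e1 l b α 0 = eps0 b l := by unfold Ref81.e1 eb eps0; rw [h.G0]; ring
  refine ⟨sc C1 K1 (up (c := 1) (n := 1) (by linarith) (by norm_num) (by positivity))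
      (by norm_num) (by norm_num) (by positivity) le_rfl,
    sc C1 K1 (up (c := 98) (n := 1) (X := t ^ 3 + δ * t ^ 2) ((h.Gam_near t0 h1).trans
      (le_of_eq (by ring))) (by norm_num) (by positivity)) (by norm_num) (by norm_num)
      (by positivity) (by linarith [dt 2]),
    sc C1 K1 (up (c := 5) (n := 1) (X := t ^ 2 + δ * t ^ 1) ((h.cx_near t0 h1 hx).trans
      (le_of_eq (by ring))) (by norm_num) (by positivity)) (by norm_num) (by norm_num)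
      (by positivity) (by linarith [dt 1]),
    sc C1 K1 (up (c := 1624) (n := 3) ?_ (by norm_num) (by positivity)) (by norm_num) (by norm_num)
      (by positivity) le_rfl,
    sc C1 K1 (c := 7784) (n := 5) ?_ (by norm_num) le_rfl (by positivity) le_rfl,
    sc C1 K1 (up (c := 93) (n := 2) (X := t ^ 3 + δ * t ^ 1) ((h.e_lo t0 h1).trans
      (le_of_eq (by ring))) (by norm_num) (by positivity)) (by norm_num) (by norm_num)
      (by positivity) (by linarith [dt 1]),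
    sc C1 K1 (up (c := 93) (n := 2) (X := t ^ 4 + δ * t ^ 2) ((h.h_lo t0 h1).trans
      (le_of_eq (by ring))) (by norm_num) (by positivity)) (by norm_num) (by norm_num)
      (by positivity) (by linarith [dt 2]),
    sc C1 K1 (c := 2000) (n := 4) ?_ (by norm_num) (by norm_num) (by positivity) le_rfl,
    sc C1 K1 (c := 300) (n := 3) ?_ (by norm_num) (by norm_num) (by positivity) le_rfl,
    sc C1 K1 (up (c := 10000) (n := 5) ?_ (by norm_num) (by positivity)) le_rfl le_rfl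
      (by positivity) le_rfl⟩
  · have a := h.A_near' t0 h1 hx
    rw [ee] at a
    have K2 : K ^ 2 ≤ K ^ 3 := pow_le_pow_right₀ K1 (by norm_num)
    have m1 := mul_le_mul_of_nonneg_left (dt 1) (show 0 ≤ K ^ 3 by positivity)
    have m2 := mul_le_mul_of_nonneg_left ed (show 0 ≤ K ^ 2 by positivity)
    have m3 := mul_le_mul_of_nonneg_right K2 (show 0 ≤ |eps0 b l| * t ^ 2 by positivity)
    have n1 : 0 ≤ K ^ 3 * (|eps0 b l| * t ^ 2) := by positivity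
    have n2 : 0 ≤ K ^ 3 * t ^ 3 := by positivity
    refine (le_of_eq ?_).trans (a.trans ?_)
    · unfold Aq mu; rw [mul_assoc]; rfl
    · change _ + 2 * K ^ 2 * |eps0 b l| * _ ≤ _
      linarith
  · have a := h.M1_lo t0 h1
    rw [zero_mul, zero_add] at a
    have a1 := abs_le.1 (amul (h.chiP 4) a)
    have a2 := abs_le.1 (amul (h.chiP 4) (amul hx (abs_of_nonneg (sq_nonneg t)).le))
    have a3 := abs_le.1 hB
    have m1 := mul_le_mul_of_nonneg_left p5 (show 0 ≤ C * K ^ 5 by positivity)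
    have m2 := mul_le_mul_of_nonneg_left t54 (show 0 ≤ C * K ^ 5 by positivity)
    have K5 : K ≤ C * K ^ 5 := (le_self_pow₀ K1 (by norm_num)).trans (CK 5)
    have m3 := mul_le_mul_of_nonneg_right K5 (show 0 ≤ t ^ 4 by positivity)
    have m4 := mul_le_mul_of_nonneg_right K5 d0
    have n1 : 0 ≤ C * K ^ 5 * t ^ 4 := by positivity
    have n2 : 0 ≤ C * K ^ 5 * δ := by positivity
    rw [abs_le]; constructor <;> linarith [a1.1, a1.2, a2.1, a2.2, a3.1, a3.2, dt 2]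
  · refine hE1.trans ?_
    rw [sq_abs]
    have e2 : eps0 b l ^ 2 ≤ 4 * K ^ 2 := by
      rw [← sq_abs]; nlinarith
    have K14 : K ≤ K ^ 4 := le_self_pow₀ K1 (by norm_num)
    have K34 : K ^ 3 ≤ K ^ 4 := pow_le_pow_right₀ K1 (by norm_num)
    have m1 := mul_le_mul_of_nonneg_right K14 (show 0 ≤ eps0 b l ^ 2 * t by positivity)
    have m2 := mul_le_mul_of_nonneg_right e2 (show 0 ≤ K * δ by positivity)
    have m3 := mul_le_mul_of_nonneg_right K34 d0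
    have m4 := mul_le_mul_of_nonneg_left p3 (show 0 ≤ |eps0 b l| * K ^ 3 by positivity)
    have m5 := mul_le_mul_of_nonneg_right K34 (show 0 ≤ |eps0 b l| * t ^ 3 by positivity)
    have m6 := mul_le_mul_of_nonneg_left ed (show 0 ≤ K ^ 3 by positivity)
    have m7 := mul_le_mul_of_nonneg_left p4 (show 0 ≤ K ^ 4 by positivity)
    have n1 : 0 ≤ K ^ 4 * (eps0 b l ^ 2 * t) := by positivity
    have n2 : 0 ≤ K ^ 4 * (|eps0 b l| * t ^ 3) := by positivity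
    have n3 : 0 ≤ K ^ 4 * t ^ 4 := by positivity
    have n4 : 0 ≤ K ^ 4 * δ := by positivity
    refine (mul_le_mul_of_nonneg_left (?_ : _ ≤ 2000 * K ^ 4 * (eps0 b l ^ 2 * t +
      |eps0 b l| * t ^ 3 + t ^ 4 + δ)) (by linarith)).trans (le_of_eq (by ring))
    linarith
  · refine hE2.trans ?_
    have K23 : K ^ 2 ≤ K ^ 3 := pow_le_pow_right₀ K1 (by norm_num)
    have m1 := mul_le_mul_of_nonneg_left p2 (show 0 ≤ |eps0 b l| * K ^ 2 by positivity)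
    have m2 := mul_le_mul_of_nonneg_right K23 (show 0 ≤ |eps0 b l| * t ^ 2 by positivity)
    have m3 := mul_le_mul_of_nonneg_left ed (show 0 ≤ K ^ 2 by positivity)
    have m4 := mul_le_mul_of_nonneg_left p3 (show 0 ≤ K ^ 3 by positivity)
    have n1 : 0 ≤ K ^ 3 * (|eps0 b l| * t ^ 2) := by positivity
    have n2 : 0 ≤ K ^ 3 * t ^ 3 := by positivity
    have n3 : 0 ≤ K ^ 3 * δ := by positivity
    refine (mul_le_mul_of_nonneg_left (?_ : _ ≤ 300 * K ^ 3 * (|eps0 b l| * t ^ 2 + t ^ 3 + δ))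
      (by linarith)).trans (le_of_eq (by ring))
    linarith
  · have a := h.Psi_lo t0 h1 (by simpa using hx)
    rw [zero_mul, zero_add] at a
    refine a.trans ?_
    have s1 : (t ^ 2 + δ) * t * (|eps0 b l| + t ^ 2 + δ * t) ≤
        5 * K * (|eps0 b l| * t ^ 3 + t ^ 5 + δ) := by
      have m1 := mul_le_mul_of_nonneg_left (dt 1) e0
      have m2 : δ * (δ * t ^ 2) ≤ δ := mul_le_of_le_one_right d0 ((dt 2).trans d1)
      have m3 : |eps0 b l| * t ^ 3 + t ^ 5 ≤ K * (|eps0 b l| * t ^ 3 + t ^ 5) :=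
        le_mul_of_one_le_left (by positivity) K1
      have n1 : 0 ≤ K * (|eps0 b l| * t ^ 3 + t ^ 5) := by positivity
      linarith [dt 3, dt 4]
    calc _ ≤ 2000 * K ^ 3 * (K * (t ^ 2 + δ) * t * (|eps0 b l| + t ^ 2 + δ * t)) := by gcongr
      _ = 2000 * K ^ 4 * ((t ^ 2 + δ) * t * (|eps0 b l| + t ^ 2 + δ * t)) := by ring
      _ ≤ 2000 * K ^ 4 * (5 * K * (|eps0 b l| * t ^ 3 + t ^ 5 + δ)) := by gcongr
      _ = _ := by ring

/-- slope of the base labels at `0` -/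
def cst (z : ℕ → ℝ) (v : ℝ) (J : ℕ) : ℝ := k4 (lo z v 0 J) ^ 2 / (2 * chi (lo z v 0 J) ^ 3)
/-- slope of the tilts when `om = lam * t` -/
def al (z : ℕ → ℝ) (v : ℝ) (J : ℕ) (lam : ℝ) : ℝ := cst z v J / (1 - lam)

/-- the base labels are linear near `0` -/
theorem cst_spec (b0 c C : ℝ) (hb : 1 ≤ b0) (hc : 0 < c) (hC : 1 ≤ C) : ∃ c2 B η0 : ℝ, 0 < c2 ∧
    1 ≤ B ∧ 0 < η0 ∧ ∀ (η v : ℝ) (J : ℕ) (z : ℕ → ℝ), Base b0 c C η v J z → η ≤ η0 → v ≤ η0 →
    c2 ≤ cst z v J ∧ cst z v J ≤ B ∧ c2 ≤ k4 (lo z v 0 J) ^ 2 ∧ k4 (lo z v 0 J) ^ 2 ≤ B ∧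
    ∀ j : ℕ, j < J → |z j - cst z v J * (j * v)| ≤ B * ((j * v) ^ 2 + √η + v) := by
  obtain ⟨c2, C2, η0, p0, p1, p2, H⟩ := sharpS b0 c C b0 hb hc hC
  have x0 : 0 < Real.exp (-b0) ^ 3 := by positivity
  have x1 : Real.exp (-b0) ^ 3 ≤ 1 :=
    pow_le_one₀ (Real.exp_nonneg _) (Real.exp_le_one_iff.2 (by linarith))
  have B1 : C2 ≤ C2 / Real.exp (-b0) ^ 3 := by rw [le_div_iff₀ x0]; nlinarith
  refine ⟨c2 / 2, C2 / Real.exp (-b0) ^ 3, η0, by positivity, p1.trans B1, p2,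
    fun η v J z h hη hv => ?_⟩
  obtain ⟨a1, -, a3, a4, -⟩ := H η v J z h hη hv J le_rfl h.hi
  obtain ⟨ok, hT, -⟩ := Sharp81.base_area h le_rfl
  have g := Sharp81.chi_ge ok (hT.le.trans h.hi)
  have g3 : Real.exp (-b0) ^ 3 ≤ chi (lo z v 0 J) ^ 3 := pow_le_pow_left₀ (Real.exp_nonneg _) g 3
  have hA := Pp.Ode3.AP.of_ok ok
  have g1 : chi (lo z v 0 J) ^ 3 ≤ 1 := pow_le_one₀ ((Real.exp_nonneg _).trans g) (by
    rw [Pp.Ode3.chi_eq hA]; exact Pp.Ode3.chi_le hA)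
  have q0 : 0 < 2 * chi (lo z v 0 J) ^ 3 := by linarith
  have q1 : C2 / (2 * chi (lo z v 0 J) ^ 3) ≤ C2 / Real.exp (-b0) ^ 3 :=
    div_le_div_of_nonneg_left (by linarith) x0 (by linarith)
  refine ⟨?_, (div_le_div_of_nonneg_right a4 q0.le).trans q1, by linarith, a4.trans B1,
    fun j hj => ?_⟩
  · unfold cst; rw [le_div_iff₀ q0]; nlinarith
  · have e : z j - cst z v J * (j * v) = (2 * chi (lo z v 0 J) ^ 3 * z j -
        k4 (lo z v 0 J) ^ 2 * (j * v)) / (2 * chi (lo z v 0 J) ^ 3) := by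
      have : chi (lo z v 0 J) ≠ 0 := ((Real.exp_pos _).trans_le g).ne'
      unfold cst; field_simp
    have := h.v_pos
    rw [e, abs_div, abs_of_pos q0]
    calc _ ≤ C2 * ((j * v) ^ 2 + √η + v) / (2 * chi (lo z v 0 J) ^ 3) :=
          div_le_div_of_nonneg_right (a1 j hj) q0.le
      _ = C2 / (2 * chi (lo z v 0 J) ^ 3) * ((j * v) ^ 2 + √η + v) := by ring
      _ ≤ _ := by gcongr

theorem k3_lip {l0 : List (ℝ × ℝ)} {lam D : ℝ} (cx : Ctx l b α 0 0 K δ t1)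
    (cx0 : Ctx l0 b α 0 0 K 0 0) (m0 : 0 < 1 - lam)
    (hα : α = k4 l0 ^ 2 / (2 * chi l0 ^ 3) / (1 - lam)) (u1 : |chi l - chi l0| ≤ D)
    (u2 : |k4 l - k4 l0| ≤ D) :
    |k3 l b α - b * k4 l0 ^ 2 / 2 * (lam / (1 - lam))| ≤ 4 * K ^ 2 * D := by
  have χ0 := cx0.chi0
  have e : k3 l b α - b * k4 l0 ^ 2 / 2 * (lam / (1 - lam)) =
      b * (α * ((chi l ^ 2 + chi l ^ 1 * chi l0 ^ 1 + chi l0 ^ 2) * (chi l - chi l0)) -
        (k4 l + k4 l0) / 2 * (k4 l - k4 l0)) := by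
    unfold k3; rw [hα]; field_simp; ring
  have w1 : |chi l ^ 2 + chi l ^ 1 * chi l0 ^ 1 + chi l0 ^ 2| ≤ 3 := by
    have i1 := abs_le.1 (cx.chiP 2)
    have i2 := abs_le.1 (cx0.chiP 2)
    have i3 := abs_le.1 (amul (cx.chiP 1) (cx0.chiP 1))
    rw [abs_le]; constructor <;> linarith [i1.1, i1.2, i2.1, i2.2, i3.1, i3.2]
  have w2 : |(k4 l + k4 l0) / 2| ≤ K := by
    have i1 := cx.kK
    have i2 := cx0.kK
    have i3 := cx.K1
    rw [abs_le]; constructor <;> linarith [sq_nonneg (k4 l + 1), sq_nonneg (k4 l0 + 1),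
      sq_nonneg (k4 l - 1), sq_nonneg (k4 l0 - 1)]
  have w3 := abs_le.1 (amul cx.absa (amul w1 u1))
  have w4 := abs_le.1 (amul w2 u2)
  rw [e]
  exact (amul cx.absb (abs_le.2 ⟨(by linarith [w3.1, w4.2] : -(4 * K * D) ≤ _),
    by linarith [w3.2, w4.1]⟩)).trans (le_of_eq (by ring))

section lin
variable {b0 c C η v B Y L lam y : ℝ} {J : ℕ} {z om : ℕ → ℝ}

theorem lin_node (v0 : 0 < v) (ho : Om v Y L om) (hL : L ≤ 1 / 2) (B0 : 0 ≤ B) (m0 : 0 < 1 - lam)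
    (hom : ∀ j : ℕ, j * v ≤ y → om j = lam * (j * v)) {j : ℕ} (hj : j * v ≤ y)
    (a5 : |z j - cst z v J * (j * v)| ≤ B * ((j * v) ^ 2 + √η + v)) :
    |z j - al z v J lam * sig v om j| ≤ 4 * B * sig v om j ^ 2 + B * (√η + v) := by
  have e : al z v J lam * sig v om j = cst z v J * (j * v) := by
    unfold sig al; rw [hom j hj]; field_simp
  have g := ho.sig_ge v0 hL j
  have g0 : 0 ≤ (j:ℝ) * v := by positivity
  have g2 : ((j:ℝ) * v) ^ 2 ≤ 4 * sig v om j ^ 2 := by nlinarith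
  have := mul_le_mul_of_nonneg_left g2 B0
  rw [e]; linarith

theorem lin_hi (hz : Lab z J) (v0 : 0 < v) (ho : Om v Y L om) (hL : L ≤ 1 / 2) (YJ : Y ≤ J * v)
    (yJ : y ≤ J * v) (B0 : 0 ≤ B) (m0 : 0 < 1 - lam) (α0 : 0 ≤ al z v J lam)
    (α1 : al z v J lam ≤ 2 * B) (hom : ∀ j : ℕ, j * v ≤ y → om j = lam * (j * v))
    (a5 : ∀ j : ℕ, j < J → |z j - cst z v J * (j * v)| ≤ B * ((j * v) ^ 2 + √η + v))
    (t0 : 0 ≤ t) (t1 : t < y / 2) :
    |lvr 1 (lo z v om J) t - al z v J lam * t| ≤ 4 * B * t ^ 2 + 4 * B * (√η + v) := by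
  obtain ⟨⟨-, -, cell, -⟩, -⟩ := areaS z (sig v om) J hz ho.sig0 (ho.sm v0 hL)
  obtain ⟨j, hj, c1, c2⟩ := exists_cell (s := sig v om) (t := t) (ho.sig0.le.trans t0) J (by
    rw [ho.sig_eq YJ]; linarith)
  have g := ho.sig_ge v0 hL j
  have n := abs_le.1 (lin_node v0 ho hL B0 m0 hom (by linarith) (a5 j hj))
  have g1 : sig v om (j + 1) ≤ sig v om j + 3 / 2 * v := by
    have := (abs_le.1 (ho.lip j)).1
    have := mul_le_mul_of_nonneg_right hL v0.le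
    unfold sig; push_cast; linarith
  have g0 := ho.sig_nn v0 hL j
  have g2 : 4 * B * sig v om j ^ 2 ≤ 4 * B * t ^ 2 := by gcongr
  have g3 : al z v J lam * (t - sig v om j) ≤ 2 * B * (3 / 2 * v) :=
    mul_le_mul α1 (by linarith) (by linarith) (by linarith)
  have g4 : 0 ≤ al z v J lam * (t - sig v om j) := mul_nonneg α0 (by linarith)
  have g6 : 0 ≤ B * √η := by positivity
  have g7 : 0 ≤ B * v := by positivity
  unfold lo
  rw [cell j t c1 c2, abs_le]; constructor <;> linarith [n.1, n.2]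

theorem dist_le (hz : Lab z J) (v0 : 0 < v) (ho : Om v Y L om) (hL : L ≤ 1 / 2) (YJ : Y ≤ J * v) :
    dist1 (lo z v 0 J) (lo z v om J) ≤ DD z J 0 om := by
  obtain ⟨-, ar⟩ := areaS z (sig v 0) J hz (om_zero v Y ho.Lv).sig0 ((om_zero v Y ho.Lv).sm v0 hL)
  refine (ar (sig v om) ho.sig0 (ho.sm v0 hL) (by
    rw [ho.sig_eq YJ, (om_zero v Y ho.Lv).sig_eq YJ])).1.trans
    (le_of_eq (Finset.sum_congr rfl fun j _ => ?_))
  unfold sig
  rw [← abs_neg]; congr 2; ring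

theorem small_aux {K e v y : ℝ} (k1 : 1 ≤ K) (e1 : e ≤ 1 / (12 * K ^ 2)) (v1 : v ≤ 1 / (12 * K ^ 2))
    (y1 : y ≤ 1 / (12 * K ^ 2)) : K * (e + v) ≤ 1 ∧ 3 * K * (y + K * (e + v)) ≤ 1 := by
  have d1 : K * (e + v) ≤ 1 / (6 * K) := by
    calc _ ≤ K * (1 / (12 * K ^ 2) + 1 / (12 * K ^ 2)) := by gcongr
      _ = _ := by field_simp; norm_num
  have d2 : 1 / (12 * K ^ 2) ≤ 1 / (6 * K) :=
    one_div_le_one_div_of_le (by positivity) (by nlinarith)
  have d3 : 1 / (6 * K) ≤ 1 := by rw [div_le_one (by positivity)]; linarith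
  refine ⟨d1.trans d3, ?_⟩
  calc _ ≤ 3 * K * (1 / (6 * K) + 1 / (6 * K)) := by gcongr; exact y1.trans d2
    _ = 1 := by field_simp; norm_num

theorem x_aux {K z e s : ℝ} (B0 : 0 ≤ B) (C0 : 0 ≤ C) (hK : 4 * B + C ≤ K) (e0 : 0 ≤ e) (v0 : 0 ≤ v)
    (n : |z - α * s| ≤ 4 * B * s ^ 2 + B * (e + v)) (hx : |x - z| ≤ C * v) :
    |x - α * s| ≤ K * s ^ 2 + K * (e + v) := by
  have n1 := abs_le.1 n
  have n2 := abs_le.1 hx
  have g2 : 4 * B * s ^ 2 ≤ K * s ^ 2 := by gcongr; linarith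
  have g5 : (B + C) * (e + v) ≤ K * (e + v) := by gcongr; linarith
  have g6 : 0 ≤ C * e := by positivity
  exact abs_le.2 ⟨by linarith [n1.1, n2.1], by linarith [n1.2, n2.2]⟩

end lin

theorem LinRef.mono {K' : ℝ} (h : LinRef l b α K δ t x) (hK : K ≤ K') (d0 : 0 ≤ δ) (t0 : 0 ≤ t) :
    LinRef l b α K' δ t x := by
  have up : ∀ {a X : ℝ}, a ≤ K * X → 0 ≤ X → a ≤ K' * X := fun a X0 =>
    a.trans (mul_le_mul_of_nonneg_right hK X0)
  exact ⟨up h.xa (by positivity), up h.q (by positivity), up h.cx (by positivity),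
    up h.A (by positivity), up h.B (by positivity), up h.e (by positivity),
    up h.h (by positivity), up h.E1 (by positivity), up h.E2 (by positivity),
    up h.H (by positivity)⟩

/-- **the site constants of the profiles with `om = lam * t` on `[0, y]`** (any number of slices) -/
theorem lin_ref (b0 c C : ℝ) (hb : 1 ≤ b0) (hc : 0 < c) (hC : 1 ≤ C) : ∃ K η0 : ℝ, 1 ≤ K ∧
    0 < η0 ∧ ∀ (η v : ℝ) (J : ℕ) (z : ℕ → ℝ), Base b0 c C η v J z → η ≤ η0 → v ≤ η0 →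
    ∀ (om : ℕ → ℝ) (Y L lam y b : ℝ) (N : ℕ), Om v Y L om → L ≤ 1 / 2 → Y ≤ J * v →
    0 ≤ lam → lam ≤ 1 / 2 → y ≤ J * v → y ≤ η0 → (∀ j : ℕ, j * v ≤ y → om j = lam * (j * v)) →
    0 ≤ b → b ≤ 2 * b0 → J ≤ N →
    (1 / K ≤ al z v J lam ∧ al z v J lam ≤ K ∧ 1 / K ≤ k4 (lo z v 0 J) ^ 2 ∧
      k4 (lo z v 0 J) ^ 2 ≤ K ∧ |k3 (lo z v om N) b (al z v J lam) -
        b * k4 (lo z v 0 J) ^ 2 / 2 * (lam / (1 - lam))| ≤ K * DD z J 0 om) ∧
    (∀ t, 0 ≤ t → t < y / 2 →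
      |lvr 1 (lo z v om N) t - al z v J lam * t| ≤ K * (t ^ 2 + (√η + v))) ∧
    ∀ k : ℕ, k * v ≤ y / 2 → ∀ x, 0 ≤ x → |x - z k| ≤ C * v →
      LinRef (lo z v om N) b (al z v J lam) K (√η + v) (sig v om k) x := by
  obtain ⟨c2, B, η0, p0, B1, p2, H⟩ := cst_spec b0 c C hb hc hC
  obtain ⟨CF, cF, hF⟩ := lipFS b0
  obtain ⟨K1, k1, k1', hK1⟩ := exists_ctx b0 (4 * B + C + 2 * b0)
  obtain ⟨K2, k2, hK2⟩ := Ctx.linRef b0 K1
  have K0 : 0 < K1 := by linarith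
  have B0 : 0 ≤ B := by linarith
  have C0 : 0 ≤ C := by linarith
  have i1 : 2 * b0 ≤ 4 * B + C + 2 * b0 := by linarith
  have i2 : 2 * B ≤ 4 * B + C + 2 * b0 := by linarith
  have i3 : 4 * B ≤ 4 * B + C + 2 * b0 := by linarith
  have i4 : 4 * B + C ≤ K1 := by linarith
  have i5 : B ≤ K1 := by linarith
  obtain ⟨K, j1, j2, j3, j4⟩ : ∃ K, K2 * K1 ≤ K ∧ 1 / K ≤ c2 ∧ 4 * K1 ^ 2 * CF ≤ K ∧ K1 ≤ K := by
    have c2' : 0 < 1 / c2 := by positivity
    have f1 : 0 ≤ K2 * K1 := by positivity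
    have f2 : 0 ≤ 4 * K1 ^ 2 * CF := by positivity
    refine ⟨K2 * K1 + 1 / c2 + 4 * K1 ^ 2 * CF + K1, by linarith, ?_, by linarith, by linarith⟩
    rw [one_div_le (by linarith) p0]; linarith
  refine ⟨K, min η0 (min 1 (min (1 / (12 * K1 ^ 2)) ((1 / (12 * K1 ^ 2)) ^ 2))), k1'.trans j4,
    by positivity, fun η v J z h hη hv om Y L lam y b N ho hL YJ l0 l1 yJ hy hom b0' b1 hN => ?_⟩
  simp only [le_min_iff] at hη hv hy
  obtain ⟨a1, a2, a3, a4, a5⟩ := H η v J z h hη.1 hv.1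
  have v0 := h.v_pos
  have s0 := Real.sqrt_nonneg η
  have s1 : √η ≤ 1 / (12 * K1 ^ 2) := Real.sqrt_le_iff.2 ⟨by positivity, hη.2.2.2⟩
  have m0 : 0 < 1 - lam := by linarith only [l1]
  have α0 : cst z v J ≤ al z v J lam := by
    unfold al; rw [le_div_iff₀ m0]; nlinarith only [a1, p0, l0]
  have α1 : al z v J lam ≤ 2 * B := by
    unfold al; rw [div_le_iff₀ m0]; nlinarith only [a2, B0, l1]
  have α2 : 0 ≤ al z v J lam := p0.le.trans (a1.trans α0)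
  obtain ⟨ok, hT⟩ := lo_ok areaS h.lab ho v0 hL YJ
  obtain ⟨ok0, hT0⟩ := lo_ok areaS h.lab (om_zero v Y ho.Lv) v0 hL YJ
  obtain ⟨sm, -, lv, -⟩ := Ker.lo_same h.lab le_rfl hN ho v0 hL YJ
  have J0 : 0 ≤ (J:ℝ) * v := by positivity
  have hi : ∀ t, 0 ≤ t → t < y / 2 → |lvr 1 (lo z v om J) t - al z v J lam * t| ≤
      (4 * B + C + 2 * b0) * t ^ 2 + K1 * (√η + v) := fun t t0 t1 =>
    (lin_hi h.lab v0 ho hL YJ yJ B0 m0 α2 α1 hom a5 t0 t1).trans (add_le_add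
      (mul_le_mul_of_nonneg_right i3 (sq_nonneg t))
      (mul_le_mul_of_nonneg_right (i3.trans k1) (by positivity)))
  have cxz : ∀ l, Ok l → TT l = J * v → Ctx l b (al z v J lam) 0 0 K1 0 0 := fun l o e =>
    hK1 _ b _ 0 0 0 0 o (e.le.trans h.hi) ⟨fun t a c => absurd a (not_le.2 c),
      fun t a c => absurd a (not_le.2 c)⟩ b0' (b1.trans i1) α2 (α1.trans i2) le_rfl zero_le_one
      le_rfl zero_le_one le_rfl le_rfl (e ▸ J0) zero_le_one
  refine ⟨⟨j2.trans (a1.trans α0), α1.trans (i2.trans (k1.trans j4)), j2.trans a3,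
    a4.trans (i5.trans j4), ?_⟩, fun t t0 t1 => ?_, fun k hk x x0 hx => ?_⟩
  · obtain ⟨-, -, -, -, -, -, u1, u2⟩ := hF _ _ ok0 ok (hT.trans hT0.symm) (hT0.le.trans h.hi) 0
      ⟨le_rfl, hT0 ▸ J0⟩
    have dD' := mul_le_mul_of_nonneg_left (dist_le h.lab v0 ho hL YJ) (zero_le_one.trans cF)
    have e : k3 (lo z v om N) b (al z v J lam) = k3 (lo z v om J) b (al z v J lam) := by
      unfold k3; rw [sm.chi, sm.k4]
    rw [e]
    refine (k3_lip (cxz _ ok hT) (cxz _ ok0 hT0) m0 rfl (u1.trans dD') (u2.trans dD')).trans ?_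
    rw [← mul_assoc]
    exact mul_le_mul_of_nonneg_right j3 (DD_nn h.lab 0 om)
  · rw [lv t t0, mul_add K]
    exact (hi t t0 t1).trans (add_le_add (mul_le_mul_of_nonneg_right (k1.trans j4) (sq_nonneg t))
      (mul_le_mul_of_nonneg_right j4 (by positivity)))
  · have g0 : 0 ≤ (k:ℝ) * v := by positivity
    have y0 : 0 ≤ y / 2 := g0.trans hk
    have y1 : y / 2 ≤ y := by linarith only [y0]
    have kJ : k < J := by
      by_contra hh
      have : (J:ℝ) * v ≤ k * v := mul_le_mul_of_nonneg_right (Nat.cast_le.2 (not_lt.1 hh)) v0.le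
      linarith only [h.lo, this, hk, yJ, hc]
    have t0 := ho.sig_nn v0 hL k
    have t1 : sig v om k ≤ y / 2 := (ho.sig_le k).trans hk
    obtain ⟨d1, d2⟩ := small_aux k1' s1 hv.2.2.1 (t1.trans (y1.trans hy.2.2.1))
    have cx := hK1 _ b _ 0 0 (K1 * (√η + v)) (y / 2) ok (hT.le.trans h.hi)
      ⟨fun t a c => by rw [zero_mul, zero_add]; exact hi t a c, hi⟩ b0' (b1.trans i1) α2
      (α1.trans i2) le_rfl zero_le_one (by positivity) d1 le_rfl y0 (hT ▸ y1.trans yJ)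
      (y1.trans hy.2.1)
    have r := hK2 _ b _ _ _ _ x cx (hT.le.trans h.hi) t0 t1 d2 x0 (x_aux B0 C0 i4 s0 v0.le
      (lin_node v0 ho hL B0 m0 hom (hk.trans y1) (a5 k kJ)) hx)
    exact ((r.scale (zero_le_one.trans k2) k1' t0).same sm lv ⟨t0, t1.trans (y1.trans yJ)⟩).mono j1
      (by positivity) t0

end

end Crest.Agent.T156.Pr.Ref81
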