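import Crest.Agent.T156.QCas_98
import Crest.Agent.T156.QOne_33

/-!
# Row 156, block Q (helper5): the overlap of a pair, centred at the splitting node
-/

set_option autoImplicit false
set_option linter.unusedSectionVars false

noncomputable section

namespace Crest.Agent.T156.Cas.PC5

open MeasureTheory Real Finset
open Crest.Agent.T157.E Crest.Agent.T157.Casc Crest.Agent.T157.SL
open Sy41 Lp12 LpR43 QCas98

variable {Ω : Type} [Fintype Ω] {w : Ω → ℝ}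

/-- finite sums of triple products -/
def S3 (Ψ : (Ω → ℝ) → (Ω → ℝ) → (Ω → ℝ) → ℝ) : Prop := ∃ (κ : Type) (_ : Fintype κ)
  (e a b : κ → (Ω → ℝ) → ℝ), (∀ k, Eg (e k)) ∧ (∀ k, Eg (a k)) ∧ (∀ k, Eg (b k)) ∧
    ∀ z u u', Ψ z u u' = ∑ k, e k z * a k u * b k u'

section s3
variable {Ψ Ψ' : (Ω → ℝ) → (Ω → ℝ) → (Ω → ℝ) → ℝ}

theorem S3.one {e a b : (Ω → ℝ) → ℝ} (he : Eg e) (ha : Eg a) (hb : Eg b) :
    S3 fun z u u' => e z * a u * b u' :=
  ⟨Unit, inferInstance, fun _ => e, fun _ => a, fun _ => b, fun _ => he, fun _ => ha, fun _ => hb,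
    fun _ _ _ => by simp⟩

theorem S3.congr (h : S3 Ψ) (e : ∀ z u u', Ψ' z u u' = Ψ z u u') : S3 Ψ' := by
  rwa [show Ψ' = Ψ from funext fun z => funext fun u => funext (e z u)]

theorem S3.const (c : ℝ) : S3 fun (_ _ _ : Ω → ℝ) => c :=
  (S3.one (Eg.const c) (Eg.const 1) (Eg.const 1)).congr fun _ _ _ => by simp

theorem S3.add (h : S3 Ψ) (h' : S3 Ψ') : S3 fun z u u' => Ψ z u u' + Ψ' z u u' := by
  obtain ⟨κ, _, d, a, b, hd, ha, hb, e⟩ := h
  obtain ⟨κ', _, d', a', b', hd', ha', hb', e'⟩ := h'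
  refine ⟨κ ⊕ κ', inferInstance, Sum.elim d d', Sum.elim a a', Sum.elim b b', ?_, ?_, ?_,
    fun z u u' => ?_⟩
  · rintro (k | k); exacts [hd k, hd' k]
  · rintro (k | k); exacts [ha k, ha' k]
  · rintro (k | k); exacts [hb k, hb' k]
  · simp [e, e']

theorem S3.mul (h : S3 Ψ) (h' : S3 Ψ') : S3 fun z u u' => Ψ z u u' * Ψ' z u u' := by
  obtain ⟨κ, _, d, a, b, hd, ha, hb, e⟩ := h
  obtain ⟨κ', _, d', a', b', hd', ha', hb', e'⟩ := h'
  refine ⟨κ × κ', inferInstance, fun k z => d k.1 z * d' k.2 z, fun k z => a k.1 z * a' k.2 z,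
    fun k z => b k.1 z * b' k.2 z, fun k => (hd _).mul (hd' _), fun k => (ha _).mul (ha' _),
    fun k => (hb _).mul (hb' _), fun z u u' => ?_⟩
  beta_reduce
  rw [e, e', Finset.sum_mul_sum, Fintype.sum_prod_type]
  exact Finset.sum_congr rfl fun _ _ => Finset.sum_congr rfl fun _ _ => by ring

theorem S3.pow (h : S3 Ψ) : ∀ n : ℕ, S3 fun z u u' => Ψ z u u' ^ n
  | 0 => by simpa using S3.const 1
  | n + 1 => by simpa only [pow_succ] using (h.pow n).mul h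

theorem S3.sum {ι : Type} (s : Finset ι) {Φ : ι → (Ω → ℝ) → (Ω → ℝ) → (Ω → ℝ) → ℝ}
    (h : ∀ i, S3 (Φ i)) : S3 fun z u u' => ∑ i ∈ s, Φ i z u u' := by
  classical
  induction s using Finset.induction_on with
  | empty => simpa using S3.const 0
  | insert i s hi ih => simpa only [Finset.sum_insert hi] using (h i).add ih

theorem S3.sep (h : S3 Ψ) (z : Ω → ℝ) : Sep (Ψ z) := by
  obtain ⟨κ, _, d, a, b, -, ha, hb, e⟩ := h
  exact ⟨κ, inferInstance, fun k u => d k z * a k u, b, fun k => (ha k).const_mul _, hb, e z⟩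

theorem S3.eg (h : S3 Ψ) (hw : Wt w) (N : List (Lv Ω)) (c c' : ℕ) :
    Eg fun z => TT2 w N c c' (Ψ z) z := by
  obtain ⟨κ, _, d, a, b, hd, ha, hb, e⟩ := h
  have : ∀ z, TT2 w N c c' (Ψ z) z = ∑ k, d k z * node w N c (a k) z * node w N c' (b k) z :=
    fun z => by
      rw [show Ψ z = fun u u' => ∑ k, d k z * a k u * b k u' from funext fun u => funext (e z u),
        TT2_sep hw (a := fun k u => d k z * a k u) (fun k => (ha k).const_mul _) hb]
      simp only [node_const_mul]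
  simp only [this]
  exact Eg.sum _ fun k _ => ((hd k).mul ((ha k).node hw N c)).mul ((hb k).node hw N c')

theorem sep_eg {G : (Ω → ℝ) → (Ω → ℝ) → ℝ} (h : Sep G) (hw : Wt w) (N : List (Lv Ω)) (c : ℕ) :
    Eg fun z => node w N c (G z) z := by
  obtain ⟨κ, _, a, b, ha, hb, e⟩ := h
  simp only [fun u => funext (e u), node_sep hw _ hb]
  exact Eg.sum _ fun k _ => (ha k).mul ((hb k).node hw N c)

theorem S3.sep' (h : S3 Ψ) (y : Ω → ℝ) : Sep fun z u => Ψ z u y := by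
  obtain ⟨κ, _, d, a, b, hd, ha, -, e⟩ := h
  exact ⟨κ, inferInstance, d, fun k u => a k u * b k y, hd, fun k => (ha k).mul_const _,
    fun z u => by simp only [e, mul_assoc]⟩

end s3

variable (w) (L : List (Lv Ω)) (l₀ : Lv Ω)

/-- `m_c - m_j` -/
def dv (j c : ℕ) (z u : Ω → ℝ) (i : l₀.ι) : ℝ := mv w (L.drop c) l₀ u i - mv w (L.drop j) l₀ z i

/-- `((m¹_c - m_j) · (m²_{c'} - m_j))^{2n}` -/
def Pc (n j c c' : ℕ) (z u u' : Ω → ℝ) : ℝ :=
  (∑ i, dv w L l₀ j c z u i * dv w L l₀ j c' z u' i) ^ (2 * n)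

/-- its mean -/
def DC (h : Ω → ℝ) (n j c c' : ℕ) : ℝ :=
  node w L j (fun z => TT2 w (L.drop j) (c - j) (c' - j) (Pc w L l₀ n j c c' z) z) h

/-- `m_j · (m_c - m_j)` -/
def Yj (j c : ℕ) (p : Pth Ω) : ℝ :=
  ∑ i, mv w (L.drop j) l₀ (p j) i * (mv w (L.drop c) l₀ (p c) i - mv w (L.drop j) l₀ (p j) i)

variable {w L l₀}

theorem s3_l (hw : Wt w) (j c : ℕ) (i : l₀.ι) : S3 fun z u _ => dv w L l₀ j c z u i :=
  ((S3.one (Eg.const 1) (eg_mv hw (L.drop c) l₀ i) (Eg.const 1)).add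
    (S3.one (eg_mv hw (L.drop j) l₀ i) (Eg.const (-1)) (Eg.const 1))).congr fun _ _ _ => by
      unfold dv; ring

theorem s3_r (hw : Wt w) (j c : ℕ) (i : l₀.ι) : S3 fun z _ u => dv w L l₀ j c z u i :=
  ((S3.one (Eg.const 1) (Eg.const 1) (eg_mv hw (L.drop c) l₀ i)).add
    (S3.one (eg_mv hw (L.drop j) l₀ i) (Eg.const (-1)) (Eg.const 1))).congr fun _ _ _ => by
      unfold dv; ring

theorem s3_Pc (hw : Wt w) (n j c c' : ℕ) : S3 (Pc w L l₀ n j c c') :=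
  (S3.sum _ fun i => (s3_l hw j c i).mul (s3_r hw j c' i)).pow _

theorem sep_sq (hw : Wt w) (j c n : ℕ) : Sep fun z u => (∑ i, dv w L l₀ j c z u i ^ 2) ^ n :=
  ((S3.sum _ fun i => (s3_l hw j c i).pow 2).pow n).sep' 0

theorem DC_swap (hw : Wt w) (h : Ω → ℝ) (n j c c' : ℕ) :
    DC w L l₀ h n j c c' = DC w L l₀ h n j c' c := by
  unfold DC
  congr 1
  funext z
  rw [((s3_Pc hw n j c c').sep z).swap hw]
  congr 1
  funext u u'
  simp only [Pc, mul_comm]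

theorem iP_nn (j c : ℕ) (p : Pth Ω) : 0 ≤ iP w L l₀ j c p := sum_nonneg fun _ _ => sq_nonneg _

theorem EE_iP (hw : Wt w) (h : Ω → ℝ) {j c : ℕ} (hjc : j ≤ c) (n : ℕ) :
    EE w L h (fun p => |iP w L l₀ j c p| ^ n) = node w L j (fun z => node w (L.drop j) (c - j)
      (fun u => (∑ i, dv w L l₀ j c z u i ^ 2) ^ n) z) h := by
  simp only [abs_of_nonneg (iP_nn _ _ _)]
  exact EE_two hw L h hjc fun z u => (∑ i, dv w L l₀ j c z u i ^ 2) ^ n

/-- two branches dominated by the mean of one functional of each -/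
theorem TT2_half (hw : Wt w) (N : List (Lv Ω)) (c : ℕ) (z : Ω → ℝ)
    {Ψ Φ : (Ω → ℝ) → (Ω → ℝ) → ℝ} {G : (Ω → ℝ) → ℝ} (hΨ : Sep Ψ) (hΦ : Sep Φ) (hG : Eg G)
    {a b : ℝ} (key : ∀ u u', Ψ u u' ≤ a * Φ u u' + b * (1 / 2 * G u + 1 / 2 * G u')) :
    TT2 w N c c Ψ z ≤ a * TT2 w N c c Φ z + b * node w N c G z := by
  have e1 : ∀ x : ℝ, node w N c (fun u' => 1 / 2 * x + 1 / 2 * G u') z =
      1 / 2 * x + 1 / 2 * node w N c G z := fun x => by
    rw [node_add hw (Eg.const _) (hG.const_mul _), node_const hw, node_const_mul]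
  have e2 : ∀ x : ℝ, node w N c (fun u => 1 / 2 * G u + 1 / 2 * x) z =
      1 / 2 * node w N c G z + 1 / 2 * x := fun x => by
    rw [node_add hw (hG.const_mul _) (Eg.const _), node_const hw, node_const_mul]
  have k2 : ∀ u, node w N c (Ψ u) z ≤ a * node w N c (Φ u) z +
      b * (1 / 2 * G u + 1 / 2 * node w N c G z) := fun u => by
    rw [← e1]
    exact node_le2 hw (hΨ.right u) (hΦ.right u) ((Eg.const _).add (hG.const_mul _)) (key u) N c z
  have := node_le2 hw (hΨ.eg_in hw N c z) (hΦ.eg_in hw N c z)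
    ((hG.const_mul _).add (Eg.const _)) k2 N c z
  rw [e2] at this
  exact this.trans_eq (by unfold TT2; ring)

theorem half_pow (x y : ℝ) (n : ℕ) :
    (1 / 2 * x + 1 / 2 * y) ^ (2 * n) ≤ 1 / 2 * x ^ (2 * n) + 1 / 2 * y ^ (2 * n) := by
  simpa only [smul_eq_mul] using (even_two_mul n).convexOn_pow (𝕜 := ℝ) |>.2 (Set.mem_univ x)
    (Set.mem_univ y) (by norm_num : (0 : ℝ) ≤ 1 / 2) (by norm_num : (0 : ℝ) ≤ 1 / 2) (by norm_num)

theorem DC_base (hw : Wt w) (h : Ω → ℝ) (n : ℕ) {j c : ℕ} (hjc : j ≤ c) :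
    DC w L l₀ h n j c c ≤ EE w L h fun p => |iP w L l₀ j c p| ^ (2 * n) := by
  rw [EE_iP hw h hjc]
  refine node_mono hw ((s3_Pc hw n j c c).eg hw _ _ _) (sep_eg (sep_sq hw j c _) hw _ _)
    (fun z => ?_) L j h
  have := TT2_half hw (L.drop j) (c - j) z ((s3_Pc (L := L) (l₀ := l₀) hw n j c c).sep z)
    (Sep.const 0) ((sep_sq (L := L) (l₀ := l₀) hw j c (2 * n)).right z) (a := 0) (b := 1)
    fun u u' => by
      rw [zero_mul, zero_add, one_mul]
      refine le_trans ?_ (half_pow _ _ n)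
      rw [Pc, ← (even_two_mul n).pow_abs]
      refine pow_le_pow_left₀ (abs_nonneg _) ((abs_sum_le_sum_abs _ _).trans ?_) _
      rw [mul_sum, mul_sum, ← sum_add_distrib]
      refine sum_le_sum fun i _ => abs_le.2 ⟨?_, ?_⟩
      · nlinarith [sq_nonneg (dv w L l₀ j c z u i + dv w L l₀ j c z u' i)]
      · nlinarith [sq_nonneg (dv w L l₀ j c z u i - dv w L l₀ j c z u' i)]
  simpa using this

/-- back to the overlap -/
theorem DD_ctr (hw : Wt w) (h : Ω → ℝ) (q : ℝ) (n : ℕ) {j c : ℕ} (hjc : j ≤ c) {A B : ℝ}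
    (hA : 0 < A) (hB : 0 < B) (h1 : DC w L l₀ h n j c c ≤ A ^ (2 * n))
    (h2 : EE w L h (fun p => (2 * Yj w L l₀ j c p + (rP w L l₀ j p - q)) ^ (2 * n)) ≤ B ^ (2 * n)) :
    DD w L l₀ h q n j c c ≤ (A + B) ^ (2 * n) := by
  set G : (Ω → ℝ) → (Ω → ℝ) → ℝ := fun z u => (2 * ∑ i, mv w (L.drop j) l₀ z i *
    dv w L l₀ j c z u i + (rr w (L.drop j) l₀ z - q)) ^ (2 * n) with hG
  have sG : Sep G := S3.sep' (Ψ := fun z u _ => G z u) (((((S3.const 2).mul (S3.sum univ fun i =>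
    (S3.one (eg_mv hw (L.drop j) l₀ i) (Eg.const 1) (Eg.const 1)).mul
      (s3_l (L := L) hw j c i))).add
    (S3.one ((eg_rr hw (L.drop j) l₀).sub (Eg.const q)) (Eg.const 1) (Eg.const 1))).pow
      (2 * n)).congr fun _ _ _ => by simp only [hG, mul_one]) 0
  refine mink_fin hA hB h1 h2 ?_
  rw [show EE w L h (fun p => (2 * Yj w L l₀ j c p + (rP w L l₀ j p - q)) ^ (2 * n)) = _ from
    EE_two hw L h hjc G]
  refine node_le2 hw ((sep_Ps hw L l₀ q n c c).eg_TT2 hw _ _ _) ((s3_Pc hw n j c c).eg hw _ _ _)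
    (sep_eg sG hw _ _) (fun z => ?_) L j h
  refine TT2_half hw _ _ z (sep_Ps hw L l₀ q n c c) ((s3_Pc hw n j c c).sep z) (sG.right z)
    fun u u' => ?_
  refine le_trans (le_of_eq ?_) ((add_pow_le_w hA hB _ _ n).trans (add_le_add le_rfl
    (mul_le_mul_of_nonneg_left (half_pow _ _ n) (by positivity))))
  unfold Ps
  congr 1
  have : ∑ i, mv w (L.drop c) l₀ u i * mv w (L.drop c) l₀ u' i =
      ∑ i, dv w L l₀ j c z u i * dv w L l₀ j c z u' i +
      ∑ i, mv w (L.drop j) l₀ z i * dv w L l₀ j c z u i +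
      ∑ i, mv w (L.drop j) l₀ z i * dv w L l₀ j c z u' i + rr w (L.drop j) l₀ z := by
    rw [rr, ← sum_add_distrib, ← sum_add_distrib, ← sum_add_distrib]
    exact sum_congr rfl fun i _ => by unfold dv; ring
  rw [this]
  ring

theorem cK_le {n : ℕ} {C θ ρ δ : ℝ} (hC : 0 < C) (hC' : cK n ≤ C ^ (2 * n)) (hθ : 0 ≤ θ)
    (hρ : 0 ≤ ρ) (hδ : 0 ≤ δ) : cK n * (θ * ρ) ^ n ≤ (C * √(θ * ρ) + δ) ^ (2 * n) := by
  refine le_trans ?_ (pow_le_pow_left₀ (by positivity) (le_add_of_nonneg_right hδ) _)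
  rw [mul_pow C, pow_mul (√_), sq_sqrt (by positivity)]
  gcongr

variable {h : Ω → ℝ} {τ : ℕ → ℝ} (D : Dat w L h l₀ τ)
include D

theorem DC_step {j c c' c'' n : ℕ} {θ ρ : ℝ} (hjc : j ≤ c) (H : LpR43.Win L τ j c' θ)
    (hc : c' ≤ c'') {A B : ℝ} (hA : 0 < A) (hB : 0 < B) (h1 : DC w L l₀ h n j c c' ≤ A ^ (2 * n))
    (h0 : Mo w L h n (iP w L l₀ j c) ρ) (h2 : cK n * (θ * ρ) ^ n ≤ B ^ (2 * n)) :
    DC w L l₀ h n j c c'' ≤ (A + B) ^ (2 * n) := by
  have hw := D.hw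
  have hθ := H.pos D.mono l₀ D.dom
  have hK := cK_pos n
  have h3 : cK n * θ ^ n * EE w L h (fun p => |iP w L l₀ j c p| ^ n) ≤ B ^ (2 * n) :=
    (mul_le_mul_of_nonneg_left h0.le (by positivity)).trans (by rwa [mul_assoc, ← mul_pow])
  refine mink_fin hA hB h1 h3 ?_
  have s0 := sep_sq (L := L) (l₀ := l₀) hw j c n
  rw [EE_iP hw h hjc, ← congrFun (node_const_mul w _ _ L j) h]
  refine node_le2 hw ((s3_Pc hw n j c c'').eg hw _ _ _) ((s3_Pc hw n j c c').eg hw _ _ _)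
    ((sep_eg s0 hw _ _).const_mul _) (fun z => ?_) L j h
  rw [← congrFun (node_const_mul w _ _ (L.drop j) (c - j)) z]
  refine node_le2 hw (((s3_Pc hw n j c c'').sep z).eg_in hw _ _ z)
    (((s3_Pc hw n j c c').sep z).eg_in hw _ _ z) ((s0.right z).const_mul _) (fun u => ?_) _ _ z
  have e : ∀ d, Pc w L l₀ n j c d z u = fun u' => (∑ i, dv w L l₀ j c z u i *
      mv w (L.drop d) l₀ u' i + -∑ i, dv w L l₀ j c z u i * mv w (L.drop j) l₀ z i) ^ (2 * n) :=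
    fun d => funext fun u' => by
      rw [Pc, ← sub_eq_add_neg, ← sum_sub_distrib]
      simp only [← mul_sub]
      rfl
  rw [e, e]
  refine (one_step hw D.mono l₀ D.dom H hc _ _ n hA hB z).trans_eq ?_
  rw [mul_pow θ, ← mul_assoc (cK n)]

theorem DC_chain {j n : ℕ} {c : ℕ → ℕ} (hc : Monotone c) (hj : j ≤ c 0) {θ ρ B : ℕ → ℝ} {A : ℝ}
    (hA : 0 < A) (hB : ∀ l, 0 < B l) (h1 : DC w L l₀ h n j (c 0) (c 0) ≤ A ^ (2 * n)) : ∀ K : ℕ,
    (∀ l < K, LpR43.Win L τ j (c l) (θ l) ∧ Mo w L h n (iP w L l₀ j (c l)) (ρ l) ∧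
      Mo w L h n (iP w L l₀ j (c (l + 1))) (ρ l) ∧ cK n * (θ l * ρ l) ^ n ≤ B l ^ (2 * n)) →
    DC w L l₀ h n j (c K) (c K) ≤ (A + 2 * ∑ l ∈ range K, B l) ^ (2 * n)
  | 0, _ => by simpa using h1
  | K + 1, H => by
    have ih := DC_chain hc hj hA hB h1 K fun l hl => H l (by omega)
    obtain ⟨a1, a2, a3, a4⟩ := H K (by omega)
    have p : 0 < A + 2 * ∑ l ∈ range K, B l :=
      add_pos_of_pos_of_nonneg hA (mul_nonneg two_pos.le (sum_nonneg fun l _ => (hB l).le))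
    have cK' := hc K.le_succ
    have s1 := DC_step D a1.le a1 cK' p (hB K) ih a2 a4
    rw [DC_swap D.hw] at s1
    have s2 := DC_step D (a1.le.trans cK') a1 cK' (add_pos p (hB K)) (hB K) s1 a3 a4
    rw [sum_range_succ]
    exact s2.trans_eq (by congr 1; ring)

/-- **overlap of a pair split at `j`, centred chain** -/
theorem pair_ctr {j n K : ℕ} {c : ℕ → ℕ} (hc : Monotone c) {θ ρ : ℕ → ℝ} {q C A0 A1 A2 : ℝ}
    (hC : 0 < C) (hC' : cK n ≤ C ^ (2 * n)) (W : ∀ l ≤ K, LpR43.Win L τ j (c l) (θ l))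
    (h0 : Mo w L h (2 * n) (fun p => rP w L l₀ j p - q) A0)
    (h1 : Mo w L h (2 * n) (iP w L l₀ j (c 0)) A1) (h2 : Mo w L h (2 * n) (Yj w L l₀ j (c K)) A2)
    (h3 : ∀ l < K, Mo w L h n (iP w L l₀ j (c l)) (ρ l) ∧
      Mo w L h n (iP w L l₀ j (c (l + 1))) (ρ l)) :
    pi2 w L j (fun x y => (l₀.cov x y - q) ^ (2 * n)) h ≤
      (A0 + A1 + 2 * A2 + 2 * C * (∑ l ∈ range K, √(θ l * ρ l) + √(θ K))) ^ (2 * n) := by
  have hw := D.hw
  refine le_pow_of_forall fun ε hε => ?_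
  set δ := ε / (2 * K + 4) with hδ
  have δ0 : 0 < δ := by positivity
  have θ0 : ∀ l ≤ K, 0 < θ l := fun l hl => (W l hl).pos D.mono l₀ D.dom
  have hj := (W 0 (Nat.zero_le K)).le
  have p1 : 0 < A1 + δ := by linarith [h1.nn]
  have p2 : 0 < 2 * A2 + A0 + δ := by linarith [h0.nn, h2.nn]
  have s1 := DC_chain D hc hj (B := fun l => C * √(θ l * ρ l) + δ) p1 (fun l => by positivity)
    ((DC_base hw h n hj).trans (h1.le.trans (pow_le_pow_left₀ h1.nn (by linarith) _))) K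
    fun l hl => ⟨W l hl.le, (h3 l hl).1, (h3 l hl).2,
      cK_le hC hC' (θ0 l hl.le).le (h3 l hl).1.nn δ0.le⟩
  have p3 : 0 < A1 + δ + 2 * ∑ l ∈ range K, (C * √(θ l * ρ l) + δ) :=
    add_pos_of_pos_of_nonneg p1 (mul_nonneg two_pos.le (sum_nonneg fun l _ => by positivity))
  have m := ((h2.const_mul' two_pos.le).add hw h0).le
  simp only [(even_two_mul n).pow_abs] at m
  have s2 := DD_ctr hw h q n (W K le_rfl).le p3 p2 s1
    (m.trans (pow_le_pow_left₀ (by linarith [h0.nn, h2.nn]) (by linarith) _))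
  refine (DD_leaf hw D.mono l₀ D.dom (W K le_rfl) D.one h q n (add_pos p3 p2)
    (B := C * √(θ K * 1) + δ) (by positivity) s2
    (cK_le hC hC' (θ0 K le_rfl).le zero_le_one δ0.le)).trans_eq ?_
  congr 1
  rw [sum_add_distrib, ← mul_sum, sum_const, card_range, nsmul_eq_mul, mul_one, hδ]
  field_simp
  ring

/-- one adapted direction -/
theorem mo_Yi {a c0 c n : ℕ} {θ ρ C : ℝ} (hC : 0 < C) (hC' : cK n ≤ C ^ (2 * n))
    (W : LpR43.Win L τ a c0 θ) (hc : c0 ≤ c) {η : Pth Ω → l₀.ι → ℝ} (eη : ∀ i, EP fun p => η p i)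
    (aη : Lp12.Ad a η) (H : Mo w L h n (fun p => ∑ i, η p i ^ 2) ρ) :
    Mo w L h (2 * n) (Yi w L l₀ η c0 c) (C * √(θ * ρ)) := by
  have hw := D.hw
  have θ0 := W.pos D.mono l₀ D.dom
  have hK := cK_pos n
  refine ⟨ep_Yi hw L l₀ eη c0 c, by positivity, ?_⟩
  simp only [(even_two_mul n).pow_abs]
  refine (EE_le_CE hw L h a ((ep_Yi hw L l₀ eη c0 c).pow _)
    (((ep_sq eη).abs.pow n).const_mul (cK n * θ ^ n)) fun p => ?_).trans ?_
  · refine (CE_Yi hw D.mono l₀ D.dom W hc aη n p).trans_eq ?_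
    rw [abs_of_nonneg (sum_nonneg fun _ _ => sq_nonneg _), mul_pow, mul_assoc]
  · rw [EE_const_mul]
    refine (mul_le_mul_of_nonneg_left H.le (by positivity)).trans ?_
    rw [mul_assoc, ← mul_pow]
    simpa using cK_le hC hC' θ0.le H.nn le_rfl

/-- **the direction of the splitting node**: `m_j · (m_c - m_{c0})` by look-back pieces -/
theorem dir_Mo {j c0 c n K : ℕ} {b : ℕ → ℕ} (b0 : b 0 = j) (hb : Antitone b) {θ ρ : ℕ → ℝ} {C : ℝ}
    (hC : 0 < C) (hC' : cK n ≤ C ^ (2 * n)) (hc : c0 ≤ c)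
    (W : ∀ l ≤ K, LpR43.Win L τ (b l) c0 (θ l))
    (H : ∀ l < K, Mo w L h n (iP w L l₀ (b (l + 1)) (b l)) (ρ l)) :
    Mo w L h (2 * n) (Yi w L l₀ (fun p => mv w (L.drop j) l₀ (p j)) c0 c)
      (C * (∑ l ∈ range K, √(θ l * ρ l) + √(θ K))) := by
  have hw := D.hw
  have s1 := Mo.sum hw (range K) fun l hl => mo_Yi D hC hC' (W l (mem_range.1 hl).le) hc
    (η := fun p i => mv w (L.drop (b l)) l₀ (p (b l)) i -
      mv w (L.drop (b (l + 1))) l₀ (p (b (l + 1))) i)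
    (fun i => (ep_mv hw _ l₀ _ i).sub (ep_mv hw _ l₀ _ i))
    (fun p q e => by beta_reduce; rw [e _ le_rfl, e _ (hb l.le_succ)]) (H l (mem_range.1 hl))
  have s2 := mo_Yi D hC hC' (W K le_rfl) hc (η := fun p => mv w (L.drop (b K)) l₀ (p (b K)))
    (fun i => ep_mv hw _ l₀ _ i) (Ad.state le_rfl _) (ρ := 1)
    (Mo.bdd hw (ep_sq fun i => ep_mv hw _ l₀ _ i) fun p => by
      rw [abs_of_nonneg (sum_nonneg fun _ _ => sq_nonneg _)]
      exact Q33.rr_le hw _ D.one _)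
  refine ((s1.add hw s2).congr fun p => ?_).mono (le_of_eq ?_)
  · unfold Yi
    rw [sum_comm, ← sum_add_distrib]
    refine sum_congr rfl fun i _ => ?_
    rw [← sum_mul, ← add_mul, sum_range_sub' (fun l => mv w (L.drop (b l)) l₀ (p (b l)) i), b0,
      sub_add_cancel]
  · rw [mul_one, mul_add, mul_sum]

/-- `m_j · (m_c - m_j)` from the node and increment bounds at `c0` and the look-back -/
theorem mo_Yj {j c0 c k : ℕ} {q A A' A'' B : ℝ}
    (h0 : Mo w L h k (fun p => rP w L l₀ j p - q) A)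
    (h1 : Mo w L h k (fun p => rP w L l₀ c0 p - q) A') (h2 : Mo w L h k (iP w L l₀ j c0) A'')
    (h3 : Mo w L h k (Yi w L l₀ (fun p => mv w (L.drop j) l₀ (p j)) c0 c) B) :
    Mo w L h k (Yj w L l₀ j c) (1 / 2 * (A' + A + A'') + B) := by
  have hw := D.hw
  refine (((((h1.sub hw h0).sub hw h2).const_mul' (c := 1 / 2) (by norm_num))).add hw h3).congr
    fun p => ?_
  simp only [Yj, Yi, rP, iP, rr]
  rw [sub_sub_sub_cancel_right, ← sum_sub_distrib, ← sum_sub_distrib, mul_sum, ← sum_add_distrib]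
  exact sum_congr rfl fun i _ => by ring

/-- increments along a chain -/
theorem mo_iP_add {a b c k : ℕ} {A B : ℝ} (h1 : Mo w L h (2 * k) (fun p => √(iP w L l₀ a b p)) A)
    (h2 : Mo w L h (2 * k) (fun p => √(iP w L l₀ b c p)) B) :
    Mo w L h (2 * k) (fun p => √(iP w L l₀ a c p)) (A + B) := by
  have hw := D.hw
  refine (h1.add hw h2).of_le' hw (ep_iP hw a c).sqrt fun p => ?_
  rw [abs_of_nonneg (sqrt_nonneg _)]
  refine sqrt_le_iff.2 ⟨by positivity, ?_⟩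
  have cs := Real.sum_mul_le_sqrt_mul_sqrt univ
    (fun i => mv w (L.drop b) l₀ (p b) i - mv w (L.drop a) l₀ (p a) i)
    (fun i => mv w (L.drop c) l₀ (p c) i - mv w (L.drop b) l₀ (p b) i)
  rw [add_sq, sq_sqrt (iP_nn _ _ _), sq_sqrt (iP_nn _ _ _)]
  have e : iP w L l₀ a c p = iP w L l₀ a b p + 2 * ∑ i,
      (mv w (L.drop b) l₀ (p b) i - mv w (L.drop a) l₀ (p a) i) *
      (mv w (L.drop c) l₀ (p c) i - mv w (L.drop b) l₀ (p b) i) + iP w L l₀ b c p := by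
    simp only [iP]
    rw [mul_sum, ← sum_add_distrib, ← sum_add_distrib]
    exact sum_congr rfl fun i _ => by ring
  rw [e]
  unfold iP
  linarith

theorem mo_of_sqrt {a c k : ℕ} {A : ℝ} (h1 : Mo w L h (2 * k) (fun p => √(iP w L l₀ a c p)) A) :
    Mo w L h k (iP w L l₀ a c) (A ^ 2) :=
  h1.pow.congr fun _ => (sq_sqrt (iP_nn _ _ _)).symm

end Crest.Agent.T156.Cas.PC5

end
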