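import Crest.Agent.T156.PairC_5

/-!
# Row 156, block Q (helper5): the pair bound on a two-sided cone
-/

set_option autoImplicit false
set_option maxHeartbeats 400000

noncomputable section

namespace Crest.Agent.T156.Cas.PC5

open MeasureTheory Real Finset
open Crest.Agent.T157.E Crest.Agent.T157.Casc Crest.Agent.T157.SL
open Sy41 Lp12 LpR43 QCas98

variable {Ω : Type} [Fintype Ω] {w : Ω → ℝ} {L : List (Lv Ω)} {l₀ : Lv Ω} {h : Ω → ℝ}
  {τ : ℕ → ℝ}

/-- **pairs split at the vertex `j` of a cone**: `N` nodes per window, `K1` octaves above, `K2`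
octaves below -/
theorem pair_cone (D : Dat w L h l₀ τ) {t' : ℕ → ℕ} {LL j0 j1 j2 : ℕ} {x v w3 K : ℝ}
    (R : Ric L τ t' LL j0 j1 j2 x v w3 K) {p n j N K1 K2 : ℕ} {A κ B C q : ℝ} {tol c : ℕ → ℝ}
    (hn : 2 * n ≤ p) (hN : 1 ≤ N) (h0 : j0 + 2 ^ K2 * N ≤ j + N) (h1 : j + 2 ^ K1 * N ≤ j1)
    (hA : 0 ≤ A) (hκ : 1 ≤ κ) (hC : 0 < C) (hC' : cK n ≤ C ^ (2 * n))
    (loc : ∀ y, j ≤ y → y ≤ j + N → Mo w L h p (fun q => rP w L l₀ y q - c y) (A * tol y))
    (inc : ∀ y y', j + N ≤ y + 2 ^ K2 * N → y ≤ y' → y' ≤ j + 2 ^ K1 * N →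
      Mo w L h p (iP w L l₀ y y') (A * (tol y + tol y' + ((y' : ℝ) - y) * v)))
    (cone : ∀ y : ℕ, j + N ≤ y + 2 ^ K2 * N → y ≤ j + 2 ^ K1 * N →
      tol y ≤ κ * (N * v + |(y : ℝ) - j| * v))
    (c0 : |c j - q| ≤ B) (c1 : |c (j + N) - q| ≤ B) :
    pi2 w L j (fun x y => (l₀.cov x y - q) ^ (2 * n)) h ≤
      (12 * (A * κ * (N * v)) + 3 * B + 2 * C * ((K1 + K2 : ℝ) * √(6 * A * κ * w3 / x) +
        √(w3 / (x * (2 ^ K1 * N * v))) + √(w3 / (x * (2 ^ K2 * N * v))))) ^ (2 * n) := by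
  have hw := D.hw
  have v0 := R.v0
  have x0 := R.x0
  have w0 : 0 < w3 := by linarith [R.vw]
  have N0 : (0 : ℝ) < N := by exact_mod_cast hN
  have pw : ∀ {l m : ℕ}, l ≤ m → 2 ^ l * N ≤ 2 ^ m * N := fun e =>
    Nat.mul_le_mul_right _ (Nat.pow_le_pow_right (by norm_num) e)
  have p1 : ∀ l : ℕ, N ≤ 2 ^ l * N := fun l => by simpa using pw (Nat.zero_le l)
  have q1 : ∀ l : ℕ, (1 : ℝ) ≤ 2 ^ l := fun l => one_le_pow₀ (by norm_num)
  have r0 : 0 < N * v := by positivity
  have k0 : N * v ≤ κ * (N * v) := le_mul_of_one_le_left r0.le hκ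
  have tj : tol j ≤ κ * (N * v) := by
    simpa using cone j (by have := p1 K2; omega) (by omega)
  have tu : ∀ l ≤ K1, tol (j + 2 ^ l * N) ≤ κ * (N * v) + 2 ^ l * (κ * (N * v)) := fun l hl => by
    refine (cone _ (by have := p1 K2; omega) (by have := pw hl; omega)).trans_eq ?_
    push_cast
    rw [add_sub_cancel_left, abs_of_nonneg (by positivity)]
    ring
  have cb : ∀ l ≤ K2, ((j + N - 2 ^ l * N : ℕ) : ℝ) = j + N - 2 ^ l * N := fun l hl => by
    rw [Nat.cast_sub (by have := pw hl; omega)]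
    push_cast
    ring
  have td : ∀ l ≤ K2, tol (j + N - 2 ^ l * N) ≤ 2 ^ l * (κ * (N * v)) := fun l hl => by
    refine (cone _ (by have := pw hl; omega) (by have := p1 l; omega)).trans_eq ?_
    rw [cb l hl, abs_of_nonpos (by nlinarith [q1 l])]
    ring
  have iu : ∀ l m, m ≤ K1 → m ≤ l + 1 → Mo w L h p (iP w L l₀ j (j + 2 ^ m * N))
      (6 * A * κ * (2 ^ l * N * v)) := fun l m a b => by
    refine (inc j _ (by have := p1 K2; omega) (by omega) (by have := pw a; omega)).mono ?_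
    have e : (2 : ℝ) ^ m ≤ 2 * 2 ^ l := (pow_le_pow_right₀ (by norm_num) b).trans_eq (by ring)
    have e1 := mul_le_mul_of_nonneg_right e (r0.le.trans k0)
    have e2 := mul_le_mul_of_nonneg_left k0 (by positivity : (0 : ℝ) ≤ 2 ^ m)
    have e3 := mul_le_mul_of_nonneg_right (q1 l) (r0.le.trans k0)
    push_cast
    rw [add_sub_cancel_left, mul_comm 6, mul_assoc A, mul_assoc A]
    exact mul_le_mul_of_nonneg_left (by linarith [tu m a]) hA
  have sq : ∀ l : ℕ, w3 / (x * ((2 ^ l * N : ℕ) * v)) * (6 * A * κ * (2 ^ l * N * v)) =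
      6 * A * κ * w3 / x := fun l => by
    push_cast
    field_simp
  have m0 : Mo w L h (2 * n) (fun p => rP w L l₀ j p - q) (A * (κ * (N * v)) + B) :=
    ((((loc j le_rfl (by omega)).lyap hw hn).add hw (Mo.const hw (c j - q))).congr
      fun _ => by ring).mono (add_le_add (mul_le_mul_of_nonneg_left tj hA) c0)
  have t1 : tol (j + N) ≤ 2 * (κ * (N * v)) := by
    have := tu 0 (Nat.zero_le _)
    simp only [pow_zero, one_mul] at this
    linarith
  have m1 : Mo w L h (2 * n) (fun p => rP w L l₀ (j + N) p - q) (A * (2 * (κ * (N * v))) + B) :=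
    ((((loc (j + N) (by omega) le_rfl).lyap hw hn).add hw (Mo.const hw (c (j + N) - q))).congr
      fun _ => by ring).mono (add_le_add (mul_le_mul_of_nonneg_left t1 hA) c1)
  have m2 : Mo w L h (2 * n) (iP w L l₀ j (j + N)) (A * (4 * (κ * (N * v)))) := by
    refine ((inc j (j + N) (by have := p1 K2; omega) (by omega)
      (by have := p1 K1; omega)).lyap hw hn).mono (mul_le_mul_of_nonneg_left ?_ hA)
    push_cast
    rw [add_sub_cancel_left]
    linarith
  have m3 := dir_Mo D (j := j) (c0 := j + N) (c := j + 2 ^ K1 * N) (n := n) (K := K2)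
    (b := fun l => j + N - 2 ^ l * N) (by simp) (fun a b e => by have := pw e; beta_reduce; omega)
    (θ := fun l => w3 / (x * ((2 ^ l * N : ℕ) * v))) (ρ := fun l => 6 * A * κ * (2 ^ l * N * v))
    hC hC' (by have := p1 K1; omega)
    (fun l hl => R.win (by have := pw hl; omega) (hN.trans (p1 l)) (by have := pw hl; omega)
      (by have := p1 K1; omega))
    fun l hl => by
      refine ((inc (j + N - 2 ^ (l + 1) * N) _ (by have := pw (show l + 1 ≤ K2 from hl); omega)
        (Nat.sub_le_sub_left (pw l.le_succ) _) (by have := p1 l; omega)).lyap hw (by omega)).mono ?_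
      have e2 := mul_le_mul_of_nonneg_left k0 (by positivity : (0 : ℝ) ≤ 2 ^ l)
      have e3 := td _ (show l + 1 ≤ K2 from hl)
      have e4 : 0 ≤ 2 ^ l * (κ * (N * v)) := by positivity
      rw [cb l hl.le, cb (l + 1) hl, mul_comm 6, mul_assoc A, mul_assoc A]
      have e5 := td l hl.le
      generalize tol (j + N - 2 ^ (l + 1) * N) = T at e3 ⊢
      rw [pow_succ] at e3 ⊢
      exact mul_le_mul_of_nonneg_left (by linarith) hA
  have key := pair_ctr D (j := j) (n := n) (K := K1) (c := fun l => j + 2 ^ l * N)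
    (fun a b e => by have := pw e; beta_reduce; omega)
    (θ := fun l => w3 / (x * ((2 ^ l * N : ℕ) * v))) (ρ := fun l => 6 * A * κ * (2 ^ l * N * v))
    hC hC' (fun l hl => R.win (by have := p1 K2; omega) (hN.trans (p1 l)) le_rfl
      (by have := pw hl; omega)) m0 (by simpa using m2) (mo_Yj D m0 m1 m2 m3)
    fun l hl => ⟨(iu l l hl.le l.le_succ).lyap hw (by omega),
      (iu l (l + 1) hl le_rfl).lyap hw (by omega)⟩
  simp only [sq, sum_const, card_range, nsmul_eq_mul] at key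
  refine key.trans_eq ?_
  congr 1
  push_cast
  ring

end Crest.Agent.T156.Cas.PC5

end
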