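import Crest.Agent.T156.Pplus_69

/-!
Row 156 (helper69): bounds for all space derivatives of the Parisi function, uniform in the
admissible `ζ`, and the sharp slope `2 Φ_xx(0,0)³ ζ(s) = β² Φ_xxxx(0,0)² s + O(s² + √η)` at the
grid minimiser.
-/

set_option autoImplicit false

namespace Crest.Agent.T156.Pp

open MeasureTheory ProbabilityTheory Filter Topology Set
open Crest.Agent.R164.GC Crest.Agent.R339.B Crest.Agent.R339.Var Crest.Agent.T157.Pf
open Crest.ProbabilityR.InvariantGlass (gaussOp)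

noncomputable section

/-- `∂_x^{k+1} Φ` -/
def Dn (k : ℕ) (Φ : ℝ → ℝ) : ℝ → ℝ := iteratedDeriv k (deriv Φ)

theorem Dn_zero (Φ : ℝ → ℝ) : Dn 0 Φ = deriv Φ := by simp [Dn]
theorem Dn_succ (k : ℕ) (Φ : ℝ → ℝ) : Dn (k + 1) Φ = deriv (Dn k Φ) := by
  unfold Dn; rw [iteratedDeriv_succ]
theorem Dn_one (Φ : ℝ → ℝ) : Dn 1 Φ = deriv (deriv Φ) := by rw [Dn_succ, Dn_zero]
theorem Dn_two (Φ : ℝ → ℝ) : Dn 2 Φ = deriv (deriv (deriv Φ)) := by rw [Dn_succ, Dn_one]
theorem Dn_three (Φ : ℝ → ℝ) : Dn 3 Φ = deriv (deriv (deriv (deriv Φ))) := by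
  rw [Dn_succ, Dn_two]

theorem Dn_bd {Φ : ℝ → ℝ} (h : Prof Φ) (k : ℕ) : BD (Dn k Φ) := h.bd.iter k

theorem Dn_shift (k : ℕ) (Φ : ℝ → ℝ) (c : ℝ) : Dn k (fun x => Φ x + c) = Dn k Φ := by
  unfold Dn; rw [Par.deriv_shift]

theorem Ak_eq {Φ : ℝ → ℝ} (h : Prof Φ) (m : ℝ) (k : ℕ) :
    Ak Φ m (deriv Φ) k = fun v => Dn k (gaussOp m v Φ) := by
  funext v x
  unfold Ak Dn
  rw [Lip62.At_deriv h]

theorem tb_Dn {Φ : ℝ → ℝ} (h : Prof Φ) (m : ℝ) (k : ℕ) :
    TB Φ m (fun v => Dn k (gaussOp m v Φ))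
      (fun v x => -m * ∑ i ∈ Finset.range k, (k.choose (i + 1) : ℝ) *
        Dn (i + 1) (gaussOp m v Φ) x * Dn (k - i) (gaussOp m v Φ) x)
      (fun v => Dn (k + 1) (gaussOp m v Φ)) :=
  (tb_Ak h m h.bd k).congr (fun v x => by rw [Ak_eq h]) (fun v x => by
    unfold LA; simp only [Ak_eq h]) (fun v x => by rw [Ak_eq h])

theorem Dn_ug {Φ : ℝ → ℝ} (h : Prof Φ) (m : ℝ) (k : ℕ) : UG (fun v => Dn k (gaussOp m v Φ)) :=
  (tb_Dn h m k).ug

/-- **uniform bounds for all derivatives** -/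
theorem Dn_bound (T : ℝ) (k : ℕ) : ∃ C : ℝ, 1 ≤ C ∧ ∀ j < k, ∀ l : List (ℝ × ℝ), Adm 1 l →
    TT l ≤ T → ∀ x, |Dn j (PhiL 1 l) x| ≤ C := by
  induction k with
  | zero => exact ⟨1, le_rfl, fun j hj => absurd hj (Nat.not_lt_zero j)⟩
  | succ k ih =>
    obtain ⟨C, hC1, hC⟩ := ih
    suffices H : ∃ C' : ℝ, ∀ l : List (ℝ × ℝ), Adm 1 l → TT l ≤ T → ∀ x,
        |Dn k (PhiL 1 l) x| ≤ C' by
      obtain ⟨C', hC'⟩ := H
      refine ⟨max C C', le_max_of_le_left hC1, fun j hj l hl hT x => ?_⟩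
      rcases Nat.lt_succ_iff_lt_or_eq.1 hj with h1 | rfl
      · exact le_max_of_le_left (hC j h1 l hl hT x)
      · exact le_max_of_le_right (hC' l hl hT x)
    rcases Nat.lt_or_ge k 2 with hk | hk
    · refine ⟨1, fun l hl _ x => ?_⟩
      interval_cases k
      · rw [Dn_zero]
        exact (PhiL_prof one_pos l).b1 x
      · rw [Dn_one]
        have hI := PhiL_inv one_pos hl
        rw [abs_of_pos (u2_pos hI x)]
        exact Inv.d2_le hI one_pos x
    obtain ⟨M, hM⟩ := (Dn_bd (phi0_prof one_pos) k).bdd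
    have hM0 : 0 ≤ M := (abs_nonneg _).trans (hM 0)
    set S : ℝ := ∑ i ∈ Finset.range k, (k.choose (i + 1) : ℝ) with hS
    have hS0 : 0 ≤ S := Finset.sum_nonneg fun i _ => Nat.cast_nonneg _
    have hC0 : 0 ≤ C := by linarith
    have key : ∀ l : List (ℝ × ℝ), Adm 1 l → TT l ≤ T → ∀ x, |Dn k (PhiL 1 l) x| ≤
        (M + S * C ^ 2 * TT l) * Real.exp (2 * (S * C) * TT l) := by
      intro l
      induction l with
      | nil => intro _ _ x; simpa [TT, PhiL] using hM x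
      | cons p l ihl =>
        intro hl hT x
        have hp := PhiL_prof one_pos l
        have hT0 := Min62.TT_nn hl.2.2.2
        have hd := hl.2.2.1
        rw [TT_cons] at hT ⊢
        obtain ⟨B, hB⟩ := Ak_bdd hp p.1 hp.bd k
        rw [Ak_eq hp] at hB
        have g := gronwall hp hl.1.ne' (ι := Unit)
          (F := fun _ v => Dn k (gaussOp p.1 v (PhiL 1 l))) (fun _ => tb_Dn hp p.1 k)
          (c := S * C) (f := S * C ^ 2)
          (M := (M + S * C ^ 2 * TT l) * Real.exp (2 * (S * C) * TT l))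
          (by positivity) (by positivity) (by positivity) hd (fun _ => hB)
          (fun v hv N hN hF _ y => ?_) (fun _ y => ?_) () x
        · refine g.trans ?_
          have e1 : 1 ≤ Real.exp (2 * (S * C) * TT l) := Real.one_le_exp (by positivity)
          rw [show 2 * (S * C) * (p.2 + TT l) = 2 * (S * C) * TT l + 2 * (S * C) * p.2 by ring,
            Real.exp_add, ← mul_assoc (M + S * C ^ 2 * (p.2 + TT l))]
          refine mul_le_mul_of_nonneg_right ?_ (Real.exp_pos _).le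
          have e2 : 0 ≤ S * C ^ 2 * p.2 := by positivity
          nlinarith
        · have low : ∀ j < k, |Dn j (gaussOp p.1 v (PhiL 1 l)) y| ≤ C := fun j hj =>
            hC j hj ((p.1, v) :: l) ⟨hl.1, hl.2.1, hv.1, hl.2.2.2⟩ (by
              rw [TT_cons]; linarith [hv.2]) y
          have top := hF () y
          rw [abs_mul, abs_neg, abs_of_pos hl.1]
          refine (mul_le_of_le_one_left (abs_nonneg _) (Lip62.head_le_one hl)).trans ?_
          refine (Finset.abs_sum_le_sum_abs _ _).trans ?_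
          rw [show S * C * N + S * C ^ 2 = S * (C * N + C ^ 2) by ring, hS, Finset.sum_mul]
          refine Finset.sum_le_sum fun i hi => ?_
          rw [Finset.mem_range] at hi
          rw [mul_assoc, abs_mul, Nat.abs_cast, abs_mul]
          refine mul_le_mul_of_nonneg_left ?_ (Nat.cast_nonneg _)
          have q1 : 0 ≤ C * N := mul_nonneg hC0 hN
          have q2 : 0 ≤ C ^ 2 := sq_nonneg C
          by_cases h1 : i + 1 = k
          · have a1 := low (k - i) (by omega)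
            rw [h1]
            have := mul_le_mul top a1 (abs_nonneg _) hN
            linarith
          · by_cases h2 : i = 0
            · have a1 := low (i + 1) (by omega)
              rw [h2, Nat.sub_zero] at *
              have := mul_le_mul a1 top (abs_nonneg _) hC0
              linarith
            · have := mul_le_mul (low (i + 1) (by omega)) (low (k - i) (by omega)) (abs_nonneg _) hC0
              linarith
        · rw [gaussOp_v0 hl.1.ne']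
          exact ihl hl.2.2.2 (by linarith) y
    refine ⟨(M + S * C ^ 2 * T) * Real.exp (2 * (S * C) * T), fun l hl hT x =>
      (key l hl hT x).trans ?_⟩
    have hT0 := Min62.TT_nn hl
    have hT1 : 0 ≤ T := hT0.trans hT
    gcongr

/-- the same for `Par`: one constant for every admissible `ζ`, every `s ≥ 0` -/
theorem Dn_Ph (β : ℝ) (k : ℕ) : ∃ C : ℝ, 1 ≤ C ∧ ∀ P : Par, P.OK → ∀ s, 0 ≤ s → ∀ j ≤ k, ∀ x,
    |Dn j (P.Ph β s) x| ≤ C := by
  obtain ⟨C, h1, hC⟩ := Dn_bound (β ^ 2) (k + 1)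
  refine ⟨C, h1, fun P h s hs j hj x => ?_⟩
  rw [Par.Ph_eq, Lip62.PhiT_eq_rest]
  obtain ⟨a, b⟩ := Lip62.adm_rest (h.adm β P.K) (β ^ 2 * s) (by positivity)
  exact hC j (Nat.lt_succ_of_le hj) _ a (b.trans_eq (h.TT_K β)) x

/-! ### time derivatives of moments -/

variable {P : Par} {β : ℝ}

def W2 (Φ : ℝ → ℝ) (y : ℝ) : ℝ := Dn 2 Φ y ^ 2
def W2' (c : ℝ) (Φ : ℝ → ℝ) (y : ℝ) : ℝ := Dn 3 Φ y ^ 2 - 6 * c * (Dn 1 Φ y * Dn 2 Φ y ^ 2)
def W3 (Φ : ℝ → ℝ) (y : ℝ) : ℝ := Dn 3 Φ y ^ 2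
def W3' (c : ℝ) (Φ : ℝ → ℝ) (y : ℝ) : ℝ :=
  Dn 4 Φ y ^ 2 - 2 * c * (Dn 3 Φ y * (4 * (Dn 1 Φ y * Dn 3 Φ y) + 3 * Dn 2 Φ y ^ 2))
def A3 (Φ : ℝ → ℝ) (y : ℝ) : ℝ := Dn 1 Φ y ^ 3
def A3' (c : ℝ) (Φ : ℝ → ℝ) (y : ℝ) : ℝ := 3 * (Dn 1 Φ y * Dn 2 Φ y ^ 2) - 3 * c * Dn 1 Φ y ^ 4

theorem bfn_W2 : BFn W2 :=
  ⟨fun _ h => toBC ((Dn_bd h 2).pow 2), fun _ h m _ => (Dn_ug h m 2).pow 2⟩
theorem bfn_W3 : BFn W3 :=
  ⟨fun _ h => toBC ((Dn_bd h 3).pow 2), fun _ h m _ => (Dn_ug h m 3).pow 2⟩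
theorem bfn_A3 : BFn A3 :=
  ⟨fun _ h => toBC ((Dn_bd h 1).pow 3), fun _ h m _ => (Dn_ug h m 1).pow 3⟩
theorem bfn_W2' (c : ℝ) : BFn (W2' c) :=
  ⟨fun _ h => toBC (((Dn_bd h 3).pow 2).sub
      (((Dn_bd h 1).mul ((Dn_bd h 2).pow 2)).const_mul (6 * c))),
    fun _ h m _ => ((Dn_ug h m 3).pow 2).sub
      (((Dn_ug h m 1).mul ((Dn_ug h m 2).pow 2)).const_mul (6 * c))⟩
theorem bfn_W3' (c : ℝ) : BFn (W3' c) :=
  ⟨fun _ h => toBC (((Dn_bd h 4).pow 2).sub (((Dn_bd h 3).mul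
      ((((Dn_bd h 1).mul (Dn_bd h 3)).const_mul 4).add
        (((Dn_bd h 2).pow 2).const_mul 3))).const_mul (2 * c))),
    fun _ h m _ => ((Dn_ug h m 4).pow 2).sub (((Dn_ug h m 3).mul
      ((((Dn_ug h m 1).mul (Dn_ug h m 3)).const_mul 4).add
        (((Dn_ug h m 2).pow 2).const_mul 3))).const_mul (2 * c))⟩
theorem bfn_A3' (c : ℝ) : BFn (A3' c) :=
  ⟨fun _ h => toBC ((((Dn_bd h 1).mul ((Dn_bd h 2).pow 2)).const_mul 3).sub
      (((Dn_bd h 1).pow 4).const_mul (3 * c))),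
    fun _ h m _ => (((Dn_ug h m 1).mul ((Dn_ug h m 2).pow 2)).const_mul 3).sub
      (((Dn_ug h m 1).pow 4).const_mul (3 * c))⟩

theorem W2_rder (h : P.OK) (hβ : 0 < β) {s : ℝ} (hs : 0 ≤ s) :
    HasDerivWithinAt (fun r => P.E β r (W2 (P.Ph β r)))
      (β ^ 2 * P.E β s (W2' (P.zeta s) (P.Ph β s))) (Ici s) s :=
  h.E_rder hβ bfn_W2 bfn_W2' (fun Φ c => by unfold W2; simp only [Dn_shift])
    (fun m Φ c => by unfold W2'; simp only [Dn_shift])
    (fun Φ hΦ m _ ν hν d τ h0 h1 => EE_deriv hΦ m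
      (((tb_Dn hΦ m 2).mul (tb_Dn hΦ m 2)).congr (fun v x => by unfold W2; ring)
        (fun v x => by
          unfold W2'
          simp only [Finset.sum_range_succ, Finset.range_zero, Finset.sum_empty]
          norm_num
          ring) (fun _ _ => rfl)) hν h0 h1) hs

theorem W3_rder (h : P.OK) (hβ : 0 < β) {s : ℝ} (hs : 0 ≤ s) :
    HasDerivWithinAt (fun r => P.E β r (W3 (P.Ph β r)))
      (β ^ 2 * P.E β s (W3' (P.zeta s) (P.Ph β s))) (Ici s) s :=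
  h.E_rder hβ bfn_W3 bfn_W3' (fun Φ c => by unfold W3; simp only [Dn_shift])
    (fun m Φ c => by unfold W3'; simp only [Dn_shift])
    (fun Φ hΦ m _ ν hν d τ h0 h1 => EE_deriv hΦ m
      (((tb_Dn hΦ m 3).mul (tb_Dn hΦ m 3)).congr (fun v x => by unfold W3; ring)
        (fun v x => by
          unfold W3'
          simp only [Finset.sum_range_succ, Finset.range_zero, Finset.sum_empty]
          norm_num [Nat.choose]
          ring) (fun _ _ => rfl)) hν h0 h1) hs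

theorem A3_rder (h : P.OK) (hβ : 0 < β) {s : ℝ} (hs : 0 ≤ s) :
    HasDerivWithinAt (fun r => P.E β r (A3 (P.Ph β r)))
      (β ^ 2 * P.E β s (A3' (P.zeta s) (P.Ph β s))) (Ici s) s :=
  h.E_rder hβ bfn_A3 bfn_A3' (fun Φ c => by unfold A3; simp only [Dn_shift])
    (fun m Φ c => by unfold A3'; simp only [Dn_shift])
    (fun Φ hΦ m _ ν hν d τ h0 h1 => EE_deriv hΦ m
      (((tb_Dn hΦ m 1).mul ((tb_Dn hΦ m 1).mul (tb_Dn hΦ m 1))).congr
        (fun v x => by unfold A3; ring)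
        (fun v x => by
          unfold A3'
          simp only [Finset.sum_range_succ, Finset.range_zero, Finset.sum_empty]
          norm_num
          ring) (fun _ _ => rfl)) hν h0 h1) hs

theorem E_abs_le' (P : Par) (β s : ℝ) {F : ℝ → ℝ} {K K' : ℝ} (hF : BC F K) (hb : ∀ y, |F y| ≤ K') :
    |P.E β s F| ≤ K' := P.E_abs_le β s ⟨hF.cont, hb⟩

/-- `|E Φ_xx³ - Φ_xx(0,0)³| ≤ 15 β² s` -/
theorem EA3_near (h : P.OK) (hβ : 0 < β) {s : ℝ} (hs : 0 ≤ s) :
    |(P.E β s fun x => P.Pxx β s x ^ 3) - P.Pxx β 0 0 ^ 3| ≤ 15 * β ^ 2 * s := by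
  have := abs_sub_le_of_rder (a := 0) (b := s) (C := 15 * β ^ 2) (s := 0) (t := s)
    (h.E_cont hβ bfn_A3 (fun Φ c => by unfold A3; simp only [Dn_shift]) s)
    (fun r hr => A3_rder h hβ hr.1) ⟨le_rfl, hs⟩ ⟨hs, le_rfl⟩ (fun r _ => by
      obtain ⟨K, hK⟩ := (bfn_A3' (P.zeta r)).bc _ (P.prof β r)
      have := E_abs_le' P β r hK (K' := 15) fun y => by
        unfold A3'
        rw [Dn_one, Dn_two]
        have a1 : 0 < deriv (deriv (P.Ph β r)) y := h.Pxx_pos β r y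
        have a2 : deriv (deriv (P.Ph β r)) y ≤ 1 := h.Pxx_le_one β r y
        have a3 : |deriv (deriv (deriv (P.Ph β r))) y| ≤ 2 := h.Pxxx_le_two β r y
        have a4 : deriv (deriv (deriv (P.Ph β r))) y ^ 2 ≤ 2 ^ 2 := sq_le_sq' (by
          linarith [(abs_le.1 a3).1]) (abs_le.1 a3).2
        have a5 : deriv (deriv (P.Ph β r)) y ^ 4 ≤ 1 := pow_le_one₀ a1.le a2
        have a6 := mul_le_mul (h.zeta_le r) a5 (by positivity) zero_le_one
        have a7 := mul_le_mul a2 a4 (by positivity) zero_le_one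
        have a8 := mul_nonneg (h.zeta_pos r).le (by positivity :
          0 ≤ deriv (deriv (P.Ph β r)) y ^ 4)
        have a9 := mul_nonneg a1.le (sq_nonneg (deriv (deriv (deriv (P.Ph β r))) y))
        rw [abs_le]
        constructor <;> nlinarith
      rw [abs_mul, abs_of_nonneg (sq_nonneg β)]
      nlinarith [sq_nonneg β])
  rw [Par.E_zero, sub_zero, abs_of_nonneg hs] at this
  have e : ∀ r, A3 (P.Ph β r) = fun x => P.Pxx β r x ^ 3 := fun r => by
    funext x; unfold A3; rw [Dn_one]; rfl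
  simpa only [e] using this

/-- `κ = Φ_xxxx(0,0)` -/
def k4 (P : Par) (β : ℝ) : ℝ := deriv (P.Pxxx β 0) 0

theorem k4_eq (P : Par) (β : ℝ) : k4 P β = Dn 3 (P.Ph β 0) 0 := by rw [Dn_three]; rfl

/-- `E Φ_xxx² = β² κ² s + O(s²)`, `|κ| ≤ K`, uniformly in `ζ` -/
theorem EW2_near (hβ : 0 < β) : ∃ K : ℝ, 1 ≤ K ∧ ∀ P : Par, P.OK → |k4 P β| ≤ K ∧ ∀ s, 0 ≤ s →
    |(P.E β s fun x => P.Pxxx β s x ^ 2) - β ^ 2 * k4 P β ^ 2 * s| ≤ K * s ^ 2 := by
  obtain ⟨C, hC1, hC⟩ := Dn_Ph β 4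
  refine ⟨C + β ^ 4 * (15 * C ^ 3 + 24), by
    have : 0 ≤ β ^ 4 * (15 * C ^ 3 + 24) := by positivity
    linarith, fun P h => ⟨?_, fun s hs => ?_⟩⟩
  · rw [k4_eq]
    have : 0 ≤ β ^ 4 * (15 * C ^ 3 + 24) := by positivity
    linarith [hC P h 0 le_rfl 3 (by norm_num) 0]
  have s1 : ∀ r, 0 ≤ r → |P.E β r (W3 (P.Ph β r)) - k4 P β ^ 2| ≤ β ^ 2 * (15 * C ^ 3) * r := by
    intro t ht
    have := abs_sub_le_of_rder (a := 0) (b := t) (C := β ^ 2 * (15 * C ^ 3)) (s := 0) (t := t)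
      (h.E_cont hβ bfn_W3 (fun Φ c => by unfold W3; simp only [Dn_shift]) t)
      (fun r hr => W3_rder h hβ hr.1) ⟨le_rfl, ht⟩ ⟨ht, le_rfl⟩ (fun r hr => by
        rw [min_eq_left ht] at hr
        obtain ⟨K, hK⟩ := (bfn_W3' (P.zeta r)).bc _ (P.prof β r)
        have := E_abs_le' P β r hK (K' := 15 * C ^ 3) fun y => by
          unfold W3'
          have b1 := hC P h r hr.1 1 (by norm_num) y
          have b2 := hC P h r hr.1 2 (by norm_num) y
          have b3 := hC P h r hr.1 3 (by norm_num) y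
          have b4 := hC P h r hr.1 4 (by norm_num) y
          have z0 := h.zeta_pos r
          have z1 := h.zeta_le r
          have hC0 : 0 ≤ C := by linarith
          have c1 : |Dn 4 (P.Ph β r) y ^ 2| ≤ C ^ 3 := by
            rw [abs_pow]
            exact (pow_le_pow_left₀ (abs_nonneg _) b4 2).trans (pow_le_pow_right₀ hC1 (by norm_num))
          have c2 : |4 * (Dn 1 (P.Ph β r) y * Dn 3 (P.Ph β r) y) + 3 * Dn 2 (P.Ph β r) y ^ 2| ≤
              7 * C ^ 2 := by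
            refine (abs_add_le _ _).trans ?_
            rw [abs_mul, abs_mul, abs_mul, abs_pow, abs_of_pos (by norm_num : (0:ℝ) < 4),
              abs_of_pos (by norm_num : (0:ℝ) < 3)]
            have d1 := mul_le_mul b1 b3 (abs_nonneg _) hC0
            have d2 := pow_le_pow_left₀ (abs_nonneg _) b2 2
            linarith
          refine (abs_sub _ _).trans ?_
          rw [abs_mul, abs_mul (Dn 3 _ _), abs_of_pos (by linarith : 0 < 2 * P.zeta r)]
          have d3 := mul_le_mul b3 c2 (abs_nonneg _) hC0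
          have d4 := mul_le_mul (show 2 * P.zeta r ≤ 2 by linarith) d3 (by positivity)
            (by norm_num)
          linarith
        rw [abs_mul, abs_of_nonneg (sq_nonneg β)]
        exact mul_le_mul_of_nonneg_left this (sq_nonneg β))
    rwa [Par.E_zero, sub_zero, abs_of_nonneg ht, W3, ← k4_eq] at this
  have e : ∀ r, W2 (P.Ph β r) = fun x => P.Pxxx β r x ^ 2 := fun r => by
    funext x; unfold W2; rw [Dn_two]; rfl
  have := abs_sub_le_of_rder (a := 0) (b := s) (C := β ^ 4 * (15 * C ^ 3 + 24) * s) (s := 0) (t := s)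
    (f := fun r => P.E β r (W2 (P.Ph β r)) - β ^ 2 * k4 P β ^ 2 * r)
    ((h.E_cont hβ bfn_W2 (fun Φ c => by unfold W2; simp only [Dn_shift]) s).sub (by fun_prop))
    (fun r hr => (W2_rder h hβ hr.1).sub ((hasDerivWithinAt_id r _).const_mul _))
    ⟨le_rfl, hs⟩ ⟨hs, le_rfl⟩ (fun r hr => by
      rw [min_eq_left hs, max_eq_right hs] at hr
      obtain ⟨K, hK⟩ := bfn_W3.bc _ (P.prof β r)
      have bb := (h.Pxx_bc β r).mul ((h.Pxxx_bc β r).pow 2)
      have e2 : W2' (P.zeta r) (P.Ph β r) = fun y => W3 (P.Ph β r) y -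
          6 * P.zeta r * (P.Pxx β r y * P.Pxxx β r y ^ 2) := by
        funext y; unfold W2' W3; rw [Dn_one, Dn_two]; rfl
      rw [e2, P.E_sub β r hK (bb.const_mul _), Par.E_const_mul]
      have a1 := abs_le.1 (s1 r hr.1)
      have a2 := P.E_nonneg β r bb fun y => mul_nonneg (h.Pxx_pos β r y).le (sq_nonneg _)
      have a3 := P.E_mono β r bb ((h.Pxxx_bc β r).pow 2) fun y =>
        mul_le_of_le_one_left (sq_nonneg _) (h.Pxx_le_one β r y)
      have a4 := h.EPxxx_le β r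
      have a5 := h.Gam_le hβ hr.1
      have a6 := mul_le_of_le_one_left a2 (h.zeta_le r)
      have a7 := mul_nonneg (h.zeta_pos r).le a2
      have a8 : β ^ 2 * r ≤ β ^ 2 * s := mul_le_mul_of_nonneg_left hr.2.le (sq_nonneg β)
      have a9 : β ^ 2 * (15 * C ^ 3) * r ≤ β ^ 2 * (15 * C ^ 3) * s :=
        mul_le_mul_of_nonneg_left hr.2.le (by positivity)
      rw [mul_one, show β ^ 2 * (P.E β r (W3 (P.Ph β r)) - 6 * P.zeta r *
          P.E β r fun y => P.Pxx β r y * P.Pxxx β r y ^ 2) - β ^ 2 * k4 P β ^ 2 =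
          β ^ 2 * (P.E β r (W3 (P.Ph β r)) - k4 P β ^ 2 - 6 * (P.zeta r *
          P.E β r fun y => P.Pxx β r y * P.Pxxx β r y ^ 2)) by ring, abs_mul,
        abs_of_nonneg (sq_nonneg β), show β ^ 4 * (15 * C ^ 3 + 24) * s =
          β ^ 2 * (β ^ 2 * (15 * C ^ 3) * s + 24 * (β ^ 2 * s)) by ring]
      refine mul_le_mul_of_nonneg_left ?_ (sq_nonneg β)
      rw [abs_le]
      constructor <;> nlinarith [mul_nonneg (sq_nonneg β) hs])
  have z : P.Pxxx β 0 0 = 0 := by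
    obtain ⟨m, _, _, hI⟩ := h.inv β 0
    have := u3_odd hI 0
    rw [neg_zero] at this
    show deriv (deriv (deriv (P.Ph β 0))) 0 = 0
    linarith
  simp only [e, Par.E_zero, z, sub_zero, abs_of_nonneg hs] at this
  norm_num at this
  refine this.trans ?_
  have : 0 ≤ C * s ^ 2 := by positivity
  nlinarith

theorem Gam''_eq (h : P.OK) (β r : ℝ) :
    (P.E β r fun x => P.Pxxx β r x ^ 2 - 2 * P.zeta r * P.Pxx β r x ^ 3) =
      (P.E β r fun x => P.Pxxx β r x ^ 2) - 2 * P.zeta r * P.E β r fun x => P.Pxx β r x ^ 3 := by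
  rw [P.E_sub β r ((h.Pxxx_bc β r).pow 2) (((h.Pxx_bc β r).pow 3).const_mul _), Par.E_const_mul]

/-- upper slope, raw form -/
theorem slope_up (h : P.OK) (hβ : 0 < β) {K s k : ℝ} (hK0 : 0 ≤ K)
    (hK : ∀ s, 0 ≤ s → |(P.E β s fun x => P.Pxxx β s x ^ 2) - β ^ 2 * k4 P β ^ 2 * s| ≤ K * s ^ 2)
    (hs : 0 ≤ s) (hk : 0 ≤ k) :
    P.Gam' β (s + k) - P.Gam' β s ≤ k * (β ^ 4 * (β ^ 2 * k4 P β ^ 2 * (s + k) + K * (s + k) ^ 2 -
      2 * P.zeta s * (P.Pxx β 0 0 ^ 3 - 15 * β ^ 2 * (s + k)))) := by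
  set w := β ^ 4 * (β ^ 2 * k4 P β ^ 2 * (s + k) + K * (s + k) ^ 2 -
      2 * P.zeta s * (P.Pxx β 0 0 ^ 3 - 15 * β ^ 2 * (s + k))) with hw
  have h1 := le_of_rder (f := fun r => P.Gam' β r - w * r) (s := s) (t := s + k) (by linarith)
    (((h.Gam'_cont hβ (s + k)).mono (Icc_subset_Icc hs le_rfl)).sub (by fun_prop))
    (fun r hr => (h.Gam'_rder hβ (hs.trans hr.1)).sub ((hasDerivWithinAt_id r _).const_mul w))
    (fun r hr => by
      have hr0 := hs.trans hr.1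
      rw [Gam''_eq h]
      have a1 := (abs_le.1 (hK r hr0)).2
      have a2 := (abs_le.1 (EA3_near h hβ hr0)).1
      have a3 := P.E_nonneg β r ((h.Pxx_bc β r).pow 3) fun y => (pow_pos (h.Pxx_pos β r y) 3).le
      have a4 := mul_le_mul_of_nonneg_right (h.zeta_mono hr.1) a3
      have a5 : β ^ 2 * k4 P β ^ 2 * r ≤ β ^ 2 * k4 P β ^ 2 * (s + k) :=
        mul_le_mul_of_nonneg_left hr.2.le (by positivity)
      have a6 : K * r ^ 2 ≤ K * (s + k) ^ 2 :=
        mul_le_mul_of_nonneg_left (pow_le_pow_left₀ hr0 hr.2.le 2) hK0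
      have a7 : 15 * β ^ 2 * r ≤ 15 * β ^ 2 * (s + k) :=
        mul_le_mul_of_nonneg_left hr.2.le (by positivity)
      have a8 := mul_le_mul_of_nonneg_left (show P.Pxx β 0 0 ^ 3 - 15 * β ^ 2 * (s + k) ≤
        P.E β r fun x => P.Pxx β r x ^ 3 by linarith) (h.zeta_pos s).le
      have a9 := mul_le_mul_of_nonneg_left (show (P.E β r fun x => P.Pxxx β r x ^ 2) -
        2 * P.zeta r * (P.E β r fun x => P.Pxx β r x ^ 3) ≤ β ^ 2 * k4 P β ^ 2 * (s + k) +
        K * (s + k) ^ 2 - 2 * P.zeta s * (P.Pxx β 0 0 ^ 3 - 15 * β ^ 2 * (s + k)) by linarith)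
        (by positivity : 0 ≤ β ^ 4)
      rw [hw]
      linarith)
  linarith

/-- lower slope, raw form -/
theorem slope_low (h : P.OK) (hβ : 0 < β) {K s k : ℝ} (hK0 : 0 ≤ K)
    (hK : ∀ s, 0 ≤ s → |(P.E β s fun x => P.Pxxx β s x ^ 2) - β ^ 2 * k4 P β ^ 2 * s| ≤ K * s ^ 2)
    (hk : 0 ≤ k) (hs : k ≤ s) :
    k * (β ^ 4 * (β ^ 2 * k4 P β ^ 2 * (s - k) - K * s ^ 2 -
      2 * P.zeta s * (P.Pxx β 0 0 ^ 3 + 15 * β ^ 2 * s))) ≤ P.Gam' β s - P.Gam' β (s - k) := by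
  set w := β ^ 4 * (β ^ 2 * k4 P β ^ 2 * (s - k) - K * s ^ 2 -
      2 * P.zeta s * (P.Pxx β 0 0 ^ 3 + 15 * β ^ 2 * s)) with hw
  have hs0 : 0 ≤ s - k := by linarith
  have h1 := le_of_rder (f := fun r => w * r - P.Gam' β r) (s := s - k) (t := s) (by linarith)
    ((by fun_prop : ContinuousOn (fun r => w * r) _).sub
      ((h.Gam'_cont hβ s).mono (Icc_subset_Icc hs0 le_rfl)))
    (fun r hr => ((hasDerivWithinAt_id r _).const_mul w).sub (h.Gam'_rder hβ (hs0.trans hr.1)))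
    (fun r hr => by
      have hr0 := hs0.trans hr.1
      rw [Gam''_eq h]
      have a1 := (abs_le.1 (hK r hr0)).1
      have a2 := (abs_le.1 (EA3_near h hβ hr0)).2
      have a3 := P.E_nonneg β r ((h.Pxx_bc β r).pow 3) fun y => (pow_pos (h.Pxx_pos β r y) 3).le
      have a4 := mul_le_mul_of_nonneg_right (h.zeta_mono hr.2.le) a3
      have a5 : β ^ 2 * k4 P β ^ 2 * (s - k) ≤ β ^ 2 * k4 P β ^ 2 * r :=
        mul_le_mul_of_nonneg_left hr.1 (by positivity)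
      have a6 : K * r ^ 2 ≤ K * s ^ 2 :=
        mul_le_mul_of_nonneg_left (pow_le_pow_left₀ hr0 hr.2.le 2) hK0
      have a7 : 15 * β ^ 2 * r ≤ 15 * β ^ 2 * s :=
        mul_le_mul_of_nonneg_left hr.2.le (by positivity)
      have a8 := mul_le_mul_of_nonneg_left (show (P.E β r fun x => P.Pxx β r x ^ 3) ≤
        P.Pxx β 0 0 ^ 3 + 15 * β ^ 2 * s by linarith) (h.zeta_pos s).le
      have a9 := mul_le_mul_of_nonneg_left (show β ^ 2 * k4 P β ^ 2 * (s - k) - K * s ^ 2 -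
        2 * P.zeta s * (P.Pxx β 0 0 ^ 3 + 15 * β ^ 2 * s) ≤ (P.E β r fun x => P.Pxxx β r x ^ 2) -
        2 * P.zeta r * (P.E β r fun x => P.Pxx β r x ^ 3) by linarith)
        (by positivity : 0 ≤ β ^ 4)
      rw [hw]
      linarith)
  linarith

/-- **sharp slope**: `|2 Φ_xx(0,0)³ ζ(s) - β² Φ_xxxx(0,0)² s| ≤ C' (s² + √η)` below `b - √η` -/
theorem slope (hβ : 1 ≤ β) (C : ℝ) (hC : 0 ≤ C) : ∃ C' : ℝ, 1 ≤ C' ∧ ∀ (P : Par) (c η : ℝ), P.OK →
    P.Good β c C η → 0 < η → η ≤ 1 → ∀ s, 0 ≤ s → s + √η ≤ P.b →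
    |2 * P.Pxx β 0 0 ^ 3 * P.zeta s - β ^ 2 * k4 P β ^ 2 * s| ≤ C' * (s ^ 2 + √η) := by
  have hβ0 : 0 < β := by linarith
  obtain ⟨K, hK1, hK⟩ := EW2_near hβ0
  have hK0 : 0 ≤ K := by linarith
  refine ⟨β ^ 2 * K ^ 2 + 3 * K + 2 + 30 * β ^ 2 * (C + 2), by
    have : 0 ≤ β ^ 2 * K ^ 2 + 30 * β ^ 2 * (C + 2) := by positivity
    linarith, fun P c η h hG hη hη1 s hs hb => ?_⟩
  obtain ⟨hk4, hN⟩ := hK P h
  set k := √η with hk
  have k0 : 0 < k := Real.sqrt_pos.2 hη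
  have kk : k * k = η := Real.mul_self_sqrt hη.le
  have k1 : k ≤ 1 := by nlinarith
  have ηk : η ≤ k := by nlinarith
  have b1 := h.b_le_one
  have s1 : s + k ≤ 1 := hb.trans b1
  have b4 : 1 ≤ β ^ 4 := one_le_pow₀ hβ
  have b2 : 0 ≤ β ^ 2 := sq_nonneg β
  have κ2 : k4 P β ^ 2 ≤ K ^ 2 := by
    rw [← sq_abs]; exact pow_le_pow_left₀ (abs_nonneg _) hk4 2
  have κ3 : β ^ 2 * k4 P β ^ 2 * k ≤ β ^ 2 * K ^ 2 * k := by gcongr
  have z0 := h.zeta_pos s
  have z1 := hG.zlin s ⟨hs, by linarith⟩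
  have z2 : P.zeta s * (s + k) ≤ (C + 2) * (s ^ 2 + k) := by
    have := mul_le_mul_of_nonneg_right z1 (show 0 ≤ s + k by linarith)
    have q1 : C * (s * k) ≤ C * k :=
      mul_le_mul_of_nonneg_left (mul_le_of_le_one_left k0.le (by linarith)) hC
    have q2 : η * (s + k) ≤ k := (mul_le_of_le_one_right hη.le s1).trans ηk
    nlinarith [sq_nonneg s]
  have z3 := mul_le_mul_of_nonneg_left z2 (show 0 ≤ 30 * β ^ 2 by positivity)
  have g : ∀ r ∈ Icc 0 P.b, -η ≤ P.Gam' β r - 1 ∧ P.Gam' β r - 1 ≤ η := fun r hr =>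
    abs_le.1 (hG.gam' r hr)
  have p1 : 0 ≤ β ^ 2 * K ^ 2 * s ^ 2 := by positivity
  have p2 : 0 ≤ K * s ^ 2 := by positivity
  have p3 : 0 ≤ K * k := by positivity
  have p4 : 0 ≤ s ^ 2 := sq_nonneg s
  rw [abs_le]
  constructor
  · rcases le_total k s with hks | hks
    · have h1 := slope_low h hβ0 hK0 hN k0.le hks
      have g1 := g s ⟨hs, by linarith⟩
      have g2 := g (s - k) ⟨by linarith, by linarith⟩
      set X := β ^ 2 * k4 P β ^ 2 * (s - k) - K * s ^ 2 -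
        2 * P.zeta s * (P.Pxx β 0 0 ^ 3 + 15 * β ^ 2 * s) with hX
      have h2 : β ^ 4 * X ≤ 2 * k := le_of_mul_le_mul_left (by linarith [g1.2, g2.1]) k0
      have h3 : X ≤ 2 * k := by
        by_contra hc
        push Not at hc
        have := mul_le_mul_of_nonneg_right b4 (show 0 ≤ X by linarith)
        linarith
      have z4 : 0 ≤ 30 * β ^ 2 * (P.zeta s * k) := by positivity
      rw [hX] at h3
      linarith
    · have a0 := (pow_pos (h.Pxx_pos β 0 0) 3).le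
      have a1 : 0 ≤ 2 * P.Pxx β 0 0 ^ 3 * P.zeta s := by positivity
      have a2 : β ^ 2 * k4 P β ^ 2 * s ≤ β ^ 2 * k4 P β ^ 2 * k :=
        mul_le_mul_of_nonneg_left hks (by positivity)
      have a3 : 0 ≤ 30 * β ^ 2 * ((C + 2) * (s ^ 2 + k)) := by positivity
      linarith
  · have h1 := slope_up h hβ0 hK0 hN hs k0.le
    have g1 := g s ⟨hs, by linarith⟩
    have g2 := g (s + k) ⟨by linarith, hb⟩
    set X := β ^ 2 * k4 P β ^ 2 * (s + k) + K * (s + k) ^ 2 -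
      2 * P.zeta s * (P.Pxx β 0 0 ^ 3 - 15 * β ^ 2 * (s + k)) with hX
    have h2 : -(2 * k) ≤ β ^ 4 * X := le_of_mul_le_mul_left (by linarith [g1.2, g2.1]) k0
    have h3 : -(2 * k) ≤ X := by
      by_contra hc
      push Not at hc
      have := mul_le_mul_of_nonneg_right b4 (show 0 ≤ -X by linarith)
      linarith
    have a1 : (s + k) ^ 2 ≤ s ^ 2 + 3 * k := by nlinarith
    have a2 := mul_le_mul_of_nonneg_left a1 hK0
    rw [hX] at h3
    linarith

end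

end Crest.Agent.T156.Pp
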