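import Crest.Agent.T156.PgT_33
import Crest.Agent.T156.SzG_5
import Crest.Agent.T156.GdT_65
import Crest.Agent.T156.Cvx_25

/-!
# Row 156, block (L): the net of plateau nodes for the middle zone (helper33)
-/

set_option autoImplicit false
set_option linter.unusedSectionVars false

noncomputable section

namespace Crest.Agent.T156.Alt.Nd33

open Real Finset Filter
open Crest.Agent.R164.GC Crest.Agent.R339.B Crest.Agent.R339.Var Crest.Agent.T157.Pf
open Crest.Agent.T156.Alt.Md67 Crest.Agent.T156.Alt.L69 Crest.Agent.T156.Alt.E61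
open Crest.Agent.T156.Alt.Mp9
open Crest.Agent.T156.Pr.Reg48 (Sm)

variable {S : Sc} {M : Md} {m : ℕ} {a T Xp γ V : ℝ}

theorem cube_add {p q : ℝ} (p0 : 0 ≤ p) (q0 : 0 ≤ q) : (p + q) ^ 3 ≤ 4 * (p ^ 3 + q ^ 3) := by
  linarith [mul_nonneg (add_nonneg p0 q0) (sq_nonneg (p - q))]

/-- the local error splits into a quadratic and a cubic part -/
theorem net_num {θ N ρ U g x D t K : ℝ} (θ0 : 0 < θ) (θ1 : θ ≤ 1) (ρ0 : 0 < ρ) (ρ1 : ρ ≤ 1)
    (N0 : 0 ≤ N) (hN : N ≤ θ * ρ ^ 3) (K1 : 64 ≤ K) (U0 : 0 ≤ U) (g0 : 0 ≤ g) (gx : g ^ 2 ≤ x)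
    (hx : Sm θ 1 N 1 x) (hU : ρ * min (U ^ 3) (U ^ 4 / θ) ≤ K * N) (D1 : D ≤ K)
    (D2 : D ≤ K * (θ + t)) (t0 : 0 ≤ t) (t1 : t ^ 3 ≤ K * ρ) : ∃ K1 K2, 0 ≤ K1 ∧ 0 ≤ K2 ∧
      g * U + U ^ 2 * (min U 1 + D) ≤ x + K1 + K2 ∧ ρ * K1 ^ 2 ≤ θ * (K ^ 5 * N) ∧
      ρ * K2 ^ 3 ≤ (K ^ 5 * N) ^ 2 := by
  have K0 : 0 < K := by linarith
  have k1 : 1 ≤ K := by linarith
  have θN : 0 ≤ θ * N := by positivity
  have x0 : 0 ≤ x := (sq_nonneg g).trans gx
  have pw : ∀ i j : ℕ, i < j → 64 * K ^ i ≤ K ^ j := fun i j e =>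
    (mul_le_mul_of_nonneg_right K1 (by positivity)).trans
      (by rw [← pow_succ']; exact pow_le_pow_right₀ k1 e)
  rcases min_choice (U ^ 3) (U ^ 4 / θ) with e | e <;> rw [e] at hU
  swap
  · rw [← mul_div_assoc, div_le_iff₀ θ0] at hU
    refine ⟨2 * K * U ^ 2, 0, by positivity, le_rfl, ?_, ?_, by norm_num; positivity⟩
    · have := mul_le_mul_of_nonneg_left (show min U 1 + D ≤ 2 * K - 1 by
        linarith [min_le_right U 1]) (sq_nonneg U)
      linarith [sq_nonneg (g - U), sq_nonneg g, sq_nonneg U]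
    · have := mul_le_mul_of_nonneg_left hU (show 0 ≤ 4 * K ^ 2 by positivity)
      have := mul_le_mul_of_nonneg_right (pw 3 5 (by norm_num)) θN
      have : 0 ≤ K ^ 3 * (θ * N) := by positivity
      linarith
  have r3 : θ * ρ ^ 3 ≤ ρ * ρ := by
    rw [← sq]
    exact (mul_le_of_le_one_left (by positivity) θ1).trans (pow_le_pow_of_le_one ρ0.le ρ1 (by norm_num))
  have u1 : U ^ 3 ≤ K * ρ := le_of_mul_le_mul_left
    (by linarith [mul_le_mul_of_nonneg_left (hN.trans r3) K0.le]) ρ0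
  have u2 : U ≤ K := le_of_pow_le_pow_left₀ three_ne_zero K0.le
    (u1.trans ((mul_le_of_le_one_right K0.le ρ1).trans (le_self_pow₀ k1 three_ne_zero)))
  have s1 : (U + K * t) ^ 3 ≤ 8 * K ^ 4 * ρ := by
    have a1 := cube_add U0 (show 0 ≤ K * t by positivity)
    have a2 := mul_le_mul_of_nonneg_left t1 (show 0 ≤ K ^ 3 by positivity)
    have a3 := mul_le_mul_of_nonneg_right (le_self_pow₀ k1 four_ne_zero) ρ0.le
    linarith
  have q1 := pow_le_pow_left₀ (by positivity) hU 2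
  have s2 : ρ * (U ^ 2 * (U + K * t)) ^ 3 ≤ 8 * K ^ 6 * N ^ 2 := by
    have a1 := mul_le_mul_of_nonneg_left s1 (show 0 ≤ ρ * U ^ 6 by positivity)
    have a2 := mul_le_mul_of_nonneg_left q1 (show 0 ≤ 8 * K ^ 4 by positivity)
    linarith
  have s3 : ρ * (K * θ * U ^ 2) ^ 2 ≤ K ^ 4 * (θ * N) := by
    have a1 := mul_le_mul hU u2 U0 (by positivity)
    have a2 := mul_le_mul_of_nonneg_left a1 (show 0 ≤ K ^ 2 * θ ^ 2 by positivity)
    have a3 := mul_le_mul_of_nonneg_left θ1 (show 0 ≤ K ^ 4 * (θ * N) by positivity)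
    linarith
  have s4 : U ^ 2 * (min U 1 + D) ≤ K * θ * U ^ 2 + U ^ 2 * (U + K * t) := by
    have := mul_le_mul_of_nonneg_left (show min U 1 + D ≤ U + K * (θ + t) by
      linarith [min_le_left U 1]) (sq_nonneg U)
    linarith
  have n2 := sq_nonneg N
  have p1 := mul_le_mul_of_nonneg_right (pw 4 5 (by norm_num)) θN
  have p2 := mul_le_mul_of_nonneg_right (pw 6 10 (by norm_num)) n2
  have p3 : 0 ≤ K ^ 4 * (θ * N) := by positivity
  have p4 : 0 ≤ K ^ 6 * N ^ 2 := by positivity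
  rcases le_or_gt (g ^ 3) N with c | c
  · refine ⟨K * θ * U ^ 2, U ^ 2 * (U + K * t) + g * U, by positivity, by positivity, by linarith,
      by linarith, ?_⟩
    have a1 := mul_le_mul_of_nonneg_left (cube_add (show 0 ≤ U ^ 2 * (U + K * t) by positivity)
      (mul_nonneg g0 U0)) ρ0.le
    have a2 := mul_le_mul hU c (by positivity) (by positivity)
    have a3 := mul_le_mul_of_nonneg_right (le_self_pow₀ k1 (show 6 ≠ 0 by norm_num)) n2
    linarith
  have g1 : 0 < g := by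
    by_contra b
    rw [le_antisymm (not_lt.1 b) g0] at c
    linarith
  have c2 := pow_lt_pow_left₀ c N0 two_ne_zero
  have c3 : g ^ 4 ≤ θ * N := by
    rcases hx with b | b | b
    · linarith [pow_pos g1 2]
    · linarith [pow_le_pow_left₀ (sq_nonneg g) gx 2]
    · linarith [pow_le_pow_left₀ (sq_nonneg g) gx 3]
  have c4 := pow_le_pow_left₀ (by positivity) c3 3
  have c5 : N ≤ θ ^ 3 := by
    by_contra b
    have b1 := mul_le_mul_of_nonneg_right (not_le.1 b).le (show 0 ≤ N ^ 3 by positivity)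
    linarith [pow_lt_pow_left₀ c2 n2 two_ne_zero]
  have c6 : g ^ 6 ≤ θ ^ 3 * N := le_of_pow_le_pow_left₀ two_ne_zero (by positivity) (by
    linarith [mul_le_mul_of_nonneg_right c5 (show 0 ≤ θ ^ 3 * N ^ 2 by positivity)])
  have c7 : ρ * (g * U) ^ 2 ≤ K * (θ * N) := le_of_pow_le_pow_left₀ three_ne_zero (by positivity) (by
    have a1 := mul_le_mul q1 c6 (by positivity) (by positivity)
    have a2 := mul_le_mul_of_nonneg_right ρ1 (show 0 ≤ (ρ * U ^ 3) ^ 2 * g ^ 6 by positivity)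
    have a3 := mul_le_mul_of_nonneg_right k1 (show 0 ≤ K ^ 2 * (θ * N) ^ 3 by positivity)
    linarith)
  refine ⟨K * θ * U ^ 2 + g * U, U ^ 2 * (U + K * t), by positivity, by positivity, by linarith,
    ?_, by linarith⟩
  have a1 := mul_nonneg ρ0.le (sq_nonneg (K * θ * U ^ 2 - g * U))
  have a3 := mul_le_mul_of_nonneg_right (le_self_pow₀ k1 four_ne_zero) θN
  linarith

/-- the cost of a window of label length `δ` above the node `i` -/
theorem shell (h : Cl S M) {f : ℕ → ℝ} {K u2 N δ : ℝ} (p0 : ∀ k, 0 ≤ f k) (K1 : 1 ≤ K)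
    (c1 : ∑ k ∈ (Icc S.J S.Jp).filter fun k => u2 ≤ du M k,
      dx M k * min (f k ^ 3) (f k ^ 4 / S.θ) ≤ N)
    {i : ℕ} (hi : S.J ≤ i) (hi' : i ≤ S.Jp) (δ0 : 0 ≤ δ) (δ1 : δ ≤ du M i)
    (hv : ∀ k, i ≤ k → k ≤ S.Jp → M.z (k - 1) - M.z (i - 1) ≤ δ → u2 ≤ du M k ∧ f i ≤ K * f k) :
    δ * min (f i ^ 3) (f i ^ 4 / S.θ) ≤ K ^ 4 * N := by
  have i2 := h.i2
  have θ0 := h.θ0
  have dz : ∀ j, 0 ≤ dx M j := fun j => sub_nonneg.2 (h.leg.zm (Nat.sub_le j 1))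
  set J := Nat.findGreatest (fun k => M.z (k - 1) - M.z (i - 1) ≤ δ) S.Jp with hK
  have k1 : i ≤ J := Nat.le_findGreatest hi' (by linarith)
  have k2 : J ≤ S.Jp := Nat.findGreatest_le _
  have k3 : M.z (J - 1) - M.z (i - 1) ≤ δ :=
    Nat.findGreatest_spec (P := fun k => M.z (k - 1) - M.z (i - 1) ≤ δ) hi' (by linarith)
  have k4 : δ ≤ M.z J - M.z (i - 1) := by
    rcases k2.eq_or_lt with x | x
    · rw [x, h.top _ le_rfl]; exact δ1
    · exact (not_le.1 (Nat.findGreatest_is_greatest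
        (P := fun k => M.z (k - 1) - M.z (i - 1) ≤ δ) (Nat.lt_succ_self J) x)).le
  have k5 : ∀ k ∈ Icc i J, u2 ≤ du M k ∧ f i ≤ K * f k := fun k hk =>
    hv k (mem_Icc.1 hk).1 ((mem_Icc.1 hk).2.trans k2)
      (by linarith [h.leg.zm (Nat.sub_le_sub_right (mem_Icc.1 hk).2 1)])
  have f0 : ∀ k, 0 ≤ min (f k ^ 3) (f k ^ 4 / S.θ) :=
    fun k => le_min (pow_nonneg (p0 k) 3) (div_nonneg (pow_nonneg (p0 k) 4) θ0.le)
  have s1 := (sum_le_sum_of_subset_of_nonneg (s := Icc i J) (fun k hk =>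
    mem_filter.2 ⟨Icc_subset_Icc hi k2 hk, (k5 k hk).1⟩)
    fun k _ _ => mul_nonneg (dz k) (f0 k)).trans c1
  have s2 : ∑ k ∈ Icc i J, dx M k = M.z J - M.z (i - 1) := At.tel_z M (by omega) (by omega)
  have s3 : ∑ k ∈ Icc i J, dx M k * min (f i ^ 3) (f i ^ 4 / S.θ) ≤
      K ^ 4 * ∑ k ∈ Icc i J, dx M k * min (f k ^ 3) (f k ^ 4 / S.θ) := by
    rw [mul_sum]
    refine sum_le_sum fun k hk => ?_
    rw [mul_left_comm, mul_min_of_nonneg _ _ (by positivity : 0 ≤ K ^ 4)]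
    have x := (k5 k hk).2
    refine mul_le_mul_of_nonneg_left (min_le_min ?_ ?_) (dz k)
    · refine (pow_le_pow_left₀ (p0 i) x 3).trans ?_
      rw [mul_pow]
      exact mul_le_mul_of_nonneg_right (pow_le_pow_right₀ K1 (by norm_num))
        (pow_nonneg (p0 k) 3)
    · rw [← mul_div_assoc, ← mul_pow]
      exact div_le_div_of_nonneg_right (pow_le_pow_left₀ (p0 i) x 4) θ0.le
  rw [← sum_mul, s2] at s3
  linarith [mul_le_mul_of_nonneg_left s1 (by positivity : 0 ≤ K ^ 4),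
    mul_le_mul_of_nonneg_right k4 (f0 i)]

/-- the mesh of the labels on a shell -/
theorem mesh_pl (h : Cl S M) (u0 : 0 < S.u0) (hv : 16 * S.C ^ 2 * (S.n * S.v) ≤ 1) {j : ℕ}
    (h0 : S.J ≤ j) (h1 : j < S.Jp) (hn : 1 ≤ S.n * lsh M S j) : 16 * dx M j ≤ ds M S j := by
  have D0 := SzT98.ds_pos h u0 h0 h1
  have s := (SzT98.sh_of h u0 h0 h1 h0 h1 (by rw [sub_self, abs_zero]; linarith)).dz2
  have n0 : (0 : ℝ) < S.n := h.N0
  refine le_of_mul_le_mul_left ?_ (mul_pos n0 (h.den0 (M.z (j - 1))))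
  have := mul_le_mul_of_nonneg_left s n0.le
  unfold lsh at hn
  unfold dx
  linarith

/-- `Γ''` at a node of the plateau -/
theorem gd_pl (T0 C0 : ℝ) : ∃ K : ℝ, 1 ≤ K ∧ ∀ {S : Sc} {M : Md} {m : ℕ} {a T : ℝ},
    At S M m a T → T ≤ T0 → S.C ≤ C0 → ∀ {l0 X Xp Vt u1 γ j t κ L : ℝ}, RH S M m a Xp γ →
    S.C * S.θ ≤ 1 / 2 → S.v ≤ S.θ → M.s S.jl ≤ l0 → l0 ≤ 1 → 0 < X → X ≤ 1 →
    Ap S M m a l0 X Xp Vt u1 j → j ≤ t → γ ≤ t → Xp ^ ((1 : ℝ) / 3) ≤ t → 1 ≤ L → 1 ≤ L * κ →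
    ∀ i, S.J ≤ i → i ≤ S.Jp → κ ≤ du M i →
      gd S M m a T i ≤ K * L * (S.θ + t + (M.z i - M.z (S.J - 1)) + |M.G i|) := by
  obtain ⟨K, k1, hK⟩ := Pr.Cv25.Gd_two T0
  refine ⟨K * (300 * (1 + |T0|) + 100) * (1 + |C0|) ^ 6, ?_, fun {S M m a T} A hT hC l0 X Xp Vt u1 γ j t
    κ L R hθ hv l1 l2 X0 X1 P j1 g1 x1 L1 κ1 i i1 i2 i3 => ?_⟩
  · exact one_le_mul_of_one_le_of_one_le (one_le_mul_of_one_le_of_one_le k1
      (by linarith [abs_nonneg T0])) (one_le_pow₀ (by linarith [abs_nonneg C0]))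
  have h := A.cl
  have C0' := h.C0
  have C1 := h.C1
  have v0 := h.v0
  have θ0 := h.θ0
  have j2 := h.i2
  have γ0 := R.γ_nn
  have t0 := γ0.trans g1
  have κ0 : 0 < κ := by by_contra c; nlinarith
  have p0 : 0 < Xp ^ ((1 : ℝ) / 3) := rpow_pos_of_pos R.X0 _
  have p3 : (Xp ^ ((1 : ℝ) / 3)) ^ 3 = Xp := by
    rw [← rpow_natCast, ← rpow_mul R.X0.le]; norm_num
  have c4 : 1 ≤ S.C ^ 4 := one_le_pow₀ C1
  have p1 : Xp ^ ((1 : ℝ) / 3) ≤ 1 := by linarith [R.X1, mul_le_mul_of_nonneg_right c4 p0.le]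
  obtain ⟨s1, s2⟩ := A.s_pred
  have e := A.okh.2
  have m1 : M.s (S.J - 1) ∈ Set.Icc 0 (TT (lh M T)) := by
    rw [e]; exact ⟨h.s_nn _, by linarith [h.sm h.i3, A.t2]⟩
  have hp := T5.hp_le A (Z := S.θ + 2 * t) hθ l1 l2 X0 X1 R.γ0 P.all P.j0 (by linarith)
    (by linarith) (by linarith [Gd65.inv_le A]) (A.sb_mem i2)
  have x1' := (hK _ _ A.okb.1 A.okh.1 (A.okb.2.trans e.symm) (e.trans_le hT) (sb M m a (i + 1))
    (by rw [e]; exact A.sb_mem i2) _ m1 _ hp).1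
  rw [A.zh_pred, A.lvb_node (by omega) i2] at x1'
  obtain ⟨a0, a1⟩ := (Pr.Reg48.ode A.okh.1).2.2.2 _ m1
  have zz : 0 ≤ M.z i - M.z (S.J - 1) := sub_nonneg.2 (h.leg.zm (by omega))
  have a2 := mul_le_mul_of_nonneg_right a1 zz
  have a3 := mul_nonneg a0 zz
  have q := A.gd_h (h.s_nn _) s1
  have st := Gd65.s_top h (k := S.J - 1) (by have := h.i0; have := h.i1; omega) (by omega)
  have sp : 0 < M.s (S.J - 1) := (mul_pos_iff_of_pos_left (by positivity)).1 (one_pos.trans_le st)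
  have r : S.ms (M.s (S.J - 1)) / max (M.s (S.J - 1)) (M.s S.j0) ≤ 24 * S.C ^ 5 * S.θ := by
    refine (div_le_div₀ θ0.le (h.ms1 _) sp (le_max_left _ _)).trans ?_
    rw [div_le_iff₀ sp]
    linarith [mul_le_mul_of_nonneg_right st θ0.le]
  have r' := mul_le_mul_of_nonneg_left r C0'.le
  have sJ := Ab33.sJ_ge h
  have sJ0 := h.s_nn S.J
  have d1 := SzT98.del_r h A.m_pos hθ R.top R.γ0 (k := i) (r := max (Xp ^ ((1 : ℝ) / 3)) S.v)
    (by linarith [h.sm i1]) i2 (p3.symm.trans_le (pow_le_pow_left₀ p0.le (le_max_left _ _) 3))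
    (le_max_right _ _) (le_of_mul_le_mul_left (by
      rcases max_choice (Xp ^ ((1 : ℝ) / 3)) S.v with c | c <;> rw [c] <;>
        linarith [R.X1, R.v1]) (show 0 < 3 * S.C ^ 3 by positivity)) (by linarith [R.jl])
  have d2 := SzT98.del_up h A.m_pos hθ R.top R.γ0 i1 i2 (κ0.trans_le i3)
  have d3 : √(Xp / du M i) ≤ L * t := sqrt_le_iff.2 ⟨by positivity, by
    rw [div_le_iff₀ (κ0.trans_le i3)]
    have b1 : Xp ≤ t ^ 2 := p3.symm.trans_le ((pow_le_pow_of_le_one p0.le p1 (by norm_num)).trans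
      (pow_le_pow_left₀ p0.le x1 2))
    have b2 : 1 ≤ L * (L * du M i) := one_le_mul_of_one_le_of_one_le L1
      (κ1.trans (mul_le_mul_of_nonneg_left i3 (by linarith)))
    linarith [mul_le_mul_of_nonneg_left b2 (sq_nonneg t)]⟩
  have d4 : max (Xp ^ ((1 : ℝ) / 3)) S.v ≤ S.θ + t := max_le (by linarith) (by linarith)
  set Y := L * (S.θ + t + (M.z i - M.z (S.J - 1)) + |M.G i|) with hY
  have G0 := abs_nonneg (M.G i)
  have y1 : S.θ + t + (M.z i - M.z (S.J - 1)) + |M.G i| ≤ Y :=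
    le_mul_of_one_le_left (by positivity) L1
  have y2 : L * t ≤ Y := mul_le_mul_of_nonneg_left (by linarith) (by linarith)
  have y0 : 0 ≤ Y := by positivity
  set c := (1 + |C0|) ^ 6 with hc
  have cc : ∀ n, n ≤ 6 → S.C ^ n * Y ≤ c * Y := fun n hn => mul_le_mul_of_nonneg_right
    ((pow_le_pow_right₀ C1 hn).trans (pow_le_pow_left₀ C0'.le
      (by linarith [le_abs_self C0]) 6)) y0
  have e0 := cc 0 (by norm_num)
  have e1 := cc 1 (by norm_num)
  have e2 := cc 2 (by norm_num)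
  have e4 := cc 4 (by norm_num)
  have e6 := cc 6 le_rfl
  have d5 : |M.del m a i| ≤ 8 * S.C * Y := by
    have b1 := mul_le_mul_of_nonneg_left (d4.trans (show S.θ + t ≤ Y by linarith)) C0'.le
    have b2 := mul_le_mul_of_nonneg_right C1 y0
    exact abs_le.2 ⟨by linarith, by linarith⟩
  have u := A.sub_le (A.jp_le i2)
  have u1' : S.C / (m + 1) ≤ S.C * Y := by
    rw [div_eq_mul_one_div]
    exact mul_le_mul_of_nonneg_left (by linarith [Gd65.inv_le A]) C0'.le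
  have u2 := mul_le_mul_of_nonneg_left d5 C0'.le
  have u3 := mul_le_mul_of_nonneg_left (show S.v ≤ Y by linarith) C0'.le
  have u4' : |sb M m a (i + 1) - M.s (S.J - 1)| ≤ 20 * (c * Y) := by
    obtain ⟨b1, b2⟩ := abs_le.1 u
    exact abs_le.2 ⟨by linarith [h.sm i1], by linarith [h.sm i2, R.γ0]⟩
  have u5 : (1 + T) * (100 * S.C ^ 4 * (S.θ + 2 * t)) ≤ (1 + |T0|) * (200 * (c * Y)) := by
    refine mul_le_mul (by linarith [le_abs_self T0]) ?_ (by positivity) (by positivity)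
    linarith [mul_le_mul_of_nonneg_left (show S.θ + 2 * t ≤ 2 * Y by linarith)
      (show 0 ≤ S.C ^ 4 by positivity)]
  have u6 := mul_le_mul_of_nonneg_left (add_le_add u5 u4') (zero_le_one.trans k1)
  have u7 := mul_le_mul_of_nonneg_left (show S.θ ≤ Y by linarith) (show 0 ≤ S.C ^ 6 by positivity)
  have cY : 0 ≤ c * Y := by positivity
  have u8 := mul_le_mul_of_nonneg_right k1 cY
  have u9 : 0 ≤ K * |T0| * (c * Y) := by positivity
  change |L0.Gd (lb M S m a T) (sb M m a (i + 1)) - L0.Gd (lh M T) (M.s (S.J - 1)) + _| ≤ _ at x1'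
  obtain ⟨b1, b2⟩ := abs_le.1 x1'
  obtain ⟨b3, b4⟩ := abs_le.1 q
  rw [mul_assoc _ L, ← hY]
  exact abs_le.2 ⟨by linarith, by linarith⟩

/-- the numbers of the net below the node `w`; `K` is the loss -/
structure NT (W : ℝ) (S : Sc) (M : Md) (m : ℕ) (a T Xp γ V Lg N2 x u u2 N K κ t y : ℝ) (w : ℕ) :
    Prop where
  K1 : 64 * S.C ≤ K ∧ 6 * S.C * W ^ 4 ≤ K ∧ T ≤ K
  X0 : 0 < Xp
  c1 : ∑ k ∈ (Icc S.J S.Jp).filter fun k => u2 ≤ du M k,
    dx M k * min ((Lg ^ 2 * ap M S Xp V γ k) ^ 3) ((Lg ^ 2 * ap M S Xp V γ k) ^ 4 / S.θ) ≤ N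
  c2 : GP M S + (S.θ * γ) ^ 2 ≤ N * S.θ
  x1 : Sm S.θ 1 N 1 x
  N1 : N2 ≤ 1
  y0 : S.u0 ≤ y ∧ N ≤ S.θ * y ^ 3
  w1 : w ≤ S.Jp
  κ0 : 1 ≤ K * κ ∧ κ ≤ du M w ∧ 2 * u2 ≤ κ ∧ u ≤ κ ∧ S.ue ≤ u2
  me : ∀ j, S.J ≤ j → j < w → 16 * dx M j ≤ ds M S j
  gd : ∀ i, S.J ≤ i → i < w →
    gd S M m a T i ≤ K * (S.θ + t + (M.z i - M.z (S.J - 1)) + |M.G i|)
  t0 : 0 ≤ t ∧ S.θ * t ^ 9 ≤ N

/-- **`TM.net`** -/
theorem PV.net {W Lp Lg G ev N2 g x u u2 N K κ t y : ℝ} {vc v0 w : ℕ}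
    (H : PV W S M m a T Xp γ V Lp Lg G ev N2 g x u vc v0)
    (Q : NT W S M m a T Xp γ V Lg N2 x u u2 N K κ t y w) :
    ∀ k, k < w → y < M.z k - M.z (S.J - 1) → ∃ i K1 K2, S.J ≤ i ∧ i ≤ k ∧
      M.z k - M.z (S.J - 1) ≤ 4 * (M.z i - M.z (S.J - 1)) ∧ 0 ≤ K1 ∧ 0 ≤ K2 ∧
      res M S m a T i - res M S m a T v0 ≤ K * x + K1 + K2 ∧
      (M.z k - M.z (S.J - 1)) * K1 ^ 2 ≤ S.θ * (K ^ 28 * N) ∧
      (M.z k - M.z (S.J - 1)) * K2 ^ 3 ≤ (K ^ 28 * N) ^ 2 := by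
  intro k kw hy
  have R := H.rn
  have A := R.A
  have h := A.cl
  have C1 := h.C1
  have C0 := h.C0
  have θ0 := h.θ0
  have θ1 := R.θ1
  have i2 := h.i2
  have zm := h.leg.zm
  have w1 := Q.w1
  obtain ⟨K1, K2, K3⟩ := Q.K1
  obtain ⟨κ1, κ2, κ3, κ4, κ5⟩ := Q.κ0
  have K64 : 64 ≤ K := by linarith
  have K0 : 0 < K := by linarith
  have k1 : 1 ≤ K := by linarith
  have κ0 : 0 < κ := by by_contra c; nlinarith
  have G0 := GP_nn h
  have γ0 : 0 ≤ γ := (sub_nonneg.2 (h.sm h.i3)).trans R.γ0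
  have N0 : 0 ≤ N := le_of_mul_le_mul_right (by linarith [Q.c2, sq_nonneg (S.θ * γ)]) θ0
  set ρ := M.z k - M.z (S.J - 1) with hρ
  have u0 := R.u0
  have uρ : S.u0 < ρ := Q.y0.1.trans_lt hy
  have ρ0 : 0 < ρ := u0.trans uρ
  have ρ1 : ρ ≤ 1 := by linarith [h.leg.z1 k, h.z_pos (S.J - 1)]
  have hN : N ≤ S.θ * ρ ^ 3 := Q.y0.2.trans (mul_le_mul_of_nonneg_left
    (pow_le_pow_left₀ (u0.le.trans Q.y0.1) hy.le 3) θ0.le)
  have ex : ∃ n, ρ / 2 ≤ M.z (n - 1) - M.z (S.J - 1) := ⟨k + 1, by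
    rw [Nat.add_sub_cancel]; linarith⟩
  have n1 := Nat.find_spec ex
  have n2 : Nat.find ex ≤ k + 1 := Nat.find_min' ex (by rw [Nat.add_sub_cancel]; linarith)
  have n3 : S.J < Nat.find ex := by
    by_contra c
    linarith [zm (show Nat.find ex - 1 ≤ S.J - 1 by omega)]
  have n4 := not_le.1 (Nat.find_min ex (show Nat.find ex - 1 < Nat.find ex by omega))
  set n := Nat.find ex
  have dw : ∀ j, j ≤ w → κ ≤ du M j := fun j hj =>
    κ2.trans (sub_le_sub_left (zm (by omega)) 1)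
  have n5 := (Q.me (n - 1) (by omega) (by omega)).trans (min_le_left _ _)
  obtain ⟨i, i1, i3, -, i4, P⟩ := H.ex n n3.le (by omega) (κ4.trans (dw n (by omega)))
  have n6 : ds M S n ≤ dl M S n := min_le_left _ _
  unfold dx L69.dl at n5
  unfold L69.dl at n6
  have ik : i < k := by
    by_contra c
    linarith [zm (not_lt.1 c)]
  have z1 := zm (show n - 1 ≤ i - 1 by omega)
  have z2 := zm (Nat.sub_le i 1)
  have z3 := zm ik.le
  have di := dw i (by omega)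
  have d0 := κ0.trans_le di
  have D0 := SzT98.ds_pos h u0 P.lo P.hi
  have D1 : ds M S i ≤ dl M S i := min_le_left _ _
  have D2 : ds M S i ≤ du M i := min_le_right _ _
  have D3 : ρ ≤ 2 * K * ds M S i := by
    rcases min_choice (dl M S i) (du M i) with c | c <;> rw [ds, c]
    · unfold L69.dl
      nlinarith
    · linarith [mul_le_mul_of_nonneg_left di K0.le]
  unfold L69.dl at D1
  have L1 := R.Lg1
  have sh := shell h (f := fun k => Lg ^ 2 * ap M S Xp V γ k) (K := 8 * S.C) (δ := ds M S i / 8)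
    (fun k => mul_nonneg (sq_nonneg _) (ap_nn h k)) (by linarith) Q.c1 P.lo P.hi.le (by positivity)
    (by linarith) fun j j1 j2 j3 => by
      have b0 := zm (show i - 1 ≤ j - 1 by omega)
      have b1 : 7 / 8 * du M i ≤ du M j := by unfold du at *; linarith
      have b2 : j < S.Jp := j2.lt_of_ne fun e => by
        have := h.last
        rw [e] at b1
        unfold du at *
        linarith
      have b3 : 7 / 8 * ds M S i ≤ ds M S j := le_min (by unfold L69.dl; linarith) (by linarith)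
      refine ⟨by linarith, ?_⟩
      rw [mul_left_comm]
      exact mul_le_mul_of_nonneg_left (G5.ap_le h Q.X0 (SzT98.sh_of h u0 (by omega) b2 P.lo P.hi
        (abs_le.2 ⟨by linarith, by linarith⟩)) (by linarith) R.V0 γ0) (sq_nonneg _)
  have a1 := R.rs P (H.vt i P.lo P.hi.le (by linarith))
  set U := Lg ^ 2 * ap M S Xp V γ i
  have U0 : 0 ≤ U := mul_nonneg (sq_nonneg _) (ap_nn h i)
  have pw : ∀ i j : ℕ, i < j → 64 * K ^ i ≤ K ^ j := fun i j e =>
    (mul_le_mul_of_nonneg_right K64 (by positivity)).trans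
      (by rw [← pow_succ']; exact pow_le_pow_right₀ k1 e)
  have f0 : 0 ≤ min (U ^ 3) (U ^ 4 / S.θ) := by positivity
  have hU : ρ * min (U ^ 3) (U ^ 4 / S.θ) ≤ K ^ 5 * N := by
    have b1 := mul_le_mul_of_nonneg_right D3 f0
    have b2 := mul_le_mul_of_nonneg_left sh K0.le
    have b3 := mul_le_mul_of_nonneg_right (mul_le_mul_of_nonneg_left (pow_le_pow_left₀
      (by positivity) K1 4) K0.le) N0
    have b4 : 0 ≤ K * S.C ^ 4 * N := by positivity
    linarith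
  have r3 : S.θ * ρ ^ 3 ≤ ρ ^ 3 := mul_le_of_le_one_left (by positivity) θ1
  have r2 : ρ ^ 3 ≤ ρ ^ 2 := pow_le_pow_of_le_one ρ0.le ρ1 (by norm_num)
  have θN : N * S.θ ≤ ρ ^ 3 := (mul_le_of_le_one_right N0 θ1).trans (hN.trans r3)
  have g1 : GP M S / du M i ≤ K * (N * S.θ) := by
    rw [div_le_iff₀ d0]
    linarith [Q.c2, sq_nonneg (S.θ * γ), mul_le_mul_of_nonneg_left (κ1.trans
      (mul_le_mul_of_nonneg_left di K0.le)) (mul_nonneg N0 θ0.le)]
  have g2 : √(GP M S / du M i) ≤ K * ρ := sqrt_le_iff.2 ⟨by positivity, g1.trans (by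
    rw [mul_pow]
    exact mul_le_mul (le_self_pow₀ k1 two_ne_zero) (θN.trans r2) (by positivity) (by positivity))⟩
  have g3 : (S.C * S.θ * γ + √(GP M S)) ^ 2 ≤ 2 * S.C ^ 2 * ρ ^ 3 := by
    have b1 := mul_le_mul_of_nonneg_right (one_le_pow₀ (n := 2) C1) G0
    have b2 := mul_le_mul_of_nonneg_left (Q.c2.trans θN) (sq_nonneg S.C)
    linarith [sq_nonneg (S.C * S.θ * γ - √(GP M S)), sq_sqrt G0]
  have g4 : S.C * S.θ * γ ≤ 2 * S.C * ρ := (le_add_of_nonneg_right (sqrt_nonneg _)).trans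
    (abs_le_of_sq_le_sq' (g3.trans (by
      linarith [mul_le_mul_of_nonneg_left r2 (sq_nonneg S.C), sq_nonneg (S.C * ρ)]))
      (by positivity)).2
  have g5 : df36 S M T i ≤ 2 * S.C * ρ := by
    by_contra c
    have c1 := (not_le.1 c).le
    have b0 : 0 ≤ M.z i - M.z (S.J - 1) := by linarith
    have b1 := pow_le_pow_left₀ (mul_nonneg (le_trans (by positivity) c1) (sqrt_nonneg _))
      (A.df_plat R.γ0 P.lo P.hi.le (GP := GP M S) le_rfl) 2
    rw [mul_pow, sq_sqrt b0] at b1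
    have b2 := mul_lt_mul_of_lt_of_le_of_nonneg_of_pos (pow_lt_pow_left₀ (not_le.1 c)
      (by positivity) two_ne_zero) (show ρ / 2 ≤ M.z i - M.z (S.J - 1) by linarith)
      (by positivity) (by linarith)
    linarith
  have g6 : |M.G i| ≤ 3 * K * ρ := by
    have b1 := G_up A R.γ0 P.lo P.hi.le d0
    have b2 := (A.deficit (k := i) (by omega) P.hi.le).1
    have b3 := mul_le_mul_of_nonneg_right K1 ρ0.le
    have b4 := mul_pos C0 ρ0
    unfold df36 at g5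
    exact abs_le.2 ⟨by linarith, by linarith⟩
  have T0 : 0 ≤ T := (h.s_nn _).trans A.t2
  have t0 := Q.t0.1
  have t3 : t ^ 3 ≤ ρ := le_of_pow_le_pow_left₀ three_ne_zero ρ0.le (le_of_mul_le_mul_left
    (by linarith [Q.t0.2]) θ0)
  have p1 := pw 1 2 (by norm_num)
  have p2 := pw 2 5 (by norm_num)
  have kk : 64 * 64 ≤ K ^ 2 := by linarith
  obtain ⟨K1', K2', q1, q2, q3, q4, q5⟩ := net_num (D := gd S M m a T i + ds M S i) (t := t + ρ)
    (K := K ^ 5) θ0 θ1 ρ0 ρ1 N0 hN (by linarith) U0 H.g0 H.g2 Q.x1 hU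
    (by linarith [Tq5.abs_Gd A P.hi.le]) (by
      have b1 := (Q.gd i P.lo (by omega)).trans (mul_le_mul_of_nonneg_left
        (show _ ≤ S.θ + t + ρ + 3 * K * ρ by linarith) K0.le)
      have b2 := mul_le_mul_of_nonneg_right p1 ρ0.le
      have b3 := mul_le_mul_of_nonneg_right p2 ρ0.le
      have b4 := mul_le_mul_of_nonneg_right (show K ≤ K ^ 5 by linarith)
        (show 0 ≤ S.θ + t by positivity)
      have b5 := mul_le_mul_of_nonneg_right k1 ρ0.le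
      linarith) (by positivity) (by
      have b1 := cube_add t0 ρ0.le
      have b2 := mul_le_mul_of_nonneg_right (show 8 ≤ K ^ 5 by linarith) ρ0.le
      linarith [pow_le_of_le_one ρ0.le ρ1 three_ne_zero])
  have c1 : 1 ≤ 2 * S.C * W ^ 4 := by
    linarith [mul_le_mul C1 (one_le_pow₀ (n := 4) R.W1) zero_le_one C0.le]
  have c2 : 2 * S.C * W ^ 4 ≤ K := by linarith
  have x0 := H.x0
  have N20 := R.G0.2.1
  have s0 : 0 ≤ N2 * √(GP M S / du M i) := by positivity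
  have s1 : ρ * (N2 * √(GP M S / du M i)) ^ 2 ≤ K * (N * S.θ) := by
    rw [mul_pow, sq_sqrt (by positivity)]
    exact (mul_le_of_le_one_left (by positivity) ρ1).trans ((mul_le_of_le_one_left (by positivity)
      (pow_le_one₀ N20 Q.N1)).trans g1)
  have hx := mul_le_mul_of_nonneg_right K2 x0
  set c := 2 * S.C * W ^ 4 with hc
  have c0 : 0 ≤ c := by linarith
  have θN0 : 0 ≤ S.θ * N := by positivity
  refine ⟨i, c * (K1' + N2 * √(GP M S / du M i)), c * K2', P.lo, ik.le, by linarith,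
    by positivity, by positivity, ?_, ?_, ?_⟩
  · have b1 := mul_le_mul_of_nonneg_left q3 c0
    have b2 := mul_le_mul_of_nonneg_right c1 x0
    unfold el at a1
    linarith [(abs_le.1 a1).2, (abs_le.1 H.r0).2]
  · set s := N2 * √(GP M S / du M i)
    have b1 : ρ * (K1' + s) ^ 2 ≤ K ^ 26 * (S.θ * N) := by
      have e1 := mul_le_mul_of_nonneg_right (pw 25 26 (by norm_num)) θN0
      have e2 := mul_le_mul_of_nonneg_right (le_self_pow₀ k1 (show 25 ≠ 0 by norm_num)) θN0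
      have e3 : 0 ≤ K ^ 25 * (S.θ * N) := by positivity
      linarith [mul_nonneg ρ0.le (sq_nonneg (K1' - s))]
    have b2 := mul_le_mul (pow_le_pow_left₀ c0 c2 2) b1 (by positivity) (by positivity)
    linarith
  · have b2 := mul_le_mul (pow_le_pow_left₀ c0 c2 3) q5 (by positivity) (by positivity)
    have b3 := mul_le_mul_of_nonneg_right (pow_le_pow_right₀ k1 (show 53 ≤ 56 by norm_num))
      (sq_nonneg N)
    linarith

end Crest.Agent.T156.Alt.Nd33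

end
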