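import Crest.Agent.T156.ClE1u_49

/-!
# Row 156 (helper49): plateau sums with averaged node weights and an upper cut
-/

set_option autoImplicit false
set_option linter.unusedSectionVars false

noncomputable section

namespace Crest.Agent.T156.Alt.G49

open Real Finset
open Crest.Agent.T156.Alt.Md67 Crest.Agent.T156.Alt.E61 Crest.Agent.T156.Alt.C33
open Crest.Agent.T156.Alt.E49
open Crest.Agent.T156.Alt.Cost41 (aM Phi RW)

theorem abel1 (f z : ℕ → ℝ) {b N : ℕ} (h : b ≤ N) :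
    ∑ j ∈ Ioc b N, (f j - f (j - 1)) * (1 - z (j - 1)) =
      ∑ i ∈ Ioc b N, (z i - z (i - 1)) * f i + f N * (1 - z N) - f b * (1 - z b) := by
  induction N, h using Nat.le_induction with
  | base => simp
  | succ N hN ih => rw [sum_Ioc_succ_top hN, sum_Ioc_succ_top hN, ih, Nat.add_sub_cancel]; ring

theorem drop {e w : ℕ → ℝ} {b N : ℕ} {B : ℝ} (h : b ≤ N)
    (H : ∀ j, b ≤ j → j ≤ N → 0 < w j ∧ e j * w j ≤ B)
    (wm : ∀ j, b ≤ j → j < N → w j ≤ w (j + 1)) (B0 : 0 ≤ B) :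
    ∑ j ∈ Ioc b N, (e (j - 1) - e j) * w (j - 1) + e N * w N ≤ B * (1 + log (w N / w b)) := by
  induction N, h using Nat.le_induction with
  | base =>
    obtain ⟨a1, a2⟩ := H b le_rfl le_rfl
    simpa [div_self a1.ne'] using a2
  | succ N hN ih =>
    have i := ih (fun j p q => H j p (by omega)) fun j p q => wm j p (by omega)
    obtain ⟨a1, a2⟩ := H (N + 1) (by omega) le_rfl
    have b1 := (H N hN (by omega)).1
    have b0 := (H b le_rfl (by omega)).1
    have b2 := wm N hN (by omega)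
    have l : 1 - w N / w (N + 1) ≤ log (w (N + 1) / w b) - log (w N / w b) := by
      rw [← log_div (by positivity) (by positivity), div_div_div_cancel_right₀ b0.ne']
      have := one_sub_inv_le_log_of_pos (div_pos a1 b1)
      rwa [inv_div] at this
    have c1 : 0 ≤ 1 - w N / w (N + 1) := sub_nonneg.2 ((div_le_one a1).2 b2)
    have c2 := mul_le_mul_of_nonneg_right a2 c1
    have e1 : e (N + 1) * w (N + 1) * (1 - w N / w (N + 1)) =
        e (N + 1) * w (N + 1) - e (N + 1) * w N := by field_simp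
    rw [sum_Ioc_succ_top hN, Nat.add_sub_cancel]
    linarith [mul_le_mul_of_nonneg_left l B0]

/-- the first index below the distance `u` to the upper end -/
theorem cut (f : ℕ → ℝ) (u : ℝ) {i N : ℕ} (h : i ≤ N) :
    ∃ c, i ≤ c ∧ c ≤ N ∧ (∀ k, i ≤ k → k < c → u ≤ f k) ∧ (c = N ∨ f c < u) := by
  classical
  have ex : ∃ c, i ≤ c ∧ (c = N ∨ f c < u) := ⟨N, h, Or.inl rfl⟩
  refine ⟨Nat.find ex, (Nat.find_spec ex).1, Nat.find_min' ex ⟨h, Or.inl rfl⟩, fun k p q => ?_,
    (Nat.find_spec ex).2⟩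
  exact not_lt.1 fun c => Nat.find_min ex q ⟨p, Or.inr c⟩

/-- plateau data below the cut `Jc` -/
structure Pt2 (S : Sc) (M : Md) (m : ℕ) (a : ℝ) (p : ℕ → ℝ) (l Λ R cm : ℝ) (Jc : ℕ) : Prop where
  J1 : S.J ≤ Jc
  J2 : Jc ≤ S.Jp
  nn : ∀ j, S.J - 1 ≤ j → 0 ≤ p j
  l0 : 0 < l
  cm0 : 0 ≤ cm
  av : ∀ j k, S.J ≤ j → j ≤ k → k < Jc → M.z k - M.z j ≤ ((k : ℝ) - j) * (S.v * p (j - 1))
  co : ∀ k, S.J ≤ k → k < Jc → (M.z k - M.z (S.J - 1)) * l ≤ ((k - (S.J - 1) : ℕ) : ℝ) * S.v
  dz : ∀ k, S.J ≤ k → k < Jc → M.dz m a k ≤ S.v * p k ∧ M.dz m a k ≤ cm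
  Λ0 : 0 ≤ Λ
  up : ∀ i, S.J / 2 + i < S.J - 1 →
    M.rb m a (S.J - 1) - M.rb m a (S.J - 1 - 1 - i) ≤ Λ * (i * S.v + l)
  R : ∑ j ∈ Ioc (S.J - 1) Jc, (M.rb m a j - M.rb m a (j - 1)) * p (j - 1) ≤ R

/-- the rate -/
def rt (S : Sc) : ℝ := 110592 * S.C ^ 14 * gg S 1

variable {S : Sc} {M : Md} {m : ℕ} {a : ℝ} {K : ℕ} (F : Fn S M m a) (hJ : 4 * S.jl ≤ S.J)
include F hJ

theorem ind_sum {i b : ℕ} (h : S.J ≤ i) :
    ∑ k ∈ Ico i b, M.dz m a k * aM M m a k = ∑ k ∈ Ioc (S.J / 2) (b - 1),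
      (if i ≤ k then M.dz m a k else 0) * aM M m a k := by
  have i0 := F.i0; have i1 := F.i1
  simp only [ite_mul, zero_mul]
  rw [← sum_filter]
  refine sum_congr ?_ fun _ _ => rfl
  ext k
  simp only [mem_Ico, mem_filter, mem_Ioc]
  omega

theorem tM_pl {k : ℕ} (k1 : S.J ≤ k) (k2 : k < S.Jp) {x y : ℝ} (hx : M.dz m a k ≤ S.v * x)
    (hy : M.dz m a k ≤ y) : M.dz m a k * tM M m a k ≤
      2 * S.C * rt S * ((M.rb m a (k + 1) - M.rb m a k) * x) +
        2 * S.C ^ 2 * y * (M.rb m a (k + 1) - M.rb m a k) := by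
  have G := F.lg
  have C0 := F.C0; have v0 := F.v0; have σ0 := sg_pos F (S.J / 2); have m' := m0 F
  have i0 := F.i0; have i1 := F.i1; have i4 := F.i4
  have r := rate_top F (i := S.J / 2) (by omega) (by omega) (by omega)
  have x0 : 0 ≤ x := nonneg_of_mul_nonneg_right ((G.dz_nonneg k).trans hx) v0 |> id
  set σ := m * sg S M (S.J / 2) with hσ
  have d0 : 0 ≤ M.rb m a (k + 1) - M.rb m a k := sub_nonneg.2 (Md67.rb_mono G.m0 k.le_succ)
  have b1 := tM_le G (k := k) (by omega) (σ := σ) (x := 1 / S.C) (by positivity) (by positivity)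
    (by rw [div_le_iff₀' C0]; exact F.z_top (by omega)) (sg_le' F (by omega) (by omega) k2)
  refine (mul_le_mul_of_nonneg_left b1 (G.dz_nonneg k)).trans ?_
  have b2 := mul_le_mul_of_nonneg_right hx
    (by positivity : 0 ≤ 2 * S.C / σ * (M.rb m a (k + 1) - M.rb m a k))
  have b3 := mul_le_mul_of_nonneg_right hy
    (by positivity : 0 ≤ 2 * S.C ^ 2 * (M.rb m a (k + 1) - M.rb m a k))
  have b4 := mul_le_mul_of_nonneg_right r
    (by positivity : 0 ≤ 2 * S.C * ((M.rb m a (k + 1) - M.rb m a k) * x))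
  rw [show 2 / (σ * (1 / S.C)) + 2 / (1 / S.C) ^ 2 = 2 * S.C / σ + 2 * S.C ^ 2 by field_simp]
  refine le_trans (le_of_eq (by ring)) ((add_le_add (b2.trans (le_trans (le_of_eq (by ring)) b4))
    b3).trans (le_of_eq (by rw [rt]; ring)))

/-- constant node weights -/
theorem cst_sum (B : Kb S M K) {i b : ℕ} (h1 : S.J ≤ i) (h2 : i ≤ b) (h3 : b ≤ S.Jp) {p : ℝ}
    (p0 : 0 ≤ p) (hp : ∀ k, i ≤ k → k < b → M.dz m a k ≤ S.v * p) :
    ∑ k ∈ Ico i b, M.dz m a k * aM M m a k ≤ (K + 2) * (2 * (1 + K) * (rt S * p) + S.v * p) ∧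
      ∑ k ∈ Ico i b, M.dz m a k * tM M m a k ≤ 2 * S.C * rt S * p + 2 * S.C ^ 2 * (S.v * p) := by
  have G := F.lg
  have C0 := F.C0; have v0 := F.v0; have σ0 := sg_pos F (S.J / 2); have m' := m0 F
  have i0 := F.i0; have i1 := F.i1; have i3 := F.i3; have i4 := F.i4
  have ρm := Md67.rb_mono (M := M) (a := a) G.m0
  have r := rate_top F (i := S.J / 2) (by omega) (by omega) (by omega)
  have g0 := gg_pos F zero_le_one
  constructor
  · have c1 : ∀ k, k ≤ b - 1 → (if i ≤ k then M.dz m a k else 0) ≤ S.v * p := fun k q => by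
      split_ifs with h
      exacts [hp k h (by omega), by positivity]
    rw [ind_sum F hJ h1]
    refine (Cost41.cost G (W := fun _ => S.v * p / sg S M (S.J / 2)) (cm := S.v * p) (K := K) σ0
      (by omega) (by omega) (fun i p q => sg_le F (by omega) p (by omega))
      (Phi_le F B (by omega) (by omega)) (fun k _ _ => by
        split_ifs
        exacts [G.dz_nonneg k, le_rfl]) (by positivity) (fun k _ q => c1 k q)
      (fun j _ _ => by positivity) fun j k p q r => ?_).trans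
      (mul_le_mul_of_nonneg_left (add_le_add ?_ le_rfl) (by positivity))
    · refine (sum_le_card_nsmul _ _ _ fun x hx => c1 x ((mem_Ioc.1 hx).2.trans r)).trans ?_
      rw [Nat.card_Ioc, nsmul_eq_mul, Nat.cast_sub q.le]
      refine le_trans (le_of_eq ?_) (mul_le_mul_of_nonneg_left
        (Phi_ge F (i := S.J / 2) (by omega) p q.le (by omega)) (by positivity))
      field_simp
    · have q := (RW_top (W := fun _ => S.v * p / sg S M (S.J / 2)) ρm (rb_nonneg G.m0 (S.J / 2))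
        (show S.J / 2 ≤ b - 1 by omega) fun _ _ _ => le_rfl).trans
          (mul_le_of_le_one_right (by positivity) (rb_le_one G.m0 _))
      calc _ ≤ 2 / m * ((1 + K) * (S.v * p / sg S M (S.J / 2))) := by gcongr
        _ = 2 * (1 + K) * (S.v / (m * sg S M (S.J / 2)) * p) := by field_simp
        _ ≤ _ := by rw [rt]; gcongr
  · refine (sum_le_sum fun k hk => tM_pl F hJ (h1.trans (mem_Ico.1 hk).1) ((mem_Ico.1 hk).2.trans_le
      h3) (hp k (mem_Ico.1 hk).1 (mem_Ico.1 hk).2) (hp k (mem_Ico.1 hk).1 (mem_Ico.1 hk).2)).trans ?_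
    rw [sum_add_distrib, ← mul_sum, ← mul_sum, ← sum_mul, sum_Ico_sub _ h2]
    have q : M.rb m a b - M.rb m a i ≤ 1 := by
      linarith [rb_le_one (M := M) (a := a) G.m0 b, rb_nonneg (M := M) (a := a) G.m0 i]
    have : 0 ≤ rt S := by rw [rt]; positivity
    exact add_le_add (mul_le_mul_of_nonneg_left (mul_le_of_le_one_left p0 q) (by positivity))
      (mul_le_of_le_one_right (by positivity) q)

variable {p : ℕ → ℝ} {l Λ R cm : ℝ} {Jc : ℕ} (P : Pt2 S M m a p l Λ R cm Jc)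
include P

theorem Pt2.R0 : 0 ≤ R := le_trans (sum_nonneg fun _ hj =>
  mul_nonneg (sub_nonneg.2 (Md67.rb_mono F.lg.m0 (Nat.sub_le _ _)))
    (P.nn _ (by have := (mem_Ioc.1 hj).1; omega))) P.R

theorem pl_tM : ∑ k ∈ Ico S.J Jc, M.dz m a k * tM M m a k ≤
    2 * S.C * rt S * R + 2 * S.C ^ 2 * cm := by
  have G := F.lg
  have C0 := F.C0; have g0 := gg_pos F zero_le_one; have := P.cm0
  have ρm := Md67.rb_mono (M := M) (a := a) G.m0
  refine (sum_le_sum fun k hk => tM_pl F hJ (mem_Ico.1 hk).1 ((mem_Ico.1 hk).2.trans_le P.J2)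
    (P.dz k (mem_Ico.1 hk).1 (mem_Ico.1 hk).2).1 (P.dz k (mem_Ico.1 hk).1 (mem_Ico.1 hk).2).2).trans ?_
  rw [sum_add_distrib, ← mul_sum, ← mul_sum, sum_Ico_sub _ P.J1]
  have e : ∑ k ∈ Ico S.J Jc, (M.rb m a (k + 1) - M.rb m a k) * p k ≤ R := by
    refine le_trans ?_ P.R
    rw [← Ico_add_one_add_one_eq_Ioc, ← sum_Ico_add']
    exact sum_le_sum_of_subset_of_nonneg (Ico_subset_Ico_left (Nat.sub_le _ 1))
      fun j hj _ => mul_nonneg (sub_nonneg.2 (ρm j.le_succ)) (P.nn _ (mem_Ico.1 hj).1)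
  have : 0 ≤ rt S := by rw [rt]; positivity
  refine add_le_add (mul_le_mul_of_nonneg_left e (by positivity))
    (mul_le_of_le_one_right (by positivity) ?_)
  linarith [rb_le_one (M := M) (a := a) G.m0 Jc, rb_nonneg (M := M) (a := a) G.m0 S.J]

theorem pl_aM (B : Kb S M K) : ∑ k ∈ Ico S.J Jc, M.dz m a k * aM M m a k ≤
    (K + 2) * (2 * (1 + K) * (rt S * (12 * S.C ^ 3 + Λ * (1 + log (1 + S.C ^ 2 / l)) + R)) + cm) := by
  have G := F.lg
  have C0 := F.C0; have v0 := F.v0; have σ0 := sg_pos F (S.J / 2); have m' := m0 F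
  have i0 := F.i0; have i1 := F.i1; have i4 := F.i4; have l0 := P.l0
  have J1 := P.J1; have J2 := P.J2; have cm0 := P.cm0
  have ρm := Md67.rb_mono (M := M) (a := a) G.m0
  set σ := sg S M (S.J / 2) with hσ
  set W : ℕ → ℝ := fun j => S.v / σ *
    if j < S.J then 1 / (((S.J - 1 - j : ℕ) : ℝ) * S.v + l) else p (j - 1) with hW
  have W0 : ∀ j, 0 ≤ W j := fun j => mul_nonneg (by positivity) (by
    split_ifs
    exacts [by positivity, P.nn _ (by omega)])
  have := Cost41.cost G (c := fun k => if S.J ≤ k then M.dz m a k else 0) (W := W)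
    (cm := cm) (j0 := S.J / 2) (N := Jc - 1) (K := K) σ0 (by omega) (by omega)
    (fun i p q => sg_le F (by omega) p (by omega)) (Phi_le F B (by omega) (by omega))
    (fun k _ _ => by
      split_ifs
      exacts [G.dz_nonneg k, le_rfl]) cm0
    (fun k p q => by
      split_ifs with h
      exacts [(P.dz k h (by omega)).2, cm0]) (fun j _ _ => W0 j) fun j k hp q r => by
      refine le_trans ?_ (mul_le_mul_of_nonneg_left (Phi_ge F (i := S.J / 2) (by omega) hp q.le
        (by omega)) (W0 j))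
      by_cases h : j < S.J
      · rw [hW]
        simp only [if_pos h]
        rcases lt_or_ge k S.J with hk | hk
        · rw [sum_eq_zero fun i hi => if_neg (by have := (mem_Ioc.1 hi).2; omega)]
          have : (0 : ℝ) ≤ (k : ℝ) - j := sub_nonneg.2 (Nat.cast_le.2 q.le)
          positivity
        · rw [← sum_Ioc_consecutive _ (show j ≤ S.J - 1 by omega) (show S.J - 1 ≤ k by omega),
            sum_eq_zero fun i hi => if_neg (by have := (mem_Ioc.1 hi).2; omega),
            zero_add, sum_congr rfl fun i hi => if_pos (by have := (mem_Ioc.1 hi).1; omega),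
            Md67.sum_dz F.leg (by omega)]
          have b1 : M.z k - M.z (S.J - 1) ≤ 1 := by linarith [G.z1 k, F.z_pos (S.J - 1)]
          have b2 := P.co k hk (by omega)
          have e : (k : ℝ) - j = ((k - (S.J - 1) : ℕ) : ℝ) + ((S.J - 1 - j : ℕ) : ℝ) := by
            rw [← Nat.cast_add, ← Nat.cast_sub q.le]; congr 1; omega
          have b3 := mul_le_mul_of_nonneg_right b1
            (by positivity : 0 ≤ ((S.J - 1 - j : ℕ) : ℝ) * S.v)
          rw [show S.v / σ * (1 / (((S.J - 1 - j : ℕ) : ℝ) * S.v + l)) * (((k : ℝ) - j) * σ) =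
            S.v * ((k : ℝ) - j) / (((S.J - 1 - j : ℕ) : ℝ) * S.v + l) by field_simp,
            le_div_iff₀ (by positivity), e]
          linarith
      · rw [hW]
        simp only [if_neg h]
        rw [sum_congr rfl fun i hi => if_pos (by have := (mem_Ioc.1 hi).1; omega),
          Md67.sum_dz F.leg q.le]
        refine (P.av j k (by omega) q.le (by omega)).trans (le_of_eq ?_)
        rw [← hσ]; field_simp
  rw [ind_sum F hJ le_rfl]
  refine this.trans (mul_le_mul_of_nonneg_left (add_le_add ?_ le_rfl) (by positivity))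
  have r1 : M.rb m a (S.J / 2) * W (S.J / 2) ≤ S.v / σ * (12 * S.C ^ 3) := by
    refine (mul_le_of_le_one_left (W0 _) (rb_le_one G.m0 _)).trans ?_
    rw [hW]
    simp only [if_pos (show S.J / 2 < S.J by omega)]
    refine mul_le_mul_of_nonneg_left ?_ (by positivity)
    have b1 : (S.J : ℝ) ≤ 4 * ((S.J - 1 - S.J / 2 : ℕ) : ℝ) := by
      exact_mod_cast (by omega : S.J ≤ 4 * (S.J - 1 - S.J / 2))
    have b2 := mul_le_mul_of_nonneg_left (mul_le_mul_of_nonneg_right b1 v0.le)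
      (by positivity : 0 ≤ 3 * S.C ^ 3)
    rw [div_le_iff₀ (by positivity)]
    linarith [F.J_lo, (by positivity : 0 ≤ 12 * S.C ^ 3 * l)]
  have r2 : ∑ j ∈ Ioc (S.J / 2) (S.J - 1), (M.rb m a j - M.rb m a (j - 1)) * W j ≤
      S.v / σ * (Λ * (1 + log (1 + S.C ^ 2 / l))) := by
    have b1 := RW_up (ρ := M.rb m a) (c := S.J / 2) (b := S.J - 1) (by omega) v0.le l0 P.Λ0 P.up
    have b2 : ((S.J - 1 : ℕ) : ℝ) * S.v ≤ S.C ^ 2 := by
      have := (F.s_mem (k := S.J - 1) (by omega)).1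
      have := mul_le_mul_of_nonneg_left ((F.sm (show S.J - 1 ≤ S.Jp by omega)).trans F.sT) C0.le
      linarith
    refine le_trans (le_of_eq ?_) (mul_le_mul_of_nonneg_left (b1.trans
      (mul_le_mul_of_nonneg_left (add_le_add le_rfl (log_le_log (by positivity) (by gcongr))) P.Λ0))
      (by positivity))
    rw [mul_sum]
    refine sum_congr rfl fun j hj => ?_
    rw [hW]
    simp only [if_pos (show j < S.J by have := (mem_Ioc.1 hj).2; omega)]
    ring
  have r3 : ∑ j ∈ Ioc (S.J - 1) (Jc - 1), (M.rb m a j - M.rb m a (j - 1)) * W j ≤ S.v / σ * R := by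
    refine le_trans ?_ (mul_le_mul_of_nonneg_left P.R (by positivity))
    rw [mul_sum]
    refine le_trans (sum_le_sum fun j hj => le_of_eq ?_) (sum_le_sum_of_subset_of_nonneg
      (Ioc_subset_Ioc_right (Nat.sub_le _ 1)) fun j hj _ => mul_nonneg (by positivity)
        (mul_nonneg (sub_nonneg.2 (ρm (Nat.sub_le _ _)))
          (P.nn _ (by have := (mem_Ioc.1 hj).1; omega))))
    rw [hW]
    simp only [if_neg (show ¬ j < S.J by have := (mem_Ioc.1 hj).1; omega)]
    rw [mul_left_comm]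
  have r4 : RW (M.rb m a) W (S.J / 2) (Jc - 1) ≤
      S.v / σ * (12 * S.C ^ 3 + Λ * (1 + log (1 + S.C ^ 2 / l)) + R) := by
    rw [Cost41.RW_split _ _ (show S.J / 2 ≤ S.J - 1 by omega) (show S.J - 1 ≤ Jc - 1 by omega), RW]
    linarith
  have Y0 : 0 ≤ 12 * S.C ^ 3 + Λ * (1 + log (1 + S.C ^ 2 / l)) + R := by
    have := log_nonneg (le_add_of_nonneg_right (by positivity : 0 ≤ S.C ^ 2 / l))
    have := P.Λ0
    have := P.R0 F hJ
    positivity
  have r5 := mul_le_mul_of_nonneg_right (rate_top F (i := S.J / 2) (by omega) (by omega) (by omega)) Y0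
  calc _ ≤ 2 / m * ((1 + K) * (S.v / σ * (12 * S.C ^ 3 + Λ * (1 + log (1 + S.C ^ 2 / l)) + R))) := by
        gcongr
    _ = 2 * (1 + K) * (S.v / (m * σ) * (12 * S.C ^ 3 + Λ * (1 + log (1 + S.C ^ 2 / l)) + R)) := by
        field_simp
    _ ≤ _ := by rw [rt]; gcongr

end Crest.Agent.T156.Alt.G49

end
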