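import Crest.Agent.T156.Plat_48

/-!
Row 156 (helper48): the plateau part of the energy estimate with a bound `Lt` for the length of
the last region (`zb = 1` from `U` on).
-/

set_option autoImplicit false

namespace Crest.Agent.T156.Pr.Reg48

open MeasureTheory Set
open Crest.Agent.R164.GC Crest.Agent.R339.B Crest.Agent.R339.Var Crest.Agent.T157.Pf
open Crest.Agent.T156.Cut8 (LB Res int_mono int_split)

noncomputable section

/-- **the three top regions**, no bound needed where `dz = 0`: (ii) `[M, S)`, `dz ≥ 0`, frozen mark `hm`; (iii) `[S, P)`, `dz ≤ 0`,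
lower bound of the residual; (iv) `[P, T)`, `dz ≤ 0`, lower bound of `Γb - Γh` -/
theorem res_top' {T A M S P b hm B2 B3 B4 : ℝ} {dz Γb Γh hb H r1 r2 ω β ξ : ℝ → ℝ}
    (R : Res T dz (fun t => Γb t - Γh t) H r1 r2 ω β ξ A M) (ld : LB T dz) (lΓ : LB T Γh)
    (lh : LB T hb) (hb0 : 0 < b) (hA : 0 ≤ A) (h1 : A ≤ M) (h2 : M ≤ S) (h3 : S ≤ P) (h4 : P ≤ T)
    (β0 : 0 ≤ β M) (p2 : 0 ≤ B2) (p3 : 0 ≤ B3) (p4 : 0 ≤ B4)
    (ii : ∀ t, M ≤ t → t < S →
      0 ≤ dz t ∧ t - b * Γh t ≤ hm ∧ Γb t - (t - hm) / b - r2 M ≤ B2)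
    (iii : ∀ t, S ≤ t → t < P → dz t ≤ 0 ∧ -B3 ≤ Γb t - (t - hb t) / b - r2 M)
    (iv : ∀ t, P ≤ t → t < T → dz t ≤ 0 ∧ (dz t = 0 ∨ -B4 ≤ Γb t - Γh t - r2 M)) :
    ∃ H' r1' r2' ω' β' ξ' : ℝ → ℝ, Res T dz (fun t => Γb t - Γh t) H' r1' r2' ω' β' ξ' A T ∧
      (∀ t, t < M → H' t = H t ∧ r1' t = r1 t ∧ r2' t = r2 t ∧ β' t = β t) ∧
      r2' M = r2 M ∧ β' M = β M ∧
      ∫ t in A..T, ω' t ^ 2 = ∫ t in A..M, ω t ^ 2 ∧
      ∫ t in A..T, ξ' t = (∫ t in A..M, ξ t) + ((B2 + β M) * (∫ t in M..S, |dz t|) +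
        ((B3 + β M) * (∫ t in S..P, |dz t|) +
          (∫ t in S..P, max (hb t - (t - b * Γh t)) 0 * |dz t|) / b +
          (B4 + β M) * ∫ t in P..T, |dz t|)) ∧
      ∫ t in A..T, H' t * dz t = (∫ t in A..M, H t * dz t) +
        ((∫ t in M..S, (hm - (t - b * Γh t)) * |dz t|) / b +
          (∫ t in S..P, max (t - b * Γh t - hb t) 0 * |dz t|) / b) := by
  have lM : LB T fun t => t - b * Γh t := (LB.of_cont continuousOn_id).sub ((LB.const b).mul lΓ)
  have lmax : ∀ {k : ℝ → ℝ}, LB T k → LB T fun t => max (k t) 0 := fun {k} lk => by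
    have := (lk.add lk.abs).div 2
    convert this using 2 with t
    rcases le_total 0 (k t) with a | a
    · rw [max_eq_left a, abs_of_nonneg a]; ring
    · rw [max_eq_right a, abs_of_nonpos a]; ring
  have l2 : LB T fun t => (hm - (t - b * Γh t)) / b := ((LB.const hm).sub lM).div b
  have l3 : LB T fun t => (-1) * max (t - b * Γh t - hb t) 0 / b :=
    ((LB.const _).mul (lmax (lM.sub lh))).div b
  have x2 : LB T fun t => (B2 + β M) * |dz t| := (LB.const _).mul ld.abs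
  have x3a : LB T fun t => (B3 + β M) * |dz t| := (LB.const _).mul ld.abs
  have x3b : LB T fun t => max (hb t - (t - b * Γh t)) 0 * |dz t| / b :=
    ((lmax (lh.sub lM)).mul ld.abs).div b
  have x4 : LB T fun t => (B4 + β M) * |dz t| := (LB.const _).mul ld.abs
  have lH' := LB_ite (M := S) l2 (LB_ite (M := P) l3 (LB.const 0))
  have lξ' := LB_ite (M := S) x2 (LB_ite (M := P) (x3a.add x3b) x4)
  have hM : 0 ≤ M := hA.trans h1
  have hS : 0 ≤ S := hM.trans h2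
  have mS : S ∈ Icc 0 T := ⟨hS, h3.trans h4⟩
  have mP : P ∈ Icc 0 T := ⟨hS.trans h3, h4⟩
  refine ⟨_, _, _, _, _, _, res_ext R hA le_rfl β0 lH' lξ' (fun t a c => ?_) (fun t a c => ?_)
    (fun t a c => ?_), fun t a => ⟨if_pos a, if_pos a, if_pos a, if_pos a⟩, if_neg (lt_irrefl M),
    if_neg (lt_irrefl M), ?_, ?_, ?_⟩
  · split_ifs with e e'
    · obtain ⟨a1, a2, -⟩ := ii t a e
      exact mul_nonneg (div_nonneg (by linarith) hb0.le) a1
    · exact mul_nonneg_of_nonpos_of_nonpos (div_nonpos_of_nonpos_of_nonneg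
        (by linarith [le_max_right (t - b * Γh t - hb t) 0]) hb0.le) (iii t (not_lt.1 e) e').1
    · simp
  · split_ifs <;> positivity
  · split_ifs with e e'
    · obtain ⟨a1, -, a3⟩ := ii t a e
      refine pair_pos a1 (le_of_eq_of_le ?_ a3)
      field_simp
      ring
    · obtain ⟨a1, a2⟩ := iii t (not_lt.1 e) e'
      have m : max (hb t - (t - b * Γh t)) 0 - max (t - b * Γh t - hb t) 0 =
          hb t - (t - b * Γh t) := by
        rcases le_total (hb t) (t - b * Γh t) with g | g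
        · rw [max_eq_right (by linarith), max_eq_left (by linarith)]; ring
        · rw [max_eq_left (by linarith), max_eq_right (by linarith)]; ring
      have g : Γb t - Γh t + -1 * max (t - b * Γh t - hb t) 0 / b - r2 M =
          Γb t - (t - hb t) / b - r2 M - max (hb t - (t - b * Γh t)) 0 / b := by
        rw [eq_sub_of_add_eq' (sub_eq_iff_eq_add.1 m).symm]
        field_simp
        ring
      refine (pair_neg a1 (B := B3 + max (hb t - (t - b * Γh t)) 0 / b)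
        (by rw [g]; linarith)).trans_eq ?_
      ring
    · obtain ⟨a1, a2 | a2⟩ := iv t (not_lt.1 e') c
      · simp [a2]
      · exact pair_neg a1 (by linarith)
  · have := int_ite R.lω.sq (LB.const 0) hA h1 (h2.trans mS.2) le_rfl
    simp only [intervalIntegral.integral_zero, add_zero] at this
    rw [← this]
    congr 1
    funext t
    split_ifs <;> simp
  · rw [int_ite R.lξ lξ' hA h1 (h2.trans mS.2) le_rfl,
      int_ite x2 (LB_ite (x3a.add x3b) x4) hM h2 mS.2 le_rfl,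
      int_ite (x3a.add x3b) x4 hS h3 h4 le_rfl,
      intervalIntegral.integral_add (x3a.ii mS mP) (x3b.ii mS mP)]
    simp only [intervalIntegral.integral_const_mul, intervalIntegral.integral_div]
  · have y2 : LB T fun t => (hm - (t - b * Γh t)) * |dz t| / b :=
      (((LB.const hm).sub lM).mul ld.abs).div b
    have y3 : LB T fun t => max (t - b * Γh t - hb t) 0 * |dz t| / b :=
      ((lmax (lM.sub lh)).mul ld.abs).div b
    have := int_ite (R.lH.mul ld) (LB_ite (M := S) y2 (LB_ite (M := P) y3 (LB.const 0))) hA h1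
      (h2.trans mS.2) le_rfl
    rw [int_ite y2 (LB_ite y3 (LB.const 0)) hM h2 mS.2 le_rfl,
      int_ite y3 (LB.const 0) hS h3 h4 le_rfl] at this
    simp only [intervalIntegral.integral_zero, add_zero, intervalIntegral.integral_div] at this
    rw [← this]
    refine intervalIntegral.integral_congr_Ioo_of_le (h1.trans (h2.trans mS.2)) fun t ht => ?_
    split_ifs with e e' e''
    · rfl
    · rw [abs_of_nonneg (ii t (not_lt.1 e) e').1]; ring
    · rw [abs_of_nonpos (iii t (not_lt.1 e') e'').1]; ring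
    · simp

/-- the number `N` dominates all errors (`η' = η + β M + Dh / b`) -/
structure PNU (T Lt C b θ η' g G0 Gt e e1 κ u1 N : ℝ) : Prop where
  θ0 : 0 < θ
  N0 : 0 ≤ N
  h1 : η' ^ 3 ≤ θ * κ ^ 2 / 64 * N ^ 2 ∨ η' ^ 2 ≤ e * κ / (64 * b) * N
  h2 : (g / b) ^ 3 ≤ (θ * κ ^ 2 / 64) ^ 2 * N ∨ g ≤ e * κ / 16
  h3 : (u1 * Lt * e1 / b) ^ 3 ≤ θ * κ ^ 2 / 64 * N ^ 2
  h4 : (C * Lt * u1) ^ 3 ≤ (θ * κ ^ 2 / 64) ^ 2 * N
  h5 : u1 * Lt * (η' + Gt / b) ≤ N
  h6 : C * Lt ^ 3 * u1 ^ 2 ≤ N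
  h7 : (C * Lt ^ 2 * u1) ^ 2 ≤ θ / (T + 1) * N
  h9 : ((C * Lt * u1) ^ 2 * (T + 1) / θ) ^ 3 ≤ (θ * κ ^ 2 / 64) ^ 2 * N
  h8 : 8 * G0 ^ 2 / e * Real.log (1 + e * T / G0) / b ≤ N

variable {lb lh : List (ℝ × ℝ)} {T b σ M P c0 η g Dh lam G0 Gt e e1 κ u1 : ℝ} {hb : ℝ → ℝ}

set_option maxHeartbeats 1600000 in
theorem finU {T Lt C b θ η β g Dh lam G0 Gt e e1 κ u1 N E D y ι V W i2 i4 z2 z3 s1 s2 x : ℝ}
    (n : PNU T Lt C b θ (η + β + Dh / b) g G0 Gt e e1 κ u1 N) (hC : 0 ≤ C) (b0 : 0 < b) (T0 : 0 ≤ T)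
    (L0 : 0 ≤ Lt) (η0 : 0 ≤ η) (β0 : 0 ≤ β) (g0 : 0 ≤ g) (Dh0 : 0 ≤ Dh)
    (l1 : lam ≤ κ / 32) (Gt0 : 0 ≤ Gt) (e0 : 0 < e) (e10 : 0 ≤ e1) (κ0 : 0 < κ) (κ1 : κ ≤ 1)
    (u0 : 0 ≤ u1) (E0 : 0 ≤ E) (D0 : 0 ≤ D) (y0 : 0 ≤ y) (y3' : y ^ 3 = 8 * E) (ι0 : 0 ≤ ι)
    (ι2 : ι ^ 2 ≤ (T + 1) * E) (D3 : κ ^ 2 * D ^ 3 / 64 ≤ E) (V0 : 0 ≤ V) (V1 : V ≤ y)
    (bt : V ^ 2 ≤ 2 * W) (I2 : i2 ≤ D * 1) (I2' : 0 ≤ i2) (I4 : i4 ≤ u1 * Lt) (I4' : 0 ≤ i4)
    (Z2 : e * κ * D ^ 2 / 2 ≤ z2) (Z3 : e / 4 * W ≤ z3 + s2) (Z30 : 0 ≤ z3) (S1 : s1 ≤ s2)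
    (S2 : s2 / b ≤ N) :
    0 ≤ z2 / b + z3 / b ∧
    x + ((η + g / b * D + β) * i2 + ((η + Dh / b + lam * e * D / b + β) * V + s1 / b +
      (η + (Gt + e1 * D) / b + C * (y + ι) * D + C * (u1 * Lt + ι) * Lt + β) * i4)) ≤
      x + 8 * θ * E + (z2 / b + z3 / b) / 4 + 11 * N ∧
    e * κ * D ^ 2 / (2 * b) + e / (4 * b) * W ≤ z2 / b + z3 / b + N := by
  obtain ⟨θ0, N0, h1, h2, h3, h4, h5, h6, h7, h9, -⟩ := n
  set η' := η + β + Dh / b with hη
  set ε := θ * κ ^ 2 / 64 with hε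
  have ε0 : 0 < ε := by positivity
  have W0 : 0 ≤ W := by linarith [sq_nonneg V]
  have a2 : e * κ * D ^ 2 / b ≤ 2 * (z2 / b) := by
    rw [← mul_div_assoc]; exact div_le_div_of_nonneg_right (by linarith) b0.le
  have a3 : e * W / b ≤ 4 * (z3 / b) + 4 * N := by
    have : e * W / b ≤ (4 * z3 + 4 * s2) / b := div_le_div_of_nonneg_right (by linarith) b0.le
    rw [add_div, mul_div_assoc 4, mul_div_assoc 4] at this
    linarith
  have a20 : 0 ≤ e * κ * D ^ 2 / b := by positivity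
  have a30 : 0 ≤ e * W / b := by positivity
  have z30 : 0 ≤ z3 / b := by positivity
  have θE : 0 ≤ θ * E := by positivity
  have eD : ε * D ^ 3 ≤ θ * E := by
    have := mul_le_mul_of_nonneg_left D3 θ0.le
    rw [hε]; linarith
  have ey : ε * y ^ 3 ≤ θ * E := by
    have := mul_le_mul_of_nonneg_left (pow_le_one₀ κ0.le κ1 : κ ^ 2 ≤ 1) θE
    rw [hε, y3']; linarith
  have eV : ε * V ^ 3 ≤ θ * E :=
    (mul_le_mul_of_nonneg_left (pow_le_pow_left₀ V0 V1 3) ε0.le).trans ey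
  have kV : e * κ / b * V ^ 2 ≤ 2 * (e * W / b) := by
    have : κ * V ^ 2 ≤ 2 * W := (mul_le_of_le_one_left (sq_nonneg V) κ1).trans bt
    calc e * κ / b * V ^ 2 = e / b * (κ * V ^ 2) := by ring
      _ ≤ e / b * (2 * W) := by gcongr
      _ = _ := by ring
  have t1 : η' * D ≤ θ * E + N + e * κ * D ^ 2 / b / 64 ∧
      η' * V ≤ θ * E + N + e * W / b / 32 := by
    rcases h1 with h1 | h1
    · exact ⟨by linarith [y3 D0 N0 ε0 h1], by linarith [y3 V0 N0 ε0 h1]⟩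
    · have p : 0 < e * κ / (64 * b) := by positivity
      have q1 := y2 D0 N0 p h1
      have q2 := y2 V0 N0 p h1
      rw [show e * κ / (64 * b) * D ^ 2 = e * κ * D ^ 2 / b / 64 by ring] at q1
      rw [show e * κ / (64 * b) * V ^ 2 = e * κ / b * V ^ 2 / 64 by ring] at q2
      exact ⟨by linarith, by linarith⟩
  have t2 : g / b * D ^ 2 ≤ θ * E + N + e * κ * D ^ 2 / b / 16 := by
    rcases h2 with h2 | h2
    · linarith [y32 D0 N0 ε0 h2]
    · have : g / b * D ^ 2 ≤ e * κ / 16 / b * D ^ 2 := by gcongr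
      rw [show e * κ / 16 / b * D ^ 2 = e * κ * D ^ 2 / b / 16 by ring] at this
      linarith
  have t3 : lam * e * D / b * V ≤ e * κ * D ^ 2 / b / 64 + e * W / b / 32 := by
    have q1 : lam * e * D / b * V ≤ κ / 32 * e * D / b * V := by gcongr
    have q2 : e * κ / b * (D * V) ≤ e * κ / b * ((D ^ 2 + V ^ 2) / 2) :=
      mul_le_mul_of_nonneg_left (by linarith [two_mul_le_add_sq D V]) (by positivity)
    rw [show κ / 32 * e * D / b * V = e * κ / b * (D * V) / 32 by ring] at q1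
    rw [show e * κ / b * ((D ^ 2 + V ^ 2) / 2) =
      e * κ * D ^ 2 / b / 2 + e * κ / b * V ^ 2 / 2 by ring] at q2
    linarith
  have t4 := y3 D0 N0 ε0 h3
  have t5 : C * Lt * u1 * (y * D) ≤ θ * E + N := by
    have q : C * Lt * u1 * (y * D) ≤ C * Lt * u1 * ((y ^ 2 + D ^ 2) / 2) :=
      mul_le_mul_of_nonneg_left (by linarith [two_mul_le_add_sq y D]) (by positivity)
    linarith [y32 D0 N0 ε0 h4, y32 y0 N0 ε0 h4]
  have q2 : θ / (T + 1) * ι ^ 2 ≤ θ * E := by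
    refine (mul_le_mul_of_nonneg_left ι2 (by positivity)).trans_eq ?_
    field_simp
  have t6 : C * Lt ^ 2 * u1 * ι ≤ θ * E + N := by linarith [y2 ι0 N0 (by positivity) h7]
  have t7 : C * Lt * u1 * D * ι ≤ 2 * (θ * E) + N := by
    have q1 := y2 (a := C * Lt * u1 * D) (N := (C * Lt * u1) ^ 2 * (T + 1) / θ * D ^ 2)
      (ε := θ / (T + 1)) ι0 (by positivity) (by positivity) (le_of_eq (by field_simp))
    linarith [y32 D0 N0 ε0 h9]
  have s1' : s1 / b ≤ N := (div_le_div_of_nonneg_right S1 b0.le).trans S2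
  have Db : 0 ≤ Dh / b := by positivity
  have x2 : (η + g / b * D + β) * i2 ≤ (η' + g / b * D) * D :=
    mul_le_mul (by linarith) (by linarith) I2' (by positivity)
  have x4 : (η + (Gt + e1 * D) / b + C * (y + ι) * D + C * (u1 * Lt + ι) * Lt + β) * i4 ≤
      (η' + (Gt + e1 * D) / b + C * (y + ι) * D + C * (u1 * Lt + ι) * Lt) * (u1 * Lt) :=
    mul_le_mul (by linarith) I4 I4' (by positivity)
  have x4' : (η' + (Gt + e1 * D) / b + C * (y + ι) * D + C * (u1 * Lt + ι) * Lt) * (u1 * Lt) =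
      u1 * Lt * (η' + Gt / b) + u1 * Lt * e1 / b * D + C * Lt * u1 * (y * D) +
        C * Lt * u1 * D * ι + C * Lt ^ 2 * u1 * ι + C * Lt ^ 3 * u1 ^ 2 := by ring
  have x3 : (η + Dh / b + lam * e * D / b + β) * V = η' * V + lam * e * D / b * V := by
    rw [hη]; ring
  have x5 : e * κ * D ^ 2 / (2 * b) + e / (4 * b) * W =
      e * κ * D ^ 2 / b / 2 + e * W / b / 4 := by ring
  refine ⟨by linarith, ?_, by linarith⟩
  linarith [t1.1, t1.2]

namespace Pl

variable (h : Pl lb lh T b σ M P c0 η g Dh lam G0 Gt e e1 κ u1 hb)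
include h

theorem tail {U Lt r : ℝ} (hU : ∀ s, U ≤ s → lvr 1 lb s = 1) (L0 : 0 ≤ Lt)
    (hL' : U - max M σ ≤ Lt) (a : max (max M σ) P ≤ r) (c : r ≤ T) :
    ∫ s in r..T, |lvr 1 lb s - lvr 1 lh s| ≤ u1 * Lt := by
  have u0 : 0 ≤ u1 := le_trans (sub_nonneg.2 (Pp.Ode3.lvr_le_one h.okb.1 P)) h.last
  have Sr : max M σ ≤ r := (le_max_left _ _).trans a
  have σr : σ ≤ r := (le_max_right _ _).trans Sr
  have r0 : 0 ≤ r := h.σ0.trans σr
  have z : ∀ s, σ ≤ s → U ≤ s → |lvr 1 lb s - lvr 1 lh s| = 0 := fun s x y => by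
    rw [hU s y, h.top s x, sub_self, abs_zero]
  have w : ∀ s, r < s → |lvr 1 lb s - lvr 1 lh s| ≤ u1 := fun s x => by
    rw [(h.dtop (σr.trans x.le)).2]
    linarith [h.last, Sc48.lvr_mono h.okb.1 (((le_max_right _ P).trans a).trans x.le)]
  rcases le_total U r with x | x
  · rw [Cut8.int_zero c fun s y _ => z s (σr.trans y.le) (x.trans y.le)]
    positivity
  rcases le_total U T with y | y
  · rw [int_split h.ld.abs (b := U) ⟨r0, c⟩ ⟨r0.trans x, y⟩ ⟨r0.trans c, le_rfl⟩,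
      Cut8.int_zero y fun s y _ => z s (σr.trans (x.trans y.le)) y.le, add_zero]
    refine (int_le h.ld.abs r0 x y fun s y _ => w s y).trans ?_
    rw [mul_comm]
    exact mul_le_mul_of_nonneg_left (by linarith) u0
  · refine (int_le h.ld.abs r0 c le_rfl fun s y _ => w s y).trans ?_
    rw [mul_comm]
    exact mul_le_mul_of_nonneg_left (by linarith) u0

theorem r4U {C y ι U Lt : ℝ} (hU : ∀ s, U ≤ s → lvr 1 lb s = 1) (L0 : 0 ≤ Lt)
    (hL' : U - max M σ ≤ Lt) (hC : 0 ≤ C) (hL : Spl27.GLip T C)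
    (hy : ∀ s ∈ Icc 0 T, |Sc48.Jf lh lb T s| ≤ y) (hι : ι = ∫ s in (0:ℝ)..T, |Sc48.Jf lh lb T s|)
    {t : ℝ} (a : max (max M σ) P ≤ t) (c : t < T) (cU : t < U) :
    -(η + (Gt + e1 * (max M σ - M)) / b + C * (y + ι) * (max M σ - M) + C * (u1 * Lt + ι) * Lt) ≤
      Gam lb t - Gam lh t - c0 := by
  obtain ⟨-, -, -, -, -, -, e0, e10, -⟩ := h.nn
  obtain ⟨mP, a1, a2⟩ := h.atP
  have P0 := h.M0.trans h.MP
  have T0 := P0.trans h.PT
  have b0 := h.b0
  have D0 : 0 ≤ max M σ - M := sub_nonneg.2 (le_max_left _ _)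
  have ι0 : 0 ≤ ι := hι ▸ int_nn T0 fun _ => abs_nonneg _
  have y0 : 0 ≤ y := (abs_nonneg _).trans (hy 0 ⟨le_rfl, T0⟩)
  have u0 : 0 ≤ u1 := le_trans (sub_nonneg.2 (Pp.Ode3.lvr_le_one h.okb.1 P)) h.last
  set Q := max (max M σ) P with hQ
  have PQ : P ≤ Q := le_max_right _ _
  have σQ : σ ≤ Q := (le_max_right _ _).trans (le_max_left _ _)
  have QP : Q - P ≤ max M σ - M := by
    have := max_le (le_refl (max M σ)) (le_refl _)
    rcases le_total (max M σ) P with x | x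
    · rw [hQ, max_eq_right x]; linarith
    · rw [hQ, max_eq_left x]; linarith [h.MP]
  have m1 : σ - b * Gam lh σ ≤ P - b * Gam lh P + e1 * (max M σ - M) := by
    rcases le_total σ P with x | x
    · have := h.grow (.inr le_rfl) x h.PT
      nlinarith [mul_nonneg e0.le (sub_nonneg.2 x), mul_nonneg e10 D0]
    · have := Mh_le h.okh b0 P0 x (by rw [h.th]; exact h.σT) (e := e1)
        fun r hr => h.eup r ⟨h.MP.trans hr.1, hr.2⟩
      have := mul_le_mul_of_nonneg_left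
        (show σ - P ≤ max M σ - M by linarith [le_max_right M σ, h.MP]) e10
      linarith
  have s0 : -(η + (Gt + e1 * (max M σ - M)) / b) ≤ Gam lb P - Gam lh P - c0 := by
    have : (P - mP) / b + (Gt + e1 * (max M σ - M)) / b ≥ Gam lh P := by
      rw [← add_div, ge_iff_le, le_div_iff₀ b0]; linarith
    linarith
  have QT : Q ≤ T := a.trans c.le
  have s1 := (abs_le.1 (reg4 h.okh h.okb (j := C * (y + ι)) P0 PQ (by rw [h.th]; exact QT)
    (by rw [h.tb]; exact QT) fun r hr => by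
      have mr : r ∈ Icc 0 T := ⟨P0.trans hr.1, hr.2.le.trans QT⟩
      refine (hL lh lb h.okh h.okb h.th h.tb r mr).trans ?_
      rw [← hι]
      exact mul_le_mul_of_nonneg_left (by linarith [hy r mr]) hC)).1
  have s2 := (abs_le.1 (reg4 h.okh h.okb (j := C * (u1 * Lt + ι)) (P0.trans PQ) a
    (by rw [h.th]; exact c.le) (by rw [h.tb]; exact c.le) fun r hr => by
      have mr : r ∈ Icc 0 T := ⟨(P0.trans PQ).trans hr.1, hr.2.le.trans c.le⟩
      refine (hL lh lb h.okh h.okb h.th h.tb r mr).trans ?_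
      rw [← hι]
      have := (intervalIntegral.abs_integral_le_integral_abs mr.2).trans
        (h.tail hU L0 hL' hr.1 mr.2)
      exact mul_le_mul_of_nonneg_left (add_le_add this le_rfl) hC)).1
  have s3 := mul_le_mul_of_nonneg_left QP (show 0 ≤ C * (y + ι) by positivity)
  have s4 := mul_le_mul_of_nonneg_left (show t - Q ≤ Lt by linarith [le_max_left (max M σ) P])
    (show 0 ≤ C * (u1 * Lt + ι) by positivity)
  linarith

set_option maxHeartbeats 1600000 in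
/-- **the plateau part of the energy estimate**, `zb = 1` from `U` on, `U - max M σ ≤ Lt` -/
theorem resU {A C θ E N U Lt : ℝ} {H r1 r2 ω β ξ : ℝ → ℝ} (hU : ∀ s, U ≤ s → lvr 1 lb s = 1)
    (L0 : 0 ≤ Lt) (hL' : U - max M σ ≤ Lt) (hC : 0 ≤ C) (hL : Spl27.GLip T C)
    (R : Res T (fun t => lvr 1 lb t - lvr 1 lh t) (fun t => Gam lb t - Gam lh t) H r1 r2 ω β ξ A M)
    (hA : 0 ≤ A) (hAM : A ≤ M) (hc : r2 M = c0) (β0 : 0 ≤ β M)
    (hE : ∫ t in (0:ℝ)..T, Sc48.Jf lh lb T t ^ 2 ≤ E)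
    (n : PNU T Lt C b θ (η + β M + Dh / b) g G0 Gt e e1 κ u1 N) :
    ∃ (H' r1' r2' ω' β' ξ' : ℝ → ℝ) (Z : ℝ),
      Res T (fun t => lvr 1 lb t - lvr 1 lh t) (fun t => Gam lb t - Gam lh t)
        H' r1' r2' ω' β' ξ' A T ∧
      (∀ t, t < M → H' t = H t ∧ r1' t = r1 t ∧ r2' t = r2 t ∧ β' t = β t) ∧
      r2' M = r2 M ∧ β' M = β M ∧
      ∫ t in A..T, ω' t ^ 2 = ∫ t in A..M, ω t ^ 2 ∧
      ∫ t in A..T, H' t * (lvr 1 lb t - lvr 1 lh t) =
        (∫ t in A..M, H t * (lvr 1 lb t - lvr 1 lh t)) + Z ∧ 0 ≤ Z ∧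
      ∫ t in A..T, ξ' t ≤ (∫ t in A..M, ξ t) + 8 * θ * E + Z / 4 + 11 * N ∧
      e * κ * (max M σ - M) ^ 2 / (2 * b) + e / (4 * b) *
        (∫ t in max M σ..max (max M σ) P, (t - max M σ) * (1 - lvr 1 lb t)) ≤ Z + N := by
  obtain ⟨η0, g0, Dh0, l0, G00, Gt0, e0, e10, κ0, κ1⟩ := h.nn
  have b0 := h.b0
  have M0 := h.M0
  have MT := h.MP.trans h.PT
  have T0 := M0.trans MT
  have θ0 := n.θ0
  have N0 := n.N0
  have u0 : 0 ≤ u1 := le_trans (sub_nonneg.2 (Pp.Ode3.lvr_le_one h.okb.1 P)) h.last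
  have ld := h.ld
  have lΓ : LB T (Gam lh) := .of_cont (h.th ▸ (ode h.okh).1)
  have lM : LB T fun t => t - b * Gam lh t :=
    (LB.of_cont continuousOn_id).sub ((LB.const b).mul lΓ)
  have lJ : LB T (Sc48.Jf lh lb T) := .of_cont (ld.tail (right_mem_Icc.mpr T0))
  have E0 : 0 ≤ E := (int_nn T0 fun _ => sq_nonneg _).trans hE
  obtain ⟨y, y0, hy3⟩ : ∃ y : ℝ, 0 ≤ y ∧ y ^ 3 = 8 * E :=
    ⟨(8 * E) ^ (((3:ℕ):ℝ)⁻¹), by positivity, Real.rpow_inv_natCast_pow (by positivity) (by norm_num)⟩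
  have hy : ∀ s ∈ Icc 0 T, |Sc48.Jf lh lb T s| ≤ y := fun s hs => by
    have a := Jf_le (l := lh) (l' := lb) (u := 1) hs.2 fun r _ => h.d1 r
    have c := Lab36.sup_cube (zh := lvr 1 lh) (zb := lvr 1 lb) ld (fun t _ _ => h.d1 t) le_rfl
      le_rfl hs.1 hs.2 (.inr (by
        show s + |Sc48.Jf lh lb T s| / 2 ≤ T
        linarith [abs_nonneg (Sc48.Jf lh lb T s)]))
    refine le_of_pow_le_pow_left₀ (n := 3) (by norm_num) y0 (c.trans ?_)
    rw [hy3]
    exact mul_le_mul_of_nonneg_left hE (by norm_num)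
  set ι := ∫ s in (0:ℝ)..T, |Sc48.Jf lh lb T s| with hι
  have ι0 : 0 ≤ ι := int_nn T0 fun _ => abs_nonneg _
  have ι2 : ι ^ 2 ≤ (T + 1) * E := by
    have := Gap27.sq_int_le lJ le_rfl T0 le_rfl
    linarith [mul_le_mul_of_nonneg_left hE T0]
  have r2' := fun t => h.r2 (t := t)
  have r3' := fun t => h.r3 (t := t)
  have r4' := fun t => h.r4U hU L0 hL' hC hL hy hι (t := t)
  have tl := fun r => h.tail hU L0 hL' (r := r)
  have gw := fun s => h.grow' (s := s)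
  have st := h.stat
  have cS : max M σ - M = 0 ∨ (M < σ ∧ max M σ = σ) := by
    rcases le_or_gt σ M with x | x
    · exact .inl (by rw [max_eq_left x, sub_self])
    · exact .inr ⟨x, max_eq_right x.le⟩
  set S := max M σ with hS
  have MS : M ≤ S := le_max_left _ _
  have σS : σ ≤ S := le_max_right _ _
  have ST : S ≤ T := max_le MT h.σT
  set Q := max S P with hQ
  have SQ : S ≤ Q := le_max_left _ _
  have QT : Q ≤ T := max_le ST h.PT
  have S0 := M0.trans MS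
  have tP : ∀ t, S ≤ t → t < Q → t < P := fun t a c =>
    (lt_max_iff.1 c).resolve_left (not_lt.2 a)
  set D := S - M with hD
  have D0 : 0 ≤ D := sub_nonneg.2 MS
  have lh' : LB T fun t => hb t + lam * e * (t - S) := h.lhb.add (LB_lin T _ S)
  subst hc
  obtain ⟨H', r1', r2'', ω', β', ξ', R', c1, c2, c3, c4, c5, c6⟩ := res_top' (hm := hb M) R ld lΓ lh'
    b0 hA hAM MS SQ QT β0 (by positivity) (by positivity) (by positivity) r2'
    (fun t a c => ⟨(h.dtop (σS.trans a)).1, r3' t a (tP t a c)⟩)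
    (fun t a c => ⟨(h.dtop (σS.trans (SQ.trans a))).1, (le_or_gt U t).imp
      (fun x => by rw [hU t x, h.top t (σS.trans (SQ.trans a)), sub_self]) (r4' t a c)⟩)
  have eW : ∫ t in S..Q, (t - S) * (1 - lvr 1 lb t) =
      ∫ t in S..Q, (t - S) * |lvr 1 lb t - lvr 1 lh t| :=
    intervalIntegral.integral_congr_Ioo_of_le SQ fun t ht => by
      rw [(h.dtop (σS.trans ht.1.le)).2]
  rw [eW]
  have mS : S ∈ Icc 0 T := ⟨S0, ST⟩
  have mQ : Q ∈ Icc 0 T := ⟨S0.trans SQ, QT⟩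
  have mT : T ∈ Icc 0 T := ⟨T0, le_rfl⟩
  have bt := bath ld.abs S0 SQ QT (fun _ => abs_nonneg _) fun t _ _ => h.d1 t
  have I2 : ∫ t in M..S, |lvr 1 lb t - lvr 1 lh t| ≤ D * 1 :=
    int_le ld.abs M0 MS ST fun t _ _ => h.d1 t
  have I2' : 0 ≤ ∫ t in M..S, |lvr 1 lb t - lvr 1 lh t| := int_nn MS fun _ => abs_nonneg _
  have I4 : ∫ t in Q..T, |lvr 1 lb t - lvr 1 lh t| ≤ u1 * Lt := tl Q le_rfl QT
  have I4' : 0 ≤ ∫ t in Q..T, |lvr 1 lb t - lvr 1 lh t| := int_nn QT fun _ => abs_nonneg _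
  have V0 : 0 ≤ ∫ t in S..Q, |lvr 1 lb t - lvr 1 lh t| := int_nn SQ fun _ => abs_nonneg _
  have V1 : ∫ t in S..Q, |lvr 1 lb t - lvr 1 lh t| ≤ y := by
    have a := int_split ld.abs mS mQ mT
    have c : ∫ t in S..T, |lvr 1 lb t - lvr 1 lh t| = -Sc48.Jf lh lb T S := by
      unfold Sc48.Jf
      rw [← intervalIntegral.integral_neg]
      exact intervalIntegral.integral_congr_Ioo_of_le ST fun t ht =>
        abs_of_nonpos (h.dtop (σS.trans ht.1.le)).1
    linarith [neg_le_abs (Sc48.Jf lh lb T S), hy S mS]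
  have D3 : κ ^ 2 * D ^ 3 / 64 ≤ E := by
    rcases cS with x | ⟨-, x⟩
    · rw [x]; simpa using E0
    · have a := Lab36.gap_pos (zh := lvr 1 lh) (zb := lvr 1 lb) ld M0 D0 (by linarith) κ0.le
        fun t a c => h.gap t ⟨a.le, by linarith⟩
      have c := intervalIntegral.integral_mono_interval (μ := volume) (a := M) (b := M + D)
        (c := 0) (d := T) (f := fun t => Sc48.Jf lh lb T t ^ 2) M0 (by linarith) (by linarith)
        (Filter.Eventually.of_forall fun _ => sq_nonneg _) (lJ.sq.ii ⟨le_rfl, T0⟩ mT)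
      exact a.trans (c.trans hE)
  have Z2 : e * κ * D ^ 2 / 2 ≤
      ∫ t in M..S, (hb M - (t - b * Gam lh t)) * |lvr 1 lb t - lvr 1 lh t| := by
    rcases cS with x | ⟨x0, x⟩
    · rw [x, show S = M by linarith]; simp
    · have a := int_mono (LB_lin T (-(e * κ)) S) (((LB.const (hb M)).sub lM).mul ld.abs) M0 MS ST
        fun t a c => by
          have g1 := h.gap t ⟨a.le, by linarith⟩
          have g2 := h.grow (.inl a.le) (by linarith : t ≤ σ) h.σT
          have g3 := (h.atM x0).1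
          have g4 : e * (σ - t) ≤ hb M - (t - b * Gam lh t) := by linarith
          have g5 : 0 ≤ e * (σ - t) := mul_nonneg e0.le (by linarith)
          have := mul_le_mul g4 (g1.trans (le_abs_self _)) κ0.le (g5.trans g4)
          rw [x]
          linarith
      rw [int_lin] at a
      refine le_of_eq_of_le ?_ a
      rw [hD]; ring
  have lk : LB T fun t => hb t + lam * e * (t - S) - (t - b * Gam lh t) + e / 4 * (t - S) :=
    (lh'.sub lM).add (LB_lin T _ S)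
  have St := static_cost (e := e / 4) ld lk S0 SQ QT (by positivity) G00 (fun t _ _ => h.d1 t)
    fun t a c => by
      rw [(h.dtop (σS.trans a.le)).2]
      refine le_trans (mul_le_mul_of_nonneg_right ?_ (Real.sqrt_nonneg _)) (st t a (tP t a.le c))
      have g1 := gw t a.le (c.le.trans QT)
      have g2 : 0 ≤ e * (t - S) := mul_nonneg e0.le (by linarith)
      linarith [mul_le_mul_of_nonneg_right (h.lamκ.trans (by linarith : κ / 32 ≤ 1 / 2)) g2]
  have St' : (∫ t in S..Q, max (hb t + lam * e * (t - S) - (t - b * Gam lh t) + e / 4 * (t - S)) 0 *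
      |lvr 1 lb t - lvr 1 lh t|) / b ≤ N := by
    refine le_trans (div_le_div_of_nonneg_right (St.trans ?_) b0.le) n.h8
    have q0 := sub_nonneg.2 SQ
    rw [show 2 * G0 ^ 2 / (e / 4) = 8 * G0 ^ 2 / e by field_simp; ring]
    refine mul_le_mul_of_nonneg_left (Real.log_le_log (by positivity) ?_) (by positivity)
    have : e / 4 * (Q - S) ≤ e * T :=
      mul_le_mul (by linarith) (by linarith) q0 e0.le
    gcongr
  have lW : LB T fun t => (t - S) * |lvr 1 lb t - lvr 1 lh t| := by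
    simpa using (LB_lin T 1 S).mul ld.abs
  have l3 := (LB_max (lM.sub lh')).mul ld.abs
  have lk' := (LB_max lk).mul ld.abs
  have St1 := int_mono ((LB_max (lh'.sub lM)).mul ld.abs) lk' S0 SQ QT fun t a _ =>
    mul_le_mul_of_nonneg_right (max_le_max_right 0 (le_add_of_nonneg_right
      (mul_nonneg (by positivity) (by linarith)))) (abs_nonneg _)
  have Z3 := int_mono ((LB.const (e / 4)).mul lW) (l3.add lk') S0 SQ QT fun t _ _ => by
    rw [← add_mul, ← mul_assoc]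
    refine mul_le_mul_of_nonneg_right ?_ (abs_nonneg _)
    linarith [le_max_left (t - b * Gam lh t - (hb t + lam * e * (t - S))) 0, le_max_left
      (hb t + lam * e * (t - S) - (t - b * Gam lh t) + e / 4 * (t - S)) 0]
  rw [intervalIntegral.integral_add (l3.ii mS mQ) (lk'.ii mS mQ),
    intervalIntegral.integral_const_mul] at Z3
  have Z30 : 0 ≤ ∫ t in S..Q, max (t - b * Gam lh t - (hb t + lam * e * (t - S))) 0 *
      |lvr 1 lb t - lvr 1 lh t| := int_nn SQ fun _ => by positivity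
  refine ⟨H', r1', r2'', ω', β', ξ', _, R', c1, c2, c3, c4, c6, ?_⟩
  rw [c5]
  generalize (∫ t in M..S, (hb M - (t - b * Gam lh t)) * |lvr 1 lb t - lvr 1 lh t|) = z2 at *
  generalize (∫ t in S..Q, max (t - b * Gam lh t - (hb t + lam * e * (t - S))) 0 *
    |lvr 1 lb t - lvr 1 lh t|) = z3 at *
  generalize (∫ t in S..Q, max (hb t + lam * e * (t - S) - (t - b * Gam lh t) + e / 4 * (t - S)) 0 *
    |lvr 1 lb t - lvr 1 lh t|) = s2 at *
  generalize (∫ t in S..Q, max (hb t + lam * e * (t - S) - (t - b * Gam lh t)) 0 *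
    |lvr 1 lb t - lvr 1 lh t|) = s1 at *
  generalize (∫ t in S..Q, (t - S) * |lvr 1 lb t - lvr 1 lh t|) = W at *
  generalize (∫ t in S..Q, |lvr 1 lb t - lvr 1 lh t|) = V at *
  generalize (∫ t in M..S, |lvr 1 lb t - lvr 1 lh t|) = i2 at *
  generalize (∫ t in Q..T, |lvr 1 lb t - lvr 1 lh t|) = i4 at *
  exact finU n hC b0 T0 L0 η0 β0 g0 Dh0 h.lamκ Gt0 e0 e10 κ0 κ1 u0 E0 D0 y0 hy3 ι0 ι2
    D3 V0 V1 bt I2 I2' I4 I4' Z2 Z3 Z30 St1 St'

end Pl

end

end Crest.Agent.T156.Pr.Reg48
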