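import Crest.Agent.T156.PlatL_48

/-!
Row 156 (helper48): the plateau part of the energy estimate, cubic form of the static cost, and
marks that rise by `G1 / √ρ` over a gap.
-/

set_option autoImplicit false

namespace Crest.Agent.T156.Pr.Reg48

open MeasureTheory Set
open Crest.Agent.R164.GC Crest.Agent.R339.B Crest.Agent.R339.Var Crest.Agent.T157.Pf
open Crest.Agent.T156.Cut8 (LB Res int_mono int_split Ext)

noncomputable section

/-- cost of static marks `≤ G0 / √u` against the growth `c (t - S)²` -/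
theorem static_cub {T S P c G0 N : ℝ} {dz k : ℝ → ℝ} (ld : LB T dz) (lk : LB T k) (hS : 0 ≤ S)
    (hSP : S ≤ P) (hP : P ≤ T) (hc : 0 < c) (hG : 0 < G0) (hN : 0 ≤ N)
    (hh : 16 * G0 ^ 3 ≤ c * N ^ 2) (h1 : ∀ t, S < t → t < P → |dz t| ≤ 1)
    (h : ∀ t, S < t → t < P → (k t + c * (t - S) ^ 2) * √|dz t| ≤ G0) :
    ∫ t in S..P, max (k t) 0 * |dz t| ≤ N := by
  obtain ⟨a, a0, rfl⟩ : ∃ a, 0 < a ∧ c = a ^ 2 :=
    ⟨√c, Real.sqrt_pos.2 hc, (Real.sq_sqrt hc.le).symm⟩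
  obtain ⟨w, w0, rfl⟩ : ∃ w, 0 < w ∧ G0 = w ^ 2 :=
    ⟨√G0, Real.sqrt_pos.2 hG, (Real.sq_sqrt hG.le).symm⟩
  have hN' : 4 * w ^ 3 ≤ a * N :=
    le_of_pow_le_pow_left₀ (n := 2) (by norm_num) (by positivity)
      (by rw [mul_pow, mul_pow]; linarith)
  have pos : ∀ t ∈ uIcc S P, 0 < a * (t - S) + w := fun t ht => by
    rw [uIcc_of_le hSP] at ht
    have := sub_nonneg.2 ht.1
    positivity
  have cont : ContinuousOn (fun t => 4 * w ^ 4 / (a * (t - S) + w) ^ 2) (uIcc S P) :=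
    continuousOn_const.div (by fun_prop) fun t ht => (pow_pos (pos t ht) 2).ne'
  have e1 : ∫ t in S..P, 4 * w ^ 4 / (a * (t - S) + w) ^ 2 =
      -(4 * w ^ 4 / a) * (a * (P - S) + w)⁻¹ - -(4 * w ^ 4 / a) * (a * (S - S) + w)⁻¹ :=
    intervalIntegral.integral_eq_sub_of_hasDerivAt
      (f := fun t => -(4 * w ^ 4 / a) * (a * (t - S) + w)⁻¹) (fun t ht => by
        have x := ((((hasDerivAt_id t).sub_const S).const_mul a).add_const w).inv (pos t ht).ne'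
        refine (x.const_mul _).congr_deriv ?_
        have := (pos t ht).ne'
        simp only [id]
        field_simp) cont.intervalIntegrable
  have p2 := pos P right_mem_uIcc
  have e2 : ∫ t in S..P, 4 * w ^ 4 / (a * (t - S) + w) ^ 2 ≤ N := by
    rw [e1, sub_self, mul_zero, zero_add]
    have x1 : 0 ≤ 4 * w ^ 4 / a * (a * (P - S) + w)⁻¹ := by positivity
    have x2 : 4 * w ^ 4 / a * w⁻¹ ≤ N := by
      rw [show 4 * w ^ 4 / a * w⁻¹ = 4 * w ^ 3 / a by field_simp, div_le_iff₀ a0]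
      linarith
    linarith
  refine le_trans (intervalIntegral.integral_mono_on_of_le_Ioo hSP
    (((LB_max lk).mul ld.abs).ii ⟨hS, hSP.trans hP⟩ ⟨hS.trans hSP, hP⟩) cont.intervalIntegrable
    fun t ht => ?_) e2
  have p1 := pos t (by rw [uIcc_of_le hSP]; exact Ioo_subset_Icc_self ht)
  rcases le_total (k t) 0 with x | x
  · rw [max_eq_right x, zero_mul]; positivity
  · rw [max_eq_left x, le_div_iff₀ (pow_pos p1 2)]
    have y := h t ht.1 ht.2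
    have r0 := Real.sqrt_nonneg |dz t|
    have r1 : √|dz t| ≤ 1 := Real.sqrt_le_one.2 (h1 t ht.1 ht.2)
    have r2 : |dz t| = √|dz t| * √|dz t| := (Real.mul_self_sqrt (abs_nonneg _)).symm
    set r := √|dz t|
    have s0 : 0 ≤ a ^ 2 * (t - S) ^ 2 := by positivity
    have b1 : k t * r ≤ w ^ 2 := by nlinarith [mul_nonneg s0 r0]
    have b2 : r * (a ^ 2 * (t - S) ^ 2 + w ^ 2) ≤ 2 * w ^ 2 := by
      nlinarith [mul_nonneg x r0, mul_le_mul_of_nonneg_right r1 (sq_nonneg w)]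
    have b4 : r * (a * (t - S) + w) ^ 2 ≤ 4 * w ^ 2 := by
      have : (a * (t - S) + w) ^ 2 ≤ 2 * (a ^ 2 * (t - S) ^ 2 + w ^ 2) := by
        nlinarith [sq_nonneg (a * (t - S) - w)]
      nlinarith [mul_le_mul_of_nonneg_left this r0]
    have b3 := mul_le_mul b1 b4 (by positivity) (sq_nonneg w)
    rw [r2]
    nlinarith

/-- `PNU` with the cubic alternative for the static cost -/
structure PNC (T Lt C b c θ η' g G0 Gt e e1 κ u1 N : ℝ) : Prop where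
  θ0 : 0 < θ
  N0 : 0 ≤ N
  h1 : η' ^ 3 ≤ θ * κ ^ 2 / 64 * N ^ 2 ∨ η' ^ 2 ≤ e * κ / (64 * b) * N
  h2 : (g / b) ^ 3 ≤ (θ * κ ^ 2 / 64) ^ 2 * N ∨ g ≤ e * κ / 16
  h3 : (u1 * Lt * e1 / b) ^ 3 ≤ θ * κ ^ 2 / 64 * N ^ 2
  h4 : (C * Lt * u1) ^ 3 ≤ (θ * κ ^ 2 / 64) ^ 2 * N
  h5 : u1 * Lt * (η' + Gt / b) ≤ N
  h6 : C * Lt ^ 3 * u1 ^ 2 ≤ N
  h7 : (C * Lt ^ 2 * u1) ^ 2 ≤ θ / (T + 1) * N
  h9 : ((C * Lt * u1) ^ 2 * (T + 1) / θ) ^ 3 ≤ (θ * κ ^ 2 / 64) ^ 2 * N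
  h8 : 8 * G0 ^ 2 / e * Real.log (1 + e * T / G0) / b ≤ N ∨ 64 * G0 ^ 3 ≤ c * b ^ 3 * N ^ 2

theorem PNC.toU {T Lt C b c θ η' g G0 Gt e e1 κ u1 N : ℝ}
    (n : PNC T Lt C b c θ η' g G0 Gt e e1 κ u1 N) : PNU T Lt C b θ η' g 0 Gt e e1 κ u1 N :=
  ⟨n.θ0, n.N0, n.h1, n.h2, n.h3, n.h4, n.h5, n.h6, n.h7, n.h9, by simpa using n.N0⟩

variable {lb lh : List (ℝ × ℝ)} {T b σ M P c0 η g Dh lam G0 G1 u2 Gt e e1 κ u1 : ℝ} {hb : ℝ → ℝ}

/-- `Pl` with marks that may rise by `G1 / √ρ` over a gap -/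
structure PlG (lb lh : List (ℝ × ℝ)) (T b σ M P c0 η g Dh lam G0 G1 u2 Gt e e1 κ u1 : ℝ)
    (hb : ℝ → ℝ) : Prop where
  okb : Ok lb
  okh : Ok lh
  tb : TT lb = T
  th : TT lh = T
  b0 : 0 < b
  σ0 : 0 ≤ σ
  σT : σ ≤ T
  M0 : 0 ≤ M
  MP : M ≤ P
  PT : P ≤ T
  nn : 0 ≤ η ∧ 0 ≤ g ∧ 0 ≤ Dh ∧ 0 ≤ lam ∧ 0 < G0 ∧ 0 ≤ Gt ∧ 0 < e ∧ 0 ≤ e1 ∧ 0 < κ ∧ κ ≤ 1
  G10 : 0 ≤ G1
  u20 : 0 < u2
  lamκ : lam ≤ κ / 32
  lhb : LB T hb
  top : ∀ s, σ ≤ s → lvr 1 lh s = 1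
  conc : ∀ r ∈ Ico M T, Gd lb r ≤ 0
  gap : ∀ t ∈ Ico M σ, κ ≤ lvr 1 lb t - lvr 1 lh t
  elo : ∀ r, M ≤ r ∨ σ ≤ r → r < T → e ≤ 1 - b * GG lh r
  eup : ∀ r ∈ Ico M σ, 1 - b * GG lh r ≤ e1
  atM : M < σ → σ - b * Gam lh σ ≤ hb M ∧ Gam lb M - (M - hb M) / b - c0 ≤ η ∧
    b * GG lb M ≤ 1 + g
  net : ∀ t ∈ Ico (max M σ) P, ∃ p q mp mq : ℝ, M ≤ p ∧ p ≤ t ∧ t ≤ q ∧ q ≤ T ∧ mp ≤ hb t ∧
    mq - mp ≤ Dh + G1 / √(max (1 - lvr 1 lb t) u2) + lam * e * (q - p) ∧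
    -η ≤ Gam lb p - (p - mp) / b - c0 ∧ -η ≤ Gam lb q - (q - mq) / b - c0
  atP : ∃ mP : ℝ, -η ≤ Gam lb P - (P - mP) / b - c0 ∧ mP - (σ - b * Gam lh σ) ≤ Gt
  last : 1 - lvr 1 lb P ≤ u1
  stat : ∀ t, max M σ < t → t < P → (hb t - (σ - b * Gam lh σ)) * √(1 - lvr 1 lb t) ≤ G0

theorem PlG.pl (h : PlG lb lh T b σ M P c0 η g Dh lam G0 G1 u2 Gt e e1 κ u1 hb) :
    Pl lb lh T b σ M P c0 η g Dh lam (G0 + G1) Gt e e1 κ u1 fun t =>
      hb t + if t < max M σ then 0 else G1 / √(max (1 - lvr 1 lb t) u2) := by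
  obtain ⟨n1, n2, n3, n4, n5, n6⟩ := h.nn
  have G10 := h.G10
  have pos : ∀ t, 0 < √(max (1 - lvr 1 lb t) u2) := fun t =>
    Real.sqrt_pos.2 (h.u20.trans_le (le_max_right _ _))
  refine ⟨h.okb, h.okh, h.tb, h.th, h.b0, h.σ0, h.σT, h.M0, h.MP, h.PT,
    ⟨n1, n2, n3, n4, by linarith, n6⟩, h.lamκ, h.lhb.add (LB_ite (LB.const 0) (.of_mono
      fun x y hxy => div_le_div_of_nonneg_left G10 (pos y) (Real.sqrt_le_sqrt (max_le_max_right _
        (sub_le_sub_left (Sc48.lvr_mono h.okb.1 hxy) 1))))), h.top, h.conc, h.gap, h.elo, h.eup,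
    fun x => ?_, fun t ht => ?_, h.atP, h.last, fun t a c => ?_⟩
  · rw [if_pos (x.trans_le (le_max_right _ _)), add_zero]
    exact h.atM x
  · obtain ⟨p, q, mp, mq, a1, a2, a3, a4, a5, a6, a7, a8⟩ := h.net t ht
    refine ⟨p, q, mp + G1 / √(max (1 - lvr 1 lb t) u2), mq, a1, a2, a3, a4, ?_, by linarith,
      a7.trans ?_, a8⟩
    · rw [if_neg (not_lt.2 ht.1)]; linarith
    · have : 0 ≤ G1 / √(max (1 - lvr 1 lb t) u2) := (div_nonneg G10 (pos t).le)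
      have := div_le_div_of_nonneg_right
        (show p - (mp + G1 / √(max (1 - lvr 1 lb t) u2)) ≤ p - mp by linarith) h.b0.le
      linarith
  · rw [if_neg (not_lt.2 a.le)]
    have x : G1 / √(max (1 - lvr 1 lb t) u2) * √(1 - lvr 1 lb t) ≤ G1 := by
      rw [div_mul_eq_mul_div, div_le_iff₀ (pos t)]
      exact mul_le_mul_of_nonneg_left (Real.sqrt_le_sqrt (le_max_left _ _)) G10
    have := h.stat t a c
    rw [add_sub_right_comm, add_mul]
    linarith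

namespace Pl

variable (h : Pl lb lh T b σ M P c0 η g Dh lam G0 Gt e e1 κ u1 hb)
include h

theorem growq {c s : ℝ} (hc : 0 ≤ c) (hq : ∀ r, σ ≤ r → r < T → Gd lh r ≤ -c) (hs : max M σ ≤ s)
    (hT : s ≤ T) :
    σ - b * Gam lh σ + e * (s - max M σ) + b * c / 2 * (s - max M σ) ^ 2 ≤ s - b * Gam lh s := by
  have σS : σ ≤ max M σ := le_max_right _ _
  have b0 := h.b0
  rcases h.σT.eq_or_lt with x | x
  · have e1 : s = σ := le_antisymm (x ▸ hT) (σS.trans hs)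
    have e2 : max M σ = σ := le_antisymm (e1 ▸ hs) σS
    rw [e2, e1]; simp
  have a := Gam_up h.okh h.σ0 (σS.trans hs) (by rw [h.th]; exact hT) (K := -c)
    fun r hr => hq r hr.1 (hr.2.trans_le hT)
  have a1 := mul_le_mul_of_nonneg_left a b0.le
  have a2 := mul_le_mul_of_nonneg_right (h.elo σ (.inr le_rfl) x) (sub_nonneg.2 (σS.trans hs))
  have a3 := mul_le_mul_of_nonneg_left (sub_le_sub_left σS s) h.nn.2.2.2.2.2.2.1.le
  have a4 := mul_le_mul_of_nonneg_left (pow_le_pow_left₀ (sub_nonneg.2 hs) (sub_le_sub_left σS s) 2)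
    (show 0 ≤ b * c / 2 by positivity)
  nlinarith

set_option maxHeartbeats 1600000 in
/-- **the plateau part of the energy estimate**, local energy, `zb = 1` from `U` on, `U - max M σ ≤ Lt` -/
theorem resC {A A0 c C θ E N U Lt : ℝ} {H r1 r2 ω β ξ : ℝ → ℝ} (hU : ∀ s, U ≤ s → lvr 1 lb s = 1)
    (L0 : 0 ≤ Lt) (hL' : U - max M σ ≤ Lt) (hC : 0 ≤ C) (hL : Spl27.GLip T C)
    (R : Res T (fun t => lvr 1 lb t - lvr 1 lh t) (fun t => Gam lb t - Gam lh t) H r1 r2 ω β ξ A M)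
    (hA : 0 ≤ A) (hAM : A ≤ M) (hc : r2 M = c0) (β0 : 0 ≤ β M)
    (hA0 : 0 ≤ A0) (hA0M : A0 ≤ M)
    (hE : (∫ t in A0..T, Sc48.Jf lh lb T t ^ 2) + (∫ t in (0:ℝ)..A0, |Sc48.Jf lh lb T t|) ^ 2 ≤ E)
    (c0' : 0 < c) (hq : ∀ r, σ ≤ r → r < T → Gd lh r ≤ -c)
    (n : PNC T Lt C b c θ (η + β M + Dh / b) g G0 Gt e e1 κ u1 N) :
    ∃ (H' r1' r2' ω' β' ξ' : ℝ → ℝ) (Z : ℝ),
      Res T (fun t => lvr 1 lb t - lvr 1 lh t) (fun t => Gam lb t - Gam lh t)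
        H' r1' r2' ω' β' ξ' A T ∧
      (∀ t, t < M → H' t = H t ∧ r1' t = r1 t ∧ r2' t = r2 t ∧ β' t = β t) ∧
      r2' M = r2 M ∧ β' M = β M ∧
      ∫ t in A..T, ω' t ^ 2 = ∫ t in A..M, ω t ^ 2 ∧
      ∫ t in A..T, H' t * (lvr 1 lb t - lvr 1 lh t) =
        (∫ t in A..M, H t * (lvr 1 lb t - lvr 1 lh t)) + Z ∧ 0 ≤ Z ∧
      ∫ t in A..T, ξ' t ≤ (∫ t in A..M, ξ t) + 8 * θ * E + Z / 4 + 11 * N ∧
      e * κ * (max M σ - M) ^ 2 / (2 * b) + e / (4 * b) *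
        (∫ t in max M σ..max (max M σ) P, (t - max M σ) * (1 - lvr 1 lb t)) +
        c / 4 * (∫ t in max M σ..max (max M σ) P, (t - max M σ) ^ 2 * (1 - lvr 1 lb t)) ≤
        Z + N := by
  obtain ⟨η0, g0, Dh0, l0, G00, Gt0, e0, e10, κ0, κ1⟩ := h.nn
  have b0 := h.b0
  have M0 := h.M0
  have MT := h.MP.trans h.PT
  have T0 := M0.trans MT
  have θ0 := n.θ0
  have N0 := n.N0
  have u0 : 0 ≤ u1 := le_trans (sub_nonneg.2 (Pp.Ode3.lvr_le_one h.okb.1 P)) h.last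
  have ld := h.ld
  have lΓ : LB T (Gam lh) := .of_cont (h.th ▸ (ode h.okh).1)
  have lM : LB T fun t => t - b * Gam lh t :=
    (LB.of_cont continuousOn_id).sub ((LB.const b).mul lΓ)
  have lJ : LB T (Sc48.Jf lh lb T) := .of_cont (ld.tail (right_mem_Icc.mpr T0))
  have AT := hA0M.trans MT
  have ι2 := iota_loc lJ hA0 AT hE
  replace hE : ∫ t in A0..T, Sc48.Jf lh lb T t ^ 2 ≤ E := (le_add_of_nonneg_right (sq_nonneg _)).trans hE
  have E0 : 0 ≤ E := (int_nn AT fun _ => sq_nonneg _).trans hE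
  obtain ⟨y, y0, hy3⟩ : ∃ y : ℝ, 0 ≤ y ∧ y ^ 3 = 8 * E :=
    ⟨(8 * E) ^ (((3:ℕ):ℝ)⁻¹), by positivity, Real.rpow_inv_natCast_pow (by positivity) (by norm_num)⟩
  have hy : ∀ s ∈ Icc M T, |Sc48.Jf lh lb T s| ≤ y := fun s hs => by
    have a := Jf_le (l := lh) (l' := lb) (u := 1) hs.2 fun r _ => h.d1 r
    have c := Lab36.sup_cube (zh := lvr 1 lh) (zb := lvr 1 lb) ld (fun t _ _ => h.d1 t) hA0
      le_rfl (hA0M.trans hs.1) hs.2 (.inr (by
        show s + |Sc48.Jf lh lb T s| / 2 ≤ T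
        linarith [abs_nonneg (Sc48.Jf lh lb T s)]))
    refine le_of_pow_le_pow_left₀ (n := 3) (by norm_num) y0 (c.trans ?_)
    rw [hy3]
    exact mul_le_mul_of_nonneg_left hE (by norm_num)
  set ι := ∫ s in (0:ℝ)..T, |Sc48.Jf lh lb T s| with hι
  have ι0 : 0 ≤ ι := int_nn T0 fun _ => abs_nonneg _
  have r2' := fun t => h.r2 (t := t)
  have r3' := fun t => h.r3 (t := t)
  have r4' := fun t => h.r4UL hU L0 hL' hC hL hy hι (t := t)
  have tl := fun r => h.tail hU L0 hL' (r := r)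
  have gw := fun s => h.growq c0'.le hq (s := s)
  have st := h.stat
  have cS : max M σ - M = 0 ∨ (M < σ ∧ max M σ = σ) := by
    rcases le_or_gt σ M with x | x
    · exact .inl (by rw [max_eq_left x, sub_self])
    · exact .inr ⟨x, max_eq_right x.le⟩
  set S := max M σ with hS
  have MS : M ≤ S := le_max_left _ _
  have σS : σ ≤ S := le_max_right _ _
  have ST : S ≤ T := max_le MT h.σT
  set Q := max S P with hQ
  have SQ : S ≤ Q := le_max_left _ _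
  have QT : Q ≤ T := max_le ST h.PT
  have S0 := M0.trans MS
  have tP : ∀ t, S ≤ t → t < Q → t < P := fun t a c =>
    (lt_max_iff.1 c).resolve_left (not_lt.2 a)
  set D := S - M with hD
  have D0 : 0 ≤ D := sub_nonneg.2 MS
  have lh' : LB T fun t => hb t + lam * e * (t - S) := h.lhb.add (LB_lin T _ S)
  subst hc
  obtain ⟨H', r1', r2'', ω', β', ξ', R', c1, c2, c3, c4, c5, c6⟩ := res_top' (hm := hb M) R ld lΓ lh'
    b0 hA hAM MS SQ QT β0 (by positivity) (by positivity) (by positivity) r2'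
    (fun t a c => ⟨(h.dtop (σS.trans a)).1, r3' t a (tP t a c)⟩)
    (fun t a c => ⟨(h.dtop (σS.trans (SQ.trans a))).1, (le_or_gt U t).imp
      (fun x => by rw [hU t x, h.top t (σS.trans (SQ.trans a)), sub_self]) (r4' t a c)⟩)
  have eW : ∫ t in S..Q, (t - S) * (1 - lvr 1 lb t) =
      ∫ t in S..Q, (t - S) * |lvr 1 lb t - lvr 1 lh t| :=
    intervalIntegral.integral_congr_Ioo_of_le SQ fun t ht => by
      rw [(h.dtop (σS.trans ht.1.le)).2]
  have eW2 : ∫ t in S..Q, (t - S) ^ 2 * (1 - lvr 1 lb t) =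
      ∫ t in S..Q, (t - S) ^ 2 * |lvr 1 lb t - lvr 1 lh t| :=
    intervalIntegral.integral_congr_Ioo_of_le SQ fun t ht => by
      rw [(h.dtop (σS.trans ht.1.le)).2]
  rw [eW, eW2]
  have mS : S ∈ Icc 0 T := ⟨S0, ST⟩
  have mQ : Q ∈ Icc 0 T := ⟨S0.trans SQ, QT⟩
  have mT : T ∈ Icc 0 T := ⟨T0, le_rfl⟩
  have bt := bath ld.abs S0 SQ QT (fun _ => abs_nonneg _) fun t _ _ => h.d1 t
  have I2 : ∫ t in M..S, |lvr 1 lb t - lvr 1 lh t| ≤ D * 1 :=
    int_le ld.abs M0 MS ST fun t _ _ => h.d1 t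
  have I2' : 0 ≤ ∫ t in M..S, |lvr 1 lb t - lvr 1 lh t| := int_nn MS fun _ => abs_nonneg _
  have I4 : ∫ t in Q..T, |lvr 1 lb t - lvr 1 lh t| ≤ u1 * Lt := tl Q le_rfl QT
  have I4' : 0 ≤ ∫ t in Q..T, |lvr 1 lb t - lvr 1 lh t| := int_nn QT fun _ => abs_nonneg _
  have V0 : 0 ≤ ∫ t in S..Q, |lvr 1 lb t - lvr 1 lh t| := int_nn SQ fun _ => abs_nonneg _
  have V1 : ∫ t in S..Q, |lvr 1 lb t - lvr 1 lh t| ≤ y := by
    have a := int_split ld.abs mS mQ mT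
    have c : ∫ t in S..T, |lvr 1 lb t - lvr 1 lh t| = -Sc48.Jf lh lb T S := by
      unfold Sc48.Jf
      rw [← intervalIntegral.integral_neg]
      exact intervalIntegral.integral_congr_Ioo_of_le ST fun t ht =>
        abs_of_nonpos (h.dtop (σS.trans ht.1.le)).1
    linarith [neg_le_abs (Sc48.Jf lh lb T S), hy S ⟨MS, ST⟩]
  have D3 : κ ^ 2 * D ^ 3 / 64 ≤ E := by
    rcases cS with x | ⟨-, x⟩
    · rw [x]; simpa using E0
    · have a := Lab36.gap_pos (zh := lvr 1 lh) (zb := lvr 1 lb) ld M0 D0 (by linarith) κ0.le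
        fun t a c => h.gap t ⟨a.le, by linarith⟩
      have c := intervalIntegral.integral_mono_interval (μ := volume) (a := M) (b := M + D)
        (c := A0) (d := T) (f := fun t => Sc48.Jf lh lb T t ^ 2) hA0M (by linarith) (by linarith)
        (Filter.Eventually.of_forall fun _ => sq_nonneg _) (lJ.sq.ii ⟨hA0, AT⟩ mT)
      exact a.trans (c.trans hE)
  have Z2 : e * κ * D ^ 2 / 2 ≤
      ∫ t in M..S, (hb M - (t - b * Gam lh t)) * |lvr 1 lb t - lvr 1 lh t| := by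
    rcases cS with x | ⟨x0, x⟩
    · rw [x, show S = M by linarith]; simp
    · have a := int_mono (LB_lin T (-(e * κ)) S) (((LB.const (hb M)).sub lM).mul ld.abs) M0 MS ST
        fun t a c => by
          have g1 := h.gap t ⟨a.le, by linarith⟩
          have g2 := h.grow (.inl a.le) (by linarith : t ≤ σ) h.σT
          have g3 := (h.atM x0).1
          have g4 : e * (σ - t) ≤ hb M - (t - b * Gam lh t) := by linarith
          have g5 : 0 ≤ e * (σ - t) := mul_nonneg e0.le (by linarith)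
          have := mul_le_mul g4 (g1.trans (le_abs_self _)) κ0.le (g5.trans g4)
          rw [x]
          linarith
      rw [int_lin] at a
      refine le_of_eq_of_le ?_ a
      rw [hD]; ring
  have lq : LB T fun t => b * c / 4 * (t - S) ^ 2 := .of_cont (by fun_prop)
  have lk : LB T fun t => hb t + lam * e * (t - S) - (t - b * Gam lh t) +
      (e / 4 * (t - S) + b * c / 4 * (t - S) ^ 2) := (lh'.sub lM).add ((LB_lin T _ S).add lq)
  have key : ∀ t, S < t → t < Q → (hb t + lam * e * (t - S) - (t - b * Gam lh t) +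
      (e / 4 * (t - S) + b * c / 4 * (t - S) ^ 2) + (e / 4 * (t - S) + b * c / 4 * (t - S) ^ 2)) *
      √|lvr 1 lb t - lvr 1 lh t| ≤ G0 := fun t a c => by
    rw [(h.dtop (σS.trans a.le)).2]
    refine le_trans (mul_le_mul_of_nonneg_right ?_ (Real.sqrt_nonneg _)) (st t a (tP t a.le c))
    have g1 := gw t a.le (c.le.trans QT)
    have g2 : 0 ≤ e * (t - S) := mul_nonneg e0.le (by linarith)
    linarith [mul_le_mul_of_nonneg_right (h.lamκ.trans (by linarith : κ / 32 ≤ 1 / 2)) g2]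
  have St' : (∫ t in S..Q, max (hb t + lam * e * (t - S) - (t - b * Gam lh t) +
      (e / 4 * (t - S) + b * c / 4 * (t - S) ^ 2)) 0 * |lvr 1 lb t - lvr 1 lh t|) / b ≤ N := by
    rcases n.h8 with h8 | h8
    · have St := static_cost (e := e / 4) ld lk S0 SQ QT (by positivity) G00 (fun t _ _ => h.d1 t)
        fun t a c => le_trans (mul_le_mul_of_nonneg_right (add_le_add le_rfl
          (le_add_of_nonneg_right (by positivity))) (Real.sqrt_nonneg _)) (key t a c)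
      refine le_trans (div_le_div_of_nonneg_right (St.trans ?_) b0.le) h8
      have q0 := sub_nonneg.2 SQ
      rw [show 2 * G0 ^ 2 / (e / 4) = 8 * G0 ^ 2 / e by field_simp; ring]
      refine mul_le_mul_of_nonneg_left (Real.log_le_log (by positivity) ?_) (by positivity)
      have : e / 4 * (Q - S) ≤ e * T :=
        mul_le_mul (by linarith) (by linarith) q0 e0.le
      gcongr
    · have St := static_cub (c := b * c / 4) (N := b * N) ld lk S0 SQ QT (by positivity) G00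
        (by positivity) (by rw [mul_pow]; linarith) (fun t _ _ => h.d1 t)
        fun t a c => le_trans (mul_le_mul_of_nonneg_right (add_le_add le_rfl
          (le_add_of_nonneg_left (mul_nonneg (by positivity) (by linarith))))
            (Real.sqrt_nonneg _)) (key t a c)
      rw [div_le_iff₀ b0]
      linarith
  have lW : LB T fun t => (t - S) * |lvr 1 lb t - lvr 1 lh t| := by
    simpa using (LB_lin T 1 S).mul ld.abs
  have lW2 : LB T fun t => (t - S) ^ 2 * |lvr 1 lb t - lvr 1 lh t| :=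
    (LB.of_cont (by fun_prop)).mul ld.abs
  have l3 := (LB_max (lM.sub lh')).mul ld.abs
  have lk' := (LB_max lk).mul ld.abs
  have St1 := int_mono ((LB_max (lh'.sub lM)).mul ld.abs) lk' S0 SQ QT fun t a _ =>
    mul_le_mul_of_nonneg_right (max_le_max_right 0 (le_add_of_nonneg_right
      (add_nonneg (mul_nonneg (by positivity) (by linarith)) (by positivity)))) (abs_nonneg _)
  have l4 := (LB.const (e / 4)).mul lW
  have l5 := (LB.const (b * c / 4)).mul lW2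
  have Z4 := int_mono (l4.add l5) (l3.add lk') S0 SQ QT fun t _ _ => by
    rw [← add_mul, ← mul_assoc, ← mul_assoc (b * c / 4), ← add_mul]
    refine mul_le_mul_of_nonneg_right ?_ (abs_nonneg _)
    linarith [le_max_left (t - b * Gam lh t - (hb t + lam * e * (t - S))) 0, le_max_left
      (hb t + lam * e * (t - S) - (t - b * Gam lh t) +
        (e / 4 * (t - S) + b * c / 4 * (t - S) ^ 2)) 0]
  rw [intervalIntegral.integral_add (l3.ii mS mQ) (lk'.ii mS mQ),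
    intervalIntegral.integral_add (l4.ii mS mQ) (l5.ii mS mQ),
    intervalIntegral.integral_const_mul, intervalIntegral.integral_const_mul] at Z4
  have W20 : 0 ≤ ∫ t in S..Q, (t - S) ^ 2 * |lvr 1 lb t - lvr 1 lh t| :=
    int_nn SQ fun _ => by positivity
  have Z30 : 0 ≤ ∫ t in S..Q, max (t - b * Gam lh t - (hb t + lam * e * (t - S))) 0 *
      |lvr 1 lb t - lvr 1 lh t| := int_nn SQ fun _ => by positivity
  refine ⟨H', r1', r2'', ω', β', ξ', _, R', c1, c2, c3, c4, c6, ?_⟩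
  rw [c5]
  generalize (∫ t in M..S, (hb M - (t - b * Gam lh t)) * |lvr 1 lb t - lvr 1 lh t|) = z2 at *
  generalize (∫ t in S..Q, max (t - b * Gam lh t - (hb t + lam * e * (t - S))) 0 *
    |lvr 1 lb t - lvr 1 lh t|) = z3 at *
  generalize (∫ t in S..Q, max (hb t + lam * e * (t - S) - (t - b * Gam lh t) +
    (e / 4 * (t - S) + b * c / 4 * (t - S) ^ 2)) 0 * |lvr 1 lb t - lvr 1 lh t|) = s2 at *
  generalize (∫ t in S..Q, (t - S) ^ 2 * |lvr 1 lb t - lvr 1 lh t|) = W2 at *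
  generalize (∫ t in S..Q, max (hb t + lam * e * (t - S) - (t - b * Gam lh t)) 0 *
    |lvr 1 lb t - lvr 1 lh t|) = s1 at *
  generalize (∫ t in S..Q, (t - S) * |lvr 1 lb t - lvr 1 lh t|) = W at *
  generalize (∫ t in S..Q, |lvr 1 lb t - lvr 1 lh t|) = V at *
  generalize (∫ t in M..S, |lvr 1 lb t - lvr 1 lh t|) = i2 at *
  generalize (∫ t in Q..T, |lvr 1 lb t - lvr 1 lh t|) = i4 at *
  have Z3 : e / 4 * W ≤ z3 + s2 := by
    linarith [mul_nonneg (show 0 ≤ b * c / 4 by positivity) W20]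
  obtain ⟨f1, f2, -⟩ := finU (x := ∫ t in A..M, ξ t) n.toU hC b0 T0 L0 η0 β0 g0 Dh0 h.lamκ Gt0 e0
    e10 κ0 κ1 u0 E0 D0 y0 hy3 ι0 ι2 D3 V0 V1 bt I2 I2' I4 I4' Z2 Z3 Z30 St1 St'
  refine ⟨f1, f2, ?_⟩
  have f3 := div_le_div_of_nonneg_right (add_le_add Z2 Z4) b0.le
  rw [show (e * κ * D ^ 2 / 2 + (e / 4 * W + b * c / 4 * W2)) / b =
    e * κ * D ^ 2 / (2 * b) + e / (4 * b) * W + c / 4 * W2 by field_simp; ring,
    add_div, add_div] at f3
  linarith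

/-- `resC` in the form `Ext` -/
theorem extC {A0 c C θ E N U Lt : ℝ} {H r1 r2 ω β ξ : ℝ → ℝ} (hU : ∀ s, U ≤ s → lvr 1 lb s = 1)
    (L0 : 0 ≤ Lt) (hL' : U - max M σ ≤ Lt) (hC : 0 ≤ C) (hL : Spl27.GLip T C)
    (R : Res T (fun t => lvr 1 lb t - lvr 1 lh t) (fun t => Gam lb t - Gam lh t) H r1 r2 ω β ξ 0 M)
    (hM : 0 < M) (hc : r2 M = c0) (β0 : 0 ≤ β M) (hA0 : 0 ≤ A0) (hA0M : A0 ≤ M)
    (hE : (∫ t in A0..T, Sc48.Jf lh lb T t ^ 2) + (∫ t in (0:ℝ)..A0, |Sc48.Jf lh lb T t|) ^ 2 ≤ E)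
    (c0' : 0 < c) (hq : ∀ r, σ ≤ r → r < T → Gd lh r ≤ -c)
    (n : PNC T Lt C b c θ (η + β M + Dh / b) g G0 Gt e e1 κ u1 N) :
    ∃ Z : ℝ, 0 ≤ Z ∧ Ext T (fun t => lvr 1 lb t - lvr 1 lh t) (fun t => Gam lb t - Gam lh t)
        H r2 ω β ξ M T (8 * θ * E + Z / 4 + 11 * N) Z ∧
      e * κ * (max M σ - M) ^ 2 / (2 * b) + e / (4 * b) *
        (∫ t in max M σ..max (max M σ) P, (t - max M σ) * (1 - lvr 1 lb t)) +
        c / 4 * (∫ t in max M σ..max (max M σ) P, (t - max M σ) ^ 2 * (1 - lvr 1 lb t)) ≤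
        Z + N := by
  obtain ⟨H', r1', r2', ω', β', ξ', Z, a1, a2, -, -, a5, a6, a7, a8, a9⟩ :=
    h.resC hU L0 hL' hC hL R le_rfl hM.le hc β0 hA0 hA0M hE c0' hq n
  exact ⟨Z, a7, ⟨H', r1', r2', ω', β', ξ', a1, (a2 0 hM).2.2.1, (a2 0 hM).2.2.2, a5.le,
    by linarith, a6⟩, a9⟩

/-- `V³ ≤ 8 E` for the mass `V` below `1` above `max M σ` -/
theorem V_cube {A0 x y : ℝ} (hA0 : 0 ≤ A0) (hA : A0 ≤ x) (hx : σ ≤ x) (hxy : x ≤ y) (hy : y ≤ T) :
    (∫ t in x..y, (1 - lvr 1 lb t)) ^ 3 ≤ 8 * ∫ t in A0..T, Sc48.Jf lh lb T t ^ 2 := by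
  have xT := hxy.trans hy
  have x0 := hA0.trans hA
  have a := Jf_le (l := lh) (l' := lb) (u := 1) xT fun r _ => h.d1 r
  have c := Lab36.sup_cube (zh := lvr 1 lh) (zb := lvr 1 lb) h.ld (fun t _ _ => h.d1 t) hA0
    le_rfl hA xT (.inr (by
      show x + |Sc48.Jf lh lb T x| / 2 ≤ T
      linarith [abs_nonneg (Sc48.Jf lh lb T x)]))
  refine le_trans (pow_le_pow_left₀ (int_nn hxy fun t =>
    sub_nonneg.2 (Pp.Ode3.lvr_le_one h.okb.1 t)) ?_ 3) c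
  have e1 : ∫ t in x..y, (1 - lvr 1 lb t) = ∫ t in x..y, |lvr 1 lb t - lvr 1 lh t| :=
    intervalIntegral.integral_congr_Ioo_of_le hxy fun t ht => (h.dtop (hx.trans ht.1.le)).2.symm
  have e2 := int_split h.ld.abs (a := x) (b := y) (c := T) ⟨x0, xT⟩ ⟨x0.trans hxy, hy⟩
    ⟨x0.trans xT, le_rfl⟩
  have e3 : ∫ t in x..T, |lvr 1 lb t - lvr 1 lh t| = -Sc48.Jf lh lb T x := by
    unfold Sc48.Jf
    rw [← intervalIntegral.integral_neg]
    exact intervalIntegral.integral_congr_Ioo_of_le xT fun t ht =>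
      abs_of_nonpos (h.dtop (hx.trans ht.1.le)).1
  have e4 : 0 ≤ ∫ t in y..T, |lvr 1 lb t - lvr 1 lh t| := int_nn hy fun _ => abs_nonneg _
  show _ ≤ |Sc48.Jf lh lb T x|
  linarith [neg_le_abs (Sc48.Jf lh lb T x)]

/-- `W² ≤ W2 V` -/
theorem W_sq {x y : ℝ} (hx : 0 ≤ x) (hxy : x ≤ y) (hy : y ≤ T) :
    (∫ t in x..y, (t - x) * (1 - lvr 1 lb t)) ^ 2 ≤
      (∫ t in x..y, (t - x) ^ 2 * (1 - lvr 1 lb t)) * ∫ t in x..y, (1 - lvr 1 lb t) := by
  have l0 : LB T fun t => 1 - lvr 1 lb t := (LB.const 1).sub (LB.of_mono (Sc48.lvr_mono h.okb.1))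
  have l1 : LB T fun t => (t - x) * (1 - lvr 1 lb t) := (LB.of_cont (by fun_prop)).mul l0
  have l2 : LB T fun t => (t - x) ^ 2 * (1 - lvr 1 lb t) := (LB.of_cont (by fun_prop)).mul l0
  have mx : x ∈ Icc 0 T := ⟨hx, hxy.trans hy⟩
  have my : y ∈ Icc 0 T := ⟨hx.trans hxy, hy⟩
  have p := fun t => sub_nonneg.2 (Pp.Ode3.lvr_le_one h.okb.1 t)
  have k : ∀ s : ℝ, 0 ≤ (∫ t in x..y, (1 - lvr 1 lb t)) * (s * s) +
      (-2 * ∫ t in x..y, (t - x) * (1 - lvr 1 lb t)) * s +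
      ∫ t in x..y, (t - x) ^ 2 * (1 - lvr 1 lb t) := fun s => by
    have a := int_mono ((LB.const (2 * s)).mul l1) (((LB.const (s * s)).mul l0).add l2) hx hxy hy
      fun t _ _ => by nlinarith [mul_nonneg (sq_nonneg (t - x - s)) (p t)]
    rw [intervalIntegral.integral_add (((LB.const (s * s)).mul l0).ii mx my) (l2.ii mx my),
      intervalIntegral.integral_const_mul, intervalIntegral.integral_const_mul] at a
    linarith
  have := discrim_le_zero k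
  unfold discrim at this
  nlinarith

end Pl

end

end Crest.Agent.T156.Pr.Reg48
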