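import Crest.Agent.T156.TopB_27

/-!
Row 156 (helper27): the bulk `Cut8.Res` from (E1) in DIFFERENCE form, and the final absorption.
-/

set_option autoImplicit false

namespace Crest.Agent.T156.Gap27

open MeasureTheory Set
open Crest.Agent.R164.GC Crest.Agent.R339.B Crest.Agent.R339.Var Crest.Agent.T157.Pf
open Crest.Agent.T156.L0 Crest.Agent.T156.Cut8

noncomputable section

/-- the gap `[p, q]` around `t`; `r` = residual at the good times -/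
structure GapD (lb lh : List (ℝ × ℝ)) (T b : ℝ) (hm r : ℝ → ℝ) (t p q Gm Dz jh D η ω : ℝ) :
    Prop where
  p0 : 0 ≤ p
  pt : p ≤ t
  tq : t ≤ q
  qT : q ≤ T
  len : q - p ≤ Gm
  ω0 : 0 ≤ ω
  η0 : 0 ≤ η
  dz : lvr 1 lb q - lvr 1 lb p + (lvr 1 lh q - lvr 1 lh p) ≤ Dz
  jh : ∀ s ∈ Icc p q, |Gd lh s| ≤ jh
  osc : ∀ s ∈ Icc p q, |hm s / b - hm p / b| ≤ D
  rp : |Pr.Gam lb p - p / b + hm p / b - r p| ≤ η
  rq : |Pr.Gam lb q - q / b + hm q / b - r q| ≤ η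
  e1 : |r q - r p| ≤ η + ω * (|Gd lb p| + |Gd lb q|)

variable {lb lh : List (ℝ × ℝ)} {T C b θ : ℝ}

/-- **bulk `Res` from the difference form**: `r2 t = r (p t)`,
`β t = η t + ω t |Γ''(p t)| + λ t |dz t|` -/
theorem res_diff (hC : 0 ≤ C) (hA : HLip Pr.AA T C) (hN : HLip Pr.NN T C) (hb : Pr.Ok lb)
    (hh : Pr.Ok lh) (eb : TT lb = T) (eh : TT lh = T) (hθ : 0 < θ) (b0 : b ≠ 0)
    {hm r H ϖ m f e p q Gm Dz jh D η ω lam : ℝ → ℝ} {A B : ℝ} (hT : 0 ≤ T) (lH : LB T H)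
    (lϖ : LB T ϖ) (lm : LB T m) (lf : LB T f) (ϖ0 : ∀ t, A < t → t < B → 0 ≤ ϖ t)
    (slow : ∀ s t, A ≤ s → s ≤ t → t ≤ B → |r (p t) - r (p s)| ≤ (∫ u in s..t, ϖ u) +
      (η s + ω s * |Gd lb (p s)| + lam s * |lvr 1 lb s - lvr 1 lh s|) +
      (η t + ω t * |Gd lb (p t)| + lam t * |lvr 1 lb t - lvr 1 lh t|))
    (H0 : ∀ t, A < t → t < B → 0 ≤ H t * (lvr 1 lb t - lvr 1 lh t))
    (nn : ∀ t, A < t → t < B → 0 ≤ m t ∧ 0 ≤ f t ∧ 0 ≤ lam t)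
    (he : ∀ t, A < t → t < B → |H t - (hm t - (t - b * Pr.Gam lh t)) / b| ≤ e t)
    (g : ∀ t, A < t → t < B →
      GapD lb lh T b hm r t (p t) (q t) (Gm t) (Dz t) (jh t) (D t) (η t) (ω t))
    (num : ∀ t, A < t → t < B → Num θ (m t) (f t)
      (7 * η t + 2 * D t + e t + (7 * ω t + 2 * Gm t ^ 2) * (jh t + (2 + 3 * C * Gm t) * Dz t))
      ((7 * ω t + 2 * Gm t ^ 2) * (2 + 3 * C * Gm t) + lam t)
      (3 * C * (7 * ω t + 2 * Gm t ^ 2))) :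
    Res T (fun t => lvr 1 lb t - lvr 1 lh t) (fun t => Pr.Gam lb t - Pr.Gam lh t) H
      (fun t => Pr.Gam lb t - Pr.Gam lh t + H t - r (p t)) (fun t => r (p t)) ϖ
      (fun t => η t + ω t * |Gd lb (p t)| + lam t * |lvr 1 lb t - lvr 1 lh t|)
      (fun t => xi θ (m t) (f t) (∫ s in (0 : ℝ)..T, |Sc48.Jf lh lb T s|)
        (lvr 1 lb t - lvr 1 lh t) (Sc48.Jf lh lb T t)) A B := by
  have ld : LB T fun t => lvr 1 lb t - lvr 1 lh t :=
    (LB.of_mono (Sc48.lvr_mono hb.1)).sub (LB.of_mono (Sc48.lvr_mono hh.1))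
  have lJ : LB T (Sc48.Jf lh lb T) := .of_cont (ld.tail (right_mem_Icc.mpr hT))
  have l4 : LB T fun t => (lvr 1 lb t - lvr 1 lh t) ^ 4 := by simpa [← pow_mul] using ld.sq.sq
  refine ⟨lH, lϖ, ?_, fun t _ _ => by ring, ϖ0, slow, H0,
    fun t x y => xi_nn hθ.le (nn t x y).1 (nn t x y).2.1, fun t x y => ?_⟩
  · exact (LB.const θ).mul ((((((LB.const 2).mul l4).add (((LB.const 2).mul lm).mul ld.sq)).add
      lJ.sq).add (LB.const _)).add lf)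
  · have G := g t x y
    have pq : p t ≤ q t := G.pt.trans G.tq
    have k := fun s hs => Gd_gap hC hA hN hb hh eb eh G.p0 G.qT G.len G.dz G.jh ⟨G.pt, G.tq⟩
      (s := s) hs
    have kp := k (p t) ⟨le_rfl, pq⟩
    have kq := k (q t) ⟨pq, le_rfl⟩
    set κ := jh t + (2 + 3 * C * Gm t) * (|lvr 1 lb t - lvr 1 lh t| + Dz t) +
      3 * C * (|Sc48.Jf lh lb T t| + ∫ s in (0 : ℝ)..T, |Sc48.Jf lh lb T s|) with hκ
    have w1 := mul_le_mul_of_nonneg_left kp G.ω0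
    have w2 := mul_le_mul_of_nonneg_left kq G.ω0
    have n1 : 0 ≤ ω t * |Gd lb (p t)| := mul_nonneg G.ω0 (abs_nonneg _)
    have η0 := G.η0
    have a := gap_pt hC hA hN hb hh eb eh (φ := fun s => hm s / b - r (p t)) (b := b)
      (η := 2 * η t + 2 * (ω t * κ)) (ω := 0) (D := D t) G.p0 G.qT G.len le_rfl G.dz G.jh
      (fun s hs => by simpa using G.osc s hs)
      (by
        have := G.rp
        rw [show Pr.Gam lb (p t) - p t / b + (hm (p t) / b - r (p t)) =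
          Pr.Gam lb (p t) - p t / b + hm (p t) / b - r (p t) by ring]
        linarith)
      (by
        have a1 := abs_le.1 G.rq
        have a2 := abs_le.1 G.e1
        rw [abs_le]
        constructor <;> nlinarith [a1.1, a1.2, a2.1, a2.2]) ⟨G.pt, G.tq⟩
    rw [← hκ] at a
    refine xi_pt hθ (nn t x y).1 (add_nonneg (add_nonneg η0 n1)
      (mul_nonneg (nn t x y).2.2 (abs_nonneg _))) ?_ (num t x y)
    have e1 : Pr.Gam lb t - Pr.Gam lh t + H t - r (p t) =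
        (Pr.Gam lb t - t / b + (hm t / b - r (p t))) +
          (H t - (hm t - (t - b * Pr.Gam lh t)) / b) := by
      field_simp
      ring
    have e2 := abs_add_le (Pr.Gam lb t - t / b + (hm t / b - r (p t)))
      (H t - (hm t - (t - b * Pr.Gam lh t)) / b)
    have e3 := he t x y
    have e4 : (7 * ω t + 2 * Gm t ^ 2) * κ =
        (7 * ω t + 2 * Gm t ^ 2) * (jh t + (2 + 3 * C * Gm t) * Dz t) +
        (7 * ω t + 2 * Gm t ^ 2) * (2 + 3 * C * Gm t) * |lvr 1 lb t - lvr 1 lh t| +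
        3 * C * (7 * ω t + 2 * Gm t ^ 2) *
          (|Sc48.Jf lh lb T t| + ∫ s in (0 : ℝ)..T, |Sc48.Jf lh lb T s|) := by
      rw [hκ]; ring
    rw [e1]
    nlinarith

/-- Young for the root term -/
theorem root_young {ρ x X ε lam : ℝ} (hx : 0 ≤ x) (hε : 0 ≤ ε) (hl : 0 ≤ lam) (hρ : ρ ≤ ε * lam ^ 2)
    (h : x ^ 3 ≤ 8 * X) : ρ * x ≤ 8 * ε * X + ε * lam ^ 3 := by
  have a : lam ^ 2 * x ≤ x ^ 3 + lam ^ 3 := by
    rcases le_total x lam with c | c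
    · nlinarith [mul_le_mul_of_nonneg_left c (sq_nonneg lam), pow_nonneg hx 3]
    · nlinarith [mul_le_mul_of_nonneg_right (pow_le_pow_left₀ hl c 2) hx, pow_nonneg hl 3]
  nlinarith [mul_le_mul_of_nonneg_right hρ hx, mul_le_mul_of_nonneg_left a hε,
    mul_le_mul_of_nonneg_left h hε]

/-- **final absorption** (`X = ∫ J²`, `Z = ∫ H dz`) -/
theorem absorb {c θ X Z D4 D2 F P P0 B0 B1 Ω K4 K2 e4 e2 τ : ℝ} (hθ : 0 ≤ θ) (hX : 0 ≤ X)
    (hZ : 0 ≤ Z) (h : c / 2 * X + Z / 2 ≤ θ * (2 * D4 + 2 * D2 + τ * X + F) + P + B0 + Ω)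
    (h4 : D4 ≤ K4 * X + e4) (h2 : D2 ≤ K2 * Z + e2) (hP : P ≤ c / 8 * X + Z / 8 + P0)
    (hB : B0 ≤ c / 8 * X + B1) (s4 : θ * (2 * K4 + τ) ≤ c / 8) (s2 : θ * (2 * K2) ≤ 1 / 8) :
    c / 8 * X + Z / 4 ≤ θ * (F + 2 * e4 + 2 * e2) + P0 + B1 + Ω := by
  nlinarith [mul_le_mul_of_nonneg_left h4 hθ, mul_le_mul_of_nonneg_left h2 hθ,
    mul_le_mul_of_nonneg_right s4 hX, mul_le_mul_of_nonneg_right s2 hZ]

end

end Crest.Agent.T156.Gap27
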