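import Crest.Agent.T156.CutC_8
import Crest.Agent.T156.TopC_27
import Crest.Agent.T156.Lab_36
import Crest.Agent.T156.Reg_48

/-!
# Row 156, text (L) (helper8): the global energy bound
-/

set_option autoImplicit false

noncomputable section

namespace Crest.Agent.T156.Cut8

open MeasureTheory Set intervalIntegral Filter Topology

/-! ### a clock with a decreasing weight -/

/-- the weight -/
def lamW (M L0 : ℝ) (κ : ℝ → ℝ) (t : ℝ) : ℝ := L0 + ∫ u in t..M, κ u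

/-- `∫ λ (dt + d zb)` -/
def Clk (M L0 : ℝ) (κ zb : ℝ → ℝ) (t : ℝ) : ℝ :=
  (∫ u in (0 : ℝ)..t, lamW M L0 κ u) + lamW M L0 κ t * zb t + ∫ u in (0 : ℝ)..t, κ u * zb u

/-- data of the weight -/
structure Wt (T M L0 : ℝ) (κ : ℝ → ℝ) : Prop where
  M0 : 0 ≤ M
  MT : M ≤ T
  L0 : 0 ≤ L0
  lκ : LB T κ
  nn : ∀ t, 0 < t → t < M → 0 ≤ κ t

namespace Wt

variable {T M L0 : ℝ} {κ zb zh : ℝ → ℝ}

theorem lb (h : Wt T M L0 κ) : LB T (lamW M L0 κ) :=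
  (LB.const L0).add (.of_cont (h.lκ.tail ⟨h.M0, h.MT⟩))

theorem sub (h : Wt T M L0 κ) {s t : ℝ} (hs : 0 ≤ s) (hst : s ≤ t) (ht : t ≤ M) :
    lamW M L0 κ s - lamW M L0 κ t = ∫ u in s..t, κ u := by
  have := h.MT
  unfold lamW
  rw [int_split h.lκ (a := s) (b := t) (c := M) ⟨hs, by linarith⟩ ⟨by linarith, by linarith⟩
    ⟨h.M0, h.MT⟩]
  ring

theorem anti (h : Wt T M L0 κ) {s t : ℝ} (hs : 0 ≤ s) (hst : s ≤ t) (ht : t ≤ M) :
    lamW M L0 κ t ≤ lamW M L0 κ s := by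
  have m := int_mono (LB.const 0) h.lκ hs hst (ht.trans h.MT) fun u u0 u1 =>
    h.nn u (by linarith) (by linarith)
  rw [intervalIntegral.integral_zero, ← h.sub hs hst ht] at m
  linarith

theorem pos (h : Wt T M L0 κ) {s : ℝ} (hs : 0 ≤ s) (ht : s ≤ M) : 0 ≤ lamW M L0 κ s := by
  have := h.anti hs ht le_rfl
  have e : lamW M L0 κ M = L0 := by simp [lamW]
  linarith [h.L0]

theorem clk_sub (h : Wt T M L0 κ) (hb : Monotone zb) {s t : ℝ} (hs : 0 ≤ s) (hst : s ≤ t)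
    (ht : t ≤ M) : Clk M L0 κ zb t - Clk M L0 κ zb s = (∫ u in s..t, lamW M L0 κ u) +
      lamW M L0 κ t * (zb t - zb s) + ∫ u in s..t, κ u * (zb u - zb s) := by
  have hT := h.MT
  have m0 : (0 : ℝ) ∈ Icc 0 T := ⟨le_rfl, by linarith⟩
  have ms : s ∈ Icc 0 T := ⟨hs, by linarith⟩
  have mt : t ∈ Icc 0 T := ⟨by linarith, by linarith⟩
  have lk := h.lκ.mul (LB.of_mono hb)
  have e : ∫ u in s..t, κ u * (zb u - zb s) =
      (∫ u in s..t, κ u * zb u) - (lamW M L0 κ s - lamW M L0 κ t) * zb s := by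
    rw [h.sub hs hst ht, ← intervalIntegral.integral_mul_const,
      ← integral_sub (lk.ii ms mt) ((h.lκ.mul (LB.const _)).ii ms mt)]
    simp only [mul_sub]
  unfold Clk
  rw [e, int_split h.lb m0 ms mt, int_split lk m0 ms mt]
  ring

theorem clk_lo (h : Wt T M L0 κ) (hb : Monotone zb) {s t : ℝ} (hs : 0 ≤ s) (hst : s ≤ t)
    (ht : t ≤ M) :
    lamW M L0 κ t * (t - s + (zb t - zb s)) ≤ Clk M L0 κ zb t - Clk M L0 κ zb s := by
  have hT := ht.trans h.MT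
  have m1 := int_mono (LB.const (lamW M L0 κ t)) h.lb hs hst hT fun u u0 u1 =>
    h.anti (by linarith) u1.le ht
  have m2 := int_mono (LB.const 0) (h.lκ.mul ((LB.of_mono hb).sub (LB.const (zb s)))) hs hst hT
    fun u u0 u1 => mul_nonneg (h.nn u (by linarith) (by linarith)) (sub_nonneg.mpr (hb u0.le))
  rw [intervalIntegral.integral_const, smul_eq_mul] at m1
  rw [intervalIntegral.integral_zero] at m2
  rw [h.clk_sub hb hs hst ht]
  linarith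

theorem clk_up (h : Wt T M L0 κ) (hb : Monotone zb) {s t : ℝ} (hs : 0 ≤ s) (hst : s ≤ t)
    (ht : t ≤ M) :
    Clk M L0 κ zb t - Clk M L0 κ zb s ≤ lamW M L0 κ s * (t - s + (zb t - zb s)) := by
  have hT := ht.trans h.MT
  have m1 := int_le_const h.lb (K := lamW M L0 κ s) hs hst hT fun u u0 u1 =>
    h.anti hs u0.le (by linarith)
  have m2 := int_mono (h.lκ.mul ((LB.of_mono hb).sub (LB.const (zb s))))
    (h.lκ.mul (LB.const (zb t - zb s))) hs hst hT fun u u0 u1 =>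
      mul_le_mul_of_nonneg_left (sub_le_sub_right (hb u1.le) _) (h.nn u (by linarith) (by linarith))
  rw [intervalIntegral.integral_mul_const, ← h.sub hs hst ht] at m2
  rw [h.clk_sub hb hs hst ht]
  linarith

/-- the clock is slow -/
theorem clk_slow (h : Wt T M L0 κ) (hb : Monotone zb) (lh : LB T zh) {C1 δ : ℝ}
    (up : ∀ s t, 0 ≤ s → s ≤ t → t ≤ M → zh t - zh s ≤ C1 * (t - s) + δ) {s t : ℝ} (hs : 0 ≤ s)
    (hst : s ≤ t) (ht : t ≤ M) : Clk M L0 κ zb t - Clk M L0 κ zb s ≤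
      (∫ u in s..t, ((1 + C1) * lamW M L0 κ u + κ u * |zb u - zh u|)) +
        lamW M L0 κ s * (δ + |zb s - zh s|) + lamW M L0 κ t * |zb t - zh t| := by
  have hT := ht.trans h.MT
  have ms : s ∈ Icc 0 T := ⟨hs, by linarith⟩
  have mt : t ∈ Icc 0 T := ⟨by linarith, hT⟩
  have lz := (LB.of_mono hb).sub lh
  have li : LB T fun u => u - s := (LB.of_cont continuousOn_id).sub (LB.const s)
  have i1 := ibp (f := fun u => u - s) (w := fun _ => 1) hst ((LB.const 1).ii ms mt) (h.lκ.ii ms mt)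
    fun u _ => by simp
  have e1 : ∫ u in s..t, 1 * ∫ v in u..t, κ v =
      (∫ u in s..t, lamW M L0 κ u) - (t - s) * lamW M L0 κ t := by
    rw [← smul_eq_mul, ← intervalIntegral.integral_const,
      ← integral_sub (h.lb.ii ms mt) ((LB.const _).ii ms mt)]
    refine integral_congr fun u hu => ?_
    rw [uIcc_of_le hst] at hu
    simp only [one_mul]
    rw [h.sub (hs.trans hu.1) hu.2 ht]
  have m := int_mono (h.lκ.mul ((LB.of_mono hb).sub (LB.const (zb s))))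
    (((h.lκ.mul lz.abs).add ((LB.const C1).mul (li.mul h.lκ))).add
      (h.lκ.mul (LB.const (δ + |zb s - zh s|)))) hs hst hT fun u u0 u1 => by
      have a1 := up s u hs u0.le (u1.le.trans ht)
      have a2 : zb u - zb s ≤ |zb u - zh u| + C1 * (u - s) + (δ + |zb s - zh s|) := by
        linarith [le_abs_self (zb u - zh u), neg_abs_le (zb s - zh s)]
      have := mul_le_mul_of_nonneg_left a2 (h.nn u (by linarith) (by linarith))
      linarith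
  rw [integral_add (((h.lκ.mul lz.abs).add ((LB.const C1).mul (li.mul h.lκ))).ii ms mt)
      ((h.lκ.mul (LB.const _)).ii ms mt),
    integral_add ((h.lκ.mul lz.abs).ii ms mt) (((LB.const C1).mul (li.mul h.lκ)).ii ms mt),
    intervalIntegral.integral_const_mul, intervalIntegral.integral_mul_const, i1, e1,
    ← h.sub hs hst ht] at m
  have a2 : zb t - zb s ≤ |zb t - zh t| + C1 * (t - s) + (δ + |zb s - zh s|) := by
    linarith [up s t hs hst ht, le_abs_self (zb t - zh t), neg_abs_le (zb s - zh s)]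
  have m2 := mul_le_mul_of_nonneg_left a2 (h.pos (hs.trans hst) ht)
  rw [h.clk_sub hb hs hst ht, integral_add (((LB.const _).mul h.lb).ii ms mt)
    ((h.lκ.mul lz.abs).ii ms mt), intervalIntegral.integral_const_mul]
  linarith

/-- increments along nodes -/
theorem clk_chain (h : Wt T M L0 κ) (hb : Monotone zb) {τ a : ℕ → ℝ} {i j : ℕ} (hij : i ≤ j)
    (h0 : ∀ y, i ≤ y → y < j → 0 ≤ τ y ∧ τ y ≤ τ (y + 1) ∧ τ (y + 1) ≤ M ∧
      a y ≤ lamW M L0 κ (τ (y + 1)) * (τ (y + 1) - τ y + (zb (τ (y + 1)) - zb (τ y)))) :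
    ∑ y ∈ Finset.Ico i j, a y ≤ Clk M L0 κ zb (τ j) - Clk M L0 κ zb (τ i) := by
  rw [← Finset.sum_Ico_sub (fun y => Clk M L0 κ zb (τ y)) hij]
  refine Finset.sum_le_sum fun y hy => ?_
  rw [Finset.mem_Ico] at hy
  obtain ⟨a0, a1, a2, a3⟩ := h0 y hy.1 hy.2
  exact a3.trans (h.clk_lo hb a0 a1 a2)

/-- the form of `Gap27.res_diff`: `p ≤ s`, `q ≤ t` are the good times before `s ≤ t` -/
theorem clk_gap (h : Wt T M L0 κ) (hb : Monotone zb) (lh : LB T zh) {C1 δ : ℝ}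
    (up : ∀ s t, 0 ≤ s → s ≤ t → t ≤ M → zh t - zh s ≤ C1 * (t - s) + δ) {p q s t : ℝ} (hp : 0 ≤ p)
    (hps : p ≤ s) (hq : 0 ≤ q) (hqt : q ≤ t) (hst : s ≤ t) (ht : t ≤ M) :
    Clk M L0 κ zb q - Clk M L0 κ zb p ≤
      (∫ u in s..t, ((1 + C1) * lamW M L0 κ u + κ u * |zb u - zh u|)) +
        (lamW M L0 κ p * (s - p + (zb s - zb p)) + lamW M L0 κ s * δ +
          lamW M L0 κ s * |zb s - zh s|) + lamW M L0 κ t * |zb t - zh t| := by
  have a1 := h.clk_lo hb hq hqt ht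
  have a2 := mul_nonneg (h.pos (hq.trans hqt) ht)
    (show 0 ≤ t - q + (zb t - zb q) by linarith [hb hqt])
  linarith [h.clk_up hb hp hps (hst.trans ht), h.clk_slow hb lh up (hp.trans hps) hst ht]

/-- the cost of the slow part -/
theorem om_sq (h : Wt T M L0 κ) (lz : LB T fun t => zb t - zh t) (C1 : ℝ) {θ : ℝ} (hθ : 0 < θ) :
    ∫ u in (0 : ℝ)..M, ((1 + C1) * lamW M L0 κ u + κ u * |zb u - zh u|) ^ 2 ≤
      2 * (1 + C1) ^ 2 * (∫ u in (0 : ℝ)..M, lamW M L0 κ u ^ 2) +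
        (∫ u in (0 : ℝ)..M, κ u ^ 4) / θ + θ * ∫ u in (0 : ℝ)..M, (zb u - zh u) ^ 4 := by
  have m0 : (0 : ℝ) ∈ Icc 0 T := ⟨le_rfl, h.M0.trans h.MT⟩
  have mM : M ∈ Icc 0 T := ⟨h.M0, h.MT⟩
  have l4 : LB T fun t => (zb t - zh t) ^ 4 := by simpa only [← pow_mul] using lz.sq.sq
  have k4 : LB T fun t => κ t ^ 4 := by simpa only [← pow_mul] using h.lκ.sq.sq
  rw [← intervalIntegral.integral_const_mul, ← intervalIntegral.integral_const_mul,
    ← intervalIntegral.integral_div,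
    ← integral_add (((LB.const _).mul h.lb.sq).ii m0 mM) ((k4.div θ).ii m0 mM),
    ← integral_add ((((LB.const _).mul h.lb.sq).add (k4.div θ)).ii m0 mM)
      (((LB.const θ).mul l4).ii m0 mM)]
  refine int_mono (((LB.const _).mul h.lb).add (h.lκ.mul lz.abs)).sq
    ((((LB.const _).mul h.lb.sq).add (k4.div θ)).add ((LB.const θ).mul l4)) le_rfl h.M0 h.MT
    fun u _ _ => ?_
  have e : κ u ^ 4 / θ + θ * (zb u - zh u) ^ 4 - 2 * (κ u ^ 2 * (zb u - zh u) ^ 2) =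
      (κ u ^ 2 - θ * (zb u - zh u) ^ 2) ^ 2 / θ := by field_simp; ring
  have p : 0 ≤ (κ u ^ 2 - θ * (zb u - zh u) ^ 2) ^ 2 / θ := by positivity
  have q : (κ u * |zb u - zh u|) ^ 2 = κ u ^ 2 * (zb u - zh u) ^ 2 := by rw [mul_pow, sq_abs]
  nlinarith [sq_nonneg ((1 + C1) * lamW M L0 κ u - κ u * |zb u - zh u|)]

end Wt

variable {T : ℝ} {P : Type} {c C : ℝ} {ok : P → Prop} {z Γ G : P → ℝ → ℝ} {pb ph : P}

theorem Fr.dz_le (F : Fr T c C ok z Γ G) (hb : ok pb) (hh : ok ph) (t : ℝ) :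
    |z pb t - z ph t| ≤ 1 :=
  abs_le.mpr ⟨by linarith [F.pos pb hb t, F.le1 ph hh t], by linarith [F.pos ph hh t, F.le1 pb hb t]⟩

/-- the quartic bound on all times at which `zb` carries a label of the sloped part -/
theorem Fr.four_bulk (F : Fr T c C ok z Γ G) (hb : ok pb) (hh : ok ph) {s b C1 δ : ℝ} (hs0 : 0 ≤ s)
    (hs : s ≤ b) (hT : b ≤ T) (hC : 0 < C1)
    (up : ∀ s t, 0 ≤ s → s ≤ t → t ≤ b → z ph t - z ph s ≤ C1 * (t - s) + δ)
    (h0 : z ph 0 ≤ δ) (h1 : ∀ t, t < s → z pb t ≤ z ph b + δ) :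
    ∫ t in (0 : ℝ)..s, (z pb t - z ph t) ^ 4 ≤
      4096 * C1 ^ 2 * (∫ t in (0 : ℝ)..T, Jf T (z ph) (z pb) t ^ 2) +
        (4096 * C1 ^ 2 * δ ^ 2 * T ^ 3 + 8 * δ ^ 4 * T + 6 * δ / C1) := by
  have hδ : 0 < δ := (F.pos ph hh 0).trans_le h0
  have hb0 : 0 ≤ b := hs0.trans hs
  have hT0 : 0 ≤ T := hb0.trans hT
  have lz : LB T fun t => z pb t - z ph t := (F.lbz hb).sub (F.lbz hh)
  have l4 : LB T fun t => (z pb t - z ph t) ^ 4 := by simpa only [← pow_mul] using lz.sq.sq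
  have cr : ∀ x y, 0 ≤ x → x ≤ y → y ≤ T → ∫ t in x..y, (z pb t - z ph t) ^ 4 ≤ y - x :=
    fun x y a1 a2 a3 => by
      simpa using int_le_const l4 (K := 1) a1 a2 a3 fun t _ _ => by
        have := pow_le_one₀ (abs_nonneg _) (F.dz_le hb hh t) (n := 4)
        rwa [← abs_pow, abs_of_nonneg (by positivity)] at this
  obtain ⟨u, u0, eu⟩ : ∃ u, 0 < u ∧ δ = C1 * u := ⟨δ / C1, by positivity, by field_simp⟩
  have e6 : 6 * δ / C1 = 6 * u := by rw [eu]; field_simp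
  have p0 : 0 ≤ ∫ t in (0 : ℝ)..T, Jf T (z ph) (z pb) t ^ 2 :=
    integral_nonneg hT0 fun _ _ => sq_nonneg _
  have p1 : 0 ≤ 4096 * C1 ^ 2 * δ ^ 2 * T ^ 3 := by positivity
  have p2 : 0 ≤ 8 * δ ^ 4 * T := by positivity
  have p3 : 0 ≤ 4096 * C1 ^ 2 * ∫ t in (0 : ℝ)..T, Jf T (z ph) (z pb) t ^ 2 := by positivity
  rw [e6]
  rcases le_total s (6 * u) with hc | hc
  · linarith [cr 0 s le_rfl hs0 (by linarith)]
  have A := F.aosl hb hh le_rfl hb0 hT hC up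
  obtain ⟨y, y0, y1, y2, y3⟩ : ∃ y, 2 * u ≤ y ∧ y < s ∧ y ≤ b - 3 * u ∧ s - y ≤ 3 * u :=
    ⟨s - 3 * u, by linarith, by linarith, by linarith, by linarith⟩
  have f := A.four (c := 2 * u) (d := y) (by linarith) y0 (by linarith) fun t ht => by
    have a1 := up 0 t le_rfl (by linarith [ht.1]) (by linarith [ht.2])
    have a2 := up t b (by linarith [ht.1]) (by linarith [ht.2]) le_rfl
    have a3 := mul_le_mul_of_nonneg_left ht.1 hC.le
    have a4 := mul_le_mul_of_nonneg_left (show 3 * u ≤ b - t by linarith [ht.2]) hC.le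
    constructor <;> linarith [F.pos pb hb t, h1 t (by linarith [ht.2])]
  unfold Sun9.AOSL.En at f
  have m := int_sub_le (F.lbJ hh hb (right_mem_Icc.mpr hT0)).sq le_rfl le_rfl hb0 hT le_rfl
    fun _ _ _ => sq_nonneg _
  have q1 := mul_le_mul_of_nonneg_left m (show 0 ≤ 4096 * C1 ^ 2 by positivity)
  have q2 := mul_le_mul_of_nonneg_left (pow_le_pow_left₀ hb0 hT 3)
    (show 0 ≤ 4096 * C1 ^ 2 * δ ^ 2 by positivity)
  have q3 := mul_le_mul_of_nonneg_left (show y - 2 * u ≤ T by linarith)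
    (show 0 ≤ 8 * δ ^ 4 by positivity)
  rw [int_split l4 (b := 2 * u) ⟨le_rfl, hT0⟩ ⟨by linarith, by linarith⟩ ⟨hs0, by linarith⟩,
    int_split l4 (a := 2 * u) (b := y) ⟨by linarith, by linarith⟩ ⟨by linarith, by linarith⟩
      ⟨hs0, by linarith⟩]
  rw [sub_zero] at f
  linarith [cr 0 (2 * u) le_rfl (by linarith) (by linarith),
    cr y s (by linarith) y1.le (by linarith)]

/-- `sup |J|³ ≤ 8 ∫ J²` -/
theorem Fr.J_cube (F : Fr T c C ok z Γ G) (hb : ok pb) (hh : ok ph) {s : ℝ} (hs : 0 ≤ s)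
    (hT : s ≤ T) : |Jf T (z ph) (z pb) s| ^ 3 ≤ 8 * ∫ t in (0 : ℝ)..T, Jf T (z ph) (z pb) t ^ 2 := by
  have lz : LB T fun t => z pb t - z ph t := (F.lbz hb).sub (F.lbz hh)
  refine Lab36.sup_cube lz (fun t _ _ => F.dz_le hb hh t) le_rfl le_rfl hs hT (.inr ?_)
  have h1 := (abs_int_le lz hs le_rfl hT le_rfl le_rfl).trans
    (int_le_const lz.abs (K := 1) hs hT le_rfl fun t _ _ => F.dz_le hb hh t)
  have h2 := abs_nonneg (Jf T (z ph) (z pb) s)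
  unfold Jf at *
  linarith

/-- the area on an interval where the difference has a sign up to `δ` -/
theorem Fr.area_sign (F : Fr T c C ok z Γ G) (hb : ok pb) (hh : ok ph) {x y δ j : ℝ} (hx : 0 ≤ x)
    (hxy : x ≤ y) (hy : y ≤ T) (hδ : 0 ≤ δ) (hj0 : 0 ≤ j)
    (hj : 8 * ∫ t in (0 : ℝ)..T, Jf T (z ph) (z pb) t ^ 2 ≤ j ^ 3)
    (h : (∀ t, x < t → t < y → -δ ≤ z pb t - z ph t) ∨ ∀ t, x < t → t < y → z pb t - z ph t ≤ δ) :
    ∫ t in x..y, |z pb t - z ph t| ≤ 2 * j + 2 * δ * (y - x) := by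
  have lz : LB T fun t => z pb t - z ph t := (F.lbz hb).sub (F.lbz hh)
  have mx : x ∈ Icc 0 T := ⟨hx, by linarith⟩
  have my : y ∈ Icc 0 T := ⟨by linarith, hy⟩
  have b : ∀ s ∈ Icc 0 T, |Jf T (z ph) (z pb) s| ≤ j := fun s hs =>
    (pow_le_pow_iff_left₀ (abs_nonneg _) hj0 three_ne_zero).mp ((F.J_cube hb hh hs.1 hs.2).trans hj)
  have e := Lab36.jf_sub lz mx my
  have b1 := abs_le.mp (b x mx)
  have b2 := abs_le.mp (b y my)
  have key : ∀ σ : ℝ, (∀ t, x < t → t < y → |z pb t - z ph t| ≤ σ * (z pb t - z ph t) + 2 * δ) →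
      ∫ t in x..y, |z pb t - z ph t| ≤
        σ * (Jf T (z ph) (z pb) x - Jf T (z ph) (z pb) y) + 2 * δ * (y - x) := fun σ hσ => by
    have m := int_mono lz.abs (((LB.const σ).mul lz).add (LB.const (2 * δ))) hx hxy hy hσ
    rw [integral_add (((LB.const σ).mul lz).ii mx my) ((LB.const _).ii mx my),
      intervalIntegral.integral_const_mul, intervalIntegral.integral_const, smul_eq_mul, ← e] at m
    linarith
  rcases h with h | h
  · linarith [key 1 fun t t0 t1 => abs_le.mpr ⟨by linarith [h t t0 t1], by linarith⟩]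
  · linarith [key (-1) fun t t0 t1 => abs_le.mpr ⟨by linarith, by linarith [h t t0 t1]⟩]

/-- the root term at the price `l⁵` -/
theorem Fr.root_le (F : Fr T c C ok z Γ G) (hb : ok pb) (hh : ok ph) {l D ρ τ : ℝ} (hl : 0 < l)
    (hT : l ≤ T) (hρ : 0 ≤ ρ) (hτ : 0 < τ) (hD : ∀ t, 0 < t → t < l → |z pb t - z ph t| ≤ D) :
    ρ * |Jf T (z ph) (z pb) 0| ≤ τ * (∫ t in (0 : ℝ)..T, Jf T (z ph) (z pb) t ^ 2) +
      (ρ ^ 2 / (τ * l) + ρ * (l * D)) := by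
  have hT0 : 0 ≤ T := by linarith
  have lz : LB T fun t => z pb t - z ph t := (F.lbz hb).sub (F.lbz hh)
  have lJ := F.lbJ hh hb (right_mem_Icc.mpr hT0)
  obtain ⟨t, t0, t1, ht⟩ := exists_le_mean lJ.sq le_rfl hl hT
  have m := int_sub_le lJ.sq le_rfl le_rfl hl.le hT le_rfl fun _ _ _ => sq_nonneg _
  have e := Lab36.jf_sub lz (s := 0) (t := t) ⟨le_rfl, hT0⟩ ⟨t0.le, by linarith⟩
  have a := (abs_int_le lz le_rfl le_rfl t0.le t1.le hT).trans (int_le_const lz.abs le_rfl hl.le hT hD)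
  rw [← e, sub_zero] at a
  have a2 := abs_sub_abs_le_abs_sub (Jf T (z ph) (z pb) 0) (Jf T (z ph) (z pb) t)
  have a3 := mul_le_mul_of_nonneg_left
    (show |Jf T (z ph) (z pb) 0| ≤ |Jf T (z ph) (z pb) t| + l * D by linarith) hρ
  have a4 := mul_le_mul_of_nonneg_left (ht.trans m) hτ.le
  have y : ρ * |Jf T (z ph) (z pb) t| ≤ τ * l * |Jf T (z ph) (z pb) t| ^ 2 + ρ ^ 2 / (τ * l) := by
    have : τ * l * |Jf T (z ph) (z pb) t| ^ 2 + ρ ^ 2 / (τ * l) - 2 * (ρ * |Jf T (z ph) (z pb) t|) =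
        (τ * l * |Jf T (z ph) (z pb) t| - ρ) ^ 2 / (τ * l) := by field_simp; ring
    have p : 0 ≤ (τ * l * |Jf T (z ph) (z pb) t| - ρ) ^ 2 / (τ * l) := by positivity
    linarith [mul_nonneg hρ (abs_nonneg (Jf T (z ph) (z pb) t))]
  rw [sq_abs] at y
  rw [sub_zero] at a4
  linarith

/-- residual data on `[0, M]` extended to `[0, B]` at the cost `X`, with the gain `Z` -/
def Ext (T : ℝ) (dz ρ H r2 ω β ξ : ℝ → ℝ) (M B X Z : ℝ) : Prop :=
  ∃ H' r1' r2' ω' β' ξ' : ℝ → ℝ, Res T dz ρ H' r1' r2' ω' β' ξ' 0 B ∧ r2' 0 = r2 0 ∧ β' 0 = β 0 ∧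
    ∫ t in (0 : ℝ)..B, ω' t ^ 2 ≤ ∫ t in (0 : ℝ)..M, ω t ^ 2 ∧
    ∫ t in (0 : ℝ)..B, ξ' t ≤ (∫ t in (0 : ℝ)..M, ξ t) + X ∧
    ∫ t in (0 : ℝ)..B, H' t * dz t = (∫ t in (0 : ℝ)..M, H t * dz t) + Z

/-- **middle zone**: an absolute bound `B1` of the residual on `[M, B)`, a further cost `k` -/
theorem Res.mid {dz ρ H r1 r2 ω β ξ H' k : ℝ → ℝ} {M B B1 : ℝ}
    (R : Res T dz ρ H r1 r2 ω β ξ 0 M) (ld : LB T dz) (hM : 0 < M) (hMB : M ≤ B) (hB : B ≤ T)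
    (β0 : 0 ≤ β M) (h1 : 0 ≤ B1) (lH : LB T H') (lk : LB T k)
    (hH : ∀ t, M ≤ t → t < B → 0 ≤ H' t * dz t) (hk : ∀ t, M ≤ t → t < B → 0 ≤ k t)
    (hp : ∀ t, M ≤ t → t < B → (ρ t + H' t - r2 M) * dz t ≤ B1 * |dz t| + k t) :
    ∃ H'' r1' r2' ω' β' ξ' : ℝ → ℝ, Res T dz ρ H'' r1' r2' ω' β' ξ' 0 B ∧
      r2' 0 = r2 0 ∧ β' 0 = β 0 ∧ r2' B = r2 M ∧ β' B = β M ∧
      ∫ t in (0 : ℝ)..B, ω' t ^ 2 = ∫ t in (0 : ℝ)..M, ω t ^ 2 ∧
      ∫ t in (0 : ℝ)..B, ξ' t = (∫ t in (0 : ℝ)..M, ξ t) +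
        ((B1 + β M) * (∫ t in M..B, |dz t|) + ∫ t in M..B, k t) ∧
      ∫ t in (0 : ℝ)..B, H'' t * dz t =
        (∫ t in (0 : ℝ)..M, H t * dz t) + ∫ t in M..B, H' t * dz t := by
  have mM : M ∈ Icc 0 T := ⟨hM.le, by linarith⟩
  have mB : B ∈ Icc 0 T := ⟨by linarith, hB⟩
  have lx := ((LB.const (B1 + β M)).mul ld.abs).add lk
  refine ⟨_, _, _, _, _, _, Pr.Reg48.res_ext R le_rfl hB β0 lH lx hH
    (fun t t0 t1 => add_nonneg (by positivity) (hk t t0 t1))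
    (fun t t0 t1 => by linarith [hp t t0 t1]), if_pos hM, if_pos hM, if_neg (not_lt.mpr hMB),
    if_neg (not_lt.mpr hMB), ?_, ?_, ?_⟩
  · have := Pr.Reg48.int_ite (M := M) R.lω.sq (LB.const 0) le_rfl hM.le hMB hB
    rw [intervalIntegral.integral_zero, add_zero] at this
    rw [← this]
    refine integral_congr fun t _ => ?_
    split_ifs <;> simp
  · rw [Pr.Reg48.int_ite R.lξ lx le_rfl hM.le hMB hB,
      integral_add (((LB.const _).mul ld.abs).ii mM mB) (lk.ii mM mB),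
      intervalIntegral.integral_const_mul]
  · rw [← Pr.Reg48.int_ite (R.lH.mul ld) (lH.mul ld) le_rfl hM.le hMB hB]
    refine integral_congr fun t _ => ?_
    split_ifs <;> rfl

theorem Ext.trans {dz ρ H r2 ω β ξ H' r2' ω' β' ξ' : ℝ → ℝ} {M B D X Z X' Z' : ℝ}
    (e1 : r2' 0 = r2 0) (e2 : β' 0 = β 0)
    (e3 : ∫ t in (0 : ℝ)..B, ω' t ^ 2 ≤ ∫ t in (0 : ℝ)..M, ω t ^ 2)
    (e4 : ∫ t in (0 : ℝ)..B, ξ' t ≤ (∫ t in (0 : ℝ)..M, ξ t) + X)
    (e5 : ∫ t in (0 : ℝ)..B, H' t * dz t = (∫ t in (0 : ℝ)..M, H t * dz t) + Z)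
    (h : Ext T dz ρ H' r2' ω' β' ξ' B D X' Z') : Ext T dz ρ H r2 ω β ξ M D (X + X') (Z + Z') := by
  obtain ⟨_, _, _, _, _, _, R, a1, a2, a3, a4, a5⟩ := h
  exact ⟨_, _, _, _, _, _, R, a1.trans e1, a2.trans e2, a3.trans e3, by linarith, by linarith⟩

/-- **the global energy bound** -/
theorem Fr.topE (F : Fr T c C ok z Γ G) (hb : ok pb) (hh : ok ph) {H r2 ω β m f : ℝ → ℝ}
    {s b C1 δ θ K2 e2 X Z P0 B1 Ω : ℝ} (hs0 : 0 ≤ s) (hs : s ≤ b) (hT : b ≤ T) (hC : 0 < C1)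
    (hθ : 0 ≤ θ) (lH : LB T H) (lm : LB T m) (lf : LB T f)
    (up : ∀ s t, 0 ≤ s → s ≤ t → t ≤ b → z ph t - z ph s ≤ C1 * (t - s) + δ)
    (h0 : z ph 0 ≤ δ) (h1 : ∀ t, t < s → z pb t ≤ z ph b + δ)
    (H0 : ∀ t, 0 < t → t < s → 0 ≤ H t * (z pb t - z ph t))
    (mass : ∫ t in (0 : ℝ)..s, m t * (z pb t - z ph t) ^ 2 ≤
      K2 * (∫ t in (0 : ℝ)..s, H t * (z pb t - z ph t)) + e2)
    (ext : Ext T (fun t => z pb t - z ph t) (fun t => Γ pb t - Γ ph t) H r2 ω β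
      (fun t => Gap27.xi θ (m t) (f t) (∫ s in (0 : ℝ)..T, |Jf T (z ph) (z pb) s|)
        (z pb t - z ph t) (Jf T (z ph) (z pb) t)) s T X Z)
    (hX : X ≤ c / 8 * (∫ t in (0 : ℝ)..T, Jf T (z ph) (z pb) t ^ 2) + Z / 4 + P0)
    (hB : (|r2 0| + β 0) * |Jf T (z ph) (z pb) 0| ≤
      c / 8 * (∫ t in (0 : ℝ)..T, Jf T (z ph) (z pb) t ^ 2) + B1) (hB1 : 0 ≤ B1)
    (hΩ : (∫ t in (0 : ℝ)..s, ω t ^ 2) / c ≤
      Ω + θ * ∫ t in (0 : ℝ)..s, (z pb t - z ph t) ^ 4)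
    (s4 : θ * (3 * (4096 * C1 ^ 2) + (1 + T ^ 2)) ≤ c / 8) (s2 : θ * (2 * K2) ≤ 1 / 4) :
    c / 8 * (∫ t in (0 : ℝ)..T, Jf T (z ph) (z pb) t ^ 2) +
        (∫ t in (0 : ℝ)..s, H t * (z pb t - z ph t)) / 4 + Z / 4 ≤
      θ * ((∫ t in (0 : ℝ)..s, f t) +
        3 * (4096 * C1 ^ 2 * δ ^ 2 * T ^ 3 + 8 * δ ^ 4 * T + 6 * δ / C1) + 2 * e2) + P0 + B1 + Ω := by
  obtain ⟨H', r1', r2', ω', β', ξ', R, a1, a2, a3, a4, a5⟩ := ext
  have hc := F.c_pos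
  have hT0 : 0 ≤ T := by linarith
  have lz : LB T fun t => z pb t - z ph t := (F.lbz hb).sub (F.lbz hh)
  have p0 : 0 ≤ ∫ t in (0 : ℝ)..T, Jf T (z ph) (z pb) t ^ 2 :=
    integral_nonneg hT0 fun _ _ => sq_nonneg _
  have p1 := int_mono (LB.const 0) (lH.mul lz) le_rfl hs0 (by linarith) H0
  rw [intervalIntegral.integral_zero] at p1
  rw [← a1, ← a2] at hB
  have t1 := F.block_top hb hh hT0 R hB (by positivity)
  have t2 := Gap27.int_xi lz (F.lbJ hh hb (right_mem_Icc.mpr hT0)) lm lf le_rfl hs0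
    (by linarith) hθ
  have t3 := div_le_div_of_nonneg_right a3 hc.le
  have t4 := mul_le_mul_of_nonneg_left (F.four_bulk hb hh hs0 hs hT hC up h0 h1) hθ
  have t5 := mul_le_mul_of_nonneg_left mass hθ
  have t6 := mul_le_mul_of_nonneg_right s4 p0
  have t7 := mul_le_mul_of_nonneg_right s2 p1
  simp only at a5
  linarith

end Crest.Agent.T156.Cut8
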