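import Crest.Agent.T156.PlatB_48
import Crest.Agent.T156.TopE_8

/-!
Row 156 (helper48): the plateau part of the energy estimate with the local energy
`∫_{A0}^T J² + (∫_0^{A0} |J|)²`.
-/

set_option autoImplicit false

namespace Crest.Agent.T156.Pr.Reg48

open MeasureTheory Set
open Crest.Agent.R164.GC Crest.Agent.R339.B Crest.Agent.R339.Var Crest.Agent.T157.Pf
open Crest.Agent.T156.Cut8 (LB Res int_mono int_split Ext)

noncomputable section

theorem iota_loc {T A E : ℝ} {J : ℝ → ℝ} (lJ : LB T J) (hA : 0 ≤ A) (hT : A ≤ T)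
    (hE : (∫ t in A..T, J t ^ 2) + (∫ t in (0:ℝ)..A, |J t|) ^ 2 ≤ E) :
    (∫ s in (0:ℝ)..T, |J s|) ^ 2 ≤ (T + 1) * E := by
  have s := int_split lJ.abs (a := 0) (b := A) (c := T) ⟨le_rfl, hA.trans hT⟩ ⟨hA, hT⟩
    ⟨hA.trans hT, le_rfl⟩
  have c := Gap27.sq_int_le lJ hA hT le_rfl
  have I0 : 0 ≤ ∫ t in A..T, J t ^ 2 := int_nn hT fun _ => sq_nonneg _
  rw [s]
  generalize (∫ t in A..T, J t ^ 2) = I at *
  generalize (∫ t in (0:ℝ)..A, |J t|) = x at *
  generalize (∫ t in A..T, |J t|) = y at *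
  have T0 := hA.trans hT
  have c' : y ^ 2 ≤ T * I := c.trans (mul_le_mul_of_nonneg_right (by linarith) I0)
  refine le_trans ?_ (mul_le_mul_of_nonneg_left hE (by linarith))
  rcases T0.eq_or_lt with z | z
  · subst z
    have : y = 0 := by nlinarith [sq_nonneg y]
    subst this
    linarith
  · have : T * (2 * x * y) ≤ T * (T * x ^ 2 + I) := by nlinarith [sq_nonneg (T * x - y)]
    have := le_of_mul_le_mul_left this z
    nlinarith

variable {lb lh : List (ℝ × ℝ)} {T b σ M P c0 η g Dh lam G0 Gt e e1 κ u1 : ℝ} {hb : ℝ → ℝ}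

namespace Pl

variable (h : Pl lb lh T b σ M P c0 η g Dh lam G0 Gt e e1 κ u1 hb)
include h

theorem r4L {C y ι : ℝ} (hC : 0 ≤ C) (hL : Spl27.GLip T C)
    (hy : ∀ s ∈ Icc M T, |Sc48.Jf lh lb T s| ≤ y) (hι : ι = ∫ s in (0:ℝ)..T, |Sc48.Jf lh lb T s|)
    {t : ℝ} (a : max (max M σ) P ≤ t) (c : t < T) :
    -(η + (Gt + e1 * (max M σ - M)) / b + C * (y + ι) * (max M σ - M) + C * (u1 * T + ι) * T) ≤
      Gam lb t - Gam lh t - c0 := by
  obtain ⟨-, -, -, -, -, -, e0, e10, -⟩ := h.nn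
  obtain ⟨mP, a1, a2⟩ := h.atP
  have P0 := h.M0.trans h.MP
  have T0 := P0.trans h.PT
  have b0 := h.b0
  have D0 : 0 ≤ max M σ - M := sub_nonneg.2 (le_max_left _ _)
  have ι0 : 0 ≤ ι := hι ▸ int_nn T0 fun _ => abs_nonneg _
  have y0 : 0 ≤ y := (abs_nonneg _).trans (hy T ⟨h.MP.trans h.PT, le_rfl⟩)
  have u0 : 0 ≤ u1 := le_trans (sub_nonneg.2 (Pp.Ode3.lvr_le_one h.okb.1 P)) h.last
  set Q := max (max M σ) P with hQ
  have PQ : P ≤ Q := le_max_right _ _
  have σQ : σ ≤ Q := (le_max_right _ _).trans (le_max_left _ _)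
  have QP : Q - P ≤ max M σ - M := by
    have := max_le (le_refl (max M σ)) (le_refl _)
    rcases le_total (max M σ) P with x | x
    · rw [hQ, max_eq_right x]; linarith
    · rw [hQ, max_eq_left x]; linarith [h.MP]
  have m1 : σ - b * Gam lh σ ≤ P - b * Gam lh P + e1 * (max M σ - M) := by
    rcases le_total σ P with x | x
    · have := h.grow (.inr le_rfl) x h.PT
      nlinarith [mul_nonneg e0.le (sub_nonneg.2 x), mul_nonneg e10 D0]
    · have := Mh_le h.okh b0 P0 x (by rw [h.th]; exact h.σT) (e := e1)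
        fun r hr => h.eup r ⟨h.MP.trans hr.1, hr.2⟩
      have := mul_le_mul_of_nonneg_left
        (show σ - P ≤ max M σ - M by linarith [le_max_right M σ, h.MP]) e10
      linarith
  have s0 : -(η + (Gt + e1 * (max M σ - M)) / b) ≤ Gam lb P - Gam lh P - c0 := by
    have : (P - mP) / b + (Gt + e1 * (max M σ - M)) / b ≥ Gam lh P := by
      rw [← add_div, ge_iff_le, le_div_iff₀ b0]; linarith
    linarith
  have QT : Q ≤ T := a.trans c.le
  have s1 := (abs_le.1 (reg4 h.okh h.okb (j := C * (y + ι)) P0 PQ (by rw [h.th]; exact QT)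
    (by rw [h.tb]; exact QT) fun r hr => by
      have mr : r ∈ Icc 0 T := ⟨P0.trans hr.1, hr.2.le.trans QT⟩
      refine (hL lh lb h.okh h.okb h.th h.tb r mr).trans ?_
      rw [← hι]
      exact mul_le_mul_of_nonneg_left (by linarith [hy r ⟨h.MP.trans hr.1, mr.2⟩]) hC)).1
  have s2 := (abs_le.1 (reg4 h.okh h.okb (j := C * (u1 * T + ι)) (P0.trans PQ) a
    (by rw [h.th]; exact c.le) (by rw [h.tb]; exact c.le) fun r hr => by
      have mr : r ∈ Icc 0 T := ⟨(P0.trans PQ).trans hr.1, hr.2.le.trans c.le⟩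
      refine (hL lh lb h.okh h.okb h.th h.tb r mr).trans ?_
      rw [← hι]
      have := Jf_le (l := lh) (l' := lb) (u := u1) mr.2 fun x hx => by
        rw [(h.dtop (σQ.trans (hr.1.trans hx.1.le))).2]
        linarith [h.last, Sc48.lvr_mono h.okb.1 (PQ.trans (hr.1.trans hx.1.le))]
      have := mul_le_mul_of_nonneg_left (show T - r ≤ T by linarith [mr.1]) u0
      exact mul_le_mul_of_nonneg_left (by linarith) hC)).1
  have s3 := mul_le_mul_of_nonneg_left QP (show 0 ≤ C * (y + ι) by positivity)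
  have s4 := mul_le_mul_of_nonneg_left (show t - Q ≤ T by linarith [c.le])
    (show 0 ≤ C * (u1 * T + ι) by positivity)
  linarith

set_option maxHeartbeats 1600000 in
/-- **the plateau part of the energy estimate**, local energy -/
theorem resL {A A0 C θ E N : ℝ} {H r1 r2 ω β ξ : ℝ → ℝ} (hC : 0 ≤ C) (hL : Spl27.GLip T C)
    (R : Res T (fun t => lvr 1 lb t - lvr 1 lh t) (fun t => Gam lb t - Gam lh t) H r1 r2 ω β ξ A M)
    (hA : 0 ≤ A) (hAM : A ≤ M) (hc : r2 M = c0) (β0 : 0 ≤ β M)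
    (hA0 : 0 ≤ A0) (hA0M : A0 ≤ M)
    (hE : (∫ t in A0..T, Sc48.Jf lh lb T t ^ 2) + (∫ t in (0:ℝ)..A0, |Sc48.Jf lh lb T t|) ^ 2 ≤ E)
    (n : PN T C b θ (η + β M + Dh / b) g G0 Gt e e1 κ u1 N) :
    ∃ (H' r1' r2' ω' β' ξ' : ℝ → ℝ) (Z : ℝ),
      Res T (fun t => lvr 1 lb t - lvr 1 lh t) (fun t => Gam lb t - Gam lh t)
        H' r1' r2' ω' β' ξ' A T ∧
      (∀ t, t < M → H' t = H t ∧ r1' t = r1 t ∧ r2' t = r2 t ∧ β' t = β t) ∧
      r2' M = r2 M ∧ β' M = β M ∧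
      ∫ t in A..T, ω' t ^ 2 = ∫ t in A..M, ω t ^ 2 ∧
      ∫ t in A..T, H' t * (lvr 1 lb t - lvr 1 lh t) =
        (∫ t in A..M, H t * (lvr 1 lb t - lvr 1 lh t)) + Z ∧ 0 ≤ Z ∧
      ∫ t in A..T, ξ' t ≤ (∫ t in A..M, ξ t) + 6 * θ * E + Z / 4 + 10 * N ∧
      e * κ * (max M σ - M) ^ 2 / (2 * b) + e / (4 * b) *
        (∫ t in max M σ..max (max M σ) P, (t - max M σ) * (1 - lvr 1 lb t)) ≤ Z + N := by
  obtain ⟨η0, g0, Dh0, l0, G00, Gt0, e0, e10, κ0, κ1⟩ := h.nn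
  have b0 := h.b0
  have M0 := h.M0
  have MT := h.MP.trans h.PT
  have T0 := M0.trans MT
  have θ0 := n.θ0
  have N0 := n.N0
  have u0 : 0 ≤ u1 := le_trans (sub_nonneg.2 (Pp.Ode3.lvr_le_one h.okb.1 P)) h.last
  have ld := h.ld
  have lΓ : LB T (Gam lh) := .of_cont (h.th ▸ (ode h.okh).1)
  have lM : LB T fun t => t - b * Gam lh t :=
    (LB.of_cont continuousOn_id).sub ((LB.const b).mul lΓ)
  have lJ : LB T (Sc48.Jf lh lb T) := .of_cont (ld.tail (right_mem_Icc.mpr T0))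
  have AT := hA0M.trans MT
  have ι2 := iota_loc lJ hA0 AT hE
  replace hE : ∫ t in A0..T, Sc48.Jf lh lb T t ^ 2 ≤ E := (le_add_of_nonneg_right (sq_nonneg _)).trans hE
  have E0 : 0 ≤ E := (int_nn AT fun _ => sq_nonneg _).trans hE
  obtain ⟨y, y0, hy3⟩ : ∃ y : ℝ, 0 ≤ y ∧ y ^ 3 = 8 * E :=
    ⟨(8 * E) ^ (((3:ℕ):ℝ)⁻¹), by positivity, Real.rpow_inv_natCast_pow (by positivity) (by norm_num)⟩
  have hy : ∀ s ∈ Icc M T, |Sc48.Jf lh lb T s| ≤ y := fun s hs => by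
    have a := Jf_le (l := lh) (l' := lb) (u := 1) hs.2 fun r _ => h.d1 r
    have c := Lab36.sup_cube (zh := lvr 1 lh) (zb := lvr 1 lb) ld (fun t _ _ => h.d1 t) hA0
      le_rfl (hA0M.trans hs.1) hs.2 (.inr (by
        show s + |Sc48.Jf lh lb T s| / 2 ≤ T
        linarith [abs_nonneg (Sc48.Jf lh lb T s)]))
    refine le_of_pow_le_pow_left₀ (n := 3) (by norm_num) y0 (c.trans ?_)
    rw [hy3]
    exact mul_le_mul_of_nonneg_left hE (by norm_num)
  set ι := ∫ s in (0:ℝ)..T, |Sc48.Jf lh lb T s| with hι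
  have ι0 : 0 ≤ ι := int_nn T0 fun _ => abs_nonneg _
  have r2' := fun t => h.r2 (t := t)
  have r3' := fun t => h.r3 (t := t)
  have r4' := fun t => h.r4L hC hL hy hι (t := t)
  have gw := fun s => h.grow' (s := s)
  have st := h.stat
  have cS : max M σ - M = 0 ∨ (M < σ ∧ max M σ = σ) := by
    rcases le_or_gt σ M with x | x
    · exact .inl (by rw [max_eq_left x, sub_self])
    · exact .inr ⟨x, max_eq_right x.le⟩
  set S := max M σ with hS
  have MS : M ≤ S := le_max_left _ _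
  have σS : σ ≤ S := le_max_right _ _
  have ST : S ≤ T := max_le MT h.σT
  set Q := max S P with hQ
  have SQ : S ≤ Q := le_max_left _ _
  have QT : Q ≤ T := max_le ST h.PT
  have S0 := M0.trans MS
  have tP : ∀ t, S ≤ t → t < Q → t < P := fun t a c =>
    (lt_max_iff.1 c).resolve_left (not_lt.2 a)
  set D := S - M with hD
  have D0 : 0 ≤ D := sub_nonneg.2 MS
  have lh' : LB T fun t => hb t + lam * e * (t - S) := h.lhb.add (LB_lin T _ S)
  subst hc
  obtain ⟨H', r1', r2'', ω', β', ξ', R', c1, c2, c3, c4, c5, c6⟩ := res_top (hm := hb M) R ld lΓ lh'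
    b0 hA hAM MS SQ QT β0 (by positivity) (by positivity) (by positivity) r2'
    (fun t a c => ⟨(h.dtop (σS.trans a)).1, r3' t a (tP t a c)⟩)
    (fun t a c => ⟨(h.dtop (σS.trans (SQ.trans a))).1, r4' t a c⟩)
  have eW : ∫ t in S..Q, (t - S) * (1 - lvr 1 lb t) =
      ∫ t in S..Q, (t - S) * |lvr 1 lb t - lvr 1 lh t| :=
    intervalIntegral.integral_congr_Ioo_of_le SQ fun t ht => by
      rw [(h.dtop (σS.trans ht.1.le)).2]
  rw [eW]
  have mS : S ∈ Icc 0 T := ⟨S0, ST⟩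
  have mQ : Q ∈ Icc 0 T := ⟨S0.trans SQ, QT⟩
  have mT : T ∈ Icc 0 T := ⟨T0, le_rfl⟩
  have bt := bath ld.abs S0 SQ QT (fun _ => abs_nonneg _) fun t _ _ => h.d1 t
  have I2 : ∫ t in M..S, |lvr 1 lb t - lvr 1 lh t| ≤ D * 1 :=
    int_le ld.abs M0 MS ST fun t _ _ => h.d1 t
  have I2' : 0 ≤ ∫ t in M..S, |lvr 1 lb t - lvr 1 lh t| := int_nn MS fun _ => abs_nonneg _
  have I4 : ∫ t in Q..T, |lvr 1 lb t - lvr 1 lh t| ≤ u1 * T := by
    refine (int_le ld.abs mQ.1 QT le_rfl (K := u1) fun t a _ => ?_).trans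
      (by linarith [mul_nonneg mQ.1 u0])
    rw [(h.dtop (σS.trans (SQ.trans a.le))).2]
    linarith [h.last, Sc48.lvr_mono h.okb.1 ((le_max_right S P).trans a.le)]
  have I4' : 0 ≤ ∫ t in Q..T, |lvr 1 lb t - lvr 1 lh t| := int_nn QT fun _ => abs_nonneg _
  have V0 : 0 ≤ ∫ t in S..Q, |lvr 1 lb t - lvr 1 lh t| := int_nn SQ fun _ => abs_nonneg _
  have V1 : ∫ t in S..Q, |lvr 1 lb t - lvr 1 lh t| ≤ y := by
    have a := int_split ld.abs mS mQ mT
    have c : ∫ t in S..T, |lvr 1 lb t - lvr 1 lh t| = -Sc48.Jf lh lb T S := by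
      unfold Sc48.Jf
      rw [← intervalIntegral.integral_neg]
      exact intervalIntegral.integral_congr_Ioo_of_le ST fun t ht =>
        abs_of_nonpos (h.dtop (σS.trans ht.1.le)).1
    linarith [neg_le_abs (Sc48.Jf lh lb T S), hy S ⟨MS, ST⟩]
  have D3 : κ ^ 2 * D ^ 3 / 64 ≤ E := by
    rcases cS with x | ⟨-, x⟩
    · rw [x]; simpa using E0
    · have a := Lab36.gap_pos (zh := lvr 1 lh) (zb := lvr 1 lb) ld M0 D0 (by linarith) κ0.le
        fun t a c => h.gap t ⟨a.le, by linarith⟩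
      have c := intervalIntegral.integral_mono_interval (μ := volume) (a := M) (b := M + D)
        (c := A0) (d := T) (f := fun t => Sc48.Jf lh lb T t ^ 2) hA0M (by linarith) (by linarith)
        (Filter.Eventually.of_forall fun _ => sq_nonneg _) (lJ.sq.ii ⟨hA0, AT⟩ mT)
      exact a.trans (c.trans hE)
  have Z2 : e * κ * D ^ 2 / 2 ≤
      ∫ t in M..S, (hb M - (t - b * Gam lh t)) * |lvr 1 lb t - lvr 1 lh t| := by
    rcases cS with x | ⟨x0, x⟩
    · rw [x, show S = M by linarith]; simp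
    · have a := int_mono (LB_lin T (-(e * κ)) S) (((LB.const (hb M)).sub lM).mul ld.abs) M0 MS ST
        fun t a c => by
          have g1 := h.gap t ⟨a.le, by linarith⟩
          have g2 := h.grow (.inl a.le) (by linarith : t ≤ σ) h.σT
          have g3 := (h.atM x0).1
          have g4 : e * (σ - t) ≤ hb M - (t - b * Gam lh t) := by linarith
          have g5 : 0 ≤ e * (σ - t) := mul_nonneg e0.le (by linarith)
          have := mul_le_mul g4 (g1.trans (le_abs_self _)) κ0.le (g5.trans g4)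
          rw [x]
          linarith
      rw [int_lin] at a
      refine le_of_eq_of_le ?_ a
      rw [hD]; ring
  have lk : LB T fun t => hb t + lam * e * (t - S) - (t - b * Gam lh t) + e / 4 * (t - S) :=
    (lh'.sub lM).add (LB_lin T _ S)
  have St := static_cost (e := e / 4) ld lk S0 SQ QT (by positivity) G00 (fun t _ _ => h.d1 t)
    fun t a c => by
      rw [(h.dtop (σS.trans a.le)).2]
      refine le_trans (mul_le_mul_of_nonneg_right ?_ (Real.sqrt_nonneg _)) (st t a (tP t a.le c))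
      have g1 := gw t a.le (c.le.trans QT)
      have g2 : 0 ≤ e * (t - S) := mul_nonneg e0.le (by linarith)
      linarith [mul_le_mul_of_nonneg_right (h.lamκ.trans (by linarith : κ / 32 ≤ 1 / 2)) g2]
  have St' : (∫ t in S..Q, max (hb t + lam * e * (t - S) - (t - b * Gam lh t) + e / 4 * (t - S)) 0 *
      |lvr 1 lb t - lvr 1 lh t|) / b ≤ N := by
    refine le_trans (div_le_div_of_nonneg_right (St.trans ?_) b0.le) n.h8
    have q0 := sub_nonneg.2 SQ
    rw [show 2 * G0 ^ 2 / (e / 4) = 8 * G0 ^ 2 / e by field_simp; ring]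
    refine mul_le_mul_of_nonneg_left (Real.log_le_log (by positivity) ?_) (by positivity)
    have : e / 4 * (Q - S) ≤ e * T :=
      mul_le_mul (by linarith) (by linarith) q0 e0.le
    gcongr
  have lW : LB T fun t => (t - S) * |lvr 1 lb t - lvr 1 lh t| := by
    simpa using (LB_lin T 1 S).mul ld.abs
  have l3 := (LB_max (lM.sub lh')).mul ld.abs
  have lk' := (LB_max lk).mul ld.abs
  have St1 := int_mono ((LB_max (lh'.sub lM)).mul ld.abs) lk' S0 SQ QT fun t a _ =>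
    mul_le_mul_of_nonneg_right (max_le_max_right 0 (le_add_of_nonneg_right
      (mul_nonneg (by positivity) (by linarith)))) (abs_nonneg _)
  have Z3 := int_mono ((LB.const (e / 4)).mul lW) (l3.add lk') S0 SQ QT fun t _ _ => by
    rw [← add_mul, ← mul_assoc]
    refine mul_le_mul_of_nonneg_right ?_ (abs_nonneg _)
    linarith [le_max_left (t - b * Gam lh t - (hb t + lam * e * (t - S))) 0, le_max_left
      (hb t + lam * e * (t - S) - (t - b * Gam lh t) + e / 4 * (t - S)) 0]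
  rw [intervalIntegral.integral_add (l3.ii mS mQ) (lk'.ii mS mQ),
    intervalIntegral.integral_const_mul] at Z3
  have Z30 : 0 ≤ ∫ t in S..Q, max (t - b * Gam lh t - (hb t + lam * e * (t - S))) 0 *
      |lvr 1 lb t - lvr 1 lh t| := int_nn SQ fun _ => by positivity
  refine ⟨H', r1', r2'', ω', β', ξ', _, R', c1, c2, c3, c4, c6, ?_⟩
  rw [c5]
  generalize (∫ t in M..S, (hb M - (t - b * Gam lh t)) * |lvr 1 lb t - lvr 1 lh t|) = z2 at *
  generalize (∫ t in S..Q, max (t - b * Gam lh t - (hb t + lam * e * (t - S))) 0 *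
    |lvr 1 lb t - lvr 1 lh t|) = z3 at *
  generalize (∫ t in S..Q, max (hb t + lam * e * (t - S) - (t - b * Gam lh t) + e / 4 * (t - S)) 0 *
    |lvr 1 lb t - lvr 1 lh t|) = s2 at *
  generalize (∫ t in S..Q, max (hb t + lam * e * (t - S) - (t - b * Gam lh t)) 0 *
    |lvr 1 lb t - lvr 1 lh t|) = s1 at *
  generalize (∫ t in S..Q, (t - S) * |lvr 1 lb t - lvr 1 lh t|) = W at *
  generalize (∫ t in S..Q, |lvr 1 lb t - lvr 1 lh t|) = V at *
  generalize (∫ t in M..S, |lvr 1 lb t - lvr 1 lh t|) = i2 at *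
  generalize (∫ t in Q..T, |lvr 1 lb t - lvr 1 lh t|) = i4 at *
  exact fin n hC b0 T0 (by linarith) η0 β0 g0 Dh0 h.lamκ Gt0 e0 e10 κ0 κ1 u0 E0 D0 y0 hy3 ι0 ι2
    D3 V0 V1 bt I2 I2' I4 I4' Z2 Z3 Z30 St1 St'

theorem r4UL {C y ι U Lt : ℝ} (hU : ∀ s, U ≤ s → lvr 1 lb s = 1) (L0 : 0 ≤ Lt)
    (hL' : U - max M σ ≤ Lt) (hC : 0 ≤ C) (hL : Spl27.GLip T C)
    (hy : ∀ s ∈ Icc M T, |Sc48.Jf lh lb T s| ≤ y) (hι : ι = ∫ s in (0:ℝ)..T, |Sc48.Jf lh lb T s|)
    {t : ℝ} (a : max (max M σ) P ≤ t) (c : t < T) (cU : t < U) :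
    -(η + (Gt + e1 * (max M σ - M)) / b + C * (y + ι) * (max M σ - M) + C * (u1 * Lt + ι) * Lt) ≤
      Gam lb t - Gam lh t - c0 := by
  obtain ⟨-, -, -, -, -, -, e0, e10, -⟩ := h.nn
  obtain ⟨mP, a1, a2⟩ := h.atP
  have P0 := h.M0.trans h.MP
  have T0 := P0.trans h.PT
  have b0 := h.b0
  have D0 : 0 ≤ max M σ - M := sub_nonneg.2 (le_max_left _ _)
  have ι0 : 0 ≤ ι := hι ▸ int_nn T0 fun _ => abs_nonneg _
  have y0 : 0 ≤ y := (abs_nonneg _).trans (hy T ⟨h.MP.trans h.PT, le_rfl⟩)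
  have u0 : 0 ≤ u1 := le_trans (sub_nonneg.2 (Pp.Ode3.lvr_le_one h.okb.1 P)) h.last
  set Q := max (max M σ) P with hQ
  have PQ : P ≤ Q := le_max_right _ _
  have σQ : σ ≤ Q := (le_max_right _ _).trans (le_max_left _ _)
  have QP : Q - P ≤ max M σ - M := by
    have := max_le (le_refl (max M σ)) (le_refl _)
    rcases le_total (max M σ) P with x | x
    · rw [hQ, max_eq_right x]; linarith
    · rw [hQ, max_eq_left x]; linarith [h.MP]
  have m1 : σ - b * Gam lh σ ≤ P - b * Gam lh P + e1 * (max M σ - M) := by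
    rcases le_total σ P with x | x
    · have := h.grow (.inr le_rfl) x h.PT
      nlinarith [mul_nonneg e0.le (sub_nonneg.2 x), mul_nonneg e10 D0]
    · have := Mh_le h.okh b0 P0 x (by rw [h.th]; exact h.σT) (e := e1)
        fun r hr => h.eup r ⟨h.MP.trans hr.1, hr.2⟩
      have := mul_le_mul_of_nonneg_left
        (show σ - P ≤ max M σ - M by linarith [le_max_right M σ, h.MP]) e10
      linarith
  have s0 : -(η + (Gt + e1 * (max M σ - M)) / b) ≤ Gam lb P - Gam lh P - c0 := by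
    have : (P - mP) / b + (Gt + e1 * (max M σ - M)) / b ≥ Gam lh P := by
      rw [← add_div, ge_iff_le, le_div_iff₀ b0]; linarith
    linarith
  have QT : Q ≤ T := a.trans c.le
  have s1 := (abs_le.1 (reg4 h.okh h.okb (j := C * (y + ι)) P0 PQ (by rw [h.th]; exact QT)
    (by rw [h.tb]; exact QT) fun r hr => by
      have mr : r ∈ Icc 0 T := ⟨P0.trans hr.1, hr.2.le.trans QT⟩
      refine (hL lh lb h.okh h.okb h.th h.tb r mr).trans ?_
      rw [← hι]
      exact mul_le_mul_of_nonneg_left (by linarith [hy r ⟨h.MP.trans hr.1, mr.2⟩]) hC)).1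
  have s2 := (abs_le.1 (reg4 h.okh h.okb (j := C * (u1 * Lt + ι)) (P0.trans PQ) a
    (by rw [h.th]; exact c.le) (by rw [h.tb]; exact c.le) fun r hr => by
      have mr : r ∈ Icc 0 T := ⟨(P0.trans PQ).trans hr.1, hr.2.le.trans c.le⟩
      refine (hL lh lb h.okh h.okb h.th h.tb r mr).trans ?_
      rw [← hι]
      have := (intervalIntegral.abs_integral_le_integral_abs mr.2).trans
        (h.tail hU L0 hL' hr.1 mr.2)
      exact mul_le_mul_of_nonneg_left (add_le_add this le_rfl) hC)).1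
  have s3 := mul_le_mul_of_nonneg_left QP (show 0 ≤ C * (y + ι) by positivity)
  have s4 := mul_le_mul_of_nonneg_left (show t - Q ≤ Lt by linarith [le_max_left (max M σ) P])
    (show 0 ≤ C * (u1 * Lt + ι) by positivity)
  linarith

set_option maxHeartbeats 1600000 in
/-- **the plateau part of the energy estimate**, local energy, `zb = 1` from `U` on, `U - max M σ ≤ Lt` -/
theorem resUL {A A0 C θ E N U Lt : ℝ} {H r1 r2 ω β ξ : ℝ → ℝ} (hU : ∀ s, U ≤ s → lvr 1 lb s = 1)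
    (L0 : 0 ≤ Lt) (hL' : U - max M σ ≤ Lt) (hC : 0 ≤ C) (hL : Spl27.GLip T C)
    (R : Res T (fun t => lvr 1 lb t - lvr 1 lh t) (fun t => Gam lb t - Gam lh t) H r1 r2 ω β ξ A M)
    (hA : 0 ≤ A) (hAM : A ≤ M) (hc : r2 M = c0) (β0 : 0 ≤ β M)
    (hA0 : 0 ≤ A0) (hA0M : A0 ≤ M)
    (hE : (∫ t in A0..T, Sc48.Jf lh lb T t ^ 2) + (∫ t in (0:ℝ)..A0, |Sc48.Jf lh lb T t|) ^ 2 ≤ E)
    (n : PNU T Lt C b θ (η + β M + Dh / b) g G0 Gt e e1 κ u1 N) :
    ∃ (H' r1' r2' ω' β' ξ' : ℝ → ℝ) (Z : ℝ),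
      Res T (fun t => lvr 1 lb t - lvr 1 lh t) (fun t => Gam lb t - Gam lh t)
        H' r1' r2' ω' β' ξ' A T ∧
      (∀ t, t < M → H' t = H t ∧ r1' t = r1 t ∧ r2' t = r2 t ∧ β' t = β t) ∧
      r2' M = r2 M ∧ β' M = β M ∧
      ∫ t in A..T, ω' t ^ 2 = ∫ t in A..M, ω t ^ 2 ∧
      ∫ t in A..T, H' t * (lvr 1 lb t - lvr 1 lh t) =
        (∫ t in A..M, H t * (lvr 1 lb t - lvr 1 lh t)) + Z ∧ 0 ≤ Z ∧
      ∫ t in A..T, ξ' t ≤ (∫ t in A..M, ξ t) + 8 * θ * E + Z / 4 + 11 * N ∧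
      e * κ * (max M σ - M) ^ 2 / (2 * b) + e / (4 * b) *
        (∫ t in max M σ..max (max M σ) P, (t - max M σ) * (1 - lvr 1 lb t)) ≤ Z + N := by
  obtain ⟨η0, g0, Dh0, l0, G00, Gt0, e0, e10, κ0, κ1⟩ := h.nn
  have b0 := h.b0
  have M0 := h.M0
  have MT := h.MP.trans h.PT
  have T0 := M0.trans MT
  have θ0 := n.θ0
  have N0 := n.N0
  have u0 : 0 ≤ u1 := le_trans (sub_nonneg.2 (Pp.Ode3.lvr_le_one h.okb.1 P)) h.last
  have ld := h.ld
  have lΓ : LB T (Gam lh) := .of_cont (h.th ▸ (ode h.okh).1)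
  have lM : LB T fun t => t - b * Gam lh t :=
    (LB.of_cont continuousOn_id).sub ((LB.const b).mul lΓ)
  have lJ : LB T (Sc48.Jf lh lb T) := .of_cont (ld.tail (right_mem_Icc.mpr T0))
  have AT := hA0M.trans MT
  have ι2 := iota_loc lJ hA0 AT hE
  replace hE : ∫ t in A0..T, Sc48.Jf lh lb T t ^ 2 ≤ E := (le_add_of_nonneg_right (sq_nonneg _)).trans hE
  have E0 : 0 ≤ E := (int_nn AT fun _ => sq_nonneg _).trans hE
  obtain ⟨y, y0, hy3⟩ : ∃ y : ℝ, 0 ≤ y ∧ y ^ 3 = 8 * E :=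
    ⟨(8 * E) ^ (((3:ℕ):ℝ)⁻¹), by positivity, Real.rpow_inv_natCast_pow (by positivity) (by norm_num)⟩
  have hy : ∀ s ∈ Icc M T, |Sc48.Jf lh lb T s| ≤ y := fun s hs => by
    have a := Jf_le (l := lh) (l' := lb) (u := 1) hs.2 fun r _ => h.d1 r
    have c := Lab36.sup_cube (zh := lvr 1 lh) (zb := lvr 1 lb) ld (fun t _ _ => h.d1 t) hA0
      le_rfl (hA0M.trans hs.1) hs.2 (.inr (by
        show s + |Sc48.Jf lh lb T s| / 2 ≤ T
        linarith [abs_nonneg (Sc48.Jf lh lb T s)]))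
    refine le_of_pow_le_pow_left₀ (n := 3) (by norm_num) y0 (c.trans ?_)
    rw [hy3]
    exact mul_le_mul_of_nonneg_left hE (by norm_num)
  set ι := ∫ s in (0:ℝ)..T, |Sc48.Jf lh lb T s| with hι
  have ι0 : 0 ≤ ι := int_nn T0 fun _ => abs_nonneg _
  have r2' := fun t => h.r2 (t := t)
  have r3' := fun t => h.r3 (t := t)
  have r4' := fun t => h.r4UL hU L0 hL' hC hL hy hι (t := t)
  have tl := fun r => h.tail hU L0 hL' (r := r)
  have gw := fun s => h.grow' (s := s)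
  have st := h.stat
  have cS : max M σ - M = 0 ∨ (M < σ ∧ max M σ = σ) := by
    rcases le_or_gt σ M with x | x
    · exact .inl (by rw [max_eq_left x, sub_self])
    · exact .inr ⟨x, max_eq_right x.le⟩
  set S := max M σ with hS
  have MS : M ≤ S := le_max_left _ _
  have σS : σ ≤ S := le_max_right _ _
  have ST : S ≤ T := max_le MT h.σT
  set Q := max S P with hQ
  have SQ : S ≤ Q := le_max_left _ _
  have QT : Q ≤ T := max_le ST h.PT
  have S0 := M0.trans MS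
  have tP : ∀ t, S ≤ t → t < Q → t < P := fun t a c =>
    (lt_max_iff.1 c).resolve_left (not_lt.2 a)
  set D := S - M with hD
  have D0 : 0 ≤ D := sub_nonneg.2 MS
  have lh' : LB T fun t => hb t + lam * e * (t - S) := h.lhb.add (LB_lin T _ S)
  subst hc
  obtain ⟨H', r1', r2'', ω', β', ξ', R', c1, c2, c3, c4, c5, c6⟩ := res_top' (hm := hb M) R ld lΓ lh'
    b0 hA hAM MS SQ QT β0 (by positivity) (by positivity) (by positivity) r2'
    (fun t a c => ⟨(h.dtop (σS.trans a)).1, r3' t a (tP t a c)⟩)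
    (fun t a c => ⟨(h.dtop (σS.trans (SQ.trans a))).1, (le_or_gt U t).imp
      (fun x => by rw [hU t x, h.top t (σS.trans (SQ.trans a)), sub_self]) (r4' t a c)⟩)
  have eW : ∫ t in S..Q, (t - S) * (1 - lvr 1 lb t) =
      ∫ t in S..Q, (t - S) * |lvr 1 lb t - lvr 1 lh t| :=
    intervalIntegral.integral_congr_Ioo_of_le SQ fun t ht => by
      rw [(h.dtop (σS.trans ht.1.le)).2]
  rw [eW]
  have mS : S ∈ Icc 0 T := ⟨S0, ST⟩
  have mQ : Q ∈ Icc 0 T := ⟨S0.trans SQ, QT⟩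
  have mT : T ∈ Icc 0 T := ⟨T0, le_rfl⟩
  have bt := bath ld.abs S0 SQ QT (fun _ => abs_nonneg _) fun t _ _ => h.d1 t
  have I2 : ∫ t in M..S, |lvr 1 lb t - lvr 1 lh t| ≤ D * 1 :=
    int_le ld.abs M0 MS ST fun t _ _ => h.d1 t
  have I2' : 0 ≤ ∫ t in M..S, |lvr 1 lb t - lvr 1 lh t| := int_nn MS fun _ => abs_nonneg _
  have I4 : ∫ t in Q..T, |lvr 1 lb t - lvr 1 lh t| ≤ u1 * Lt := tl Q le_rfl QT
  have I4' : 0 ≤ ∫ t in Q..T, |lvr 1 lb t - lvr 1 lh t| := int_nn QT fun _ => abs_nonneg _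
  have V0 : 0 ≤ ∫ t in S..Q, |lvr 1 lb t - lvr 1 lh t| := int_nn SQ fun _ => abs_nonneg _
  have V1 : ∫ t in S..Q, |lvr 1 lb t - lvr 1 lh t| ≤ y := by
    have a := int_split ld.abs mS mQ mT
    have c : ∫ t in S..T, |lvr 1 lb t - lvr 1 lh t| = -Sc48.Jf lh lb T S := by
      unfold Sc48.Jf
      rw [← intervalIntegral.integral_neg]
      exact intervalIntegral.integral_congr_Ioo_of_le ST fun t ht =>
        abs_of_nonpos (h.dtop (σS.trans ht.1.le)).1
    linarith [neg_le_abs (Sc48.Jf lh lb T S), hy S ⟨MS, ST⟩]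
  have D3 : κ ^ 2 * D ^ 3 / 64 ≤ E := by
    rcases cS with x | ⟨-, x⟩
    · rw [x]; simpa using E0
    · have a := Lab36.gap_pos (zh := lvr 1 lh) (zb := lvr 1 lb) ld M0 D0 (by linarith) κ0.le
        fun t a c => h.gap t ⟨a.le, by linarith⟩
      have c := intervalIntegral.integral_mono_interval (μ := volume) (a := M) (b := M + D)
        (c := A0) (d := T) (f := fun t => Sc48.Jf lh lb T t ^ 2) hA0M (by linarith) (by linarith)
        (Filter.Eventually.of_forall fun _ => sq_nonneg _) (lJ.sq.ii ⟨hA0, AT⟩ mT)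
      exact a.trans (c.trans hE)
  have Z2 : e * κ * D ^ 2 / 2 ≤
      ∫ t in M..S, (hb M - (t - b * Gam lh t)) * |lvr 1 lb t - lvr 1 lh t| := by
    rcases cS with x | ⟨x0, x⟩
    · rw [x, show S = M by linarith]; simp
    · have a := int_mono (LB_lin T (-(e * κ)) S) (((LB.const (hb M)).sub lM).mul ld.abs) M0 MS ST
        fun t a c => by
          have g1 := h.gap t ⟨a.le, by linarith⟩
          have g2 := h.grow (.inl a.le) (by linarith : t ≤ σ) h.σT
          have g3 := (h.atM x0).1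
          have g4 : e * (σ - t) ≤ hb M - (t - b * Gam lh t) := by linarith
          have g5 : 0 ≤ e * (σ - t) := mul_nonneg e0.le (by linarith)
          have := mul_le_mul g4 (g1.trans (le_abs_self _)) κ0.le (g5.trans g4)
          rw [x]
          linarith
      rw [int_lin] at a
      refine le_of_eq_of_le ?_ a
      rw [hD]; ring
  have lk : LB T fun t => hb t + lam * e * (t - S) - (t - b * Gam lh t) + e / 4 * (t - S) :=
    (lh'.sub lM).add (LB_lin T _ S)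
  have St := static_cost (e := e / 4) ld lk S0 SQ QT (by positivity) G00 (fun t _ _ => h.d1 t)
    fun t a c => by
      rw [(h.dtop (σS.trans a.le)).2]
      refine le_trans (mul_le_mul_of_nonneg_right ?_ (Real.sqrt_nonneg _)) (st t a (tP t a.le c))
      have g1 := gw t a.le (c.le.trans QT)
      have g2 : 0 ≤ e * (t - S) := mul_nonneg e0.le (by linarith)
      linarith [mul_le_mul_of_nonneg_right (h.lamκ.trans (by linarith : κ / 32 ≤ 1 / 2)) g2]
  have St' : (∫ t in S..Q, max (hb t + lam * e * (t - S) - (t - b * Gam lh t) + e / 4 * (t - S)) 0 *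
      |lvr 1 lb t - lvr 1 lh t|) / b ≤ N := by
    refine le_trans (div_le_div_of_nonneg_right (St.trans ?_) b0.le) n.h8
    have q0 := sub_nonneg.2 SQ
    rw [show 2 * G0 ^ 2 / (e / 4) = 8 * G0 ^ 2 / e by field_simp; ring]
    refine mul_le_mul_of_nonneg_left (Real.log_le_log (by positivity) ?_) (by positivity)
    have : e / 4 * (Q - S) ≤ e * T :=
      mul_le_mul (by linarith) (by linarith) q0 e0.le
    gcongr
  have lW : LB T fun t => (t - S) * |lvr 1 lb t - lvr 1 lh t| := by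
    simpa using (LB_lin T 1 S).mul ld.abs
  have l3 := (LB_max (lM.sub lh')).mul ld.abs
  have lk' := (LB_max lk).mul ld.abs
  have St1 := int_mono ((LB_max (lh'.sub lM)).mul ld.abs) lk' S0 SQ QT fun t a _ =>
    mul_le_mul_of_nonneg_right (max_le_max_right 0 (le_add_of_nonneg_right
      (mul_nonneg (by positivity) (by linarith)))) (abs_nonneg _)
  have Z3 := int_mono ((LB.const (e / 4)).mul lW) (l3.add lk') S0 SQ QT fun t _ _ => by
    rw [← add_mul, ← mul_assoc]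
    refine mul_le_mul_of_nonneg_right ?_ (abs_nonneg _)
    linarith [le_max_left (t - b * Gam lh t - (hb t + lam * e * (t - S))) 0, le_max_left
      (hb t + lam * e * (t - S) - (t - b * Gam lh t) + e / 4 * (t - S)) 0]
  rw [intervalIntegral.integral_add (l3.ii mS mQ) (lk'.ii mS mQ),
    intervalIntegral.integral_const_mul] at Z3
  have Z30 : 0 ≤ ∫ t in S..Q, max (t - b * Gam lh t - (hb t + lam * e * (t - S))) 0 *
      |lvr 1 lb t - lvr 1 lh t| := int_nn SQ fun _ => by positivity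
  refine ⟨H', r1', r2'', ω', β', ξ', _, R', c1, c2, c3, c4, c6, ?_⟩
  rw [c5]
  generalize (∫ t in M..S, (hb M - (t - b * Gam lh t)) * |lvr 1 lb t - lvr 1 lh t|) = z2 at *
  generalize (∫ t in S..Q, max (t - b * Gam lh t - (hb t + lam * e * (t - S))) 0 *
    |lvr 1 lb t - lvr 1 lh t|) = z3 at *
  generalize (∫ t in S..Q, max (hb t + lam * e * (t - S) - (t - b * Gam lh t) + e / 4 * (t - S)) 0 *
    |lvr 1 lb t - lvr 1 lh t|) = s2 at *
  generalize (∫ t in S..Q, max (hb t + lam * e * (t - S) - (t - b * Gam lh t)) 0 *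
    |lvr 1 lb t - lvr 1 lh t|) = s1 at *
  generalize (∫ t in S..Q, (t - S) * |lvr 1 lb t - lvr 1 lh t|) = W at *
  generalize (∫ t in S..Q, |lvr 1 lb t - lvr 1 lh t|) = V at *
  generalize (∫ t in M..S, |lvr 1 lb t - lvr 1 lh t|) = i2 at *
  generalize (∫ t in Q..T, |lvr 1 lb t - lvr 1 lh t|) = i4 at *
  exact finU n hC b0 T0 L0 η0 β0 g0 Dh0 h.lamκ Gt0 e0 e10 κ0 κ1 u0 E0 D0 y0 hy3 ι0 ι2
    D3 V0 V1 bt I2 I2' I4 I4' Z2 Z3 Z30 St1 St'

/-- `resL` in the form `Ext` -/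
theorem extL {A0 C θ E N : ℝ} {H r1 r2 ω β ξ : ℝ → ℝ} (hC : 0 ≤ C) (hL : Spl27.GLip T C)
    (R : Res T (fun t => lvr 1 lb t - lvr 1 lh t) (fun t => Gam lb t - Gam lh t) H r1 r2 ω β ξ 0 M)
    (hM : 0 < M) (hc : r2 M = c0) (β0 : 0 ≤ β M) (hA0 : 0 ≤ A0) (hA0M : A0 ≤ M)
    (hE : (∫ t in A0..T, Sc48.Jf lh lb T t ^ 2) + (∫ t in (0:ℝ)..A0, |Sc48.Jf lh lb T t|) ^ 2 ≤ E)
    (n : PN T C b θ (η + β M + Dh / b) g G0 Gt e e1 κ u1 N) :
    ∃ Z : ℝ, 0 ≤ Z ∧ Ext T (fun t => lvr 1 lb t - lvr 1 lh t) (fun t => Gam lb t - Gam lh t)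
        H r2 ω β ξ M T (6 * θ * E + Z / 4 + 10 * N) Z ∧
      e * κ * (max M σ - M) ^ 2 / (2 * b) + e / (4 * b) *
        (∫ t in max M σ..max (max M σ) P, (t - max M σ) * (1 - lvr 1 lb t)) ≤ Z + N := by
  obtain ⟨H', r1', r2', ω', β', ξ', Z, a1, a2, -, -, a5, a6, a7, a8, a9⟩ :=
    h.resL hC hL R le_rfl hM.le hc β0 hA0 hA0M hE n
  exact ⟨Z, a7, ⟨H', r1', r2', ω', β', ξ', a1, (a2 0 hM).2.2.1, (a2 0 hM).2.2.2, a5.le,
    by linarith, a6⟩, a9⟩

/-- `resUL` in the form `Ext` -/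
theorem extUL {A0 C θ E N U Lt : ℝ} {H r1 r2 ω β ξ : ℝ → ℝ} (hU : ∀ s, U ≤ s → lvr 1 lb s = 1)
    (L0 : 0 ≤ Lt) (hL' : U - max M σ ≤ Lt) (hC : 0 ≤ C) (hL : Spl27.GLip T C)
    (R : Res T (fun t => lvr 1 lb t - lvr 1 lh t) (fun t => Gam lb t - Gam lh t) H r1 r2 ω β ξ 0 M)
    (hM : 0 < M) (hc : r2 M = c0) (β0 : 0 ≤ β M) (hA0 : 0 ≤ A0) (hA0M : A0 ≤ M)
    (hE : (∫ t in A0..T, Sc48.Jf lh lb T t ^ 2) + (∫ t in (0:ℝ)..A0, |Sc48.Jf lh lb T t|) ^ 2 ≤ E)
    (n : PNU T Lt C b θ (η + β M + Dh / b) g G0 Gt e e1 κ u1 N) :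
    ∃ Z : ℝ, 0 ≤ Z ∧ Ext T (fun t => lvr 1 lb t - lvr 1 lh t) (fun t => Gam lb t - Gam lh t)
        H r2 ω β ξ M T (8 * θ * E + Z / 4 + 11 * N) Z ∧
      e * κ * (max M σ - M) ^ 2 / (2 * b) + e / (4 * b) *
        (∫ t in max M σ..max (max M σ) P, (t - max M σ) * (1 - lvr 1 lb t)) ≤ Z + N := by
  obtain ⟨H', r1', r2', ω', β', ξ', Z, a1, a2, -, -, a5, a6, a7, a8, a9⟩ :=
    h.resUL hU L0 hL' hC hL R le_rfl hM.le hc β0 hA0 hA0M hE n
  exact ⟨Z, a7, ⟨H', r1', r2', ω', β', ξ', a1, (a2 0 hM).2.2.1, (a2 0 hM).2.2.2, a5.le,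
    by linarith, a6⟩, a9⟩

end Pl

end

end Crest.Agent.T156.Pr.Reg48
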