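import Crest.Agent.T156.PlatC_48

/-!
Row 156 (helper48): the plateau part of the energy estimate for a spread reference (sloped below
`σ'`, equal to `1` from `σ ≤ σ' + γ`).
-/

set_option autoImplicit false

namespace Crest.Agent.T156.Pr.Reg48

open MeasureTheory Set
open Crest.Agent.R164.GC Crest.Agent.R339.B Crest.Agent.R339.Var Crest.Agent.T157.Pf
open Crest.Agent.T156.Cut8 (LB Res int_mono int_split Ext)

noncomputable section

/-- (ii) `[M, S')`, `dz ≥ 0`, frozen mark `hm`; `[S', S)`: crude bound -/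
theorem res_two {T A M S' S b hm B2 B5 : ℝ} {dz Γb Γh H r1 r2 ω β ξ : ℝ → ℝ}
    (R : Res T dz (fun t => Γb t - Γh t) H r1 r2 ω β ξ A M) (ld : LB T dz) (lΓ : LB T Γh)
    (hb0 : 0 < b) (hA : 0 ≤ A) (h1 : A ≤ M) (h2 : M ≤ S') (h3 : S' ≤ S) (h4 : S ≤ T)
    (β0 : 0 ≤ β M) (p2 : 0 ≤ B2) (p5 : 0 ≤ B5)
    (ii : ∀ t, M ≤ t → t < S' →
      0 ≤ dz t ∧ t - b * Γh t ≤ hm ∧ Γb t - (t - hm) / b - r2 M ≤ B2)
    (iii : ∀ t, S' ≤ t → t < S → |Γb t - Γh t - r2 M| ≤ B5) :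
    ∃ H' r1' r2' ω' β' ξ' : ℝ → ℝ, Res T dz (fun t => Γb t - Γh t) H' r1' r2' ω' β' ξ' A S ∧
      (∀ t, t < M → H' t = H t ∧ r1' t = r1 t ∧ r2' t = r2 t ∧ β' t = β t) ∧
      r2' S = r2 M ∧ β' S = β M ∧
      ∫ t in A..S, ω' t ^ 2 = ∫ t in A..M, ω t ^ 2 ∧
      ∫ t in A..S, ξ' t = (∫ t in A..M, ξ t) + ((B2 + β M) * (∫ t in M..S', |dz t|) +
        (B5 + β M) * ∫ t in S'..S, |dz t|) ∧
      ∫ t in A..S, H' t * dz t = (∫ t in A..M, H t * dz t) +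
        (∫ t in M..S', (hm - (t - b * Γh t)) * |dz t|) / b := by
  have lM : LB T fun t => t - b * Γh t := (LB.of_cont continuousOn_id).sub ((LB.const b).mul lΓ)
  have l2 : LB T fun t => (hm - (t - b * Γh t)) / b := ((LB.const hm).sub lM).div b
  have x2 : LB T fun t => (B2 + β M) * |dz t| := (LB.const _).mul ld.abs
  have x5 : LB T fun t => (B5 + β M) * |dz t| := (LB.const _).mul ld.abs
  have lH' := LB_ite (M := S') l2 (LB.const 0)
  have lξ' := LB_ite (M := S') x2 x5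
  have hM : 0 ≤ M := hA.trans h1
  have MS := not_lt.2 (h2.trans h3)
  refine ⟨_, _, _, _, _, _, res_ext R hA h4 β0 lH' lξ' (fun t a c => ?_) (fun t a c => ?_)
    (fun t a c => ?_), fun t a => ⟨if_pos a, if_pos a, if_pos a, if_pos a⟩, if_neg MS,
    if_neg MS, ?_, ?_, ?_⟩
  · split_ifs with e
    · obtain ⟨a1, a2, -⟩ := ii t a e
      exact mul_nonneg (div_nonneg (by linarith) hb0.le) a1
    · simp
  · split_ifs <;> positivity
  · split_ifs with e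
    · obtain ⟨a1, -, a3⟩ := ii t a e
      refine pair_pos a1 (le_of_eq_of_le ?_ a3)
      field_simp
      ring
    · obtain ⟨a1, a2⟩ := abs_le.1 (iii t (not_lt.1 e) c)
      rcases le_total 0 (dz t) with x | x
      · exact pair_pos x (by linarith)
      · exact pair_neg x (by linarith)
  · have := int_ite R.lω.sq (LB.const 0) hA h1 (h2.trans h3) h4
    simp only [intervalIntegral.integral_zero, add_zero] at this
    rw [← this]
    congr 1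
    funext t
    split_ifs <;> simp
  · rw [int_ite R.lξ lξ' hA h1 (h2.trans h3) h4, int_ite x2 x5 hM h2 h3 h4]
    simp only [intervalIntegral.integral_const_mul]
  · have y2 : LB T fun t => (hm - (t - b * Γh t)) * |dz t| / b :=
      (((LB.const hm).sub lM).mul ld.abs).div b
    have := int_ite (R.lH.mul ld) (LB_ite (M := S') y2 (LB.const 0)) hA h1 (h2.trans h3) h4
    rw [int_ite y2 (LB.const 0) hM h2 h3 h4] at this
    simp only [intervalIntegral.integral_zero, add_zero, intervalIntegral.integral_div] at this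
    rw [← this]
    refine intervalIntegral.integral_congr_Ioo_of_le (h1.trans (h2.trans h3)) fun t ht => ?_
    split_ifs with e e'
    · rfl
    · rw [abs_of_nonneg (ii t (not_lt.1 e) e').1]; ring
    · simp

/-- the numbers: `PNC` and the terms of the spread `γ` (`η' = η + β M + (Dh + lam e γ) / b`) -/
structure PNS (T Lt C b c θ η' g G0 Gt e e1 κ u1 γ N : ℝ) : Prop where
  pn : PNC T Lt C b c θ η' g G0 (Gt + e1 * γ) e e1 κ u1 N
  k1 : (η' + (g + e1) * γ / b) * γ ≤ N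
  k2 : ((g + e1) * γ / b) ^ 3 ≤ θ * κ ^ 2 / 64 * N ^ 2
  k3 : (C * γ) ^ 3 ≤ (θ * κ ^ 2 / 64) ^ 2 * N
  k4 : ((C * γ) ^ 2 * (T + 1) / θ) ^ 3 ≤ (θ * κ ^ 2 / 64) ^ 2 * N
  k5 : (C * γ * (γ + u1 * Lt)) ^ 3 ≤ θ * κ ^ 2 / 64 * N ^ 2
  k6 : (C * γ * (γ + u1 * Lt)) ^ 2 ≤ θ / (T + 1) * N

/-- no spread -/
theorem PNC.toS {T Lt C b c θ η' g G0 Gt e e1 κ u1 N : ℝ} (T0 : 0 ≤ T)
    (n : PNC T Lt C b c θ η' g G0 Gt e e1 κ u1 N) :
    PNS T Lt C b c θ η' g G0 Gt e e1 κ u1 0 N := by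
  have θ0 := n.θ0
  have N0 := n.N0
  refine ⟨by simpa using n, by simpa using N0, ?_, ?_, ?_, ?_, ?_⟩ <;>
    exact le_of_eq_of_le (by simp) (show (0:ℝ) ≤ _ by positivity)

set_option maxHeartbeats 1600000 in
theorem finS {T Lt C b c θ η β g Dh lam G0 Gt e e1 κ u1 γ N E D D' y ι V W i2 i4 i5 z2 z3 s1 s2
      x : ℝ}
    (n : PNS T Lt C b c θ (η + β + (Dh + lam * e * γ) / b) g G0 Gt e e1 κ u1 γ N) (hC : 0 ≤ C)
    (b0 : 0 < b) (T0 : 0 ≤ T)
    (L0 : 0 ≤ Lt) (η0 : 0 ≤ η) (β0 : 0 ≤ β) (g0 : 0 ≤ g) (Dh0 : 0 ≤ Dh) (l0 : 0 ≤ lam)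
    (l1 : lam ≤ κ / 32) (Gt0 : 0 ≤ Gt) (e0 : 0 < e) (e10 : 0 ≤ e1) (κ0 : 0 < κ) (κ1 : κ ≤ 1)
    (u0 : 0 ≤ u1) (E0 : 0 ≤ E) (D0 : 0 ≤ D') (y0 : 0 ≤ y) (y3' : y ^ 3 = 8 * E) (ι0 : 0 ≤ ι)
    (ι2 : ι ^ 2 ≤ (T + 1) * E) (D3 : κ ^ 2 * D' ^ 3 / 64 ≤ E) (V0 : 0 ≤ V) (V1 : V ≤ y)
    (bt : V ^ 2 ≤ 2 * W) (I2 : i2 ≤ D' * 1) (I2' : 0 ≤ i2) (I4 : i4 ≤ u1 * Lt) (I4' : 0 ≤ i4)
    (Z2 : e * κ * D' ^ 2 / 2 ≤ z2) (Z3 : e / 4 * W ≤ z3 + s2) (Z30 : 0 ≤ z3) (S1 : s1 ≤ s2)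
    (S2 : s2 / b ≤ N) (γ0 : 0 ≤ γ) (_D00 : 0 ≤ D) (DD : D ≤ D' + γ) (I5 : i5 ≤ γ) (I5' : 0 ≤ i5) :
    0 ≤ z2 / b + z3 / b ∧
    x + ((η + g / b * D' + β) * i2 + (η + (g + e1) * D / b + C * (y + ι) * D + β) * i5) +
      ((η + Dh / b + lam * e * D / b + β) * V + s1 / b +
      (η + (Gt + e1 * D) / b + C * (y + ι) * D + C * (u1 * Lt + ι) * Lt + β) * i4) ≤
      x + 14 * θ * E + (z2 / b + z3 / b) / 4 + 17 * N := by
  obtain ⟨f1, f2, -⟩ := finU (x := x) n.pn.toU hC b0 T0 L0 η0 β0 g0 (by positivity) l1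
    (by positivity) e0 e10 κ0 κ1 u0 E0 D0 y0 y3' ι0 ι2 D3 V0 V1 bt I2 I2' I4 I4' Z2 Z3 Z30 S1 S2
  obtain ⟨pn, k1, k2, k3, k4, k5, k6⟩ := n
  have θ0 := pn.θ0
  have N0 := pn.N0
  clear pn
  refine ⟨f1, ?_⟩
  set ε := θ * κ ^ 2 / 64 with hε
  have ε0 : 0 < ε := by positivity
  have θE : 0 ≤ θ * E := by positivity
  have eD : ε * D' ^ 3 ≤ θ * E := by
    have := mul_le_mul_of_nonneg_left D3 θ0.le
    rw [hε]; linarith
  have ey : ε * y ^ 3 ≤ θ * E := by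
    have := mul_le_mul_of_nonneg_left (pow_le_one₀ κ0.le κ1 : κ ^ 2 ≤ 1) θE
    rw [hε, y3']; linarith
  have q2 : θ / (T + 1) * ι ^ 2 ≤ θ * E := by
    refine (mul_le_mul_of_nonneg_left ι2 (by positivity)).trans_eq ?_
    field_simp
  have t2 := y3 D0 N0 ε0 k2
  have t3 : C * γ * (y * D') ≤ θ * E + N := by
    have q : C * γ * (y * D') ≤ C * γ * ((y ^ 2 + D' ^ 2) / 2) :=
      mul_le_mul_of_nonneg_left (by linarith [two_mul_le_add_sq y D']) (by positivity)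
    linarith [y32 D0 N0 ε0 k3, y32 y0 N0 ε0 k3]
  have t4 : C * γ * D' * ι ≤ 2 * (θ * E) + N := by
    have q1 := y2 (a := C * γ * D') (N := (C * γ) ^ 2 * (T + 1) / θ * D' ^ 2)
      (ε := θ / (T + 1)) ι0 (by positivity) (by positivity) (le_of_eq (by field_simp))
    linarith [y32 D0 N0 ε0 k4]
  have t5 := y3 y0 N0 ε0 k5
  have t6 := y2 ι0 N0 (by positivity) k6
  have Db : 0 ≤ (Dh + lam * e * γ) / b := by positivity
  have x3 : (η + Dh / b + lam * e * D / b + β) * V ≤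
      (η + (Dh + lam * e * γ) / b + lam * e * D' / b + β) * V := by
    refine mul_le_mul_of_nonneg_right ?_ V0
    have : lam * e * D / b ≤ lam * e * (D' + γ) / b := by gcongr
    rw [mul_add, add_div] at this
    rw [add_div]
    linarith
  have x4 : (η + (Gt + e1 * D) / b + C * (y + ι) * D + C * (u1 * Lt + ι) * Lt + β) * i4 ≤
      (η + (Gt + e1 * (D' + γ)) / b + C * (y + ι) * (D' + γ) + C * (u1 * Lt + ι) * Lt + β) * i4 := by
    gcongr
  have x4' : C * (y + ι) * γ * i4 ≤ C * (y + ι) * γ * (u1 * Lt) := by gcongr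
  have x5 : (η + (g + e1) * D / b + C * (y + ι) * D + β) * i5 ≤
      (η + (g + e1) * (D' + γ) / b + C * (y + ι) * (D' + γ) + β) * γ := by gcongr
  have x6 := mul_nonneg Db γ0
  have e4 : (η + (Gt + e1 * (D' + γ)) / b + C * (y + ι) * (D' + γ) + C * (u1 * Lt + ι) * Lt + β) *
      i4 = (η + (Gt + e1 * γ + e1 * D') / b + C * (y + ι) * D' + C * (u1 * Lt + ι) * Lt + β) * i4 +
        C * (y + ι) * γ * i4 := by ring
  have e5 : (η + (g + e1) * (D' + γ) / b + C * (y + ι) * (D' + γ) + β) * γ +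
      C * (y + ι) * γ * (u1 * Lt) + (Dh + lam * e * γ) / b * γ =
      (η + β + (Dh + lam * e * γ) / b + (g + e1) * γ / b) * γ + (g + e1) * γ / b * D' +
        C * γ * (y * D') + C * γ * D' * ι + C * γ * (γ + u1 * Lt) * y +
        C * γ * (γ + u1 * Lt) * ι := by ring
  linarith

variable {lb lh : List (ℝ × ℝ)} {T b σ' σ γ M P c0 η g Dh lam G0 G1 u2 Gt e e1 κ u1 : ℝ}
  {hb : ℝ → ℝ}

/-- data of the plateau for a spread reference -/
structure PlS (lb lh : List (ℝ × ℝ)) (T b σ' σ γ M P c0 η g Dh lam G0 Gt e e1 κ u1 : ℝ)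
    (hb : ℝ → ℝ) : Prop where
  okb : Ok lb
  okh : Ok lh
  tb : TT lb = T
  th : TT lh = T
  b0 : 0 < b
  σ0 : 0 ≤ σ
  σT : σ ≤ T
  σ1 : σ' ≤ σ
  σγ : σ - σ' ≤ γ
  M0 : 0 ≤ M
  MP : M ≤ P
  PT : P ≤ T
  nn : 0 ≤ η ∧ 0 ≤ g ∧ 0 ≤ Dh ∧ 0 ≤ lam ∧ 0 < G0 ∧ 0 ≤ Gt ∧ 0 < e ∧ 0 ≤ e1 ∧ 0 < κ ∧ κ ≤ 1
  lamκ : lam ≤ κ / 32
  lhb : LB T hb
  top : ∀ s, σ ≤ s → lvr 1 lh s = 1
  conc : ∀ r ∈ Ico M T, Gd lb r ≤ 0
  gap : ∀ t ∈ Ico M σ', κ ≤ lvr 1 lb t - lvr 1 lh t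
  elo : ∀ r, M ≤ r ∨ σ ≤ r → r < T → e ≤ 1 - b * GG lh r
  eup : ∀ r ∈ Ico M σ, 1 - b * GG lh r ≤ e1
  atM : M < σ → |Gam lb M - (M - (σ - b * Gam lh σ)) / b - c0| ≤ η ∧ b * GG lb M ≤ 1 + g
  net : ∀ t ∈ Ico (max M σ) P, ∃ p q mp mq : ℝ, M ≤ p ∧ p ≤ t ∧ t ≤ q ∧ q ≤ T ∧ mp ≤ hb t ∧
    mq - mp ≤ Dh + lam * e * (q - p) ∧
    -η ≤ Gam lb p - (p - mp) / b - c0 ∧ -η ≤ Gam lb q - (q - mq) / b - c0
  atP : ∃ mP : ℝ, -η ≤ Gam lb P - (P - mP) / b - c0 ∧ mP - (σ - b * Gam lh σ) ≤ Gt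
  last : 1 - lvr 1 lb P ≤ u1
  stat : ∀ t, max M σ < t → t < P → (hb t - (σ - b * Gam lh σ)) * √(1 - lvr 1 lb t) ≤ G0

/-- `PlS` with marks that may rise by `G1 / √ρ` over a gap -/
structure PlT (lb lh : List (ℝ × ℝ)) (T b σ' σ γ M P c0 η g Dh lam G0 G1 u2 Gt e e1 κ u1 : ℝ)
    (hb : ℝ → ℝ) : Prop where
  okb : Ok lb
  okh : Ok lh
  tb : TT lb = T
  th : TT lh = T
  b0 : 0 < b
  σ0 : 0 ≤ σ
  σT : σ ≤ T
  σ1 : σ' ≤ σ
  σγ : σ - σ' ≤ γ
  M0 : 0 ≤ M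
  MP : M ≤ P
  PT : P ≤ T
  nn : 0 ≤ η ∧ 0 ≤ g ∧ 0 ≤ Dh ∧ 0 ≤ lam ∧ 0 < G0 ∧ 0 ≤ Gt ∧ 0 < e ∧ 0 ≤ e1 ∧ 0 < κ ∧ κ ≤ 1
  G10 : 0 ≤ G1
  u20 : 0 < u2
  lamκ : lam ≤ κ / 32
  lhb : LB T hb
  top : ∀ s, σ ≤ s → lvr 1 lh s = 1
  conc : ∀ r ∈ Ico M T, Gd lb r ≤ 0
  gap : ∀ t ∈ Ico M σ', κ ≤ lvr 1 lb t - lvr 1 lh t
  elo : ∀ r, M ≤ r ∨ σ ≤ r → r < T → e ≤ 1 - b * GG lh r
  eup : ∀ r ∈ Ico M σ, 1 - b * GG lh r ≤ e1
  atM : M < σ → |Gam lb M - (M - (σ - b * Gam lh σ)) / b - c0| ≤ η ∧ b * GG lb M ≤ 1 + g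
  net : ∀ t ∈ Ico (max M σ) P, ∃ p q mp mq : ℝ, M ≤ p ∧ p ≤ t ∧ t ≤ q ∧ q ≤ T ∧ mp ≤ hb t ∧
    mq - mp ≤ Dh + G1 / √(max (1 - lvr 1 lb t) u2) + lam * e * (q - p) ∧
    -η ≤ Gam lb p - (p - mp) / b - c0 ∧ -η ≤ Gam lb q - (q - mq) / b - c0
  atP : ∃ mP : ℝ, -η ≤ Gam lb P - (P - mP) / b - c0 ∧ mP - (σ - b * Gam lh σ) ≤ Gt
  last : 1 - lvr 1 lb P ≤ u1
  stat : ∀ t, max M σ < t → t < P → (hb t - (σ - b * Gam lh σ)) * √(1 - lvr 1 lb t) ≤ G0

theorem PlT.pl (h : PlT lb lh T b σ' σ γ M P c0 η g Dh lam G0 G1 u2 Gt e e1 κ u1 hb) :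
    PlS lb lh T b σ' σ γ M P c0 η g Dh lam (G0 + G1) Gt e e1 κ u1 fun t =>
      hb t + G1 / √(max (1 - lvr 1 lb t) u2) := by
  obtain ⟨n1, n2, n3, n4, n5, n6⟩ := h.nn
  have G10 := h.G10
  have pos : ∀ t, 0 < √(max (1 - lvr 1 lb t) u2) := fun t =>
    Real.sqrt_pos.2 (h.u20.trans_le (le_max_right _ _))
  refine ⟨h.okb, h.okh, h.tb, h.th, h.b0, h.σ0, h.σT, h.σ1, h.σγ, h.M0, h.MP, h.PT,
    ⟨n1, n2, n3, n4, by linarith, n6⟩, h.lamκ, h.lhb.add (.of_mono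
      fun x y hxy => div_le_div_of_nonneg_left G10 (pos y) (Real.sqrt_le_sqrt (max_le_max_right _
        (sub_le_sub_left (Sc48.lvr_mono h.okb.1 hxy) 1)))), h.top, h.conc, h.gap, h.elo, h.eup,
    h.atM, fun t ht => ?_, h.atP, h.last, fun t a c => ?_⟩
  · obtain ⟨p, q, mp, mq, a1, a2, a3, a4, a5, a6, a7, a8⟩ := h.net t ht
    refine ⟨p, q, mp + G1 / √(max (1 - lvr 1 lb t) u2), mq, a1, a2, a3, a4, by linarith,
      by linarith, a7.trans ?_, a8⟩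
    have : 0 ≤ G1 / √(max (1 - lvr 1 lb t) u2) := (div_nonneg G10 (pos t).le)
    have := div_le_div_of_nonneg_right
      (show p - (mp + G1 / √(max (1 - lvr 1 lb t) u2)) ≤ p - mp by linarith) h.b0.le
    linarith
  · have x : G1 / √(max (1 - lvr 1 lb t) u2) * √(1 - lvr 1 lb t) ≤ G1 := by
      rw [div_mul_eq_mul_div, div_le_iff₀ (pos t)]
      exact mul_le_mul_of_nonneg_left (Real.sqrt_le_sqrt (le_max_left _ _)) G10
    have := h.stat t a c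
    rw [add_sub_right_comm, add_mul]
    linarith

namespace PlS

variable (h : PlS lb lh T b σ' σ γ M P c0 η g Dh lam G0 Gt e e1 κ u1 hb)
include h

theorem ld : LB T fun t => lvr 1 lb t - lvr 1 lh t :=
  (LB.of_mono (Sc48.lvr_mono h.okb.1)).sub (LB.of_mono (Sc48.lvr_mono h.okh.1))

theorem d1 (t : ℝ) : |lvr 1 lb t - lvr 1 lh t| ≤ 1 := Sc48.lvr_sub_le h.okh.1 h.okb.1 t

theorem dtop {t : ℝ} (ht : σ ≤ t) : lvr 1 lb t - lvr 1 lh t ≤ 0 ∧
    |lvr 1 lb t - lvr 1 lh t| = 1 - lvr 1 lb t := by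
  have := Pp.Ode3.lvr_le_one h.okb.1 t
  rw [h.top t ht]
  exact ⟨by linarith, by rw [abs_of_nonpos (by linarith)]; ring⟩

theorem grow {p s : ℝ} (hp : M ≤ p ∨ σ ≤ p) (hps : p ≤ s) (hs : s ≤ T) :
    p - b * Gam lh p + e * (s - p) ≤ s - b * Gam lh s :=
  Mh_ge h.okh h.b0 (hp.elim h.M0.trans h.σ0.trans) hps (by rw [h.th]; exact hs) fun r hr =>
    h.elo r (hp.imp (·.trans hr.1) (·.trans hr.1)) (hr.2.trans_le hs)

theorem r2q {t q : ℝ} (a : M ≤ t) (c : t < σ) (tq : t ≤ q) (qT : q ≤ T) :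
    t - b * Gam lh t ≤ σ - b * Gam lh σ ∧
    Gam lb t - (t - (σ - b * Gam lh σ)) / b - c0 ≤ η + g / b * (q - M) := by
  obtain ⟨-, g0, -, -, -, -, e0, -, κ0, -⟩ := h.nn
  obtain ⟨m2, m3⟩ := h.atM (a.trans_lt c)
  have gr := h.grow (.inl a) c.le h.σT
  have := mul_nonneg e0.le (sub_nonneg.2 c.le)
  refine ⟨by linarith, ?_⟩
  have := reg2' h.okb (h0 := σ - b * Gam lh σ) (η := η + c0) (K := 0) (p := M) (q := q) h.b0 h.M0
    (by rw [h.tb]; exact qT) g0 le_rfl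
    (fun r hr => h.conc r ⟨hr.1, hr.2.trans_le qT⟩) (by linarith [(abs_le.1 m2).2]) m3 ⟨a, tq⟩
  linarith

theorem r2 {t : ℝ} (a : M ≤ t) (c : t < max M σ') : 0 ≤ lvr 1 lb t - lvr 1 lh t ∧
    t - b * Gam lh t ≤ σ - b * Gam lh σ ∧
    Gam lb t - (t - (σ - b * Gam lh σ)) / b - c0 ≤ η + g / b * (max M σ' - M) := by
  have c' : t < σ' := (lt_max_iff.1 c).resolve_left (not_lt.2 a)
  exact ⟨h.nn.2.2.2.2.2.2.2.2.1.le.trans (h.gap t ⟨a, c'⟩), h.r2q a (c'.trans_le h.σ1) c.le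
    (max_le (h.MP.trans h.PT) (h.σ1.trans h.σT))⟩

theorem r5 {C y ι : ℝ} (hC : 0 ≤ C) (hL : Spl27.GLip T C)
    (hy : ∀ s ∈ Icc M T, |Sc48.Jf lh lb T s| ≤ y) (hι : ι = ∫ s in (0:ℝ)..T, |Sc48.Jf lh lb T s|)
    {t : ℝ} (a : max M σ' ≤ t) (c : t < max M σ) :
    |Gam lb t - Gam lh t - c0| ≤
      η + (g + e1) * (max M σ - M) / b + C * (y + ι) * (max M σ - M) := by
  obtain ⟨-, g0, -, -, -, -, e0, e10, -⟩ := h.nn
  have b0 := h.b0
  have Mt : M ≤ t := (le_max_left _ _).trans a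
  have c' : t < σ := (lt_max_iff.1 c).resolve_left (not_lt.2 Mt)
  have Mσ := Mt.trans_lt c'
  have T0 := h.σ0.trans h.σT
  have ι0 : 0 ≤ ι := hι ▸ int_nn T0 fun _ => abs_nonneg _
  have y0 : 0 ≤ y := (abs_nonneg _).trans (hy T ⟨h.MP.trans h.PT, le_rfl⟩)
  rw [max_eq_right Mσ.le]
  have D0 := sub_nonneg.2 Mσ.le
  obtain ⟨u1', u2'⟩ := h.r2q Mt c' c'.le h.σT
  have l1 := (abs_le.1 (h.atM Mσ).1).1
  have l2 := Mh_le h.okh b0 h.M0 Mσ.le (by rw [h.th]; exact h.σT) (e := e1) h.eup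
  have tT := c'.le.trans h.σT
  have l3 := (abs_le.1 (reg4 h.okh h.okb (j := C * (y + ι)) h.M0 Mt (by rw [h.th]; exact tT)
    (by rw [h.tb]; exact tT) fun r hr => by
      have mr : r ∈ Icc 0 T := ⟨h.M0.trans hr.1, hr.2.le.trans tT⟩
      refine (hL lh lb h.okh h.okb h.th h.tb r mr).trans ?_
      rw [← hι]
      exact mul_le_mul_of_nonneg_left (by linarith [hy r ⟨hr.1, mr.2⟩]) hC)).1
  have l4 := mul_le_mul_of_nonneg_left (show t - M ≤ σ - M by linarith)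
    (show 0 ≤ C * (y + ι) by positivity)
  have p1 : 0 ≤ g * (σ - M) / b := by positivity
  have p2 : 0 ≤ e1 * (σ - M) / b := by positivity
  have p3 : 0 ≤ C * (y + ι) * (σ - M) := by positivity
  have e1' : (g + e1) * (σ - M) / b = g * (σ - M) / b + e1 * (σ - M) / b := by ring
  have e2 : g / b * (σ - M) = g * (σ - M) / b := by ring
  have v1 : (t - (σ - b * Gam lh σ)) / b ≤ Gam lh t := by rw [div_le_iff₀ b0]; linarith
  have v2 : Gam lh M ≤ (M - (σ - b * Gam lh σ)) / b + e1 * (σ - M) / b := by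
    rw [← add_div, le_div_iff₀ b0]; linarith
  rw [abs_le]
  constructor <;> linarith

theorem r3 {t : ℝ} (a : max M σ ≤ t) (c : t < P) :
    -(η + Dh / b + lam * e * (max M σ - M) / b) ≤
      Gam lb t - (t - (hb t + lam * e * (t - max M σ))) / b - c0 := by
  obtain ⟨-, -, D0, l0, -, -, e0, -⟩ := h.nn
  obtain ⟨p, q, mp, mq, a1, a2, a3, a4, a5, a6, a7, a8⟩ := h.net t ⟨a, c⟩
  have k := Reg48.conc h.okb ((1 - lam * e) / b) (h.M0.trans a1) (by rw [h.tb]; exact a4)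
    (fun r hr => h.conc r ⟨a1.trans hr.1, hr.2.trans_le a4⟩) ⟨a2, a3⟩
  have b0 := h.b0
  have i0 : 0 < b⁻¹ := inv_pos.2 b0
  have d5 := mul_le_mul_of_nonneg_right a5 i0.le
  have d6 := mul_le_mul_of_nonneg_right a6 i0.le
  have d7 := mul_nonneg (mul_nonneg (mul_nonneg l0 e0.le) (sub_nonneg.2 a1)) i0.le
  have d8 := mul_nonneg D0 i0.le
  simp only [div_eq_mul_inv] at *
  rcases min_le_iff.1 k with k | k <;> nlinarith

theorem tail {U Lt r : ℝ} (hU : ∀ s, U ≤ s → lvr 1 lb s = 1) (L0 : 0 ≤ Lt)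
    (hL' : U - max M σ ≤ Lt) (a : max (max M σ) P ≤ r) (c : r ≤ T) :
    ∫ s in r..T, |lvr 1 lb s - lvr 1 lh s| ≤ u1 * Lt := by
  have u0 : 0 ≤ u1 := le_trans (sub_nonneg.2 (Pp.Ode3.lvr_le_one h.okb.1 P)) h.last
  have Sr : max M σ ≤ r := (le_max_left _ _).trans a
  have σr : σ ≤ r := (le_max_right _ _).trans Sr
  have r0 : 0 ≤ r := h.σ0.trans σr
  have z : ∀ s, σ ≤ s → U ≤ s → |lvr 1 lb s - lvr 1 lh s| = 0 := fun s x y => by
    rw [hU s y, h.top s x, sub_self, abs_zero]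
  have w : ∀ s, r < s → |lvr 1 lb s - lvr 1 lh s| ≤ u1 := fun s x => by
    rw [(h.dtop (σr.trans x.le)).2]
    linarith [h.last, Sc48.lvr_mono h.okb.1 (((le_max_right _ P).trans a).trans x.le)]
  rcases le_total U r with x | x
  · rw [Cut8.int_zero c fun s y _ => z s (σr.trans y.le) (x.trans y.le)]
    positivity
  rcases le_total U T with y | y
  · rw [int_split h.ld.abs (b := U) ⟨r0, c⟩ ⟨r0.trans x, y⟩ ⟨r0.trans c, le_rfl⟩,
      Cut8.int_zero y fun s y _ => z s (σr.trans (x.trans y.le)) y.le, add_zero]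
    refine (int_le h.ld.abs r0 x y fun s y _ => w s y).trans ?_
    rw [mul_comm]
    exact mul_le_mul_of_nonneg_left (by linarith) u0
  · refine (int_le h.ld.abs r0 c le_rfl fun s y _ => w s y).trans ?_
    rw [mul_comm]
    exact mul_le_mul_of_nonneg_left (by linarith) u0

theorem r4UL {C y ι U Lt : ℝ} (hU : ∀ s, U ≤ s → lvr 1 lb s = 1) (L0 : 0 ≤ Lt)
    (hL' : U - max M σ ≤ Lt) (hC : 0 ≤ C) (hL : Spl27.GLip T C)
    (hy : ∀ s ∈ Icc M T, |Sc48.Jf lh lb T s| ≤ y) (hι : ι = ∫ s in (0:ℝ)..T, |Sc48.Jf lh lb T s|)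
    {t : ℝ} (a : max (max M σ) P ≤ t) (c : t < T) (cU : t < U) :
    -(η + (Gt + e1 * (max M σ - M)) / b + C * (y + ι) * (max M σ - M) + C * (u1 * Lt + ι) * Lt) ≤
      Gam lb t - Gam lh t - c0 := by
  obtain ⟨-, -, -, -, -, -, e0, e10, -⟩ := h.nn
  obtain ⟨mP, a1, a2⟩ := h.atP
  have P0 := h.M0.trans h.MP
  have T0 := P0.trans h.PT
  have b0 := h.b0
  have D0 : 0 ≤ max M σ - M := sub_nonneg.2 (le_max_left _ _)
  have ι0 : 0 ≤ ι := hι ▸ int_nn T0 fun _ => abs_nonneg _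
  have y0 : 0 ≤ y := (abs_nonneg _).trans (hy T ⟨h.MP.trans h.PT, le_rfl⟩)
  have u0 : 0 ≤ u1 := le_trans (sub_nonneg.2 (Pp.Ode3.lvr_le_one h.okb.1 P)) h.last
  set Q := max (max M σ) P with hQ
  have PQ : P ≤ Q := le_max_right _ _
  have σQ : σ ≤ Q := (le_max_right _ _).trans (le_max_left _ _)
  have QP : Q - P ≤ max M σ - M := by
    have := max_le (le_refl (max M σ)) (le_refl _)
    rcases le_total (max M σ) P with x | x
    · rw [hQ, max_eq_right x]; linarith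
    · rw [hQ, max_eq_left x]; linarith [h.MP]
  have m1 : σ - b * Gam lh σ ≤ P - b * Gam lh P + e1 * (max M σ - M) := by
    rcases le_total σ P with x | x
    · have := h.grow (.inr le_rfl) x h.PT
      nlinarith [mul_nonneg e0.le (sub_nonneg.2 x), mul_nonneg e10 D0]
    · have := Mh_le h.okh b0 P0 x (by rw [h.th]; exact h.σT) (e := e1)
        fun r hr => h.eup r ⟨h.MP.trans hr.1, hr.2⟩
      have := mul_le_mul_of_nonneg_left
        (show σ - P ≤ max M σ - M by linarith [le_max_right M σ, h.MP]) e10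
      linarith
  have s0 : -(η + (Gt + e1 * (max M σ - M)) / b) ≤ Gam lb P - Gam lh P - c0 := by
    have : (P - mP) / b + (Gt + e1 * (max M σ - M)) / b ≥ Gam lh P := by
      rw [← add_div, ge_iff_le, le_div_iff₀ b0]; linarith
    linarith
  have QT : Q ≤ T := a.trans c.le
  have s1 := (abs_le.1 (reg4 h.okh h.okb (j := C * (y + ι)) P0 PQ (by rw [h.th]; exact QT)
    (by rw [h.tb]; exact QT) fun r hr => by
      have mr : r ∈ Icc 0 T := ⟨P0.trans hr.1, hr.2.le.trans QT⟩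
      refine (hL lh lb h.okh h.okb h.th h.tb r mr).trans ?_
      rw [← hι]
      exact mul_le_mul_of_nonneg_left (by linarith [hy r ⟨h.MP.trans hr.1, mr.2⟩]) hC)).1
  have s2 := (abs_le.1 (reg4 h.okh h.okb (j := C * (u1 * Lt + ι)) (P0.trans PQ) a
    (by rw [h.th]; exact c.le) (by rw [h.tb]; exact c.le) fun r hr => by
      have mr : r ∈ Icc 0 T := ⟨(P0.trans PQ).trans hr.1, hr.2.le.trans c.le⟩
      refine (hL lh lb h.okh h.okb h.th h.tb r mr).trans ?_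
      rw [← hι]
      have := (intervalIntegral.abs_integral_le_integral_abs mr.2).trans
        (h.tail hU L0 hL' hr.1 mr.2)
      exact mul_le_mul_of_nonneg_left (add_le_add this le_rfl) hC)).1
  have s3 := mul_le_mul_of_nonneg_left QP (show 0 ≤ C * (y + ι) by positivity)
  have s4 := mul_le_mul_of_nonneg_left (show t - Q ≤ Lt by linarith [le_max_left (max M σ) P])
    (show 0 ≤ C * (u1 * Lt + ι) by positivity)
  linarith

theorem growq {c s : ℝ} (hc : 0 ≤ c) (hq : ∀ r, σ ≤ r → r < T → Gd lh r ≤ -c) (hs : max M σ ≤ s)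
    (hT : s ≤ T) :
    σ - b * Gam lh σ + e * (s - max M σ) + b * c / 2 * (s - max M σ) ^ 2 ≤ s - b * Gam lh s := by
  have σS : σ ≤ max M σ := le_max_right _ _
  have b0 := h.b0
  rcases h.σT.eq_or_lt with x | x
  · have e1 : s = σ := le_antisymm (x ▸ hT) (σS.trans hs)
    have e2 : max M σ = σ := le_antisymm (e1 ▸ hs) σS
    rw [e2, e1]; simp
  have a := Gam_up h.okh h.σ0 (σS.trans hs) (by rw [h.th]; exact hT) (K := -c)
    fun r hr => hq r hr.1 (hr.2.trans_le hT)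
  have a1 := mul_le_mul_of_nonneg_left a b0.le
  have a2 := mul_le_mul_of_nonneg_right (h.elo σ (.inr le_rfl) x) (sub_nonneg.2 (σS.trans hs))
  have a3 := mul_le_mul_of_nonneg_left (sub_le_sub_left σS s) h.nn.2.2.2.2.2.2.1.le
  have a4 := mul_le_mul_of_nonneg_left (pow_le_pow_left₀ (sub_nonneg.2 hs) (sub_le_sub_left σS s) 2)
    (show 0 ≤ b * c / 2 by positivity)
  nlinarith

set_option maxHeartbeats 1600000 in
/-- **the plateau part of the energy estimate**, local energy, `zb = 1` from `U` on, `U - max M σ ≤ Lt` -/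
theorem res {A A0 c C θ E N U Lt : ℝ} {H r1 r2 ω β ξ : ℝ → ℝ} (hU : ∀ s, U ≤ s → lvr 1 lb s = 1)
    (L0 : 0 ≤ Lt) (hL' : U - max M σ ≤ Lt) (hC : 0 ≤ C) (hL : Spl27.GLip T C)
    (R : Res T (fun t => lvr 1 lb t - lvr 1 lh t) (fun t => Gam lb t - Gam lh t) H r1 r2 ω β ξ A M)
    (hA : 0 ≤ A) (hAM : A ≤ M) (hc : r2 M = c0) (β0 : 0 ≤ β M)
    (hA0 : 0 ≤ A0) (hA0M : A0 ≤ M)
    (hE : (∫ t in A0..T, Sc48.Jf lh lb T t ^ 2) + (∫ t in (0:ℝ)..A0, |Sc48.Jf lh lb T t|) ^ 2 ≤ E)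
    (c0' : 0 < c) (hq : ∀ r, σ ≤ r → r < T → Gd lh r ≤ -c)
    (n : PNS T Lt C b c θ (η + β M + (Dh + lam * e * γ) / b) g G0 Gt e e1 κ u1 γ N) :
    ∃ (H' r1' r2' ω' β' ξ' : ℝ → ℝ) (Z : ℝ),
      Res T (fun t => lvr 1 lb t - lvr 1 lh t) (fun t => Gam lb t - Gam lh t)
        H' r1' r2' ω' β' ξ' A T ∧
      (∀ t, t < M → H' t = H t ∧ r1' t = r1 t ∧ r2' t = r2 t ∧ β' t = β t) ∧
      ∫ t in A..T, ω' t ^ 2 = ∫ t in A..M, ω t ^ 2 ∧
      ∫ t in A..T, H' t * (lvr 1 lb t - lvr 1 lh t) =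
        (∫ t in A..M, H t * (lvr 1 lb t - lvr 1 lh t)) + Z ∧ 0 ≤ Z ∧
      ∫ t in A..T, ξ' t ≤ (∫ t in A..M, ξ t) + 14 * θ * E + Z / 4 + 17 * N ∧
      e * κ * (max M σ' - M) ^ 2 / (2 * b) + e / (4 * b) *
        (∫ t in max M σ..max (max M σ) P, (t - max M σ) * (1 - lvr 1 lb t)) +
        c / 4 * (∫ t in max M σ..max (max M σ) P, (t - max M σ) ^ 2 * (1 - lvr 1 lb t)) ≤
        Z + N := by
  obtain ⟨η0, g0, Dh0, l0, G00, Gt0, e0, e10, κ0, κ1⟩ := h.nn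
  have b0 := h.b0
  have M0 := h.M0
  have MT := h.MP.trans h.PT
  have T0 := M0.trans MT
  have θ0 := n.pn.θ0
  have N0 := n.pn.N0
  have γ0 : 0 ≤ γ := by linarith [h.σ1, h.σγ]
  have u0 : 0 ≤ u1 := le_trans (sub_nonneg.2 (Pp.Ode3.lvr_le_one h.okb.1 P)) h.last
  have ld := h.ld
  have lΓ : LB T (Gam lh) := .of_cont (h.th ▸ (ode h.okh).1)
  have lM : LB T fun t => t - b * Gam lh t :=
    (LB.of_cont continuousOn_id).sub ((LB.const b).mul lΓ)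
  have lJ : LB T (Sc48.Jf lh lb T) := .of_cont (ld.tail (right_mem_Icc.mpr T0))
  have AT := hA0M.trans MT
  have ι2 := iota_loc lJ hA0 AT hE
  replace hE : ∫ t in A0..T, Sc48.Jf lh lb T t ^ 2 ≤ E := (le_add_of_nonneg_right (sq_nonneg _)).trans hE
  have E0 : 0 ≤ E := (int_nn AT fun _ => sq_nonneg _).trans hE
  obtain ⟨y, y0, hy3⟩ : ∃ y : ℝ, 0 ≤ y ∧ y ^ 3 = 8 * E :=
    ⟨(8 * E) ^ (((3:ℕ):ℝ)⁻¹), by positivity, Real.rpow_inv_natCast_pow (by positivity) (by norm_num)⟩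
  have hy : ∀ s ∈ Icc M T, |Sc48.Jf lh lb T s| ≤ y := fun s hs => by
    have a := Jf_le (l := lh) (l' := lb) (u := 1) hs.2 fun r _ => h.d1 r
    have c := Lab36.sup_cube (zh := lvr 1 lh) (zb := lvr 1 lb) ld (fun t _ _ => h.d1 t) hA0
      le_rfl (hA0M.trans hs.1) hs.2 (.inr (by
        show s + |Sc48.Jf lh lb T s| / 2 ≤ T
        linarith [abs_nonneg (Sc48.Jf lh lb T s)]))
    refine le_of_pow_le_pow_left₀ (n := 3) (by norm_num) y0 (c.trans ?_)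
    rw [hy3]
    exact mul_le_mul_of_nonneg_left hE (by norm_num)
  set ι := ∫ s in (0:ℝ)..T, |Sc48.Jf lh lb T s| with hι
  have ι0 : 0 ≤ ι := int_nn T0 fun _ => abs_nonneg _
  have r2' := fun t => h.r2 (t := t)
  have r5' := fun t => h.r5 hC hL hy hι (t := t)
  have r3' := fun t => h.r3 (t := t)
  have r4' := fun t => h.r4UL hU L0 hL' hC hL hy hι (t := t)
  have tl := fun r => h.tail hU L0 hL' (r := r)
  have gw := fun s => h.growq c0'.le hq (s := s)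
  have st := h.stat
  have cS : max M σ' - M = 0 ∨ (M < σ' ∧ max M σ' = σ') := by
    rcases le_or_gt σ' M with x | x
    · exact .inl (by rw [max_eq_left x, sub_self])
    · exact .inr ⟨x, max_eq_right x.le⟩
  have SS : max M σ' ≤ max M σ := max_le_max_left _ h.σ1
  have Sγ : max M σ - max M σ' ≤ γ := by
    rcases le_total M σ with x | x
    · rw [max_eq_right x]; linarith [le_max_right M σ', h.σγ]
    · rw [max_eq_left x]; linarith [le_max_left M σ']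
  set S' := max M σ' with hS'
  have MS' : M ≤ S' := le_max_left _ _
  set S := max M σ with hS
  have MS : M ≤ S := le_max_left _ _
  have σS : σ ≤ S := le_max_right _ _
  have ST : S ≤ T := max_le MT h.σT
  set Q := max S P with hQ
  have SQ : S ≤ Q := le_max_left _ _
  have QT : Q ≤ T := max_le ST h.PT
  have S0 := M0.trans MS
  have tP : ∀ t, S ≤ t → t < Q → t < P := fun t a c =>
    (lt_max_iff.1 c).resolve_left (not_lt.2 a)
  set D := S - M with hD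
  have D0 : 0 ≤ D := sub_nonneg.2 MS
  set D' := S' - M with hD'
  have D0' : 0 ≤ D' := sub_nonneg.2 MS'
  have S'T := SS.trans ST
  have lh' : LB T fun t => hb t + lam * e * (t - S) := h.lhb.add (LB_lin T _ S)
  subst hc
  obtain ⟨H0, r10, r20, ω0, β1, ξ0, R0, d1, d2, d3, d4, d5, d6⟩ := res_two (hm := σ - b * Gam lh σ)
    R ld lΓ b0 hA hAM MS' SS ST β0 (by positivity) (by positivity) r2' r5'
  obtain ⟨H', r1', r2'', ω', β', ξ', R', c1, -, -, c4, c5, c6⟩ := res_top' (hm := 0) (B2 := 0)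
    R0 ld lΓ lh' b0 hA (hAM.trans MS) le_rfl SQ QT (d3 ▸ β0) le_rfl (by positivity) (by positivity)
    (fun t a c => absurd c (not_lt.2 a))
    (fun t a c => ⟨(h.dtop (σS.trans a)).1, d2 ▸ r3' t a (tP t a c)⟩)
    (fun t a c => ⟨(h.dtop (σS.trans (SQ.trans a))).1, (le_or_gt U t).imp
      (fun x => by rw [hU t x, h.top t (σS.trans (SQ.trans a)), sub_self]) (d2 ▸ r4' t a c)⟩)
  rw [intervalIntegral.integral_same, mul_zero, zero_add, d3, d5] at c5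
  rw [intervalIntegral.integral_same, zero_div, zero_add, d6, add_assoc] at c6
  rw [d4] at c4
  have eW : ∫ t in S..Q, (t - S) * (1 - lvr 1 lb t) =
      ∫ t in S..Q, (t - S) * |lvr 1 lb t - lvr 1 lh t| :=
    intervalIntegral.integral_congr_Ioo_of_le SQ fun t ht => by
      rw [(h.dtop (σS.trans ht.1.le)).2]
  have eW2 : ∫ t in S..Q, (t - S) ^ 2 * (1 - lvr 1 lb t) =
      ∫ t in S..Q, (t - S) ^ 2 * |lvr 1 lb t - lvr 1 lh t| :=
    intervalIntegral.integral_congr_Ioo_of_le SQ fun t ht => by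
      rw [(h.dtop (σS.trans ht.1.le)).2]
  rw [eW, eW2]
  have mS : S ∈ Icc 0 T := ⟨S0, ST⟩
  have mQ : Q ∈ Icc 0 T := ⟨S0.trans SQ, QT⟩
  have mT : T ∈ Icc 0 T := ⟨T0, le_rfl⟩
  have bt := bath ld.abs S0 SQ QT (fun _ => abs_nonneg _) fun t _ _ => h.d1 t
  have I2 : ∫ t in M..S', |lvr 1 lb t - lvr 1 lh t| ≤ D' * 1 :=
    int_le ld.abs M0 MS' S'T fun t _ _ => h.d1 t
  have I2' : 0 ≤ ∫ t in M..S', |lvr 1 lb t - lvr 1 lh t| := int_nn MS' fun _ => abs_nonneg _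
  have I5 : ∫ t in S'..S, |lvr 1 lb t - lvr 1 lh t| ≤ γ :=
    (int_le ld.abs (M0.trans MS') SS ST fun t _ _ => h.d1 t).trans (by linarith)
  have I5' : 0 ≤ ∫ t in S'..S, |lvr 1 lb t - lvr 1 lh t| := int_nn SS fun _ => abs_nonneg _
  have I4 : ∫ t in Q..T, |lvr 1 lb t - lvr 1 lh t| ≤ u1 * Lt := tl Q le_rfl QT
  have I4' : 0 ≤ ∫ t in Q..T, |lvr 1 lb t - lvr 1 lh t| := int_nn QT fun _ => abs_nonneg _
  have V0 : 0 ≤ ∫ t in S..Q, |lvr 1 lb t - lvr 1 lh t| := int_nn SQ fun _ => abs_nonneg _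
  have V1 : ∫ t in S..Q, |lvr 1 lb t - lvr 1 lh t| ≤ y := by
    have a := int_split ld.abs mS mQ mT
    have c : ∫ t in S..T, |lvr 1 lb t - lvr 1 lh t| = -Sc48.Jf lh lb T S := by
      unfold Sc48.Jf
      rw [← intervalIntegral.integral_neg]
      exact intervalIntegral.integral_congr_Ioo_of_le ST fun t ht =>
        abs_of_nonpos (h.dtop (σS.trans ht.1.le)).1
    linarith [neg_le_abs (Sc48.Jf lh lb T S), hy S ⟨MS, ST⟩]
  have D3 : κ ^ 2 * D' ^ 3 / 64 ≤ E := by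
    rcases cS with x | ⟨-, x⟩
    · rw [x]; simpa using E0
    · have a := Lab36.gap_pos (zh := lvr 1 lh) (zb := lvr 1 lb) ld M0 D0' (by linarith) κ0.le
        fun t a c => h.gap t ⟨a.le, by linarith⟩
      have c := intervalIntegral.integral_mono_interval (μ := volume) (a := M) (b := M + D')
        (c := A0) (d := T) (f := fun t => Sc48.Jf lh lb T t ^ 2) hA0M (by linarith) (by linarith)
        (Filter.Eventually.of_forall fun _ => sq_nonneg _) (lJ.sq.ii ⟨hA0, AT⟩ mT)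
      exact a.trans (c.trans hE)
  have Z2 : e * κ * D' ^ 2 / 2 ≤
      ∫ t in M..S', (σ - b * Gam lh σ - (t - b * Gam lh t)) * |lvr 1 lb t - lvr 1 lh t| := by
    rcases cS with x | ⟨x0, x⟩
    · rw [x, show S' = M by linarith]; simp
    · have a := int_mono (LB_lin T (-(e * κ)) S')
        (((LB.const (σ - b * Gam lh σ)).sub lM).mul ld.abs) M0 MS' S'T fun t a c => by
          have σ1 := h.σ1
          have g1 := h.gap t ⟨a.le, by linarith⟩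
          have g2 := h.grow (.inl a.le) (by linarith : t ≤ σ) h.σT
          have g3 : e * (σ' - t) ≤ e * (σ - t) := mul_le_mul_of_nonneg_left (by linarith) e0.le
          have g4 : e * (σ' - t) ≤ σ - b * Gam lh σ - (t - b * Gam lh t) := by linarith
          have g5 : 0 ≤ e * (σ' - t) := mul_nonneg e0.le (by linarith)
          have := mul_le_mul g4 (g1.trans (le_abs_self _)) κ0.le (g5.trans g4)
          rw [x]
          linarith
      rw [int_lin] at a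
      refine le_of_eq_of_le ?_ a
      rw [hD']; ring
  have lq : LB T fun t => b * c / 4 * (t - S) ^ 2 := .of_cont (by fun_prop)
  have lk : LB T fun t => hb t + lam * e * (t - S) - (t - b * Gam lh t) +
      (e / 4 * (t - S) + b * c / 4 * (t - S) ^ 2) := (lh'.sub lM).add ((LB_lin T _ S).add lq)
  have key : ∀ t, S < t → t < Q → (hb t + lam * e * (t - S) - (t - b * Gam lh t) +
      (e / 4 * (t - S) + b * c / 4 * (t - S) ^ 2) + (e / 4 * (t - S) + b * c / 4 * (t - S) ^ 2)) *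
      √|lvr 1 lb t - lvr 1 lh t| ≤ G0 := fun t a c => by
    rw [(h.dtop (σS.trans a.le)).2]
    refine le_trans (mul_le_mul_of_nonneg_right ?_ (Real.sqrt_nonneg _)) (st t a (tP t a.le c))
    have g1 := gw t a.le (c.le.trans QT)
    have g2 : 0 ≤ e * (t - S) := mul_nonneg e0.le (by linarith)
    linarith [mul_le_mul_of_nonneg_right (h.lamκ.trans (by linarith : κ / 32 ≤ 1 / 2)) g2]
  have St' : (∫ t in S..Q, max (hb t + lam * e * (t - S) - (t - b * Gam lh t) +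
      (e / 4 * (t - S) + b * c / 4 * (t - S) ^ 2)) 0 * |lvr 1 lb t - lvr 1 lh t|) / b ≤ N := by
    rcases n.pn.h8 with h8 | h8
    · have St := static_cost (e := e / 4) ld lk S0 SQ QT (by positivity) G00 (fun t _ _ => h.d1 t)
        fun t a c => le_trans (mul_le_mul_of_nonneg_right (add_le_add le_rfl
          (le_add_of_nonneg_right (by positivity))) (Real.sqrt_nonneg _)) (key t a c)
      refine le_trans (div_le_div_of_nonneg_right (St.trans ?_) b0.le) h8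
      have q0 := sub_nonneg.2 SQ
      rw [show 2 * G0 ^ 2 / (e / 4) = 8 * G0 ^ 2 / e by field_simp; ring]
      refine mul_le_mul_of_nonneg_left (Real.log_le_log (by positivity) ?_) (by positivity)
      have : e / 4 * (Q - S) ≤ e * T :=
        mul_le_mul (by linarith) (by linarith) q0 e0.le
      gcongr
    · have St := static_cub (c := b * c / 4) (N := b * N) ld lk S0 SQ QT (by positivity) G00
        (by positivity) (by rw [mul_pow]; linarith) (fun t _ _ => h.d1 t)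
        fun t a c => le_trans (mul_le_mul_of_nonneg_right (add_le_add le_rfl
          (le_add_of_nonneg_left (mul_nonneg (by positivity) (by linarith))))
            (Real.sqrt_nonneg _)) (key t a c)
      rw [div_le_iff₀ b0]
      linarith
  have lW : LB T fun t => (t - S) * |lvr 1 lb t - lvr 1 lh t| := by
    simpa using (LB_lin T 1 S).mul ld.abs
  have lW2 : LB T fun t => (t - S) ^ 2 * |lvr 1 lb t - lvr 1 lh t| :=
    (LB.of_cont (by fun_prop)).mul ld.abs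
  have l3 := (LB_max (lM.sub lh')).mul ld.abs
  have lk' := (LB_max lk).mul ld.abs
  have St1 := int_mono ((LB_max (lh'.sub lM)).mul ld.abs) lk' S0 SQ QT fun t a _ =>
    mul_le_mul_of_nonneg_right (max_le_max_right 0 (le_add_of_nonneg_right
      (add_nonneg (mul_nonneg (by positivity) (by linarith)) (by positivity)))) (abs_nonneg _)
  have l4 := (LB.const (e / 4)).mul lW
  have l5 := (LB.const (b * c / 4)).mul lW2
  have Z4 := int_mono (l4.add l5) (l3.add lk') S0 SQ QT fun t _ _ => by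
    rw [← add_mul, ← mul_assoc, ← mul_assoc (b * c / 4), ← add_mul]
    refine mul_le_mul_of_nonneg_right ?_ (abs_nonneg _)
    linarith [le_max_left (t - b * Gam lh t - (hb t + lam * e * (t - S))) 0, le_max_left
      (hb t + lam * e * (t - S) - (t - b * Gam lh t) +
        (e / 4 * (t - S) + b * c / 4 * (t - S) ^ 2)) 0]
  rw [intervalIntegral.integral_add (l3.ii mS mQ) (lk'.ii mS mQ),
    intervalIntegral.integral_add (l4.ii mS mQ) (l5.ii mS mQ),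
    intervalIntegral.integral_const_mul, intervalIntegral.integral_const_mul] at Z4
  have W20 : 0 ≤ ∫ t in S..Q, (t - S) ^ 2 * |lvr 1 lb t - lvr 1 lh t| :=
    int_nn SQ fun _ => by positivity
  have Z30 : 0 ≤ ∫ t in S..Q, max (t - b * Gam lh t - (hb t + lam * e * (t - S))) 0 *
      |lvr 1 lb t - lvr 1 lh t| := int_nn SQ fun _ => by positivity
  refine ⟨H', r1', r2'', ω', β', ξ', _, R', fun t x => ?_, c4, c6, ?_⟩
  · obtain ⟨x1, x2, x3, x4⟩ := c1 t (x.trans_le MS)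
    obtain ⟨y1, y2, y3, y4⟩ := d1 t x
    exact ⟨x1.trans y1, x2.trans y2, x3.trans y3, x4.trans y4⟩
  rw [c5]
  generalize (∫ t in M..S', (σ - b * Gam lh σ - (t - b * Gam lh t)) *
    |lvr 1 lb t - lvr 1 lh t|) = z2 at *
  generalize (∫ t in S..Q, max (t - b * Gam lh t - (hb t + lam * e * (t - S))) 0 *
    |lvr 1 lb t - lvr 1 lh t|) = z3 at *
  generalize (∫ t in S..Q, max (hb t + lam * e * (t - S) - (t - b * Gam lh t) +
    (e / 4 * (t - S) + b * c / 4 * (t - S) ^ 2)) 0 * |lvr 1 lb t - lvr 1 lh t|) = s2 at *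
  generalize (∫ t in S..Q, (t - S) ^ 2 * |lvr 1 lb t - lvr 1 lh t|) = W2 at *
  generalize (∫ t in S..Q, max (hb t + lam * e * (t - S) - (t - b * Gam lh t)) 0 *
    |lvr 1 lb t - lvr 1 lh t|) = s1 at *
  generalize (∫ t in S..Q, (t - S) * |lvr 1 lb t - lvr 1 lh t|) = W at *
  generalize (∫ t in S..Q, |lvr 1 lb t - lvr 1 lh t|) = V at *
  generalize (∫ t in M..S', |lvr 1 lb t - lvr 1 lh t|) = i2 at *
  generalize (∫ t in S'..S, |lvr 1 lb t - lvr 1 lh t|) = i5 at *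
  generalize (∫ t in Q..T, |lvr 1 lb t - lvr 1 lh t|) = i4 at *
  have Z3 : e / 4 * W ≤ z3 + s2 := by
    linarith [mul_nonneg (show 0 ≤ b * c / 4 by positivity) W20]
  obtain ⟨f1, f2⟩ := finS (x := ∫ t in A..M, ξ t) (D := D) n hC b0 T0 L0 η0 β0 g0 Dh0 l0 h.lamκ
    Gt0 e0 e10 κ0 κ1 u0 E0 D0' y0 hy3 ι0 ι2 D3 V0 V1 bt I2 I2' I4 I4' Z2 Z3 Z30 St1 St' γ0 D0
    (by rw [hD, hD']; linarith) I5 I5'
  refine ⟨f1, f2, ?_⟩
  have f3 := div_le_div_of_nonneg_right (add_le_add Z2 Z4) b0.le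
  rw [show (e * κ * D' ^ 2 / 2 + (e / 4 * W + b * c / 4 * W2)) / b =
    e * κ * D' ^ 2 / (2 * b) + e / (4 * b) * W + c / 4 * W2 by field_simp; ring,
    add_div, add_div] at f3
  linarith

/-- `res` in the form `Ext` -/
theorem ext {A0 c C θ E N U Lt : ℝ} {H r1 r2 ω β ξ : ℝ → ℝ} (hU : ∀ s, U ≤ s → lvr 1 lb s = 1)
    (L0 : 0 ≤ Lt) (hL' : U - max M σ ≤ Lt) (hC : 0 ≤ C) (hL : Spl27.GLip T C)
    (R : Res T (fun t => lvr 1 lb t - lvr 1 lh t) (fun t => Gam lb t - Gam lh t) H r1 r2 ω β ξ 0 M)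
    (hM : 0 < M) (hc : r2 M = c0) (β0 : 0 ≤ β M) (hA0 : 0 ≤ A0) (hA0M : A0 ≤ M)
    (hE : (∫ t in A0..T, Sc48.Jf lh lb T t ^ 2) + (∫ t in (0:ℝ)..A0, |Sc48.Jf lh lb T t|) ^ 2 ≤ E)
    (c0' : 0 < c) (hq : ∀ r, σ ≤ r → r < T → Gd lh r ≤ -c)
    (n : PNS T Lt C b c θ (η + β M + (Dh + lam * e * γ) / b) g G0 Gt e e1 κ u1 γ N) :
    ∃ Z : ℝ, 0 ≤ Z ∧ Ext T (fun t => lvr 1 lb t - lvr 1 lh t) (fun t => Gam lb t - Gam lh t)
        H r2 ω β ξ M T (14 * θ * E + Z / 4 + 17 * N) Z ∧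
      e * κ * (max M σ' - M) ^ 2 / (2 * b) + e / (4 * b) *
        (∫ t in max M σ..max (max M σ) P, (t - max M σ) * (1 - lvr 1 lb t)) +
        c / 4 * (∫ t in max M σ..max (max M σ) P, (t - max M σ) ^ 2 * (1 - lvr 1 lb t)) ≤
        Z + N := by
  obtain ⟨H', r1', r2', ω', β', ξ', Z, a1, a2, a5, a6, a7, a8, a9⟩ :=
    h.res hU L0 hL' hC hL R le_rfl hM.le hc β0 hA0 hA0M hE c0' hq n
  exact ⟨Z, a7, ⟨H', r1', r2', ω', β', ξ', a1, (a2 0 hM).2.2.1, (a2 0 hM).2.2.2, a5.le,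
    by linarith, a6⟩, a9⟩

/-- `V³ ≤ 8 E` for the mass `V` below `1` above `max M σ` -/
theorem V_cube {A0 x y : ℝ} (hA0 : 0 ≤ A0) (hA : A0 ≤ x) (hx : σ ≤ x) (hxy : x ≤ y) (hy : y ≤ T) :
    (∫ t in x..y, (1 - lvr 1 lb t)) ^ 3 ≤ 8 * ∫ t in A0..T, Sc48.Jf lh lb T t ^ 2 := by
  have xT := hxy.trans hy
  have x0 := hA0.trans hA
  have a := Jf_le (l := lh) (l' := lb) (u := 1) xT fun r _ => h.d1 r
  have c := Lab36.sup_cube (zh := lvr 1 lh) (zb := lvr 1 lb) h.ld (fun t _ _ => h.d1 t) hA0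
    le_rfl hA xT (.inr (by
      show x + |Sc48.Jf lh lb T x| / 2 ≤ T
      linarith [abs_nonneg (Sc48.Jf lh lb T x)]))
  refine le_trans (pow_le_pow_left₀ (int_nn hxy fun t =>
    sub_nonneg.2 (Pp.Ode3.lvr_le_one h.okb.1 t)) ?_ 3) c
  have e1 : ∫ t in x..y, (1 - lvr 1 lb t) = ∫ t in x..y, |lvr 1 lb t - lvr 1 lh t| :=
    intervalIntegral.integral_congr_Ioo_of_le hxy fun t ht => (h.dtop (hx.trans ht.1.le)).2.symm
  have e2 := int_split h.ld.abs (a := x) (b := y) (c := T) ⟨x0, xT⟩ ⟨x0.trans hxy, hy⟩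
    ⟨x0.trans xT, le_rfl⟩
  have e3 : ∫ t in x..T, |lvr 1 lb t - lvr 1 lh t| = -Sc48.Jf lh lb T x := by
    unfold Sc48.Jf
    rw [← intervalIntegral.integral_neg]
    exact intervalIntegral.integral_congr_Ioo_of_le xT fun t ht =>
      abs_of_nonpos (h.dtop (hx.trans ht.1.le)).1
  have e4 : 0 ≤ ∫ t in y..T, |lvr 1 lb t - lvr 1 lh t| := int_nn hy fun _ => abs_nonneg _
  show _ ≤ |Sc48.Jf lh lb T x|
  linarith [neg_le_abs (Sc48.Jf lh lb T x)]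

/-- `W² ≤ W2 V` -/
theorem W_sq {x y : ℝ} (hx : 0 ≤ x) (hxy : x ≤ y) (hy : y ≤ T) :
    (∫ t in x..y, (t - x) * (1 - lvr 1 lb t)) ^ 2 ≤
      (∫ t in x..y, (t - x) ^ 2 * (1 - lvr 1 lb t)) * ∫ t in x..y, (1 - lvr 1 lb t) := by
  have l0 : LB T fun t => 1 - lvr 1 lb t := (LB.const 1).sub (LB.of_mono (Sc48.lvr_mono h.okb.1))
  have l1 : LB T fun t => (t - x) * (1 - lvr 1 lb t) := (LB.of_cont (by fun_prop)).mul l0
  have l2 : LB T fun t => (t - x) ^ 2 * (1 - lvr 1 lb t) := (LB.of_cont (by fun_prop)).mul l0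
  have mx : x ∈ Icc 0 T := ⟨hx, hxy.trans hy⟩
  have my : y ∈ Icc 0 T := ⟨hx.trans hxy, hy⟩
  have p := fun t => sub_nonneg.2 (Pp.Ode3.lvr_le_one h.okb.1 t)
  have k : ∀ s : ℝ, 0 ≤ (∫ t in x..y, (1 - lvr 1 lb t)) * (s * s) +
      (-2 * ∫ t in x..y, (t - x) * (1 - lvr 1 lb t)) * s +
      ∫ t in x..y, (t - x) ^ 2 * (1 - lvr 1 lb t) := fun s => by
    have a := int_mono ((LB.const (2 * s)).mul l1) (((LB.const (s * s)).mul l0).add l2) hx hxy hy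
      fun t _ _ => by nlinarith [mul_nonneg (sq_nonneg (t - x - s)) (p t)]
    rw [intervalIntegral.integral_add (((LB.const (s * s)).mul l0).ii mx my) (l2.ii mx my),
      intervalIntegral.integral_const_mul, intervalIntegral.integral_const_mul] at a
    linarith
  have := discrim_le_zero k
  unfold discrim at this
  nlinarith

end PlS

end

end Crest.Agent.T156.Pr.Reg48
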