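import Crest.Agent.T156.Lag_8

/-!
# Row 156, text (L) (helper84): the top zones with the energy localised at the corner
-/

set_option autoImplicit false

noncomputable section

namespace Crest.Agent.T156.Pr.Reg48

open MeasureTheory Set
open Crest.Agent.R164.GC Crest.Agent.R339.B Crest.Agent.R339.Var Crest.Agent.T157.Pf
open Crest.Agent.T156.Cut8 (LB Res int_mono int_split Ext ExtA)

variable {lb lh : List (ℝ × ℝ)} {T b c σ' σ γ M P c0 η g lam N0 e e1 κ u1 : ℝ} {hb : ℝ → ℝ}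

namespace PlZ

variable (h : PlZ lb lh T b c σ' σ γ M P c0 η g lam N0 e e1 κ u1 hb)
include h

set_option maxHeartbeats 1600000 in
/-- `resY` with the low part `p` of the non local term priced separately -/
theorem resW {A A0 C θ E N U Lt τ0 p N1 : ℝ} {H r1 r2 ω β ξ : ℝ → ℝ} (hU : ∀ s, U ≤ s → lvr 1 lb s = 1)
    (L0 : 0 ≤ Lt) (hL' : U - max M σ ≤ Lt) (hC : 0 ≤ C) (hL : Spl27.GLip T C)
    (R : Res T (fun t => lvr 1 lb t - lvr 1 lh t) (fun t => Gam lb t - Gam lh t) H r1 r2 ω β ξ A M)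
    (hA : 0 ≤ A) (hAM : A ≤ M) (hc : r2 M = c0) (β0 : 0 ≤ β M)
    (hA0 : 0 ≤ A0) (hA0M : A0 ≤ M)
    (hE : ∫ t in A0..T, Sc48.Jf lh lb T t ^ 2 ≤ E)
    (hp : ∫ t in (0:ℝ)..A0, |Sc48.Jf lh lb T t| ≤ p) (N10 : 0 ≤ N1)
    (p1 : (C * p * γ) ^ 3 ≤ θ * κ ^ 2 / 64 * N1 ^ 2)
    (p2 : C * p * γ ^ 2 + C * (1 + T) * p * (u1 * Lt) ≤ N1)
    (hq : ∀ r, σ ≤ r → r < T → Gd lh r ≤ -c)
    (n : PNY T C b c θ (η + β M + (lam * e * γ + (g + e1) * (γ + u1 * Lt)) / b) g e κ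
      γ (u1 * Lt) N0 τ0 N) :
    ∃ (H' r1' r2' ω' β' ξ' : ℝ → ℝ) (Z : ℝ),
      Res T (fun t => lvr 1 lb t - lvr 1 lh t) (fun t => Gam lb t - Gam lh t)
        H' r1' r2' ω' β' ξ' A T ∧
      (∀ t, t < M → H' t = H t ∧ r1' t = r1 t ∧ r2' t = r2 t ∧ β' t = β t) ∧
      ∫ t in A..T, ω' t ^ 2 = ∫ t in A..M, ω t ^ 2 ∧
      ∫ t in A..T, H' t * (lvr 1 lb t - lvr 1 lh t) =
        (∫ t in A..M, H t * (lvr 1 lb t - lvr 1 lh t)) + Z ∧ 0 ≤ Z ∧
      ∫ t in A..T, ξ' t ≤ (∫ t in A..M, ξ t) + 9 * θ * E + Z / 4 + 10 * N + 2 * N1 ∧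
      e * κ * (max M σ' - M) ^ 2 / (2 * b) + e / (4 * b) *
        (∫ t in max M σ..max (max M σ) P, (t - max M σ) * (1 - lvr 1 lb t)) +
        c / 4 * (∫ t in max M σ..max (max M σ) P, (t - max M σ) ^ 2 * (1 - lvr 1 lb t)) ≤
        Z + N := by
  have η0 := h.η0
  have g0 := h.g0
  have l0 := h.l0
  have e0 := h.e0
  have e10 := h.e10
  have κ0 := h.κ0
  have κ1 := h.κ1
  have c0' := h.cp
  have b0 := h.b0
  have M0 := h.M0
  have MT := h.MP.trans h.PT
  have T0 := M0.trans MT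
  have θ0 := n.θ0
  have N0' := n.Np
  have γ0 : 0 ≤ γ := by linarith [h.σ1, h.σγ]
  have u0 : 0 ≤ u1 := le_trans (sub_nonneg.2 (Pp.Ode3.lvr_le_one h.okb.1 P)) h.last
  have ld := h.ld
  have lΓ : LB T (Gam lh) := .of_cont (h.th ▸ (ode h.okh).1)
  have lM : LB T fun t => t - b * Gam lh t :=
    (LB.of_cont continuousOn_id).sub ((LB.const b).mul lΓ)
  have lJ : LB T (Sc48.Jf lh lb T) := .of_cont (ld.tail (right_mem_Icc.mpr T0))
  have AT := hA0M.trans MT
  have ι2 : (∫ s in A0..T, |Sc48.Jf lh lb T s|) ^ 2 ≤ (T + 1) * E := by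
    have c := Gap27.sq_int_le lJ hA0 AT le_rfl
    have I0 : 0 ≤ ∫ t in A0..T, Sc48.Jf lh lb T t ^ 2 := int_nn AT fun _ => sq_nonneg _
    nlinarith [mul_le_mul_of_nonneg_left hE (show 0 ≤ T + 1 by linarith)]
  have ιs := int_split lJ.abs (a := 0) (b := A0) (c := T) ⟨le_rfl, T0⟩ ⟨hA0, AT⟩ ⟨T0, le_rfl⟩
  have ι10 : 0 ≤ ∫ s in A0..T, |Sc48.Jf lh lb T s| := int_nn AT fun _ => abs_nonneg _
  have ι00 : 0 ≤ ∫ s in (0:ℝ)..A0, |Sc48.Jf lh lb T s| := int_nn hA0 fun _ => abs_nonneg _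
  generalize (∫ s in A0..T, |Sc48.Jf lh lb T s|) = ι1 at ι2 ιs ι10
  generalize (∫ s in (0:ℝ)..A0, |Sc48.Jf lh lb T s|) = ιa at hp ιs ι00
  have E0 : 0 ≤ E := (int_nn AT fun _ => sq_nonneg _).trans hE
  obtain ⟨y, y0, hy3⟩ : ∃ y : ℝ, 0 ≤ y ∧ y ^ 3 = 8 * E :=
    ⟨(8 * E) ^ (((3:ℕ):ℝ)⁻¹), by positivity, Real.rpow_inv_natCast_pow (by positivity) (by norm_num)⟩
  have hy : ∀ s ∈ Icc M T, |Sc48.Jf lh lb T s| ≤ y := fun s hs => by
    have a := Jf_le (l := lh) (l' := lb) (u := 1) hs.2 fun r _ => h.d1 r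
    have c := Lab36.sup_cube (zh := lvr 1 lh) (zb := lvr 1 lb) ld (fun t _ _ => h.d1 t) hA0
      le_rfl (hA0M.trans hs.1) hs.2 (.inr (by
        show s + |Sc48.Jf lh lb T s| / 2 ≤ T
        linarith [abs_nonneg (Sc48.Jf lh lb T s)]))
    refine le_of_pow_le_pow_left₀ (n := 3) (by norm_num) y0 (c.trans ?_)
    rw [hy3]
    exact mul_le_mul_of_nonneg_left hE (by norm_num)
  set ι := ∫ s in (0:ℝ)..T, |Sc48.Jf lh lb T s| with hι
  have ι0 : 0 ≤ ι := int_nn T0 fun _ => abs_nonneg _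
  have r2' := fun t => h.r2 (t := t)
  have r5' := fun t => h.r5Y hC hL hy hι (t := t)
  have r3' := fun t => h.r3 (t := t)
  have r4' := fun t => h.r4 hC hL hι (t := t)
  have tl := fun r => h.tail hU L0 hL' (r := r)
  have gw := fun s => h.growq c0'.le hq (s := s)
  have st := h.stat
  have cS : max M σ' - M = 0 ∨ (M < σ' ∧ max M σ' = σ') := by
    rcases le_or_gt σ' M with x | x
    · exact .inl (by rw [max_eq_left x, sub_self])
    · exact .inr ⟨x, max_eq_right x.le⟩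
  have SS : max M σ' ≤ max M σ := max_le_max_left _ h.σ1
  have Sγ : max M σ - max M σ' ≤ γ := by
    rcases le_total M σ with x | x
    · rw [max_eq_right x]; linarith [le_max_right M σ', h.σγ]
    · rw [max_eq_left x]; linarith [le_max_left M σ']
  set S' := max M σ' with hS'
  have MS' : M ≤ S' := le_max_left _ _
  set S := max M σ with hS
  have MS : M ≤ S := le_max_left _ _
  have σS : σ ≤ S := le_max_right _ _
  have ST : S ≤ T := max_le MT h.σT
  set Q := max S P with hQ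
  have SQ : S ≤ Q := le_max_left _ _
  have QT : Q ≤ T := max_le ST h.PT
  have S0 := M0.trans MS
  have tP : ∀ t, S ≤ t → t < Q → t < P := fun t a c =>
    (lt_max_iff.1 c).resolve_left (not_lt.2 a)
  set D := S - M with hD
  have D0 : 0 ≤ D := sub_nonneg.2 MS
  set D' := S' - M with hD'
  have D0' : 0 ≤ D' := sub_nonneg.2 MS'
  have S'T := SS.trans ST
  have lh' : LB T fun t => hb t + lam * e * (t - S) := h.lhb.add (LB_lin T _ S)
  subst hc
  obtain ⟨H0, r10, r20, ω0, β1, ξ0, R0, d1, d2, d3, d4, d5, d6⟩ := res_two (hm := σ - b * Gam lh σ)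
    R ld lΓ b0 hA hAM MS' SS ST β0 (by positivity) (by positivity) r2' r5'
  obtain ⟨H', r1', r2'', ω', β', ξ', R', c1, -, -, c4, c5, c6⟩ := res_top' (hm := 0) (B2 := 0)
    R0 ld lΓ lh' b0 hA (hAM.trans MS) le_rfl SQ QT (d3 ▸ β0) le_rfl (by positivity) (by positivity)
    (fun t a c => absurd c (not_lt.2 a))
    (fun t a c => ⟨(h.dtop (σS.trans a)).1, d2 ▸ r3' t a (tP t a c)⟩)
    (fun t a c => ⟨(h.dtop (σS.trans (SQ.trans a))).1, .inr (d2 ▸ r4' t (MS.trans (SQ.trans a)) c.le)⟩)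
  rw [intervalIntegral.integral_same, mul_zero, zero_add, d3, d5] at c5
  rw [intervalIntegral.integral_same, zero_div, zero_add, d6, add_assoc] at c6
  rw [d4] at c4
  have eW : ∫ t in S..Q, (t - S) * (1 - lvr 1 lb t) =
      ∫ t in S..Q, (t - S) * |lvr 1 lb t - lvr 1 lh t| :=
    intervalIntegral.integral_congr_Ioo_of_le SQ fun t ht => by
      rw [(h.dtop (σS.trans ht.1.le)).2]
  have eW2 : ∫ t in S..Q, (t - S) ^ 2 * (1 - lvr 1 lb t) =
      ∫ t in S..Q, (t - S) ^ 2 * |lvr 1 lb t - lvr 1 lh t| :=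
    intervalIntegral.integral_congr_Ioo_of_le SQ fun t ht => by
      rw [(h.dtop (σS.trans ht.1.le)).2]
  rw [eW, eW2]
  have mS : S ∈ Icc 0 T := ⟨S0, ST⟩
  have mQ : Q ∈ Icc 0 T := ⟨S0.trans SQ, QT⟩
  have mT : T ∈ Icc 0 T := ⟨T0, le_rfl⟩
  have bt := bath ld.abs S0 SQ QT (fun _ => abs_nonneg _) fun t _ _ => h.d1 t
  have I2 : ∫ t in M..S', |lvr 1 lb t - lvr 1 lh t| ≤ D' * 1 :=
    int_le ld.abs M0 MS' S'T fun t _ _ => h.d1 t
  have I2' : 0 ≤ ∫ t in M..S', |lvr 1 lb t - lvr 1 lh t| := int_nn MS' fun _ => abs_nonneg _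
  have I5 : ∫ t in S'..S, |lvr 1 lb t - lvr 1 lh t| ≤ γ :=
    (int_le ld.abs (M0.trans MS') SS ST fun t _ _ => h.d1 t).trans (by linarith)
  have I5' : 0 ≤ ∫ t in S'..S, |lvr 1 lb t - lvr 1 lh t| := int_nn SS fun _ => abs_nonneg _
  have I4 : ∫ t in Q..T, |lvr 1 lb t - lvr 1 lh t| ≤ u1 * Lt := tl Q le_rfl QT
  have I4' : 0 ≤ ∫ t in Q..T, |lvr 1 lb t - lvr 1 lh t| := int_nn QT fun _ => abs_nonneg _
  have V0 : 0 ≤ ∫ t in S..Q, |lvr 1 lb t - lvr 1 lh t| := int_nn SQ fun _ => abs_nonneg _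
  have V1 : ∫ t in S..Q, |lvr 1 lb t - lvr 1 lh t| ≤ y := by
    have a := int_split ld.abs mS mQ mT
    have c : ∫ t in S..T, |lvr 1 lb t - lvr 1 lh t| = -Sc48.Jf lh lb T S := by
      unfold Sc48.Jf
      rw [← intervalIntegral.integral_neg]
      exact intervalIntegral.integral_congr_Ioo_of_le ST fun t ht =>
        abs_of_nonpos (h.dtop (σS.trans ht.1.le)).1
    linarith [neg_le_abs (Sc48.Jf lh lb T S), hy S ⟨MS, ST⟩]
  have D3 : κ ^ 2 * D' ^ 3 / 64 ≤ E := by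
    rcases cS with x | ⟨-, x⟩
    · rw [x]; simpa using E0
    · have a := Lab36.gap_pos (zh := lvr 1 lh) (zb := lvr 1 lb) ld M0 D0' (by linarith) κ0.le
        fun t a c => h.gap t ⟨a.le, by linarith⟩
      have c := intervalIntegral.integral_mono_interval (μ := volume) (a := M) (b := M + D')
        (c := A0) (d := T) (f := fun t => Sc48.Jf lh lb T t ^ 2) hA0M (by linarith) (by linarith)
        (Filter.Eventually.of_forall fun _ => sq_nonneg _) (lJ.sq.ii ⟨hA0, AT⟩ mT)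
      exact a.trans (c.trans hE)
  have Z2 : e * κ * D' ^ 2 / 2 ≤
      ∫ t in M..S', (σ - b * Gam lh σ - (t - b * Gam lh t)) * |lvr 1 lb t - lvr 1 lh t| := by
    rcases cS with x | ⟨x0, x⟩
    · rw [x, show S' = M by linarith]; simp
    · have a := int_mono (LB_lin T (-(e * κ)) S')
        (((LB.const (σ - b * Gam lh σ)).sub lM).mul ld.abs) M0 MS' S'T fun t a c => by
          have σ1 := h.σ1
          have g1 := h.gap t ⟨a.le, by linarith⟩
          have g2 := h.grow (.inl a.le) (by linarith : t ≤ σ) h.σT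
          have g3 : e * (σ' - t) ≤ e * (σ - t) := mul_le_mul_of_nonneg_left (by linarith) e0.le
          have g4 : e * (σ' - t) ≤ σ - b * Gam lh σ - (t - b * Gam lh t) := by linarith
          have g5 : 0 ≤ e * (σ' - t) := mul_nonneg e0.le (by linarith)
          have := mul_le_mul g4 (g1.trans (le_abs_self _)) κ0.le (g5.trans g4)
          rw [x]
          linarith
      rw [int_lin] at a
      refine le_of_eq_of_le ?_ a
      rw [hD']; ring
  have lq : LB T fun t => b * c / 4 * (t - S) ^ 2 := .of_cont (by fun_prop)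
  have lk : LB T fun t => hb t + lam * e * (t - S) - (t - b * Gam lh t) +
      (e / 4 * (t - S) + b * c / 4 * (t - S) ^ 2) := (lh'.sub lM).add ((LB_lin T _ S).add lq)
  have St' : (∫ t in S..Q, max (hb t + lam * e * (t - S) - (t - b * Gam lh t) +
      (e / 4 * (t - S) + b * c / 4 * (t - S) ^ 2)) 0 * |lvr 1 lb t - lvr 1 lh t|) / b ≤ N := by
    have St := static_pt (e := e / 4) (c := b * c / 4) (K := fun t => hb t - (σ - b * Gam lh σ))
      ld lk S0 SQ QT (by positivity) (by positivity) n.M0 n.τp n.τ1 n.τ2 (fun t _ _ => h.d1 t)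
      fun t a c => ⟨by
        have g1 := gw t a.le (c.le.trans QT)
        have g2 : 0 ≤ e * (t - S) := mul_nonneg e0.le (by linarith)
        linarith [mul_le_mul_of_nonneg_right (h.lamκ.trans (by linarith : κ / 32 ≤ 1 / 2)) g2],
        by rw [(h.dtop (σS.trans a.le)).2]; exact st t a (tP t a.le c)⟩
    refine le_trans (div_le_div_of_nonneg_right (St.trans ?_) b0.le) n.h8
    have q0 := sub_nonneg.2 SQ
    have τp := n.τp
    refine mul_le_mul_of_nonneg_left (Real.log_le_log (by positivity) ?_) (by linarith [n.M0])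
    gcongr
    linarith
  have lW : LB T fun t => (t - S) * |lvr 1 lb t - lvr 1 lh t| := by
    simpa using (LB_lin T 1 S).mul ld.abs
  have lW2 : LB T fun t => (t - S) ^ 2 * |lvr 1 lb t - lvr 1 lh t| :=
    (LB.of_cont (by fun_prop)).mul ld.abs
  have l3 := (LB_max (lM.sub lh')).mul ld.abs
  have lk' := (LB_max lk).mul ld.abs
  have St1 := int_mono ((LB_max (lh'.sub lM)).mul ld.abs) lk' S0 SQ QT fun t a _ =>
    mul_le_mul_of_nonneg_right (max_le_max_right 0 (le_add_of_nonneg_right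
      (add_nonneg (mul_nonneg (by positivity) (by linarith)) (by positivity)))) (abs_nonneg _)
  have l4 := (LB.const (e / 4)).mul lW
  have l5 := (LB.const (b * c / 4)).mul lW2
  have Z4 := int_mono (l4.add l5) (l3.add lk') S0 SQ QT fun t _ _ => by
    rw [← add_mul, ← mul_assoc, ← mul_assoc (b * c / 4), ← add_mul]
    refine mul_le_mul_of_nonneg_right ?_ (abs_nonneg _)
    linarith [le_max_left (t - b * Gam lh t - (hb t + lam * e * (t - S))) 0, le_max_left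
      (hb t + lam * e * (t - S) - (t - b * Gam lh t) +
        (e / 4 * (t - S) + b * c / 4 * (t - S) ^ 2)) 0]
  rw [intervalIntegral.integral_add (l3.ii mS mQ) (lk'.ii mS mQ),
    intervalIntegral.integral_add (l4.ii mS mQ) (l5.ii mS mQ),
    intervalIntegral.integral_const_mul, intervalIntegral.integral_const_mul] at Z4
  have W20 : 0 ≤ ∫ t in S..Q, (t - S) ^ 2 * |lvr 1 lb t - lvr 1 lh t| :=
    int_nn SQ fun _ => by positivity
  have Z30 : 0 ≤ ∫ t in S..Q, max (t - b * Gam lh t - (hb t + lam * e * (t - S))) 0 *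
      |lvr 1 lb t - lvr 1 lh t| := int_nn SQ fun _ => by positivity
  refine ⟨H', r1', r2'', ω', β', ξ', _, R', fun t x => ?_, c4, c6, ?_⟩
  · obtain ⟨x1, x2, x3, x4⟩ := c1 t (x.trans_le MS)
    obtain ⟨y1, y2, y3, y4⟩ := d1 t x
    exact ⟨x1.trans y1, x2.trans y2, x3.trans y3, x4.trans y4⟩
  rw [c5]
  generalize (∫ t in M..S', (σ - b * Gam lh σ - (t - b * Gam lh t)) *
    |lvr 1 lb t - lvr 1 lh t|) = z2 at *
  generalize (∫ t in S..Q, max (t - b * Gam lh t - (hb t + lam * e * (t - S))) 0 *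
    |lvr 1 lb t - lvr 1 lh t|) = z3 at *
  generalize (∫ t in S..Q, max (hb t + lam * e * (t - S) - (t - b * Gam lh t) +
    (e / 4 * (t - S) + b * c / 4 * (t - S) ^ 2)) 0 * |lvr 1 lb t - lvr 1 lh t|) = s2 at *
  generalize (∫ t in S..Q, (t - S) ^ 2 * |lvr 1 lb t - lvr 1 lh t|) = W2 at *
  generalize (∫ t in S..Q, max (hb t + lam * e * (t - S) - (t - b * Gam lh t)) 0 *
    |lvr 1 lb t - lvr 1 lh t|) = s1 at *
  generalize (∫ t in S..Q, (t - S) * |lvr 1 lb t - lvr 1 lh t|) = W at *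
  generalize (∫ t in S..Q, |lvr 1 lb t - lvr 1 lh t|) = V at *
  generalize (∫ t in M..S', |lvr 1 lb t - lvr 1 lh t|) = i2 at *
  generalize (∫ t in S'..S, |lvr 1 lb t - lvr 1 lh t|) = i5 at *
  generalize (∫ t in Q..T, |lvr 1 lb t - lvr 1 lh t|) = i4 at *
  have Z3 : e / 4 * W ≤ z3 + s2 := by
    linarith [mul_nonneg (show 0 ≤ b * c / 4 by positivity) W20]
  obtain ⟨f1, f2⟩ := finY (x := ∫ t in A..M, ξ t) (D := D) n hC b0 T0 L0 η0 β0 g0 l0 h.lamκ
    e0 e10 κ0 κ1 u0 E0 D0' y0 hy3 ι10 ι2 D3 V0 V1 bt I2 I2' I4 I4' Z2 Z3 Z30 St1 St' γ0 D0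
    (by rw [hD, hD']; linarith) I5 I5'
  refine ⟨f1, ?_, ?_⟩
  · have DD : D ≤ D' + γ := by rw [hD, hD']; linarith
    have p0 := ι00.trans hp
    have x1 : C * ιa * D * i5 ≤ C * p * (D' + γ) * γ := by gcongr
    have x2 : C * (1 + T) * ιa * i4 ≤ C * (1 + T) * p * (u1 * Lt) := by gcongr
    have x3 := y3 D0' N10 (by positivity) p1
    have x4 := mul_le_mul_of_nonneg_left D3 θ0.le
    rw [ιs]
    linarith
  have f3 := div_le_div_of_nonneg_right (add_le_add Z2 Z4) b0.le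
  rw [show (e * κ * D' ^ 2 / 2 + (e / 4 * W + b * c / 4 * W2)) / b =
    e * κ * D' ^ 2 / (2 * b) + e / (4 * b) * W + c / 4 * W2 by field_simp; ring,
    add_div, add_div] at f3
  linarith

end PlZ

end Crest.Agent.T156.Pr.Reg48

namespace Crest.Agent.T156.Pr.Lag8

open MeasureTheory Set
open Crest.Agent.R164.GC Crest.Agent.R339.B Crest.Agent.R339.Var Crest.Agent.T157.Pf
open Crest.Agent.T156.Cut8 Crest.Agent.T156.Pr.Reg48 Crest.Agent.T156.Pr.Mid8
open Crest.Agent.T156.Pr.Mid36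
open Crest.Agent.T156.Pr.Mid8.Mid (mk' ff)

variable {lb lh : List (ℝ × ℝ)} {T b : ℝ}

theorem area_osc {zb zh δ : ℝ → ℝ} (lz : LB T fun t => zb t - zh t) (lδ : LB T δ) {x y j k : ℝ}
    (hx : 0 ≤ x) (hxy : x ≤ y) (hy : y ≤ T) (hδ : ∀ t, 0 ≤ δ t) (jx : |Jf T zh zb x - k| ≤ j)
    (jy : |Jf T zh zb y - k| ≤ j)
    (h : (∀ t, x < t → t < y → -δ t ≤ zb t - zh t) ∨ ∀ t, x < t → t < y → zb t - zh t ≤ δ t) :
    ∫ t in x..y, |zb t - zh t| ≤ 2 * j + 2 * ∫ t in x..y, δ t := by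
  have mx : x ∈ Icc 0 T := ⟨hx, by linarith⟩
  have my : y ∈ Icc 0 T := ⟨by linarith, hy⟩
  have e := Lab36.jf_sub lz mx my
  have b1 := abs_le.mp jx
  have b2 := abs_le.mp jy
  have key : ∀ σ : ℝ, (∀ t, x < t → t < y → |zb t - zh t| ≤ σ * (zb t - zh t) + 2 * δ t) →
      ∫ t in x..y, |zb t - zh t| ≤ σ * (Jf T zh zb x - Jf T zh zb y) + 2 * ∫ t in x..y, δ t :=
    fun σ hσ => by
    have m := int_mono lz.abs (((LB.const σ).mul lz).add ((LB.const 2).mul lδ)) hx hxy hy hσ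
    rw [intervalIntegral.integral_add (((LB.const σ).mul lz).ii mx my)
        (((LB.const _).mul lδ).ii mx my),
      intervalIntegral.integral_const_mul, intervalIntegral.integral_const_mul, ← e] at m
    linarith
  rcases h with h | h
  · linarith [key 1 fun t t0 t1 => abs_le.mpr ⟨by linarith [h t t0 t1, hδ t], by linarith [hδ t]⟩]
  · linarith [key (-1) fun t t0 t1 =>
      abs_le.mpr ⟨by linarith [hδ t], by linarith [h t t0 t1, hδ t]⟩]

variable {σ' σ γ s M c0 η Rs w d1 e e1 C1 δ G0 Gm Gp mM Kc τ0 : ℝ}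

namespace Md3

/-- `Md3.seg`; the energy enters only through the oscillation of `J` on `[s, M]` -/
theorem segP (h : Md3 lb lh T b σ' σ γ s M c0 η Rs w d1 e e1 C1 δ G0 Gm Gp mM Kc τ0) {c C' : ℝ}
    (F : Fr T c C' (Spl27.okT T) (lvr 1) Gam GG) {βs a1 a2 θ N : ℝ} (β0 : 0 ≤ βs) (h1 : 0 ≤ a1)
    (h2 : 0 < a2) (hθ : 0 < θ) (hN : 0 ≤ N) (ha : η + (Gp + Rs) / b + βs ≤ a1 + a2)
    (h3 : (4 * a1) ^ 3 ≤ θ * N ^ 2) {k E : ℝ}
    (hE : ∀ t, s ≤ t → t ≤ M → |Jf T (lvr 1 lh) (lvr 1 lb) t - k| ^ 3 ≤ 8 * E) :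
    ∃ Z, e / b * (∫ t in s..M, |t - σ| * ff lb lh σ t) ≤ Z ∧
      Seg T (fun t => lvr 1 lb t - lvr 1 lh t) (fun t => Gam lb t - Gam lh t) c0 βs s M
        (8 * θ * E + 3 / 16 * (e / b * ∫ t in s..M, |t - σ| * ff lb lh σ t) +
          Er T b γ η Rs w d1 e e1 C1 δ G0 Gm Gp Kc τ0 a1 a2 N) Z := by
  obtain ⟨η0, g0, d0, e0, e10, C0, δ0, G00, Gm0, Gp0⟩ := h.nn
  have b0 := h.b0
  have s0 := h.s0
  have sM := h.sM
  have MT := h.MT
  have sσ := h.sσ
  have σT := h.σT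
  have w0 := h.w0
  have K0 := h.K0
  have τp := h.τp
  have γ0 : 0 ≤ γ := by linarith [h.σσ, h.spr]
  have ob : Spl27.okT T lb := ⟨h.okb, h.tb⟩
  have oh : Spl27.okT T lh := ⟨h.okh, h.th⟩
  have ms' : s ∈ Icc 0 T := ⟨s0.le, by linarith⟩
  have mM' : M ∈ Icc 0 T := ⟨by linarith, MT⟩
  have ld : LB T fun t => lvr 1 lb t - lvr 1 lh t := (F.lbz ob).sub (F.lbz oh)
  have lf : LB T (ff lb lh σ) := LB_ite (LB_max ld) ld.abs
  have f0 : ∀ t, 0 ≤ ff lb lh σ t := fun t => by unfold ff; split_ifs <;> positivity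
  have f1 : ∀ t, ff lb lh σ t ≤ 1 := fun t => by
    have := F.dz_le ob oh t
    unfold ff
    split_ifs
    · exact max_le ((le_abs_self _).trans this) zero_le_one
    · exact this
  have lw : LB T fun t => |t - σ| * ff lb lh σ t :=
    (LB.of_cont (f := fun t => |t - σ|) (by fun_prop)).mul lf
  have lH : LB T (mk' lb lh b σ) := by
    refine (((LB.const _).sub ((LB.of_cont continuousOn_id).sub
      ((LB.const b).mul (F.lbΓ oh (by linarith))))).div b).mul (LB_ite ?_ (LB.const 1))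
    exact .of_meas (Measurable.ite (measurableSet_lt ((Sc48.lvr_meas lb).sub (Sc48.lvr_meas lh))
      measurable_const) measurable_const measurable_const) (K := 1) fun t _ => by
        split_ifs <;> simp
  set B2 := η + (Gp + Rs + e1 * (w + γ)) / b with hB2
  have B20 : 0 ≤ B2 := by positivity
  have α0 : 0 < e / 8 := by positivity
  have k1 := (LB.const (T := T) (2 * G0 ^ 2)).mul (LB_ker σ α0 G00)
  have k2 := (LB.const (T := T) (16 * C1 * Gm ^ 3 / e)).mul (LB_ker σ α0 Gm0)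
  have k3 := (LB.const (T := T) Kc).mul (LB_ker σ one_pos τp)
  have lr := (((LB.const B2).mul (LB_d2 σ' w d1)).add
    (((k1.add k2).add (LB.const (Gm * δ))).div b)).add k3
  have lk := ((LB.const (e / b / 8)).mul lw).add (LB_ite (M := σ) lr (LB.const 0))
  have la := (LB.const (η + (Gp + Rs) / b + βs)).mul ld.abs
  have z1 := int_mono ((LB.const (e / b)).mul lw) (lH.mul ld) s0.le sM MT
    fun t t0 t1 => h.coer t0.le t1
  rw [intervalIntegral.integral_const_mul] at z1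
  have W0 : 0 ≤ ∫ t in s..M, |t - σ| * ff lb lh σ t :=
    intervalIntegral.integral_nonneg sM fun t _ => by have := f0 t; positivity
  refine ⟨_, z1, _, _, lH, la.add lk, fun t t0 t1 =>
    ⟨le_trans (by have := f0 t; positivity) (h.coer t0 t1),
      add_nonneg (by positivity) (add_nonneg (by have := f0 t; positivity)
        (by have := d2_nn (σ' := σ') (w := w) d0 t; unfold ker; split_ifs <;> positivity)), ?_⟩,
    ?_, rfl⟩
  · have p := h.pair t0 t1
    have q : (if t < σ then (η + (Gp + Rs + e1 * (w + γ)) / b) * d2 σ' w d1 t +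
        (e / 8 * ((σ - t) * max (lvr 1 lb t - lvr 1 lh t) 0) +
          (2 * G0 ^ 2 * (1 / (e / 8 * (σ - t) + G0)) +
            16 * C1 * Gm ^ 3 / e * (1 / (e / 8 * (σ - t) + Gm)) + Gm * δ)) / b +
          Kc * (1 / (1 * (σ - t) + τ0)) else 0) ≤
        e / b / 8 * (|t - σ| * ff lb lh σ t) + if t < σ then B2 * d2 σ' w d1 t +
          (2 * G0 ^ 2 * ker (e / 8) G0 σ t + 16 * C1 * Gm ^ 3 / e * ker (e / 8) Gm σ t + Gm * δ) / b +
          Kc * ker 1 τ0 σ t else 0 := by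
      unfold ff ker
      split_ifs with c
      · rw [max_eq_left (sub_nonneg.mpr c.le), abs_of_neg (sub_neg.mpr c)]
        exact le_of_eq (by ring)
      · positivity
    simp only
    linarith
  have m0 : s ≤ min σ M := le_min sσ sM
  have m1 : min σ M ≤ σ := min_le_left _ _
  have m2 : min σ M ≤ M := min_le_right _ _
  have mm : min σ M ∈ Icc 0 T := ⟨by linarith, by linarith⟩
  have i1 := mul_le_mul_of_nonneg_left (int_ker' s0.le m0 m1 σT α0 G00)
    (show 0 ≤ 2 * G0 ^ 2 by positivity)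
  have i2 := mul_le_mul_of_nonneg_left (int_ker' s0.le m0 m1 σT α0 Gm0)
    (show 0 ≤ 16 * C1 * Gm ^ 3 / e by positivity)
  have i6 := mul_le_mul_of_nonneg_left (int_ker' s0.le m0 m1 σT one_pos τp) K0
  rw [one_mul, div_one] at i6
  have i3 := mul_le_mul_of_nonneg_right (show min σ M - s ≤ T by linarith)
    (show 0 ≤ Gm * δ by positivity)
  have i0 := int_d2 (T := T) (σ' := σ') s0.le m0 mm.2 d0 w0 γ0
    (show min σ M - σ' ≤ γ by linarith [h.spr])
  have i4 := mul_le_mul_of_nonneg_left i0 B20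
  have i5 : ((2 * G0 ^ 2 * ∫ t in s..min σ M, ker (e / 8) G0 σ t) +
      (16 * C1 * Gm ^ 3 / e * ∫ t in s..min σ M, ker (e / 8) Gm σ t) +
      (min σ M - s) * (Gm * δ)) / b ≤ St T b e C1 δ G0 Gm := by
    refine div_le_div_of_nonneg_right ?_ b0.le
    have r1 : 2 * G0 ^ 2 * (Real.log (1 + e / 8 * T / G0) / (e / 8)) =
        16 * G0 ^ 2 / e * Real.log (1 + e / 8 * T / G0) := by field_simp; ring
    have r2 : 16 * C1 * Gm ^ 3 / e * (Real.log (1 + e / 8 * T / Gm) / (e / 8)) =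
        128 * C1 * Gm ^ 3 / e ^ 2 * Real.log (1 + e / 8 * T / Gm) := by field_simp; ring
    linarith
  rw [intervalIntegral.integral_add (la.ii ms' mM') (lk.ii ms' mM'),
    intervalIntegral.integral_add (((LB.const _).mul lw).ii ms' mM')
      ((LB_ite lr (LB.const 0)).ii ms' mM'), int_cut lr s0.le sσ sM MT,
    intervalIntegral.integral_add ((((LB.const _).mul (LB_d2 σ' w d1)).add
      (((k1.add k2).add (LB.const _)).div b)).ii ms' mm) (k3.ii ms' mm),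
    intervalIntegral.integral_add (((LB.const _).mul (LB_d2 σ' w d1)).ii ms' mm)
      ((((k1.add k2).add (LB.const _)).div b).ii ms' mm), intervalIntegral.integral_div,
    intervalIntegral.integral_add ((k1.add k2).ii ms' mm) ((LB.const _).ii ms' mm),
    intervalIntegral.integral_add (k1.ii ms' mm) (k2.ii ms' mm), intervalIntegral.integral_const,
    smul_eq_mul]
  simp only [intervalIntegral.integral_const_mul]
  have E0 : 0 ≤ E := by linarith [hE s le_rfl sM, pow_nonneg (abs_nonneg (Jf T (lvr 1 lh) (lvr 1 lb) s - k)) 3]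
  obtain ⟨y, y0, y3'⟩ : ∃ y : ℝ, 0 ≤ y ∧ y ^ 3 = 8 * E :=
    ⟨_, by positivity, Real.rpow_inv_natCast_pow (by positivity) three_ne_zero⟩
  have jy : ∀ t, s ≤ t → t ≤ M → |Jf T (lvr 1 lh) (lvr 1 lb) t - k| ≤ y := fun t t0 t1 =>
    (pow_le_pow_iff_left₀ (abs_nonneg _) y0 three_ne_zero).mp ((hE t t0 t1).trans (by linarith))
  have v1 := area_osc ld (LB_d2 σ' w d1) s0.le m0 mm.2 (d2_nn d0) (jy _ le_rfl sM) (jy _ m0 m2)
    (.inl fun t t0 _ => h.dlo' t0.le)
  have v2 := area_osc ld (LB.const 0) mm.1 m2 MT (fun _ => le_rfl) (jy _ m0 m2) (jy _ sM le_rfl)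
    (.inr fun t t0 t1 => by
      rw [h.top t (by rcases min_lt_iff.mp t0 with c | c <;> linarith)]
      linarith [(Sc48.lvr_mem h.okb.1 t).2])
  rw [intervalIntegral.integral_zero] at v2
  have v3 := int_split ld.abs ms' mm mM'
  have l5 := LB_ite (M := σ) (LB_d2 (T := T) σ' w d1) (LB.const 0)
  have v5 := int_mono ld.abs (lf.add l5) s0.le sM MT fun t t0 _ => by
    unfold ff
    split_ifs with c
    · exact abs_le.mpr ⟨by linarith [h.dlo' t0.le, le_max_right (lvr 1 lb t - lvr 1 lh t) 0],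
        by linarith [le_max_left (lvr 1 lb t - lvr 1 lh t) 0, d2_nn (σ' := σ') (w := w) d0 t]⟩
    · linarith
  rw [intervalIntegral.integral_add (lf.ii ms' mM') (l5.ii ms' mM'),
    int_cut (LB_d2 σ' w d1) s0.le sσ sM MT] at v5
  have v6 := bath2 lf (σ := σ) (r := 16 * a2 * b / e) s0.le sM MT (by positivity) f0 f1
  have V0 : 0 ≤ ∫ t in s..M, |lvr 1 lb t - lvr 1 lh t| :=
    intervalIntegral.integral_nonneg sM fun _ _ => abs_nonneg _
  have w0' := mul_le_mul_of_nonneg_right ha V0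
  have w1 := mul_le_mul_of_nonneg_left
    (show ∫ t in s..M, |lvr 1 lb t - lvr 1 lh t| ≤ 4 * y + 2 * (d1 * (w + γ) + γ) by linarith) h1
  have w2 := mul_le_mul_of_nonneg_left
    (show ∫ t in s..M, |lvr 1 lb t - lvr 1 lh t| ≤ 2 * (16 * a2 * b / e) +
      (∫ t in s..M, |t - σ| * ff lb lh σ t) / (16 * a2 * b / e) + (d1 * (w + γ) + γ) by linarith) h2.le
  have w3 := y3 y0 hN hθ h3
  have r3 : ∀ W : ℝ, a2 * (2 * (16 * a2 * b / e) + W / (16 * a2 * b / e) + (d1 * (w + γ) + γ)) =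
      32 * a2 ^ 2 * b / e + e / b * W / 16 + a2 * (d1 * (w + γ) + γ) := fun W => by field_simp; ring
  rw [r3] at w2
  rw [y3'] at w3
  unfold Er
  linarith

end Md3

/-- **the plateau zone as a continuation**, local energy -/
theorem contW {c P g lam N0 κ u1 : ℝ} {hb : ℝ → ℝ}
    (h : PlZ lb lh T b c σ' σ γ M P c0 η g lam N0 e e1 κ u1 hb)
    {A A0 C θ E N U Lt βs p N1 : ℝ} (hU : ∀ s, U ≤ s → lvr 1 lb s = 1)
    (L0 : 0 ≤ Lt) (hL' : U - max M σ ≤ Lt) (hC : 0 ≤ C) (hL : Spl27.GLip T C) (hA : 0 ≤ A)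
    (hAM : A ≤ M) (β0 : 0 ≤ βs) (hA0 : 0 ≤ A0) (hA0M : A0 ≤ M)
    (hE : ∫ t in A0..T, Sc48.Jf lh lb T t ^ 2 ≤ E)
    (hp : ∫ t in (0:ℝ)..A0, |Sc48.Jf lh lb T t| ≤ p) (N10 : 0 ≤ N1)
    (p1 : (C * p * γ) ^ 3 ≤ θ * κ ^ 2 / 64 * N1 ^ 2)
    (p2 : C * p * γ ^ 2 + C * (1 + T) * p * (u1 * Lt) ≤ N1)
    (hq : ∀ r, σ ≤ r → r < T → Gd lh r ≤ -c)
    (n : PNY T C b c θ (η + βs + (lam * e * γ + (g + e1) * (γ + u1 * Lt)) / b) g e κ
      γ (u1 * Lt) N0 τ0 N) :
    Cont T (fun t => lvr 1 lb t - lvr 1 lh t) (fun t => Gam lb t - Gam lh t) c0 βs A M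
      (9 * θ * E + 10 * N + 2 * N1) (QZ lb b c σ' σ M P e κ N) := by
  intro H r1 r2 ω β ξ R hc hβ
  subst hβ
  obtain ⟨H', r1', r2', ω', β', ξ', Z, a1, a2, a5, a6, a7, a8, a9⟩ :=
    h.resW hU L0 hL' hC hL R hA hAM hc β0 hA0 hA0M hE hp N10 p1 p2 hq n
  exact ⟨Z, a7, ⟨a7, a9⟩, H', r1', r2', ω', β', ξ', a1, a2, a5.le, by linarith, a6⟩

end Crest.Agent.T156.Pr.Lag8

end
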