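import Crest.Agent.T156.PlatS_48

/-!
Row 156 (helper48): the plateau part of the energy estimate, final form: all node errors above the
cut `M` are part of the marks `hb`, the static cost is pointwise, the last region is anchored at `M`.
-/

set_option autoImplicit false

namespace Crest.Agent.T156.Pr.Reg48

open MeasureTheory Set
open Crest.Agent.R164.GC Crest.Agent.R339.B Crest.Agent.R339.Var Crest.Agent.T157.Pf
open Crest.Agent.T156.Cut8 (LB Res int_mono int_split Ext)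

noncomputable section

/-- a mark excess `K` on the label mass `ρ` costs `N` -/
def Sm (e c N ρ K : ℝ) : Prop := K ≤ 0 ∨ ρ * K ^ 2 ≤ e * N ∨ ρ ^ 2 * K ^ 3 ≤ c * N ^ 2

theorem Sm.mono {e c N ρ K e' c' N' ρ' K' : ℝ} (h : Sm e c N ρ K) (e0 : 0 ≤ e) (c0 : 0 ≤ c)
    (N0 : 0 ≤ N) (ρ0 : 0 ≤ ρ') (he : e ≤ e') (hc : c ≤ c') (hN : N ≤ N') (hρ : ρ' ≤ ρ)
    (hK : K' ≤ K) : Sm e' c' N' ρ' K' := by
  rcases le_or_gt K' 0 with x | x
  · exact .inl x
  have ρ1 := ρ0.trans hρ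
  have e1 := e0.trans he
  have c1 := c0.trans hc
  rcases h with h | h | h
  · exact .inl (hK.trans h)
  · exact .inr (.inl (le_trans (by gcongr) (h.trans (by gcongr))))
  · exact .inr (.inr (le_trans (by gcongr) (h.trans (by gcongr))))

theorem Sm.mul {e c N ρ K a : ℝ} (h : Sm e c N ρ K) (c0 : 0 ≤ c) (a1 : 1 ≤ a) :
    Sm e c (a ^ 2 * N) ρ (a * K) := by
  have a0 : 0 ≤ a := by linarith
  rcases h with h | h | h
  · exact .inl (mul_nonpos_of_nonneg_of_nonpos a0 h)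
  · exact .inr (.inl (by nlinarith [mul_le_mul_of_nonneg_left h (sq_nonneg a)]))
  · refine .inr (.inr ?_)
    have x := mul_le_mul_of_nonneg_left h (pow_nonneg a0 3)
    have y : a ^ 3 * (c * N ^ 2) ≤ a ^ 4 * (c * N ^ 2) :=
      mul_le_mul_of_nonneg_right (pow_le_pow_right₀ a1 (by norm_num)) (by positivity)
    nlinarith

theorem Sm.add {e c N ρ K K' : ℝ} (h : Sm e c N ρ K) (h' : Sm e c N ρ K') (e0 : 0 ≤ e)
    (c0 : 0 ≤ c) (N0 : 0 ≤ N) (ρ0 : 0 ≤ ρ) : Sm e c (4 * N) ρ (K + K') := by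
  rcases le_total K K' with x | x
  · exact (h'.mul c0 one_le_two).mono e0 c0 (by positivity) ρ0 le_rfl le_rfl (by linarith) le_rfl
      (by linarith)
  · exact (h.mul c0 one_le_two).mono e0 c0 (by positivity) ρ0 le_rfl le_rfl (by linarith) le_rfl
      (by linarith)

theorem Sm.pt {e c N ρ K k τ τ0 : ℝ} (h : Sm e c N ρ K) (e0 : 0 < e) (c0 : 0 < c) (N0 : 0 ≤ N)
    (ρ0 : 0 ≤ ρ) (ρ1 : ρ ≤ 1) (t0 : 0 ≤ τ) (τp : 0 < τ0) (h1 : e * τ0 ^ 2 ≤ N) (h2 : c * τ0 ^ 3 ≤ N)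
    (k0 : 0 ≤ k) (hk : k + (e * τ + c * τ ^ 2) ≤ K) : k * ρ * (τ + τ0) ≤ 2 * N := by
  have p1 : 0 ≤ e * τ := by positivity
  have p2 : 0 ≤ c * τ ^ 2 := by positivity
  have kK : k ≤ K := by linarith
  have K0 := k0.trans kK
  suffices K * ρ * τ ≤ N ∧ K * ρ * τ0 ≤ N by
    have : k * ρ * (τ + τ0) ≤ K * ρ * (τ + τ0) := by gcongr
    linarith [this, ‹_ ∧ _›.1, ‹_ ∧ _›.2]
  rcases h with h | h | h
  · rw [le_antisymm h K0]; simpa using N0
  · constructor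
    · refine le_of_mul_le_mul_left (le_trans ?_ h) e0
      nlinarith [mul_le_mul_of_nonneg_left (show e * τ ≤ K by linarith) (mul_nonneg K0 ρ0)]
    · refine le_of_pow_le_pow_left₀ (n := 2) (by norm_num) N0 ?_
      calc (K * ρ * τ0) ^ 2 = ρ * K ^ 2 * τ0 ^ 2 * ρ := by ring
        _ ≤ e * N * τ0 ^ 2 * 1 := by gcongr
        _ = e * τ0 ^ 2 * N := by ring
        _ ≤ N * N := by gcongr
        _ = _ := by ring
  · constructor
    · refine le_of_pow_le_pow_left₀ (n := 2) (by norm_num) N0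
        (le_of_mul_le_mul_left (le_trans ?_ h) c0)
      nlinarith [mul_le_mul_of_nonneg_left (show c * τ ^ 2 ≤ K by linarith) (sq_nonneg (K * ρ))]
    · refine le_of_pow_le_pow_left₀ (n := 3) (by norm_num) N0 ?_
      calc (K * ρ * τ0) ^ 3 = ρ ^ 2 * K ^ 3 * τ0 ^ 3 * ρ := by ring
        _ ≤ c * N ^ 2 * τ0 ^ 3 * 1 := by gcongr
        _ = c * τ0 ^ 3 * N ^ 2 := by ring
        _ ≤ N * N ^ 2 := by gcongr
        _ = _ := by ring

/-- **pointwise form of the static cost** -/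
theorem static_pt {T S P e c N τ0 : ℝ} {dz k K : ℝ → ℝ} (ld : LB T dz) (lk : LB T k) (hS : 0 ≤ S)
    (hSP : S ≤ P) (hP : P ≤ T) (e0 : 0 < e) (c0 : 0 < c) (N0 : 0 ≤ N) (τp : 0 < τ0)
    (h2 : e * τ0 ^ 2 ≤ N) (h3 : c * τ0 ^ 3 ≤ N) (h1 : ∀ t, S < t → t < P → |dz t| ≤ 1)
    (h : ∀ t, S < t → t < P → k t + (e * (t - S) + c * (t - S) ^ 2) ≤ K t ∧
      Sm e c N |dz t| (K t)) :
    ∫ t in S..P, max (k t) 0 * |dz t| ≤ 2 * N * Real.log (1 + (P - S) / τ0) := by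
  have pos : ∀ t ∈ uIcc S P, 0 < t - S + τ0 := fun t ht => by
    rw [uIcc_of_le hSP] at ht
    have := sub_nonneg.2 ht.1
    positivity
  have cont : ContinuousOn (fun t => 2 * N / (t - S + τ0)) (uIcc S P) :=
    continuousOn_const.div (by fun_prop) fun t ht => (pos t ht).ne'
  have e1 : ∫ t in S..P, 2 * N / (t - S + τ0) =
      2 * N * Real.log (P - S + τ0) - 2 * N * Real.log (S - S + τ0) :=
    intervalIntegral.integral_eq_sub_of_hasDerivAt
      (f := fun t => 2 * N * Real.log (t - S + τ0)) (fun t ht => by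
        have a := (((hasDerivAt_id t).sub_const S).add_const τ0).log (pos t ht).ne'
        refine (a.const_mul _).congr_deriv ?_
        simp only [id]
        ring) cont.intervalIntegrable
  have e2 : 1 + (P - S) / τ0 = (P - S + τ0) / τ0 := by field_simp; ring
  have p2 := pos P right_mem_uIcc
  rw [e2, Real.log_div p2.ne' τp.ne', mul_sub]
  rw [sub_self, zero_add] at e1
  rw [← e1]
  refine intervalIntegral.integral_mono_on_of_le_Ioo hSP
    (((LB_max lk).mul ld.abs).ii ⟨hS, hSP.trans hP⟩ ⟨hS.trans hSP, hP⟩) cont.intervalIntegrable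
    fun t ht => ?_
  have p1 := pos t (by rw [uIcc_of_le hSP]; exact Ioo_subset_Icc_self ht)
  rcases le_total (k t) 0 with a | a
  · rw [max_eq_right a, zero_mul]; positivity
  · rw [max_eq_left a, le_div_iff₀ p1]
    exact (h t ht.1 ht.2).2.pt e0 c0 N0 (abs_nonneg _) (h1 t ht.1 ht.2) (sub_nonneg.2 ht.1.le) τp
      h2 h3 a (h t ht.1 ht.2).1

/-- `Γ' - Γ` moves by at most `C (1 + T) ∫ |J|` -/
theorem reg5 {l l' : List (ℝ × ℝ)} {T C p s : ℝ} (h : Ok l) (h' : Ok l') (e : TT l = T)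
    (e' : TT l' = T) (hC : 0 ≤ C) (hL : Spl27.GLip T C) (hp : 0 ≤ p) (hps : p ≤ s) (hs : s ≤ T) :
    |Gam l' s - Gam l s - (Gam l' p - Gam l p)| ≤
      C * (1 + T) * ∫ r in (0:ℝ)..T, |Sc48.Jf l l' T r| := by
  have T0 := hp.trans (hps.trans hs)
  have ld : LB T fun t => lvr 1 l' t - lvr 1 l t :=
    (LB.of_mono (Sc48.lvr_mono h'.1)).sub (LB.of_mono (Sc48.lvr_mono h.1))
  have lJ : LB T (Sc48.Jf l l' T) := .of_cont (ld.tail (right_mem_Icc.mpr T0))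
  have lG : LB T (GG l) := .of_cont (e ▸ (ode h).2.1)
  have lG' : LB T (GG l') := .of_cont (e' ▸ (ode h').2.1)
  have mp : p ∈ Icc 0 T := ⟨hp, hps.trans hs⟩
  have ms : s ∈ Icc 0 T := ⟨hp.trans hps, hs⟩
  have a : Gam l s - Gam l p = ∫ r in p..s, GG l r :=
    Pp.Ode3.Gam_int (Spl27.ap_of_ok h) hp hps (e ▸ hs)
  have a' : Gam l' s - Gam l' p = ∫ r in p..s, GG l' r :=
    Pp.Ode3.Gam_int (Spl27.ap_of_ok h') hp hps (e' ▸ hs)
  set ι := ∫ r in (0:ℝ)..T, |Sc48.Jf l l' T r| with hι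
  have ι0 : 0 ≤ ι := int_nn T0 fun _ => abs_nonneg _
  have x1 : Gam l' s - Gam l s - (Gam l' p - Gam l p) = ∫ r in p..s, (GG l' r - GG l r) := by
    rw [intervalIntegral.integral_sub (lG'.ii mp ms) (lG.ii mp ms)]; linarith
  have x2 := int_mono (lG'.sub lG).abs ((LB.const C).mul (lJ.abs.add (LB.const ι))) hp hps hs
    fun r x y => hL l l' h h' e e' r ⟨hp.trans x.le, y.le.trans hs⟩
  rw [intervalIntegral.integral_const_mul, intervalIntegral.integral_add (lJ.abs.ii mp ms)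
    ((LB.const ι).ii mp ms), intervalIntegral.integral_const, smul_eq_mul] at x2
  have x3 : ∫ r in p..s, |Sc48.Jf l l' T r| ≤ ι :=
    intervalIntegral.integral_mono_interval hp hps hs
      (Filter.Eventually.of_forall fun _ => abs_nonneg _) (lJ.abs.ii ⟨le_rfl, T0⟩ ⟨T0, le_rfl⟩)
  rw [x1]
  refine (intervalIntegral.abs_integral_le_integral_abs hps).trans (x2.trans ?_)
  rw [mul_assoc]
  refine mul_le_mul_of_nonneg_left ?_ hC
  nlinarith [mul_le_mul_of_nonneg_right (show s - p ≤ T by linarith) ι0]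

/-- the numbers: `η' = η + β M + (lam e γ + (g + e1) w) / b`, `w = γ + u1 Lt` -/
structure PNZ (T C b c θ η' g e κ w N0 τ0 N : ℝ) : Prop where
  θ0 : 0 < θ
  Np : 0 ≤ N
  M0 : 0 ≤ N0
  τp : 0 < τ0
  τ1 : e / 4 * τ0 ^ 2 ≤ N0
  τ2 : b * c / 4 * τ0 ^ 3 ≤ N0
  h1 : η' ^ 3 ≤ θ * κ ^ 2 / 64 * N ^ 2 ∨ η' ^ 2 ≤ e * κ / (64 * b) * N
  h2 : (g / b) ^ 3 ≤ (θ * κ ^ 2 / 64) ^ 2 * N ∨ g ≤ e * κ / 16
  h5 : η' * w ≤ N
  h7 : (C * (1 + T) * w) ^ 2 ≤ θ / (T + 1) * N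
  h8 : 2 * N0 * Real.log (1 + T / τ0) / b ≤ N

set_option maxHeartbeats 1600000 in
theorem finZ {T Lt C b c θ η β g lam e e1 κ u1 γ N0 τ0 N E D D' y ι V W i2 i4 i5 z2 z3 s1 s2
      x : ℝ}
    (n : PNZ T C b c θ (η + β + (lam * e * γ + (g + e1) * (γ + u1 * Lt)) / b) g e κ
      (γ + u1 * Lt) N0 τ0 N) (hC : 0 ≤ C) (b0 : 0 < b) (T0 : 0 ≤ T)
    (L0 : 0 ≤ Lt) (η0 : 0 ≤ η) (β0 : 0 ≤ β) (g0 : 0 ≤ g) (l0 : 0 ≤ lam)
    (l1 : lam ≤ κ / 32) (e0 : 0 < e) (e10 : 0 ≤ e1) (κ0 : 0 < κ) (κ1 : κ ≤ 1)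
    (u0 : 0 ≤ u1) (E0 : 0 ≤ E) (D0 : 0 ≤ D') (y0 : 0 ≤ y) (y3' : y ^ 3 = 8 * E) (ι0 : 0 ≤ ι)
    (ι2 : ι ^ 2 ≤ (T + 1) * E) (D3 : κ ^ 2 * D' ^ 3 / 64 ≤ E) (V0 : 0 ≤ V) (V1 : V ≤ y)
    (bt : V ^ 2 ≤ 2 * W) (I2 : i2 ≤ D' * 1) (I2' : 0 ≤ i2) (I4 : i4 ≤ u1 * Lt) (I4' : 0 ≤ i4)
    (Z2 : e * κ * D' ^ 2 / 2 ≤ z2) (Z3 : e / 4 * W ≤ z3 + s2) (Z30 : 0 ≤ z3) (S1 : s1 ≤ s2)
    (S2 : s2 / b ≤ N) (γ0 : 0 ≤ γ) (D00 : 0 ≤ D) (DD : D ≤ D' + γ) (I5 : i5 ≤ γ) (I5' : 0 ≤ i5) :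
    0 ≤ z2 / b + z3 / b ∧
    x + ((η + g / b * D' + β) * i2 + (η + (g + e1) * D / b + C * (1 + T) * ι + β) * i5) +
      ((lam * e * D / b + β) * V + s1 / b +
      (η + (g + e1) * D / b + C * (1 + T) * ι + β) * i4) ≤
      x + 4 * θ * E + (z2 / b + z3 / b) / 4 + 7 * N := by
  obtain ⟨θ0, N0', -, -, -, -, h1, h2, h5, h7, -⟩ := n
  set w := γ + u1 * Lt with hw
  have w0 : γ ≤ w := by rw [hw]; linarith [mul_nonneg u0 L0]
  set η' := η + β + (lam * e * γ + (g + e1) * w) / b with hη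
  set ε := θ * κ ^ 2 / 64 with hε
  have ε0 : 0 < ε := by positivity
  have W0 : 0 ≤ W := by linarith [sq_nonneg V]
  have a2 : e * κ * D' ^ 2 / b ≤ 2 * (z2 / b) := by
    rw [← mul_div_assoc]; exact div_le_div_of_nonneg_right (by linarith) b0.le
  have a3 : e * W / b ≤ 4 * (z3 / b) + 4 * N := by
    have : e * W / b ≤ (4 * z3 + 4 * s2) / b := div_le_div_of_nonneg_right (by linarith) b0.le
    rw [add_div, mul_div_assoc 4, mul_div_assoc 4] at this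
    linarith
  have a20 : 0 ≤ e * κ * D' ^ 2 / b := by positivity
  have a30 : 0 ≤ e * W / b := by positivity
  have z30 : 0 ≤ z3 / b := by positivity
  have θE : 0 ≤ θ * E := by positivity
  have eD : ε * D' ^ 3 ≤ θ * E := by
    have := mul_le_mul_of_nonneg_left D3 θ0.le
    rw [hε]; linarith
  have ey : ε * y ^ 3 ≤ θ * E := by
    have := mul_le_mul_of_nonneg_left (pow_le_one₀ κ0.le κ1 : κ ^ 2 ≤ 1) θE
    rw [hε, y3']; linarith
  have eV : ε * V ^ 3 ≤ θ * E :=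
    (mul_le_mul_of_nonneg_left (pow_le_pow_left₀ V0 V1 3) ε0.le).trans ey
  have kV : e * κ / b * V ^ 2 ≤ 2 * (e * W / b) := by
    have : κ * V ^ 2 ≤ 2 * W := (mul_le_of_le_one_left (sq_nonneg V) κ1).trans bt
    calc e * κ / b * V ^ 2 = e / b * (κ * V ^ 2) := by ring
      _ ≤ e / b * (2 * W) := by gcongr
      _ = _ := by ring
  have t1 : η' * D' ≤ θ * E + N + e * κ * D' ^ 2 / b / 64 ∧
      η' * V ≤ θ * E + N + e * W / b / 32 := by
    rcases h1 with h1 | h1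
    · exact ⟨by linarith [y3 D0 N0' ε0 h1], by linarith [y3 V0 N0' ε0 h1]⟩
    · have p : 0 < e * κ / (64 * b) := by positivity
      have q1 := y2 D0 N0' p h1
      have q2 := y2 V0 N0' p h1
      rw [show e * κ / (64 * b) * D' ^ 2 = e * κ * D' ^ 2 / b / 64 by ring] at q1
      rw [show e * κ / (64 * b) * V ^ 2 = e * κ / b * V ^ 2 / 64 by ring] at q2
      exact ⟨by linarith, by linarith⟩
  have t2 : g / b * D' ^ 2 ≤ θ * E + N + e * κ * D' ^ 2 / b / 16 := by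
    rcases h2 with h2 | h2
    · linarith [y32 D0 N0' ε0 h2]
    · have : g / b * D' ^ 2 ≤ e * κ / 16 / b * D' ^ 2 := by gcongr
      rw [show e * κ / 16 / b * D' ^ 2 = e * κ * D' ^ 2 / b / 16 by ring] at this
      linarith
  have t3 : lam * e * D' / b * V ≤ e * κ * D' ^ 2 / b / 64 + e * W / b / 32 := by
    have q1 : lam * e * D' / b * V ≤ κ / 32 * e * D' / b * V := by gcongr
    have q2 : e * κ / b * (D' * V) ≤ e * κ / b * ((D' ^ 2 + V ^ 2) / 2) :=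
      mul_le_mul_of_nonneg_left (by linarith [two_mul_le_add_sq D' V]) (by positivity)
    rw [show κ / 32 * e * D' / b * V = e * κ / b * (D' * V) / 32 by ring] at q1
    rw [show e * κ / b * ((D' ^ 2 + V ^ 2) / 2) =
      e * κ * D' ^ 2 / b / 2 + e * κ / b * V ^ 2 / 2 by ring] at q2
    linarith
  have q2 : θ / (T + 1) * ι ^ 2 ≤ θ * E := by
    refine (mul_le_mul_of_nonneg_left ι2 (by positivity)).trans_eq ?_
    field_simp
  have t6 := y2 ι0 N0' (by positivity) h7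
  have s1' : s1 / b ≤ N := (div_le_div_of_nonneg_right S1 b0.le).trans S2
  have w00 := γ0.trans w0
  have p1 : 0 ≤ lam * e * γ / b := by positivity
  have p2 : 0 ≤ (g + e1) * w / b := by positivity
  have eη : η' = η + β + lam * e * γ / b + (g + e1) * w / b := by rw [hη]; ring
  have x2 : (η + g / b * D' + β) * i2 ≤ (η + g / b * D' + β) * D' :=
    mul_le_mul_of_nonneg_left (by linarith) (by positivity)
  have x3 : (lam * e * D / b + β) * V ≤ (lam * e * D' / b + η') * V := by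
    refine mul_le_mul_of_nonneg_right ?_ V0
    have : lam * e * D / b ≤ lam * e * (D' + γ) / b := by gcongr
    rw [mul_add, add_div] at this
    linarith
  have x5 : (η + (g + e1) * D / b + C * (1 + T) * ι + β) * (i5 + i4) ≤
      (η + (g + e1) * (D' + w) / b + C * (1 + T) * ι + β) * w := by
    refine mul_le_mul ?_ (by linarith) (by linarith) (by positivity)
    have : D ≤ D' + w := by linarith
    gcongr
  have e5 : (η + (g + e1) * (D' + w) / b + C * (1 + T) * ι + β) * w =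
      (η + β + (g + e1) * w / b) * w + (g + e1) * w / b * D' + C * (1 + T) * w * ι := by ring
  have x6 : (η + β + (g + e1) * w / b) * w ≤ η' * w := by gcongr; linarith
  have x7 : (η + β + (g + e1) * w / b) * D' ≤ η' * D' := by gcongr; linarith
  refine ⟨by linarith, ?_⟩
  linarith [t1.1, t1.2]

variable {lb lh : List (ℝ × ℝ)} {T b c σ' σ γ M P c0 η g lam N0 e e1 κ u1 : ℝ} {hb : ℝ → ℝ}

/-- **data of the plateau**, final form -/
structure PlZ (lb lh : List (ℝ × ℝ)) (T b c σ' σ γ M P c0 η g lam N0 e e1 κ u1 : ℝ)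
    (hb : ℝ → ℝ) : Prop where
  okb : Ok lb
  okh : Ok lh
  tb : TT lb = T
  th : TT lh = T
  b0 : 0 < b
  cp : 0 < c
  σ0 : 0 ≤ σ
  σT : σ ≤ T
  σ1 : σ' ≤ σ
  σγ : σ - σ' ≤ γ
  M0 : 0 ≤ M
  MP : M ≤ P
  PT : P ≤ T
  η0 : 0 ≤ η
  g0 : 0 ≤ g
  l0 : 0 ≤ lam
  e0 : 0 < e
  e10 : 0 ≤ e1
  κ0 : 0 < κ
  κ1 : κ ≤ 1
  lamκ : lam ≤ κ / 32
  lhb : LB T hb
  top : ∀ s, σ ≤ s → lvr 1 lh s = 1
  conc : ∀ r ∈ Ico M T, Gd lb r ≤ 0
  gap : ∀ t ∈ Ico M σ', κ ≤ lvr 1 lb t - lvr 1 lh t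
  elo : ∀ r, M ≤ r ∨ σ ≤ r → r < T → e ≤ 1 - b * GG lh r
  eup : ∀ r ∈ Ico M σ, 1 - b * GG lh r ≤ e1
  atL : -η ≤ Gam lb M - (M - (σ - b * Gam lh σ)) / b - c0
  atM : M < σ → Gam lb M - (M - (σ - b * Gam lh σ)) / b - c0 ≤ η ∧ b * GG lb M ≤ 1 + g
  net : ∀ t ∈ Ico (max M σ) P, ∃ p q : ℝ, M ≤ p ∧ p ≤ t ∧ t ≤ q ∧ q ≤ T ∧
    0 ≤ Gam lb p - (p - hb t) / b - c0 ∧ 0 ≤ Gam lb q - (q - (hb t + lam * e * (q - p))) / b - c0
  last : 1 - lvr 1 lb P ≤ u1
  stat : ∀ t, max M σ < t → t < P →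
    Sm (e / 4) (b * c / 4) N0 (1 - lvr 1 lb t) (hb t - (σ - b * Gam lh σ))

namespace PlZ

variable (h : PlZ lb lh T b c σ' σ γ M P c0 η g lam N0 e e1 κ u1 hb)
include h

theorem ld : LB T fun t => lvr 1 lb t - lvr 1 lh t :=
  (LB.of_mono (Sc48.lvr_mono h.okb.1)).sub (LB.of_mono (Sc48.lvr_mono h.okh.1))

theorem d1 (t : ℝ) : |lvr 1 lb t - lvr 1 lh t| ≤ 1 := Sc48.lvr_sub_le h.okh.1 h.okb.1 t

theorem dtop {t : ℝ} (ht : σ ≤ t) : lvr 1 lb t - lvr 1 lh t ≤ 0 ∧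
    |lvr 1 lb t - lvr 1 lh t| = 1 - lvr 1 lb t := by
  have := Pp.Ode3.lvr_le_one h.okb.1 t
  rw [h.top t ht]
  exact ⟨by linarith, by rw [abs_of_nonpos (by linarith)]; ring⟩

theorem grow {p s : ℝ} (hp : M ≤ p ∨ σ ≤ p) (hps : p ≤ s) (hs : s ≤ T) :
    p - b * Gam lh p + e * (s - p) ≤ s - b * Gam lh s :=
  Mh_ge h.okh h.b0 (hp.elim h.M0.trans h.σ0.trans) hps (by rw [h.th]; exact hs) fun r hr =>
    h.elo r (hp.imp (·.trans hr.1) (·.trans hr.1)) (hr.2.trans_le hs)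

theorem r2q {t q : ℝ} (a : M ≤ t) (c : t < σ) (tq : t ≤ q) (qT : q ≤ T) :
    t - b * Gam lh t ≤ σ - b * Gam lh σ ∧
    Gam lb t - (t - (σ - b * Gam lh σ)) / b - c0 ≤ η + g / b * (q - M) := by
  have g0 := h.g0
  have e0 := h.e0
  obtain ⟨m2, m3⟩ := h.atM (a.trans_lt c)
  have gr := h.grow (.inl a) c.le h.σT
  have := mul_nonneg e0.le (sub_nonneg.2 c.le)
  refine ⟨by linarith, ?_⟩
  have := reg2' h.okb (h0 := σ - b * Gam lh σ) (η := η + c0) (K := 0) (p := M) (q := q) h.b0 h.M0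
    (by rw [h.tb]; exact qT) g0 le_rfl
    (fun r hr => h.conc r ⟨hr.1, hr.2.trans_le qT⟩) (by linarith [m2]) m3 ⟨a, tq⟩
  linarith

theorem r2 {t : ℝ} (a : M ≤ t) (c : t < max M σ') : 0 ≤ lvr 1 lb t - lvr 1 lh t ∧
    t - b * Gam lh t ≤ σ - b * Gam lh σ ∧
    Gam lb t - (t - (σ - b * Gam lh σ)) / b - c0 ≤ η + g / b * (max M σ' - M) := by
  have c' : t < σ' := (lt_max_iff.1 c).resolve_left (not_lt.2 a)
  exact ⟨h.κ0.le.trans (h.gap t ⟨a, c'⟩), h.r2q a (c'.trans_le h.σ1) c.le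
    (max_le (h.MP.trans h.PT) (h.σ1.trans h.σT))⟩

theorem r4 {C ι : ℝ} (hC : 0 ≤ C) (hL : Spl27.GLip T C)
    (hι : ι = ∫ s in (0:ℝ)..T, |Sc48.Jf lh lb T s|) {t : ℝ} (a : M ≤ t) (c : t ≤ T) :
    -(η + (g + e1) * (max M σ - M) / b + C * (1 + T) * ι) ≤ Gam lb t - Gam lh t - c0 := by
  have b0 := h.b0
  have g0 := h.g0
  have e10 := h.e10
  have l3 := (abs_le.1 (reg5 h.okh h.okb h.th h.tb hC hL h.M0 a c)).1
  rw [← hι] at l3
  have D0 : 0 ≤ max M σ - M := sub_nonneg.2 (le_max_left _ _)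
  have v2 : Gam lh M ≤ (M - (σ - b * Gam lh σ)) / b + (g + e1) * (max M σ - M) / b := by
    rw [← add_div, le_div_iff₀ b0]
    rcases le_total σ M with x | x
    · have := h.grow (.inr le_rfl) x (h.MP.trans h.PT)
      nlinarith [mul_nonneg h.e0.le (sub_nonneg.2 x), mul_nonneg (add_nonneg g0 e10) D0]
    · have := Mh_le h.okh b0 h.M0 x (by rw [h.th]; exact h.σT) (e := e1) h.eup
      rw [max_eq_right x] at D0 ⊢
      nlinarith [mul_nonneg g0 D0]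
  linarith [h.atL]

theorem r5 {C ι : ℝ} (hC : 0 ≤ C) (hL : Spl27.GLip T C)
    (hι : ι = ∫ s in (0:ℝ)..T, |Sc48.Jf lh lb T s|) {t : ℝ} (a : max M σ' ≤ t) (c : t < max M σ) :
    |Gam lb t - Gam lh t - c0| ≤ η + (g + e1) * (max M σ - M) / b + C * (1 + T) * ι := by
  have b0 := h.b0
  have g0 := h.g0
  have e10 := h.e10
  have Mt : M ≤ t := (le_max_left _ _).trans a
  have c' : t < σ := (lt_max_iff.1 c).resolve_left (not_lt.2 Mt)
  have Mσ := Mt.trans_lt c'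
  have T0 := h.σ0.trans h.σT
  have ι0 : 0 ≤ ι := hι ▸ int_nn T0 fun _ => abs_nonneg _
  refine abs_le.2 ⟨h.r4 hC hL hι Mt (c'.le.trans h.σT), ?_⟩
  rw [max_eq_right Mσ.le]
  have D0 := sub_nonneg.2 Mσ.le
  obtain ⟨u1', u2'⟩ := h.r2q Mt c' c'.le h.σT
  have p2 : 0 ≤ e1 * (σ - M) / b := by positivity
  have p3 : 0 ≤ C * (1 + T) * ι := by positivity
  have e1' : (g + e1) * (σ - M) / b = g / b * (σ - M) + e1 * (σ - M) / b := by ring
  have v1 : (t - (σ - b * Gam lh σ)) / b ≤ Gam lh t := by rw [div_le_iff₀ b0]; linarith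
  linarith

theorem r3 {t : ℝ} (a : max M σ ≤ t) (c : t < P) :
    -(lam * e * (max M σ - M) / b) ≤
      Gam lb t - (t - (hb t + lam * e * (t - max M σ))) / b - c0 := by
  have l0 := h.l0
  have e0 := h.e0
  obtain ⟨p, q, a1, a2, a3, a4, a7, a8⟩ := h.net t ⟨a, c⟩
  have k := Reg48.conc h.okb ((1 - lam * e) / b) (h.M0.trans a1) (by rw [h.tb]; exact a4)
    (fun r hr => h.conc r ⟨a1.trans hr.1, hr.2.trans_le a4⟩) ⟨a2, a3⟩
  have b0 := h.b0
  have i0 : 0 < b⁻¹ := inv_pos.2 b0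
  have d7 := mul_nonneg (mul_nonneg (mul_nonneg l0 e0.le) (sub_nonneg.2 a1)) i0.le
  simp only [div_eq_mul_inv] at *
  rcases min_le_iff.1 k with k | k <;> nlinarith

theorem tail {U Lt r : ℝ} (hU : ∀ s, U ≤ s → lvr 1 lb s = 1) (L0 : 0 ≤ Lt)
    (hL' : U - max M σ ≤ Lt) (a : max (max M σ) P ≤ r) (c : r ≤ T) :
    ∫ s in r..T, |lvr 1 lb s - lvr 1 lh s| ≤ u1 * Lt := by
  have u0 : 0 ≤ u1 := le_trans (sub_nonneg.2 (Pp.Ode3.lvr_le_one h.okb.1 P)) h.last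
  have Sr : max M σ ≤ r := (le_max_left _ _).trans a
  have σr : σ ≤ r := (le_max_right _ _).trans Sr
  have r0 : 0 ≤ r := h.σ0.trans σr
  have z : ∀ s, σ ≤ s → U ≤ s → |lvr 1 lb s - lvr 1 lh s| = 0 := fun s x y => by
    rw [hU s y, h.top s x, sub_self, abs_zero]
  have w : ∀ s, r < s → |lvr 1 lb s - lvr 1 lh s| ≤ u1 := fun s x => by
    rw [(h.dtop (σr.trans x.le)).2]
    linarith [h.last, Sc48.lvr_mono h.okb.1 (((le_max_right _ P).trans a).trans x.le)]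
  rcases le_total U r with x | x
  · rw [Cut8.int_zero c fun s y _ => z s (σr.trans y.le) (x.trans y.le)]
    positivity
  rcases le_total U T with y | y
  · rw [int_split h.ld.abs (b := U) ⟨r0, c⟩ ⟨r0.trans x, y⟩ ⟨r0.trans c, le_rfl⟩,
      Cut8.int_zero y fun s y _ => z s (σr.trans (x.trans y.le)) y.le, add_zero]
    refine (int_le h.ld.abs r0 x y fun s y _ => w s y).trans ?_
    rw [mul_comm]
    exact mul_le_mul_of_nonneg_left (by linarith) u0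
  · refine (int_le h.ld.abs r0 c le_rfl fun s y _ => w s y).trans ?_
    rw [mul_comm]
    exact mul_le_mul_of_nonneg_left (by linarith) u0

theorem growq {s : ℝ} (hc : 0 ≤ c) (hq : ∀ r, σ ≤ r → r < T → Gd lh r ≤ -c) (hs : max M σ ≤ s)
    (hT : s ≤ T) :
    σ - b * Gam lh σ + e * (s - max M σ) + b * c / 2 * (s - max M σ) ^ 2 ≤ s - b * Gam lh s := by
  have σS : σ ≤ max M σ := le_max_right _ _
  have b0 := h.b0
  rcases h.σT.eq_or_lt with x | x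
  · have e1 : s = σ := le_antisymm (x ▸ hT) (σS.trans hs)
    have e2 : max M σ = σ := le_antisymm (e1 ▸ hs) σS
    rw [e2, e1]; simp
  have a := Gam_up h.okh h.σ0 (σS.trans hs) (by rw [h.th]; exact hT) (K := -c)
    fun r hr => hq r hr.1 (hr.2.trans_le hT)
  have a1 := mul_le_mul_of_nonneg_left a b0.le
  have a2 := mul_le_mul_of_nonneg_right (h.elo σ (.inr le_rfl) x) (sub_nonneg.2 (σS.trans hs))
  have a3 := mul_le_mul_of_nonneg_left (sub_le_sub_left σS s) h.e0.le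
  have a4 := mul_le_mul_of_nonneg_left (pow_le_pow_left₀ (sub_nonneg.2 hs) (sub_le_sub_left σS s) 2)
    (show 0 ≤ b * c / 2 by positivity)
  nlinarith

set_option maxHeartbeats 1600000 in
/-- **the plateau part of the energy estimate**, local energy, `zb = 1` from `U` on, `U - max M σ ≤ Lt` -/
theorem res {A A0 C θ E N U Lt τ0 : ℝ} {H r1 r2 ω β ξ : ℝ → ℝ} (hU : ∀ s, U ≤ s → lvr 1 lb s = 1)
    (L0 : 0 ≤ Lt) (hL' : U - max M σ ≤ Lt) (hC : 0 ≤ C) (hL : Spl27.GLip T C)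
    (R : Res T (fun t => lvr 1 lb t - lvr 1 lh t) (fun t => Gam lb t - Gam lh t) H r1 r2 ω β ξ A M)
    (hA : 0 ≤ A) (hAM : A ≤ M) (hc : r2 M = c0) (β0 : 0 ≤ β M)
    (hA0 : 0 ≤ A0) (hA0M : A0 ≤ M)
    (hE : (∫ t in A0..T, Sc48.Jf lh lb T t ^ 2) + (∫ t in (0:ℝ)..A0, |Sc48.Jf lh lb T t|) ^ 2 ≤ E)
    (hq : ∀ r, σ ≤ r → r < T → Gd lh r ≤ -c)
    (n : PNZ T C b c θ (η + β M + (lam * e * γ + (g + e1) * (γ + u1 * Lt)) / b) g e κ
      (γ + u1 * Lt) N0 τ0 N) :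
    ∃ (H' r1' r2' ω' β' ξ' : ℝ → ℝ) (Z : ℝ),
      Res T (fun t => lvr 1 lb t - lvr 1 lh t) (fun t => Gam lb t - Gam lh t)
        H' r1' r2' ω' β' ξ' A T ∧
      (∀ t, t < M → H' t = H t ∧ r1' t = r1 t ∧ r2' t = r2 t ∧ β' t = β t) ∧
      ∫ t in A..T, ω' t ^ 2 = ∫ t in A..M, ω t ^ 2 ∧
      ∫ t in A..T, H' t * (lvr 1 lb t - lvr 1 lh t) =
        (∫ t in A..M, H t * (lvr 1 lb t - lvr 1 lh t)) + Z ∧ 0 ≤ Z ∧
      ∫ t in A..T, ξ' t ≤ (∫ t in A..M, ξ t) + 4 * θ * E + Z / 4 + 7 * N ∧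
      e * κ * (max M σ' - M) ^ 2 / (2 * b) + e / (4 * b) *
        (∫ t in max M σ..max (max M σ) P, (t - max M σ) * (1 - lvr 1 lb t)) +
        c / 4 * (∫ t in max M σ..max (max M σ) P, (t - max M σ) ^ 2 * (1 - lvr 1 lb t)) ≤
        Z + N := by
  have η0 := h.η0
  have g0 := h.g0
  have l0 := h.l0
  have e0 := h.e0
  have e10 := h.e10
  have κ0 := h.κ0
  have κ1 := h.κ1
  have c0' := h.cp
  have b0 := h.b0
  have M0 := h.M0
  have MT := h.MP.trans h.PT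
  have T0 := M0.trans MT
  have θ0 := n.θ0
  have N0' := n.Np
  have γ0 : 0 ≤ γ := by linarith [h.σ1, h.σγ]
  have u0 : 0 ≤ u1 := le_trans (sub_nonneg.2 (Pp.Ode3.lvr_le_one h.okb.1 P)) h.last
  have ld := h.ld
  have lΓ : LB T (Gam lh) := .of_cont (h.th ▸ (ode h.okh).1)
  have lM : LB T fun t => t - b * Gam lh t :=
    (LB.of_cont continuousOn_id).sub ((LB.const b).mul lΓ)
  have lJ : LB T (Sc48.Jf lh lb T) := .of_cont (ld.tail (right_mem_Icc.mpr T0))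
  have AT := hA0M.trans MT
  have ι2 := iota_loc lJ hA0 AT hE
  replace hE : ∫ t in A0..T, Sc48.Jf lh lb T t ^ 2 ≤ E := (le_add_of_nonneg_right (sq_nonneg _)).trans hE
  have E0 : 0 ≤ E := (int_nn AT fun _ => sq_nonneg _).trans hE
  obtain ⟨y, y0, hy3⟩ : ∃ y : ℝ, 0 ≤ y ∧ y ^ 3 = 8 * E :=
    ⟨(8 * E) ^ (((3:ℕ):ℝ)⁻¹), by positivity, Real.rpow_inv_natCast_pow (by positivity) (by norm_num)⟩
  have hy : ∀ s ∈ Icc M T, |Sc48.Jf lh lb T s| ≤ y := fun s hs => by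
    have a := Jf_le (l := lh) (l' := lb) (u := 1) hs.2 fun r _ => h.d1 r
    have c := Lab36.sup_cube (zh := lvr 1 lh) (zb := lvr 1 lb) ld (fun t _ _ => h.d1 t) hA0
      le_rfl (hA0M.trans hs.1) hs.2 (.inr (by
        show s + |Sc48.Jf lh lb T s| / 2 ≤ T
        linarith [abs_nonneg (Sc48.Jf lh lb T s)]))
    refine le_of_pow_le_pow_left₀ (n := 3) (by norm_num) y0 (c.trans ?_)
    rw [hy3]
    exact mul_le_mul_of_nonneg_left hE (by norm_num)
  set ι := ∫ s in (0:ℝ)..T, |Sc48.Jf lh lb T s| with hι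
  have ι0 : 0 ≤ ι := int_nn T0 fun _ => abs_nonneg _
  have r2' := fun t => h.r2 (t := t)
  have r5' := fun t => h.r5 hC hL hι (t := t)
  have r3' := fun t => h.r3 (t := t)
  have r4' := fun t => h.r4 hC hL hι (t := t)
  have tl := fun r => h.tail hU L0 hL' (r := r)
  have gw := fun s => h.growq c0'.le hq (s := s)
  have st := h.stat
  have cS : max M σ' - M = 0 ∨ (M < σ' ∧ max M σ' = σ') := by
    rcases le_or_gt σ' M with x | x
    · exact .inl (by rw [max_eq_left x, sub_self])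
    · exact .inr ⟨x, max_eq_right x.le⟩
  have SS : max M σ' ≤ max M σ := max_le_max_left _ h.σ1
  have Sγ : max M σ - max M σ' ≤ γ := by
    rcases le_total M σ with x | x
    · rw [max_eq_right x]; linarith [le_max_right M σ', h.σγ]
    · rw [max_eq_left x]; linarith [le_max_left M σ']
  set S' := max M σ' with hS'
  have MS' : M ≤ S' := le_max_left _ _
  set S := max M σ with hS
  have MS : M ≤ S := le_max_left _ _
  have σS : σ ≤ S := le_max_right _ _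
  have ST : S ≤ T := max_le MT h.σT
  set Q := max S P with hQ
  have SQ : S ≤ Q := le_max_left _ _
  have QT : Q ≤ T := max_le ST h.PT
  have S0 := M0.trans MS
  have tP : ∀ t, S ≤ t → t < Q → t < P := fun t a c =>
    (lt_max_iff.1 c).resolve_left (not_lt.2 a)
  set D := S - M with hD
  have D0 : 0 ≤ D := sub_nonneg.2 MS
  set D' := S' - M with hD'
  have D0' : 0 ≤ D' := sub_nonneg.2 MS'
  have S'T := SS.trans ST
  have lh' : LB T fun t => hb t + lam * e * (t - S) := h.lhb.add (LB_lin T _ S)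
  subst hc
  obtain ⟨H0, r10, r20, ω0, β1, ξ0, R0, d1, d2, d3, d4, d5, d6⟩ := res_two (hm := σ - b * Gam lh σ)
    R ld lΓ b0 hA hAM MS' SS ST β0 (by positivity) (by positivity) r2' r5'
  obtain ⟨H', r1', r2'', ω', β', ξ', R', c1, -, -, c4, c5, c6⟩ := res_top' (hm := 0) (B2 := 0)
    R0 ld lΓ lh' b0 hA (hAM.trans MS) le_rfl SQ QT (d3 ▸ β0) le_rfl (by positivity) (by positivity)
    (fun t a c => absurd c (not_lt.2 a))
    (fun t a c => ⟨(h.dtop (σS.trans a)).1, d2 ▸ r3' t a (tP t a c)⟩)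
    (fun t a c => ⟨(h.dtop (σS.trans (SQ.trans a))).1, .inr (d2 ▸ r4' t (MS.trans (SQ.trans a)) c.le)⟩)
  rw [intervalIntegral.integral_same, mul_zero, zero_add, d3, d5] at c5
  rw [intervalIntegral.integral_same, zero_div, zero_add, d6, add_assoc] at c6
  rw [d4] at c4
  have eW : ∫ t in S..Q, (t - S) * (1 - lvr 1 lb t) =
      ∫ t in S..Q, (t - S) * |lvr 1 lb t - lvr 1 lh t| :=
    intervalIntegral.integral_congr_Ioo_of_le SQ fun t ht => by
      rw [(h.dtop (σS.trans ht.1.le)).2]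
  have eW2 : ∫ t in S..Q, (t - S) ^ 2 * (1 - lvr 1 lb t) =
      ∫ t in S..Q, (t - S) ^ 2 * |lvr 1 lb t - lvr 1 lh t| :=
    intervalIntegral.integral_congr_Ioo_of_le SQ fun t ht => by
      rw [(h.dtop (σS.trans ht.1.le)).2]
  rw [eW, eW2]
  have mS : S ∈ Icc 0 T := ⟨S0, ST⟩
  have mQ : Q ∈ Icc 0 T := ⟨S0.trans SQ, QT⟩
  have mT : T ∈ Icc 0 T := ⟨T0, le_rfl⟩
  have bt := bath ld.abs S0 SQ QT (fun _ => abs_nonneg _) fun t _ _ => h.d1 t
  have I2 : ∫ t in M..S', |lvr 1 lb t - lvr 1 lh t| ≤ D' * 1 :=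
    int_le ld.abs M0 MS' S'T fun t _ _ => h.d1 t
  have I2' : 0 ≤ ∫ t in M..S', |lvr 1 lb t - lvr 1 lh t| := int_nn MS' fun _ => abs_nonneg _
  have I5 : ∫ t in S'..S, |lvr 1 lb t - lvr 1 lh t| ≤ γ :=
    (int_le ld.abs (M0.trans MS') SS ST fun t _ _ => h.d1 t).trans (by linarith)
  have I5' : 0 ≤ ∫ t in S'..S, |lvr 1 lb t - lvr 1 lh t| := int_nn SS fun _ => abs_nonneg _
  have I4 : ∫ t in Q..T, |lvr 1 lb t - lvr 1 lh t| ≤ u1 * Lt := tl Q le_rfl QT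
  have I4' : 0 ≤ ∫ t in Q..T, |lvr 1 lb t - lvr 1 lh t| := int_nn QT fun _ => abs_nonneg _
  have V0 : 0 ≤ ∫ t in S..Q, |lvr 1 lb t - lvr 1 lh t| := int_nn SQ fun _ => abs_nonneg _
  have V1 : ∫ t in S..Q, |lvr 1 lb t - lvr 1 lh t| ≤ y := by
    have a := int_split ld.abs mS mQ mT
    have c : ∫ t in S..T, |lvr 1 lb t - lvr 1 lh t| = -Sc48.Jf lh lb T S := by
      unfold Sc48.Jf
      rw [← intervalIntegral.integral_neg]
      exact intervalIntegral.integral_congr_Ioo_of_le ST fun t ht =>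
        abs_of_nonpos (h.dtop (σS.trans ht.1.le)).1
    linarith [neg_le_abs (Sc48.Jf lh lb T S), hy S ⟨MS, ST⟩]
  have D3 : κ ^ 2 * D' ^ 3 / 64 ≤ E := by
    rcases cS with x | ⟨-, x⟩
    · rw [x]; simpa using E0
    · have a := Lab36.gap_pos (zh := lvr 1 lh) (zb := lvr 1 lb) ld M0 D0' (by linarith) κ0.le
        fun t a c => h.gap t ⟨a.le, by linarith⟩
      have c := intervalIntegral.integral_mono_interval (μ := volume) (a := M) (b := M + D')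
        (c := A0) (d := T) (f := fun t => Sc48.Jf lh lb T t ^ 2) hA0M (by linarith) (by linarith)
        (Filter.Eventually.of_forall fun _ => sq_nonneg _) (lJ.sq.ii ⟨hA0, AT⟩ mT)
      exact a.trans (c.trans hE)
  have Z2 : e * κ * D' ^ 2 / 2 ≤
      ∫ t in M..S', (σ - b * Gam lh σ - (t - b * Gam lh t)) * |lvr 1 lb t - lvr 1 lh t| := by
    rcases cS with x | ⟨x0, x⟩
    · rw [x, show S' = M by linarith]; simp
    · have a := int_mono (LB_lin T (-(e * κ)) S')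
        (((LB.const (σ - b * Gam lh σ)).sub lM).mul ld.abs) M0 MS' S'T fun t a c => by
          have σ1 := h.σ1
          have g1 := h.gap t ⟨a.le, by linarith⟩
          have g2 := h.grow (.inl a.le) (by linarith : t ≤ σ) h.σT
          have g3 : e * (σ' - t) ≤ e * (σ - t) := mul_le_mul_of_nonneg_left (by linarith) e0.le
          have g4 : e * (σ' - t) ≤ σ - b * Gam lh σ - (t - b * Gam lh t) := by linarith
          have g5 : 0 ≤ e * (σ' - t) := mul_nonneg e0.le (by linarith)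
          have := mul_le_mul g4 (g1.trans (le_abs_self _)) κ0.le (g5.trans g4)
          rw [x]
          linarith
      rw [int_lin] at a
      refine le_of_eq_of_le ?_ a
      rw [hD']; ring
  have lq : LB T fun t => b * c / 4 * (t - S) ^ 2 := .of_cont (by fun_prop)
  have lk : LB T fun t => hb t + lam * e * (t - S) - (t - b * Gam lh t) +
      (e / 4 * (t - S) + b * c / 4 * (t - S) ^ 2) := (lh'.sub lM).add ((LB_lin T _ S).add lq)
  have St' : (∫ t in S..Q, max (hb t + lam * e * (t - S) - (t - b * Gam lh t) +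
      (e / 4 * (t - S) + b * c / 4 * (t - S) ^ 2)) 0 * |lvr 1 lb t - lvr 1 lh t|) / b ≤ N := by
    have St := static_pt (e := e / 4) (c := b * c / 4) (K := fun t => hb t - (σ - b * Gam lh σ))
      ld lk S0 SQ QT (by positivity) (by positivity) n.M0 n.τp n.τ1 n.τ2 (fun t _ _ => h.d1 t)
      fun t a c => ⟨by
        have g1 := gw t a.le (c.le.trans QT)
        have g2 : 0 ≤ e * (t - S) := mul_nonneg e0.le (by linarith)
        linarith [mul_le_mul_of_nonneg_right (h.lamκ.trans (by linarith : κ / 32 ≤ 1 / 2)) g2],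
        by rw [(h.dtop (σS.trans a.le)).2]; exact st t a (tP t a.le c)⟩
    refine le_trans (div_le_div_of_nonneg_right (St.trans ?_) b0.le) n.h8
    have q0 := sub_nonneg.2 SQ
    have τp := n.τp
    refine mul_le_mul_of_nonneg_left (Real.log_le_log (by positivity) ?_) (by linarith [n.M0])
    gcongr
    linarith
  have lW : LB T fun t => (t - S) * |lvr 1 lb t - lvr 1 lh t| := by
    simpa using (LB_lin T 1 S).mul ld.abs
  have lW2 : LB T fun t => (t - S) ^ 2 * |lvr 1 lb t - lvr 1 lh t| :=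
    (LB.of_cont (by fun_prop)).mul ld.abs
  have l3 := (LB_max (lM.sub lh')).mul ld.abs
  have lk' := (LB_max lk).mul ld.abs
  have St1 := int_mono ((LB_max (lh'.sub lM)).mul ld.abs) lk' S0 SQ QT fun t a _ =>
    mul_le_mul_of_nonneg_right (max_le_max_right 0 (le_add_of_nonneg_right
      (add_nonneg (mul_nonneg (by positivity) (by linarith)) (by positivity)))) (abs_nonneg _)
  have l4 := (LB.const (e / 4)).mul lW
  have l5 := (LB.const (b * c / 4)).mul lW2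
  have Z4 := int_mono (l4.add l5) (l3.add lk') S0 SQ QT fun t _ _ => by
    rw [← add_mul, ← mul_assoc, ← mul_assoc (b * c / 4), ← add_mul]
    refine mul_le_mul_of_nonneg_right ?_ (abs_nonneg _)
    linarith [le_max_left (t - b * Gam lh t - (hb t + lam * e * (t - S))) 0, le_max_left
      (hb t + lam * e * (t - S) - (t - b * Gam lh t) +
        (e / 4 * (t - S) + b * c / 4 * (t - S) ^ 2)) 0]
  rw [intervalIntegral.integral_add (l3.ii mS mQ) (lk'.ii mS mQ),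
    intervalIntegral.integral_add (l4.ii mS mQ) (l5.ii mS mQ),
    intervalIntegral.integral_const_mul, intervalIntegral.integral_const_mul] at Z4
  have W20 : 0 ≤ ∫ t in S..Q, (t - S) ^ 2 * |lvr 1 lb t - lvr 1 lh t| :=
    int_nn SQ fun _ => by positivity
  have Z30 : 0 ≤ ∫ t in S..Q, max (t - b * Gam lh t - (hb t + lam * e * (t - S))) 0 *
      |lvr 1 lb t - lvr 1 lh t| := int_nn SQ fun _ => by positivity
  refine ⟨H', r1', r2'', ω', β', ξ', _, R', fun t x => ?_, c4, c6, ?_⟩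
  · obtain ⟨x1, x2, x3, x4⟩ := c1 t (x.trans_le MS)
    obtain ⟨y1, y2, y3, y4⟩ := d1 t x
    exact ⟨x1.trans y1, x2.trans y2, x3.trans y3, x4.trans y4⟩
  rw [c5]
  generalize (∫ t in M..S', (σ - b * Gam lh σ - (t - b * Gam lh t)) *
    |lvr 1 lb t - lvr 1 lh t|) = z2 at *
  generalize (∫ t in S..Q, max (t - b * Gam lh t - (hb t + lam * e * (t - S))) 0 *
    |lvr 1 lb t - lvr 1 lh t|) = z3 at *
  generalize (∫ t in S..Q, max (hb t + lam * e * (t - S) - (t - b * Gam lh t) +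
    (e / 4 * (t - S) + b * c / 4 * (t - S) ^ 2)) 0 * |lvr 1 lb t - lvr 1 lh t|) = s2 at *
  generalize (∫ t in S..Q, (t - S) ^ 2 * |lvr 1 lb t - lvr 1 lh t|) = W2 at *
  generalize (∫ t in S..Q, max (hb t + lam * e * (t - S) - (t - b * Gam lh t)) 0 *
    |lvr 1 lb t - lvr 1 lh t|) = s1 at *
  generalize (∫ t in S..Q, (t - S) * |lvr 1 lb t - lvr 1 lh t|) = W at *
  generalize (∫ t in S..Q, |lvr 1 lb t - lvr 1 lh t|) = V at *
  generalize (∫ t in M..S', |lvr 1 lb t - lvr 1 lh t|) = i2 at *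
  generalize (∫ t in S'..S, |lvr 1 lb t - lvr 1 lh t|) = i5 at *
  generalize (∫ t in Q..T, |lvr 1 lb t - lvr 1 lh t|) = i4 at *
  have Z3 : e / 4 * W ≤ z3 + s2 := by
    linarith [mul_nonneg (show 0 ≤ b * c / 4 by positivity) W20]
  obtain ⟨f1, f2⟩ := finZ (x := ∫ t in A..M, ξ t) (D := D) n hC b0 T0 L0 η0 β0 g0 l0 h.lamκ
    e0 e10 κ0 κ1 u0 E0 D0' y0 hy3 ι0 ι2 D3 V0 V1 bt I2 I2' I4 I4' Z2 Z3 Z30 St1 St' γ0 D0
    (by rw [hD, hD']; linarith) I5 I5'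
  refine ⟨f1, f2, ?_⟩
  have f3 := div_le_div_of_nonneg_right (add_le_add Z2 Z4) b0.le
  rw [show (e * κ * D' ^ 2 / 2 + (e / 4 * W + b * c / 4 * W2)) / b =
    e * κ * D' ^ 2 / (2 * b) + e / (4 * b) * W + c / 4 * W2 by field_simp; ring,
    add_div, add_div] at f3
  linarith

/-- `res` in the form `Ext` -/
theorem ext {A0 C θ E N U Lt τ0 : ℝ} {H r1 r2 ω β ξ : ℝ → ℝ} (hU : ∀ s, U ≤ s → lvr 1 lb s = 1)
    (L0 : 0 ≤ Lt) (hL' : U - max M σ ≤ Lt) (hC : 0 ≤ C) (hL : Spl27.GLip T C)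
    (R : Res T (fun t => lvr 1 lb t - lvr 1 lh t) (fun t => Gam lb t - Gam lh t) H r1 r2 ω β ξ 0 M)
    (hM : 0 < M) (hc : r2 M = c0) (β0 : 0 ≤ β M) (hA0 : 0 ≤ A0) (hA0M : A0 ≤ M)
    (hE : (∫ t in A0..T, Sc48.Jf lh lb T t ^ 2) + (∫ t in (0:ℝ)..A0, |Sc48.Jf lh lb T t|) ^ 2 ≤ E)
    (hq : ∀ r, σ ≤ r → r < T → Gd lh r ≤ -c)
    (n : PNZ T C b c θ (η + β M + (lam * e * γ + (g + e1) * (γ + u1 * Lt)) / b) g e κ
      (γ + u1 * Lt) N0 τ0 N) :
    ∃ Z : ℝ, 0 ≤ Z ∧ Ext T (fun t => lvr 1 lb t - lvr 1 lh t) (fun t => Gam lb t - Gam lh t)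
        H r2 ω β ξ M T (4 * θ * E + Z / 4 + 7 * N) Z ∧
      e * κ * (max M σ' - M) ^ 2 / (2 * b) + e / (4 * b) *
        (∫ t in max M σ..max (max M σ) P, (t - max M σ) * (1 - lvr 1 lb t)) +
        c / 4 * (∫ t in max M σ..max (max M σ) P, (t - max M σ) ^ 2 * (1 - lvr 1 lb t)) ≤
        Z + N := by
  obtain ⟨H', r1', r2', ω', β', ξ', Z, a1, a2, a5, a6, a7, a8, a9⟩ :=
    h.res hU L0 hL' hC hL R le_rfl hM.le hc β0 hA0 hA0M hE hq n
  exact ⟨Z, a7, ⟨H', r1', r2', ω', β', ξ', a1, (a2 0 hM).2.2.1, (a2 0 hM).2.2.2, a5.le,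
    by linarith, a6⟩, a9⟩

/-- `V³ ≤ 8 E` for the mass `V` below `1` above `max M σ` -/
theorem V_cube {A0 x y : ℝ} (hA0 : 0 ≤ A0) (hA : A0 ≤ x) (hx : σ ≤ x) (hxy : x ≤ y) (hy : y ≤ T) :
    (∫ t in x..y, (1 - lvr 1 lb t)) ^ 3 ≤ 8 * ∫ t in A0..T, Sc48.Jf lh lb T t ^ 2 := by
  have xT := hxy.trans hy
  have x0 := hA0.trans hA
  have a := Jf_le (l := lh) (l' := lb) (u := 1) xT fun r _ => h.d1 r
  have c := Lab36.sup_cube (zh := lvr 1 lh) (zb := lvr 1 lb) h.ld (fun t _ _ => h.d1 t) hA0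
    le_rfl hA xT (.inr (by
      show x + |Sc48.Jf lh lb T x| / 2 ≤ T
      linarith [abs_nonneg (Sc48.Jf lh lb T x)]))
  refine le_trans (pow_le_pow_left₀ (int_nn hxy fun t =>
    sub_nonneg.2 (Pp.Ode3.lvr_le_one h.okb.1 t)) ?_ 3) c
  have e1 : ∫ t in x..y, (1 - lvr 1 lb t) = ∫ t in x..y, |lvr 1 lb t - lvr 1 lh t| :=
    intervalIntegral.integral_congr_Ioo_of_le hxy fun t ht => (h.dtop (hx.trans ht.1.le)).2.symm
  have e2 := int_split h.ld.abs (a := x) (b := y) (c := T) ⟨x0, xT⟩ ⟨x0.trans hxy, hy⟩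
    ⟨x0.trans xT, le_rfl⟩
  have e3 : ∫ t in x..T, |lvr 1 lb t - lvr 1 lh t| = -Sc48.Jf lh lb T x := by
    unfold Sc48.Jf
    rw [← intervalIntegral.integral_neg]
    exact intervalIntegral.integral_congr_Ioo_of_le xT fun t ht =>
      abs_of_nonpos (h.dtop (hx.trans ht.1.le)).1
  have e4 : 0 ≤ ∫ t in y..T, |lvr 1 lb t - lvr 1 lh t| := int_nn hy fun _ => abs_nonneg _
  show _ ≤ |Sc48.Jf lh lb T x|
  linarith [neg_le_abs (Sc48.Jf lh lb T x)]

/-- `W² ≤ W2 V` -/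
theorem W_sq {x y : ℝ} (hx : 0 ≤ x) (hxy : x ≤ y) (hy : y ≤ T) :
    (∫ t in x..y, (t - x) * (1 - lvr 1 lb t)) ^ 2 ≤
      (∫ t in x..y, (t - x) ^ 2 * (1 - lvr 1 lb t)) * ∫ t in x..y, (1 - lvr 1 lb t) := by
  have l0 : LB T fun t => 1 - lvr 1 lb t := (LB.const 1).sub (LB.of_mono (Sc48.lvr_mono h.okb.1))
  have l1 : LB T fun t => (t - x) * (1 - lvr 1 lb t) := (LB.of_cont (by fun_prop)).mul l0
  have l2 : LB T fun t => (t - x) ^ 2 * (1 - lvr 1 lb t) := (LB.of_cont (by fun_prop)).mul l0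
  have mx : x ∈ Icc 0 T := ⟨hx, hxy.trans hy⟩
  have my : y ∈ Icc 0 T := ⟨hx.trans hxy, hy⟩
  have p := fun t => sub_nonneg.2 (Pp.Ode3.lvr_le_one h.okb.1 t)
  have k : ∀ s : ℝ, 0 ≤ (∫ t in x..y, (1 - lvr 1 lb t)) * (s * s) +
      (-2 * ∫ t in x..y, (t - x) * (1 - lvr 1 lb t)) * s +
      ∫ t in x..y, (t - x) ^ 2 * (1 - lvr 1 lb t) := fun s => by
    have a := int_mono ((LB.const (2 * s)).mul l1) (((LB.const (s * s)).mul l0).add l2) hx hxy hy
      fun t _ _ => by nlinarith [mul_nonneg (sq_nonneg (t - x - s)) (p t)]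
    rw [intervalIntegral.integral_add (((LB.const (s * s)).mul l0).ii mx my) (l2.ii mx my),
      intervalIntegral.integral_const_mul, intervalIntegral.integral_const_mul] at a
    linarith
  have := discrim_le_zero k
  unfold discrim at this
  nlinarith

end PlZ

end

end Crest.Agent.T156.Pr.Reg48
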