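import Crest.Agent.T156.PrU_28
import Crest.Agent.T156.Top_31
import Crest.Agent.T156.PMer_97
import Crest.Agent.T156.Spl_27

/-!
Row 156, ALT, text (P) (helper28): two node vectors with the same labels; first-order expansion of
the node values with constants that depend only on the time where the tilt reaches `1`.
-/

set_option autoImplicit false

namespace Crest.Agent.T156.Pr

open MeasureTheory Set Filter Topology
open Crest.Agent.R164.GC Crest.Agent.R339.B Crest.Agent.R339.Var Crest.Agent.T157.Pf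
open Crest.Agent.T156.Pp Crest.Agent.T156.Ker Crest.Agent.T156.Pp.Area50

noncomputable section

theorem red {T1 : ℝ} {l : List (ℝ × ℝ)} (h : Tp T1 l) : ∃ u, Ok u ∧ TT u = T1 ∧ Same u l T1 ∧
    ∀ s, 0 ≤ s → lvr 1 u s = lvr 1 l s := by
  obtain ⟨a, b, c, -⟩ := h.ext
  obtain ⟨u, o, e, -⟩ := Spl27.exists_ok a
  have tu : TT u = T1 := e.tt.symm.trans b
  have lv : ∀ s, 0 ≤ s → lvr 1 u s = lvr 1 l s := fun s hs => by rw [← e.lv s hs, c]
  exact ⟨u, o, tu, tu ▸ same_le o.1 h.adm (tu.trans_le h.mem.2) fun s hs _ => (lv s hs.le).symm,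
    lv⟩

/-- (Cmp) with a constant depending only on the time where the tilt reaches `1` -/
theorem cmp' (T : ℝ) : ∃ C : ℝ, 1 ≤ C ∧ ∀ (T1 : ℝ) (l l' : List (ℝ × ℝ)), Tp T1 l → Tp T1 l' →
    T1 ≤ T → ∀ C0 η t : ℝ, 0 ≤ C0 → 0 ≤ η → t ∈ Icc 0 T1 →
    (∀ s, 0 ≤ s → s < t → lvr 1 l s ≤ C0 * s + η) →
    |(GG l' t - GG l' 0) - (GG l t - GG l 0) +
      2 * ∫ s in (0:ℝ)..t, (lvr 1 l' s - lvr 1 l s) * AA l' s| ≤
      C * Nf l l' 0 T1 * ((1 + C0) * t ^ 2 + η * t) := by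
  obtain ⟨C, h1, hC⟩ := cmpS T
  refine ⟨C, h1, fun T1 l l' h h' hT C0 η t c0 e0 ht hl => ?_⟩
  obtain ⟨u, o, tu, su, lu⟩ := red h
  obtain ⟨u', o', tu', su', lu'⟩ := red h'
  have z : (0:ℝ) ∈ Icc 0 T1 := ⟨le_rfl, h.mem.1⟩
  have := hC u u' o o' (tu'.trans tu.symm) (tu.trans_le hT) C0 η t c0 e0 (by rw [tu]; exact ht)
    fun s h0 h1 => by rw [lu s h0]; exact hl s h0 h1
  have e1 : dist1 u u' = Nf l l' 0 T1 := by
    unfold dist1 Nf
    rw [tu]
    refine intervalIntegral.integral_congr fun s hs => ?_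
    rw [uIcc_of_le h.mem.1] at hs
    simp only [lu s hs.1, lu' s hs.1]
  have e2 : ∫ s in (0:ℝ)..t, (lvr 1 l' s - lvr 1 l s) * AA l' s =
      ∫ s in (0:ℝ)..t, (lvr 1 u' s - lvr 1 u s) * AA u' s := by
    refine intervalIntegral.integral_congr fun s hs => ?_
    rw [uIcc_of_le ht.1] at hs
    simp only [lu s hs.1, lu' s hs.1, su'.aa s ⟨hs.1, hs.2.trans ht.2⟩]
  rwa [su.gg t ht, su.gg 0 z, su'.gg t ht, su'.gg 0 z, e2, ← e1]

theorem shift {f f' : ℝ → ℝ} {T a b c E : ℝ} (hc : ContinuousOn f (Icc 0 T))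
    (hd : ∀ r, 0 ≤ r → r < T → HasDerivWithinAt f (f' r) (Ici r) r) (ha : 0 ≤ a) (hab : a ≤ b)
    (hb : b ≤ T) (h : ∀ r ∈ Ico a b, |f' r - c| ≤ E) : |f b - f a - c * (b - a)| ≤ E * (b - a) := by
  have := abs_sub_le_of_rder (a := 0) (b := T) (C := E) (f := fun r => f r - c * r)
    (f' := fun r => f' r - c * 1) (hc.sub (by fun_prop))
    (fun r hr => (hd r hr.1 hr.2).sub ((hasDerivWithinAt_id r _).const_mul c))
    (s := a) (t := b) ⟨ha, hab.trans hb⟩ ⟨ha.trans hab, hb⟩ (fun r hr => by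
      rw [min_eq_left hab, max_eq_right hab] at hr
      rw [mul_one]; exact h r hr)
  rw [abs_of_nonneg (sub_nonneg.2 hab)] at this
  convert this using 2
  ring

/-- two node vectors at distance `Δ`, seen from the node `k` -/
structure Pair (z : ℕ → ℝ) (N k : ℕ) (T1 Δ : ℝ) (s u : ℕ → ℝ) : Prop where
  lab : Lab z N
  kN : k ≤ N
  s0 : s 0 = 0
  u0 : u 0 = 0
  sm : StrictMono s
  um : StrictMono u
  ts : Tp T1 (lst z s N)
  tu : Tp T1 (lst z u N)
  d : ∀ j ≤ N, |u j - s j| ≤ Δ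
  lo : ∀ j < k, s j ≤ min (s k) (u k) ∧ u j ≤ min (s k) (u k)

namespace Pair

variable {z s u : ℕ → ℝ} {N k : ℕ} {T1 Δ : ℝ}

theorem symm (h : Pair z N k T1 Δ s u) : Pair z N k T1 Δ u s :=
  ⟨h.lab, h.kN, h.u0, h.s0, h.um, h.sm, h.tu, h.ts, fun j hj => abs_sub_comm (u j) (s j) ▸ h.d j hj,
    fun j hj => min_comm (s k) (u k) ▸ (h.lo j hj).symm⟩

theorem ok (h : Pair z N k T1 Δ s u) : Ok (lst z s N) ∧ TT (lst z s N) = s N :=
  ⟨(areaS z s N h.lab h.s0 h.sm).1.1, (areaS z s N h.lab h.s0 h.sm).1.2.1⟩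

theorem nn (h : Pair z N k T1 Δ s u) (j : ℕ) : 0 ≤ s j := h.s0 ▸ h.sm.monotone (Nat.zero_le j)

theorem d0 (h : Pair z N k T1 Δ s u) : 0 ≤ Δ := (abs_nonneg _).trans (h.d 0 (Nat.zero_le _))

theorem m0 (h : Pair z N k T1 Δ s u) : 0 ≤ min (s k) (u k) := le_min (h.nn k) (h.symm.nn k)

theorem mN (h : Pair z N k T1 Δ s u) : min (s k) (u k) ≤ s N :=
  (min_le_left _ _).trans (h.sm.monotone h.kN)

theorem mN' (h : Pair z N k T1 Δ s u) : min (s k) (u k) ≤ u N :=
  (min_le_right _ _).trans (h.um.monotone h.kN)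

theorem gap (h : Pair z N k T1 Δ s u) : s k - min (s k) (u k) ≤ Δ := by
  refine le_trans ?_ (h.d k h.kN)
  rcases le_total (s k) (u k) with a | a
  · rw [min_eq_left a, sub_self]; exact abs_nonneg _
  · rw [min_eq_right a, abs_sub_comm]; exact le_abs_self _

theorem up (h : Pair z N k T1 Δ s u) : Up z N := up_of_mono h.lab.mono N

theorem wt (h : Pair z N k T1 Δ s u) {a b : ℝ} (hab : a ≤ b) {g : ℝ → ℝ} (hg : Continuous g)
    (h0 : ∀ r ∈ Icc a b, 0 ≤ g r) {G : ℕ → ℝ}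
    (hG : ∀ j < N, ∀ r ∈ Icc a b, min (s (j + 1)) (u (j + 1)) ≤ r →
      r ≤ max (s (j + 1)) (u (j + 1)) → g r ≤ G (j + 1)) :
    ∫ r in a..b, g r * |lvr 1 (lst z u N) r - lvr 1 (lst z s N) r| ≤
      ∑ j ∈ Finset.range N, dm z j * (G (j + 1) * |cl a b (u (j + 1)) - cl a b (s (j + 1))|) := by
  rw [lvr_lst h.lab h.s0 h.sm.monotone, lvr_lst h.lab h.u0 h.um.monotone]
  simp only [mul_comm (g _)]
  exact area_abs_le s u h.up hab (hg.intervalIntegrable _ _) h0 hG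

theorem Nf_le (h : Pair z N k T1 Δ s u) {a b : ℝ} (hab : a ≤ b) :
    Nf (lst z s N) (lst z u N) a b ≤ ∑ j ∈ Finset.range N, dm z j * |u (j + 1) - s (j + 1)| := by
  unfold Nf
  rw [lvr_lst h.lab h.s0 h.sm.monotone, lvr_lst h.lab h.u0 h.um.monotone]
  exact area_L1' s u h.up hab

theorem sum_le (h : Pair z N k T1 Δ s u) :
    ∑ j ∈ Finset.range N, dm z j * |u (j + 1) - s (j + 1)| ≤ Δ :=
  calc _ ≤ ∑ j ∈ Finset.range N, dm z j * Δ := Finset.sum_le_sum fun j hj =>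
        mul_le_mul_of_nonneg_left (h.d _ (Finset.mem_range.1 hj)) (h.lab.dm_nn j)
    _ = (∑ j ∈ Finset.range N, dm z j) * Δ := by rw [Finset.sum_mul]
    _ ≤ Δ := mul_le_of_le_one_left h.d0 h.lab.sum_le

theorem max_le (h : Pair z N k T1 Δ s u) {j : ℕ} (hj : j ≤ N) : max (s j) (u j) ≤ s j + Δ :=
  _root_.max_le (by linarith [h.d0]) (by linarith [(abs_le.1 (h.d j hj)).2])

theorem min_ge (h : Pair z N k T1 Δ s u) {j : ℕ} (hj : k ≤ j) :
    min (s k) (u k) ≤ min (s j) (u j) := min_le_min (h.sm.monotone hj) (h.um.monotone hj)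

/-- the weighted norm below the node -/
theorem Wf_le (h : Pair z N k T1 Δ s u) :
    Wf (lst z s N) (lst z u N) (min (min (s k) (u k)) T1) ≤ ∑ j ∈ Finset.range N,
      dm z j * ((if j + 1 < k then s (j + 1) + Δ else 0) * |u (j + 1) - s (j + 1)|) := by
  have m0 : 0 ≤ min (min (s k) (u k)) T1 := le_min h.m0 h.ts.mem.1
  refine (h.wt m0 continuous_id (fun r hr => hr.1) (G := fun j => s j + Δ)
    fun j hj r _ _ h2 => h2.trans (h.max_le hj)).trans (Finset.sum_le_sum fun j _ =>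
      mul_le_mul_of_nonneg_left ?_ (h.lab.dm_nn j))
  split_ifs with a
  · exact mul_le_mul_of_nonneg_left (cl_lip _ _ _ _) (add_nonneg (h.nn _) h.d0)
  · have := (min_le_left _ T1).trans (h.min_ge (not_lt.1 a))
    rw [cl_of_ge m0 (this.trans (min_le_left _ _)), cl_of_ge m0 (this.trans (min_le_right _ _))]
    simp

/-- the plain norm above the node -/
theorem Nf_up (h : Pair z N k T1 Δ s u) :
    Nf (lst z s N) (lst z u N) (min (min (s k) (u k)) T1) T1 ≤ ∑ j ∈ Finset.range N,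
      dm z j * ((if j + 1 < k then 0 else 1) * |u (j + 1) - s (j + 1)|) := by
  rcases le_total T1 (min (s k) (u k)) with b | b
  · rw [min_eq_right b, Nf, intervalIntegral.integral_same]
    exact Finset.sum_nonneg fun j _ => mul_nonneg (h.lab.dm_nn j)
      (mul_nonneg (by split_ifs <;> norm_num) (abs_nonneg _))
  rw [min_eq_left b]
  have := h.wt b (g := fun _ => 1) continuous_const (fun _ _ => zero_le_one) (G := fun _ => 1)
    fun _ _ _ _ _ _ => le_rfl
  simp only [one_mul] at this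
  refine this.trans (Finset.sum_le_sum fun j _ => mul_le_mul_of_nonneg_left ?_ (h.lab.dm_nn j))
  split_ifs with a
  · rw [cl_of_le (h.lo _ a).1, cl_of_le (h.lo _ a).2]
    simp
  · rw [one_mul]; exact cl_lip _ _ _ _

theorem lvr_slice (h : Pair z N k T1 Δ s u) {r : ℝ} (h1 : min (s k) (u k) ≤ r) (h2 : r < s k) :
    lvr 1 (lst z s N) r = z (k - 1) := by
  rcases k with _ | k
  · exact absurd (h.m0.trans h1) (by rw [h.s0] at h2; exact not_le.2 h2)
  · exact (areaS z s N h.lab h.s0 h.sm).1.2.2.1 k r ((h.lo k (Nat.lt_succ_self k)).1.trans h1) h2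

end Pair

/-- left derivative of `G` at the node `k` -/
def Gl (z : ℕ → ℝ) (l : List (ℝ × ℝ)) (k : ℕ) (t : ℝ) : ℝ := NN l t - 2 * z (k - 1) * AA l t

/-- kernel of the response of `Γ` at the node `k` -/
def K1 (s : ℕ → ℝ) (k j : ℕ) : ℝ := min (s j) (s k)
/-- kernel of the response of `G` at the node `k` -/
def K2 (s : ℕ → ℝ) (k j : ℕ) : ℝ := if j < k then s j else 1

theorem tri {a b c d e x y z : ℝ} (h1 : |a| ≤ x) (h2 : |b| ≤ y) (h3 : |c| ≤ z) (he : d = a - b + c)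
    (hf : x + y + z ≤ e) : |d| ≤ e := by
  rw [he]
  have := abs_add_le (a - b) c
  have := abs_sub a b
  linarith

set_option maxHeartbeats 800000 in
/-- first-order expansions up to `K Δ²`; `C` depends only on `T`, `K` also on `T0` -/
theorem pair_exp (T : ℝ) : ∃ C : ℝ, 1 ≤ C ∧ ∀ T0 : ℝ, ∃ K : ℝ, 0 ≤ K ∧
    ∀ (z s u : ℕ → ℝ) (N k : ℕ) (T1 Δ : ℝ), Pair z N k T1 Δ s u → T1 ≤ T → s N ≤ T0 → u N ≤ T0 →
    |Gam (lst z u N) (u k) - Gam (lst z s N) (s k) - GG (lst z s N) (s k) * (u k - s k)| ≤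
      C * ∑ j ∈ Finset.range N, dm z j * (K1 s k (j + 1) * |u (j + 1) - s (j + 1)|) + K * Δ ^ 2 ∧
    |GG (lst z u N) (u k) - GG (lst z s N) (s k) - Gl z (lst z s N) k (s k) * (u k - s k)| ≤
      C * ∑ j ∈ Finset.range N, dm z j * (K2 s k (j + 1) * |u (j + 1) - s (j + 1)|) + K * Δ ^ 2 ∧
    ∀ C0 η : ℝ, 0 ≤ C0 → 0 ≤ η → s k ≤ T1 →
      (∀ r, 0 ≤ r → r < s k → lvr 1 (lst z s N) r ≤ C0 * r + η) →
      |GG (lst z u N) (u k) - GG (lst z u N) 0 - (GG (lst z s N) (s k) - GG (lst z s N) 0) -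
        Gl z (lst z s N) k (s k) * (u k - s k) - 2 * ∑ j ∈ Finset.range N, dm z j *
          ((if j + 1 < k then AA (lst z s N) (s (j + 1)) else 0) * (u (j + 1) - s (j + 1)))| ≤
      C * ((1 + C0) * s k ^ 2 + η * s k) *
        ∑ j ∈ Finset.range N, dm z j * |u (j + 1) - s (j + 1)| + K * Δ ^ 2 := by
  obtain ⟨C1, c1, hF⟩ := fun_lip' T
  obtain ⟨C2, c2, hC⟩ := cmp' T
  refine ⟨C1 + C2, by linarith, fun T0 => ?_⟩
  obtain ⟨C3, c3, hO⟩ := Ode3.odeS T0
  obtain ⟨C4, c4, hN⟩ := Mer97.NN_lip T0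
  set B := C1 * (|T| + |T0| + 2) with hB
  have B0 : 0 ≤ B := by positivity
  set E := 2 * C3 + 2 * C4 + 60 + 3 * B with hE
  refine ⟨2 * E + C1 + 2 * (15 + B), by positivity,
    fun z s u N k T1 Δ h hT hs hu => ?_⟩
  obtain ⟨o, e⟩ := h.ok
  obtain ⟨o', e'⟩ := h.symm.ok
  set l := lst z s N with hl
  set l' := lst z u N with hl'
  set m := min (s k) (u k) with hm
  have d0 := h.d0
  have sN := h.sm.monotone h.kN
  have uN := h.um.monotone h.kN
  obtain ⟨⟨a1, a2, a3, -⟩, a4, -, a5⟩ := hO l o (e.trans_le hs)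
  obtain ⟨⟨b1, b2, b3, -⟩, b4, -, b5⟩ := hO l' o' (e'.trans_le hu)
  have a6 := hN l o (e.trans_le hs)
  have b6 := hN l' o' (e'.trans_le hu)
  rw [e] at a1 a2 a3 a4 a5 a6
  rw [e'] at b1 b2 b3 b4 b5 b6
  -- crude comparison at equal times
  have cr : ∀ t, 0 ≤ t → t ≤ s N → t ≤ u N → |GG l' t - GG l t| ≤ B * Δ ∧
      |AA l' t - AA l t| ≤ B * Δ ∧ |NN l' t - NN l t| ≤ B * Δ := fun t t0 t1 t2 => by
    obtain ⟨-, f1, f2, f3, -⟩ := hF T1 l l' h.ts h.tu hT t t0 (e ▸ t1) (e' ▸ t2) _ _ rfl rfl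
    have m1 : 0 ≤ min t T1 := le_min t0 h.ts.mem.1
    have w1 := Ker.Wf_le (l := l) (l' := l') (Y := |T| + 1) m1 fun r h1 h2 => absurd h1 (by
      linarith [min_le_right t T1, le_abs_self T])
    have n1 := (h.Nf_le m1).trans h.sum_le
    have n2 := (h.Nf_le (min_le_right t T1)).trans h.sum_le
    have n3 := mul_le_mul_of_nonneg_left n1 (show 0 ≤ |T| + 1 by positivity)
    have n4 : t * Nf l l' (min t T1) T1 ≤ |T0| * Δ :=
      mul_le_mul (t1.trans (hs.trans (le_abs_self _))) n2 (Nf_nonneg _ _ (min_le_right _ _))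
        (abs_nonneg _)
    have n5 : 0 ≤ |T0| * Δ := by positivity
    have q : ∀ x, x ≤ (|T| + |T0| + 2) * Δ → C1 * x ≤ B * Δ := fun x hx => by
      rw [hB, mul_assoc]; exact mul_le_mul_of_nonneg_left hx (by linarith only [c1])
    exact ⟨f1.trans (q _ (by linarith only [w1, n2, n3, n5])),
      f2.trans (q _ (by linarith only [w1, n2, n3, n5])),
      f3.trans (q _ (by linarith only [w1, n3, n4, d0]))⟩
  have m0 := h.m0
  have ms : m ≤ s k := min_le_left _ _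
  have mu : m ≤ u k := min_le_right _ _
  have g1 : s k - m ≤ Δ := h.gap
  have g2 : u k - m ≤ Δ := by rw [hm, min_comm]; exact h.symm.gap
  have Im : m ∈ Icc 0 (s N) := ⟨m0, h.mN⟩
  have Im' : m ∈ Icc 0 (u N) := ⟨m0, h.mN'⟩
  have Is : s k ∈ Icc 0 (s N) := ⟨h.nn k, sN⟩
  obtain ⟨r1, r2, r3⟩ := cr m m0 h.mN h.mN'
  have z1 : |z (k - 1)| ≤ 1 := by
    rw [abs_of_pos (h.lab.pos.trans_le (h.lab.mono (Nat.zero_le _))), ← h.lab.top N le_rfl]
    exact h.lab.mono ((Nat.sub_le _ _).trans h.kN)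
  have lp : ∀ {x c r t : ℝ}, |x| ≤ c * |r - t| → 0 ≤ c → |r - t| ≤ Δ → |x| ≤ c * Δ :=
    fun h1 h2 h3 => h1.trans (mul_le_mul_of_nonneg_left h3 h2)
  have e1 : ∀ r ∈ Icc m (s k), |r - s k| ≤ Δ := fun r hr => by
    rw [abs_le]; constructor <;> linarith only [hr.1, hr.2, g1, d0]
  have e2 : ∀ r ∈ Ico m (u k), |r - m| ≤ Δ := fun r hr => by
    rw [abs_le]; constructor <;> linarith only [hr.1, hr.2, g2, d0]
  have sG : ∀ r ∈ Icc m (s k), |GG l r - GG l (s k)| ≤ C3 * Δ ∧ |AA l r - AA l (s k)| ≤ 15 * Δ ∧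
      |NN l r - NN l (s k)| ≤ C4 * Δ := fun r hr => by
    have Ir : r ∈ Icc 0 (s N) := ⟨m0.trans hr.1, hr.2.trans sN⟩
    have := (a5 r Ir).2.2.2.2.2.2.2.2.2.2.2.2 _ Is
    exact ⟨lp this.2 (by linarith only [c3]) (e1 r hr), lp this.1 (by norm_num) (e1 r hr),
      lp (a6 _ Is r Ir) (by linarith only [c4]) (e1 r hr)⟩
  have uG : ∀ r ∈ Ico m (u k), |GG l' r - GG l (s k)| ≤ (2 * C3 + B) * Δ ∧
      |AA l' r - AA l (s k)| ≤ (30 + B) * Δ ∧ |NN l' r - NN l (s k)| ≤ (2 * C4 + B) * Δ :=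
    fun r hr => by
    have Ir : r ∈ Icc 0 (u N) := ⟨m0.trans hr.1, hr.2.le.trans uN⟩
    have := (b5 r Ir).2.2.2.2.2.2.2.2.2.2.2.2 _ Im'
    obtain ⟨x1, x2, x3⟩ := sG m ⟨le_rfl, ms⟩
    have y1 := lp this.2 (by linarith only [c3]) (e2 r hr)
    have y2 := lp this.1 (by norm_num) (e2 r hr)
    have y3 := lp (b6 _ Im' r Ir) (by linarith only [c4]) (e2 r hr)
    rw [abs_sub_comm] at r1 r2 r3
    exact ⟨tri y1 r1 x1 (by ring) (by linarith), tri y2 r2 x2 (by ring) (by linarith),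
      tri y3 r3 x3 (by ring) (by linarith)⟩
  have EE : ∀ x, x ≤ E → x * Δ ≤ E * Δ := fun x hx => mul_le_mul_of_nonneg_right hx d0
  have E0 : 0 ≤ E * Δ := by positivity
  have gl : ∀ {n n' a a' x y : ℝ}, |n' - n| ≤ x * Δ → |a' - a| ≤ y * Δ → x + 2 * y ≤ E →
      |n' - 2 * z (k - 1) * a' - (n - 2 * z (k - 1) * a)| ≤ E * Δ := fun {n n' a a' x y} p q r => by
    rw [show n' - 2 * z (k - 1) * a' - (n - 2 * z (k - 1) * a) =
      (n' - n) - 2 * (z (k - 1) * (a' - a)) by ring]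
    refine (abs_sub _ _).trans ?_
    rw [abs_mul, abs_mul, abs_two]
    have := mul_le_of_le_one_left (abs_nonneg (a' - a)) z1
    linarith only [this, p, q, EE _ r]
  have fin : ∀ {x t : ℝ}, |x| ≤ E * Δ * t → t ≤ Δ → |x| ≤ E * Δ ^ 2 := fun p q =>
    p.trans ((mul_le_mul_of_nonneg_left q E0).trans_eq (by ring))
  have s1 := fin (shift a1 (fun r h0 h1 => (a4 r h0 h1).1) m0 ms sN (c := GG l (s k)) fun r hr =>
    (sG r ⟨hr.1, hr.2.le⟩).1.trans (EE _ (by linarith only [hE, c3, c4, B0]))) g1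
  have s2 := fin (shift b1 (fun r h0 h1 => (b4 r h0 h1).1) m0 mu uN (c := GG l (s k)) fun r hr =>
    (uG r hr).1.trans (EE _ (by linarith only [hE, c3, c4, B0]))) g2
  have s3 := fin (shift a2 (fun r h0 h1 => (a4 r h0 h1).2.1) m0 ms sN (c := Gl z l k (s k))
    fun r hr => by
      rw [h.lvr_slice hr.1 hr.2]
      exact gl (sG r ⟨hr.1, hr.2.le⟩).2.2 (sG r ⟨hr.1, hr.2.le⟩).2.1
        (by linarith only [hE, c3, c4, B0])) g1
  have s4 := fin (shift b2 (fun r h0 h1 => (b4 r h0 h1).2.1) m0 mu uN (c := Gl z l k (s k))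
    fun r hr => by
      rw [h.symm.lvr_slice (by rw [min_comm]; exact hr.1) hr.2]
      exact gl (uG r hr).2.2 (uG r hr).2.1 (by linarith only [hE, c3, c4, B0])) g2
  obtain ⟨f1, f2, -⟩ := hF T1 l l' h.ts h.tu hT m m0 (e ▸ h.mN) (e' ▸ h.mN') _ _ rfl rfl
  have w1 := h.Wf_le
  have w2 := h.Nf_up
  have w3 := mul_le_mul_of_nonneg_left h.sum_le d0
  have w4 := mul_le_mul_of_nonneg_left w2 m0
  rw [Finset.mul_sum] at w3 w4
  have p0 : 0 ≤ 2 * (15 + B) * Δ ^ 2 := by positivity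
  have p1 : 0 ≤ C1 * Δ ^ 2 := by positivity
  have ker : ∀ (Kr : ℕ → ℝ) (x : ℝ), (∀ j, 0 ≤ Kr j) → x ≤ ∑ j ∈ Finset.range N,
      (dm z j * (Kr (j + 1) * |u (j + 1) - s (j + 1)|) + Δ * (dm z j * |u (j + 1) - s (j + 1)|)) →
      C1 * x ≤ (C1 + C2) * ∑ j ∈ Finset.range N, dm z j * (Kr (j + 1) * |u (j + 1) - s (j + 1)|) +
        C1 * Δ ^ 2 := fun Kr x k0 hx => by
    rw [Finset.sum_add_distrib] at hx
    have q0 : 0 ≤ ∑ j ∈ Finset.range N, dm z j * (Kr (j + 1) * |u (j + 1) - s (j + 1)|) :=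
      Finset.sum_nonneg fun j _ => mul_nonneg (h.lab.dm_nn j) (mul_nonneg (k0 _) (abs_nonneg _))
    have q1 := mul_le_mul_of_nonneg_left (hx.trans (add_le_add le_rfl w3))
      (show 0 ≤ C1 by linarith only [c1])
    have q2 := mul_nonneg (show 0 ≤ C2 by linarith only [c2]) q0
    linarith only [q1, q2]
  refine ⟨tri s2 s1 (f1.trans (ker (K1 s k) _ (fun j => le_min (h.nn _) (h.nn _)) ?_)) (by ring)
      (by linarith only [p0]),
    tri s4 s3 (f2.trans (ker (K2 s k) _ (fun j => ?_) ?_)) (by ring) (by linarith only [p0]),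
    fun C0 η c0 η0 hk hl => ?_⟩
  · refine (add_le_add w1 w4).trans ?_
    rw [← Finset.sum_add_distrib]
    refine Finset.sum_le_sum fun j _ => ?_
    have q := mul_nonneg (h.lab.dm_nn j) (abs_nonneg (u (j + 1) - s (j + 1)))
    unfold K1
    split_ifs with a
    · rw [min_eq_left (h.sm.monotone a.le)]
      linarith
    · rw [min_eq_right (h.sm.monotone (not_lt.1 a))]
      have := mul_le_mul_of_nonneg_right ms q
      have := mul_nonneg d0 q
      linarith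
  · unfold K2
    split_ifs
    · exact h.nn _
    · exact zero_le_one
  · refine (add_le_add w1 w2).trans ?_
    rw [← Finset.sum_add_distrib]
    refine Finset.sum_le_sum fun j _ => ?_
    have q := mul_nonneg d0 (mul_nonneg (h.lab.dm_nn j) (abs_nonneg (u (j + 1) - s (j + 1))))
    unfold K2
    split_ifs with a <;> linarith
  · have c := hC T1 l l' h.ts h.tu hT C0 η m c0 η0 ⟨m0, ms.trans hk⟩
      fun r h0 h1 => hl r h0 (h1.trans_le ms)
    have ap := area_approx s u h.up m0 (g := AA l')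
      ((b3.mono (Icc_subset_Icc le_rfl h.mN')).intervalIntegrable_of_Icc m0)
      (c := fun j => if j < k then AA l (s j) else AA l' m) (E := fun _ => (15 + B) * Δ)
      fun j hj r hr => by
        split_ifs with a
        · obtain ⟨y1, y2⟩ := h.lo _ a
          rw [cl_of_mem (h.symm.nn _) y2, cl_of_mem (h.nn _) y1] at hr
          have r0 : 0 ≤ r := (le_min (h.symm.nn _) (h.nn _)).trans hr.1
          have r1 : r ≤ m := hr.2.trans (max_le y2 y1)
          have x1 := (cr r r0 (r1.trans h.mN) (r1.trans h.mN')).2.1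
          have x2 := ((a5 r ⟨r0, r1.trans h.mN⟩).2.2.2.2.2.2.2.2.2.2.2.2 (s (j + 1))
            ⟨h.nn _, y1.trans h.mN⟩).1
          have x3 : |r - s (j + 1)| ≤ Δ := by
            rw [abs_sub_comm]
            exact (abs_sub_right_of_mem_uIcc hr).trans (abs_sub_comm (u _) _ ▸ h.d _ hj)
          have := abs_sub_le (AA l' r) (AA l r) (AA l (s (j + 1)))
          linarith only [this, x1, lp x2 (by norm_num) x3]
        · have y := h.min_ge (not_lt.1 a)
          rw [cl_of_ge m0 (y.trans (min_le_right _ _)), cl_of_ge m0 (y.trans (min_le_left _ _)),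
            uIcc_self, mem_singleton_iff] at hr
          rw [hr, sub_self, abs_zero]
          positivity
    rw [← lvr_lst h.lab h.s0 h.sm.monotone, ← lvr_lst h.lab h.u0 h.um.monotone] at ap
    have x1 : ∑ j ∈ Finset.range N, (z (j + 1) - z j) * ((if j + 1 < k then AA l (s (j + 1))
        else AA l' m) * (cl 0 m (s (j + 1)) - cl 0 m (u (j + 1)))) = -∑ j ∈ Finset.range N, dm z j *
          ((if j + 1 < k then AA l (s (j + 1)) else 0) * (u (j + 1) - s (j + 1))) := by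
      rw [← Finset.sum_neg_distrib]
      refine Finset.sum_congr rfl fun j _ => ?_
      split_ifs with a
      · rw [cl_of_mem (h.symm.nn _) (h.lo _ a).2, cl_of_mem (h.nn _) (h.lo _ a).1, dm]
        ring
      · have y := h.min_ge (not_lt.1 a)
        rw [cl_of_ge m0 (y.trans (min_le_right _ _)), cl_of_ge m0 (y.trans (min_le_left _ _))]
        simp
    have x2 : ∑ j ∈ Finset.range N, (z (j + 1) - z j) * ((15 + B) * Δ *
        |cl 0 m (s (j + 1)) - cl 0 m (u (j + 1))|) ≤ (15 + B) * Δ ^ 2 := by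
      refine le_trans ?_ ((mul_le_mul_of_nonneg_left w3 (show 0 ≤ 15 + B by positivity)).trans_eq
        (by ring))
      rw [Finset.mul_sum]
      refine Finset.sum_le_sum fun j _ => ?_
      have := mul_le_mul_of_nonneg_left ((cl_lip 0 m (s (j + 1)) (u (j + 1))).trans_eq
        (abs_sub_comm _ _)) (mul_nonneg (h.lab.dm_nn j) (show 0 ≤ (15 + B) * Δ by positivity))
      unfold dm at this ⊢
      linarith only [this]
    rw [x1] at ap
    have x3 := abs_le.1 (ap.trans x2)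
    have x4 : C2 * Nf l l' 0 T1 * ((1 + C0) * m ^ 2 + η * m) ≤ (C1 + C2) *
        ((1 + C0) * s k ^ 2 + η * s k) * ∑ j ∈ Finset.range N, dm z j * |u (j + 1) - s (j + 1)| := by
      have n0 := Nf_nonneg l l' h.ts.mem.1
      have sk := h.nn k
      rw [mul_right_comm]
      refine mul_le_mul (mul_le_mul (by linarith only [c1]) ?_ (by positivity)
        (by linarith only [c1, c2])) (h.Nf_le h.ts.mem.1) n0 (by positivity)
      gcongr
    have x5 := abs_le.1 (c.trans x4)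
    have x6 := abs_le.1 s3
    have x7 := abs_le.1 s4
    rw [abs_le]
    constructor <;> linarith only [x3.1, x3.2, x5.1, x5.2, x6.1, x6.2, x7.1, x7.2, p1]

end

end Crest.Agent.T156.Pr
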