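import Crest.Agent.T156.Q2M_75

/-!
# Row 156 (helper75): the exact expansion of the two-edge term
-/

set_option autoImplicit false

noncomputable section

namespace Crest.Agent.T156.Cas.Q75

open Finset
open Crest.Agent.T157.E Crest.Agent.T157.Casc Crest.Agent.T157.SL
open Nu87 Wt87

/-! ### weights -/

variable {Θ : Type} (L : List (Lv Θ))

/-- weighted sum -/
def Sm (A : Finset ℕ) (g : ℕ → ℝ) : ℝ := ∑ j ∈ A, dm L 0 j * g j

theorem Sm_add (A : Finset ℕ) (g g' : ℕ → ℝ) :
    Sm L A (fun j => g j + g' j) = Sm L A g + Sm L A g' := by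
  simp only [Sm, mul_add, sum_add_distrib]

theorem Sm_sub (A : Finset ℕ) (g g' : ℕ → ℝ) :
    Sm L A (fun j => g j - g' j) = Sm L A g - Sm L A g' := by
  simp only [Sm, mul_sub, sum_sub_distrib]

theorem Sm_mul (A : Finset ℕ) (c : ℝ) (g : ℕ → ℝ) : Sm L A (fun j => c * g j) = c * Sm L A g := by
  simp only [Sm, mul_sum, mul_left_comm c]

theorem Sm_congr {A : Finset ℕ} {g g' : ℕ → ℝ} (h : ∀ j ∈ A, g j = g' j) : Sm L A g = Sm L A g' :=
  sum_congr rfl fun j hj => by rw [h j hj]

theorem Sm_comm (A B : Finset ℕ) (g : ℕ → ℕ → ℝ) :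
    Sm L A (fun j => Sm L B (g j)) = Sm L B fun k => Sm L A fun j => g j k := by
  simp only [Sm, mul_sum]
  rw [sum_comm]
  exact sum_congr rfl fun _ _ => sum_congr rfl fun _ _ => by ring

theorem Sm_split {x K : ℕ} (hx : x ≤ K) (g : ℕ → ℝ) :
    Sm L (range (K + 1)) g = Sm L (range x) g + dm L 0 x * g x + Sm L (Ioc x K) g := by
  rw [Sm, Sm, Sm, ← sum_range_succ fun j => dm L 0 j * g j, range_eq_Ico, range_eq_Ico,
    ← Finset.Ico_add_one_add_one_eq_Ioc, sum_Ico_consecutive _ (by omega) (by omega)]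

theorem Sm_tri (a K : ℕ) (g : ℕ → ℕ → ℝ) :
    Sm L (Ico a (K + 1)) (fun y => Sm L (Ico a y) (g y)) =
      Sm L (Ico a (K + 1)) fun t => Sm L (Ioc t K) fun k => g k t := by
  simp only [Sm, mul_sum, ← Finset.Ico_add_one_add_one_eq_Ioc]
  rw [← sum_Ico_Ico_comm']
  exact sum_congr rfl fun _ _ => sum_congr rfl fun _ _ => by ring

theorem Sm_mid {a y K : ℕ} (ha : a ≤ y) (hy : y ≤ K) (g : ℕ → ℝ) :
    Sm L (Ico a (K + 1)) g = Sm L (Ico a y) g + dm L 0 y * g y + Sm L (Ioc y K) g := by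
  rw [Sm, Sm, Sm, ← sum_Ico_succ_top ha fun j => dm L 0 j * g j,
    ← Finset.Ico_add_one_add_one_eq_Ioc, sum_Ico_consecutive _ (by omega) (by omega)]

theorem Sm_sq (a K : ℕ) {f : ℕ → ℕ → ℝ} (hf : ∀ j ≤ K, ∀ k ≤ K, f j k = f k j) :
    Sm L (Ico a (K + 1)) (fun j => Sm L (Ico a (K + 1)) (f j)) =
      Sm L (Ico a (K + 1)) fun j => dm L 0 j * f j j + 2 * Sm L (Ioc j K) (f j) := by
  rw [Sm_congr L fun j hj => Sm_mid L (mem_Ico.1 hj).1 (by have := mem_Ico.1 hj; omega) (f j),
    Sm_add, Sm_add, Sm_tri, Sm_add, Sm_mul, Sm_congr L (g' := fun t => Sm L (Ioc t K) (f t))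
      fun t ht => Sm_congr L fun k hk => hf _ (mem_Ioc.1 hk).2 _ (by have := mem_Ico.1 ht; omega)]
  ring

/-- positive weights of one leg from the node `x` on -/
def Lp (x : ℕ) (g : ℕ → ℝ) : ℝ := ex L x * g x + Sm L (Ioc x L.length) g

theorem Lp_congr {x : ℕ} (hx : x ≤ L.length) {g g' : ℕ → ℝ}
    (h : ∀ j, x ≤ j → j ≤ L.length → g j = g' j) : Lp L x g = Lp L x g' := by
  rw [Lp, Lp, h x le_rfl hx, Sm_congr L fun j hj => h j (mem_Ioc.1 hj).1.le (mem_Ioc.1 hj).2]

theorem Ws_gr' {r : ℕ} {σ : SM r} (h : Rz L.length σ) (a : Fin r) {j : ℕ} (hj : j ≤ L.length)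
    {G : Fin (r + 1) → ℕ → ℝ} (hG : NCm (gr L.length σ a j) G) :
    Ws L (gr L.length σ a j) G = Ws L σ (fun b => G b.succ) + Lp L j (G 0) := by
  rw [Ws_gr L h a hj hG, sum_dm_drop L hj]; rfl

theorem Ws_one (G : Fin 1 → ℕ → ℝ) :
    Ws L (fun _ _ : Fin 1 => L.length) G = Sm L (range (L.length + 1)) (G 0) := by
  rw [Sm, ← abel_dm, ex_length, one_mul, Ws, Fin.sum_univ_one]
  congr 1
  refine sum_congr rfl fun j hj => ?_
  have : j + 1 ≤ L.length := mem_range.1 hj
  simp [cls, this]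

theorem Ws_tw {x : ℕ} (hx : x ≤ L.length) {G : Fin 2 → ℕ → ℝ} (hG : NCm (tw L.length x) G) :
    Ws L (tw L.length x) G = Sm L (range (L.length + 1)) (G 1) + Lp L x (G 0) := by
  rw [tw, Ws_gr' L (rz_one _) 0 hx hG, Ws_one]; rfl

theorem avc_one {x : ℕ} (hx : x ≤ L.length) (φ : SM 3 → ℝ) :
    2 * avc L (tw L.length x) 1 φ =
      Sm L (range (L.length + 1)) (fun j => φ (m3 L.length (min j x) j x)) +
        Lp L x fun j => φ (m3 L.length j (min j x) x) := by
  have e : avc L (tw L.length x) 1 φ = _ / ((1 : ℕ) + 1 : ℝ) := rfl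
  rw [e, Ws_tw L hx ((rz_tw _ x).ncm φ),
    Sm_congr L fun j hj => congrArg φ (gr_tw1 hx (Nat.lt_succ_iff.1 (mem_range.1 hj))),
    Lp_congr L hx fun j _ hj => congrArg φ (gr_tw0 hx hj)]
  push_cast
  ring

theorem up_three {x j : ℕ} (hx : x ≤ L.length) (hj : j ≤ L.length) (i : Fin 2) {a b : ℕ}
    (e : gr L.length (tw L.length x) i j = m3 L.length a b x) (φ : SM 4 → ℝ) :
    3 * up1 L φ (m3 L.length a b x) =
      Sm L (range (L.length + 1)) (fun k => φ (m4 L.length (min k b) x (min k x) k a b)) +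
        Lp L x (fun k => φ (m4 L.length (min k a) x k (min k x) a b)) +
        Lp L j fun k => φ (m4 L.length k x (min k a) (min k b) a b) := by
  have hz := (rz_tw L.length x).gr i j
  have nc := hz.ncm φ
  have h1 := Ws_gr' L (rz_tw _ x) i hj nc
  rw [Ws_tw L hx fun c d k hk => nc c.succ d.succ k hk, e] at h1
  have e2 : Sm L (range (L.length + 1)) (fun k => φ (gr L.length (m3 L.length a b x) 2 k)) = _ :=
    Sm_congr L fun k hk => congrArg φ (gr_m2 (Nat.lt_succ_iff.1 (mem_range.1 hk)))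
  have e1 : Lp L x (fun k => φ (gr L.length (m3 L.length a b x) 1 k)) = _ :=
    Lp_congr L hx fun k _ hk => congrArg φ (gr_m1 hk)
  have e0 : Lp L j (fun k => φ (gr L.length (m3 L.length a b x) 0 k)) = _ :=
    Lp_congr L hj fun k _ hk => congrArg φ (gr_m0 hk)
  rw [← e2, ← e1, ← e0, up1, h1]
  exact (congrArg (fun c : ℝ => 3 * (_ / c)) (by norm_num : ((2 : ℕ) : ℝ) + 1 = 3)).trans
    (mul_div_cancel₀ _ (by norm_num))

/-- the three families of four-replica terms -/
def f1 (T : Tw) (K x j k : ℕ) : ℝ := T.f4 (m4 K (min k j) x k (min k x) j (min j x))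
def f2 (T : Tw) (K x j k : ℕ) : ℝ := T.f4 (m4 K (min k (min j x)) x k (min k x) (min j x) j)
def f3 (T : Tw) (K x j k : ℕ) : ℝ := T.f4 (m4 K k x j (min j x) j (min j x))

theorem avc_two {T : Tw} (H : T.Sy L.length) {x : ℕ} (hx : x ≤ L.length) :
    6 * avc L (tw L.length x) 2 T.f4 =
      Sm L (range (L.length + 1)) (fun j => Sm L (range (L.length + 1)) (f1 T L.length x j) +
        Lp L x (f2 T L.length x j) + Lp L j (f3 T L.length x j)) +
      Lp L x fun j => Sm L (range (L.length + 1)) (f2 T L.length x j) +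
        Lp L x (f1 T L.length x j) + Lp L j (f3 T L.length x j) := by
  have e : avc L (tw L.length x) 2 T.f4 = avc L (tw L.length x) 1 (up1 L T.f4) := rfl
  have h := avc_one L hx fun σ => 3 * up1 L T.f4 σ
  rw [show avc L (tw L.length x) 1 (fun σ => 3 * up1 L T.f4 σ) =
      3 * avc L (tw L.length x) 1 (up1 L T.f4) from
    (congrArg (· / _) (Ws_mul L _ 3 _)).trans (mul_div_assoc _ _ _)] at h
  rw [e, show ∀ a : ℝ, 6 * a = 2 * (3 * a) from fun a => by ring, h]
  congr 1
  · refine Sm_congr L fun j hj => ?_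
    have hj' := Nat.lt_succ_iff.1 (mem_range.1 hj)
    rw [up_three L hx hj' 1 (gr_tw1 hx hj')]
    congr 1
    · congr 1
      refine Sm_congr L fun k hk => ?_
      have hk' := Nat.lt_succ_iff.1 (mem_range.1 hk)
      exact (H.s23 (gr_m2 hk' ▸ (rz_b hx hj').gr 2 k)).symm
    · refine Lp_congr L hj' fun k hjk hk => ?_
      have := H.s23 (gr_m0 hk ▸ (rz_b hx hj').gr 0 k)
      rw [← this, f3, min_eq_right hjk, min_eq_right ((min_le_left _ _).trans hjk)]
  · refine Lp_congr L hx fun j _ hj' => ?_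
    rw [up_three L hx hj' 0 (gr_tw0 hx hj')]
    congr 1
    · congr 1
      refine Sm_congr L fun k hk => ?_
      have hk' := Nat.lt_succ_iff.1 (mem_range.1 hk)
      exact (H.s23 (gr_m2 hk' ▸ (rz_a hx hj').gr 2 k)).symm
    · refine Lp_congr L hj' fun k hjk hk => ?_
      rw [f3, min_eq_right hjk, min_eq_right ((min_le_left _ _).trans hjk)]

theorem Lp_add (x : ℕ) (g g' : ℕ → ℝ) :
    Lp L x (fun j => g j + g' j) = Lp L x g + Lp L x g' := by
  simp only [Lp, Sm_add]; ring

theorem Lg_eq (x : ℕ) (g : ℕ → ℝ) :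
    Lg L x g = g (L.length + 1) - Sm L (Ioc x L.length) g := rfl

theorem sN_top (T : Tw) {K x t : ℕ} (h : t ≤ K) : T.sN K x (K + 1) t = T.sN K x t (K + 1) := by
  rw [Tw.sN, Tw.sN, if_pos rfl, if_neg (by omega), if_neg (by omega), if_pos rfl]

theorem sN_comm {T : Tw} {K x j k : ℕ} (H : T.Sy K) (h1 : x ≤ j) (h2 : j ≤ K) (h3 : x ≤ k)
    (h4 : k ≤ K) : T.sN K x j k = T.sN K x k j := by
  have n1 : ∀ {t}, t ≤ K → t ≠ K + 1 := fun h => by omega
  simp only [Tw.sN, if_neg (n1 h2), if_neg (n1 h4)]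
  have hz := rz_sn4 h1 h2 h3 h4
  have := (rz_sn3 h1 h2).perm (Equiv.swap 1 2)
  have hz' := (rz_a (h1.trans h2) h4).gr 2 j
  rw [gr_m2 h2, min_eq_right h3, min_eq_right h1] at hz'
  rw [← H.s23 hz, ← H.s01 hz']

theorem lo_self (T : Tw) {K x t : ℕ} (hx : x ≤ K) (h : x ≤ t) : T.lo K x x t = T.sN K x t x := by
  simp only [Tw.lo, Tw.sN, if_neg (show x ≠ K + 1 by omega), min_eq_right h]

/-- **(A) exact expansion** -/
theorem expS : ExpS := fun Θ L T H x hx => by
  have n1 : ∀ {t}, t ≤ L.length → t ≠ L.length + 1 := fun h => by omega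
  have a1 : ∀ j k, j ≤ x → j ≤ k → k ≤ L.length → f1 T L.length x j k = T.lo L.length j x k :=
    fun j k h1 h2 h3 => by rw [f1, Tw.lo, if_neg (n1 h3), min_eq_right h2, min_eq_left h1]
  have a2 : ∀ j ≤ L.length, ∀ k ≤ L.length, f1 T L.length x j k = f1 T L.length x k j :=
    fun j hj k hk => by
      rw [f1, f1, min_comm j k]
      exact (H.s01 (gr_m1 hk ▸ (rz_a hx hj).gr 1 k)).symm
  have a3 : ∀ j k, j ≤ x → j ≤ k → k ≤ L.length → f2 T L.length x j k = T.lo L.length j x k :=
    fun j k h1 h2 h3 => by rw [f2, Tw.lo, if_neg (n1 h3), min_eq_left h1, min_eq_right h2]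
  have a4 : ∀ j k, x ≤ j → j ≤ L.length → x ≤ k → k ≤ L.length →
      f2 T L.length x j k = T.sN L.length x j k := fun j k h1 h2 h3 h4 => by
    rw [sN_comm H h1 h2 h3 h4, f2, Tw.sN, if_neg (n1 h4), if_neg (n1 h2), min_eq_right h1,
      min_eq_right h3]
  have a4' : ∀ j k, k ≤ x → x ≤ j → j ≤ L.length → f2 T L.length x j k = T.lo L.length k x j :=
    fun j k h1 h2 h3 => by
      have hz := (rz_b hx h3).gr 1 k
      rw [gr_m1 (h1.trans hx)] at hz
      have h4 := H.s23 (rz_lo4 hx h1 (h1.trans h2) h3)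
      rw [f2, ← H.s01 hz, Tw.lo, if_neg (n1 h3), ← h4, min_eq_right h2, min_eq_left h1]
  have a5 : ∀ j k, x ≤ j → j ≤ k → k ≤ L.length → f1 T L.length x j k = T.tr.lo L.length x j k :=
    fun j k h1 h2 h3 => by
      rw [f1, tr_lo, if_neg (n1 h3), min_eq_right h2, min_eq_right h1, min_eq_right (h1.trans h2)]
  have a6 : ∀ j k, x ≤ j → j ≤ k → j ≤ L.length → f3 T L.length x j k = T.tr.lo L.length x k j :=
    fun j k h1 h2 h3 => by rw [f3, tr_lo, if_neg (n1 h3), min_eq_right h1, min_eq_left h2]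
  have a7 : ∀ j k, j ≤ x → f3 T L.length x j k = T.off L.length j x k :=
    fun j k h1 => by rw [f3, Tw.off, min_eq_left h1]
  have a8 : ∀ j, f3 T L.length x j j = f1 T L.length x j j := fun j => by rw [f3, f1, min_self]
  have a9 : ∀ k, x ≤ k → k ≤ L.length → T.lo L.length x x k = T.sN L.length x x k :=
    fun k h1 h2 => (lo_self T hx h1).trans (sN_comm H h1 h2 le_rfl hx)
  have mI : ∀ {j a}, j ∈ Ioc a L.length → a ≤ j ∧ j ≤ L.length := fun h =>
    ⟨(mem_Ioc.1 h).1.le, (mem_Ioc.1 h).2⟩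
  have mR : ∀ {j}, j ∈ range x → j ≤ x := fun h => (mem_range.1 h).le
  have e1 := avc_one L hx T.f3
  rw [Sm_split L hx, Lp, min_self,
    Sm_congr L (A := range x) (g' := fun j => T.lo L.length j x (L.length + 1))
      fun j hj => by rw [Tw.lo, if_pos rfl, min_eq_left (mR hj)],
    Sm_congr L (g := fun j => T.f3 (m3 L.length (min j x) j x))
      (g' := fun j => T.sN L.length x j (L.length + 1))
      fun j hj => by rw [Tw.sN, if_neg (n1 (mI hj).2), if_pos rfl, min_eq_right (mI hj).1],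
    Sm_congr L (g := fun j => T.f3 (m3 L.length j (min j x) x))
      (g' := fun j => T.tr.lo L.length x j (L.length + 1))
      fun j hj => by rw [tr_lo, if_pos rfl, min_eq_right (mI hj).1],
    show T.f3 (m3 L.length x x x) = T.sN L.length x x (L.length + 1) by
      rw [Tw.sN, if_neg (n1 hx), if_pos rfl]] at e1
  have u1 : Sm L (Ioc x L.length) (fun j => dm L 0 j * f1 T L.length x j j +
      2 * Sm L (Ioc j L.length) (f1 T L.length x j)) =
      Sm L (Ioc x L.length) (fun j => dm L 0 j * T.tr.lo L.length x j j) +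
        2 * Sm L (Ioc x L.length) fun j => Sm L (Ioc j L.length) (T.tr.lo L.length x j) := by
    rw [← Sm_mul, ← Sm_add]
    exact Sm_congr L fun j hj => by
      rw [a5 j j (mI hj).1 le_rfl (mI hj).2,
        Sm_congr L fun k hk => a5 j k (mI hj).1 (mI hk).1 (mI hk).2]
  have s0 : f1 T L.length x x x = T.sN L.length x x x := (a1 x x le_rfl le_rfl hx).trans
    (a9 x le_rfl hx)
  have s1 : Sm L (Ioc x L.length) (f1 T L.length x x) =
      Sm L (Ioc x L.length) (T.sN L.length x x) :=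
    Sm_congr L fun k hk => (a1 x k le_rfl (mI hk).1 (mI hk).2).trans (a9 k (mI hk).1 (mI hk).2)
  have s2 : Sm L (Ioc x L.length) (fun j => T.sN L.length x j x) =
      Sm L (Ioc x L.length) (T.sN L.length x x) :=
    Sm_congr L fun k hk => sN_comm H (mI hk).1 (mI hk).2 le_rfl hx
  have t1 : Sm L (range (L.length + 1)) (fun j => Sm L (range (L.length + 1)) (f1 T L.length x j)) =
      Sm L (range x) (fun j => dm L 0 j * T.lo L.length j x j) +
        2 * Sm L (range x) (fun j => Sm L (Ioc j L.length) (T.lo L.length j x)) +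
        dm L 0 x * (dm L 0 x * T.sN L.length x x x + 2 * Sm L (Ioc x L.length) (T.sN L.length x x)) +
        (Sm L (Ioc x L.length) (fun j => dm L 0 j * T.tr.lo L.length x j j) +
        2 * Sm L (Ioc x L.length) fun j => Sm L (Ioc j L.length) (T.tr.lo L.length x j)) := by
    rw [range_eq_Ico, Sm_sq L 0 _ a2, ← range_eq_Ico, Sm_split L hx, u1, s0, s1, ← Sm_mul L (range x),
      ← Sm_add L (range x)]
    congr 2
    exact Sm_congr L fun j hj => by
      rw [a1 j j (mR hj) le_rfl ((mR hj).trans hx),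
        Sm_congr L fun k hk => a1 j k (mR hj) (mI hk).1 (mI hk).2]
  have t2 : Sm L (range (L.length + 1)) (fun j => Lp L x (f2 T L.length x j)) =
      ex L x * Sm L (range x) (fun j => T.lo L.length j x x) +
        Sm L (range x) (fun j => Sm L (Ioc x L.length) (T.lo L.length j x)) +
        dm L 0 x * (ex L x * T.sN L.length x x x + Sm L (Ioc x L.length) (T.sN L.length x x)) +
        (ex L x * Sm L (Ioc x L.length) (T.sN L.length x x) +
        Sm L (Ioc x L.length) fun j => Sm L (Ioc x L.length) (T.sN L.length x j)) := by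
    rw [Sm_split L hx, Lp_congr L hx fun k h1 h2 => a4 x k le_rfl hx h1 h2,
      Sm_congr L (A := range x) fun j hj => Lp_congr L hx fun k h1 h2 =>
        a3 j k (mR hj) ((mR hj).trans h1) h2,
      Sm_congr L (A := Ioc x L.length) fun j hj => Lp_congr L hx fun k h1 h2 =>
        a4 j k (mI hj).1 (mI hj).2 h1 h2]
    simp only [Lp, Sm_add, Sm_mul, s2]
  have t4 : Lp L x (fun j => Sm L (range (L.length + 1)) (f2 T L.length x j)) =
      Sm L (range (L.length + 1)) (fun j => Lp L x (f2 T L.length x j)) := by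
    rw [t2, Lp_congr L hx (g' := fun j => Sm L (range x) (fun k => T.lo L.length k x j) +
      dm L 0 x * T.sN L.length x j x + Sm L (Ioc x L.length) (T.sN L.length x j))
      fun j h1 h2 => by
        rw [Sm_split L hx, a4 j x h1 h2 le_rfl hx,
          Sm_congr L fun k hk => a4' j k (mR hk) h1 h2,
          Sm_congr L fun k hk => a4 j k h1 h2 (mI hk).1 (mI hk).2]]
    simp only [Lp, Sm_add, Sm_mul, s2]
    rw [Sm_comm L (Ioc x L.length) (range x) fun j k => T.lo L.length k x j]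
    ring
  have u3 : Sm L (Ioc x L.length) (fun j => Lp L j (f3 T L.length x j)) =
      Sm L (Ioc x L.length) (fun j => ex L j * T.tr.lo L.length x j j) +
        Sm L (Ioc x L.length) fun j => Sm L (Ioc j L.length) fun k => T.tr.lo L.length x k j := by
    rw [← Sm_add]
    exact Sm_congr L fun j hj => by
      rw [Lp_congr L (mI hj).2 fun k h1 _ => a6 j k (mI hj).1 h1 (mI hj).2, Lp]
  have u4 : Lp L x (f3 T L.length x x) = ex L x * T.sN L.length x x x +
      Sm L (Ioc x L.length) fun k => T.tr.lo L.length x k x := by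
    rw [Lp, a8, s0, Sm_congr L fun k hk => a6 x k le_rfl (mI hk).1 hx]
  have t3 : Sm L (range x) (fun j => Lp L j (f3 T L.length x j)) =
      Sm L (range x) (fun j => ex L j * T.lo L.length j x j) +
        Sm L (range x) fun j => Sm L (Ioc j L.length) (T.off L.length j x) := by
    rw [← Sm_add]
    exact Sm_congr L fun j hj => by
      rw [Lp, a8, a1 j j (mR hj) le_rfl ((mR hj).trans hx), funext (a7 j · (mR hj))]
  have t5 : Lp L x (fun j => Lp L x (f1 T L.length x j)) =
      ex L x * (ex L x * T.sN L.length x x x + 2 * Sm L (Ioc x L.length) (T.sN L.length x x)) +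
        (Sm L (Ioc x L.length) (fun j => dm L 0 j * T.tr.lo L.length x j j) +
        2 * Sm L (Ioc x L.length) fun j => Sm L (Ioc j L.length) (T.tr.lo L.length x j)) := by
    have := Sm_sq L (x + 1) _ a2
    rw [Finset.Ico_add_one_add_one_eq_Ioc, u1] at this
    simp only [Lp, Sm_add, Sm_mul, this, s0, s1]
    rw [Sm_congr L fun j hj => a2 j (mI hj).2 x hx, s1]
    ring
  have e2 := avc_two L H hx
  simp only [Sm_add, Lp_add] at e2
  rw [t1, t4, t2, t5, Sm_split L hx fun j => Lp L j (f3 T L.length x j), t3, u3, u4,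
    Lp.eq_1 L x fun j => Lp L j (f3 T L.length x j), u3, u4] at e2
  have r1 : Sm L (Ioc x L.length) (fun y => Sm L (Ioc x L.length) (T.tr.lo L.length x y)) =
      Sm L (Ioc x L.length) (fun j => Sm L (Ioc j L.length) fun k => T.tr.lo L.length x k j) +
        Sm L (Ioc x L.length) (fun j => dm L 0 j * T.tr.lo L.length x j j) +
        Sm L (Ioc x L.length) fun j => Sm L (Ioc j L.length) (T.tr.lo L.length x j) := by
    have := Sm_tri L (x + 1) L.length (T.tr.lo L.length x)
    rw [Finset.Ico_add_one_add_one_eq_Ioc] at this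
    rw [← this, ← Sm_add, ← Sm_add]
    refine Sm_congr L fun y hy => ?_
    rw [← Sm_mid L (a := x + 1) (mem_Ioc.1 hy).1 (mI hy).2, Finset.Ico_add_one_add_one_eq_Ioc]
  have r2 : NLx L T x = Sm L (range x) (fun y => LO L T y x) + dm L 0 x * LO L T x x +
      Sm L (Ioc x L.length) (fun y => LO L T.tr x y) +
      Sm L (range x) fun z => Sm L (Ioc z L.length) (T.off L.length z x) := by
    rw [NLx, sum_range_succ]; rfl
  have r3 : Sm L (Ioc x L.length) (T.lo L.length x x) = Sm L (Ioc x L.length) (T.sN L.length x x) :=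
    Sm_congr L fun k hk => a9 k (mI hk).1 (mI hk).2
  have r4 : Sm L (Ioc x L.length) (T.sN L.length x (L.length + 1)) =
      Sm L (Ioc x L.length) fun j => T.sN L.length x j (L.length + 1) :=
    Sm_congr L fun k hk => sN_top T (mI hk).2
  have r5 : T.f2 (tw L.length x) = T.sN L.length x (L.length + 1) (L.length + 1) := by
    rw [Tw.sN, if_pos rfl, if_pos rfl]
  rw [Ex, r2, r5, show ∀ a : ℝ, 8 * a = 4 * (2 * a) from fun a => by ring, e1, e2]
  simp only [SN, LO, cP, Lx, Lg_eq, Sm_add, Sm_sub, Sm_mul, add_mul, r1, r3, r4, s2,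
    lo_self T hx (Nat.le_succ_of_le hx), a9 x le_rfl hx, sN_top T hx]
  ring

theorem Ful_eq [Fintype Θ] (T : Tw) : 2 * Ful L T = Sm L (range (L.length + 1)) (Ex L T) := by
  have h1 : avm L 1 T.f2 = Sm L _ _ := avm_one T.f2
  have h2 : avm L 2 T.f3 = Sm L _ _ := (avm_avc (r := 1) 1 T.f3).trans (avm_one _)
  have h3 : avm L 3 T.f4 = Sm L _ _ := (avm_avc (r := 1) 2 T.f4).trans (avm_one _)
  rw [Ful, h1, h2, h3]
  unfold Ex
  simp only [Sm_add, Sm_sub, Sm_mul]
  ring

/-- **the two-edge term = same node + non-local part** -/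
theorem Ful_exp [Fintype Θ] {T : Tw} (H : T.Sy L.length) :
    Ful L T = Sm L (range (L.length + 1)) (SN L T) + NL L T / 2 := by
  have h := Ful_eq L T
  rw [Sm_congr L fun x hx => expS Θ L T H x (Nat.lt_succ_iff.1 (mem_range.1 hx)), Sm_add,
    Sm_mul] at h
  have : NL L T = Sm L (range (L.length + 1)) (NLx L T) := rfl
  simp only [Nat.succ_eq_add_one] at h
  linarith

theorem Lx_eq {x : ℕ} (hx : x ≤ L.length) (g : ℕ → ℝ) :
    Lx L x g = ∑ t ∈ Ico x (L.length + 2), wL L x t * g t := by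
  rw [sum_Ico_succ_top (by omega), sum_eq_sum_Ico_succ_bot (by omega),
    Finset.Ico_add_one_add_one_eq_Ioc, Lx, Lg, wL, wL, if_neg (by omega), if_pos rfl, if_pos rfl,
    sum_congr rfl (f := fun t => wL L x t * g t) (g := fun t => -(dm L 0 t * g t)) fun t ht => by
      have := mem_Ioc.1 ht
      rw [wL, if_neg (by omega), if_neg (by omega), neg_mul], sum_neg_distrib]
  ring

theorem sN_mul (T T' : Tw) (K x t t' : ℕ) :
    (T.mul T').sN K x t t' = T.sN K x t t' * T'.sN K x t t' := by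
  simp only [Tw.sN, Tw.mul]; split_ifs <;> rfl

theorem lo_mul (T T' : Tw) (K y x t : ℕ) :
    (T.mul T').lo K y x t = T.lo K y x t * T'.lo K y x t := by
  simp only [Tw.lo, Tw.mul]; split_ifs <;> rfl

theorem SN_eq {x : ℕ} (hx : x ≤ L.length) (T : Tw) : SN L T x = Gs L T x x x := by
  simp only [SN, Lx_eq L hx, Gs, Rect52.G2, mul_sum, mul_assoc]

/-- same node: tails of the coefficient `c` against the increments of `B` -/
theorem SN_abel {x : ℕ} (hx : x ≤ L.length) (c B : Tw) : SN L (c.mul B) x =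
    B.sN L.length x x x * Gs L c x x x +
      ∑ i ∈ Ico x (L.length + 1), (B.sN L.length x (i + 1) x - B.sN L.length x i x) *
        Gs L c x (i + 1) x +
      ∑ j ∈ Ico x (L.length + 1), (B.sN L.length x x (j + 1) - B.sN L.length x x j) *
        Gs L c x x (j + 1) +
      ∑ i ∈ Ico x (L.length + 1), ∑ j ∈ Ico x (L.length + 1),
        Rect52.mx (B.sN L.length x) i j * Gs L c x (i + 1) (j + 1) := by
  rw [SN_eq L hx, Gs, Rect52.G2]
  refine Eq.trans (sum_congr rfl fun t _ => sum_congr rfl fun t' _ => ?_)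
    (Rect52.abel2 (B.sN L.length x) (fun t t' => wL L x t * wL L x t' * c.sN L.length x t t')
      x (L.length + 2) x (L.length + 2))
  rw [sN_mul]; ring

end Crest.Agent.T156.Cas.Q75

end
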