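import Crest.Agent.T156.Q2A_75

/-!
# Row 156 (helper75): the non-local part of the two-edge term is small
-/

set_option autoImplicit false

noncomputable section

namespace Crest.Agent.T156.Cas.Q75

open Finset
open Crest.Agent.T157.E Crest.Agent.T157.Casc Crest.Agent.T157.SL
open Crest.Agent.T156.Rect52
open Nu87 Wt87

/-! ### double Abel summation on a square -/

theorem sq_bd (c B : ℕ → ℕ → ℝ) {j₁ a K : ℕ} (ha : j₁ ≤ a) {f f' s : ℕ → ℝ} {k0 k1 : ℝ}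
    (hf : ∀ y, 0 ≤ f y) (hf' : ∀ y, 0 ≤ f' y) (hs : ∀ i, 0 ≤ s i) (hk : 0 ≤ k1)
    (hG : ∀ x, a ≤ x → ∀ y, a ≤ y → |G2 B (K + 1) (K + 1) x y| ≤ f x * f' y) (h0 : |c a a| ≤ k0)
    (h1 : ∀ i, a ≤ i → i < K → |c (i + 1) a - c i a| ≤ k1 * s i ∧ |c a (i + 1) - c a i| ≤ k1 * s i)
    (hd : ∀ i, a ≤ i → i < K → |mx c i i| ≤ 2 * s i)
    (h2 : ∀ i j, a ≤ i → i < K → a ≤ j → j < K → i ≠ j → |mx c i j| ≤ s i * s j) :
    |∑ i ∈ Ico a (K + 1), ∑ j ∈ Ico a (K + 1), c i j * B i j| ≤ k0 * (f a * f' a) +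
      k1 * ((∑ i ∈ Ico j₁ K, s i * f (i + 1)) * f' a + f a * ∑ i ∈ Ico j₁ K, s i * f' (i + 1)) +
      (∑ i ∈ Ico j₁ K, s i * f (i + 1)) * (∑ i ∈ Ico j₁ K, s i * f' (i + 1)) +
      2 * ∑ i ∈ Ico j₁ K, s i * (f (i + 1) * f' (i + 1)) := by
  have H := abel2_le c B a (K + 1) a (K + 1) f f' (fun i => k1 * s i) (fun i => k1 * s i)
    (fun i j => s i * s j + if i = j then 2 * s i else 0) hG h0
    (fun i hi => (h1 i (mem_Ico.1 hi).1 (mem_Ico.1 hi).2).1)
    (fun i hi => (h1 i (mem_Ico.1 hi).1 (mem_Ico.1 hi).2).2) fun i hi j hj => by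
      by_cases e : i = j
      · subst e
        rw [if_pos rfl]
        exact (hd i (mem_Ico.1 hi).1 (mem_Ico.1 hi).2).trans
          (le_add_of_nonneg_left (mul_self_nonneg _))
      · rw [if_neg e, add_zero]
        exact h2 i j (mem_Ico.1 hi).1 (mem_Ico.1 hi).2 (mem_Ico.1 hj).1 (mem_Ico.1 hj).2 e
  rw [Nat.add_sub_cancel] at H
  have e3 : ∑ i ∈ Ico a K, ∑ j ∈ Ico a K,
        (s i * s j + if i = j then 2 * s i else 0) * (f (i + 1) * f' (j + 1))
      = (∑ i ∈ Ico a K, s i * f (i + 1)) * (∑ i ∈ Ico a K, s i * f' (i + 1))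
        + 2 * ∑ i ∈ Ico a K, s i * (f (i + 1) * f' (i + 1)) := by
    rw [sum_mul_sum, mul_sum, ← sum_add_distrib]
    refine sum_congr rfl fun i hi => ?_
    simp only [add_mul, sum_add_distrib, ite_mul, zero_mul, sum_ite_eq, hi, if_true]
    congr 1
    · exact sum_congr rfl fun j _ => by ring
    · ring
  simp only [mul_assoc k1, ← mul_sum] at H
  rw [e3] at H
  have sub : ∀ g : ℕ → ℝ, (∀ i, 0 ≤ g i) →
      ∑ i ∈ Ico a K, s i * g i ≤ ∑ i ∈ Ico j₁ K, s i * g i := fun g hg =>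
    sum_le_sum_of_subset_of_nonneg (Ico_subset_Ico_left ha) fun i _ _ => mul_nonneg (hs i) (hg i)
  have s1 := sub _ fun i => hf (i + 1)
  have s2 := sub _ fun i => hf' (i + 1)
  have s3 := sub _ fun i => mul_nonneg (hf (i + 1)) (hf' (i + 1))
  have n1 : 0 ≤ ∑ i ∈ Ico a K, s i * f (i + 1) := sum_nonneg fun i _ => mul_nonneg (hs i) (hf _)
  have n2 : 0 ≤ ∑ i ∈ Ico a K, s i * f' (i + 1) := sum_nonneg fun i _ => mul_nonneg (hs i) (hf' _)
  have p1 := mul_le_mul_of_nonneg_left (mul_le_mul_of_nonneg_right s1 (hf' a)) hk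
  have p2 := mul_le_mul_of_nonneg_left (mul_le_mul_of_nonneg_left s2 (hf a)) hk
  have p3 := mul_le_mul s1 s2 n2 (n1.trans s1)
  nlinarith

/-! ### legs -/

section legs
variable {Θ : Type} {L : List (Lv Θ)}

theorem sum_Ioc_dm {x : ℕ} (hx : x ≤ L.length) : ∑ t ∈ Ioc x L.length, dm L 0 t = 1 - ex L x := by
  have h1 := sum_dm L 0 L.length
  have h2 := sum_dm L 0 x
  rw [ex_length] at h1
  rw [range_eq_Ico] at h1 h2
  rw [← Finset.Ico_add_one_add_one_eq_Ioc, eq_sub_iff_add_eq, ← sub_zero (ex L x), ← h2, add_comm,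
    sum_Ico_consecutive _ (by omega) (by omega), h1, sub_zero]

theorem abs_Sm_le (hL : Mono 0 L) {A : Finset ℕ} {g : ℕ → ℝ} {b : ℝ} (h : ∀ t ∈ A, |g t| ≤ b) :
    |Sm L A g| ≤ (∑ t ∈ A, dm L 0 t) * b := by
  rw [sum_mul]
  refine (abs_sum_le_sum_abs _ _).trans (sum_le_sum fun t ht => ?_)
  rw [abs_mul, abs_of_nonneg (dm_nonneg hL t)]
  exact mul_le_mul_of_nonneg_left (h t ht) (dm_nonneg hL t)

theorem abs_Lg_le (hL : Mono 0 L) {x : ℕ} (hx : x ≤ L.length) {g : ℕ → ℝ} {b : ℝ}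
    (h : ∀ t, x < t → t ≤ L.length + 1 → |g t| ≤ b) : |Lg L x g| ≤ (2 - ex L x) * b := by
  have h1 := abs_Sm_le hL (A := Ioc x L.length) (g := g) fun t ht =>
    h t (mem_Ioc.1 ht).1 ((mem_Ioc.1 ht).2.trans (Nat.le_succ _))
  rw [sum_Ioc_dm hx] at h1
  have h2 := h _ (Nat.lt_succ_of_le hx) le_rfl
  rw [Lg_eq]
  exact (abs_sub _ _).trans (by linarith)

theorem abs_Lx_le (hL : Mono 0 L) {x : ℕ} (hx : x ≤ L.length) {g : ℕ → ℝ} {b : ℝ}
    (h : ∀ t, x ≤ t → t ≤ L.length + 1 → |g t| ≤ b) : |Lx L x g| ≤ 2 * b := by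
  have h1 := abs_Lg_le hL hx fun t h1 h2 => h t h1.le h2
  have h2 := mul_le_mul_of_nonneg_left (h x le_rfl (hx.trans (Nat.le_succ _))) (ex_nonneg hL x)
  rw [Lx]
  refine (abs_sub _ _).trans ?_
  rw [abs_mul, abs_of_nonneg (ex_nonneg hL x)]
  linarith

theorem abs_LL_le (hL : Mono 0 L) {u x : ℕ} (hu : u ≤ x) (hx : x ≤ L.length) {g : ℕ → ℝ} {b : ℝ}
    (h : ∀ t, u ≤ t → t ≤ L.length + 1 → |g t| ≤ b) : |Lg L u g + Lx L x g| ≤ 4 * b := by
  have h1 := abs_Lg_le hL (hu.trans hx) fun t h1 h2 => h t h1.le h2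
  have h2 := abs_Lx_le hL hx fun t h1 h2 => h t (hu.trans h1) h2
  have h3 := mul_nonneg (ex_nonneg hL u) ((abs_nonneg _).trans (h u le_rfl (by omega)))
  exact (abs_add_le _ _).trans (by linarith)

theorem Lg_congr {x : ℕ} (hx : x ≤ L.length) {g g' : ℕ → ℝ}
    (h : ∀ t, x < t → t ≤ L.length + 1 → g t = g' t) : Lg L x g = Lg L x g' := by
  rw [Lg_eq, Lg_eq, h _ (Nat.lt_succ_of_le hx) le_rfl,
    Sm_congr L fun t ht => h t (mem_Ioc.1 ht).1 ((mem_Ioc.1 ht).2.trans (Nat.le_succ _))]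

theorem Lx_congr {x : ℕ} (hx : x ≤ L.length) {g g' : ℕ → ℝ}
    (h : ∀ t, x ≤ t → t ≤ L.length + 1 → g t = g' t) : Lx L x g = Lx L x g' := by
  rw [Lx, Lx, Lg_congr hx fun t h1 h2 => h t h1.le h2, h x le_rfl (hx.trans (Nat.le_succ _))]

theorem Lg_add (x : ℕ) (g g' : ℕ → ℝ) :
    Lg L x (fun t => g t + g' t) = Lg L x g + Lg L x g' := by simp only [Lg_eq, Sm_add]; ring

theorem Lx_add (x : ℕ) (g g' : ℕ → ℝ) :
    Lx L x (fun t => g t + g' t) = Lx L x g + Lx L x g' := by simp only [Lx, Lg_add]; ring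

theorem Lg_mul (x : ℕ) (c : ℝ) (g : ℕ → ℝ) : Lg L x (fun t => c * g t) = c * Lg L x g := by
  simp only [Lg_eq, Sm_mul]; ring

theorem Lx_mul (x : ℕ) (c : ℝ) (g : ℕ → ℝ) : Lx L x (fun t => c * g t) = c * Lx L x g := by
  simp only [Lx, Lg_mul]; ring

theorem Lg_sum (x : ℕ) (A : Finset ℕ) (g : ℕ → ℕ → ℝ) :
    Lg L x (fun t => ∑ u ∈ A, g u t) = ∑ u ∈ A, Lg L x (g u) := by
  simp only [Lg, sum_sub_distrib, mul_sum]; rw [sum_comm]

theorem Lx_sum (x : ℕ) (A : Finset ℕ) (g : ℕ → ℕ → ℝ) :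
    Lx L x (fun t => ∑ u ∈ A, g u t) = ∑ u ∈ A, Lx L x (g u) := by
  simp only [Lx, Lg_sum, sum_sub_distrib, mul_sum]

theorem Lg_cut {y u : ℕ} (hy : y ≤ u) (hu : u ≤ L.length) (g : ℕ → ℝ) :
    Lg L y (fun t => if u < t then g t else 0) = Lg L u g := by
  rw [Lg, Lg, if_pos (by omega)]
  congr 1
  simp only [mul_ite, mul_zero]
  rw [← sum_filter]
  refine sum_congr ?_ fun _ _ => rfl
  ext t
  simp only [mem_filter, mem_Ioc]
  omega

theorem LO_congr {T T' : Tw} {y x y' x' : ℕ} {κ : ℝ} (hy : y ≤ x) (hx : x ≤ L.length)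
    (h : ∀ t, y ≤ t → t ≤ L.length + 1 → T.lo L.length y x t = κ * T'.lo L.length y' x' t)
    (e : y' = y) (e' : x' = x) : LO L T y x = κ * LO L T' y x := by
  subst e e'
  rw [LO, LO, cP, cP, Lg_congr (hy.trans hx) fun t h1 h2 => h t h1.le h2,
    Lx_congr hx fun t h1 h2 => h t (hy.trans h1) h2, h _ le_rfl (by omega), Lg_mul, Lx_mul]
  ring

theorem Tw.Eqv.lo {T T' : Tw} {K y x t : ℕ} (H : T.Eqv T' K) (hy : y ≤ x) (hx : x ≤ K)
    (h1 : y ≤ t) (h2 : t ≤ K + 1) : T.lo K y x t = T'.lo K y x t := by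
  unfold Tw.lo
  split_ifs with h
  · exact H.2.1 _ (rz_lo3 hx hy)
  · exact H.2.2 _ (rz_lo4 hx hy h1 (by omega))

theorem wt_lo (φ ψ : ℕ → ℝ) (K y x t : ℕ) : (wt φ ψ).lo K y x t = φ x * ψ y := by
  unfold Tw.lo; split_ifs <;> rfl

theorem wt_tr_lo (φ ψ : ℕ → ℝ) (K y x t : ℕ) : (wt φ ψ).tr.lo K x y t = φ x * ψ y := by
  rw [tr_lo]; split_ifs <;> rfl

end legs

/-! ### martingale transforms -/

section mart
variable {K : ℕ} {B : Tw} {V : Type} [AddCommGroup V] [Module ℝ V]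
  {ip : LinearMap.BilinForm ℝ V} {δ : ℕ → V} {π : ℕ → ℕ → V} {P : ℕ → V →ₗ[ℝ] V} {a : ℕ → ℝ}

theorem Bs.cs (H : Bs K B ip δ π P a) {u v : V} {α β : ℝ} (hα : 0 ≤ α) (hβ : 0 ≤ β)
    (hu : ip u u ≤ α ^ 2) (hv : ip v v ≤ β ^ 2) : |ip u v| ≤ α * β := by
  have := LinearMap.BilinForm.apply_sq_le_of_symm ip H.pos ⟨fun x y => H.sym x y⟩ u v
  refine abs_le_of_sq_le_sq' ?_ (mul_nonneg hα hβ) |> abs_le.2
  rw [mul_pow]
  exact this.trans (mul_le_mul hu hv (H.pos v) (sq_nonneg _))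

theorem Bs.step (H : Bs K B ip δ π P a) {y n : ℕ} (hy : y ≤ n) (hn : n < K) :
    ip (π y (n + 1)) (π y (n + 1)) =
      ip (π y n) (π y n) + ip (π y (n + 1) - π y n) (π y (n + 1) - π y n) := by
  have h := H.or2 y n n hy le_rfl hn
  have h2 := H.sym (π y (n + 1)) (π y n)
  simp only [map_sub, LinearMap.sub_apply] at h ⊢
  linarith

theorem Bs.pi_le (H : Bs K B ip δ π P a) {y n : ℕ} (hy : y ≤ n) (hn : n ≤ K) :
    ip (π y n) (π y n) ≤ a y ^ 2 := by
  have : ∀ m, n ≤ m → m ≤ K → ip (π y n) (π y n) ≤ ip (π y m) (π y m) := fun m hm => by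
    induction m, hm using Nat.le_induction with
    | base => exact fun _ => le_rfl
    | succ m hm ih =>
      intro h
      rw [H.step (hy.trans hm) h]
      exact (ih (by omega)).trans (le_add_of_nonneg_right (H.pos _))
  exact (this K hn le_rfl).trans (H.pia y (hy.trans hn))

theorem Bs.mart (H : Bs K B ip δ π P a) {y n : ℕ} (hy : y ≤ n) (hn : n ≤ K) {c : ℕ → ℝ} {κ : ℝ}
    (hc : ∀ u, y ≤ u → u < n → |c u| ≤ κ) :
    ip (∑ u ∈ Ico y n, c u • (π y (u + 1) - π y u)) (∑ u ∈ Ico y n, c u • (π y (u + 1) - π y u)) ≤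
      (κ * a y) ^ 2 := by
  have : ip (∑ u ∈ Ico y n, c u • (π y (u + 1) - π y u))
      (∑ u ∈ Ico y n, c u • (π y (u + 1) - π y u)) ≤ κ ^ 2 * ip (π y n) (π y n) := by
    induction n, hy using Nat.le_induction with
    | base => simpa using mul_nonneg (sq_nonneg κ) (H.pos _)
    | succ n hy ih =>
      have h0 : ip (∑ u ∈ Ico y n, c u • (π y (u + 1) - π y u)) (π y (n + 1) - π y n) = 0 := by
        rw [map_sum, LinearMap.sum_apply]
        refine sum_eq_zero fun u hu => ?_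
        have := mem_Ico.1 hu
        rw [map_smul, LinearMap.smul_apply, map_sub ip, LinearMap.sub_apply,
          H.or2 y n (u + 1) (by omega) (by omega) hn, H.or2 y n u this.1 this.2.le hn, sub_self,
          smul_zero]
      have h1 := ih (by omega) fun u h1 h2 => hc u h1 (by omega)
      have h2 : c n ^ 2 ≤ κ ^ 2 := sq_le_sq' (abs_le.1 (hc n hy (by omega))).1
        (abs_le.1 (hc n hy (by omega))).2
      have h3 := mul_le_mul_of_nonneg_right h2 (H.pos (π y (n + 1) - π y n))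
      rw [sum_Ico_succ_top hy, H.step hy hn]
      generalize ∑ u ∈ Ico y n, c u • (π y (u + 1) - π y u) = S at *
      generalize π y (n + 1) - π y n = d at *
      have h4 := H.sym d S
      simp only [map_add, map_smul, LinearMap.add_apply, LinearMap.smul_apply, smul_eq_mul, h0, h4]
      nlinarith
  rw [mul_pow]
  exact this.trans (mul_le_mul_of_nonneg_left (H.pi_le hy hn) (sq_nonneg _))

end mart

/-! ### the bound -/

/-- the hypotheses of the non-local bound -/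
structure NH {Θ : Type} (L : List (Lv Θ)) (c B : Tw) (j₁ : ℕ) (c₀ : ℝ) (p s a : ℕ → ℝ)
    (b : ℕ → ℕ → ℝ) {V : Type} [AddCommGroup V] [Module ℝ V] (ip : LinearMap.BilinForm ℝ V)
    (δ : ℕ → V) (π : ℕ → ℕ → V) (P : ℕ → V →ₗ[ℝ] V) : Prop where
  mono : Mono 0 L
  ctr : c.tr.Eqv c L.length
  btr : B.tr.Eqv B L.length
  reg : Reg L c j₁ c₀ p s
  bs : Bs L.length B ip δ π P a
  lo3 : ∀ y x t, y ≤ x → x < t → t ≤ L.length + 1 → x ≤ L.length →
    |B.lo L.length y x t - (ip (δ x) (δ y) + ip (δ x) (π y x))| ≤ b y x * a x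
  b0 : ∀ y x, 0 ≤ b y x
  c1 : 1 ≤ c₀
  pc : p j₁ ≤ c₀
  p0 : ∀ y, 0 ≤ p y
  ds : ∀ i, dm L 0 i ≤ s i
  low : ∑ z ∈ range j₁, dm L 0 z ≤ p j₁

/-- a weight on the labels above the cut with the norms `f` of its tails -/
structure Wf {Θ : Type} (L : List (Lv Θ)) (j₁ : ℕ) {V : Type} [AddCommGroup V] [Module ℝ V]
    (ip : LinearMap.BilinForm ℝ V) (δ : ℕ → V) (φ f : ℕ → ℝ) : Prop where
  le : ∀ x, |φ x| ≤ 1
  lw : ∀ x < j₁, φ x = 0
  nn : ∀ y, 0 ≤ f y
  tl : ∀ y, j₁ ≤ y → ip (∑ x ∈ Ico y (L.length + 1), (dm L 0 x * φ x) • δ x)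
    (∑ x ∈ Ico y (L.length + 1), (dm L 0 x * φ x) • δ x) ≤ f y ^ 2

/-- the error of the non-local part -/
def Er2 {Θ : Type} (L : List (Lv Θ)) (j₁ : ℕ) (p s a : ℕ → ℝ) (b : ℕ → ℕ → ℝ) (f f' : ℕ → ℝ) : ℝ :=
  p j₁ * (f j₁ ^ 2 + f' j₁ ^ 2) + ((∑ i ∈ Ico j₁ L.length, s i * f (i + 1)) ^ 2 +
    (∑ i ∈ Ico j₁ L.length, s i * f' (i + 1)) ^ 2) +
    ∑ i ∈ Ico j₁ L.length, s i * (f (i + 1) ^ 2 + f' (i + 1) ^ 2) +
    ∑ y ∈ Ico j₁ (L.length + 1), dm L 0 y * (p y * a y) ^ 2 +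
    ∑ x ∈ Ico j₁ (L.length + 1), ∑ y ∈ Ico j₁ (x + 1), dm L 0 x * dm L 0 y * (p y * (b y x * a x))

section main
variable {Θ : Type} {L : List (Lv Θ)} {c B : Tw} {j₁ : ℕ} {c₀ : ℝ} {p s a φ ψ f f' : ℕ → ℝ}
  {b : ℕ → ℕ → ℝ} {V : Type} [AddCommGroup V] [Module ℝ V] {ip : LinearMap.BilinForm ℝ V}
  {δ : ℕ → V} {π : ℕ → ℕ → V} {P : ℕ → V →ₗ[ℝ] V}

theorem NH.s0 (H : NH L c B j₁ c₀ p s a b ip δ π P) (i : ℕ) : 0 ≤ s i :=
  (dm_nonneg H.mono i).trans (H.ds i)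

/-- the martingale part -/
def Pt (L : List (Lv Θ)) (c : Tw) (ip : LinearMap.BilinForm ℝ V) (δ : ℕ → V) (π : ℕ → ℕ → V)
    (y x : ℕ) : ℝ := ∑ u ∈ Ico y x, cP L c y u x * ip (δ x) (π y (u + 1) - π y u)

theorem NH.lo_dec (H : NH L c B j₁ c₀ p s a b ip δ π P) {y x : ℕ} (h1 : j₁ ≤ y) (hy : y ≤ x)
    (hx : x ≤ L.length) : |LO L (c.mul B) y x - (LO L c y x * ip (δ x) (δ y) -
      2 * Pt L c ip δ π y x)| ≤ 8 * (p y * (b y x * a x)) := by
  set Y : ℕ → ℝ := fun t => B.lo L.length y x t - (ip (δ x) (δ y) + ip (δ x) (π y (min t x)))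
  have hY : ∀ t, y ≤ t → t ≤ L.length + 1 → |c.lo L.length y x t * Y t| ≤ p y * (b y x * a x) :=
    fun t h2 h3 => by
      rw [abs_mul]
      refine mul_le_mul (H.reg.l0 y x t h1 hy hx h2 h3) ?_ (abs_nonneg _) (H.p0 y)
      rcases le_or_gt t x with h | h
      · simp only [Y, min_eq_left h, H.bs.lo1 y x t h2 h hx, sub_self, abs_zero]
        exact mul_nonneg (H.b0 y x) (H.bs.a0 x)
      · simp only [Y, min_eq_right h.le]
        exact H.lo3 y x t hy h h3 hx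
  have e : ∀ t, y ≤ t → (c.mul B).lo L.length y x t =
      ip (δ x) (δ y) * c.lo L.length y x t + ∑ u ∈ Ico y x, ip (δ x) (π y (u + 1) - π y u) *
        (if u < t then c.lo L.length y x t else 0) + c.lo L.length y x t * Y t := fun t ht => by
    have : ∑ u ∈ Ico y x, ip (δ x) (π y (u + 1) - π y u) *
        (if u < t then c.lo L.length y x t else 0) =
        ip (δ x) (π y (min t x)) * c.lo L.length y x t := by
      simp only [mul_ite, mul_zero]
      rw [← sum_filter, ← sum_mul, ← map_sum, show filter (· < t) (Ico y x) = Ico y (min t x) by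
        ext u; simp only [mem_filter, mem_Ico]; omega,
        sum_Ico_sub (π y) (le_min ht hy), H.bs.pi0, sub_zero]
    rw [lo_mul, this]
    simp only [Y]
    ring
  have e1 : cP L (c.mul B) y y x = ip (δ x) (δ y) * cP L c y y x + Pt L c ip δ π y x +
      (Lg L y (fun t => c.lo L.length y x t * Y t) + Lx L x fun t => c.lo L.length y x t * Y t) := by
    rw [cP, Lg_congr (hy.trans hx) fun t h _ => e t h.le, Lx_congr hx fun t h _ => e t (hy.trans h),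
      Lg_add, Lg_add, Lx_add, Lx_add, Lg_mul, Lx_mul, Lg_sum, Lx_sum, Pt, cP,
      sum_congr rfl (g := fun u => ip (δ x) (π y (u + 1) - π y u) * Lg L u (c.lo L.length y x))
        fun u hu => by
          rw [Lg_mul, Lg_cut (mem_Ico.1 hu).1 ((mem_Ico.1 hu).2.le.trans hx)],
      sum_congr rfl (f := fun u => Lx L x _)
        (g := fun u => ip (δ x) (π y (u + 1) - π y u) * Lx L x (c.lo L.length y x)) fun u hu => by
          rw [Lx_mul, Lx_congr hx fun t h _ => if_pos ((mem_Ico.1 hu).2.trans_le h)]]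
    simp only [cP, add_mul, sum_add_distrib, mul_comm (ip (δ x) (π y _ - π y _))]
    ring
  have e2 : (c.mul B).lo L.length y x y = c.lo L.length y x y * ip (δ x) (δ y) := by
    rw [lo_mul, H.bs.lo1 y x y le_rfl hy hx, H.bs.pi0, map_zero, add_zero]
  have h := abs_LL_le H.mono hy hx hY
  rw [LO, LO, e1, e2]
  rw [abs_le] at h ⊢
  constructor <;> nlinarith [h.1, h.2]

theorem NH.pi_bd (H : NH L c B j₁ c₀ p s a b ip δ π P) (W : Wf L j₁ ip δ φ f) {y : ℕ}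
    (h1 : j₁ ≤ y) (hy : y ≤ L.length) :
    |∑ x ∈ Ico y (L.length + 1), dm L 0 x * φ x * Pt L c ip δ π y x| ≤
      p y * a y * (4 * f (y + 1) + ∑ i ∈ Ico j₁ L.length, s i * f (i + 1)) := by
  set F : ℕ → V := fun y => ∑ x ∈ Ico y (L.length + 1), (dm L 0 x * φ x) • δ x with hF
  set d : ℕ → V := fun u => π y (u + 1) - π y u with hd
  have e0 : ∀ u v, ∑ x ∈ Ico v (L.length + 1), dm L 0 x * φ x * ip (δ x) (d u) = ip (F v) (d u) :=
    fun u v => by simp only [hF, map_sum, LinearMap.sum_apply, map_smul, LinearMap.smul_apply,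
      smul_eq_mul]
  have e1 : ∑ x ∈ Ico y (L.length + 1), dm L 0 x * φ x * Pt L c ip δ π y x =
      ∑ u ∈ Ico y L.length, (cP L c y u (u + 1) * ip (F (u + 1)) (d u) +
        ∑ j ∈ Ico (u + 1) L.length, (cP L c y u (j + 1) - cP L c y u j) * ip (F (j + 1)) (d u)) := by
    simp only [Pt, mul_sum]
    rw [← sum_Ico_Ico_comm', sum_Ico_succ_top hy, Ico_self, sum_empty, add_zero]
    refine sum_congr rfl fun u _ => ?_
    have := abel_id' (cP L c y u) (fun x => dm L 0 x * φ x * ip (δ x) (d u)) (u + 1) (L.length + 1)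
    simp only [e0, Nat.add_sub_cancel] at this
    rw [← this]
    exact sum_congr rfl fun x _ => by ring
  have e2 : ∀ u ∈ Ico y L.length, ip (F (u + 1)) (d u) = ip (F (y + 1)) (d u) := fun u hu => by
    have hu' := mem_Ico.1 hu
    rw [← e0, ← e0, ← sum_Ico_consecutive _ (show y + 1 ≤ u + 1 by omega)
      (show u + 1 ≤ L.length + 1 by omega), sum_eq_zero (s := Ico (y + 1) (u + 1)) fun v hv => by
        rw [H.bs.or1 y u v hu'.1 hu'.2 (by have := mem_Ico.1 hv; omega), mul_zero], zero_add]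
  have pa := mul_nonneg (H.p0 y) (H.bs.a0 y)
  have b1 : |∑ u ∈ Ico y L.length, cP L c y u (u + 1) * ip (F (u + 1)) (d u)| ≤
      f (y + 1) * (4 * p y * a y) := by
    rw [sum_congr rfl fun u hu => by rw [e2 u hu, ← smul_eq_mul, ← map_smul], ← map_sum]
    refine H.bs.cs (W.nn _) (by linarith) (W.tl _ (by omega)) (H.bs.mart hy le_rfl fun u h2 h3 => ?_)
    have g := fun t h4 h5 => H.reg.l0 y (u + 1) t h1 (by omega) h3 h4 h5
    exact abs_LL_le H.mono (Nat.le_succ u) h3 fun t h4 h5 => g t (h2.trans h4) h5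
  have b2 : |∑ u ∈ Ico y L.length, ∑ j ∈ Ico (u + 1) L.length,
      (cP L c y u (j + 1) - cP L c y u j) * ip (F (j + 1)) (d u)| ≤
      p y * a y * ∑ i ∈ Ico j₁ L.length, s i * f (i + 1) := by
    rw [sum_Ico_Ico_comm', mul_sum]
    refine (abs_sum_le_sum_abs _ _).trans ((sum_le_sum fun j hj => ?_).trans
      (sum_le_sum_of_subset_of_nonneg (Ico_subset_Ico_left h1) fun i _ _ =>
        mul_nonneg pa (mul_nonneg (H.s0 i) (W.nn _))))
    have hj' := mem_Ico.1 hj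
    rw [sum_congr rfl fun u _ => by rw [← smul_eq_mul, ← map_smul], ← map_sum]
    refine (H.bs.cs (W.nn _) (mul_nonneg (mul_nonneg (H.p0 y) (H.s0 j)) (H.bs.a0 y))
      (W.tl _ (by omega)) (H.bs.mart hj'.1 hj'.2.le fun u h2 h3 =>
        H.reg.p1 y u j h1 h2 h3 hj'.2)).trans_eq (by ring)
  rw [e1, sum_add_distrib]
  exact (abs_add_le _ _).trans (by linarith)

theorem sum_cut {g : ℕ → ℝ} {j : ℕ} (h : ∀ x < j, g x = 0) (u n : ℕ) :
    ∑ x ∈ Ico u n, g x = ∑ x ∈ Ico (max u j) n, g x :=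
  (sum_subset (Ico_subset_Ico_left (le_max_left _ _)) fun x h1 h2 => h x (by
    rw [mem_Ico] at h1 h2; omega)).symm

theorem Wf.abs_le (W : Wf L j₁ ip δ φ f) (hL : Mono 0 L) (x : ℕ) : |dm L 0 x * φ x| ≤ dm L 0 x := by
  rw [abs_mul, abs_of_nonneg (dm_nonneg hL x)]
  exact mul_le_of_le_one_right (dm_nonneg hL x) (W.le x)

theorem sum_dm_le_one (hL : Mono 0 L) {A : Finset ℕ} (hA : A ⊆ range (L.length + 1)) :
    ∑ t ∈ A, dm L 0 t ≤ 1 := by
  have h1 := sum_dm L 0 L.length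
  rw [ex_length, sub_zero] at h1
  exact h1 ▸ sum_le_sum_of_subset_of_nonneg hA fun i _ _ => dm_nonneg hL i

theorem NH.pi_sum (H : NH L c B j₁ c₀ p s a b ip δ π P) (W : Wf L j₁ ip δ φ f)
    (W' : Wf L j₁ ip δ ψ f') :
    2 * |∑ y ∈ Ico j₁ (L.length + 1), dm L 0 y * ψ y *
      ∑ x ∈ Ico y (L.length + 1), dm L 0 x * φ x * Pt L c ip δ π y x| ≤
      5 * ∑ y ∈ Ico j₁ (L.length + 1), dm L 0 y * (p y * a y) ^ 2 +
      4 * ∑ i ∈ Ico j₁ L.length, s i * f (i + 1) ^ 2 +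
      (∑ i ∈ Ico j₁ L.length, s i * f (i + 1)) ^ 2 := by
  set A := ∑ i ∈ Ico j₁ L.length, s i * f (i + 1)
  have d0 := dm_nonneg H.mono
  rw [← sum_subset (Ico_subset_Ico_right (Nat.le_succ L.length)) fun y h1 h2 => by
    rw [mem_Ico] at h1 h2
    rw [show y = L.length by omega, sum_Ico_succ_top le_rfl, Pt, Ico_self, sum_empty, sum_empty]
    ring]
  have h1 : ∑ y ∈ Ico j₁ L.length, dm L 0 y * (p y * a y) ^ 2 ≤
      ∑ y ∈ Ico j₁ (L.length + 1), dm L 0 y * (p y * a y) ^ 2 :=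
    sum_le_sum_of_subset_of_nonneg (Ico_subset_Ico_right (Nat.le_succ _))
      fun i _ _ => mul_nonneg (d0 i) (sq_nonneg _)
  have h2 := mul_le_mul_of_nonneg_right (sum_dm_le_one H.mono (A := Ico j₁ L.length)
    fun i hi => mem_range.2 ((mem_Ico.1 hi).2.trans (Nat.lt_succ_self _))) (sq_nonneg A)
  have h3 : 2 * |∑ y ∈ Ico j₁ L.length, dm L 0 y * ψ y *
      ∑ x ∈ Ico y (L.length + 1), dm L 0 x * φ x * Pt L c ip δ π y x| ≤
      ∑ y ∈ Ico j₁ L.length, (5 * (dm L 0 y * (p y * a y) ^ 2) + 4 * (s y * f (y + 1) ^ 2) +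
        dm L 0 y * A ^ 2) := by
    refine (mul_le_mul_of_nonneg_left (abs_sum_le_sum_abs _ _) zero_le_two).trans ?_
    rw [mul_sum]
    refine sum_le_sum fun y hy => ?_
    have k1 := mul_le_mul (W'.abs_le H.mono y) (H.pi_bd W (mem_Ico.1 hy).1 (mem_Ico.1 hy).2.le)
      (abs_nonneg _) (d0 y)
    have k2 := mul_le_mul_of_nonneg_right (H.ds y) (sq_nonneg (f (y + 1)))
    have k3 := mul_nonneg (d0 y) (sq_nonneg (p y * a y - f (y + 1)))
    have k4 := mul_nonneg (d0 y) (sq_nonneg (p y * a y - A))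
    rw [abs_mul]
    nlinarith
  simp only [sum_add_distrib, ← mul_sum, ← sum_mul] at h3
  linarith

theorem G2_ip {ip' : LinearMap.BilinForm ℝ V} (u v : ℕ → V) (α β : ℕ → ℝ) (n x y : ℕ) :
    G2 (fun i j => α i * β j * ip' (u i) (v j)) n n x y =
      ip' (∑ i ∈ Ico x n, α i • u i) (∑ j ∈ Ico y n, β j • v j) := by
  simp only [G2, map_sum, LinearMap.sum_apply, map_smul, LinearMap.smul_apply, smul_eq_mul,
    mul_sum]
  rw [sum_comm]
  exact sum_congr rfl fun _ _ => sum_congr rfl fun _ _ => by ring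

theorem NH.off_bd (H : NH L c B j₁ c₀ p s a b ip δ π P) (W : Wf L j₁ ip δ φ f)
    (W' : Wf L j₁ ip δ ψ f') (z : ℕ) :
    |∑ x ∈ Ico (z + 1) (L.length + 1), ∑ k ∈ Ico (z + 1) (L.length + 1),
      dm L 0 x * φ x * (dm L 0 k * ψ k) * (c.off L.length z x k * B.off L.length z x k)| ≤
      c₀ * (f (max (z + 1) j₁) ^ 2 + f' (max (z + 1) j₁) ^ 2) +
      ((∑ i ∈ Ico j₁ L.length, s i * f (i + 1)) ^ 2 + (∑ i ∈ Ico j₁ L.length, s i * f' (i + 1)) ^ 2) +
      ∑ i ∈ Ico j₁ L.length, s i * (f (i + 1) ^ 2 + f' (i + 1) ^ 2) := by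
  have m1 := le_max_left (z + 1) j₁
  have m2 := le_max_right (z + 1) j₁
  rw [sum_cut (j := j₁) fun x hx => by simp [W.lw x hx],
    sum_congr rfl fun x _ => sum_cut (j := j₁) (fun k hk => by simp [W'.lw k hk]) _ _]
  have A3 : 2 * ∑ i ∈ Ico j₁ L.length, s i * (f (i + 1) * f' (i + 1)) ≤
      ∑ i ∈ Ico j₁ L.length, s i * (f (i + 1) ^ 2 + f' (i + 1) ^ 2) := by
    rw [mul_sum]
    exact sum_le_sum fun i _ => by
      nlinarith [mul_nonneg (H.s0 i) (sq_nonneg (f (i + 1) - f' (i + 1)))]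
  generalize max (z + 1) j₁ = m at *
  rcases le_or_gt m L.length with hm | hm
  swap
  · rw [Ico_eq_empty (by omega), sum_empty, abs_zero]
    have := H.c1
    have : 0 ≤ ∑ i ∈ Ico j₁ L.length, s i * (f (i + 1) ^ 2 + f' (i + 1) ^ 2) :=
      sum_nonneg fun i _ => mul_nonneg (H.s0 i) (by positivity)
    positivity
  have h := sq_bd (c.off L.length z) (fun i j => dm L 0 i * φ i * (dm L 0 j * ψ j) *
      ip (P z (δ i)) (P z (δ j))) m2 W.nn W'.nn H.s0 zero_le_one (K := L.length) (k0 := c₀)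
    (fun x hx y hy => by
      rw [G2_ip]
      simp only [← map_smul (P z), ← map_sum (P z)]
      exact H.bs.cs (W.nn _) (W'.nn _) ((H.bs.con _ _).trans (W.tl x (m2.trans hx)))
        ((H.bs.con _ _).trans (W'.tl y (m2.trans hy))))
    (H.reg.o0 z m m m1 m1 m2 m2 hm hm)
    (fun i h1 h2 => by
      rw [one_mul]; exact H.reg.o1 z i m (by omega) m1 (by omega) m2 h2 hm)
    (fun i h1 h2 => by
      have k1 := (H.reg.o1 z i (i + 1) (by omega) (by omega) (by omega) (by omega) h2 h2).1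
      have k2 := (H.reg.o1 z i i (by omega) (by omega) (by omega) (by omega) h2 h2.le).1
      rw [mx, abs_le] at *
      constructor <;> linarith [k1.1, k1.2, k2.1, k2.2])
    fun i j h1 h2 h3 h4 h5 => H.reg.o2 z i j (by omega) (by omega) (by omega) (by omega) h2 h4 h5
  rw [sum_congr rfl fun x hx => sum_congr rfl fun k hk => by
    rw [H.bs.off z x k (by have := mem_Ico.1 hx; omega) (by have := mem_Ico.1 hk; omega)
      (by have := mem_Ico.1 hx; omega) (by have := mem_Ico.1 hk; omega), mul_left_comm]]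
  refine h.trans ?_
  have c1 := H.c1
  have k1 := mul_nonneg (sub_nonneg.2 c1) (sq_nonneg (f m))
  have k2 := mul_nonneg (sub_nonneg.2 c1) (sq_nonneg (f' m))
  have k3 := mul_nonneg (zero_le_one.trans c1) (sq_nonneg (f m - f' m))
  generalize ∑ i ∈ Ico j₁ L.length, s i * f (i + 1) = A1 at *
  generalize ∑ i ∈ Ico j₁ L.length, s i * f' (i + 1) = A2 at *
  nlinarith [sq_nonneg (A1 - f' m), sq_nonneg (A2 - f m), sq_nonneg (A1 - A2)]

theorem NH.off_sum (H : NH L c B j₁ c₀ p s a b ip δ π P) (W : Wf L j₁ ip δ φ f)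
    (W' : Wf L j₁ ip δ ψ f') :
    |∑ z ∈ range L.length, dm L 0 z * ∑ x ∈ Ico (z + 1) (L.length + 1),
      ∑ k ∈ Ico (z + 1) (L.length + 1),
      dm L 0 x * φ x * (dm L 0 k * ψ k) * (c.off L.length z x k * B.off L.length z x k)| ≤
      c₀ * (p j₁ * (f j₁ ^ 2 + f' j₁ ^ 2)) +
      ((∑ i ∈ Ico j₁ L.length, s i * f (i + 1)) ^ 2 + (∑ i ∈ Ico j₁ L.length, s i * f' (i + 1)) ^ 2) +
      2 * c₀ * ∑ i ∈ Ico j₁ L.length, s i * (f (i + 1) ^ 2 + f' (i + 1) ^ 2) := by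
  have d0 := dm_nonneg H.mono
  have c1 := H.c1
  set g : ℕ → ℝ := fun y => f y ^ 2 + f' y ^ 2 with hg
  have g0 : ∀ y, 0 ≤ g y := fun y => by positivity
  have E0 : 0 ≤ ∑ i ∈ Ico j₁ L.length, s i * g (i + 1) :=
    sum_nonneg fun i _ => mul_nonneg (H.s0 i) (g0 _)
  have h1 : ∑ z ∈ range L.length, dm L 0 z * g (max (z + 1) j₁) ≤
      p j₁ * g j₁ + ∑ i ∈ Ico j₁ L.length, s i * g (i + 1) := by
    have : range L.length ⊆ range j₁ ∪ Ico j₁ L.length := fun i hi => by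
      simp only [mem_union, mem_range, mem_Ico] at hi ⊢; omega
    refine (sum_le_sum_of_subset_of_nonneg this fun i _ _ => mul_nonneg (d0 i) (g0 _)).trans ?_
    rw [sum_union (disjoint_left.2 fun i h1 h2 => by
      rw [mem_range] at h1; rw [mem_Ico] at h2; omega)]
    refine add_le_add ?_ (sum_le_sum fun i hi => ?_)
    · rw [sum_congr rfl fun z hz => by rw [max_eq_right (mem_range.1 hz)], ← sum_mul]
      exact mul_le_mul_of_nonneg_right H.low (g0 _)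
    · rw [max_eq_left ((mem_Ico.1 hi).1.trans (Nat.le_succ i))]
      exact mul_le_mul_of_nonneg_right (H.ds i) (g0 _)
  refine (abs_sum_le_sum_abs _ _).trans ((sum_le_sum fun z _ => (abs_mul _ _).trans_le
    (mul_le_mul (abs_of_nonneg (d0 z)).le (H.off_bd W W' z) (abs_nonneg _)
      (d0 z))).trans ?_)
  have h2 := sum_dm_le_one H.mono (A := range L.length) (range_subset_range.2 (Nat.le_succ _))
  simp only [mul_add (dm L 0 _), sum_add_distrib, ← sum_mul, mul_left_comm (dm L 0 _) c₀, ← mul_sum]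
  simp only [hg, mul_add (dm L 0 _), sum_add_distrib] at h1 E0
  have h3 := mul_le_mul_of_nonneg_left h1 (zero_le_one.trans c1)
  have h4 := mul_le_mul_of_nonneg_right (h2.trans c1) E0
  have h5 := mul_le_mul_of_nonneg_right h2 (sq_nonneg (∑ i ∈ Ico j₁ L.length, s i * f (i + 1)))
  have h6 := mul_le_mul_of_nonneg_right h2 (sq_nonneg (∑ i ∈ Ico j₁ L.length, s i * f' (i + 1)))
  linarith

theorem NH.main_bd (H : NH L c B j₁ c₀ p s a b ip δ π P) (W : Wf L j₁ ip δ φ f)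
    (W' : Wf L j₁ ip δ ψ f') (hj : j₁ ≤ L.length) :
    |∑ x ∈ Ico j₁ (L.length + 1), ∑ y ∈ Ico j₁ (L.length + 1), sy (LO L c) x y *
      (dm L 0 x * φ x * (dm L 0 y * ψ y) * ip (δ x) (δ y))| ≤
      7 * (p j₁ * (f j₁ ^ 2 + f' j₁ ^ 2)) + c₀ *
      ((∑ i ∈ Ico j₁ L.length, s i * f (i + 1)) ^ 2 + (∑ i ∈ Ico j₁ L.length, s i * f' (i + 1)) ^ 2) +
      ∑ i ∈ Ico j₁ L.length, s i * (f (i + 1) ^ 2 + f' (i + 1) ^ 2) := by
  have A3 : 2 * ∑ i ∈ Ico j₁ L.length, s i * (f (i + 1) * f' (i + 1)) ≤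
      ∑ i ∈ Ico j₁ L.length, s i * (f (i + 1) ^ 2 + f' (i + 1) ^ 2) := by
    rw [mul_sum]
    exact sum_le_sum fun i _ => by
      nlinarith [mul_nonneg (H.s0 i) (sq_nonneg (f (i + 1) - f' (i + 1)))]
  have p0 := H.p0 j₁
  have h := sq_bd (sy (LO L c)) (fun i j => dm L 0 i * φ i * (dm L 0 j * ψ j) * ip (δ i) (δ j))
    (le_refl j₁) W.nn W'.nn H.s0 p0 (K := L.length) (k0 := 12 * p j₁)
    (fun x hx y hy => by
      rw [G2_ip]; exact H.bs.cs (W.nn _) (W'.nn _) (W.tl x hx) (W'.tl y hy))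
    (by
      have g := fun t h4 h5 => H.reg.l0 j₁ j₁ t le_rfl le_rfl hj h4 h5
      have k1 := abs_LL_le H.mono le_rfl hj g
      have k2 : |dm L 0 j₁ + ex L j₁| ≤ 2 := by
        have := sum_dm_le_one H.mono (A := {j₁}) (by simpa using Nat.lt_succ_of_le hj)
        rw [sum_singleton] at this
        rw [abs_of_nonneg (add_nonneg (dm_nonneg H.mono _) (ex_nonneg H.mono _))]
        have h5 := sum_Ioc_dm hj
        linarith [sum_nonneg fun t (_ : t ∈ Ioc j₁ L.length) => dm_nonneg H.mono t]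
      have k3 := mul_le_mul k2 (g j₁ le_rfl (by omega)) (abs_nonneg _) zero_le_two
      rw [sy_le _ le_rfl, LO, cP]
      refine (abs_add_le _ _).trans ?_
      rw [abs_mul, abs_mul, abs_neg, abs_two]
      linarith)
    (fun i h1 h2 => by
      rw [sy_ge _ (h1.trans (Nat.le_succ i)), sy_ge _ h1, sy_le _ (h1.trans (Nat.le_succ i)),
        sy_le _ h1]
      exact ⟨H.reg.m1 i h1 h2, H.reg.m1 i h1 h2⟩)
    (fun i h1 h2 => by
      have k := H.reg.md i h1 h2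
      rw [mx, sy_le _ le_rfl, sy_ge _ (Nat.le_succ i), sy_le _ (Nat.le_succ i), sy_le _ le_rfl]
      rw [abs_le, abs_le] at k
      rw [abs_le]
      constructor <;> linarith [k.1.1, k.1.2, k.2.1, k.2.2])
    fun i j h1 h2 h3 h4 h5 => by
      rcases lt_or_gt_of_ne h5 with h | h
      · rw [mx, sy_le _ (by omega), sy_le _ (by omega), sy_le _ (by omega), sy_le _ h.le]
        exact H.reg.m2 i j h1 h h4
      · have := H.reg.m2 j i h3 h h2
        rw [mx] at this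
        rw [mx, sy_ge _ (by omega), sy_ge _ (by omega), sy_ge _ (by omega), sy_ge _ h.le, mul_comm]
        refine le_of_eq_of_le (congrArg _ (by ring)) this
  refine h.trans ?_
  have c1 := H.c1
  generalize ∑ i ∈ Ico j₁ L.length, s i * f (i + 1) = A1 at *
  generalize ∑ i ∈ Ico j₁ L.length, s i * f' (i + 1) = A2 at *
  have k1 := mul_le_mul_of_nonneg_right H.pc (add_nonneg (sq_nonneg A1) (sq_nonneg A2))
  have k2 := mul_le_mul_of_nonneg_right c1 (add_nonneg (sq_nonneg A1) (sq_nonneg A2))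
  nlinarith [mul_nonneg p0 (sq_nonneg (A1 - f' j₁)), mul_nonneg p0 (sq_nonneg (A2 - f j₁)),
    sq_nonneg (A1 - A2), mul_nonneg p0 (sq_nonneg (f j₁ - f' j₁))]

theorem NL_eq (hc : c.tr.Eqv c L.length) (hB : B.tr.Eqv B L.length) (hφ : ∀ x < j₁, φ x = 0)
    (hψ : ∀ x < j₁, ψ x = 0) : NL L (((wt φ ψ).mul c).mul B) =
      ∑ x ∈ Ico j₁ (L.length + 1), ∑ y ∈ Ico j₁ (x + 1),
        dm L 0 x * φ x * (dm L 0 y * ψ y) * LO L (c.mul B) y x +
      ∑ y ∈ Ico j₁ (L.length + 1), ∑ x ∈ Ico j₁ y,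
        dm L 0 x * φ x * (dm L 0 y * ψ y) * LO L (c.mul B) x y +
      ∑ z ∈ range L.length, dm L 0 z * ∑ x ∈ Ico (z + 1) (L.length + 1),
        ∑ k ∈ Ico (z + 1) (L.length + 1),
        dm L 0 x * φ x * (dm L 0 k * ψ k) * (c.off L.length z x k * B.off L.length z x k) := by
  simp only [NL, NLx, mul_add, sum_add_distrib, range_eq_Ico, ← Finset.Ico_add_one_add_one_eq_Ioc]
  have z0 : ∀ (g : ℕ → ℝ) (n : ℕ), (∀ x < j₁, g x = 0) → ∑ x ∈ Ico j₁ n, g x = ∑ x ∈ Ico 0 n, g x :=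
    fun g n h => by rw [sum_cut h 0, max_eq_right (Nat.zero_le _)]
  congr 1
  · congr 1
    · rw [z0 _ _ fun x hx => by simp [hφ x hx]]
      refine sum_congr rfl fun x hx => ?_
      rw [z0 _ _ fun y hy => by simp [hψ y hy], mul_sum]
      refine sum_congr rfl fun y hy => ?_
      rw [LO_congr (T' := c.mul B) (κ := φ x * ψ y) (by have := mem_Ico.1 hy; omega)
        (by have := mem_Ico.1 hx; omega)
        (fun t _ _ => by rw [lo_mul, lo_mul, lo_mul, wt_lo, mul_assoc]) rfl rfl]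
      ring
    · rw [z0 _ _ fun y hy => by simp [hψ y hy],
        sum_congr rfl fun y _ => z0 _ y fun x hx => by simp [hφ x hx], ← sum_Ico_Ico_comm']
      refine sum_congr rfl fun x _ => ?_
      rw [mul_sum]
      refine sum_congr rfl fun y hy => ?_
      have h1 : x ≤ y := by have := mem_Ico.1 hy; omega
      have h2 : y ≤ L.length := by have := mem_Ico.1 hy; omega
      rw [LO_congr (T' := c.mul B) (κ := φ x * ψ y) h1 h2 (fun t h3 h4 => by
        rw [show (((wt φ ψ).mul c).mul B).tr = ((wt φ ψ).tr.mul c.tr).mul B.tr from rfl, lo_mul,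
          lo_mul, lo_mul, wt_tr_lo, hc.lo h1 h2 h3 h4, hB.lo h1 h2 h3 h4, mul_assoc]) rfl rfl]
      ring
  · simp only [mul_sum]
    rw [← sum_Ico_Ico_comm', sum_Ico_succ_top (Nat.zero_le _), Ico_self, sum_empty, add_zero]
    refine sum_congr rfl fun z _ => sum_congr rfl fun x _ => sum_congr rfl fun k _ => ?_
    rw [show (((wt φ ψ).mul c).mul B).off L.length z x k =
      φ x * ψ k * c.off L.length z x k * B.off L.length z x k from rfl]
    ring

/-- **(B) the non-local part is small** -/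
theorem NH.bd (H : NH L c B j₁ c₀ p s a b ip δ π P) (W : Wf L j₁ ip δ φ f)
    (W' : Wf L j₁ ip δ ψ f') (hj : j₁ ≤ L.length) :
    |NL L (((wt φ ψ).mul c).mul B)| ≤ 20 * c₀ * Er2 L j₁ p s a b f f' := by
  have d0 := dm_nonneg H.mono
  set ρ : ℕ → ℕ → ℝ := fun y x => LO L (c.mul B) y x - (LO L c y x * ip (δ x) (δ y) -
    2 * Pt L c ip δ π y x) with hρ
  have r0 : ∀ y x, 0 ≤ dm L 0 x * dm L 0 y * (p y * (b y x * a x)) := fun y x =>
    mul_nonneg (mul_nonneg (d0 x) (d0 y)) (mul_nonneg (H.p0 y) (mul_nonneg (H.b0 y x) (H.bs.a0 x)))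
  have r1 : ∀ {φ ψ f f' : ℕ → ℝ}, Wf L j₁ ip δ φ f → Wf L j₁ ip δ ψ f' → ∀ n : ℕ → ℕ,
      (∀ x, n x ≤ x + 1) → |∑ x ∈ Ico j₁ (L.length + 1), ∑ y ∈ Ico j₁ (n x),
        dm L 0 x * φ x * (dm L 0 y * ψ y) * ρ y x| ≤ 8 * ∑ x ∈ Ico j₁ (L.length + 1),
          ∑ y ∈ Ico j₁ (x + 1), dm L 0 x * dm L 0 y * (p y * (b y x * a x)) :=
    fun W W' n hn => by
      rw [mul_sum]
      refine (abs_sum_le_sum_abs _ _).trans (sum_le_sum fun x hx => ?_)
      rw [mul_sum]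
      refine (abs_sum_le_sum_abs _ _).trans ((sum_le_sum fun y hy => ?_).trans
        (sum_le_sum_of_subset_of_nonneg (Ico_subset_Ico_right (hn x))
          fun y _ _ => mul_nonneg (by norm_num) (r0 y x)))
      rw [abs_mul, abs_mul]
      have := hn x
      refine (mul_le_mul (mul_le_mul (W.abs_le H.mono x) (W'.abs_le H.mono y) (abs_nonneg _) (d0 x))
        (H.lo_dec (mem_Ico.1 hy).1 (by have := mem_Ico.1 hy; omega)
          (by have := mem_Ico.1 hx; omega)) (abs_nonneg _) (mul_nonneg (d0 x) (d0 y))).trans_eq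
        (by ring)
  have k1 := r1 W W' (· + 1) fun _ => le_rfl
  have k2 := r1 W' W id Nat.le_succ
  have k3 := H.pi_sum W W'
  have k4 := H.pi_sum W' W
  have k5 := H.main_bd W W' hj
  have k6 := H.off_sum W W'
  have e1 : ∑ x ∈ Ico j₁ (L.length + 1), ∑ y ∈ Ico j₁ (L.length + 1), sy (LO L c) x y *
      (dm L 0 x * φ x * (dm L 0 y * ψ y) * ip (δ x) (δ y)) =
      ∑ x ∈ Ico j₁ (L.length + 1), ∑ y ∈ Ico j₁ (x + 1),
        dm L 0 x * φ x * (dm L 0 y * ψ y) * (LO L c y x * ip (δ x) (δ y)) +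
      ∑ y ∈ Ico j₁ (L.length + 1), ∑ x ∈ Ico j₁ y,
        dm L 0 x * φ x * (dm L 0 y * ψ y) * (LO L c x y * ip (δ y) (δ x)) := by
    rw [← sum_Ico_Ico_comm', ← sum_add_distrib]
    refine sum_congr rfl fun x hx => ?_
    have := mem_Ico.1 hx
    rw [← sum_Ico_consecutive _ (show j₁ ≤ x + 1 by omega) (show x + 1 ≤ L.length + 1 by omega)]
    congr 1
    · exact sum_congr rfl fun y hy => by
        rw [sy_ge _ (by have := mem_Ico.1 hy; omega)]; ring
    · exact sum_congr rfl fun y hy => by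
        rw [sy_le _ (by have := mem_Ico.1 hy; omega), H.bs.sym (δ y)]; ring
  have e2 : ∑ y ∈ Ico j₁ (L.length + 1), dm L 0 y * ψ y *
      ∑ x ∈ Ico y (L.length + 1), dm L 0 x * φ x * Pt L c ip δ π y x =
      ∑ x ∈ Ico j₁ (L.length + 1), ∑ y ∈ Ico j₁ (x + 1),
        dm L 0 x * φ x * (dm L 0 y * ψ y) * Pt L c ip δ π y x := by
    rw [← sum_Ico_Ico_comm]
    exact sum_congr rfl fun y _ => by rw [mul_sum]; exact sum_congr rfl fun x _ => by ring
  have e3 : ∑ x ∈ Ico j₁ (L.length + 1), dm L 0 x * φ x *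
      ∑ y ∈ Ico x (L.length + 1), dm L 0 y * ψ y * Pt L c ip δ π x y =
      ∑ y ∈ Ico j₁ (L.length + 1), ∑ x ∈ Ico j₁ y,
        dm L 0 x * φ x * (dm L 0 y * ψ y) * Pt L c ip δ π x y := by
    rw [← sum_Ico_Ico_comm']
    refine sum_congr rfl fun x hx => ?_
    rw [sum_eq_sum_Ico_succ_bot (mem_Ico.1 hx).2, Pt, Ico_self, sum_empty, mul_zero, zero_add,
      mul_sum]
    exact sum_congr rfl fun y _ => by ring
  have e4 : ∀ y x, LO L (c.mul B) y x = LO L c y x * ip (δ x) (δ y) - 2 * Pt L c ip δ π y x +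
    ρ y x := fun y x => by simp only [hρ]; ring
  rw [e1] at k5
  rw [e2] at k3
  rw [e3] at k4
  simp only [id, mul_comm (dm L 0 _ * ψ _) (dm L 0 _ * φ _)] at k2
  rw [NL_eq H.ctr H.btr W.lw W'.lw, Er2]
  simp only [e4, mul_add (dm L 0 _ * φ _ * _), mul_sub (dm L 0 _ * φ _ * _), sum_add_distrib,
    sum_sub_distrib, mul_left_comm _ (2 : ℝ), ← mul_sum _ _ (2 : ℝ)]
  have c1 := H.c1
  have n1 : 0 ≤ p j₁ * (f j₁ ^ 2 + f' j₁ ^ 2) := mul_nonneg (H.p0 _) (by positivity)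
  have n2 : 0 ≤ ∑ i ∈ Ico j₁ L.length, s i * (f (i + 1) ^ 2 + f' (i + 1) ^ 2) :=
    sum_nonneg fun i _ => mul_nonneg (H.s0 i) (by positivity)
  have n3 : 0 ≤ ∑ y ∈ Ico j₁ (L.length + 1), dm L 0 y * (p y * a y) ^ 2 :=
    sum_nonneg fun i _ => mul_nonneg (d0 i) (sq_nonneg _)
  have n4 : 0 ≤ ∑ x ∈ Ico j₁ (L.length + 1), ∑ y ∈ Ico j₁ (x + 1),
      dm L 0 x * dm L 0 y * (p y * (b y x * a x)) :=
    sum_nonneg fun x _ => sum_nonneg fun y _ => r0 y x
  have n5 : ∑ i ∈ Ico j₁ L.length, s i * (f (i + 1) ^ 2 + f' (i + 1) ^ 2) =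
      ∑ i ∈ Ico j₁ L.length, s i * f (i + 1) ^ 2 + ∑ i ∈ Ico j₁ L.length, s i * f' (i + 1) ^ 2 := by
    simp only [mul_add, sum_add_distrib]
  have m1 := mul_le_mul_of_nonneg_right c1 n1
  have m2 := mul_le_mul_of_nonneg_right c1 n2
  have m3 := mul_le_mul_of_nonneg_right c1 n3
  have m4 := mul_le_mul_of_nonneg_right c1 n4
  have n6 := add_nonneg (sq_nonneg (∑ i ∈ Ico j₁ L.length, s i * f (i + 1)))
    (sq_nonneg (∑ i ∈ Ico j₁ L.length, s i * f' (i + 1)))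
  have m5 := mul_le_mul_of_nonneg_right c1 n6
  rw [abs_le] at k1 k2 k5 k6 ⊢
  have k3' := abs_le.1 ((le_div_iff₀' two_pos).2 k3)
  have k4' := abs_le.1 ((le_div_iff₀' two_pos).2 k4)
  constructor <;> linarith [k1.1, k1.2, k2.1, k2.2, k5.1, k5.2, k6.1, k6.2, k3'.1, k3'.2, k4'.1,
    k4'.2]

end main

end Crest.Agent.T156.Cas.Q75

end
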