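import Crest.Agent.T156.Q2Def_75

/-!
# Row 156 (helper75): split matrices of the two-edge term
-/

set_option autoImplicit false

noncomputable section

namespace Crest.Agent.T156.Cas.Q75

open Finset
open Crest.Agent.T157.E Crest.Agent.T157.Casc Crest.Agent.T157.SL
open Nu87 Wt87

/-! ### matrices -/

theorem gr_tw0 {K x j : ℕ} (hx : x ≤ K) (hj : j ≤ K) :
    gr K (tw K x) 0 j = m3 K j (min j x) x := by
  funext a b
  fin_cases a <;> fin_cases b <;> first | rfl | exact min_eq_left hj | exact min_eq_left hx |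
    exact congrArg (min j) (min_eq_left hx)

theorem gr_tw1 {K x j : ℕ} (hx : x ≤ K) (hj : j ≤ K) :
    gr K (tw K x) 1 j = m3 K (min j x) j x := by
  funext a b
  fin_cases a <;> fin_cases b <;> first | rfl | exact min_eq_left hj | exact min_eq_left hx |
    exact congrArg (min j) (min_eq_left hx)

theorem gr_m0 {K a b x k : ℕ} (hk : k ≤ K) :
    gr K (m3 K a b x) 0 k = m4 K k x (min k a) (min k b) a b := by
  funext c d
  fin_cases c <;> fin_cases d <;> first | rfl | exact min_eq_left hk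

theorem gr_m1 {K a b x k : ℕ} (hk : k ≤ K) :
    gr K (m3 K a b x) 1 k = m4 K (min k a) x k (min k x) a b := by
  funext c d
  fin_cases c <;> fin_cases d <;> first | rfl | exact min_eq_left hk

theorem gr_m2 {K a b x k : ℕ} (hk : k ≤ K) :
    gr K (m3 K a b x) 2 k = m4 K (min k b) x (min k x) k a b := by
  funext c d
  fin_cases c <;> fin_cases d <;> first | rfl | exact min_eq_left hk

theorem rz_a {K x j : ℕ} (hx : x ≤ K) (hj : j ≤ K) : Rz K (m3 K j (min j x) x) :=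
  gr_tw0 hx hj ▸ (rz_tw K x).gr 0 j

theorem rz_b {K x j : ℕ} (hx : x ≤ K) (hj : j ≤ K) : Rz K (m3 K (min j x) j x) :=
  gr_tw1 hx hj ▸ (rz_tw K x).gr 1 j

theorem rz_lo3 {K x y : ℕ} (hx : x ≤ K) (hy : y ≤ x) : Rz K (m3 K y y x) := by
  have := rz_a hx (hy.trans hx)
  rwa [min_eq_left hy] at this

theorem rz_lo4 {K x y t : ℕ} (hx : x ≤ K) (hy : y ≤ x) (hyt : y ≤ t) (ht : t ≤ K) :
    Rz K (m4 K y x t (min t x) y y) := by
  have := (rz_lo3 hx hy).gr 1 t
  rwa [gr_m1 ht, min_eq_right hyt] at this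

theorem rz_off {K x z k : ℕ} (hx : x ≤ K) (hz : z ≤ x) (hzk : z ≤ k) (hk : k ≤ K) :
    Rz K (m4 K k x z z z z) := by
  have := (rz_lo3 hx hz).gr 0 k
  rwa [gr_m0 hk, min_eq_right hzk] at this

theorem rz_sn3 {K x t : ℕ} (hxt : x ≤ t) (ht : t ≤ K) : Rz K (m3 K x t x) := by
  have := rz_b (hxt.trans ht) ht
  rwa [min_eq_right hxt] at this

theorem rz_sn4 {K x t t' : ℕ} (hxt : x ≤ t) (ht : t ≤ K) (hxt' : x ≤ t') (ht' : t' ≤ K) :
    Rz K (m4 K x x t x x t') := by
  have := (rz_sn3 hxt' ht').gr 1 t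
  rwa [gr_m1 ht, min_eq_right hxt] at this

theorem m4_01 (K u x a b c d : ℕ) : (fun i j => m4 K u x a b c d (![1, 0, 2, 3] i) (![1, 0, 2, 3] j))
    = m4 K u x c d a b := by
  funext i j
  fin_cases i <;> fin_cases j <;> rfl

theorem m4_23 (K u x a b c d : ℕ) : (fun i j => m4 K u x a b c d (![0, 1, 3, 2] i) (![0, 1, 3, 2] j))
    = m4 K u x b a d c := by
  funext i j
  fin_cases i <;> fin_cases j <;> rfl

theorem m4_tr (K u x a b c d : ℕ) : (fun i j => m4 K u x a b c d (![2, 3, 0, 1] i) (![2, 3, 0, 1] j))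
    = m4 K x u a c b d := by
  funext i j
  fin_cases i <;> fin_cases j <;> rfl

theorem m3_tr (K a b c : ℕ) : (fun i j => m3 K a b c (![2, 1, 0] i) (![2, 1, 0] j))
    = m3 K c b a := by
  funext i j
  fin_cases i <;> fin_cases j <;> rfl

theorem Tw.Sy.s01 {T : Tw} {K u x a b c d : ℕ} (H : T.Sy K) (h : Rz K (m4 K u x a b c d)) :
    T.f4 (m4 K u x c d a b) = T.f4 (m4 K u x a b c d) := by rw [← (H _ h).1, m4_01]

theorem Tw.Sy.s23 {T : Tw} {K u x a b c d : ℕ} (H : T.Sy K) (h : Rz K (m4 K u x a b c d)) :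
    T.f4 (m4 K u x b a d c) = T.f4 (m4 K u x a b c d) := by rw [← (H _ h).2, m4_23]

theorem tr_lo (T : Tw) (K x y t : ℕ) : T.tr.lo K x y t =
    if t = K + 1 then T.f3 (m3 K y x x) else T.f4 (m4 K y x t x (min t y) x) := by
  simp only [Tw.lo, Tw.tr, m3_tr, m4_tr]

end Crest.Agent.T156.Cas.Q75

end
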