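import Crest.Agent.T156.Q2Base_53
import Crest.Agent.T156.Q2M_75
import Crest.Agent.T156.Eg_33

/-!
# Row 156 (helper53): the base factor of the two-edge term, refined form (`Eg33.vt`)
-/

set_option autoImplicit false
set_option linter.unusedSectionVars false

noncomputable section

namespace Crest.Agent.T156.Cas.Base53

open Crest.Agent.T157.E Crest.Agent.T157.Casc Crest.Agent.T157.SL
open Nu87 Wt87 Lp12 Sy41 Lad79 Q75
open Eg33 (vt vz Cf Cc)

variable {Ω : Type} [Fintype Ω] {w : Ω → ℝ}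
variable (L : List (Lv Ω)) (l₀ : Lv Ω) (hw : Wt w) (h : Ω → ℝ)
include hw

theorem vt_anti {y i j : ℕ} (hi : y ≤ i) (hj : i ≤ j) : vt w L l₀ h y j ≤ vt w L l₀ h y i :=
  node_mono hw (Eg33.eg_vz hw L l₀ y j) (Eg33.eg_vz hw L l₀ y i) (Eg33.vz_anti hw L l₀ hi hj) L y h

theorem Cf_le_vz (y x : ℕ) (z : Ω → ℝ) :
    Cf w L y x (l₀.fld (mv w (L.drop y) l₀ z)) (l₀.fld (mv w (L.drop y) l₀ z)) z ≤
      vz w L l₀ y x z := by
  have := Eg33.tr_Cc_nonneg hw L l₀ y x z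
    (M := fun i k => Cb w (L.drop y) z (fun u => l₀.A u i) fun u => l₀.A u k) fun v => by
      rw [← Cb_fld]; exact Hess87.Cb_nonneg hw _ z _
  rw [Eg33.vz_eq hw, Eg33.Cf_fld hw]
  simp only [Cb_A, sub_mul, Finset.sum_sub_distrib] at this
  linarith

theorem NN_le' {y x t : ℕ} (e : y ≤ x) (e' : x ≤ t) (hx : x ≤ L.length) :
    EE w L h (fun p => NN w L l₀ x t y y p - NN w L l₀ x x y y p) ≤ vt w L l₀ h y x := by
  have a : Ad y fun p => l₀.fld (mP w L l₀ y p) := (ad_mP L l₀ le_rfl).comp l₀.fld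
  have h1 : EE w L h (NN w L l₀ x t y y) = EE w L h (NN w L l₀ y t y y) := EE_Nf L hw h e e' a a
  have h2 : EE w L h (NN w L l₀ x x y y) = EE w L h (NN w L l₀ y x y y) :=
    EE_Nf L hw h e le_rfl a a
  rw [EE_sub hw L h (ep_NN L l₀ hw _ _ _ _) (ep_NN L l₀ hw _ _ _ _), h1, h2,
    ← EE_sub hw L h (ep_NN L l₀ hw _ _ _ _) (ep_NN L l₀ hw _ _ _ _), vt, ← EE_node hw]
  refine EE_mono hw L h ((ep_NN L l₀ hw _ _ _ _).sub (ep_NN L l₀ hw _ _ _ _))
    (EP.state (Eg33.eg_vz hw L l₀ y x) y) fun p => ?_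
  have k1 := Nf_mono hw L (e.trans e') (le_max_left t (L.length + 1)) (p y) (l₀.fld (mP w L l₀ y p))
  have k2 := Nf_leaf_sub hw L e hx (Nat.lt_of_succ_le (le_max_right t (L.length + 1))) (p y)
    (l₀.fld (mP w L l₀ y p)) (l₀.fld (mP w L l₀ y p))
  have k3 := Cf_le_vz L l₀ hw y x (p y)
  simp only [NN, Cf, mP] at k1 k2 k3 ⊢
  linarith

theorem abs_NN_gen {y x t : ℕ} (e' : x ≤ t) {A B : ℝ}
    (h1 : EE w L h (fun p => NN w L l₀ x t x x p - NN w L l₀ x x x x p) ≤ A)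
    (h2 : EE w L h (fun p => NN w L l₀ x t y y p - NN w L l₀ x x y y p) ≤ B) :
    |EE w L h (fun p => NN w L l₀ x t x y p - NN w L l₀ x x x y p)| ≤ √B * √A := by
  have d := fun a b => (ep_NN L l₀ hw x t a b).sub (ep_NN L l₀ hw x x a b)
  have key : ∀ s : ℝ, 0 ≤ A * (s * s) +
      2 * EE w L h (fun p => NN w L l₀ x t x y p - NN w L l₀ x x x y p) * s + B := fun s => by
    have k := EE_nonneg (w := w) L h (NN_psd L l₀ hw e' x y s)
    simp only [mul_comm _ (s * s), mul_comm _ s, ← mul_assoc s 2] at k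
    rw [EE_add hw L h (((d x x).const_mul _).add ((d x y).const_mul _)) (d y y),
      EE_add hw L h ((d x x).const_mul _) ((d x y).const_mul _), EE_const_mul, EE_const_mul] at k
    nlinarith [mul_le_mul_of_nonneg_left h1 (mul_self_nonneg s)]
  have k := discrim_le_zero key
  have k0 := key 0
  rw [discrim] at k
  rw [← Real.sqrt_mul (by linarith)]
  exact Real.abs_le_sqrt (by nlinarith)

theorem vv_le_vt (y : ℕ) : Q33.vv w L l₀ h y ≤ vt w L l₀ h y y :=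
  node_mono hw (eg_Vq hw _ l₀) (Eg33.eg_vz hw L l₀ y y) (fun z => by
    rw [Eg33.vz_self hw]
    exact le_add_of_nonneg_left (Finset.sum_nonneg fun _ _ => Finset.sum_nonneg fun _ _ =>
      sq_nonneg _)) L y h

/-- `δ_x = ρ_x - q_x` -/
def dV (q : ℕ → ℝ) (x : ℕ) : VV Ω :=
  ⟨fun p => MM w L l₀ x x p - q x, (ep_MM L l₀ hw x x).sub (EP.const _)⟩

/-- `π_{y,t} = m_y · (m_t - m_y)` -/
def pV (y t : ℕ) : VV Ω :=
  ⟨fun p => MM w L l₀ y t p - MM w L l₀ y y p, (ep_MM L l₀ hw y t).sub (ep_MM L l₀ hw y y)⟩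

theorem ip_sp (q : ℕ → ℝ) (x y t : ℕ) : ipE hw L h (dV L l₀ hw q x) (dV L l₀ hw q y) +
    ipE hw L h (dV L l₀ hw q x) (pV L l₀ hw y t) =
    EE w L h fun p => (MM w L l₀ x x p - q x) * (MM w L l₀ y t p - q y) := by
  rw [← map_add, ipE_eq]
  exact congrArg (EE w L h) (funext fun p => by simp [dV, pV])

/-- (lo3) -/
theorem lo3 (q : ℕ → ℝ) {y x t : ℕ} (h1 : y ≤ x) (h2 : x < t) (h3 : t ≤ L.length + 1)
    (h4 : x ≤ L.length) : |(ee w L h (uK l₀ q) (uK l₀ q)).lo L.length y x t -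
      (ipE hw L h (dV L l₀ hw q x) (dV L l₀ hw q y) +
        ipE hw L h (dV L l₀ hw q x) (pV L l₀ hw y x))| ≤
      √(vt w L l₀ h y x) * √(vt w L l₀ h x x) := by
  have d := (ep_NN L l₀ hw x t x y).sub (ep_NN L l₀ hw x x x y)
  have eM := ep_MM L l₀ hw
  rw [lo_high L l₀ hw h q h1 h2 h4 h3, ip_sp]
  simp only [cen_sub L l₀ hw h2.le, cen_self L l₀ hw h4]
  rw [EE_add hw L h (((eM x x).sub (EP.const _)).mul ((eM y x).sub (EP.const _))) d,
    add_sub_cancel_left]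
  exact abs_NN_gen L l₀ hw h h2.le (NN_le' L l₀ hw h le_rfl h2.le h4) (NN_le' L l₀ hw h h1 h2.le h4)

/-- the martingale structure with `a² = vt y y` -/
theorem bs (q : ℕ → ℝ) : Bs L.length (ee w L h (uK l₀ q) (uK l₀ q)) (ipE hw L h) (dV L l₀ hw q)
    (pV L l₀ hw) (PE hw L) fun y => √(vt w L l₀ h y y) := by
  refine ⟨fun u v => ?_, fun u => ?_, fun y => Real.sqrt_nonneg _,
    fun y x t h1 h2 h3 => ?_, fun y x t h1 h2 h3 h4 => ?_, fun y => ?_, fun y t v h1 _ h3 => ?_,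
    fun y t u h1 h2 _ => ?_, fun y hy => ?_, fun z x k h1 h2 h3 h4 => ?_, fun z u => ?_⟩
  · simp only [ipE_eq, mul_comm]
  · exact EE_nonneg L h fun p => mul_self_nonneg _
  · rw [lo_four L l₀ hw h q (h1.trans h2) h1 h3 (h2.trans h3), max_eq_right h2, ip_sp]
    simp only [MM_comm L l₀ t]
  · exact (lo3 L l₀ hw h q h1 h2 h3 h4).trans (mul_le_mul_of_nonneg_right
      (Real.sqrt_le_sqrt (vt_anti L l₀ hw h le_rfl h1)) (Real.sqrt_nonneg _))
  · exact Subtype.ext (funext fun p => sub_self _)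
  · refine Eq.trans ?_ (orth L l₀ hw h h1 (Nat.le_succ t)
      ((ad_MM (w := w) L l₀ h3 h3).comp (· - q v)))
    exact congrArg (EE w L h) (funext fun p => by simp [dV, pV])
  · refine Eq.trans ?_ (orth L l₀ hw h (h1.trans h2) (Nat.le_succ t)
      ((ad_MM (w := w) L l₀ (h1.trans h2) h2).comp₂
        (ad_MM (w := w) L l₀ (h1.trans h2) (h1.trans h2)) (· - ·)))
    exact congrArg (EE w L h) (funext fun p => by simp [pV])
  · rw [Real.sq_sqrt (Eg33.vt_nonneg hw L l₀ h y y)]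
    exact (pi_sq_le L l₀ hw h hy).trans (vv_le_vt L l₀ hw h y)
  · exact off_eq L l₀ hw h q h1 h2 h3 h4
  · exact CE_sq_le L hw h u.2 z

/-- norms of linear combinations, any index set -/
theorem ip_sum (q c : ℕ → ℝ) (S : Finset ℕ) :
    ipE hw L h (∑ x ∈ S, c x • dV L l₀ hw q x) (∑ x ∈ S, c x • dV L l₀ hw q x) =
      EE w L h fun p => (∑ x ∈ S, c x * (rr w (L.drop x) l₀ (p x) - q x)) ^ 2 := by
  rw [ipE_eq]
  refine congrArg (EE w L h) (funext fun p => ?_)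
  simp only [Submodule.coe_sum, Finset.sum_apply, Submodule.coe_smul, Pi.smul_apply, smul_eq_mul,
    MM_self, dV, sq]

theorem qf_uK (q : ℕ → ℝ) (x : ℕ) (z : Ω → ℝ) :
    qf (P w (L.drop x) z) (uK l₀ q x) = rr w (L.drop x) l₀ z - q x := by
  have h1 := MM_self (w := w) L l₀ x fun _ => z
  have h2 := Pf_fP L l₀ hw x x (q x) fun _ => z
  have h3 := sum_cov' L l₀ hw x (q x) fun _ => z
  rw [← h1, ← h2]
  simp only [qf, Pf, ← h3, Finset.mul_sum, mul_assoc, uK]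

theorem ip_sum_pE (q c : ℕ → ℝ) (S : Finset ℕ) :
    ipE hw L h (∑ x ∈ S, c x • dV L l₀ hw q x) (∑ x ∈ S, c x • dV L l₀ hw q x) =
      pE w L h fun g _ => (∑ x ∈ S, c x * qf (P w (L.drop x) (st L x h g)) (uK l₀ q x)) ^ 2 := by
  rw [ip_sum, EE_eq hw L h ((EP.sum _ fun x _ => ((EP.state (eg_rr hw _ l₀) x).sub
    (EP.const _)).const_mul _).pow 2)]
  simp only [qf_uK L l₀ hw]

/-! ### both edges at one node -/

theorem TM_Tc {r : ℕ} {σ : SM r} (hσ : Rz L.length σ) (q : ℝ) {x : ℕ} {a b a' b' : Fin r}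
    (hne : ∀ p, p = a ∨ p = b → ∀ p', p' = a' ∨ p' = b' → p ≠ p')
    (hx : ∀ p, p = a ∨ p = b → ∀ p', p' = a' ∨ p' = b' → σ p p' = x) :
    TM w L h σ (fun u => (l₀.cov (u a) (u a') - q) * (l₀.cov (u b) (u b') - q)) =
      Tc w L l₀ h q x (if a = b then L.length + 1 else σ a b)
        (if a' = b' then L.length + 1 else σ a' b') := by
  obtain ⟨s, e, rfl⟩ := hσ
  have lv : ∀ c d : Fin r, lev s L.length (e c) (e d) =
      if c = d then L.length + 1 else sm s e L.length c d := fun c d => by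
    split_ifs with k
    · rw [k, lev_self]
    · exact lev_ne s _ fun k' => k (e.injective k')
  rw [TM_sm hw s L h e.injective, ← lv, ← lv]
  refine TE_Tc hw s L l₀ h q ?_ ?_
  · rintro p (rfl | rfl) p' (rfl | rfl) k
    exacts [hne _ (.inl rfl) _ (.inl rfl) (e.injective k), hne _ (.inl rfl) _ (.inr rfl) (e.injective k),
      hne _ (.inr rfl) _ (.inl rfl) (e.injective k), hne _ (.inr rfl) _ (.inr rfl) (e.injective k)]
  · rintro p (rfl | rfl) p' (rfl | rfl)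
    exacts [hx _ (.inl rfl) _ (.inl rfl), hx _ (.inl rfl) _ (.inr rfl),
      hx _ (.inr rfl) _ (.inl rfl), hx _ (.inr rfl) _ (.inr rfl)]

omit hw in
theorem Tc_symm (q : ℝ) (x t t' : ℕ) : Tc w L l₀ h q x t t' = Tc w L l₀ h q x t' t := by
  simp only [Tc, T2_symm L l₀ h x t]

theorem sn3 (q : ℕ → ℝ) {x t : ℕ} (h1 : x ≤ t) (h2 : t ≤ L.length) :
    (ee w L h (uK l₀ q) (uK l₀ q)).f3 (m3 L.length x t x) =
      Tc w L l₀ h (q x) x (L.length + 1) t := by
  have := TM_Tc L l₀ hw h (rz_sn3 h1 h2) (q x) (x := x) (a := 1) (b := 1) (a' := 2) (b' := 0)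
    (by rintro p (rfl | rfl) p' (rfl | rfl) <;> decide)
    (by rintro p (rfl | rfl) p' (rfl | rfl) <;> rfl)
  rw [if_pos rfl, if_neg (by decide)] at this
  refine Eq.trans (congrArg (TM w L h _) (funext fun u => ?_)) this
  show (l₀.cov (u 1) (u 2) - q x) * (l₀.cov (u 0) (u 1) - q x) = _
  simp only [Lv.cov, mul_comm]

theorem sN_Tc (q : ℕ → ℝ) {x t t' : ℕ} (h1 : x ≤ t) (h2 : t ≤ L.length + 1) (h3 : x ≤ t')
    (h4 : t' ≤ L.length + 1) (hx : x ≤ L.length) :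
    (ee w L h (uK l₀ q) (uK l₀ q)).sN L.length x t t' = Tc w L l₀ h (q x) x t t' := by
  rw [Tw.sN]
  split_ifs with k k' k'
  · have := TM_Tc L l₀ hw h (rz_tw L.length x) (q x) (x := x) (a := 0) (b := 0) (a' := 1) (b' := 1)
      (by rintro p (rfl | rfl) p' (rfl | rfl) <;> decide)
      (by rintro p (rfl | rfl) p' (rfl | rfl) <;> exact tw_01 hx)
    rw [if_pos rfl, if_pos rfl] at this
    rw [k, k', ← this]
    refine congrArg (TM w L h _) (funext fun u => ?_)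
    simp only [ed, uK, tw_01 hx]
  · rw [k, sn3 L l₀ hw h q h3 (by omega)]
  · rw [k', sn3 L l₀ hw h q h1 (by omega), Tc_symm]
  · have := TM_Tc L l₀ hw h (rz_sn4 h1 (show t ≤ L.length by omega) h3 (show t' ≤ L.length by omega))
      (q x) (x := x) (a := 2) (b := 0) (a' := 3) (b' := 1)
      (by rintro p (rfl | rfl) p' (rfl | rfl) <;> decide)
      (by rintro p (rfl | rfl) p' (rfl | rfl) <;> rfl)
    rw [if_neg (by decide), if_neg (by decide)] at this
    exact this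

theorem vt_eq {x t : ℕ} (h1 : x ≤ t) (h2 : t ≤ L.length) : vt w L l₀ h x t =
    T2 w L l₀ h x (L.length + 1) (L.length + 1) - T2 w L l₀ h x (L.length + 1) t := by
  have e := fun y y' => eg_tr hw l₀ (eg_Nm hw L l₀ x y) (eg_Nm hw L l₀ x y')
  rw [T2, T2, ← congrFun (node_sub hw (e _ _) (e _ _) L x) h]
  refine congrArg (fun F => node w L x F h) (funext fun z => ?_)
  rw [Eg33.vz_eq hw]
  simp only [tr, ← Finset.sum_sub_distrib, ← mul_sub, Nm,
    Nf_leaf_sub hw L h1 h2 (Nat.lt_succ_self _)]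
  simp only [Nf_leaf L (Nat.lt_succ_self _)]
  rfl

/-- (sn) -/
theorem sn_bds (q : ℕ → ℝ) {x t t' : ℕ} (h1 : x ≤ t) (h2 : t ≤ L.length + 1) (h3 : x ≤ t')
    (h4 : t' ≤ L.length + 1) (hx : x ≤ L.length) :
    0 ≤ (ee w L h (uK l₀ q) (uK l₀ q)).sN L.length x (L.length + 1) (L.length + 1) -
        (ee w L h (uK l₀ q) (uK l₀ q)).sN L.length x t t' ∧
      (ee w L h (uK l₀ q) (uK l₀ q)).sN L.length x (L.length + 1) (L.length + 1) -
        (ee w L h (uK l₀ q) (uK l₀ q)).sN L.length x t t' ≤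
        (if t ≤ L.length then vt w L l₀ h x t else 0) +
          if t' ≤ L.length then vt w L l₀ h x t' else 0 := by
  have hK : x ≤ L.length + 1 := by omega
  have v : ∀ u, x ≤ u → u ≤ L.length + 1 → (if u ≤ L.length then vt w L l₀ h x u else 0) =
      T2 w L l₀ h x (L.length + 1) (L.length + 1) - T2 w L l₀ h x (L.length + 1) u :=
    fun u k1 k2 => by
      split_ifs with k
      · exact vt_eq L l₀ hw h k1 k
      · rw [show u = L.length + 1 by omega, sub_self]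
  have a1 := DD_nonneg hw L l₀ h h1 h2 h3 h4
  have a2 := DD_nonneg hw L l₀ h h1 h2 le_rfl hK
  have a3 := DD_nonneg hw L l₀ h le_rfl h1 h3 h4
  have a4 := MD_nonneg hw L l₀ h hx h1 h2
  have a5 := MD_nonneg hw L l₀ h hx h3 h4
  rw [sN_Tc L l₀ hw h q hK le_rfl hK le_rfl hx, sN_Tc L l₀ hw h q h1 h2 h3 h4 hx, v t h1 h2,
    v t' h3 h4]
  have s1 := T2_symm (w := w) L l₀ h x t (L.length + 1)
  have s2 := T2_symm (w := w) L l₀ h x t x
  have s3 := T2_symm (w := w) L l₀ h x (L.length + 1) x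
  simp only [Tc, Lad79.DD, MD] at a1 a2 a3 a4 a5 ⊢
  constructor <;> linarith

theorem sn_top (q : ℕ → ℝ) {x : ℕ} (hx : x ≤ L.length) :
    (ee w L h (uK l₀ q) (uK l₀ q)).sN L.length x (L.length + 1) (L.length + 1) =
      pi2 w L x (fun a b => uK l₀ q x a b ^ 2) h := by
  have := TM_pair (h := h) hw (rz_tw L.length x) (a := 0) (b := 1) (by decide)
    fun a b => uK l₀ q x a b ^ 2
  rw [tw_01 hx] at this
  rw [Tw.sN, if_pos rfl, if_pos rfl, ← this]
  refine congrArg (TM w L h _) (funext fun u => ?_)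
  simp only [ed, tw_01 hx, sq]

end Crest.Agent.T156.Cas.Base53

namespace Crest.Agent.T156.Cas.Q75

open Crest.Agent.T157.E Crest.Agent.T157.Casc Crest.Agent.T157.SL
open Finset Base53
open Eg33 (vt)

/-- (C'), the refined base structure -/
def BaseS2 : Prop := ∀ (Ω : Type) [Fintype Ω] (w : Ω → ℝ) (L : List (Lv Ω)) (h : Ω → ℝ)
  (l₀ : Lv Ω) (q : ℕ → ℝ), Wt w → ∃ (V : Type) (_ : AddCommGroup V) (_ : Module ℝ V)
    (ip : LinearMap.BilinForm ℝ V) (δ : ℕ → V) (π : ℕ → ℕ → V) (P' : ℕ → V →ₗ[ℝ] V),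
    Bs L.length (ee w L h (uK l₀ q) (uK l₀ q)) ip δ π P' (fun y => √(vt w L l₀ h y y)) ∧
    (∀ y x t, y ≤ x → x < t → t ≤ L.length + 1 → x ≤ L.length →
      |(ee w L h (uK l₀ q) (uK l₀ q)).lo L.length y x t - (ip (δ x) (δ y) + ip (δ x) (π y x))| ≤
        √(vt w L l₀ h y x) * √(vt w L l₀ h x x)) ∧
    (∀ (c : ℕ → ℝ) (S : Finset ℕ), ip (∑ x ∈ S, c x • δ x) (∑ x ∈ S, c x • δ x) =
      pE w L h fun g _ => (∑ x ∈ S, c x * qf (P w (L.drop x) (st L x h g)) (uK l₀ q x)) ^ 2) ∧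
    (∀ x t t', x ≤ t → t ≤ L.length + 1 → x ≤ t' → t' ≤ L.length + 1 → x ≤ L.length →
      0 ≤ (ee w L h (uK l₀ q) (uK l₀ q)).sN L.length x (L.length + 1) (L.length + 1) -
        (ee w L h (uK l₀ q) (uK l₀ q)).sN L.length x t t' ∧
      (ee w L h (uK l₀ q) (uK l₀ q)).sN L.length x (L.length + 1) (L.length + 1) -
        (ee w L h (uK l₀ q) (uK l₀ q)).sN L.length x t t' ≤
        (if t ≤ L.length then vt w L l₀ h x t else 0) +
          if t' ≤ L.length then vt w L l₀ h x t' else 0) ∧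
    ∀ x ≤ L.length, (ee w L h (uK l₀ q) (uK l₀ q)).sN L.length x (L.length + 1) (L.length + 1) =
      pi2 w L x (fun a b => uK l₀ q x a b ^ 2) h

theorem baseS2 : BaseS2 := fun Ω _ _ L h l₀ q hw =>
  ⟨VV Ω, inferInstance, inferInstance, ipE hw L h, dV L l₀ hw q, pV L l₀ hw, PE hw L,
    bs L l₀ hw h q, fun _ _ _ => lo3 L l₀ hw h q, ip_sum_pE L l₀ hw h q,
    fun _ _ _ => sn_bds L l₀ hw h q, fun _ => sn_top L l₀ hw h q⟩

end Crest.Agent.T156.Cas.Q75

end
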