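import Crest.Agent.T156.Q2Def_75
import Crest.Agent.T156.Lad_79

/-!
# Row 156 (helper53): the martingale structure of the base factor of the two-edge term

`TM_cat`: replicas that all leave one trunk are independent given the path of the trunk.
`baseS`: leaf (C) of `Q2Def_75`.
-/

set_option autoImplicit false
set_option linter.unusedSectionVars false

noncomputable section

namespace Crest.Agent.T156.Cas.Base53

open Crest.Agent.T157.E Crest.Agent.T157.Casc Crest.Agent.T157.SL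
open Nu87 Wt87 Lp12 Sy41 Lad79

variable {Ω : Type} [Fintype Ω] {w : Ω → ℝ}

/-! ### caterpillars -/

/-- independent samples from the node laws along a path -/
def itE (w : Ω → ℝ) (L : List (Lv Ω)) (p : Pth Ω) :
    (r : ℕ) → (Fin r → ℕ) → ((Fin r → Ω) → ℝ) → ℝ
  | 0, _, F => F Fin.elim0
  | r + 1, j, F => itE w L p r (fun a => j a.succ) fun x =>
      ∑ y, P w (L.drop (j 0)) (p (j 0)) y * F (Fin.cons y x)

theorem cat_ex (hw : Wt w) (L : List (Lv Ω)) (h : Ω → ℝ) : ∀ (r : ℕ) (j : Fin r → ℕ),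
    (∀ a, j a ≤ L.length) → ∃ (s : Sh) (a₀ : s.Lf) (e : Fin r → s.Lf), Function.Injective e ∧
      (∀ a, s.shr (e a) a₀ L.length = j a) ∧
      (∀ a b, a ≠ b → s.shr (e a) (e b) L.length = min (j a) (j b)) ∧
      ∀ F : Pth Ω → (Fin r → Ω) → ℝ, (∀ x, EP fun p => F p x) →
        tF w s L h (fun p x => F (p a₀) fun a => x (e a)) = EE w L h fun p => itE w L p r j (F p)
  | 0, _, _ => ⟨.one, (), Fin.elim0, fun a => a.elim0, fun a => a.elim0, fun a => a.elim0,
      fun F hF => by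
        refine Eq.trans ?_ (EE_tF hw L h (hF Fin.elim0)).symm
        congr 1
        funext p x
        congr 1
        funext a
        exact a.elim0⟩
  | r + 1, j, hj => by
      obtain ⟨s, a₀, e, he, h1, h2, h3⟩ := cat_ex hw L h r (fun a => j a.succ) fun a => hj _
      have k0 : ∀ a, s.shr (e a) a₀ (min (j 0) L.length) = min (j 0) (j a.succ) := fun a => by
        rw [shr_min, h1]
      refine ⟨s.graft a₀ (j 0), s.emb a₀ (j 0) a₀,
        Fin.cons (s.nw a₀ (j 0)) fun a => s.emb a₀ (j 0) (e a), ?_, ?_, ?_, fun F hF => ?_⟩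
      · refine Fin.cons_injective_iff.2 ⟨?_, (Tay38.emb_inj s a₀ _).comp he⟩
        rintro ⟨a, ha⟩
        exact Tay38.emb_ne s a₀ _ _ ha
      · refine Fin.cases ?_ fun a => ?_
        · exact (shr_nw' s a₀ _ a₀ _).trans ((shr_self _ _ _).trans (min_eq_left (hj 0)))
        · exact (shr_emb s a₀ _ _ _ _).trans (h1 a)
      · refine Fin.cases (Fin.cases (fun hh => absurd rfl hh) fun b _ => ?_) fun a =>
          Fin.cases (fun _ => ?_) fun b hh => ?_
        · exact (shr_nw' s a₀ _ _ _).trans (k0 b)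
        · exact (shr_nw s a₀ _ _ _).trans ((k0 a).trans (min_comm _ _))
        · exact (shr_emb s a₀ _ _ _ _).trans (h2 a b fun e' => hh (congrArg _ e'))
      · have g := tX_graft hw s a₀ (j 0) L h
          (fun p x y => F (p a₀) (Fin.cons y fun a => x (e a)))
          fun x y => fun ι _ _ hp => hF _ ι _ (hp a₀)
        have i := h3 (fun p x => ∑ y, P w (L.drop (j 0)) (p (j 0)) y * F p (Fin.cons y x))
          fun x => EP.sum _ fun y _ => (EP.state (eg_P hw _ y) _).mul (hF _)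
        refine Eq.trans ?_ (g.trans i)
        refine congrArg (tX w _ L h) (funext fun g => funext fun x => congrArg (F _) ?_)
        funext a
        exact Fin.cases rfl (fun _ => rfl) a

/-- **caterpillar trees** -/
theorem TM_cat (hw : Wt w) (L : List (Lv Ω)) (h : Ω → ℝ) {r : ℕ} (j : Fin r → ℕ)
    (hj : ∀ a, j a ≤ L.length) {σ : SM r} (h0 : ∀ a, σ a a = L.length)
    (h1 : ∀ a b, a ≠ b → σ a b = min (j a) (j b)) (F : (Fin r → Ω) → ℝ) :
    TM w L h σ F = EE w L h fun p => itE w L p r j F := by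
  obtain ⟨s, a₀, e, he, -, h2, h3⟩ := cat_ex hw L h r j hj
  have : σ = sm s e L.length := funext fun a => funext fun b => by
    rcases eq_or_ne a b with rfl | hab
    · exact (h0 a).trans (shr_self _ _ _).symm
    · exact (h1 a b hab).trans (h2 a b hab).symm
  rw [this, TM_sm hw s L h he]
  exact h3 (fun _ => F) fun _ => EP.const _

/-! ### path functionals -/

section path
variable (w) (L : List (Lv Ω)) (l₀ : Lv Ω)

/-- the mean vector at the node `y` -/
def mP (y : ℕ) (p : Pth Ω) : l₀.ι → ℝ := mv w (L.drop y) l₀ (p y)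

/-- `m_y · A - c` -/
def fP (y : ℕ) (c : ℝ) (p : Pth Ω) : Ω → ℝ := fun u => l₀.fld (mP w L l₀ y p) u - c

/-- `m_y · m_t` -/
def MM (y t : ℕ) (p : Pth Ω) : ℝ := Pf w (L.drop t) (p t) (l₀.fld (mP w L l₀ y p))

variable {w}

theorem MM_eq (y t : ℕ) (p : Pth Ω) :
    MM w L l₀ y t p = ∑ i, mP w L l₀ t p i * mP w L l₀ y p i := Pf_fld _ _ _ _

theorem MM_self (y : ℕ) (p : Pth Ω) : MM w L l₀ y y p = rr w (L.drop y) l₀ (p y) := by
  simp only [MM_eq, rr, sq, mP]

theorem MM_comm (y t : ℕ) (p : Pth Ω) : MM w L l₀ y t p = MM w L l₀ t y p := by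
  simp only [MM_eq, mul_comm]

theorem ad_mP {y t : ℕ} (e : y ≤ t) : Ad t (mP w L l₀ y) := Ad.state e (mv w (L.drop y) l₀)

theorem ad_MM {y t u : ℕ} (e : y ≤ u) (e' : t ≤ u) : Ad u (MM w L l₀ y t) :=
  (Ad.state e' fun z => z).comp₂ (ad_mP L l₀ e) fun z v => Pf w (L.drop t) z (l₀.fld v)

variable (hw : Wt w)
include hw

theorem ep_mP (y : ℕ) (i : l₀.ι) : EP fun p => mP w L l₀ y p i := EP.state (eg_mv hw _ l₀ i) y

theorem ep_MM (y t : ℕ) : EP (MM w L l₀ y t) := by
  have : MM w L l₀ y t = _ := funext (MM_eq L l₀ y t)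
  rw [this]
  exact EP.sum _ fun i _ => (ep_mP L l₀ hw t i).mul (ep_mP L l₀ hw y i)

theorem Pf_subc (N : List (Lv Ω)) (z f : Ω → ℝ) (c : ℝ) :
    Pf w N z (fun u => f u - c) = Pf w N z f - c := by
  simp only [Pf, mul_sub, Finset.sum_sub_distrib, ← Finset.sum_mul, sum_P hw, one_mul]

theorem Pf_fP (y t : ℕ) (c : ℝ) (p : Pth Ω) :
    Pf w (L.drop t) (p t) (fP w L l₀ y c p) = MM w L l₀ y t p - c := Pf_subc hw _ _ _ c

theorem sum_cov (y : ℕ) (c : ℝ) (p : Pth Ω) (u : Ω) :
    ∑ v, P w (L.drop y) (p y) v * (l₀.cov v u - c) = fP w L l₀ y c p u := by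
  refine (Pf_subc hw _ _ (fun v => l₀.cov v u) c).trans (congrArg (· - c) ?_)
  refine (Pf_fld (w := w) (L.drop y) l₀ (p y) (l₀.A u)).trans ?_
  simp only [Lv.fld, mP, mul_comm]

theorem sum_cov' (y : ℕ) (c : ℝ) (p : Pth Ω) (u : Ω) :
    ∑ v, P w (L.drop y) (p y) v * (l₀.cov u v - c) = fP w L l₀ y c p u := by
  rw [← sum_cov L l₀ hw]
  simp only [Lv.cov, mul_comm]

theorem it4 (p : Pth Ω) (a b c d : ℕ) (q q' : ℝ) :
    itE w L p 4 ![a, b, c, d] (fun x => (l₀.cov (x 2) (x 3) - q) * (l₀.cov (x 0) (x 1) - q')) =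
      (MM w L l₀ c d p - q) * (MM w L l₀ a b p - q') := by
  have e : itE w L p 4 ![a, b, c, d]
      (fun x => (l₀.cov (x 2) (x 3) - q) * (l₀.cov (x 0) (x 1) - q')) =
      ∑ y3, P w (L.drop d) (p d) y3 * ∑ y2, P w (L.drop c) (p c) y2 *
        ∑ y1, P w (L.drop b) (p b) y1 * ∑ y0, P w (L.drop a) (p a) y0 *
          ((l₀.cov y2 y3 - q) * (l₀.cov y0 y1 - q')) := rfl
  have e1 : ∀ k : ℝ, ∑ y1, P w (L.drop b) (p b) y1 * ∑ y0, P w (L.drop a) (p a) y0 *
      (k * (l₀.cov y0 y1 - q')) = k * (MM w L l₀ a b p - q') := fun k => by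
    simp only [mul_left_comm _ k, ← Finset.mul_sum, sum_cov L l₀ hw]
    exact congrArg (k * ·) (Pf_fP L l₀ hw a b q' p)
  simp only [e, e1]
  simp only [← mul_assoc, ← Finset.sum_mul, sum_cov L l₀ hw]
  exact congrArg (· * (MM w L l₀ a b p - q')) (Pf_fP L l₀ hw c d q p)

theorem it3 (p : Pth Ω) (a b c : ℕ) (q q' : ℝ) :
    itE w L p 3 ![a, b, c] (fun x => (l₀.cov (x 1) (x 2) - q) * (l₀.cov (x 0) (x 1) - q')) =
      Pf w (L.drop b) (p b) fun u => fP w L l₀ c q p u * fP w L l₀ a q' p u := by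
  have e : itE w L p 3 ![a, b, c]
      (fun x => (l₀.cov (x 1) (x 2) - q) * (l₀.cov (x 0) (x 1) - q')) =
      ∑ y2, P w (L.drop c) (p c) y2 * ∑ y1, P w (L.drop b) (p b) y1 *
        ∑ y0, P w (L.drop a) (p a) y0 * ((l₀.cov y1 y2 - q) * (l₀.cov y0 y1 - q')) := rfl
  have e1 : ∀ (k : ℝ) y1, ∑ y0, P w (L.drop a) (p a) y0 * (k * (l₀.cov y0 y1 - q')) =
      k * fP w L l₀ a q' p y1 := fun k y1 => by
    simp only [mul_left_comm _ k, ← Finset.mul_sum, sum_cov L l₀ hw]
  simp only [e, e1, Finset.mul_sum]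
  rw [Finset.sum_comm, Pf]
  refine Finset.sum_congr rfl fun u _ => ?_
  rw [← sum_cov' L l₀ hw c, Finset.sum_mul, Finset.mul_sum]
  exact Finset.sum_congr rfl fun _ _ => by ring

/-- the martingale property of `t ↦ m_y · m_t` -/
theorem CE_MM {y t t' : ℕ} (e : y ≤ t) (e' : t ≤ t') (p : Pth Ω) :
    CE w L t (MM w L l₀ y t') p = MM w L l₀ y t p :=
  (CE_node hw L e' (ad_mP L l₀ e) (fun v z => Pf w (L.drop t') z (l₀.fld v)) p).trans
    (node_Pf hw L e' _ _)

theorem orth (h : Ω → ℝ) {y t t' : ℕ} (e : y ≤ t) (e' : t ≤ t') {H : Pth Ω → ℝ} (aH : Ad t H) :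
    EE w L h (fun p => H p * (MM w L l₀ y t' p - MM w L l₀ y t p)) = 0 := by
  rw [EE_tower hw t, funext (CE_mul L aH _)]
  simp only [CE_sub hw L t (ep_MM L l₀ hw y t') (ep_MM L l₀ hw y t), CE_MM L l₀ hw e e',
    CE_MM L l₀ hw e le_rfl, sub_self, mul_zero, EE_const hw]

/-! ### conditional second moments -/

theorem Nf_cen {x t : ℕ} (e : x ≤ t) (z f g : Ω → ℝ) (c d : ℝ) :
    Nf w L x t z (fun u => f u - c) (fun u => g u - d) =
      Nf w L x t z f g - d * Pf w (L.drop x) z f - c * Pf w (L.drop x) z g + c * d := by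
  by_cases ht : t ≤ L.length
  · have ef := Hess87.eg_Pf hw (L.drop t) f
    have eg := Hess87.eg_Pf hw (L.drop t) g
    have e1 : (fun z' => Pf w (L.drop t) z' (fun u => f u - c) * Pf w (L.drop t) z' fun u => g u - d) =
        fun z' => Pf w (L.drop t) z' f * Pf w (L.drop t) z' g - d * Pf w (L.drop t) z' f -
          c * Pf w (L.drop t) z' g + c * d := funext fun z' => by
      rw [Pf_subc hw, Pf_subc hw]; ring
    rw [Nf_le L ht, Nf_le L ht, e1,
      node_add hw (((ef.mul eg).sub (ef.const_mul d)).sub (eg.const_mul c)) (Eg.const _),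
      node_sub hw ((ef.mul eg).sub (ef.const_mul d)) (eg.const_mul c),
      node_sub hw (ef.mul eg) (ef.const_mul d), node_const_mul, node_const_mul, node_const hw]
    simp only [node_Pf hw L e]
  · have e1 : ∀ u, P w (L.drop x) z u * ((f u - c) * (g u - d)) =
        P w (L.drop x) z u * (f u * g u) - d * (P w (L.drop x) z u * f u) -
          c * (P w (L.drop x) z u * g u) + c * d * P w (L.drop x) z u := fun u => by ring
    simp only [Nf_leaf L (not_le.1 ht), Pf, e1, Finset.sum_add_distrib, Finset.sum_sub_distrib,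
      ← Finset.mul_sum, sum_P hw, mul_one]

/-- tower property along the path -/
theorem EE_Nf (h : Ω → ℝ) {y x t : ℕ} (e : y ≤ x) (e' : x ≤ t) {f g : Pth Ω → Ω → ℝ}
    (hf : Ad y f) (hg : Ad y g) :
    EE w L h (fun p => Nf w L x t (p x) (f p) (g p)) =
      EE w L h fun p => Nf w L y t (p y) (f p) (g p) := by
  have := EE_tw hw L h e (hf.comp₂ hg Prod.mk) fun v z => Nf w L x t z v.1 v.2
  simpa only [node_Nf hw L e e'] using this

end path

/-- `E_x [(m_a · A)(m_b · A)]`, meeting level `t` -/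
def NN (w : Ω → ℝ) (L : List (Lv Ω)) (l₀ : Lv Ω) (x t a b : ℕ) (p : Pth Ω) : ℝ :=
  Nf w L x t (p x) (l₀.fld (mP w L l₀ a p)) (l₀.fld (mP w L l₀ b p))

section nn
variable (L : List (Lv Ω)) (l₀ : Lv Ω) (hw : Wt w) (h : Ω → ℝ)
include hw

theorem ep_NN (x t a b : ℕ) : EP (NN w L l₀ x t a b) := by
  have : NN w L l₀ x t a b = _ := funext fun p => Nf_fld hw L l₀ x t (p x) _ _
  rw [this]
  exact EP.sum _ fun i _ => EP.sum _ fun k _ => ((ep_mP L l₀ hw a i).mul (ep_mP L l₀ hw b k)).mul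
    (EP.state (eg_Nm hw L l₀ x t i k) x)

theorem NN_le {y x t : ℕ} (e : y ≤ x) (e' : x ≤ t) (hx : x ≤ L.length) :
    EE w L h (fun p => NN w L l₀ x t y y p - NN w L l₀ x x y y p) ≤ Q33.vv w L l₀ h y := by
  have a : Ad y fun p => l₀.fld (mP w L l₀ y p) := (ad_mP L l₀ le_rfl).comp l₀.fld
  have h1 : EE w L h (NN w L l₀ x t y y) = EE w L h (NN w L l₀ y t y y) := EE_Nf L hw h e e' a a
  have h2 : EE w L h (NN w L l₀ x x y y) = EE w L h (NN w L l₀ y x y y) :=
    EE_Nf L hw h e le_rfl a a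
  rw [EE_sub hw L h (ep_NN L l₀ hw _ _ _ _) (ep_NN L l₀ hw _ _ _ _), h1, h2,
    ← EE_sub hw L h (ep_NN L l₀ hw _ _ _ _) (ep_NN L l₀ hw _ _ _ _), Q33.vv, ← EE_node hw]
  refine EE_mono hw L h ((ep_NN L l₀ hw _ _ _ _).sub (ep_NN L l₀ hw _ _ _ _))
    (EP.state (eg_Vq hw _ l₀) y) fun p => ?_
  have k1 := Nf_mono hw L (e.trans e') (le_max_left t (L.length + 1)) (p y) (l₀.fld (mP w L l₀ y p))
  have k2 := Nf_mono hw L le_rfl e (p y) (l₀.fld (mP w L l₀ y p))
  rw [Nf_leaf L (Nat.lt_of_succ_le (le_max_right _ _))] at k1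
  rw [Nf_self L (e.trans hx)] at k2
  simp only [NN, Vq, Cb, mP] at k1 k2 ⊢
  linarith

theorem NN_psd {x t : ℕ} (e' : x ≤ t) (a b : ℕ) (s : ℝ) (p : Pth Ω) :
    0 ≤ (NN w L l₀ x t a a p - NN w L l₀ x x a a p) * (s * s) +
      2 * (NN w L l₀ x t a b p - NN w L l₀ x x a b p) * s +
      (NN w L l₀ x t b b p - NN w L l₀ x x b b p) := by
  have H := psd_incr hw L l₀ le_rfl e' (p x)
  refine (H.nn fun i => s * mP w L l₀ a p i + mP w L l₀ b p i).trans_eq ?_
  have sy : ∑ i, ∑ k, mP w L l₀ b p i * mP w L l₀ a p k *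
      (Nm w L l₀ x t (p x) - Nm w L l₀ x x (p x)) i k = ∑ i, ∑ k, mP w L l₀ a p i * mP w L l₀ b p k *
      (Nm w L l₀ x t (p x) - Nm w L l₀ x x (p x)) i k := by
    rw [Finset.sum_comm]
    exact Finset.sum_congr rfl fun i _ => Finset.sum_congr rfl fun k _ => by rw [H.symm k i]; ring
  have ex : ∀ c d, NN w L l₀ x t c d p - NN w L l₀ x x c d p = ∑ i, ∑ k,
      mP w L l₀ c p i * mP w L l₀ d p k * (Nm w L l₀ x t (p x) - Nm w L l₀ x x (p x)) i k :=
    fun c d => by simp only [NN, Nf_fld hw, Pi.sub_apply, mul_sub, Finset.sum_sub_distrib]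
  rw [ex, ex, ex, two_mul, add_mul]
  nth_rw 2 [← sy]
  simp only [Finset.sum_mul, ← Finset.sum_add_distrib]
  exact Finset.sum_congr rfl fun i _ => Finset.sum_congr rfl fun k _ => by ring

theorem abs_NN_le {y x t : ℕ} (e : y ≤ x) (e' : x ≤ t) (hx : x ≤ L.length) :
    |EE w L h (fun p => NN w L l₀ x t x y p - NN w L l₀ x x x y p)| ≤
      √(Q33.vv w L l₀ h y) * √(Q33.vv w L l₀ h x) := by
  have d := fun a b => (ep_NN L l₀ hw x t a b).sub (ep_NN L l₀ hw x x a b)
  have h1 := NN_le L l₀ hw h le_rfl e' hx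
  have h2 := NN_le L l₀ hw h e e' hx
  have key : ∀ s : ℝ, 0 ≤ Q33.vv w L l₀ h x * (s * s) +
      2 * EE w L h (fun p => NN w L l₀ x t x y p - NN w L l₀ x x x y p) * s +
      Q33.vv w L l₀ h y := fun s => by
    have k := EE_nonneg (w := w) L h (NN_psd L l₀ hw e' x y s)
    simp only [mul_comm _ (s * s), mul_comm _ s, ← mul_assoc s 2] at k
    rw [EE_add hw L h (((d x x).const_mul _).add ((d x y).const_mul _)) (d y y),
      EE_add hw L h ((d x x).const_mul _) ((d x y).const_mul _), EE_const_mul, EE_const_mul] at k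
    nlinarith [mul_le_mul_of_nonneg_left h1 (mul_self_nonneg s)]
  have k := discrim_le_zero key
  rw [discrim] at k
  rw [← Real.sqrt_mul (Q33.vv_nonneg hw l₀ h L y)]
  exact Real.abs_le_sqrt (by nlinarith)

theorem cen_sub {x t : ℕ} (e' : x ≤ t) (a b : ℕ) (c d : ℝ) (p : Pth Ω) :
    Nf w L x t (p x) (fP w L l₀ a c p) (fP w L l₀ b d p) =
      Nf w L x x (p x) (fP w L l₀ a c p) (fP w L l₀ b d p) +
        (NN w L l₀ x t a b p - NN w L l₀ x x a b p) := by
  unfold fP NN
  rw [Nf_cen L hw e', Nf_cen L hw le_rfl]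
  ring

theorem cen_self {x : ℕ} (hx : x ≤ L.length) (a b : ℕ) (c d : ℝ) (p : Pth Ω) :
    Nf w L x x (p x) (fP w L l₀ a c p) (fP w L l₀ b d p) =
      (MM w L l₀ a x p - c) * (MM w L l₀ b x p - d) := by
  rw [Nf_self L hx, Pf_fP L l₀ hw, Pf_fP L l₀ hw]

omit hw in
theorem ad_fP {y t : ℕ} (e : y ≤ t) {c : Pth Ω → ℝ} (hc : Ad t c) :
    Ad t fun p => fP w L l₀ y (c p) p :=
  (ad_mP L l₀ e).comp₂ hc fun v c u => l₀.fld v u - c

/-! ### the entries of the base factor -/

open Q75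

theorem lo_four (q : ℕ → ℝ) {y x t : ℕ} (e : y ≤ x) (e' : y ≤ t) (hx : x ≤ L.length)
    (ht : t ≤ L.length) : (ee w L h (uK l₀ q) (uK l₀ q)).lo L.length y x t =
      EE w L h fun p => (MM w L l₀ (max t x) x p - q x) * (MM w L l₀ t y p - q y) := by
  rw [Tw.lo, if_neg (by omega)]
  refine (TM_cat hw L h ![t, y, max t x, x] (fun a => ?_) (fun a => ?_) (fun a b hab => ?_) _).trans
    (congrArg (EE w L h) (funext fun p => it4 L l₀ hw p _ _ _ _ _ _))
  · fin_cases a <;> simp <;> omega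
  · fin_cases a <;> rfl
  · fin_cases a <;> fin_cases b <;> simp [m4] at hab ⊢ <;> omega

theorem lo_three (q : ℕ → ℝ) {y x : ℕ} (e : y ≤ x) (hx : x ≤ L.length) :
    (ee w L h (uK l₀ q) (uK l₀ q)).lo L.length y x (L.length + 1) =
      EE w L h fun p => Pf w (L.drop L.length) (p L.length)
        fun u => fP w L l₀ x (q x) p u * fP w L l₀ y (q y) p u := by
  rw [Tw.lo, if_pos rfl]
  refine (TM_cat hw L h ![y, L.length, x] (fun a => ?_) (fun a => ?_) (fun a b hab => ?_) _).trans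
    (congrArg (EE w L h) (funext fun p => it3 L l₀ hw p _ _ _ _ _))
  · fin_cases a <;> simp <;> omega
  · fin_cases a <;> rfl
  · fin_cases a <;> fin_cases b <;> simp [m3] at hab ⊢ <;> omega

theorem lo_high (q : ℕ → ℝ) {y x t : ℕ} (e : y ≤ x) (e' : x < t) (hx : x ≤ L.length)
    (ht : t ≤ L.length + 1) : (ee w L h (uK l₀ q) (uK l₀ q)).lo L.length y x t =
      EE w L h fun p => Nf w L x t (p x) (fP w L l₀ x (q x) p) (fP w L l₀ y (q y) p) := by
  have a1 := ad_fP (w := w) L l₀ (le_refl x) (Ad.const x (q x))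
  have a2 := ad_fP (w := w) L l₀ e (Ad.const x (q y))
  rcases ht.eq_or_lt with rfl | ht
  · rw [lo_three L l₀ hw h q e hx, ← EE_Nf L hw h hx (Nat.le_succ _) a1 a2]
    simp only [Nf_leaf L (Nat.lt_succ_self _)]
  · have ht' : t ≤ L.length := by omega
    rw [lo_four L l₀ hw h q e (by omega) hx ht', ← EE_Nf L hw h e'.le le_rfl a1 a2]
    simp only [cen_self L l₀ hw ht', max_eq_left e'.le, MM_comm L l₀ t]

theorem CE_del (c : ℝ) {z x : ℕ} (e : z ≤ x) (p : Pth Ω) :
    CE w L z (fun p => MM w L l₀ x x p - c) p =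
      pi2 w (L.drop z) (x - z) (fun u v => l₀.cov u v - c) (p z) := by
  have := CE_node hw L e (Ad.const z ()) (fun _ s => rr w (L.drop x) l₀ s - c) p
  simp only [MM_self]
  rw [this, pi2, List.drop_drop, Nat.add_sub_cancel' e]
  refine congrArg (fun F => node w (L.drop z) (x - z) F (p z)) (funext fun s => ?_)
  have h1 := MM_self (w := w) L l₀ x fun _ => s
  have h2 := Pf_fP L l₀ hw x x c fun _ => s
  have h3 := sum_cov' L l₀ hw x c fun _ => s
  rw [← h1, ← h2]
  simp only [qf, Pf, ← h3, Finset.mul_sum, mul_assoc]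

theorem off_eq (q : ℕ → ℝ) {z x k : ℕ} (e : z < x) (e' : z < k) (hx : x ≤ L.length)
    (hk : k ≤ L.length) : (ee w L h (uK l₀ q) (uK l₀ q)).off L.length z x k =
      EE w L h fun p => CE w L z (fun p => MM w L l₀ x x p - q x) p *
        CE w L z (fun p => MM w L l₀ k k p - q k) p := by
  simp only [CE_del L l₀ hw _ e.le, CE_del L l₀ hw _ e'.le]
  rw [EE_node hw fun s => pi2 w (L.drop z) (x - z) (fun u v => l₀.cov u v - q x) s *
    pi2 w (L.drop z) (k - z) (fun u v => l₀.cov u v - q k) s]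
  set s : Sh := .split (Sh.two (k - z)) (Sh.two (x - z)) with hs
  let d : Fin 4 → s.Lf := ![.inl (Sh.twoL _), .inl (Sh.twoR _), .inr (Sh.twoL _), .inr (Sh.twoR _)]
  have ne : ∀ j, Sh.twoL j ≠ Sh.twoR j := fun j => Tay38.emb_ne .one () j ()
  have t1 : ∀ j, z < j → j ≤ L.length →
      (Sh.two (j - z)).shr (Sh.twoL _) (Sh.twoR _) (L.length - z) = j - z := fun j h1 h2 => by
    rw [shr_two]; omega
  have hd : Function.Injective d := by
    intro a b hab
    fin_cases a <;> fin_cases b <;> first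
      | rfl
      | exact absurd hab Sum.inl_ne_inr
      | exact absurd hab Sum.inr_ne_inl
      | exact absurd (Sum.inl_injective hab) (ne _)
      | exact absurd (Sum.inl_injective hab) (ne _).symm
      | exact absurd (Sum.inr_injective hab) (ne _)
      | exact absurd (Sum.inr_injective hab) (ne _).symm
  have hσ : m4 L.length k x z z z z = sm (stp z s) (fun a => stpL z s (d a)) L.length := by
    funext a b
    have e0 : L.length = L.length - z + z := by omega
    have k1 := t1 k e' hk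
    have k2 := (shr_comm _ _ _ _).trans (t1 k e' hk)
    have k3 := t1 x e hx
    have k4 := (shr_comm _ _ _ _).trans (t1 x e hx)
    rw [sm, e0, shr_stp, ← e0]
    fin_cases a <;> fin_cases b <;> first
      | exact e0.trans (congrArg (· + z) (shr_self _ _ _).symm)
      | exact (zero_add z).symm
      | exact (Nat.sub_add_cancel e'.le).symm.trans (congrArg (· + z) k1.symm)
      | exact (Nat.sub_add_cancel e'.le).symm.trans (congrArg (· + z) k2.symm)
      | exact (Nat.sub_add_cancel e.le).symm.trans (congrArg (· + z) k3.symm)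
      | exact (Nat.sub_add_cancel e.le).symm.trans (congrArg (· + z) k4.symm)
  have e1 : (ee w L h (uK l₀ q) (uK l₀ q)).off L.length z x k = TM w L h (m4 L.length k x z z z z)
      fun u => (l₀.cov (u 2) (u 3) - q x) * (l₀.cov (u 0) (u 1) - q k) := rfl
  rw [e1, hσ, TM_sm hw _ L h (e := fun a => stpL z s (d a)) ((stpL_inj z s).comp hd)]
  refine (TE_stp hw s (fun u => (l₀.cov (u (d 2)) (u (d 3)) - q x) *
    (l₀.cov (u (d 0)) (u (d 1)) - q k)) z L h).trans ?_
  refine congrArg (fun F => node w L z F h) (funext fun y => ?_)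
  have p1 := TE_pair hw (Sh.two (x - z)) (L.drop z) y (ne _) fun u v => l₀.cov u v - q x
  have p2 := TE_pair hw (Sh.two (k - z)) (L.drop z) y (ne _) fun u v => l₀.cov u v - q k
  rw [List.length_drop, t1 x e hx] at p1
  rw [List.length_drop, t1 k e' hk] at p2
  rw [← p1, ← p2, ← Law.TE_const_mul hw]
  refine (Law.TE_split hw _ _ _ y _).trans (congrArg (TE w _ _ y) (funext fun u => ?_))
  exact Law.TE_mul_const hw (Sh.two (x - z)) _ y
    (l₀.cov (u (Sh.twoL _)) (u (Sh.twoR _)) - q k)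
    fun v => l₀.cov (v (Sh.twoL _)) (v (Sh.twoR _)) - q x

theorem CE_sq_le {F : Pth Ω → ℝ} (hF : EP F) (z : ℕ) :
    EE w L h (fun p => CE w L z F p * CE w L z F p) ≤ EE w L h fun p => F p * F p := by
  have c := ep_CE hw L z hF
  have h1 : EE w L h (fun p => CE w L z F p * F p) =
      EE w L h fun p => CE w L z F p * CE w L z F p := by
    rw [EE_tower hw z, funext (CE_mul L (ad_CE L z F) F)]
  have h2 := EE_le2 hw L h (c.mul hF) (c.mul c) (hF.mul hF) (a := 1 / 2) (b := 1 / 2)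
    fun p => by nlinarith [sq_nonneg (CE w L z F p - F p)]
  linarith

theorem pi_sq_le {y : ℕ} (hy : y ≤ L.length) :
    EE w L h (fun p => (MM w L l₀ y L.length p - MM w L l₀ y y p) *
      (MM w L l₀ y L.length p - MM w L l₀ y y p)) ≤ Q33.vv w L l₀ h y := by
  have a := ad_fP (w := w) L l₀ (le_refl y) (ad_MM (w := w) L l₀ (le_refl y) le_rfl)
  have h1 := EE_Nf L hw h hy le_rfl a a
  simp only [cen_self L l₀ hw le_rfl, cen_sub L l₀ hw hy, cen_self L l₀ hw hy, sub_self, mul_zero,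
    zero_add] at h1
  rw [h1]
  exact NN_le L l₀ hw h le_rfl hy hy

end nn

/-! ### the space -/

/-- admissible path functionals -/
def VV (Ω : Type) [Fintype Ω] : Submodule ℝ (Pth Ω → ℝ) where
  carrier := {F | EP F}
  add_mem' := fun h h' => EP.add h h'
  zero_mem' := EP.const 0
  smul_mem' := fun c _ h => EP.const_mul c h

/-- `E F G` -/
def ipE (hw : Wt w) (L : List (Lv Ω)) (h : Ω → ℝ) : LinearMap.BilinForm ℝ (VV Ω) :=
  LinearMap.mk₂ ℝ (fun F G => EE w L h fun p => F.1 p * G.1 p)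
    (fun F F' G => by
      rw [← EE_add hw L h (EP.mul F.2 G.2) (EP.mul F'.2 G.2)]
      simp only [Submodule.coe_add, Pi.add_apply, add_mul])
    (fun c F G => by
      simp only [Submodule.coe_smul, Pi.smul_apply, smul_eq_mul, mul_assoc, EE_const_mul])
    (fun F G G' => by
      rw [← EE_add hw L h (EP.mul F.2 G.2) (EP.mul F.2 G'.2)]
      simp only [Submodule.coe_add, Pi.add_apply, mul_add])
    fun c F G => by
      simp only [Submodule.coe_smul, Pi.smul_apply, smul_eq_mul, mul_left_comm _ c, EE_const_mul]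

theorem ipE_eq (hw : Wt w) (L : List (Lv Ω)) (h : Ω → ℝ) (F G : VV Ω) :
    ipE hw L h F G = EE w L h fun p => F.1 p * G.1 p := rfl

/-- conditional expectation -/
def PE (hw : Wt w) (L : List (Lv Ω)) (z : ℕ) : VV Ω →ₗ[ℝ] VV Ω where
  toFun F := ⟨CE w L z F.1, ep_CE hw L z F.2⟩
  map_add' F G := Subtype.ext (funext fun p => CE_add hw L z F.2 G.2 p)
  map_smul' c F := Subtype.ext (funext fun p => CE_const_mul L z c F.1 p)

end Crest.Agent.T156.Cas.Base53

namespace Crest.Agent.T156.Cas.Q75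

open Crest.Agent.T157.E Crest.Agent.T157.Casc Crest.Agent.T157.SL
open Lp12 Base53

/-- **leaf (C)** -/
theorem baseS : BaseS := fun Ω _ w L h l₀ q hw => by
  have eM := ep_MM L l₀ hw
  have eδ : ∀ x, EP fun p => MM w L l₀ x x p - q x := fun x => (eM x x).sub (EP.const _)
  have eπ : ∀ y t, EP fun p => MM w L l₀ y t p - MM w L l₀ y y p := fun y t => (eM y t).sub (eM y y)
  have sp : ∀ x y t, EE w L h (fun p => (MM w L l₀ x x p - q x) * (MM w L l₀ y y p - q y)) +
      EE w L h (fun p => (MM w L l₀ x x p - q x) * (MM w L l₀ y t p - MM w L l₀ y y p)) =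
      EE w L h fun p => (MM w L l₀ x x p - q x) * (MM w L l₀ y t p - q y) := fun x y t => by
    rw [← EE_add hw L h ((eδ x).mul (eδ y)) ((eδ x).mul (eπ y t))]
    exact congrArg (EE w L h) (funext fun p => by ring)
  refine ⟨VV Ω, inferInstance, inferInstance, ipE hw L h,
    fun x => ⟨fun p => MM w L l₀ x x p - q x, eδ x⟩,
    fun y t => ⟨fun p => MM w L l₀ y t p - MM w L l₀ y y p, eπ y t⟩, PE hw L,
    ⟨fun u v => ?_, fun u => ?_, fun y => Real.sqrt_nonneg _,
      fun y x t h1 h2 h3 => ?_, fun y x t h1 h2 h3 h4 => ?_, fun y => ?_, fun y t v h1 _ h3 => ?_,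
      fun y t u h1 h2 _ => ?_, fun y hy => ?_, fun z x k h1 h2 h3 h4 => ?_, fun z u => ?_⟩,
    fun c y => ?_⟩
  · simp only [ipE_eq, mul_comm]
  · exact EE_nonneg L h fun p => mul_self_nonneg _
  · rw [lo_four L l₀ hw h q (h1.trans h2) h1 h3 (h2.trans h3), max_eq_right h2]
    simp only [ipE_eq, sp, MM_comm L l₀ t]
  · have d := (ep_NN L l₀ hw x t x y).sub (ep_NN L l₀ hw x x x y)
    rw [lo_high L l₀ hw h q h1 h2 h4 h3]
    simp only [ipE_eq, sp, cen_sub L l₀ hw h2.le, cen_self L l₀ hw h4]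
    rw [EE_add hw L h ((eδ x).mul ((eM y x).sub (EP.const _))) d, add_sub_cancel_left]
    exact abs_NN_le L l₀ hw h h1 h2.le h4
  · exact Subtype.ext (funext fun p => sub_self _)
  · refine Eq.trans ?_ (orth L l₀ hw h h1 (Nat.le_succ t)
      ((ad_MM (w := w) L l₀ h3 h3).comp (· - q v)))
    exact congrArg (EE w L h) (funext fun p => by simp)
  · refine Eq.trans ?_ (orth L l₀ hw h (h1.trans h2) (Nat.le_succ t)
      ((ad_MM (w := w) L l₀ (h1.trans h2) h2).comp₂
        (ad_MM (w := w) L l₀ (h1.trans h2) (h1.trans h2)) (· - ·)))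
    exact congrArg (EE w L h) (funext fun p => by simp)
  · rw [Real.sq_sqrt (Q33.vv_nonneg hw l₀ h L y)]
    exact pi_sq_le L l₀ hw h hy
  · exact off_eq L l₀ hw h q h1 h2 h3 h4
  · exact CE_sq_le L hw h u.2 z
  · rw [ipE_eq]
    refine congrArg (EE w L h) (funext fun p => ?_)
    simp only [Submodule.coe_sum, Finset.sum_apply, Submodule.coe_smul, Pi.smul_apply, smul_eq_mul,
      MM_self, Fp, sq]

end Crest.Agent.T156.Cas.Q75

end
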