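import Crest.Agent.T156.Q2Def_75

/-!
# Row 156 (helper97): regularity of the site coefficient of the two-edge term (`SiteS`)
-/

set_option autoImplicit false
set_option linter.unusedSectionVars false

noncomputable section

namespace Crest.Agent.T156.Cas.Q75.S97

open Finset
open Crest.Agent.T157.E Crest.Agent.T157.Casc Crest.Agent.T157.SL
open Crest.Agent.T156.Rect52 (mx G2)
open Nu87 Ker15 One15
open Crest.ProbabilityR.SpinGlassDynamics (spin)

/-! ### the calculus of the leg sums -/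

section legs
variable {Θ : Type} {L : List (Lv Θ)}

theorem dm_succ (L : List (Lv Θ)) (x : ℕ) : dm L 0 (x + 1) = ex L (x + 1) - ex L x := rfl

theorem sum_Ioc (L : List (Lv Θ)) {a b : ℕ} (hab : a ≤ b) :
    ∑ j ∈ Ioc a b, dm L 0 j = ex L b - ex L a := by
  induction b, hab using Nat.le_induction with
  | base => simp
  | succ b hb ih => rw [Finset.sum_Ioc_succ_top hb, ih, dm_succ]; ring

theorem ex0 (hM : Mono 0 L) (j : ℕ) : 0 ≤ ex L j := by
  have := sum_dm L 0 j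
  rw [sub_zero] at this
  rw [← this]
  exact Finset.sum_nonneg fun i _ => dm_nonneg hM i

theorem dm_le_ex (hM : Mono 0 L) : ∀ j, dm L 0 j ≤ ex L j
  | 0 => by simp [dm, exP]
  | j + 1 => by rw [dm_succ]; linarith [ex0 hM j]

theorem Lg_abs (hM : Mono 0 L) {u : ℕ} (hu : u ≤ L.length) {g : ℕ → ℝ} {c : ℝ}
    (h : ∀ t, u < t → t ≤ L.length + 1 → |g t| ≤ c) : |Lg L u g| ≤ 2 * c := by
  have h1 := h (L.length + 1) (by omega) le_rfl
  have c0 : 0 ≤ c := (abs_nonneg _).trans h1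
  have h2 : |∑ t ∈ Ioc u L.length, dm L 0 t * g t| ≤ ∑ t ∈ Ioc u L.length, dm L 0 t * c :=
    (Finset.abs_sum_le_sum_abs _ _).trans (Finset.sum_le_sum fun t ht => by
      have := Finset.mem_Ioc.1 ht
      rw [abs_mul, abs_of_nonneg (dm_nonneg hM t)]
      exact mul_le_mul_of_nonneg_left (h t this.1 (by omega)) (dm_nonneg hM t))
  rw [← Finset.sum_mul, sum_Ioc L hu] at h2
  have h3 : (ex L L.length - ex L u) * c ≤ 1 * c :=
    mul_le_mul_of_nonneg_right (by linarith [Tay38.ex_le_one hM L.length, ex0 hM u]) c0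
  exact (abs_sub _ _).trans (by linarith)

theorem abs_ex_mul (hM : Mono 0 L) (x : ℕ) {a c : ℝ} (h : |a| ≤ c) : |ex L x * a| ≤ c := by
  rw [abs_mul, abs_of_nonneg (ex0 hM x)]
  nlinarith [Tay38.ex_le_one hM x, ex0 hM x, abs_nonneg a]

theorem Lx_abs (hM : Mono 0 L) {u : ℕ} (hu : u ≤ L.length) {g : ℕ → ℝ} {c : ℝ}
    (h : ∀ t, u ≤ t → t ≤ L.length + 1 → |g t| ≤ c) : |Lx L u g| ≤ 3 * c := by
  have h1 := Lg_abs hM hu fun t ht => h t ht.le
  have h2 := abs_ex_mul hM u (h u le_rfl (by omega))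
  exact (abs_sub _ _).trans (by linarith)

theorem Lg_sub (L : List (Lv Θ)) (u : ℕ) (g g' : ℕ → ℝ) :
    Lg L u (fun t => g t - g' t) = Lg L u g - Lg L u g' := by
  simp only [Lg, mul_sub, Finset.sum_sub_distrib]; ring

theorem Lx_sub (L : List (Lv Θ)) (u : ℕ) (g g' : ℕ → ℝ) :
    Lx L u (fun t => g t - g' t) = Lx L u g - Lx L u g' := by
  simp only [Lx, Lg_sub]; ring

theorem Lg_succ (L : List (Lv Θ)) {u : ℕ} (hu : u < L.length) (g : ℕ → ℝ) :
    Lg L u g = Lg L (u + 1) g - dm L 0 (u + 1) * g (u + 1) := by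
  rw [Lg, Lg, ← Finset.sum_Ioc_consecutive _ (Nat.le_succ u) hu]
  simp only [Nat.succ_eq_add_one, Nat.Ioc_succ_singleton, Finset.sum_singleton]
  ring

theorem Lx_succ (L : List (Lv Θ)) {u : ℕ} (hu : u < L.length) (g : ℕ → ℝ) :
    Lx L u g = Lx L (u + 1) g + ex L u * (g (u + 1) - g u) := by
  rw [Lx, Lx, Lg_succ L hu, dm_succ]; ring

/-- pointwise regularity of `ℓ = T.lo` -/
structure Pt (K : ℕ) (ℓ : ℕ → ℕ → ℕ → ℝ) (c : ℝ) (P a : ℕ → ℝ) : Prop where
  h0 : ∀ y x t, y ≤ x → x ≤ K → y ≤ t → t ≤ K + 1 → |ℓ y x t| ≤ c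
  hx : ∀ y x t, y ≤ x → x < K → y ≤ t → t ≤ K + 1 → |ℓ y (x + 1) t - ℓ y x t| ≤ c * (P y * a x)
  ht : ∀ y x, y ≤ x → x < K → |ℓ y x (x + 1) - ℓ y x x| ≤ c * (P y * a x)
  hy : ∀ y x t, y < x → x ≤ K → y < t → t ≤ K + 1 → |ℓ (y + 1) x t - ℓ y x t| ≤ c * a y
  hyy : ∀ y x, y < x → x ≤ K → |ℓ (y + 1) x (y + 1) - ℓ y x y| ≤ c * a y
  hxy : ∀ y x t, y < x → x < K → y < t → t ≤ K + 1 →
    |ℓ (y + 1) (x + 1) t - ℓ (y + 1) x t - (ℓ y (x + 1) t - ℓ y x t)| ≤ c * (a y * a x)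
  hty : ∀ y x, y < x → x < K →
    |ℓ (y + 1) x (x + 1) - ℓ (y + 1) x x - (ℓ y x (x + 1) - ℓ y x x)| ≤ c * (a y * a x)
  hxyy : ∀ y x, y < x → x < K →
    |ℓ (y + 1) (x + 1) (y + 1) - ℓ (y + 1) x (y + 1) - (ℓ y (x + 1) y - ℓ y x y)| ≤ c * (a y * a x)

theorem abs_mul_le' {u v a b : ℝ} (hu : |u| ≤ a) (hv : |v| ≤ b) : |u * v| ≤ a * b := by
  rw [abs_mul]; exact mul_le_mul hu hv (abs_nonneg _) ((abs_nonneg _).trans hu)

variable {T : Tw} {c : ℝ} {P a : ℕ → ℝ}

theorem cP_step (L : List (Lv Θ)) (T : Tw) (y u : ℕ) {x : ℕ} (hx : x < L.length) :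
    cP L T y u (x + 1) - cP L T y u x =
      Lg L u (fun t => T.lo L.length y (x + 1) t - T.lo L.length y x t) +
      Lx L (x + 1) (fun t => T.lo L.length y (x + 1) t - T.lo L.length y x t) -
      ex L x * (T.lo L.length y x (x + 1) - T.lo L.length y x x) := by
  rw [cP, cP, Lg_sub, Lx_sub, Lx_succ L hx]; ring

theorem kap_abs (hM : Mono 0 L) (y : ℕ) : |dm L 0 y + ex L y| ≤ 2 := by
  rw [abs_of_nonneg (add_nonneg (dm_nonneg hM y) (ex0 hM y))]
  linarith [dm_le_ex hM y, Tay38.ex_le_one hM y]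

theorem kap_step (hM : Mono 0 L) {y : ℕ} {b : ℝ} (h1 : dm L 0 y ≤ b) (h2 : dm L 0 (y + 1) ≤ b) :
    |dm L 0 (y + 1) + ex L (y + 1) - (dm L 0 y + ex L y)| ≤ 2 * b := by
  have := dm_succ L y
  have := dm_nonneg hM y
  have := dm_nonneg hM (y + 1)
  rw [abs_le]; constructor <;> linarith

theorem Pt.p1 (H : Pt L.length (T.lo L.length) c P a) (hM : Mono 0 L) {y u x : ℕ} (h1 : y ≤ u)
    (h2 : u ≤ x) (hx : x < L.length) :
    |cP L T y u (x + 1) - cP L T y u x| ≤ 6 * (c * (P y * a x)) := by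
  rw [cP_step L T y u hx]
  have e1 := Lg_abs hM (u := u) (by omega) fun t ht ht' => H.hx y x t (by omega) hx (by omega) ht'
  have e2 := Lx_abs hM (u := x + 1) hx fun t ht ht' => H.hx y x t (by omega) hx (by omega) ht'
  have e3 := abs_ex_mul hM x (H.ht y x (by omega) hx)
  exact (abs_sub _ _).trans ((add_le_add (abs_add_le _ _) e3).trans (by linarith))

theorem Pt.m1 (H : Pt L.length (T.lo L.length) c P a) (hM : Mono 0 L) {y x : ℕ} (h1 : y ≤ x)
    (hx : x < L.length) : |LO L T y (x + 1) - LO L T y x| ≤ 14 * (c * (P y * a x)) := by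
  have e1 := abs_le.1 (H.p1 hM le_rfl h1 hx)
  have e2 := abs_le.1 (abs_mul_le' (kap_abs hM y) (H.hx y x y h1 hx le_rfl (by omega)))
  rw [LO, LO, abs_le]
  constructor <;> linarith [e1.1, e1.2, e2.1, e2.2]

theorem Pt.my (H : Pt L.length (T.lo L.length) c P a) (hM : Mono 0 L) {y x : ℕ} (h1 : y < x)
    (hx : x ≤ L.length) (d1 : dm L 0 y ≤ a y) (d2 : dm L 0 (y + 1) ≤ a y) :
    |LO L T (y + 1) x - LO L T y x| ≤ 16 * (c * a y) := by
  have e1 := abs_le.1 (Lg_abs hM (u := y + 1) (by omega)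
    fun t ht ht' => H.hy y x t h1 hx (by omega) ht')
  have e2 := abs_le.1 (Lx_abs hM hx fun t ht ht' => H.hy y x t h1 hx (by omega) ht')
  have e3 := abs_le.1 (abs_mul_le' ((abs_of_nonneg (dm_nonneg hM (y + 1))).trans_le d2)
    (H.h0 y x (y + 1) h1.le hx (by omega) (by omega)))
  have e4 := abs_le.1 (abs_mul_le' (kap_abs hM (y + 1)) (H.hyy y x h1 hx))
  have e5 := abs_le.1 (abs_mul_le' (kap_step hM d1 d2) (H.h0 y x y h1.le hx le_rfl (by omega)))
  rw [Lg_sub] at e1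
  rw [Lx_sub] at e2
  rw [LO, LO, cP, cP, Lg_succ L (by omega : y < L.length) (T.lo L.length y x), abs_le]
  constructor <;> linarith [e1.1, e1.2, e2.1, e2.2, e3.1, e3.2, e4.1, e4.2, e5.1, e5.2]

theorem Pt.m2 (H : Pt L.length (T.lo L.length) c P a) (hM : Mono 0 L) {y x : ℕ} (h1 : y < x)
    (hx : x < L.length) (d1 : dm L 0 y ≤ a y) (d2 : dm L 0 (y + 1) ≤ a y) (c0 : 0 ≤ c)
    (a0 : 0 ≤ a x) (hP : P y ≤ 2) : |mx (LO L T) y x| ≤ 22 * (c * (a y * a x)) := by
  have hb : c * (P y * a x) ≤ c * (2 * a x) := by gcongr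
  have e1 := abs_le.1 (Lg_abs hM (u := y + 1) (by omega)
    fun t ht ht' => H.hxy y x t h1 hx (by omega) ht')
  have e2 := abs_le.1 (Lx_abs hM (u := x + 1) hx
    fun t ht ht' => H.hxy y x t h1 hx (by omega) ht')
  have e3 := abs_le.1 (abs_mul_le' ((abs_of_nonneg (dm_nonneg hM (y + 1))).trans_le d2)
    ((H.hx y x (y + 1) h1.le hx (by omega) (by omega)).trans hb))
  have e4 := abs_le.1 (abs_mul_le' (kap_abs hM (y + 1)) (H.hxyy y x h1 hx))
  have e5 := abs_le.1 (abs_mul_le' (kap_step hM d1 d2)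
    ((H.hx y x y h1.le hx le_rfl (by omega)).trans hb))
  have e6 := abs_le.1 (abs_ex_mul hM x (H.hty y x h1 hx))
  have s1 := cP_step L T (y + 1) (y + 1) hx
  have s2 := cP_step L T y y hx
  rw [Lg_succ L (by omega : y < L.length)] at s2
  rw [Lg_sub] at e1
  rw [Lx_sub] at e2
  rw [mx, LO, LO, LO, LO, abs_le]
  constructor <;> linarith [e1.1, e1.2, e2.1, e2.2, e3.1, e3.2, e4.1, e4.2, e5.1, e5.2, e6.1, e6.2]

end legs

/-! ### the site in the matrix frame -/

section site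
variable {L : List (Lv Bool)} {r : ℕ}

theorem rz {K : ℕ} {σ : SM (r + 1)} (H : Um K σ) : Rz K σ := by
  obtain ⟨s, e, h1, h2, rfl⟩ := H.lab
  rw [max_eq_right (by simp)] at h1
  exact ⟨s, Equiv.ofBijective e ((Fintype.bijective_iff_injective_and_card e).2
    ⟨h2, (Fintype.card_le_of_injective e h2).antisymm h1⟩), rfl⟩

/-- the variance of the level `j` -/
def vv (L : List (Lv Bool)) (j : ℕ) : ℝ := tm L (j + 1) - tm L j

theorem vv0 (rL : R1 L) (j : ℕ) : 0 ≤ vv L j := sub_nonneg.2 (rL.tm_mono j.le_succ)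

theorem abs_cv (rL : R1 L) (j : ℕ) (x y : Bool) : |cv L j x y| ≤ vv L j := by
  rw [cv, rL.cacc, rL.cacc, ← sub_mul, abs_mul, abs_mul, One15.abs_spin, One15.abs_spin, mul_one,
    mul_one]
  exact (abs_of_nonneg (vv0 rL j)).le

/-- a monomial on a split matrix -/
def E4 (L : List (Lv Bool)) (k : Fin 4 → ℕ) (σ : SM 4) : ℝ := TM (fun _ => 1) L 0 σ (mo k)

theorem abs_E4 {σ : SM 4} (h : Um L.length σ) (k : Fin 4 → ℕ) : |E4 L k σ| ≤ 1 := by
  obtain ⟨s, e, -, he, rfl⟩ := h.lab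
  rw [E4, TM_sm w1 s L 0 he]
  exact One15.abs_TE_le w1 s L 0 fun x => (abs_mo k _).le

theorem mv1 (rL : R1 L) (hM : Mono 0 L) {j : ℕ} (hj : j < L.length) {σ σ' : SM 4}
    (h : Um L.length σ) (h' : Um L.length σ') (H : Mv j σ σ') (k : Fin 4 → ℕ) :
    |E4 L k σ' - E4 L k σ| ≤ 32 * vv L j := by
  choose s e _ he hs using fun b : Bool => (show Um L.length (bif b then σ' else σ) by
    cases b <;> assumption).lab
  have e0 : σ = sm _ (e false) L.length := (hs false).symm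
  have e1 : σ' = sm _ (e true) L.length := (hs true).symm
  rw [e0, e1] at H
  rw [E4, E4, e0, e1, TM_sm w1 _ L 0 (he true), TM_sm w1 _ L 0 (he false)]
  exact (move1 w1 hM hj he H (N := 4) (by norm_num) (by simp) 0 (fun x => (abs_mo k x).le)
    (abs_cv rL j)).trans_eq (by norm_num)

theorem PB_mono {N N' : ℕ} (h : N ≤ N') {σ : ℝ} (h0 : 0 < σ) : PB N σ ≤ PB N' σ := by
  unfold PB; gcongr

theorem mv1p (rL : R1 L) (hM : Mono 0 L) {j : ℕ} (hj : j < L.length) {σ σ' : SM 4}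
    (h : Um L.length σ) (h' : Um L.length σ') (H : Mv j σ σ') {k : Fin 4 → ℕ} {a : Fin 4} {i : ℕ}
    (hi : i ≤ j) (ha : Odd (bm σ' k a i)) {s : ℝ} (h0 : 0 < s) (hs : tm L i ≤ s) :
    |E4 L k σ' - E4 L k σ| ≤ 32 * (min 1 (PB 8 s) * vv L j) := by
  rcases le_total 1 (PB 8 s) with h1 | h1
  · rw [min_eq_left h1, one_mul]; exact mv1 rL hM hj h h' H k
  rw [min_eq_right h1]
  choose t e _ he ht using fun b : Bool => (show Um L.length (bif b then σ' else σ) by
    cases b <;> assumption).lab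
  have e0 : σ = sm _ (e false) L.length := (ht false).symm
  have e1 : σ' = sm _ (e true) L.length := (ht true).symm
  rw [e0, e1] at H
  rw [e1] at ha
  rw [E4, E4, e0, e1, TM_sm w1 _ L 0 (he true), TM_sm w1 _ L 0 (he false)]
  refine (move1_par rL hM hj he H (N := 4) (by norm_num) (by simp) hi ha h0 hs).trans ?_
  have := mul_le_mul_of_nonneg_right (PB_mono (by norm_num : 4 + 2 ≤ 8) h0) (vv0 rL j)
  rw [vv] at this ⊢
  push_cast
  linarith

theorem mv2 (rL : R1 L) (hM : Mono 0 L) {j j' : ℕ} (hjj : j < j') (hj : j' < L.length)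
    {σ₀ σ₁ σ₂ σ₃ : SM 4} (h₀ : Um L.length σ₀) (h₁ : Um L.length σ₁) (h₂ : Um L.length σ₂)
    (h₃ : Um L.length σ₃) (H : Mv j σ₀ σ₁) (H' : Mv j' σ₀ σ₂)
    (H2 : ∀ a c, σ₃ a c + σ₀ a c = σ₁ a c + σ₂ a c) (k : Fin 4 → ℕ) :
    |E4 L k σ₃ - E4 L k σ₁ - (E4 L k σ₂ - E4 L k σ₀)| ≤ 2304 * (vv L j * vv L j') := by
  choose s e _ he hs using fun b b' : Bool => (show Um L.length
    (bif b then (bif b' then σ₃ else σ₁) else (bif b' then σ₂ else σ₀)) by
    cases b <;> cases b' <;> assumption).lab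
  have e0 : σ₀ = sm _ (e false false) L.length := (hs false false).symm
  have e1 : σ₁ = sm _ (e true false) L.length := (hs true false).symm
  have e2 : σ₂ = sm _ (e false true) L.length := (hs false true).symm
  have e3 : σ₃ = sm _ (e true true) L.length := (hs true true).symm
  rw [e0, e1] at H
  rw [e0, e2] at H'
  rw [e0, e1, e2, e3] at H2
  rw [E4, E4, E4, E4, e0, e1, e2, e3, TM_sm w1 _ L 0 (he true true),
    TM_sm w1 _ L 0 (he true false), TM_sm w1 _ L 0 (he false true),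
    TM_sm w1 _ L 0 (he false false)]
  exact (move2 w1 hM hjj hj he H H' H2 (N := 4) (by norm_num) (by simp) 0
    (fun x => (abs_mo k x).le) (abs_cv rL j) (abs_cv rL j')).trans_eq (by norm_num)

/-- a replica that is alone above the depth `y ≤ K` -/
theorem par4 (rL : R1 L) (hM : Mono 0 L) {σ : SM 4} (h : Um L.length σ) {k : Fin 4 → ℕ}
    {a : Fin 4} {y : ℕ} (hy : y ≤ L.length) (ha : ∀ c, c ≠ a → σ a c ≤ y) (hk : Odd (k a)) {s : ℝ}
    (h0 : 0 < s) (hs : tm L y ≤ s) : |E4 L k σ| ≤ min 1 (PB 8 s) := by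
  refine le_min (abs_E4 h k) ?_
  have U : Um (L.length + 1) fun b c => if b = c then L.length + 1 else σ b c := by
    refine ⟨fun b => if_pos rfl, fun b c => by simp only [eq_comm (a := b), h.comm b c],
      fun b c d => ?_⟩
    have := h.ultra b c d
    have := h.le b c
    have := h.le c d
    have := h.le b d
    split_ifs with h1 h2 h3 h4 h5 h6 h7 <;> subst_vars <;> omega
  obtain ⟨t, e, c, he, e1⟩ := U.lab
  have e2 : σ = sm t e L.length := by
    funext b d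
    have h1 := Wt87.shr_min t (e b) (e d) L.length (L.length + 1)
    rw [min_eq_left (Nat.le_succ _), show t.shr (e b) (e d) (L.length + 1) = _ from
      congrFun (congrFun e1 b) d] at h1
    rw [sm, h1]
    have := h.le b d
    split_ifs with h2
    · rw [h2, h.self]; omega
    · omega
  rw [E4, e2, TM_sm w1 t L 0 he]
  simp only [mo_pk e k]
  refine (par1 rL hM t _ (N := 4) (c.trans (by simp)) (a := e a) (j := y) ?_ h0 hs).trans
    (PB_mono (by norm_num) h0)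
  rw [bd_pk t e k a (Nat.lt_succ_of_le hy), e1, bm, Finset.sum_eq_single a _ (by simp)]
  · rwa [if_pos rfl, if_pos (Nat.lt_succ_of_le hy)]
  · intro b _ hb
    rw [if_neg (Ne.symm hb), if_neg (not_lt.2 (ha b hb))]

/-- the matrix of `lo` -/
def sl (K y x t : ℕ) : SM 4 := m4 K y x t (min t x) y y

/-- the matrix of `off` -/
def so (K z x k : ℕ) : SM 4 := m4 K k x z z z z

theorem um_sl {K y x t : ℕ} (h1 : y ≤ x) (h2 : x ≤ K) (h3 : y ≤ t) (h4 : t ≤ K) :
    Um K (sl K y x t) := by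
  refine ⟨fun a => ?_, fun a b => ?_, fun a b c => ?_⟩
  · fin_cases a <;> rfl
  · fin_cases a <;> fin_cases b <;> rfl
  · fin_cases a <;> fin_cases b <;> fin_cases c <;> simp [sl, m4] <;> omega

theorem um_so {K z x k : ℕ} (h1 : z ≤ x) (h2 : x ≤ K) (h3 : z ≤ k) (h4 : k ≤ K) :
    Um K (so K z x k) := by
  refine ⟨fun a => ?_, fun a b => ?_, fun a b c => ?_⟩
  · fin_cases a <;> rfl
  · fin_cases a <;> fin_cases b <;> rfl
  · fin_cases a <;> fin_cases b <;> fin_cases c <;> simp [so, m4] <;> omega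

theorem um_m3 {K y x : ℕ} (h1 : y ≤ x) (h2 : x ≤ K) : Um K (m3 K y y x) := by
  refine ⟨fun a => ?_, fun a b => ?_, fun a b c => ?_⟩
  · fin_cases a <;> rfl
  · fin_cases a <;> fin_cases b <;> rfl
  · fin_cases a <;> fin_cases b <;> fin_cases c <;> simp [m3] <;> omega

/-- `Γ_j` -/
def Ga (L : List (Lv Bool)) (j : ℕ) : ℝ := pi2 (fun _ => 1) L j (fun a b => spin a * spin b) 0

theorem Ga_eq {σ : SM 4} (h : Um L.length σ) : E4 L ![1, 1, 0, 0] σ = Ga L (σ 0 1) := by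
  rw [Ga, ← TM_pair w1 (rz h) (by decide : (0 : Fin 4) ≠ 1), E4]
  congr 1
  funext x
  simp [mo, Fin.prod_univ_four]

theorem Ga_so {j : ℕ} (hj : j ≤ L.length) : Ga L j = E4 L ![1, 1, 0, 0] (so L.length j j j) :=
  (Ga_eq (um_so le_rfl hj le_rfl hj)).symm

theorem Ga_step (rL : R1 L) (hM : Mono 0 L) {j : ℕ} (hj : j < L.length) :
    |Ga L (j + 1) - Ga L j| ≤ 32 * vv L j := by
  rw [Ga_so hj, Ga_so hj.le]
  refine mv1 rL hM hj (um_so le_rfl hj.le le_rfl hj.le) (um_so le_rfl hj le_rfl hj) ?_ _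
  intro a b
  fin_cases a <;> fin_cases b <;> simp [so, m4]

theorem Ga_par (rL : R1 L) (hM : Mono 0 L) {y : ℕ} (hy : y ≤ L.length) {s : ℝ} (h0 : 0 < s)
    (hs : tm L y ≤ s) : |Ga L y| ≤ min 1 (PB 8 s) := by
  rw [Ga_so hy]
  refine par4 rL hM (um_so le_rfl hy le_rfl hy) (a := 1) hy (fun c hc => ?_) (by simp) h0 hs
  fin_cases c <;> simp_all [so, m4]

theorem Ga_one {y : ℕ} (hy : y ≤ L.length) : |Ga L y| ≤ 1 := by
  rw [Ga_so hy]; exact abs_E4 (um_so le_rfl hy le_rfl hy) _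

/-- the part without a four-point function -/
def Bq (L : List (Lv Bool)) (q : ℕ → ℝ) (y x : ℕ) : ℝ :=
  -(q y * Ga L x) - q x * Ga L y + q x * q y

/-- the four-point function of `lo` -/
def Al (L : List (Lv Bool)) (y x t : ℕ) : ℝ :=
  if t = L.length + 1 then Ga L y else E4 L (fun _ => 1) (sl L.length y x t)

theorem f4_eq (q : ℕ → ℝ) {σ : SM 4} (h : Um L.length σ) :
    (ee (fun _ => 1) L 0 (eK q) (eK q)).f4 σ =
      E4 L (fun _ => 1) σ + Bq L q (σ 0 1) (σ 2 3) := by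
  have e : (fun x : Fin 4 → Bool => ed (eK q) 2 3 x σ * ed (eK q) 0 1 x σ) = fun x =>
      mo (fun _ => 1) x + (-q (σ 0 1) * (spin (x 2) * spin (x 3)) +
        (-q (σ 2 3) * (spin (x 0) * spin (x 1)) + q (σ 2 3) * q (σ 0 1))) := by
    funext x
    simp only [ed, eK, mo, Fin.prod_univ_four, pow_one]
    ring
  show TM (fun _ : Bool => (1 : ℝ)) L 0 σ
    (fun x => ed (eK q) 2 3 x σ * ed (eK q) 0 1 x σ) = _
  rw [e, TM_add, TM_add, TM_add, TM_mul, TM_mul, TM_const w1 (rz h),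
    TM_pair w1 (rz h) (by decide : (2 : Fin 4) ≠ 3) fun a b => spin a * spin b,
    TM_pair w1 (rz h) (by decide : (0 : Fin 4) ≠ 1) fun a b => spin a * spin b]
  simp only [E4, Bq, Ga]
  ring

theorem lo_eq (q : ℕ → ℝ) {y x t : ℕ} (h1 : y ≤ x) (h2 : x ≤ L.length) (h3 : y ≤ t)
    (h4 : t ≤ L.length + 1) :
    (ee (fun _ => 1) L 0 (eK q) (eK q)).lo L.length y x t = Al L y x t + Bq L q y x := by
  rw [Tw.lo, Al]
  split_ifs with ht
  · have h := rz (um_m3 h1 h2)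
    have e : (fun z : Fin 3 → Bool => ed (eK q) 1 2 z (m3 L.length y y x) *
        ed (eK q) 0 1 z (m3 L.length y y x)) = fun z => spin (z 0) * spin (z 2) +
          (-q y * (spin (z 1) * spin (z 2)) + (-q x * (spin (z 0) * spin (z 1)) + q x * q y)) := by
      funext z
      have := One15.spin_sq (z 1)
      show (spin (z 1) * spin (z 2) - q x) * (spin (z 0) * spin (z 1) - q y) = _
      linear_combination (spin (z 0) * spin (z 2)) * this
    show TM (fun _ : Bool => (1 : ℝ)) L 0 (m3 L.length y y x) (fun z => ed (eK q) 1 2 z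
      (m3 L.length y y x) * ed (eK q) 0 1 z (m3 L.length y y x)) = _
    rw [e, TM_add, TM_add, TM_add, TM_mul, TM_mul, TM_const w1 h,
      TM_pair w1 h (by decide : (0 : Fin 3) ≠ 2) fun a b => spin a * spin b,
      TM_pair w1 h (by decide : (1 : Fin 3) ≠ 2) fun a b => spin a * spin b,
      TM_pair w1 h (by decide : (0 : Fin 3) ≠ 1) fun a b => spin a * spin b]
    show Ga L y + (-q y * Ga L x + (-q x * Ga L y + q x * q y)) = _
    rw [Bq]; ring
  · exact f4_eq q (um_sl h1 h2 h3 (by omega))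

theorem off_eq (q : ℕ → ℝ) {z x k : ℕ} (h1 : z ≤ x) (h2 : x ≤ L.length) (h3 : z ≤ k)
    (h4 : k ≤ L.length) : (ee (fun _ => 1) L 0 (eK q) (eK q)).off L.length z x k =
      E4 L (fun _ => 1) (so L.length z x k) + Bq L q k x := f4_eq q (um_so h1 h2 h3 h4)

theorem Bq_comm (q : ℕ → ℝ) (y x : ℕ) : Bq L q y x = Bq L q x y := by rw [Bq, Bq]; ring

/-- the step size -/
def st (L : List (Lv Bool)) (q : ℕ → ℝ) (i : ℕ) : ℝ :=
  tm L (i + 1) - tm L i + |q (i + 1) - q i| + dm L 0 i + dm L 0 (i + 1)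

section
variable (rL : R1 L) (hM : Mono 0 L) (q : ℕ → ℝ)
include rL hM

theorem st_bds (i : ℕ) : 0 ≤ st L q i ∧ vv L i ≤ st L q i ∧ |q (i + 1) - q i| ≤ st L q i ∧
    dm L 0 i ≤ st L q i ∧ dm L 0 (i + 1) ≤ st L q i := by
  have := vv0 rL i
  have := abs_nonneg (q (i + 1) - q i)
  have := dm_nonneg hM i
  have := dm_nonneg hM (i + 1)
  simp only [st, vv] at *
  refine ⟨?_, ?_, ?_, ?_, ?_⟩ <;> linarith

theorem Ga_st {j : ℕ} (hj : j < L.length) : |Ga L (j + 1) - Ga L j| ≤ 32 * st L q j :=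
  (Ga_step rL hM hj).trans (by linarith [(st_bds rL hM q j).2.1])

theorem Bq_x {y x : ℕ} (hx : x < L.length) {P : ℝ} (hP : |Ga L y| + |q y| ≤ P) :
    |Bq L q y (x + 1) - Bq L q y x| ≤ 33 * (P * st L q x) := by
  have e1 := abs_le.1 (abs_mul_le' (show |q y| ≤ P by linarith [abs_nonneg (Ga L y)])
    (Ga_st rL hM q hx))
  have e2 := abs_le.1 (abs_mul_le' ((abs_sub (Ga L y) (q y)).trans hP) (st_bds rL hM q x).2.2.1)
  rw [Bq, Bq, abs_le]
  constructor <;> linarith [e1.1, e1.2, e2.1, e2.2]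

theorem Bq_xy {y x : ℕ} (hy : y < L.length) (hx : x < L.length) :
    |Bq L q (y + 1) (x + 1) - Bq L q (y + 1) x - (Bq L q y (x + 1) - Bq L q y x)| ≤
      65 * (st L q y * st L q x) := by
  have e1 := abs_le.1 (abs_mul_le' (st_bds rL hM q y).2.2.1 (Ga_st rL hM q hx))
  have e2 := abs_le.1 (abs_mul_le' (Ga_st rL hM q hy) (st_bds rL hM q x).2.2.1)
  have e3 := abs_le.1 (abs_mul_le' (st_bds rL hM q y).2.2.1 (st_bds rL hM q x).2.2.1)
  rw [Bq, Bq, Bq, Bq, abs_le]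
  constructor <;> linarith [e1.1, e1.2, e2.1, e2.2, e3.1, e3.2]

theorem odd_sl {y x t : ℕ} (hy : y < L.length) :
    Odd (bm (sl L.length y x t) (fun _ => 1) 1 y) := by
  rw [bm, Fin.sum_univ_four]
  simp [sl, m4, hy]

theorem Al_par {y x t : ℕ} (h1 : y ≤ x) (h2 : x ≤ L.length) (h3 : y ≤ t) (h4 : t ≤ L.length + 1)
    {s : ℝ} (h0 : 0 < s) (hs : tm L y ≤ s) : |Al L y x t| ≤ min 1 (PB 8 s) := by
  rw [Al]
  split_ifs with ht
  · exact Ga_par rL hM (h1.trans h2) h0 hs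
  · refine par4 rL hM (um_sl h1 h2 h3 (by omega)) (a := 1) (h1.trans h2) (fun c hc => ?_)
      odd_one h0 hs
    fin_cases c <;> simp_all [sl, m4]

theorem Al_x {y x t : ℕ} (h1 : y ≤ x) (h2 : x < L.length) (h3 : y ≤ t) (h4 : t ≤ L.length + 1)
    {s : ℝ} (h0 : 0 < s) (hs : tm L y ≤ s) :
    |Al L y (x + 1) t - Al L y x t| ≤ 32 * (min 1 (PB 8 s) * vv L x) := by
  rw [Al, Al]
  split_ifs with ht
  · have := vv0 rL x
    have := le_min zero_le_one (PB_nonneg 8 h0)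
    rw [sub_self, abs_zero]; positivity
  · refine mv1p rL hM h2 (um_sl h1 h2.le h3 (by omega)) (um_sl (by omega) h2 h3 (by omega))
      (fun a b => ?_) h1 (odd_sl rL hM (by omega)) h0 hs
    fin_cases a <;> fin_cases b <;> simp [sl, m4] <;> omega

theorem Al_t {y x : ℕ} (h1 : y ≤ x) (h2 : x < L.length) {s : ℝ} (h0 : 0 < s) (hs : tm L y ≤ s) :
    |Al L y x (x + 1) - Al L y x x| ≤ 32 * (min 1 (PB 8 s) * vv L x) := by
  rw [Al, Al, if_neg (by omega), if_neg (by omega)]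
  refine mv1p rL hM h2 (um_sl h1 h2.le h1 h2.le) (um_sl h1 h2.le (by omega) h2)
    (fun a b => ?_) h1 (odd_sl rL hM (by omega)) h0 hs
  fin_cases a <;> fin_cases b <;> simp [sl, m4]

theorem Al_y {y x t : ℕ} (h1 : y < x) (h2 : x ≤ L.length) (h3 : y < t) (h4 : t ≤ L.length + 1) :
    |Al L (y + 1) x t - Al L y x t| ≤ 32 * vv L y := by
  rw [Al, Al]
  split_ifs with ht
  · exact Ga_step rL hM (by omega)
  · refine mv1 rL hM (by omega) (um_sl h1.le h2 h3.le (by omega)) (um_sl h1 h2 h3 (by omega))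
      (fun a b => ?_) _
    fin_cases a <;> fin_cases b <;> simp [sl, m4]

theorem Al_yy {y x : ℕ} (h1 : y < x) (h2 : x ≤ L.length) :
    |Al L (y + 1) x (y + 1) - Al L y x y| ≤ 32 * vv L y := by
  rw [Al, Al, if_neg (by omega), if_neg (by omega)]
  refine mv1 rL hM (by omega) (um_sl h1.le h2 le_rfl (by omega)) (um_sl h1 h2 le_rfl (by omega))
    (fun a b => ?_) _
  fin_cases a <;> fin_cases b <;> simp [sl, m4] <;> omega

theorem Al_xy {y x t : ℕ} (h1 : y < x) (h2 : x < L.length) (h3 : y < t) (h4 : t ≤ L.length + 1) :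
    |Al L (y + 1) (x + 1) t - Al L (y + 1) x t - (Al L y (x + 1) t - Al L y x t)| ≤
      2304 * (vv L y * vv L x) := by
  rw [Al, Al, Al, Al]
  split_ifs with ht
  · have := vv0 rL x
    have := vv0 rL y
    rw [sub_self, sub_self, sub_self, abs_zero]; positivity
  · refine mv2 rL hM h1 h2 (um_sl h1.le h2.le h3.le (by omega)) (um_sl h1 h2.le h3 (by omega))
      (um_sl (by omega) h2 h3.le (by omega)) (um_sl (by omega) h2 h3 (by omega))
      (fun a b => ?_) (fun a b => ?_) (fun a b => ?_) _ <;>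
    fin_cases a <;> fin_cases b <;> simp [sl, m4] <;> omega

theorem Al_ty {y x : ℕ} (h1 : y < x) (h2 : x < L.length) :
    |Al L (y + 1) x (x + 1) - Al L (y + 1) x x - (Al L y x (x + 1) - Al L y x x)| ≤
      2304 * (vv L y * vv L x) := by
  rw [Al, Al, Al, Al, if_neg (by omega), if_neg (by omega), if_neg (by omega), if_neg (by omega)]
  refine mv2 rL hM h1 h2 (um_sl h1.le h2.le h1.le h2.le) (um_sl h1 h2.le h1 h2.le)
      (um_sl h1.le h2.le (by omega) h2) (um_sl h1 h2.le (by omega) h2)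
      (fun a b => ?_) (fun a b => ?_) (fun a b => ?_) _ <;>
    fin_cases a <;> fin_cases b <;> simp [sl, m4] <;> omega

theorem Al_xyy {y x : ℕ} (h1 : y < x) (h2 : x < L.length) :
    |Al L (y + 1) (x + 1) (y + 1) - Al L (y + 1) x (y + 1) - (Al L y (x + 1) y - Al L y x y)| ≤
      2304 * (vv L y * vv L x) := by
  rw [Al, Al, Al, Al, if_neg (by omega), if_neg (by omega), if_neg (by omega), if_neg (by omega)]
  refine mv2 rL hM h1 h2 (um_sl h1.le h2.le le_rfl (by omega)) (um_sl h1 h2.le le_rfl (by omega))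
      (um_sl (by omega) h2 le_rfl (by omega)) (um_sl (by omega) h2 le_rfl (by omega))
      (fun a b => ?_) (fun a b => ?_) (fun a b => ?_) _ <;>
    fin_cases a <;> fin_cases b <;> simp [sl, m4] <;> omega

variable (hq : ∀ j, |q j| ≤ 1)
include hq

theorem Bq_y {y x : ℕ} (hy : y < L.length) (hx : x ≤ L.length) :
    |Bq L q (y + 1) x - Bq L q y x| ≤ 66 * st L q y := by
  rw [Bq_comm q (y + 1), Bq_comm q y]
  exact (Bq_x rL hM q hy (P := 2) (by linarith [Ga_one hx, hq x])).trans_eq (by ring)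

theorem Bq_abs {y x : ℕ} (hx : x ≤ L.length) : |Bq L q y x| ≤ |Ga L y| + 2 * |q y| := by
  have e1 := abs_le.1 (abs_mul_le' (le_refl |q y|) (Ga_one hx))
  have e2 := abs_le.1 (abs_mul_le' (hq x) (le_refl |Ga L y|))
  have e3 := abs_le.1 (abs_mul_le' (hq x) (le_refl |q y|))
  rw [Bq, abs_le]
  constructor <;> linarith [e1.1, e1.2, e2.1, e2.2, e3.1, e3.2]

theorem lo_par {y x t : ℕ} (h1 : y ≤ x) (h2 : x ≤ L.length) (h3 : y ≤ t) (h4 : t ≤ L.length + 1)
    {s : ℝ} (h0 : 0 < s) (hs : tm L y ≤ s) :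
    |(ee (fun _ => 1) L 0 (eK q) (eK q)).lo L.length y x t| ≤ 2 * (min 1 (PB 8 s) + |q y|) := by
  rw [lo_eq q h1 h2 h3 h4]
  linarith [abs_add_le (Al L y x t) (Bq L q y x), Al_par rL hM h1 h2 h3 h4 h0 hs,
    Bq_abs rL hM q hq (y := y) h2, Ga_par rL hM (h1.trans h2) h0 hs]

theorem pt {σ : ℕ → ℝ} (h0 : ∀ y ≤ L.length, 0 < σ y) (hs : ∀ y ≤ L.length, tm L y ≤ σ y) :
    Pt L.length ((ee (fun _ => 1) L 0 (eK q) (eK q)).lo L.length) 2400
      (fun y => min 1 (PB 8 (σ y)) + |q y|) (st L q) := by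
  have S := st_bds rL hM q
  have V := vv0 rL
  have hP : ∀ y ≤ L.length, ∀ x, min 1 (PB 8 (σ y)) * vv L x ≤
      (min 1 (PB 8 (σ y)) + |q y|) * st L q x ∧ 0 ≤ (min 1 (PB 8 (σ y)) + |q y|) * st L q x :=
    fun y hy x => by
      have := le_min zero_le_one (PB_nonneg 8 (h0 y hy))
      have := (S x).1
      exact ⟨mul_le_mul (le_add_of_nonneg_right (abs_nonneg _)) (S x).2.1 (V x) (by positivity),
        by positivity⟩
  have hV : ∀ y x, vv L y * vv L x ≤ st L q y * st L q x ∧ 0 ≤ st L q y * st L q x := fun y x =>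
    ⟨mul_le_mul (S y).2.1 (S x).2.1 (V x) (S y).1, mul_nonneg (S y).1 (S x).1⟩
  refine ⟨fun y x t h1 h2 h3 h4 => ?_, fun y x t h1 h2 h3 h4 => ?_, fun y x h1 h2 => ?_,
    fun y x t h1 h2 h3 h4 => ?_, fun y x h1 h2 => ?_, fun y x t h1 h2 h3 h4 => ?_,
    fun y x h1 h2 => ?_, fun y x h1 h2 => ?_⟩
  · linarith [lo_par rL hM q hq h1 h2 h3 h4 (h0 y (by omega)) (hs y (by omega)),
      min_le_left 1 (PB 8 (σ y)), hq y]
  · have e1 := abs_le.1 (Al_x rL hM h1 h2 h3 h4 (h0 y (by omega)) (hs y (by omega)))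
    have e2 := abs_le.1 (Bq_x rL hM q (y := y) h2 (add_le_add_left
      (Ga_par rL hM (by omega) (h0 y (by omega)) (hs y (by omega))) |q y|))
    have e3 := hP y (by omega) x
    rw [lo_eq q h1 h2.le h3 h4, lo_eq q (by omega) h2 h3 h4, abs_le]
    constructor <;> linarith [e1.1, e1.2, e2.1, e2.2, e3.1, e3.2]
  · have e1 := abs_le.1 (Al_t rL hM h1 h2 (h0 y (by omega)) (hs y (by omega)))
    have e3 := hP y (by omega) x
    rw [lo_eq q h1 h2.le h1 (by omega), lo_eq q h1 h2.le (by omega) (by omega), abs_le]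
    constructor <;> linarith [e1.1, e1.2, e3.1, e3.2]
  · have e1 := abs_le.1 (Al_y rL hM h1 h2 h3 h4)
    have e2 := abs_le.1 (Bq_y rL hM q hq (y := y) (by omega) h2)
    rw [lo_eq q h1.le h2 h3.le h4, lo_eq q h1 h2 h3 h4, abs_le]
    constructor <;> linarith [e1.1, e1.2, e2.1, e2.2, (S y).1, (S y).2.1]
  · have e1 := abs_le.1 (Al_yy rL hM h1 h2)
    have e2 := abs_le.1 (Bq_y rL hM q hq (y := y) (by omega) h2)
    rw [lo_eq q h1.le h2 le_rfl (by omega), lo_eq q h1 h2 le_rfl (by omega), abs_le]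
    constructor <;> linarith [e1.1, e1.2, e2.1, e2.2, (S y).1, (S y).2.1]
  · have e1 := abs_le.1 (Al_xy rL hM h1 h2 h3 h4)
    have e2 := abs_le.1 (Bq_xy rL hM q (y := y) (by omega) h2)
    have e3 := hV y x
    rw [lo_eq q h1.le h2.le h3.le h4, lo_eq q h1 h2.le h3 h4, lo_eq q (by omega) h2 h3 h4,
      lo_eq q (by omega) h2 h3.le h4, abs_le]
    constructor <;> linarith [e1.1, e1.2, e2.1, e2.2, e3.1, e3.2]
  · have e1 := abs_le.1 (Al_ty rL hM h1 h2)
    have e3 := hV y x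
    rw [lo_eq q h1.le h2.le h1.le (by omega), lo_eq q h1 h2.le h1 (by omega),
      lo_eq q h1.le h2.le (by omega) (by omega), lo_eq q h1 h2.le (by omega) (by omega), abs_le]
    constructor <;> linarith [e1.1, e1.2, e3.1, e3.2]
  · have e1 := abs_le.1 (Al_xyy rL hM h1 h2)
    have e2 := abs_le.1 (Bq_xy rL hM q (y := y) (by omega) h2)
    have e3 := hV y x
    rw [lo_eq q h1.le h2.le le_rfl (by omega), lo_eq q h1 h2.le le_rfl (by omega),
      lo_eq q (by omega) h2 le_rfl (by omega), lo_eq q (by omega) h2 le_rfl (by omega), abs_le]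
    constructor <;> linarith [e1.1, e1.2, e2.1, e2.2, e3.1, e3.2]

theorem off_abs {z x k : ℕ} (h1 : z ≤ x) (h2 : x ≤ L.length) (h3 : z ≤ k) (h4 : k ≤ L.length) :
    |(ee (fun _ => 1) L 0 (eK q) (eK q)).off L.length z x k| ≤ 4 := by
  rw [off_eq q h1 h2 h3 h4]
  linarith [abs_add_le (E4 L (fun _ => 1) (so L.length z x k)) (Bq L q k x),
    abs_E4 (um_so h1 h2 h3 h4) fun _ => 1, Bq_abs rL hM q hq (y := k) h2, Ga_one h4, hq k]

theorem off_x {z x k : ℕ} (h1 : z ≤ x) (h2 : x < L.length) (h3 : z ≤ k) (h4 : k ≤ L.length) :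
    |(ee (fun _ => 1) L 0 (eK q) (eK q)).off L.length z (x + 1) k -
      (ee (fun _ => 1) L 0 (eK q) (eK q)).off L.length z x k| ≤ 98 * st L q x ∧
    |(ee (fun _ => 1) L 0 (eK q) (eK q)).off L.length z k (x + 1) -
      (ee (fun _ => 1) L 0 (eK q) (eK q)).off L.length z k x| ≤ 98 * st L q x := by
  have e1 := abs_le.1 (mv1 rL hM h2 (um_so h1 h2.le h3 h4) (um_so (h1.trans x.le_succ) h2 h3 h4)
    (fun a b => by fin_cases a <;> fin_cases b <;> simp [so, m4]) fun _ => 1)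
  have e1' := abs_le.1 (mv1 rL hM h2 (um_so h3 h4 h1 h2.le) (um_so h3 h4 (h1.trans x.le_succ) h2)
    (fun a b => by fin_cases a <;> fin_cases b <;> simp [so, m4]) fun _ => 1)
  have e2 := abs_le.1 (Bq_y rL hM q hq h2 h4)
  have e3 := (st_bds rL hM q x).2.1
  rw [off_eq q h1 h2.le h3 h4, off_eq q (h1.trans x.le_succ) h2 h3 h4, off_eq q h3 h4 h1 h2.le,
    off_eq q h3 h4 (h1.trans x.le_succ) h2, Bq_comm q k, Bq_comm q k, abs_le, abs_le]
  refine ⟨⟨?_, ?_⟩, ?_, ?_⟩ <;> linarith [e1.1, e1.2, e2.1, e2.2, e1'.1, e1'.2]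

omit hq in
theorem off_xy {z x k : ℕ} (h1 : z ≤ x) (h2 : x < L.length) (h3 : z ≤ k) (h4 : k < L.length)
    (hne : x ≠ k) : |mx ((ee (fun _ => 1) L 0 (eK q) (eK q)).off L.length z) x k| ≤
      2400 * (st L q x * st L q k) := by
  have S := st_bds rL hM q
  have h1' := h1.trans x.le_succ
  have h3' := h3.trans k.le_succ
  have e2 := abs_le.1 (Bq_xy rL hM q h4 h2)
  have e3 := mul_le_mul (S x).2.1 (S k).2.1 (vv0 rL k) (S x).1
  have e4 := mul_nonneg (S x).1 (S k).1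
  rw [mx, off_eq q h1 h2.le h3 h4.le, off_eq q h1' h2 h3 h4.le, off_eq q h1 h2.le h3' h4,
    off_eq q h1' h2 h3' h4, abs_le]
  rcases hne.lt_or_gt with h | h
  · have e1 := abs_le.1 (mv2 rL hM h h4 (um_so h1 h2.le h3 h4.le) (um_so h1' h2 h3 h4.le)
      (um_so h1 h2.le h3' h4) (um_so h1' h2 h3' h4)
      (fun a b => by fin_cases a <;> fin_cases b <;> simp [so, m4])
      (fun a b => by fin_cases a <;> fin_cases b <;> simp [so, m4])
      (fun a b => by fin_cases a <;> fin_cases b <;> simp [so, m4] <;> omega) fun _ => 1)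
    constructor <;> linarith [e1.1, e1.2, e2.1, e2.2]
  · have e1 := abs_le.1 (mv2 rL hM h h2 (um_so h1 h2.le h3 h4.le) (um_so h1 h2.le h3' h4)
      (um_so h1' h2 h3 h4.le) (um_so h1' h2 h3' h4)
      (fun a b => by fin_cases a <;> fin_cases b <;> simp [so, m4])
      (fun a b => by fin_cases a <;> fin_cases b <;> simp [so, m4])
      (fun a b => by fin_cases a <;> fin_cases b <;> simp [so, m4] <;> omega) fun _ => 1)
    constructor <;> linarith [e1.1, e1.2, e2.1, e2.2]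

end

end site

/-- **(D)** -/
theorem siteS : SiteS := by
  refine ⟨10 ^ 5, by norm_num, fun L q p s j₁ rL hM hq hp hs => ?_⟩
  choose! σ h0 h1 h2 using hp
  have H := pt rL hM q hq h0 h1
  have S := st_bds rL hM q
  replace hs : ∀ i < L.length, 10 ^ 5 * st L q i ≤ s i := hs
  have P0 : ∀ y ≤ L.length, 0 ≤ min 1 (PB 8 (σ y)) + |q y| := fun y hy =>
    add_nonneg (le_min zero_le_one (PB_nonneg 8 (h0 y hy))) (abs_nonneg _)
  have P2 : ∀ y, min 1 (PB 8 (σ y)) + |q y| ≤ 2 := fun y => by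
    linarith [min_le_left 1 (PB 8 (σ y)), hq y]
  have ps : ∀ y ≤ L.length, ∀ x < L.length,
      10 ^ 10 * ((min 1 (PB 8 (σ y)) + |q y|) * st L q x) ≤ p y * s x ∧
        0 ≤ (min 1 (PB 8 (σ y)) + |q y|) * st L q x := fun y hy x hx => by
    have := P0 y hy
    have := (S x).1
    exact ⟨(le_of_eq (by ring)).trans (mul_le_mul (h2 y hy) (hs x hx) (by positivity)
      (le_trans (by positivity) (h2 y hy))), by positivity⟩
  have ss : ∀ y < L.length, ∀ x < L.length, 10 ^ 10 * (st L q y * st L q x) ≤ s y * s x ∧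
      0 ≤ st L q y * st L q x := fun y hy x hx => by
    have := (S y).1
    have := (S x).1
    exact ⟨(le_of_eq (by ring)).trans (mul_le_mul (hs y hy) (hs x hx) (by positivity)
      (le_trans (by positivity) (hs y hy))), by positivity⟩
  refine ⟨fun y x t _ a b c d => ?_, fun x a b => ?_, fun i _ b => ⟨?_, ?_⟩,
    fun i j _ a b => ?_, fun y u x _ a b c => ?_, fun z x k a b _ _ c d => ?_,
    fun z x k a b _ _ c d => ?_, fun z x k a b _ _ c d e => ?_⟩
  · linarith [lo_par rL hM q hq a b c d (h0 y (a.trans b)) (h1 y (a.trans b)), h2 y (a.trans b),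
      P0 y (a.trans b)]
  · linarith [H.m1 hM a b, ps j₁ (by omega) x b]
  · linarith [H.my hM i.lt_succ_self b (S i).2.2.2.1 (S i).2.2.2.2, hs i b, (S i).1]
  · linarith [H.m1 hM le_rfl b, hs i b, (S i).1, mul_le_mul_of_nonneg_right (P2 i) (S i).1]
  · linarith [H.m2 hM a b (S i).2.2.2.1 (S i).2.2.2.2 (by norm_num) (S j).1 (P2 i),
      ss i (by omega) j b]
  · linarith [H.p1 hM a b.le c, ps y (by omega) x c]
  · exact off_abs rL hM q hq a.le c b.le d
  · have := off_x rL hM q hq a.le c b.le d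
    exact ⟨by linarith [this.1, hs x c, (S x).1], by linarith [this.2, hs x c, (S x).1]⟩
  · linarith [off_xy rL hM q a.le c b.le d e, ss x c k d]

end Crest.Agent.T156.Cas.Q75.S97

end
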