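import Crest.Agent.T156.Q2B_75
import Crest.Agent.T156.CQ2D_10
import Crest.Agent.T156.Q2BaseB_53
import Crest.Agent.T156.Q2Site_97
import Crest.Agent.T156.CErr_54
import Crest.Agent.T156.AltOne_23
import Crest.Agent.T156.QCube_33

/-!
# Row 156 (helper75): the non-local part of the word `[aU, aU]` is an error (`NLS`)
-/

set_option autoImplicit false
set_option linter.unusedSectionVars false

noncomputable section

namespace Crest.Agent.T156.Cas.Q75

open Finset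
open Crest.Agent.T157.E Crest.Agent.T157.Casc Crest.Agent.T157.SL
open Crest.Agent.T156.Rect52
open Nu87 Wt87

/-! ### general tools -/

section gen
variable {Θ Θ' : Type} {L : List (Lv Θ)} {L' : List (Lv Θ')} {T c c' B : Tw} {j : ℕ} {c₀ : ℝ}
  {p s φ φ' : ℕ → ℝ}

theorem Reg.tilt (e : L.map Lv.m = L'.map Lv.m) (H : Reg L T j c₀ p s) : Reg L' T j c₀ p s := by
  have e1 := Cav22.len_tilt e
  have e2 : dm L 0 = dm L' 0 := funext (Cav22.dm_tilt e 0)
  have e3 : ex L = ex L' := funext (Cav22.ex_tilt e)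
  have e4 : cP L T = cP L' T := by
    funext y u x; simp only [cP, Lx, Lg, e1, e2, e3]
  have e5 : LO L T = LO L' T := by
    funext y x; simp only [LO, e1, e2, e3, e4]
  obtain ⟨h1, h2, h3, h4, h5, h6, h7, h8⟩ := H
  simp only [e1, e4, e5] at h1 h2 h3 h4 h5 h6 h7 h8
  exact ⟨h1, h2, h3, h4, h5, h6, h7, h8⟩

theorem le_mul_lim {a p s : ℝ} (h : ∀ ε, 0 < ε → a ≤ (p + ε) * s) : a ≤ p * s := by
  refine le_of_forall_pos_le_add fun ε hε => ?_
  have h0 : 0 < |s| + 1 := by positivity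
  refine (h _ (div_pos hε h0)).trans ?_
  rw [add_mul, add_le_add_iff_left, div_mul_eq_mul_div, div_le_iff₀ h0]
  exact mul_le_mul_of_nonneg_left ((le_abs_self s).trans (by linarith)) hε.le

theorem Reg.lim {c₁ : ℝ} (hc : c₀ ≤ c₁) (H : ∀ ε, 0 < ε → Reg L T j c₀ (fun y => p y + ε) s) :
    Reg L T j c₁ p s :=
  have G := H 1 one_pos
  ⟨fun y x t h1 h2 h3 h4 h5 => le_of_forall_pos_le_add fun ε hε => (H ε hε).l0 y x t h1 h2 h3 h4 h5,
    fun x h1 h2 => le_mul_lim fun ε hε => (H ε hε).m1 x h1 h2, G.md, G.m2,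
    fun y u x h1 h2 h3 h4 => le_mul_lim fun ε hε => (H ε hε).p1 y u x h1 h2 h3 h4,
    fun z x k h1 h2 h3 h4 h5 h6 => (G.o0 z x k h1 h2 h3 h4 h5 h6).trans hc, G.o1, G.o2⟩

theorem NL_scale (hc : c.tr.Eqv c L.length) (hB : B.tr.Eqv B L.length) {κ : ℝ}
    (e : ∀ x, dm L 0 x * φ' x = κ * (dm L 0 x * φ x)) :
    NL L (((wt φ' φ').mul c).mul B) = κ ^ 2 * NL L (((wt φ φ).mul c).mul B) := by
  rw [NL_eq (j₁ := 0) hc hB (by simp) (by simp), NL_eq (j₁ := 0) hc hB (by simp) (by simp)]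
  simp only [e, mul_add, mul_sum]
  congr 1
  · congr 1 <;> exact sum_congr rfl fun _ _ => sum_congr rfl fun _ _ => by ring
  · exact sum_congr rfl fun _ _ => sum_congr rfl fun _ _ => sum_congr rfl fun _ _ => by ring

theorem abs_LO_sub (hL : Mono 0 L) {y x : ℕ} (hy : y ≤ x) (hx : x ≤ L.length) {b : ℝ}
    (h : ∀ t, y ≤ t → t ≤ L.length + 1 → |c'.lo L.length y x t - c.lo L.length y x t| ≤ b) :
    |LO L c' y x - LO L c y x| ≤ 10 * b := by
  have h1 := abs_le.1 (abs_LL_le hL hy hx h)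
  have h2 := abs_le.1 (S97.abs_mul_le' (S97.kap_abs hL y) (h y le_rfl (by omega)))
  rw [S97.Lg_sub, S97.Lx_sub] at h1
  rw [LO, LO, cP, cP, abs_le]
  constructor <;> linarith [h1.1, h1.2, h2.1, h2.2]

theorem dbl_bd (hL : Mono 0 L) (hφ : ∀ x, |φ x| ≤ 1) {A : Finset ℕ} {n : ℕ → Finset ℕ}
    (hA : A ⊆ range (L.length + 1)) (hn : ∀ x ∈ A, n x ⊆ range (L.length + 1)) {g : ℕ → ℕ → ℝ}
    {b : ℝ} (hb : 0 ≤ b) (h : ∀ x ∈ A, ∀ y ∈ n x, φ x ≠ 0 → φ y ≠ 0 → |g x y| ≤ b) :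
    |∑ x ∈ A, ∑ y ∈ n x, dm L 0 x * φ x * (dm L 0 y * φ y) * g x y| ≤ b := by
  have d0 := dm_nonneg hL
  have k : ∀ x, |dm L 0 x * φ x| ≤ dm L 0 x := fun x => by
    rw [abs_mul, abs_of_nonneg (d0 x)]; exact mul_le_of_le_one_right (d0 x) (hφ x)
  refine (abs_sum_le_sum_abs _ _).trans ((sum_le_sum (g := fun x => dm L 0 x * b)
    fun x hx => ?_).trans ?_)
  · refine (abs_sum_le_sum_abs _ _).trans ((sum_le_sum (g := fun y => dm L 0 y * (dm L 0 x * b))
      fun y hy => ?_).trans ?_)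
    · by_cases h1 : φ x = 0
      · simpa [h1] using mul_nonneg (d0 y) (mul_nonneg (d0 x) hb)
      by_cases h2 : φ y = 0
      · simpa [h2] using mul_nonneg (d0 y) (mul_nonneg (d0 x) hb)
      exact (S97.abs_mul_le' (S97.abs_mul_le' (k x) (k y)) (h x hx y hy h1 h2)).trans_eq (by ring)
    · rw [← sum_mul]
      exact mul_le_of_le_one_left (mul_nonneg (d0 x) hb) (sum_dm_le_one hL (hn x hx))
  · rw [← sum_mul]
    exact mul_le_of_le_one_left hb (sum_dm_le_one hL hA)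

theorem NL_sub (hL : Mono 0 L) (hc : c.tr.Eqv c L.length) (hc' : c'.tr.Eqv c' L.length)
    (hB : B.tr.Eqv B L.length) (hφ : ∀ x, |φ x| ≤ 1) {η : ℝ} (hη : 0 ≤ η)
    (h1 : ∀ y x t, φ y ≠ 0 → φ x ≠ 0 → y ≤ x → x ≤ L.length → y ≤ t → t ≤ L.length + 1 →
      |(c'.mul B).lo L.length y x t - (c.mul B).lo L.length y x t| ≤ η)
    (h2 : ∀ z x k, φ x ≠ 0 → φ k ≠ 0 → z < x → z < k → x ≤ L.length → k ≤ L.length →
      |c'.off L.length z x k * B.off L.length z x k - c.off L.length z x k * B.off L.length z x k|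
        ≤ η) :
    |NL L (((wt φ φ).mul c').mul B) - NL L (((wt φ φ).mul c).mul B)| ≤ 21 * η := by
  have sb : ∀ {a b : ℕ}, b ≤ L.length + 1 → Ico a b ⊆ range (L.length + 1) := fun h i hi => by
    have := mem_Ico.1 hi; exact mem_range.2 (by omega)
  have k1 := dbl_bd hL hφ (A := Ico 0 (L.length + 1)) (n := fun x => Ico 0 (x + 1)) (sb le_rfl)
    (fun x hx => sb (mem_Ico.1 hx).2) (g := fun x y => LO L (c'.mul B) y x - LO L (c.mul B) y x)
    (b := 10 * η) (by positivity) fun x hx y hy a b => by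
      have := mem_Ico.1 hx; have := mem_Ico.1 hy
      exact abs_LO_sub hL (by omega) (by omega) fun t => h1 y x t b a (by omega) (by omega)
  have k2 := dbl_bd hL hφ (A := Ico 0 (L.length + 1)) (n := fun x => Ico 0 x) (sb le_rfl)
    (fun x hx => sb (mem_Ico.1 hx).2.le) (g := fun x y => LO L (c'.mul B) y x - LO L (c.mul B) y x)
    (b := 10 * η) (by positivity) fun x hx y hy a b => by
      have := mem_Ico.1 hx; have := mem_Ico.1 hy
      exact abs_LO_sub hL (by omega) (by omega) fun t => h1 y x t b a (by omega) (by omega)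
  have k3 := abs_Sm_le hL (A := range L.length) (b := η) (g := fun z =>
    ∑ x ∈ Ico (z + 1) (L.length + 1), ∑ k ∈ Ico (z + 1) (L.length + 1),
      dm L 0 x * φ x * (dm L 0 k * φ k) * (c'.off L.length z x k * B.off L.length z x k -
        c.off L.length z x k * B.off L.length z x k)) fun z _ =>
    dbl_bd hL hφ (sb le_rfl) (fun _ _ => sb le_rfl) hη fun x hx k hk a b => by
      have := mem_Ico.1 hx; have := mem_Ico.1 hk
      exact h2 z x k a b (by omega) (by omega) (by omega) (by omega)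
  have k4 := mul_le_of_le_one_left hη
    (sum_dm_le_one hL (A := range L.length) (range_subset_range.2 (Nat.le_succ _)))
  rw [NL_eq (j₁ := 0) hc hB (by simp) (by simp), NL_eq (j₁ := 0) hc' hB (by simp) (by simp)]
  simp only [Sm, mul_sub, sum_sub_distrib] at k1 k2 k3
  simp only [mul_comm (dm L 0 _ * φ _) (dm L 0 _ * φ _)] at k1 k2 k3 ⊢
  rw [abs_le] at k1 k2 k3 ⊢
  constructor <;> linarith [k1.1, k1.2, k2.1, k2.2, k3.1, k3.2]

end gen

section ee
variable {Ω : Type} [Fintype Ω] {w h : Ω → ℝ} {L : List (Lv Ω)} {S : ℕ → Ω → Ω → ℝ}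

theorem ee_tr (hw : Wt w) (hS : ∀ j x y, S j x y = S j y x) :
    (ee w L h S S).tr.Eqv (ee w L h S S) L.length := by
  refine ⟨fun _ _ => rfl, fun σ hσ => ?_, fun σ hσ => ?_⟩
  · refine (TM_inj hw hσ (ι := ![2, 1, 0]) (by decide) _).symm.trans (congrArg _ (funext fun x => ?_))
    show S (σ 1 0) (x 1) (x 0) * S (σ 2 1) (x 2) (x 1) = S (σ 1 2) (x 1) (x 2) * S (σ 0 1) (x 0) (x 1)
    rw [hσ.comm 1 0, hσ.comm 2 1, hS _ (x 1) (x 0), hS _ (x 2) (x 1), mul_comm]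
  · refine (TM_inj hw hσ (ι := ![2, 3, 0, 1]) (by decide) _).symm.trans
      (congrArg _ (funext fun x => ?_))
    exact mul_comm _ _

theorem abs_TM75 (hw : Wt w) {r : ℕ} {σ : SM r} (hσ : Rz L.length σ) {F : (Fin r → Ω) → ℝ} {b : ℝ}
    (hF : ∀ x, |F x| ≤ b) : |TM w L h σ F| ≤ b := by
  obtain ⟨s, e, rfl⟩ := hσ
  rw [TM_sm hw s L h e.injective]
  exact One15.abs_TE_le hw s L h fun x => hF _

theorem ee_lo (hw : Wt w) {b : ℝ} (hS : ∀ j x y, |S j x y| ≤ b) {y x t : ℕ} (hy : y ≤ x)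
    (hx : x ≤ L.length) (h1 : y ≤ t) (h2 : t ≤ L.length + 1) :
    |(ee w L h S S).lo L.length y x t| ≤ b * b := by
  unfold Tw.lo
  split_ifs with e
  · exact abs_TM75 hw (rz_lo3 hx hy) fun _ => S97.abs_mul_le' (hS _ _ _) (hS _ _ _)
  · exact abs_TM75 hw (rz_lo4 hx hy h1 (by omega)) fun _ => S97.abs_mul_le' (hS _ _ _) (hS _ _ _)

theorem ee_off (hw : Wt w) {b : ℝ} (hS : ∀ j x y, |S j x y| ≤ b) {z x k : ℕ} (hz : z ≤ x)
    (hx : x ≤ L.length) (h1 : z ≤ k) (h2 : k ≤ L.length) :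
    |(ee w L h S S).off L.length z x k| ≤ b * b :=
  abs_TM75 hw (rz_off hx hz h1 h2) fun _ => S97.abs_mul_le' (hS _ _ _) (hS _ _ _)

end ee

section abel
variable {K : ℕ} {B : Tw} {V : Type} [AddCommGroup V] [Module ℝ V]
  {ip : LinearMap.BilinForm ℝ V} {δ : ℕ → V} {π : ℕ → ℕ → V} {P : ℕ → V →ₗ[ℝ] V} {a : ℕ → ℝ}

theorem Bs.tri (H : Bs K B ip δ π P a) {u v : V} {α β : ℝ} (hα : 0 ≤ α) (hβ : 0 ≤ β)
    (hu : ip u u ≤ α ^ 2) (hv : ip v v ≤ β ^ 2) : ip (u + v) (u + v) ≤ (α + β) ^ 2 := by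
  have h := (abs_le.1 (H.cs hα hβ hu hv)).2
  have h' := H.sym v u
  simp only [map_add, LinearMap.add_apply]
  nlinarith

/-- monotone multipliers do not increase the norms of the tails -/
theorem Bs.mono_mul (H : Bs K B ip δ π P a) {d : ℕ → V} {θ f : ℕ → ℝ} {j n : ℕ}
    (hθ : Monotone θ) (h1 : ∀ x, θ x ≤ 1) (f0 : ∀ y, 0 ≤ f y) (hf : Antitone f)
    (h : ∀ y, j ≤ y → ip (∑ x ∈ Ico y n, d x) (∑ x ∈ Ico y n, d x) ≤ f y ^ 2) {y : ℕ} (hj : j ≤ y)
    (hy : y ≤ n) : ∀ t, t ≤ θ y → ip (∑ x ∈ Ico y n, θ x • d x - t • ∑ x ∈ Ico y n, d x)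
      (∑ x ∈ Ico y n, θ x • d x - t • ∑ x ∈ Ico y n, d x) ≤ ((1 - t) * f y) ^ 2 := by
  induction hy using Nat.decreasingInduction with
  | self => intro t _; simpa using sq_nonneg _
  | of_succ y hy ih =>
    intro t ht
    have k := ih (by omega) (θ y) (hθ y.le_succ)
    have k1 : ip ((θ y - t) • ∑ x ∈ Ico y n, d x) ((θ y - t) • ∑ x ∈ Ico y n, d x) ≤
        ((θ y - t) * f y) ^ 2 := by
      simp only [map_smul, LinearMap.smul_apply, smul_eq_mul]
      nlinarith [mul_le_mul_of_nonneg_left (h y hj) (sq_nonneg (θ y - t))]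
    have k2 := H.tri (mul_nonneg (sub_nonneg.2 ht) (f0 y)) (mul_nonneg (sub_nonneg.2 (h1 y)) (f0 _))
      k1 k
    have e : (θ y - t) • ∑ x ∈ Ico y n, d x + (∑ x ∈ Ico (y + 1) n, θ x • d x -
        θ y • ∑ x ∈ Ico (y + 1) n, d x) = ∑ x ∈ Ico y n, θ x • d x - t • ∑ x ∈ Ico y n, d x := by
      rw [sum_eq_sum_Ico_succ_bot hy, sum_eq_sum_Ico_succ_bot hy]
      module
    rw [e] at k2
    refine k2.trans (pow_le_pow_left₀ (add_nonneg (mul_nonneg (sub_nonneg.2 ht) (f0 y))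
      (mul_nonneg (sub_nonneg.2 (h1 y)) (f0 _))) ?_ 2)
    nlinarith [mul_le_mul_of_nonneg_left (hf y.le_succ) (sub_nonneg.2 (h1 y))]

end abel

end Crest.Agent.T156.Cas.Q75

namespace Crest.Agent.T156.Cas.C40.N75

open Finset
open Crest.Agent.T157.E Crest.Agent.T157.Casc Crest.Agent.T157.SL
open Crest.Agent.T157.G1 (ov)
open Q75 Q10 CD
open Q33 (sl sl_cov)

variable {D : CD} {τ0 : ℝ}

/-- the site overlaps, cut at `K` -/
def Gm (D : CD) (j : ℕ) : ℝ := if j ≤ D.K then S97.Ga D.S j else 0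

/-- the site factor centred at `Γ` -/
def cG (D : CD) : Tw := ee (fun _ => 1) D.S 0 (eK (Gm D)) (eK (Gm D))

/-- the normalised weight -/
def phi (D : CD) (a : ℝ) (j : ℕ) : ℝ := if j ∈ D.up then D.τ j / a else 0

/-- cut at `K` -/
def fz (D : CD) (g : ℕ → ℝ) (y : ℕ) : ℝ := if y < D.K then g y else 0

/-- the parity size -/
def mm (D : CD) (y : ℕ) : ℝ := if y ∈ D.up then min 1 (D.e y) else 1

theorem S_len (D : CD) : D.S.length = D.K := (Cav22.len_tilt tilt_opS).trans D.B_len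

theorem S_dm (D : CD) (j : ℕ) : dm D.S 0 j = D.dx j := Cav22.dm_tilt tilt_opS 0 j

theorem Gm_one (D : CD) (j : ℕ) : |Gm D j| ≤ 1 := by
  unfold Gm
  split_ifs with hj
  · exact S97.Ga_one (hj.trans_eq (S_len D).symm)
  · simp

theorem eK_tr (D : CD) (q : ℕ → ℝ) : (ee (fun _ => 1) D.S 0 (eK q) (eK q)).tr.Eqv
    (ee (fun _ => 1) D.S 0 (eK q) (eK q)) D.B.length := by
  rw [D.B_len, ← S_len]
  exact ee_tr wt_one90 fun j x y => by simp only [eK, mul_comm]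

theorem Bt_tr (D : CD) : (Bt D).tr.Eqv (Bt D) D.B.length :=
  ee_tr wt_one90 fun j x y => by rw [oU, oU, ov, ov, dotProduct_comm]

theorem abs_oU_rb (D : CD) (j : ℕ) (x y : Cube D.n) : |oU D.rb j x y| ≤ 2 := by
  have h1 := abs_le.1 (abs_ov_le x y)
  have h2 := pi2_mono (Ω := Cube D.n) wt_one90 D.B j (K := ov) (K' := fun _ _ => 1)
    (fun x y => (abs_le.1 (abs_ov_le x y)).2) 0
  have h3 := pi2_mono (Ω := Cube D.n) wt_one90 D.B j (K' := ov) (K := fun _ _ => -1)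
    (fun x y => (abs_le.1 (abs_ov_le x y)).1) 0
  rw [pi2_const wt_one90] at h2 h3
  rw [oU, CD.rb, CD.E2, abs_le]
  constructor <;> linarith [h1.1, h1.2]

section ok
variable (h : D.Ok τ0)
include h

theorem uK_eq (q : ℕ → ℝ) : uK (sl D.n) q = oU q := by
  funext j x y; rw [uK, sl_cov h.pos, oU]

theorem vt_eq (y t : ℕ) : Eg33.vt (fun _ => 1) D.B (sl D.n) 0 y t = D.v y t := by
  unfold Eg33.vt Eg33.vz CD.v
  simp only [sl_cov h.pos]

theorem r1 : Ker15.R1 D.S := Ker15.r1_of (rk_opS h.ook)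

theorem mS : Mono 0 D.S := mono_opS h.mono

theorem tm_eq {j : ℕ} (hj : j ≤ D.K) : Ker15.tm D.S j = D.sig j :=
  (Ker15.tm_eq (rk_opS h.ook) j).trans (TT_opV hj)

theorem ex_le {j : ℕ} (hj : j ∈ D.up) : ex D.B j ≤ D.e j :=
  (le_min (Tay38.ex_le_one h.mono j)
    (le_add_of_nonneg_right (h.sig0 (mem_up.1 hj).2.le))).trans (h.esc j hj)

theorem mm_mem (y : ℕ) : D.X ≤ mm D y ∧ mm D y ≤ 1 := by
  unfold mm
  split_ifs
  exacts [⟨le_min h.X1 (h.eX y), min_le_left _ _⟩, ⟨h.X1, le_rfl⟩]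

theorem mm_le {y : ℕ} (hy : y ∈ D.up) : mm D y ≤ D.e y := by
  rw [mm, if_pos hy]; exact min_le_right _ _

theorem par (y : ℕ) {ε : ℝ} (hε : 0 < ε) : ∃ σ, 0 < σ ∧ Ker15.tm D.S y ≤ σ ∧
    min 1 (Ker15.PB 8 σ) ≤ 1024 * Real.exp (3 / 2) * (mm D y + ε) := by
  have e1 : 1 ≤ Real.exp (3 / 2) := Real.one_le_exp (by norm_num)
  rcases le_or_gt 1 (mm D y) with h1 | h1
  · exact ⟨|Ker15.tm D.S y| + 1, by positivity, (le_abs_self _).trans (by linarith),
      (min_le_left _ _).trans (by nlinarith)⟩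
  have hy : y ∈ D.up := by by_contra hy; rw [mm, if_neg hy] at h1; exact h1.false
  have h2 : D.e y < 1 := by
    rw [mm, if_pos hy] at h1
    exact (min_lt_iff.1 h1).resolve_left (lt_irrefl _)
  have h3 : D.sig y ≤ D.e y := by
    have := (min_le_iff.1 (h.esc y hy)).resolve_left h2.not_ge
    linarith [h.ex0 y]
  have h0 : 0 < min 1 (D.e y + ε) := lt_min one_pos (by linarith [h.e0 y])
  refine ⟨_, h0, ?_, (min_le_right _ _).trans ?_⟩
  · rw [tm_eq h (mem_up.1 hy).2.le]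
    exact le_min (by linarith) (by linarith)
  · have h4 : Real.exp (1 / 2 + √(min 1 (D.e y + ε))) ≤ Real.exp (3 / 2) :=
      Real.exp_le_exp.2 (by linarith [Real.sqrt_le_one.2 (min_le_left 1 (D.e y + ε))])
    rw [mm, if_pos hy, min_eq_right h2.le, Ker15.PB]
    have h5 := mul_le_mul h4 (min_le_right 1 (D.e y + ε)) h0.le (Real.exp_pos _).le
    push_cast
    nlinarith

theorem reg {C : ℝ} (hC : 1 ≤ C) (H : ∀ (L : List (Lv Bool)) (q p s : ℕ → ℝ) (j₁ : ℕ),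
    Ker15.R1 L → Mono 0 L → (∀ j, |q j| ≤ 1) →
    (∀ y ≤ L.length, ∃ σ, 0 < σ ∧ Ker15.tm L y ≤ σ ∧ C * (min 1 (Ker15.PB 8 σ) + |q y|) ≤ p y) →
    (∀ i < L.length, C * (Ker15.tm L (i + 1) - Ker15.tm L i + |q (i + 1) - q i| + dm L 0 i +
      dm L 0 (i + 1)) ≤ s i) → Reg L (ee (fun _ => 1) L 0 (eK q) (eK q)) j₁ 4 p s) {A : ℝ}
    (hA : A = 2 * C * (1024 * Real.exp (3 / 2))) :
    Reg D.B (cG D) (D.J + 1) (A + 4) (fun y => A * mm D y) fun i => C * S97.st D.S (Gm D) i := by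
  have A0 : 0 < A := by rw [hA]; positivity
  refine Reg.tilt tilt_opS (Reg.lim (c₀ := 4) (by linarith) fun ε hε =>
    H _ _ _ _ _ (r1 h) (mS h) (Gm_one D) (fun y hy => ?_) fun i _ => le_rfl)
  obtain ⟨σ, h1, h2, h3⟩ := par h y (div_pos hε A0)
  refine ⟨σ, h1, h2, ?_⟩
  have h4 := S97.Ga_par (r1 h) (mS h) hy h1 h2
  rw [Gm, if_pos (hy.trans_eq (S_len D))]
  have h5 : A * mm D y + ε = 2 * C * (1024 * Real.exp (3 / 2) * (mm D y + ε / A)) := by
    rw [← mul_assoc, ← hA]; field_simp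
  rw [h5]
  nlinarith

theorem st_le {i : ℕ} (h1 : D.J < i) (h2 : i < D.K) : S97.st D.S (Gm D) i ≤ 33 * D.dv (i + 1) := by
  have h3 := S97.Ga_step (r1 h) (mS h) (h2.trans_eq (S_len D).symm)
  have h4 := h.tau_mono i.le_succ
  have h5 := h.sig_le i.le_succ h2
  rw [S97.vv] at h3
  rw [S97.st, CD.dv, if_neg (by omega), Gm, Gm, if_pos (by omega), if_pos h2.le, S_dm, S_dm,
    Nat.add_sub_cancel]
  rw [tm_eq h h2, tm_eq h h2.le] at h3 ⊢
  linarith [h.dx0 i, h.dx0 (i + 1)]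

theorem sum_st {g : ℕ → ℝ} (hg : ∀ y, 0 ≤ g y) {C : ℝ} (hC : 0 ≤ C) :
    ∑ i ∈ Ico (D.J + 1) D.K, C * S97.st D.S (Gm D) i * fz D g (i + 1) ≤ 33 * C * D.sv g D.J := by
  have h1 : ∑ i ∈ Ico (D.J + 1) D.K, D.dv (i + 1) * fz D g (i + 1) ≤ D.sv g D.J := by
    rw [sum_Ico_add' (fun j => D.dv j * fz D g j)]
    simp only [fz, mul_ite, mul_zero]
    rw [← sum_filter]
    refine sum_le_sum_of_subset_of_nonneg (fun j hj => ?_)
      fun j hj _ => mul_nonneg (h.dv0 (mem_Ioo.1 hj).2.le) (hg j)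
    simp only [mem_filter, mem_Ico, mem_Ioo] at hj ⊢
    omega
  refine le_trans ?_ (mul_le_mul_of_nonneg_left h1 (by positivity))
  rw [mul_sum]
  refine sum_le_sum fun i hi => ?_
  have h2 : 0 ≤ fz D g (i + 1) := by unfold fz; split_ifs; exacts [hg _, le_rfl]
  have h3 := mul_le_mul_of_nonneg_right (mul_le_mul_of_nonneg_left
    (st_le h (mem_Ico.1 hi).1 (mem_Ico.1 hi).2) hC) h2
  linarith

theorem wf {a : ℝ} (ha : 0 < a) (h1 : τ0 ≤ a) :
    Wf D.B (D.J + 1) (Base53.ipE wt_one90 D.B 0) (Base53.dV D.B (sl D.n) wt_one90 D.rb)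
      (phi D a) (fz D D.f0) := by
  have t1 : ∀ x, D.τ x / a ≤ 1 := fun x => (div_le_one ha).2 ((h.tau_mem x).2.trans h1)
  have t0 : ∀ x, 0 ≤ D.τ x / a := fun x => div_nonneg (h.tau_mem x).1 ha.le
  refine ⟨fun x => ?_, fun x hx => if_neg fun e => by have := mem_up.1 e; omega, fun y => ?_,
    fun y hy => ?_⟩
  · unfold phi
    split_ifs
    exacts [(abs_of_nonneg (t0 x)).trans_le (t1 x), by simp]
  · unfold fz
    split_ifs
    exacts [h.f00 y, le_rfl]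
  rw [D.B_len]
  rcases le_or_gt D.K y with hK | hK
  · rw [sum_eq_zero fun x hx => by
      rw [phi, if_neg fun e => by have := mem_up.1 e; have := mem_Ico.1 hx; omega, mul_zero,
        zero_smul]]
    simpa using sq_nonneg _
  have H := (Base53.bs D.B (sl D.n) wt_one90 0 D.rb).mono_mul (θ := fun x => D.τ x / a)
    (d := fun x => D.dx x • Base53.dV D.B (sl D.n) wt_one90 D.rb x) (j := D.J + 1) (n := D.K)
    (fun _ _ e => div_le_div_of_nonneg_right (h.tau_mono e) ha.le) t1 h.f00 h.wk0.f_anti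
    (fun y hy => by
      have := h.wk0.varN y
      rw [CD.tail, max_eq_left hy] at this
      rw [Base53.ip_sum_pE]
      refine le_of_eq_of_le ?_ this
      simp only [CD.nd, CD.del, ← uK_eq h, Base53.qf_uK D.B (sl D.n) wt_one90, sub_sub_sub_cancel_right])
    hy hK.le 0 (t0 y)
  rw [zero_smul, sub_zero, sub_zero, one_mul] at H
  rw [sum_Ico_succ_top hK.le, phi, if_neg (by simp), mul_zero, zero_smul, add_zero, fz, if_pos hK,
    sum_congr rfl fun x hx => by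
      rw [phi, if_pos (by have := mem_Ico.1 hx; exact mem_up.2 (by omega)), mul_comm, mul_smul]]
  exact H

theorem nh {C A : ℝ} (hC : 1 ≤ C) (hA : 1 ≤ A)
    (R : Reg D.B (cG D) (D.J + 1) (A + 4) (fun y => A * mm D y) fun i => C * S97.st D.S (Gm D) i) :
    NH D.B (cG D) (Bt D) (D.J + 1) (A + 4) (fun y => A * mm D y) (fun i => C * S97.st D.S (Gm D) i)
      (fun y => √(D.v y y)) (fun y x => √(D.v y x)) (Base53.ipE wt_one90 D.B 0)
      (Base53.dV D.B (sl D.n) wt_one90 D.rb) (Base53.pV D.B (sl D.n) wt_one90)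
      (Base53.PE wt_one90 D.B) := by
  have b1 := Base53.bs D.B (sl D.n) wt_one90 0 D.rb
  have b2 := fun y x t => Base53.lo3 D.B (sl D.n) wt_one90 0 D.rb (y := y) (x := x) (t := t)
  simp only [uK_eq h, vt_eq h] at b1 b2
  have m := mm_mem h
  refine ⟨h.mono, eK_tr D _, Bt_tr D, R, b1, b2, fun _ _ => Real.sqrt_nonneg _, by linarith,
    by nlinarith [(m (D.J + 1)).2], fun y => mul_nonneg (by linarith) (h.X0.trans (m y).1),
    fun i => ?_, ?_⟩
  · have := S97.st_bds (r1 h) (mS h) (Gm D) i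
    rw [S_dm] at this
    exact this.2.2.2.1.trans (le_mul_of_one_le_left this.1 hC)
  · exact (h.sum_dx D.J).trans_le (h.x1.trans ((m _).1.trans
      (le_mul_of_one_le_left (h.X0.trans (m _).1) hA)))

theorem sum_up {g : ℕ → ℝ} : ∑ y ∈ Ico (D.J + 1) (D.K + 1), D.dx y * g y = D.I g := by
  rw [sum_Ico_succ_top (show D.J + 1 ≤ D.K from h.cut), h.top, zero_mul, add_zero,
    Finset.Ico_add_one_left_eq_Ioo]
  rfl

theorem er2 {C A : ℝ} (hC : 0 ≤ C) (hA : 0 ≤ A) :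
    Er2 D.B (D.J + 1) (fun y => A * mm D y) (fun i => C * S97.st D.S (Gm D) i)
      (fun y => √(D.v y y)) (fun y x => √(D.v y x)) (fz D D.f0) (fz D D.f0) ≤
      (2 * A + 2 * (33 * C) ^ 2 + 66 * C + A ^ 2 + A) * D.E0 := by
  have m0 : ∀ y, 0 ≤ mm D y := fun y => h.X0.trans (mm_mem h y).1
  have sq : ∀ y, fz D D.f0 y ^ 2 = fz D (fun j => D.f0 j ^ 2) y := fun y => by
    unfold fz; split_ifs <;> simp
  have s0 := h.sv0 (F := fun j => D.f0 j ^ 2) (fun _ => sq_nonneg _) D.J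
  have t1 : mm D (D.J + 1) * fz D D.f0 (D.J + 1) ^ 2 ≤ D.sv (fun j => D.f0 j ^ 2) D.J := by
    rw [sq, fz]
    split_ifs with e
    · have hm : D.J + 1 ∈ D.up := mem_up.2 ⟨Nat.lt_succ_self _, e⟩
      refine le_trans ?_ (single_le_sum (f := fun t => D.dv t * D.f0 t ^ 2)
        (fun t ht => mul_nonneg (h.dv0 (mem_up.1 ht).2.le) (sq_nonneg _)) hm)
      rw [CD.dv, if_pos le_rfl]
      exact mul_le_mul_of_nonneg_right (mm_le h hm) (sq_nonneg _)
    · rwa [mul_zero]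
  have t2 := pow_le_pow_left₀ (sum_nonneg fun i _ => mul_nonneg
    (mul_nonneg hC (S97.st_bds (r1 h) (mS h) (Gm D) i).1)
    (show 0 ≤ fz D D.f0 (i + 1) by unfold fz; split_ifs; exacts [h.f00 _, le_rfl]))
    (sum_st h h.f00 hC) 2
  have t3 := sum_st h (g := fun j => D.f0 j ^ 2) (fun _ => sq_nonneg _) hC
  have t4 : ∑ y ∈ Ico (D.J + 1) (D.K + 1), D.dx y * (A * mm D y * √(D.v y y)) ^ 2 ≤
      A ^ 2 * D.I fun t => D.e t ^ 2 * D.v t t := by
    rw [sum_up h, ← D.I_mul]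
    refine h.I_mono fun t ht => ?_
    rw [mul_pow, mul_pow, Real.sq_sqrt (D.v0 t t), mul_assoc]
    exact mul_le_mul_of_nonneg_left (mul_le_mul_of_nonneg_right
      (pow_le_pow_left₀ (m0 t) (mm_le h ht) 2) (D.v0 t t)) (sq_nonneg _)
  have t5 : ∑ x ∈ Ico (D.J + 1) (D.K + 1), ∑ y ∈ Ico (D.J + 1) (x + 1),
      D.dx x * D.dx y * (A * mm D y * (√(D.v y x) * √(D.v x x))) ≤
      A * (D.I (fun t => D.e t ^ 2 * D.v t t) +
        D.I fun t => D.e t * ∑ y ∈ Ico 1 t, D.dx y * D.v y t) := by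
    simp only [mul_assoc (D.dx _), ← mul_sum]
    rw [sum_up h, ← D.I_add, ← D.I_mul]
    refine h.I_mono fun x hx => ?_
    have hx' := mem_up.1 hx
    have e0 := h.e0 x
    have v0 := D.v0 x x
    have k1 : ∑ y ∈ Ico (D.J + 1) (x + 1), D.dx y ≤ D.e x :=
      (h.sum_dx_le fun i hi => Nat.lt_succ_iff.1 (mem_Ico.1 hi).2).trans (ex_le h hx)
    have k2 : D.dx x ≤ D.e x := by
      simpa using (h.sum_dx_le (A := {x}) (by simp)).trans (ex_le h hx)
    have k3 : ∑ y ∈ Ico (D.J + 1) x, D.dx y * D.v y x ≤ ∑ y ∈ Ico 1 x, D.dx y * D.v y x :=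
      sum_le_sum_of_subset_of_nonneg (Ico_subset_Ico_left (by omega))
        fun y _ _ => mul_nonneg (h.dx0 y) (D.v0 y x)
    have k4 := h.sv_low0 (Ico 1 x) x
    refine (sum_le_sum (g := fun y => A * D.e x / 2 * (D.dx y * D.v y x + D.dx y * D.v x x))
      fun y hy => ?_).trans ?_
    · have hy' := mem_Ico.1 hy
      have k5 : mm D y ≤ D.e x := (mm_le h (mem_up.2 (by omega))).trans (h.e_mono (by omega))
      have k6 : √(D.v y x) * √(D.v x x) ≤ (D.v y x + D.v x x) / 2 := by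
        nlinarith [sq_nonneg (√(D.v y x) - √(D.v x x)), Real.sq_sqrt (D.v0 y x), Real.sq_sqrt v0]
      exact (mul_le_mul_of_nonneg_left (mul_le_mul (mul_le_mul_of_nonneg_left k5 hA) k6
        (by positivity) (by positivity)) (h.dx0 y)).trans_eq (by ring)
    · rw [← mul_sum, sum_add_distrib, ← sum_mul, sum_Ico_succ_top hx'.1]
      have k7 := mul_le_mul_of_nonneg_right k1 v0
      have k8 := mul_le_mul_of_nonneg_right k2 v0
      have k9 := mul_le_mul_of_nonneg_left (add_le_add (add_le_add k3 k8) k7)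
        (show 0 ≤ A * D.e x / 2 by positivity)
      nlinarith [mul_nonneg (mul_nonneg hA e0) k4]
  obtain ⟨l1, l2, l3⟩ := h.Lad0_parts
  have l4 := h.Lad0_le
  have l5 := h.VF_le
  rw [CD.Lad0] at l4
  rw [CD.VF] at l5
  have l6 := sq_nonneg (D.sv D.f0 D.J)
  rw [Er2, D.B_len]
  simp only [← two_mul, mul_left_comm _ (2 : ℝ), ← mul_sum, sq] at t1 ⊢
  rw [mul_pow] at t2
  have u1 := mul_le_mul_of_nonneg_left (t1.trans (by linarith : _ ≤ D.E0)) hA
  have u2 := mul_le_mul_of_nonneg_left (by linarith : D.sv D.f0 D.J ^ 2 ≤ D.E0) (sq_nonneg (33 * C))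
  have u3 := mul_le_mul_of_nonneg_left (by linarith : D.sv (fun j => D.f0 j ^ 2) D.J ≤ D.E0) hC
  have u4 := mul_le_mul_of_nonneg_left
    (by linarith : D.I (fun t => D.e t ^ 2 * D.v t t) ≤ D.E0) (sq_nonneg A)
  have u5 := mul_le_mul_of_nonneg_left (by linarith : D.I (fun t => D.e t ^ 2 * D.v t t) +
    D.I (fun t => D.e t * ∑ y ∈ Ico 1 t, D.dx y * D.v y t) ≤ D.E0) hA
  linarith

theorem crude (hW : D.W = none) {φ : ℕ → ℝ} (h1 : ∀ x, |φ x| ≤ 1) (h2 : ∀ x, φ x ≠ 0 → x ∈ D.up) :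
    |NL D.B (((wt φ φ).mul (cS D)).mul (Bt D)) - NL D.B (((wt φ φ).mul (cG D)).mul (Bt D))| ≤
      21 * (D.X ^ 3 * D.X ^ 3 * (2 * 2)) := by
  have k : ∀ y x, φ y ≠ 0 → φ x ≠ 0 →
      |S97.Bq D.S D.q y x - S97.Bq D.S (Gm D) y x| ≤ D.X ^ 3 * D.X ^ 3 := fun y x a b => by
    refine le_of_eq_of_le (congrArg _ ?_) (S97.abs_mul_le' (h.stt hW y (h2 y a)) (h.stt hW x (h2 x b)))
    rw [S97.Bq, S97.Bq, Gm, Gm, if_pos (mem_up.1 (h2 y a)).2.le, if_pos (mem_up.1 (h2 x b)).2.le]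
    show _ = (S97.Ga D.S y - D.q y) * (S97.Ga D.S x - D.q x)
    ring
  have e : D.B.length = D.S.length := D.B_len.trans (S_len D).symm
  have := h.X0
  rw [cS, cG]
  refine NL_sub h.mono (eK_tr D _) (eK_tr D _) (Bt_tr D) h1 (by positivity)
    (fun y x t a b c1 c2 c3 c4 => ?_) fun z x j a b c1 c2 c3 c4 => ?_
  · rw [lo_mul, lo_mul, ← sub_mul]
    refine S97.abs_mul_le' ?_ (ee_lo wt_one90 (abs_oU_rb D) c1 c2 c3 c4)
    rw [e] at c2 c4 ⊢
    rw [S97.lo_eq _ c1 c2 c3 c4, S97.lo_eq _ c1 c2 c3 c4, add_sub_add_left_eq_sub]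
    exact k y x a b
  · rw [← sub_mul]
    refine S97.abs_mul_le' ?_ (ee_off wt_one90 (abs_oU_rb D) c1.le c3 c2.le c4)
    rw [e] at c3 c4 ⊢
    rw [S97.off_eq _ c1.le c3 c2.le c4, S97.off_eq _ c1.le c3 c2.le c4,
      add_sub_add_left_eq_sub]
    exact k j x b a

end ok

/-- **the non-local part of `[aU, aU]` is an error** -/
theorem nlS : NLS := by
  obtain ⟨C, hC, H⟩ := S97.siteS
  set A := 2 * C * (1024 * Real.exp (3 / 2)) with hA
  have A1 : 1 ≤ A := by nlinarith [Real.one_le_exp (show (0 : ℝ) ≤ 3 / 2 by norm_num)]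
  refine Bd.val fun τ0 => ⟨(max τ0 1 / 2) ^ 2 *
    (20 * (A + 4) * (2 * A + 2 * (33 * C) ^ 2 + 66 * C + A ^ 2 + A) + 84), fun D h hW => ?_⟩
  have ha : 0 < max τ0 1 := lt_max_of_lt_right one_pos
  have W := wf h ha (le_max_left _ _)
  have k1 := (nh h hC A1 (reg h hC H hA)).bd W W (h.cut.trans_eq D.B_len.symm)
  have k2 := mul_le_mul_of_nonneg_left (er2 h (C := C) (A := A) (by linarith) (by linarith))
    (show 0 ≤ 20 * (A + 4) by linarith)
  have k3 := crude h (Option.isNone_iff_eq_none.1 (by simpa using hW)) W.le fun x hx => by_contra fun e => hx (if_neg e)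
  have k4 := h.X6_le
  rw [Tc, NL_scale (c := cS D) (φ := phi D (max τ0 1)) (κ := max τ0 1 / 2) (eK_tr D _) (Bt_tr D)
    fun x => ?_,
    abs_mul, abs_of_nonneg (sq_nonneg _), mul_assoc]
  · refine mul_le_mul_of_nonneg_left ?_ (sq_nonneg _)
    have k5 := abs_sub_abs_le_abs_sub (NL D.B (((wt (phi D (max τ0 1)) (phi D (max τ0 1))).mul
      (cS D)).mul (Bt D))) (NL D.B (((wt (phi D (max τ0 1)) (phi D (max τ0 1))).mul
      (cG D)).mul (Bt D)))
    linarith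
  · rw [ph, phi]
    rcases lt_or_ge x D.K with e | e
    · by_cases e' : D.J < x
      · rw [if_pos e', if_pos (mem_up.2 ⟨e', e⟩)]
        field_simp
      · rw [if_neg e', if_neg fun a => e' (mem_up.1 a).1]
        simp
    · have : dm D.B 0 x = 0 := by
        rcases e.eq_or_lt with rfl | e
        · exact h.top
        · obtain ⟨x, rfl⟩ : ∃ y, x = y + 1 := ⟨x - 1, by omega⟩
          rw [S97.dm_succ]
          unfold Crest.Agent.T157.Casc.ex
          rw [List.getElem?_eq_none (by rw [D.B_len]; omega),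
            List.getElem?_eq_none (by rw [D.B_len]; omega), sub_self]
      simp [this]

end Crest.Agent.T156.Cas.C40.N75

end
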