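import Crest.Agent.T156.QBl_21
import Crest.Agent.T156.QCl_33

/-!
# Row 156, block Q: `QBlS`, `QVarS` unconditionally (helper21)
-/

namespace Crest.Agent.T156.Alt.QBl21

theorem qBlS : QBlS := qBl_of C33.qDatS

theorem qVarS : QVarS := qVar_of C33.qDatS

end Crest.Agent.T156.Alt.QBl21
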