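import Crest.Agent.T156.QCas_98

/-!
# Row 156, block Q: Lipschitz window systems and centred synchronisation (helper57)

`win_lip`: windows of clock length `ℓ` (`1/16`-Lipschitz), tolerance `κ ℓ`.  `Cone`: the system
centred at one node `j`, constant clock `r j`; no location input, only a slope bound at `j`.
-/

set_option autoImplicit false
set_option linter.unusedVariables false

noncomputable section

namespace Crest.Agent.T156.Q57.Cen57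

open MeasureTheory Real Finset Blk24

variable {α ι : Type} [MeasurableSpace α] [Fintype ι] {S : Sys α ι}

/-- Lipschitz windows -/
theorem win_lip {L j0 j1 : ℕ} {v l2 l3 K κ : ℝ} {ℓ c g : ℕ → ℝ} (hv : 0 < v) (K2 : 2 ≤ K)
    (l20 : 0 < l2) (l30 : 0 < l3) (k1 : 1 ≤ κ) (l16 : ∀ j, 16 * v ≤ ℓ j)
    (lip : ∀ i j : ℕ, |ℓ i - ℓ j| ≤ |(i : ℝ) - j| * v / 16)
    (clk : ∀ i j, i ≤ j → 0 ≤ c j - c i ∧ c j - c i ≤ (j - i : ℝ) * v)
    (c02 : ∀ j, 0 ≤ c j ∧ c j ≤ 2) (old : ∀ j, j0 ≤ j → j ≤ j1 → c j ≤ K * κ * (2 ^ L * v))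
    (loc : ∀ j, j0 ≤ j → j ≤ j1 → |S.r j - c j| ≤ κ * ℓ j)
    (T4 : ∀ j, j0 ≤ j → j ≤ j1 → ((L : ℝ) + 2) ^ 2 * l2 ≤ κ * ℓ j * min (ℓ j / 2) (2 ^ L * v))
    (T3 : ∀ j, j0 ≤ j → j ≤ j1 → 2 ≤ κ * ℓ j ∨ (0 < g j ∧
      (∀ y : ℕ, |(y : ℝ) - j| * v ≤ ℓ j → j ≤ y + 2 ^ L → y < j + 2 ^ L → g j ≤ S.dm y) ∧
      ((L : ℝ) + 2) ^ 2 * l3 * v ≤ g j * (κ * ℓ j) * min (ℓ j / 2) (2 ^ L * v) ^ 2)) :
    S.Win L v l2 l3 K j0 j1 (Nw L v ℓ) (fun j => κ * ℓ j) c g := by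
  have t0 : ∀ j, 0 ≤ ℓ j := fun j => by linarith [l16 j]
  have k0 : 0 ≤ κ := by linarith
  have Nv : ∀ j, Nw L v ℓ j * v ≤ ℓ j := fun j => Nw_v hv (t0 j)
  have m0 : ∀ j, 0 ≤ min (ℓ j / 2) (2 ^ L * v) := fun j =>
    le_min (by linarith [t0 j]) (by positivity)
  have Nl : ∀ j, min (ℓ j / 2) (2 ^ L * v) ≤ Nw L v ℓ j * v := fun j =>
    Nw_ge hv (l16 j) ((min_le_left _ _).trans (by linarith [t0 j])) (min_le_right _ _)
  have NU : ∀ j, Nw L v ℓ j ≤ 2 ^ L := fun j => min_le_right _ _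
  refine ⟨hv, by linarith, l20, l30, fun j => Nw_one hv (l16 j), NU, clk, c02,
    fun j => (Nv j).trans (le_mul_of_one_le_left (t0 j) k1), loc,
    fun i j _ _ _ _ h1 h2 => ?_, fun i j _ _ h1 _ => ?_, fun j h1 h2 => ?_, fun j h1 h2 => ?_,
    fun j h1 h2 => (T3 j h1 h2).imp id fun h => ⟨h.1, fun y a b => ?_, ?_⟩⟩
  · have k := abs_le.1 (lip_near hv lip h1 h2)
    push_cast at k
    have := Nv j
    have := t0 j
    refine ⟨Nw_two hv (t0 i) (l16 j) (by linarith [k.2]),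
      Nw_two hv (t0 j) (l16 i) (by linarith [k.1]), ?_⟩
    have e : ℓ i ≤ K * ℓ j := by nlinarith [k.2]
    nlinarith [mul_le_mul_of_nonneg_left e k0]
  · have a1 : (i : ℝ) + Nw L v ℓ j ≤ j := by exact_mod_cast h1
    have n0 : (0 : ℝ) ≤ Nw L v ℓ j := Nat.cast_nonneg _
    have k := (abs_le.1 (lip i j)).2
    rw [abs_of_nonpos (by linarith)] at k
    have e1 := mul_le_mul_of_nonneg_right k n0
    have e2 := mul_le_mul_of_nonneg_left (Nv j) (show 0 ≤ (j : ℝ) - i by linarith)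
    have e3 := mul_le_mul_of_nonneg_left (show (Nw L v ℓ j : ℝ) ≤ j - i by linarith) (t0 j)
    have e4 : 0 ≤ ℓ j * ((j : ℝ) - i) := mul_nonneg (t0 j) (by linarith)
    have e5 : ℓ i * Nw L v ℓ j ≤ K * ℓ j * ((j : ℝ) - i) := by nlinarith
    nlinarith [mul_le_mul_of_nonneg_left e5 k0]
  · have e1 := mul_le_mul_of_nonneg_right (old j h1 h2) (Nat.cast_nonneg (α := ℝ) (Nw L v ℓ j))
    have e2 := mul_le_mul_of_nonneg_left (Nv j) (show 0 ≤ K * κ * 2 ^ L by positivity)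
    nlinarith
  · exact (T4 j h1 h2).trans (mul_le_mul_of_nonneg_left (Nl j) (mul_nonneg k0 (t0 j)))
  · refine h.2.1 y (le_trans (mul_le_mul_of_nonneg_right ?_ hv.le) (Nv j))
      (by have := NU j; omega) (by have := NU j; omega)
    have a1 : (j : ℝ) ≤ y + Nw L v ℓ j := by exact_mod_cast a
    have a2 : (y : ℝ) ≤ j + Nw L v ℓ j := by exact_mod_cast b.le
    exact abs_le.2 ⟨by linarith, by linarith⟩
  · have e1 := pow_le_pow_left₀ (m0 j) (Nl j) 2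
    have e2 := mul_le_mul_of_nonneg_left e1 (mul_nonneg h.1.le (mul_nonneg k0 (t0 j)))
    refine le_of_mul_le_mul_right ?_ hv
    nlinarith [h.2.2]

/-- the cone centred at `j` -/
def cone (v l0 : ℝ) (j i : ℕ) : ℝ := l0 + |(i : ℝ) - j| * v / 16

theorem cone_self (v l0 : ℝ) (j : ℕ) : cone v l0 j j = l0 := by simp [cone]

theorem cone_ge {v : ℝ} (hv : 0 ≤ v) (l0 : ℝ) (j i : ℕ) : l0 ≤ cone v l0 j i :=
  le_add_of_nonneg_right (by positivity)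

theorem cone_lip {v : ℝ} (hv : 0 ≤ v) (l0 : ℝ) (j i i' : ℕ) :
    |cone v l0 j i - cone v l0 j i'| ≤ |(i : ℝ) - i'| * v / 16 := by
  have h := abs_abs_sub_abs_le_abs_sub ((i : ℝ) - j) ((i' : ℝ) - j)
  rw [sub_sub_sub_cancel_right] at h
  have e : cone v l0 j i - cone v l0 j i' = (|(i : ℝ) - j| - |(i' : ℝ) - j|) * (v / 16) := by
    simp only [cone]; ring
  rw [e, abs_mul, abs_of_nonneg (show 0 ≤ v / 16 by positivity), mul_div_assoc]
  exact mul_le_mul_of_nonneg_right h (by positivity)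

theorem cone_le {v l0 : ℝ} (hv : 0 ≤ v) {j i n : ℕ} (h1 : i ≤ j + n) (h2 : j ≤ i + n) :
    cone v l0 j i ≤ l0 + n * v / 16 := by
  have a1 : (i : ℝ) ≤ j + n := by exact_mod_cast h1
  have a2 : (j : ℝ) ≤ i + n := by exact_mod_cast h2
  have : |(i : ℝ) - j| ≤ n := abs_le.2 ⟨by linarith, by linarith⟩
  unfold cone
  gcongr

/-- data of the centred system -/
structure Cone (S : Sys α ι) (L j0 j1 j : ℕ) (v l2 l3 K κ l0 : ℝ) : Prop where
  v0 : 0 < v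
  K2 : 2 ≤ K
  l20 : 0 < l2
  l30 : 0 < l3
  k1 : 1 ≤ κ
  l16 : 16 * v ≤ l0
  lU : l0 ≤ 2 * (2 ^ L * v)
  old : S.r j ≤ K * κ * (2 ^ L * v)
  slope : ∀ i, j0 ≤ i → i ≤ j1 → |S.r i - S.r j| ≤ κ * cone v l0 j i
  T4 : 2 * (((L : ℝ) + 2) ^ 2 * l2) ≤ κ * l0 ^ 2
  T3 : ∀ i, j0 ≤ i → i ≤ j1 → 2 ≤ κ * cone v l0 j i ∨
    ∀ y : ℕ, |(y : ℝ) - i| * v ≤ cone v l0 j i → i ≤ y + 2 ^ L → y < i + 2 ^ L →
      ((L : ℝ) + 2) ^ 2 * l3 * v ≤
        S.dm y * (κ * cone v l0 j i) * min (cone v l0 j i / 2) (2 ^ L * v) ^ 2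

theorem r_mem (hS : S.Ok) (j : ℕ) : 0 ≤ S.r j ∧ S.r j ≤ 1 := by
  have := hS.prob
  refine ⟨integral_nonneg fun a => rho_nonneg j a, ?_⟩
  have := integral_mono (bm_int S.μ (bm_rho hS j)) (integrable_const (1 : ℝ)) (hS.bd j)
  simpa [Sys.r] using this

variable {L j0 j1 j : ℕ} {v l2 l3 K κ l0 : ℝ}

theorem Cone.win (H : Cone S L j0 j1 j v l2 l3 K κ l0) (hS : S.Ok) :
    S.Win L v l2 l3 K j0 j1 (Nw L v (cone v l0 j)) (fun i => κ * cone v l0 j i) (fun _ => S.r j)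
      fun i => ((L : ℝ) + 2) ^ 2 * l3 * v /
        (κ * cone v l0 j i * min (cone v l0 j i / 2) (2 ^ L * v) ^ 2) := by
  have hv := H.v0
  have k0 : 0 < κ := by linarith [H.k1]
  have l00 : 0 < l0 := by linarith [H.l16]
  have c0 : ∀ i, l0 ≤ cone v l0 j i := cone_ge hv.le l0 j
  have c1 : ∀ i, 0 < cone v l0 j i := fun i => l00.trans_le (c0 i)
  have m1 : ∀ i, l0 / 2 ≤ min (cone v l0 j i / 2) (2 ^ L * v) := fun i =>
    le_min (by linarith [c0 i]) (by linarith [H.lU])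
  have l30 := H.l30
  refine win_lip hv H.K2 H.l20 H.l30 H.k1 (fun i => H.l16.trans (c0 i)) (cone_lip hv.le l0 j)
    (fun a b hab => ⟨by simp, ?_⟩) (fun _ => ⟨(r_mem hS j).1, by linarith [(r_mem hS j).2]⟩)
    (fun _ _ _ => H.old) H.slope (fun i _ _ => ?_) fun i a b => (H.T3 i a b).imp id fun h => ?_
  · have : (a : ℝ) ≤ b := by exact_mod_cast hab
    rw [sub_self]
    exact mul_nonneg (by linarith) hv.le
  · have := mul_le_mul (mul_le_mul_of_nonneg_left (c0 i) k0.le) (m1 i) (by positivity)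
      (mul_pos k0 (c1 i)).le
    nlinarith [H.T4]
  · have m0 : 0 < min (cone v l0 j i / 2) (2 ^ L * v) := lt_of_lt_of_le (by positivity) (m1 i)
    have ci := c1 i
    have p0 : 0 < κ * cone v l0 j i * min (cone v l0 j i / 2) (2 ^ L * v) ^ 2 := by positivity
    refine ⟨by positivity, fun y a1 a2 a3 => ?_, le_of_eq ?_⟩
    · rw [div_le_iff₀ p0, ← mul_assoc]
      exact h y a1 a2 a3
    · rw [mul_assoc _ (κ * cone v l0 j i), div_mul_cancel₀ _ p0.ne']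

/-- the window at a node near the centre -/
theorem Cone.Nw_ge (H : Cone S L j0 j1 j v l2 l3 K κ l0) (i : ℕ) :
    l0 / 2 ≤ Nw L v (cone v l0 j) i * v :=
  Blk24.Nw_ge H.v0 (H.l16.trans (cone_ge H.v0.le l0 j i))
    (by linarith [cone_ge H.v0.le l0 j i, H.l16, H.v0]) (by linarith [H.lU])

theorem Cone.Nw_le (H : Cone S L j0 j1 j v l2 l3 K κ l0) : Nw L v (cone v l0 j) j * v ≤ l0 := by
  have := Nw_v (L := L) (τ := cone v l0 j) (j := j) H.v0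
    (by rw [cone_self]; linarith [H.l16, H.v0])
  rwa [cone_self] at this

/-- what the centred system delivers at the node `j`: a window of `N` nodes -/
structure At (S : Sys α ι) (p j N : ℕ) (M G : ℝ) : Prop where
  N1 : 1 ≤ N
  loc : ∀ y, j ≤ y + N → y ≤ j + N → Nb S.μ p (fun a => S.rho y a - S.r j) M
  ric : Nb S.μ p (fun a => av j N fun y => S.aa y a) G
  inc : ∀ j', j ≤ j' → j' ≤ j + 2 * N → Nb S.μ p (fun a => sq2 (S.m j' a - S.m j a)) M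

theorem At.mono {p N : ℕ} {M G M' G' : ℝ} (H : At S p j N M G) (h1 : M ≤ M') (h2 : G ≤ G') :
    At S p j N M' G' :=
  ⟨H.N1, fun y a b => nb_le (H.loc y a b) h1, nb_le H.ric h2, fun y a b => nb_le (H.inc y a b) h1⟩

/-- any reference -/
theorem At.ref (hNb : NbS) (hS : S.Ok) {p N : ℕ} (hp : 1 ≤ p) {M G : ℝ} (H : At S p j N M G) {y : ℕ}
    (h1 : j ≤ y + N) (h2 : y ≤ j + N) {c e : ℝ} (he : |S.r j - c| ≤ e) :
    Nb S.μ p (fun a => S.rho y a - c) (M + e) := by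
  have := hS.prob
  have b1 : Bm fun a => S.rho y a - S.r j := bm_sub (bm_rho hS y) (bm_const _)
  have k : Nb S.μ p (fun _ : α => S.r j - c) e :=
    ⟨(abs_nonneg _).trans he, by simpa using pow_le_pow_left₀ (abs_nonneg _) he p⟩
  have := nb_add hNb hp b1 (bm_const _) (H.loc y h1 h2) k
  simpa using this

/-- **(Q3) on a block of centred nodes**, any reference `c`, any weights `u` -/
theorem q3_at (hNb : NbS) (hJ : JointS) (hS : S.Ok) {p q : ℕ} (hp : 1 ≤ p) (hq : q ≤ p) (N : ℕ → ℕ)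
    (U b0 b1 : ℕ) (c M e u ub G : ℕ → ℝ) {lam Gf : ℝ} (hl : 1 ≤ lam) (G1 : 0 < Gf)
    (hG : 1 ≤ Gf * lam ^ p) (u0 : ∀ y, 0 ≤ u y) (G0 : ∀ y, 0 ≤ G y)
    (hA : ∀ j, b0 ≤ j → j < b1 → At S p j (N j) (M j) Gf ∧ N j ≤ U)
    (hu : ∀ j, b0 ≤ j → j < b1 → ∀ y ∈ Ico j (j + N j), |S.r j - c y| ≤ e j ∧
      u y ≤ ub j ∧ ub j * (2 * (lam * (M j + e j)) ^ q * Gf) ≤ G y) :
    ∑ y ∈ Ico b0 b1, u y * ∫ a, |S.rho y a - c y| ^ q * S.aa y a ∂S.μ ≤
      ∑ y ∈ Ico b0 (b1 + U), G y :=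
  q3_sum hJ hS hp hq N U b0 b1 c (fun j => M j + e j) u ub (fun _ => Gf) G hl u0 G0
    (fun j a b => ⟨(hA j a b).1.N1, (hA j a b).2⟩) (fun _ _ _ => ⟨G1, hG⟩)
    (fun j a b y hy => (hA j a b).1.ref hNb hS hp (by have := mem_Ico.1 hy; omega)
      (by have := mem_Ico.1 hy; omega) (hu j a b y hy).1)
    (fun j a b => (hA j a b).1.ric) fun j a b y hy => (hu j a b y hy).2

open Crest.Agent.T156.Cas Crest.Agent.T156.Cas.QCas98 Crest.Agent.T157.Casc in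
/-- **centred synchronisation on a cascade** -/
theorem cone_cas (r i : ℕ) (K : ℝ) (hi : 1 ≤ i) (hr : r ≤ i) : ∃ C : ℝ, 1 ≤ C ∧
    ∀ (Ω : Type) [Fintype Ω] (w : Ω → ℝ) (L : List (Lv Ω)) (h : Ω → ℝ) (l₀ : Lv Ω) (τ : ℕ → ℝ)
      (t' : ℕ → ℕ) (LL j0 j1 j2 j : ℕ) (x v w3 lam κ l0 : ℝ),
      Dat w L h l₀ τ → Ric L τ t' LL j0 j1 j2 x v w3 K → C ≤ lam → Pol r LL j1 v lam →
      Cone (sysC w L h l₀) LL j0 j1 j v (lam * w3 / x) (lam * K * w3) K κ l0 →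
      j0 + (r + 3) * (8 * 2 ^ LL) ≤ j → j + (r + 3) * (8 * 2 ^ LL) ≤ j1 →
      At (sysC w L h l₀) (2 ^ i) j (Nw LL v (cone v l0 j) j) (2 * lam ^ 3 * κ * l0)
        (2 * lam ^ 5 * ((LL : ℝ) + 2) ^ 2 * K * κ * w3) := by
  obtain ⟨C, C1, H⟩ := sync_sys r i K hi hr
  refine ⟨C, C1, ?_⟩
  intro Ω _ w L h l₀ τ t' LL j0 j1 j2 j x v w3 lam κ l0 D R hC P B h0 h1
  have W := B.win D.ok
  have key := H Ω w L h l₀ τ t' LL j0 j1 j2 x v w3 lam _ _ _ _ D R hC P W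
  have e : (r + 3) * (8 * 2 ^ LL) = (r + 2) * (8 * 2 ^ LL) + 8 * 2 ^ LL := by ring
  have nU := W.NU j
  have hv := B.v0
  have l1 : 0 < lam := by linarith
  have k0 : 0 < κ := by linarith [B.k1]
  have l00 : 0 < l0 := by linarith [B.l16]
  have K0 : 0 < K := by linarith [B.K2]
  have w0 : 0 < w3 := by linarith [R.vw]
  have kj := key j (by omega) (by omega)
  refine ⟨W.N1 j, fun y a b => nb_le (key y (by omega) (by omega)).1 ?_, nb_le kj.2.1 ?_,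
    fun y a b => nb_le (kj.2.2 y a b) ?_⟩
  · have c1 := cone_le (l0 := l0) hv.le b a
    have c2 : cone v l0 j y ≤ 2 * l0 := by linarith [B.Nw_le]
    nlinarith [mul_le_mul_of_nonneg_left c2 (show 0 ≤ lam ^ 3 * κ by positivity)]
  · have n1 := B.Nw_ge j
    have c1 : κ * cone v l0 j j / (Nw LL v (cone v l0 j) j * v) ≤ 2 * κ := by
      rw [cone_self, div_le_iff₀ (by linarith)]
      nlinarith
    nlinarith [mul_le_mul_of_nonneg_left c1
      (show 0 ≤ lam ^ 4 * (((LL : ℝ) + 2) ^ 2 * (lam * K * w3)) by positivity)]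
  · rw [cone_self]
    nlinarith [show 0 ≤ lam ^ 3 * κ * l0 by positivity]

end Crest.Agent.T156.Q57.Cen57
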