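import Mathlib

/-!
# Row 156, block Q (docs/T156_57.md): the abstract frame (helper57)

A vector martingale `m j` (normalised: `rho j = |m j|² ≤ 1`), forms `B j` (`vᵀ A_j v`), label weights
`dm j`.  Everything the proof of `L^p` synchronisation uses is a field of `Sys.Ok` / `Sys.Win`.
Only definitions and propositions; every `...S` is one leaf.
-/

set_option autoImplicit false

noncomputable section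

namespace Crest.Agent.T156.Q57

open MeasureTheory Real Finset

/-- bounded and measurable -/
def Bm {α : Type} [MeasurableSpace α] (X : α → ℝ) : Prop := Measurable X ∧ ∃ C, ∀ a, |X a| ≤ C

/-- `‖X‖_p ≤ c` -/
def Nb {α : Type} [MeasurableSpace α] (μ : Measure α) (p : ℕ) (X : α → ℝ) (c : ℝ) : Prop :=
  0 ≤ c ∧ ∫ a, |X a| ^ p ∂μ ≤ c ^ p

/-- squared length -/
def sq2 {ι : Type} [Fintype ι] (z : ι → ℝ) : ℝ := ∑ i, z i ^ 2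

/-- scalar product -/
def dt {ι : Type} [Fintype ι] (z z' : ι → ℝ) : ℝ := ∑ i, z i * z' i

/-- plain average over the nodes `b, …, b + N - 1` -/
def av (b N : ℕ) (f : ℕ → ℝ) : ℝ := (∑ y ∈ Ico b (b + N), f y) / N

/-- the data -/
structure Sys (α ι : Type) [MeasurableSpace α] [Fintype ι] where
  μ : Measure α
  m : ℕ → α → ι → ℝ
  A : ℕ → α → ι → ι → ℝ
  dm : ℕ → ℝ

namespace Sys

variable {α ι : Type} [MeasurableSpace α] [Fintype ι] (S : Sys α ι)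

/-- overlap at a node -/
def rho (j : ℕ) (a : α) : ℝ := sq2 (S.m j a)

/-- its mean -/
def r (j : ℕ) : ℝ := ∫ a, S.rho j a ∂S.μ

/-- the form `zᵀ A_j z` -/
def B (j : ℕ) (a : α) (z : ι → ℝ) : ℝ := ∑ i, ∑ k, z i * z k * S.A j a i k

/-- `mᵀ A m` -/
def aa (j : ℕ) (a : α) : ℝ := S.B j a (S.m j a)

/-- dyadic pieces of `m y`: `k ≤ L` increments, `k = L + 1` the old part; they add up to `m y` -/
def pc (L k y : ℕ) (a : α) : ι → ℝ :=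
  if k ≤ L then S.m (y - 2 ^ k / 2) a - S.m (y - 2 ^ k) a else S.m (y - 2 ^ L) a

/-- normalised size of a piece -/
def D (L : ℕ) (v : ℝ) (k y : ℕ) (a : α) : ℝ := sq2 (S.pc L k y a) / (2 ^ k * v)

/-- exact structure: probability, martingale, forms, Brascamp–Lieb -/
structure Ok : Prop where
  prob : IsProbabilityMeasure S.μ
  mm : ∀ j i, Measurable fun a => S.m j a i
  mA : ∀ j i k, Measurable fun a => S.A j a i k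
  bd : ∀ j a, S.rho j a ≤ 1
  psd : ∀ j a z, 0 ≤ S.B j a z
  bdB : ∀ j a z, S.B j a z ≤ sq2 z
  dm0 : ∀ j, 0 ≤ S.dm j
  mart : ∀ t j, t ≤ j → ∀ φ : (ℕ → ι → ℝ) → ι → ℝ, Continuous φ →
    ∫ a, dt (φ fun k => S.m (min k t) a) (S.m j a - S.m t a) ∂S.μ = 0
  bl : ∀ (J : Finset ℕ) (g g' : ℕ → ℝ → ℝ) (Ψ Ψ' : ℝ → ℝ), (∀ j t, HasDerivAt (g j) (g' j t) t) →
    (∀ j, Continuous (g' j)) → (∀ t, HasDerivAt Ψ (Ψ' t) t) → Continuous Ψ' →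
    ∫ a, Ψ (∑ j ∈ J, S.dm j * g j (S.rho j a)) ^ 2 ∂S.μ -
      (∫ a, Ψ (∑ j ∈ J, S.dm j * g j (S.rho j a)) ∂S.μ) ^ 2 ≤
    ∫ a, Ψ' (∑ j ∈ J, S.dm j * g j (S.rho j a)) ^ 2 *
      (4 * ∑ j ∈ J, S.dm j * (g' j (S.rho j a) ^ 2 * S.aa j a)) ∂S.μ

/-- off a small set, the Riccati bounds hold pathwise for all pieces on the nodes `[j0, j1]`
(`l2 = λ² w³ / s`, `l3 = λ w³`) -/
structure Good (L : ℕ) (v l2 l3 η : ℝ) (j0 j1 : ℕ) : Prop where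
  ex : ∃ Bad : Set α, MeasurableSet Bad ∧ S.μ.real Bad ≤ η ∧ ∀ a, a ∉ Bad → ∀ k ≤ L + 1, ∀ y,
    j0 + 2 ^ L ≤ y → y ≤ j1 → S.B y a (S.pc L k y a) ≤ l3 * S.D L v k y a ∧
      ∀ y', y ≤ y' → y' ≤ j1 → dt (S.pc L k y a) (S.m y' a - S.m y a) ^ 2 ≤ l2 * S.D L v k y a

/-- windows `N j`, tolerance `τ j`, clock `c j`, label density `g j` on the nodes `[j0, j1]` -/
structure Win (L : ℕ) (v l2 l3 K : ℝ) (j0 j1 : ℕ) (N : ℕ → ℕ) (τ c g : ℕ → ℝ) : Prop where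
  v0 : 0 < v
  K1 : 1 ≤ K
  l20 : 0 < l2
  l30 : 0 < l3
  N1 : ∀ j, 1 ≤ N j
  NU : ∀ j, N j ≤ 2 ^ L
  clk : ∀ i j, i ≤ j → 0 ≤ c j - c i ∧ c j - c i ≤ (j - i : ℝ) * v
  c02 : ∀ j, 0 ≤ c j ∧ c j ≤ 2
  Nv : ∀ j, N j * v ≤ τ j
  loc : ∀ j, j0 ≤ j → j ≤ j1 → |S.r j - c j| ≤ τ j
  near : ∀ i j, j0 ≤ i → i ≤ j1 → j0 ≤ j → j ≤ j1 → i ≤ j + 4 * N j → j ≤ i + 4 * N j →
    N i ≤ 2 * N j ∧ N j ≤ 2 * N i ∧ τ i ≤ K * τ j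
  back : ∀ i j, j0 ≤ i → j ≤ j1 → i + N j ≤ j → j ≤ i + 4 * 2 ^ L →
    τ i * N j ≤ K * τ j * (j - i : ℝ)
  old : ∀ j, j0 ≤ j → j ≤ j1 → c j * N j ≤ K * τ j * 2 ^ L
  T4 : ∀ j, j0 ≤ j → j ≤ j1 → ((L : ℝ) + 2) ^ 2 * l2 ≤ τ j * (N j * v)
  T3 : ∀ j, j0 ≤ j → j ≤ j1 → 2 ≤ τ j ∨ (0 < g j ∧
    (∀ y, j ≤ y + N j → y < j + N j → g j ≤ S.dm y) ∧
    ((L : ℝ) + 2) ^ 2 * l3 ≤ g j * N j * (τ j * (N j * v)))

end Sys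

/-! ### leaves -/

/-- (F0) calculus of `Nb` -/
def NbS : Prop := ∀ (α : Type) [MeasurableSpace α] (μ : Measure α) [IsProbabilityMeasure μ] (p : ℕ),
  1 ≤ p →
  (∀ (κ : Type) (s : Finset κ) (X : κ → α → ℝ) (c : κ → ℝ), (∀ k ∈ s, Bm (X k)) →
    (∀ k ∈ s, Nb μ p (X k) (c k)) → Nb μ p (fun a => ∑ k ∈ s, X k a) (∑ k ∈ s, c k)) ∧
  (∀ X Y c, Bm X → Bm Y → (∀ a, |X a| ≤ |Y a|) → Nb μ p Y c → Nb μ p X c) ∧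
  (∀ X c, Bm X → Nb μ (2 * p) X c → Nb μ p X c) ∧
  (∀ X c, Bm X → Nb μ p X c → Nb μ p (fun a => √(X a)) (√c)) ∧
  (∀ X c, Bm X → Nb μ p X c → ∫ a, |X a| ∂μ ≤ c) ∧
  (∀ (Bad : Set α) (X Y : α → ℝ) (c M e : ℝ), MeasurableSet Bad → Bm X → Bm Y → 0 ≤ M → 0 ≤ e →
    μ.real Bad ≤ e ^ p → (∀ a, |X a| ≤ M) → (∀ a, a ∉ Bad → |X a| ≤ |Y a|) → Nb μ p Y c →
    Nb μ p X (c + M * e))

/-- (GA) Garsia's lemma -/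
def GarS : Prop := ∀ (α : Type) [MeasurableSpace α] (μ : Measure α) [IsProbabilityMeasure μ]
  (p n : ℕ) (S : ℕ → α → ℝ) (W : α → ℝ) (c : ℝ), (∀ i, Bm (S i)) → Bm W → (∀ a, S 0 a = 0) →
  (∀ i a, S i a ≤ S (i + 1) a) →
  (∀ i < n, ∫ a, (S (i + 1) a ^ p - S i a ^ p) * (S n a - S i a) ∂μ ≤
    ∫ a, (S (i + 1) a ^ p - S i a ^ p) * W a ∂μ) →
  1 ≤ p → Nb μ (p + 1) W c → Nb μ (p + 1) (S n) (2 * (p + 1) * c)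

/-- (QV) quadratic variation along any mesh, and Jensen upwards -/
def QvS : Prop := ∀ (α ι : Type) [MeasurableSpace α] [Fintype ι] (S : Sys α ι), S.Ok →
  (∀ (p b h n : ℕ) (X P : ℝ), 2 ≤ p → 1 ≤ P → (n + 1 : ℝ) ≤ P ^ p →
    (∀ i ≤ n, Nb S.μ p (fun a => sq2 (S.m (b + i * h) a - S.m b a)) X) →
    Nb S.μ p (fun a => ∑ i ∈ range n, sq2 (S.m (b + (i + 1) * h) a - S.m (b + i * h) a))
      (16 * p * P * X)) ∧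
  (∀ (p j N : ℕ) (c X : ℝ), 2 ≤ p → 1 ≤ N →
    Nb S.μ p (fun a => max (av j N (fun y => S.rho y a) - c) 0) X →
    Nb S.μ p (fun a => max (S.rho j a - c) 0) X) ∧
  (∀ i j, i ≤ j → ∫ a, sq2 (S.m j a - S.m i a) ∂S.μ = S.r j - S.r i)

/-- (BLp) Brascamp–Lieb for powers, linear functionals of the overlaps -/
def BlpS : Prop := ∀ i : ℕ, ∃ C : ℝ, 1 ≤ C ∧ ∀ (α ι : Type) [MeasurableSpace α] [Fintype ι]
  (S : Sys α ι), S.Ok → ∀ (J : Finset ℕ) (φ : ℕ → ℝ) (γ : ℝ),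
    Nb S.μ (2 ^ i) (fun a => ∑ j ∈ J, S.dm j * (φ j ^ 2 * S.aa j a)) γ →
    Nb S.μ (2 * 2 ^ i) (fun a => ∑ j ∈ J, S.dm j * (φ j * (S.rho j a - S.r j))) (C * √γ)

/-- **(Q2) `L^p` synchronisation.**  `Z ^ 2 ^ J ≥ 4 / v` is the crude start, `P ^ p ≥ 2 ^ (L + 3)`
the price of a maximum. -/
def SyncS : Prop := ∀ (i : ℕ) (K : ℝ), 1 ≤ i → ∃ C : ℝ, 1 ≤ C ∧
  ∀ (α ι : Type) [MeasurableSpace α] [Fintype ι] (S : Sys α ι) (L J j0 j1 : ℕ) (v l2 l3 e P Z : ℝ)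
    (N : ℕ → ℕ) (τ c g : ℕ → ℝ), S.Ok → S.Good L v l2 l3 (e ^ 2 ^ i) j0 j1 →
    S.Win L v l2 l3 K j0 j1 N τ c g → 0 ≤ e → e ≤ v → e ≤ l3 → 1 ≤ P → (2 : ℝ) ^ (L + 3) ≤ P ^ 2 ^ i →
    1 ≤ Z → 4 / v ≤ Z ^ 2 ^ J → ∀ j, j0 + (J + 1) * (8 * 2 ^ L) ≤ j → j + (J + 1) * (8 * 2 ^ L) ≤ j1 →
      Nb S.μ (2 ^ i) (fun a => S.rho j a - c j) (C * P * Z * τ j) ∧
      Nb S.μ (2 ^ i) (fun a => av j (N j) fun y => S.aa y a)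
        (C * P ^ 2 * Z * (((L : ℝ) + 2) ^ 2 * l3 * (τ j / (N j * v))))

/-- (Q3) the joint bound on one window, from the two outputs of `SyncS` -/
def JointS : Prop := ∀ (α ι : Type) [MeasurableSpace α] [Fintype ι] (S : Sys α ι), S.Ok →
  ∀ (p q j N : ℕ) (c : ℕ → ℝ) (M G lam : ℝ), 1 ≤ N → q ≤ p → 1 ≤ p → 0 < G → 1 ≤ lam →
    1 ≤ G * lam ^ p → (∀ y ∈ Ico j (j + N), Nb S.μ p (fun a => S.rho y a - c y) M) →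
    Nb S.μ p (fun a => av j N fun y => S.aa y a) G →
    av j N (fun y => ∫ a, |S.rho y a - c y| ^ q * S.aa y a ∂S.μ) ≤ 2 * (lam * M) ^ q * G

/-- greedy cover of a block by windows -/
def CoverS : Prop := ∀ (N : ℕ → ℕ) (U b0 b1 : ℕ) (f G : ℕ → ℝ), (∀ j, 1 ≤ N j ∧ N j ≤ U) →
  (∀ y, 0 ≤ f y) → (∀ y, 0 ≤ G y) →
  (∀ j, b0 ≤ j → j < b1 → ∑ y ∈ Ico j (j + N j), f y ≤ ∑ y ∈ Ico j (j + N j), G y) →
  ∑ y ∈ Ico b0 b1, f y ≤ ∑ y ∈ Ico b0 (b1 + U), G y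

/-- (D2) a tolerance from RMS location: `r` monotone, clock increments at most `v` -/
def TolS : Prop := ∃ C : ℝ, 0 < C ∧ ∀ (r c : ℕ → ℝ) (v l0 : ℝ) (j0 j1 H Q : ℕ),
  0 < v → 16 * v ≤ l0 → (∀ j, r j ≤ r (j + 1)) →
  (∀ j, c (j + 1) - c j ≤ v) → H ≤ j0 →
  (∀ j, j0 ≤ j → j ≤ j1 → |r j - c j| ≤ H * v) → H * v ≤ 2 ^ Q * l0 →
  ∃ τ : ℕ → ℝ, (∀ j, l0 ≤ τ j ∧ τ j ≤ l0 + H * v) ∧ (∀ j, j0 ≤ j → j ≤ j1 → |r j - c j| ≤ τ j) ∧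
    (∀ i j : ℕ, |τ i - τ j| ≤ |(i : ℝ) - j| * v / 16) ∧
    ∑ j ∈ Icc j0 j1, τ j ^ 2 ≤ C * ((j1 + 1 - j0 : ℕ) * l0 ^ 2 +
      (Q + 1) * ∑ j ∈ Icc (j0 - H) (j1 + H), (r j - c j) ^ 2)

end Crest.Agent.T156.Q57
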