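import Crest.Agent.T156.QCas_98

/-!
# Row 156, block Q: the overlap of a pair, centred at the split node (helper57)
-/

set_option autoImplicit false
set_option linter.unusedSectionVars false
set_option linter.unusedVariables false

noncomputable section

namespace Crest.Agent.T156.Cas.Pr57

open MeasureTheory Real Finset
open Crest.Agent.T157.E Crest.Agent.T157.Casc Crest.Agent.T157.SL
open Crest.Agent.T156.Cas.Sy41 Crest.Agent.T156.Cas.Lp12 Crest.Agent.T156.Cas.QCas98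
open Crest.Agent.T156.Cas.LpR43

variable {Ω : Type} [Fintype Ω] {w : Ω → ℝ} {L : List (Lv Ω)} {h : Ω → ℝ} {l₀ : Lv Ω} {τ : ℕ → ℝ}

/-- shifted features -/
abbrev shf (l₀ : Lv Ω) (m : l₀.ι → ℝ) : Lv Ω := ⟨l₀.ι, fun x i => l₀.A x i - m i, l₀.m⟩

theorem dom_shf {l : Lv Ω} {t : ℝ} (H : Dom l l₀ t) (m : l₀.ι → ℝ) : Dom l (shf l₀ m) t :=
  ⟨H.1, fun v => by
    obtain ⟨η, κ, a, b⟩ := H.2 v
    refine ⟨η, κ + √t * ∑ i, m i * v i, fun x => ?_, b⟩
    rw [a x]
    simp only [Lv.fld, sub_mul, sum_sub_distrib]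
    ring⟩

theorem mv_shf (hw : Wt w) (N : List (Lv Ω)) (m : l₀.ι → ℝ) (z : Ω → ℝ) (i : l₀.ι) :
    mv w N (shf l₀ m) z i = mv w N l₀ z i - m i := by
  simp only [mv, Pf, mul_sub, sum_sub_distrib, ← sum_mul, sum_P hw, one_mul]

omit [Fintype Ω] in
theorem win_drop {j c : ℕ} {θ : ℝ} (H : Win L τ j c θ) :
    Win (L.drop j) (fun k => τ (j + k)) 0 (c - j) θ := by
  obtain ⟨a, b, h1, h2, h3⟩ := H
  have e : ∀ k, ex (L.drop j) k = ex L (j + k) := fun k => by
    simp only [T157.Casc.ex, List.getElem?_drop]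
  refine ⟨by rw [List.length_drop]; omega, b - j, Nat.zero_le _, by omega, h3.trans_eq ?_⟩
  rw [e, Nat.add_sub_cancel' h1, Sw, Sw]
  simp only [e, add_comm j]
  rw [sum_Ico_add' (fun k => ex L k * τ k), Nat.sub_add_cancel h1, Nat.sub_add_cancel (h1.trans h2)]

theorem pw_sum {κ : Type*} (s : Finset κ) (f : κ → ℝ) {n : ℕ} (hn : 1 ≤ n) :
    (∑ i ∈ s, f i) ^ (2 * n) ≤ (s.card + 1 : ℝ) ^ (2 * n) * ∑ i ∈ s, f i ^ (2 * n) := by
  obtain ⟨k, hk⟩ : ∃ k, 2 * n = k + 1 := ⟨2 * n - 1, by omega⟩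
  have e : ∀ x : ℝ, x ^ (2 * n) = |x| ^ (k + 1) := fun x => by rw [← hk, (even_two_mul n).pow_abs]
  simp only [e]
  rw [abs_of_nonneg (show (0 : ℝ) ≤ s.card + 1 by positivity)]
  refine (pow_le_pow_left₀ (abs_nonneg _) (abs_sum_le_sum_abs _ _) _).trans
    ((pow_sum_le_card_mul_sum_pow (fun i _ => abs_nonneg (f i)) k).trans ?_)
  refine mul_le_mul_of_nonneg_right ?_ (sum_nonneg fun i _ => by positivity)
  exact (pow_le_pow_left₀ (Nat.cast_nonneg _) (by linarith) k).trans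
    (pow_le_pow_right₀ (by linarith [Nat.cast_nonneg (α := ℝ) s.card]) k.le_succ)

theorem pw_add (f : ℕ → ℝ) (K : ℕ) (X : ℝ) {n : ℕ} (hn : 1 ≤ n) : (∑ i ∈ range K, f i + X) ^ (2 * n) ≤
    (K + 2 : ℝ) ^ (2 * n) * (∑ i ∈ range K, f i ^ (2 * n) + X ^ (2 * n)) := by
  have a := pw_sum (range (K + 1)) (fun l => if l < K then f l else X) hn
  have e : ∀ φ : ℝ → ℝ, ∑ l ∈ range (K + 1), φ (if l < K then f l else X) =
      ∑ l ∈ range K, φ (f l) + φ X := fun φ => by
    rw [sum_range_succ, if_neg (lt_irrefl _)]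
    congr 1
    exact sum_congr rfl fun l hl => by rw [if_pos (mem_range.1 hl)]
  rw [e fun x => x, e fun x => x ^ (2 * n), card_range] at a
  exact a.trans_eq (by push_cast; ring)

theorem ep_qs (hw : Wt w) (j n : ℕ) : EP fun p : Pth Ω => qf (P w (L.drop j) (p j)) fun x y =>
    (shf l₀ (mv w (L.drop j) l₀ (p j))).cov x y ^ (2 * n) := by
  have eP := fun x => EP.state (eg_P hw (L.drop j) x) j
  have e := fun x i => (EP.const (l₀.A x i)).sub (ep_mv hw (L.drop j) l₀ j i)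
  exact EP.sum _ fun x _ => EP.sum _ fun y _ => ((eP x).mul (eP y)).mul
    ((EP.sum univ fun i _ => (e x i).mul (e y i)).pow (2 * n))

theorem iP0 (j j' : ℕ) (p : Pth Ω) : 0 ≤ iP w L l₀ j j' p := sum_nonneg fun _ _ => sq_nonneg _

/-- the centred pair -/
theorem partA (D : Dat w L h l₀ τ) {n j K : ℕ} (hn : 1 ≤ n) {c : ℕ → ℕ} {θ σ : ℕ → ℝ} {B : ℝ}
    (hB : 0 < B) (hc : Monotone c) (W : ∀ l ≤ K, Win L τ j (c l) (θ l))
    (I : ∀ l < K, Mo w L h n (iP w L l₀ j (c (l + 1))) (σ l)) (h4 : 4 ≤ σ K)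
    (hθ : ∀ l ≤ K, cK n * (θ l * σ l) ^ n ≤ B ^ (2 * n))
    (I0 : Mo w L h (2 * n) (iP w L l₀ j (c 0)) B) :
    EE w L h (fun p => qf (P w (L.drop j) (p j)) fun x y =>
      (shf l₀ (mv w (L.drop j) l₀ (p j))).cov x y ^ (2 * n)) ≤
      (2 * K + 3) ^ (2 * n) * ((K + 3) * (3 * B) ^ (2 * n)) := by
  have hw := D.hw
  have hK := cK_pos n
  have θ0 : ∀ l ≤ K, 0 < θ l := fun l hl => (W l hl).pos D.mono l₀ D.dom
  have jc : ∀ l, j ≤ c l := fun l => (W 0 (Nat.zero_le K)).le.trans (hc (Nat.zero_le l))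
  set F0 : Pth Ω → ℝ := fun p => (3 * iP w L l₀ j (c 0) p) ^ (2 * n) with hF0
  set F : ℕ → Pth Ω → ℝ := fun l p => cK n * θ l ^ n * iP w L l₀ j (c (l + 1)) p ^ n with hF
  have e0 : EP F0 := ((ep_iP hw _ _).const_mul 3).pow _
  have e1 : ∀ l, EP (F l) := fun l => ((ep_iP hw _ _).pow _).const_mul _
  have B3 : B ^ (2 * n) ≤ (3 * B) ^ (2 * n) := pow_le_pow_left₀ hB.le (by linarith) _
  have key : ∀ p : Pth Ω, qf (P w (L.drop j) (p j)) (fun x y =>
      (shf l₀ (mv w (L.drop j) l₀ (p j))).cov x y ^ (2 * n)) ≤ (2 * K + 3) ^ (2 * n) *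
      (CE w L j F0 p + ∑ l ∈ range K, CE w L j (F l) p + B ^ (2 * n)) := fun p => by
    have a0 : 0 ≤ CE w L j F0 p := EE_nonneg _ _ fun q => (even_two_mul n).pow_nonneg _
    have a1 : ∀ l ∈ range K, 0 ≤ CE w L j (F l) p := fun l hl => EE_nonneg _ _ fun q => by
      have := θ0 l (mem_range.1 hl).le
      have := iP0 (w := w) (L := L) (l₀ := l₀) j (c (l + 1)) (cat j p q)
      simp only [hF]
      positivity
    have a2 := sum_nonneg a1
    have a3 : 0 < B ^ (2 * n) := by positivity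
    set G := CE w L j F0 p + ∑ l ∈ range K, CE w L j (F l) p + B ^ (2 * n) with hG
    have G0 : 0 < G := by linarith
    set b := G ^ (((2 * n : ℕ) : ℝ)⁻¹) with hb
    have b0 : 0 < b := rpow_pos_of_pos G0 _
    have bG : b ^ (2 * n) = G := rpow_inv_natCast_pow G0.le (by omega)
    have dd : ∀ l, (L.drop j).drop (c l - j) = L.drop (c l) := fun l => by
      rw [List.drop_drop, Nat.add_sub_cancel' (jc l)]
    have cn := fun l (φ : ℝ → ℝ) => CE_node hw L (jc l) (Lp12.Ad.state le_rfl fun z => z)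
      (fun z u => φ (∑ i, (mv w (L.drop (c l)) l₀ u i - mv w (L.drop j) l₀ z i) ^ 2)) p
    have k := pair_Lp hw (mono_drop j D.mono) (shf l₀ (mv w (L.drop j) l₀ (p j)))
      (τ := fun k => τ (j + k)) (fun k hk => dom_shf (by
        rw [List.getElem_drop]; exact D.dom _ _) _) (j := 0) (c := fun l => c l - j)
      (fun _ _ e => Nat.sub_le_sub_right (hc e) j) K (θ := θ) (B := fun _ => b) (Λ := 4)
      (fun x => ?_) (fun l hl => win_drop (W l hl)) (p j) 0 n b0 (fun _ => b0) ?_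
      (fun l hl => ?_) ?_
    · simp only [pi2, node_zero, List.drop_zero, sub_zero, sum_const, card_range, nsmul_eq_mul] at k
      refine k.trans_eq ?_
      rw [← bG, ← mul_pow]
      push_cast
      ring
    · have r1 := Q33.rr_le hw (L.drop j) D.one (p j)
      have r2 := D.one x
      simp only [Lv.cov, rr] at r1 r2 ⊢
      have : ∑ i, (l₀.A x i - mv w (L.drop j) l₀ (p j) i) * (l₀.A x i - mv w (L.drop j) l₀ (p j) i) ≤
          ∑ i, (2 * (l₀.A x i * l₀.A x i) + 2 * mv w (L.drop j) l₀ (p j) i ^ 2) :=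
        sum_le_sum fun i _ => by nlinarith [sq_nonneg (l₀.A x i + mv w (L.drop j) l₀ (p j) i)]
      rw [sum_add_distrib, ← mul_sum, ← mul_sum] at this
      linarith
    · rw [bG]
      refine le_trans (le_of_eq ?_) (show CE w L j F0 p ≤ G by linarith)
      refine Eq.trans ?_ (cn 0 fun t => (3 * t) ^ (2 * n)).symm
      rw [← EE_node hw]
      refine EE_congr _ _ fun q e => ?_
      simp only [rr, mv_shf hw, dd, List.drop_zero, e, sub_self, sub_zero]
      rw [abs_of_nonneg (sum_nonneg fun _ _ => sq_nonneg _)]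
      congr 1
      ring
    · rw [bG]
      refine le_trans (le_of_eq ?_) (show CE w L j (F l) p ≤ G by
        linarith [single_le_sum a1 (mem_range.2 hl)])
      refine Eq.trans ?_ (cn (l + 1) fun t => cK n * θ l ^ n * t ^ n).symm
      rw [node_const_mul]
      simp only [rr, mv_shf hw, dd]
    · rw [bG]
      refine le_trans (le_trans ?_ (hθ K le_rfl)) (by linarith)
      have := θ0 K le_rfl
      gcongr
  have ec := ep_CE hw L j e0
  have es : EP fun p => ∑ l ∈ range K, CE w L j (F l) p := EP.sum _ fun l _ => ep_CE hw L j (e1 l)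
  refine (EE_mono hw L h (ep_qs hw j n) (((ec.add es).add (EP.const _)).const_mul _) key).trans ?_
  rw [EE_const_mul, EE_add hw L h (ec.add es) (EP.const _), EE_add hw L h ec es,
    EE_sum hw L h _ fun l _ => ep_CE hw L j (e1 l), EE_const hw, ← EE_tower hw]
  simp only [← EE_tower hw]
  have m0 : EE w L h F0 ≤ (3 * B) ^ (2 * n) := by
    simpa only [(even_two_mul n).pow_abs] using (I0.const_mul' (show (0 : ℝ) ≤ 3 by norm_num)).le
  have m1 : ∑ l ∈ range K, EE w L h (F l) ≤ K * (3 * B) ^ (2 * n) := by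
    refine (sum_le_card_nsmul _ _ _ fun l hl => ?_).trans_eq (by rw [card_range, nsmul_eq_mul])
    have hl' := mem_range.1 hl
    have m := (I l hl').le
    simp only [abs_of_nonneg (iP0 _ _ _)] at m
    have := θ0 l hl'.le
    rw [hF, EE_const_mul]
    refine le_trans ?_ ((hθ l hl'.le).trans B3)
    rw [mul_pow, ← mul_assoc]
    gcongr
  have : (0 : ℝ) ≤ (3 * B) ^ (2 * n) := by positivity
  gcongr
  linarith

/-- one branch against the state of the split node -/
theorem partB (D : Dat w L h l₀ τ) {n j c K : ℕ} (hn : 1 ≤ n) {y : ℕ → ℕ} {θ σ : ℕ → ℝ} {B q : ℝ}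
    (hB : 0 < B) (jc : j ≤ c) (y0 : y 0 = j) (W : ∀ l ≤ K, Win L τ (y l) c (θ l))
    (ya : ∀ l, y (l + 1) ≤ y l)
    (I : ∀ l < K, Mo w L h n (iP w L l₀ (y (l + 1)) (y l)) (σ l)) (h1 : 1 ≤ σ K)
    (hθ : ∀ l ≤ K, cK n * (θ l * σ l) ^ n ≤ B ^ (2 * n))
    (I0 : Mo w L h (2 * n) (iP w L l₀ j c) B)
    (N0 : Mo w L h (2 * n) (fun p => rP w L l₀ j p - q) B)
    (N1 : Mo w L h (2 * n) (fun p => rP w L l₀ c p - q) B) :
    EE w L h (fun p => Pf w (L.drop j) (p j) fun s =>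
      (l₀.fld (mv w (L.drop j) l₀ (p j)) s - q) ^ (2 * n)) ≤
      (K + 3) ^ (2 * n) * ((K + 2) * (3 * B) ^ (2 * n)) := by
  have hw := D.hw
  have hK := cK_pos n
  have θ0 : ∀ l ≤ K, 0 < θ l := fun l hl => (W l hl).pos D.mono l₀ D.dom
  have B3 : B ^ (2 * n) ≤ (3 * B) ^ (2 * n) := pow_le_pow_left₀ hB.le (by linarith) _
  set m : ℕ → Pth Ω → l₀.ι → ℝ := fun k p => mv w (L.drop k) l₀ (p k) with hm
  set u : ℕ → Pth Ω → l₀.ι → ℝ := fun l p i =>
    m (y l) p i - if l < K then m (y (l + 1)) p i else 0 with hu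
  have em : ∀ k i, EP fun p => m k p i := fun k i => ep_mv hw _ l₀ k i
  have eu : ∀ l i, EP fun p => u l p i := fun l i => (em _ i).sub (by
    split_ifs; exacts [em _ i, EP.const 0])
  have au : ∀ l, Lp12.Ad (y l) (u l) := fun l p p' e => by
    simp only [hu, hm, e _ le_rfl, e _ (ya l)]
  have su : ∀ p i, ∑ l ∈ range (K + 1), u l p i = m j p i := fun p i => by
    rw [sum_range_succ, sum_congr (g := fun l => m (y l) p i - m (y (l + 1)) p i) rfl fun l hl => by
      simp only [hu, if_pos (mem_range.1 hl)], sum_range_sub' (fun l => m (y l) p i), y0]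
    simp [hu]
  set X : Pth Ω → ℝ := fun p => ∑ i, m c p i * m j p i - q with hX
  have mX : Mo w L h (2 * n) X (3 * B) := by
    refine ((((N0.add hw N1).sub hw I0).const_mul' (show (0 : ℝ) ≤ 1 / 2 by norm_num)).congr
      fun p => ?_).mono (by linarith)
    have : ∑ i, m c p i * m j p i = 1 / 2 * (∑ i, m j p i ^ 2 + ∑ i, m c p i ^ 2 -
        ∑ i, (m c p i - m j p i) ^ 2) := by
      rw [← sum_add_distrib, ← sum_sub_distrib, mul_sum]
      exact sum_congr rfl fun i _ => by ring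
    change ∑ i, m c p i * m j p i - q = 1 / 2 * (∑ i, m j p i ^ 2 - q + (∑ i, m c p i ^ 2 - q) -
      ∑ i, (m c p i - m j p i) ^ 2)
    rw [this]
    ring
  have eM : ∀ l, EP fun p => Mk w (L.drop c) (l₀.fld (u l p)) n (p c) := fun l =>
    ep_Mk hw _ c (ep_fld l₀ (eu l)) n
  have t1 : EE w L h (fun p => Pf w (L.drop j) (p j) fun s => (l₀.fld (m j p) s - q) ^ (2 * n)) =
      EE w L h fun p => Pf w (L.drop c) (p c) fun s => (l₀.fld (m j p) s - q) ^ (2 * n) := by
    rw [EE_tower hw j L h fun p => Pf w (L.drop c) (p c) _]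
    congr 1
    funext p
    rw [CE_node hw L jc (v := m j) (Lp12.Ad.state le_rfl _) fun v z =>
      Pf w (L.drop c) z fun s => (l₀.fld v s - q) ^ (2 * n)]
    have := node_sum_P hw (fun s => (l₀.fld (m j p) s - q) ^ (2 * n)) (L.drop j) (c - j) (p j)
    rw [List.drop_drop, Nat.add_sub_cancel' jc] at this
    exact this.symm
  refine t1.le.trans ?_
  have es : EP fun p => ∑ l ∈ range (K + 1), Mk w (L.drop c) (l₀.fld (u l p)) n (p c) :=
    EP.sum _ fun l _ => eM l
  refine (EE_mono hw L h (ep_Pf hw _ c fun s => ((ep_fld l₀ (em j) s).sub (EP.const q)).pow _)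
    ((es.add (mX.ep.pow (2 * n))).const_mul ((K + 3 : ℝ) ^ (2 * n))) fun p => ?_).trans ?_
  · have k : ∀ s, (l₀.fld (m j p) s - q) ^ (2 * n) ≤ (K + 3 : ℝ) ^ (2 * n) *
        (∑ l ∈ range (K + 1), (l₀.fld (u l p) s - Pf w (L.drop c) (p c) (l₀.fld (u l p))) ^ (2 * n) +
          X p ^ (2 * n)) := fun s => by
      have a := pw_add (fun l => l₀.fld (u l p) s - Pf w (L.drop c) (p c) (l₀.fld (u l p))) (K + 1)
        (X p) hn
      refine le_trans (le_of_eq ?_) (a.trans_eq (by push_cast; ring))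
      congr 1
      have b1 : ∑ l ∈ range (K + 1), l₀.fld (u l p) s = l₀.fld (m j p) s := by
        simp only [Lv.fld]
        rw [sum_comm]
        simp only [← mul_sum, su]
      have b2 : ∑ l ∈ range (K + 1), Pf w (L.drop c) (p c) (l₀.fld (u l p)) =
          ∑ i, m c p i * m j p i := by
        simp only [Pf_fld]
        rw [sum_comm]
        simp only [← mul_sum, su]
        rfl
      rw [sum_sub_distrib, b1, b2, hX]
      ring
    refine (sum_le_sum fun s _ => mul_le_mul_of_nonneg_left (k s) (P_nonneg hw _ _ s)).trans_eq ?_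
    simp only [mul_left_comm (P w _ _ _) (_ ^ _), ← mul_sum, mul_add, sum_add_distrib, ← sum_mul,
      sum_P hw, one_mul, Mk, Pf]
    congr 2
    simp only [mul_sum]
    exact sum_comm
  rw [EE_const_mul, EE_add hw L h es (mX.ep.pow _), EE_sum hw L h _ fun l _ => eM l]
  have m0 : EE w L h (fun p => X p ^ (2 * n)) ≤ (3 * B) ^ (2 * n) := by
    simpa only [(even_two_mul n).pow_abs] using mX.le
  have m1 : ∑ l ∈ range (K + 1), EE w L h (fun p => Mk w (L.drop c) (l₀.fld (u l p)) n (p c)) ≤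
      (K + 1) * (3 * B) ^ (2 * n) := by
    refine (sum_le_card_nsmul _ _ _ fun l hl => ?_).trans_eq
      (by rw [card_range, nsmul_eq_mul]; push_cast; rfl)
    have hl' := Nat.lt_succ_iff.1 (mem_range.1 hl)
    have t0 := θ0 l hl'
    have mu : Mo w L h n (fun p => ∑ i, u l p i ^ 2) (σ l) := by
      rcases hl'.lt_or_eq with e | e
      · exact (I l e).congr fun p => by simp only [hu, if_pos e, iP, hm]
      · subst e
        refine (Mo.bdd hw (ep_sq (eu l)) fun p => ?_).mono h1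
        simp only [hu, if_neg (lt_irrefl _), sub_zero]
        rw [abs_of_nonneg (sum_nonneg fun _ _ => sq_nonneg _)]
        exact Q33.rr_le hw _ D.one _
    have m := mu.le
    simp only [fun p => abs_of_nonneg (show 0 ≤ ∑ i, u l p i ^ 2 from
      sum_nonneg fun _ _ => sq_nonneg _)] at m
    refine (EE_le_CE hw L h (y l) (eM l) ((((ep_sq (eu l)).const_mul _).pow _).const_mul _)
      (CE_Mk hw D.mono l₀ D.dom (W l hl') (au l) n)).trans ?_
    simp only [mul_pow, ← mul_assoc, EE_const_mul]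
    refine le_trans ?_ ((hθ l hl').trans (B3.trans_eq (mul_pow _ _ _)))
    rw [mul_pow, ← mul_assoc]
    gcongr
  gcongr
  linarith

/-- **the overlap of a pair split at `j`**: forward chain `c`, backward chain `y` -/
theorem pairC (D : Dat w L h l₀ τ) {n j K : ℕ} (hn : 1 ≤ n) {c y : ℕ → ℕ} {θ σ θ' σ' : ℕ → ℝ}
    {B q : ℝ} (hB : 0 < B) (hc : Monotone c) (W : ∀ l ≤ K, Win L τ j (c l) (θ l))
    (I : ∀ l < K, Mo w L h n (iP w L l₀ j (c (l + 1))) (σ l)) (h4 : 4 ≤ σ K)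
    (hθ : ∀ l ≤ K, cK n * (θ l * σ l) ^ n ≤ B ^ (2 * n))
    (y0 : y 0 = j) (W' : ∀ l ≤ K, Win L τ (y l) (c 0) (θ' l)) (ya : ∀ l, y (l + 1) ≤ y l)
    (I' : ∀ l < K, Mo w L h n (iP w L l₀ (y (l + 1)) (y l)) (σ' l)) (h1 : 1 ≤ σ' K)
    (hθ' : ∀ l ≤ K, cK n * (θ' l * σ' l) ^ n ≤ B ^ (2 * n))
    (I0 : Mo w L h (2 * n) (iP w L l₀ j (c 0)) B)
    (N0 : Mo w L h (2 * n) (fun p => rP w L l₀ j p - q) B)
    (N1 : Mo w L h (2 * n) (fun p => rP w L l₀ (c 0) p - q) B) :
    pi2 w L j (fun x y => (l₀.cov x y - q) ^ (2 * n)) h ≤ (120 * (K + 3) ^ 2 * B) ^ (2 * n) := by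
  have hw := D.hw
  have a := partA D hn hB hc W I h4 hθ I0
  have b := partB D hn hB (W 0 (Nat.zero_le K)).le y0 W' ya I' h1 hθ' I0 N0 N1
  have d : EE w L h (fun p => (rP w L l₀ j p - q) ^ (2 * n)) ≤ B ^ (2 * n) := by
    simpa only [(even_two_mul n).pow_abs] using N0.le
  have eP := fun x => EP.state (eg_P hw (L.drop j) x) j
  have e1 := ep_qs (L := L) (l₀ := l₀) hw j n
  have e2 : EP fun p : Pth Ω => Pf w (L.drop j) (p j) fun s =>
      (l₀.fld (mv w (L.drop j) l₀ (p j)) s - q) ^ (2 * n) :=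
    ep_Pf hw _ j fun s => ((ep_fld l₀ (ep_mv hw _ l₀ j) s).sub (EP.const q)).pow _
  have e3 := N0.ep.pow (2 * n)
  rw [pi2, ← EE_node hw]
  refine (EE_mono hw L h (EP.sum _ fun x _ => EP.sum _ fun y _ => ((eP x).mul (eP y)).mul (EP.const _))
    (((e1.add (e2.const_mul 2)).add e3).const_mul ((5 : ℝ) ^ (2 * n))) fun p => ?_).trans ?_
  · unfold rP rr
    generalize mv w (L.drop j) l₀ (p j) = m
    have k : ∀ x y, (l₀.cov x y - q) ^ (2 * n) ≤ 5 ^ (2 * n) * ((shf l₀ m).cov x y ^ (2 * n) +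
        (l₀.fld m x - q) ^ (2 * n) + (l₀.fld m y - q) ^ (2 * n) + (∑ i, m i ^ 2 - q) ^ (2 * n)) :=
      fun x y => by
        have a := pw_sum univ ![(shf l₀ m).cov x y, l₀.fld m x - q, l₀.fld m y - q,
          -(∑ i, m i ^ 2 - q)] hn
        simp only [Fin.sum_univ_four, Matrix.cons_val, card_univ, Fintype.card_fin,
          (even_two_mul n).neg_pow] at a
        refine le_trans (le_of_eq ?_) (a.trans_eq (by norm_num))
        congr 1
        have : (shf l₀ m).cov x y = l₀.cov x y - l₀.fld m x - l₀.fld m y + ∑ i, m i ^ 2 := by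
          simp only [Lv.cov, Lv.fld, ← sum_sub_distrib, ← sum_add_distrib]
          exact sum_congr rfl fun i _ => by ring
        rw [this]
        ring
    have P0 := P_nonneg hw (L.drop j) (p j)
    have P1 := sum_P hw (L.drop j) (p j)
    refine (sum_le_sum fun x _ => sum_le_sum fun y _ =>
      mul_le_mul_of_nonneg_left (k x y) (mul_nonneg (P0 x) (P0 y))).trans_eq ?_
    simp only [qf, Pf]
    generalize P w (L.drop j) (p j) = Q at P1
    simp only [mul_left_comm (Q _ * Q _) (5 ^ _), ← mul_sum, mul_add (Q _ * Q _), sum_add_distrib]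
    have c1 : ∀ f : Ω → ℝ, ∑ x, ∑ y, Q x * Q y * f x = ∑ x, Q x * f x := fun f => by
      simp only [mul_right_comm _ (Q _) (f _), ← mul_sum, P1, mul_one]
    have c2 : ∀ f : Ω → ℝ, ∑ x, ∑ y, Q x * Q y * f y = ∑ x, Q x * f x := fun f => by
      simp only [mul_assoc, ← mul_sum, ← sum_mul, P1, one_mul]
    rw [c1, c2, c1 fun _ => _, ← sum_mul, P1]
    ring
  rw [EE_const_mul, EE_add hw L h (e1.add (e2.const_mul 2)) e3, EE_add hw L h e1 (e2.const_mul 2),
    EE_const_mul]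
  have K0 : (0 : ℝ) ≤ K := K.cast_nonneg
  have f1 : (2 * K + 3 : ℝ) ^ (2 * n) ≤ (2 * (K + 3)) ^ (2 * n) := by gcongr; linarith
  have f2 : (K + 3 : ℝ) ^ (2 * n) ≤ (2 * (K + 3)) ^ (2 * n) := by gcongr; linarith
  have f3 : B ^ (2 * n) ≤ (2 * (K + 3)) ^ (2 * n) * ((K + 3) * (3 * B) ^ (2 * n)) :=
    (pow_le_pow_left₀ hB.le (by linarith) _).trans ((le_mul_of_one_le_left (by positivity)
      (by linarith)).trans (le_mul_of_one_le_left (by positivity) (one_le_pow₀ (by linarith))))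
  have f4 : (4 * (K + 3) : ℝ) ≤ (4 * (K + 3)) ^ (2 * n) := le_self_pow₀ (by linarith) (by omega)
  have g1 := a.trans (mul_le_mul_of_nonneg_right f1 (by positivity))
  have g2 := b.trans (mul_le_mul f2 (show _ ≤ (K + 3) * (3 * B) ^ (2 * n) by gcongr; norm_num)
    (by positivity) (by positivity))
  calc _ ≤ 5 ^ (2 * n) * ((2 * (K + 3)) ^ (2 * n) * (4 * (K + 3) * (3 * B) ^ (2 * n))) := by
        gcongr; linarith
    _ ≤ 5 ^ (2 * n) * ((2 * (K + 3)) ^ (2 * n) * ((4 * (K + 3)) ^ (2 * n) * (3 * B) ^ (2 * n))) := by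
        gcongr
    _ = _ := by rw [← mul_pow, ← mul_pow, ← mul_pow]; congr 1; ring

end Crest.Agent.T156.Cas.Pr57

end
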