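import Crest.Agent.T156.QDef_57

/-!
# Row 156, block Q: Garsia's lemma and the quadratic variation along a mesh (helper53)
-/

set_option autoImplicit false

noncomputable section

namespace Crest.Agent.T156.Q57

open MeasureTheory Real Finset

namespace Qv53

variable {α : Type} [MeasurableSpace α]

theorem bm_const (c : ℝ) : Bm (fun _ : α => c) := ⟨measurable_const, |c|, fun _ => le_rfl⟩

theorem bm_add {X Y : α → ℝ} (hX : Bm X) (hY : Bm Y) : Bm fun a => X a + Y a := by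
  obtain ⟨h1, C, hC⟩ := hX
  obtain ⟨h2, D, hD⟩ := hY
  exact ⟨h1.add h2, C + D, fun a => (abs_add_le _ _).trans (add_le_add (hC a) (hD a))⟩

theorem bm_sub {X Y : α → ℝ} (hX : Bm X) (hY : Bm Y) : Bm fun a => X a - Y a := by
  obtain ⟨h1, C, hC⟩ := hX
  obtain ⟨h2, D, hD⟩ := hY
  exact ⟨h1.sub h2, C + D, fun a => (abs_sub _ _).trans (add_le_add (hC a) (hD a))⟩

theorem bm_mul {X Y : α → ℝ} (hX : Bm X) (hY : Bm Y) : Bm fun a => X a * Y a := by
  obtain ⟨h1, C, hC⟩ := hX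
  obtain ⟨h2, D, hD⟩ := hY
  refine ⟨h1.mul h2, C * D, fun a => ?_⟩
  rw [abs_mul]
  exact mul_le_mul (hC a) (hD a) (abs_nonneg _) ((abs_nonneg _).trans (hC a))

theorem bm_pow {X : α → ℝ} (hX : Bm X) (k : ℕ) : Bm fun a => X a ^ k := by
  obtain ⟨h1, C, hC⟩ := hX
  refine ⟨h1.pow_const k, C ^ k, fun a => ?_⟩
  rw [abs_pow]
  exact pow_le_pow_left₀ (abs_nonneg _) (hC a) k

theorem bm_abs {X : α → ℝ} (hX : Bm X) : Bm fun a => |X a| := by
  obtain ⟨h1, C, hC⟩ := hX
  exact ⟨h1.abs, C, fun a => by rw [abs_abs]; exact hC a⟩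

theorem bm_max {X Y : α → ℝ} (hX : Bm X) (hY : Bm Y) : Bm fun a => max (X a) (Y a) := by
  obtain ⟨h1, C, hC⟩ := hX
  obtain ⟨h2, D, hD⟩ := hY
  refine ⟨h1.max h2, max C D, fun a => ?_⟩
  simp only
  rcases le_total (X a) (Y a) with h | h
  · rw [max_eq_right h]; exact (hD a).trans (le_max_right _ _)
  · rw [max_eq_left h]; exact (hC a).trans (le_max_left _ _)

theorem bm_sum {κ : Type} (s : Finset κ) {X : κ → α → ℝ} (hX : ∀ k ∈ s, Bm (X k)) :
    Bm fun a => ∑ k ∈ s, X k a := by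
  classical
  induction s using Finset.induction_on with
  | empty => simpa using bm_const (α := α) 0
  | insert k s hk ih =>
    simp only [Finset.sum_insert hk]
    exact bm_add (hX k (mem_insert_self _ _)) (ih fun j hj => hX j (mem_insert_of_mem hj))

theorem bm_div {X : α → ℝ} (hX : Bm X) (c : ℝ) : Bm fun a => X a / c := by
  simpa [div_eq_mul_inv] using bm_mul hX (bm_const c⁻¹)

theorem bm_int {X : α → ℝ} (hX : Bm X) (μ : Measure α) [IsFiniteMeasure μ] : Integrable X μ := by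
  obtain ⟨h1, C, hC⟩ := hX
  exact Integrable.of_bound h1.aestronglyMeasurable C (ae_of_all _ fun a => by
    rw [Real.norm_eq_abs]; exact hC a)

theorem bm_sup {X : ℕ → α → ℝ} (n : ℕ) (hX : ∀ k ≤ n, Bm (X k)) :
    Bm fun a => (range (n + 1)).sup' nonempty_range_add_one fun k => X k a := by
  refine ⟨Finset.measurable_range_sup'' fun k hk => (hX k hk).1, ?_⟩
  obtain ⟨-, C, hC⟩ := bm_sum (range (n + 1)) (X := fun k a => |X k a|) fun k hk =>
    bm_abs (hX k (Nat.lt_succ_iff.1 (mem_range.1 hk)))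
  refine ⟨C, fun a => ?_⟩
  obtain ⟨k, hk, he⟩ := exists_mem_eq_sup' (nonempty_range_add_one (n := n)) fun k => X k a
  simp only
  rw [he]
  refine le_trans ?_ ((le_abs_self _).trans (hC a))
  exact single_le_sum (f := fun k => |X k a|) (fun _ _ => abs_nonneg _) hk

/-- Young's inequality with integer exponents -/
theorem young (p : ℕ) {a b : ℝ} (ha : 0 ≤ a) (hb : 0 ≤ b) :
    ((p : ℝ) + 1) * a * b ^ p ≤ p * b ^ (p + 1) + a ^ (p + 1) := by
  induction p with
  | zero => simp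
  | succ p ih =>
    have h1 : 0 ≤ (b - a) * (b ^ (p + 1) - a ^ (p + 1)) := by
      rcases le_total a b with h | h
      · exact mul_nonneg (sub_nonneg.2 h) (sub_nonneg.2 (pow_le_pow_left₀ ha h _))
      · exact mul_nonneg_of_nonpos_of_nonpos (sub_nonpos.2 h)
          (sub_nonpos.2 (pow_le_pow_left₀ hb h _))
    have h2 := mul_le_mul_of_nonneg_right ih hb
    push_cast
    simp only [pow_succ] at h1 h2 ⊢
    nlinarith [h1, h2]

theorem gar_pt (p n : ℕ) (hp : 1 ≤ p) (s : ℕ → ℝ) (h0 : s 0 = 0) (hm : ∀ i, s i ≤ s (i + 1)) :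
    s n ^ (p + 1) ≤ ((p : ℝ) + 1) * ∑ i ∈ range n, (s (i + 1) ^ p - s i ^ p) * (s n - s i) := by
  have hn : ∀ i, 0 ≤ s i := fun i => by
    have := monotone_nat_of_le_succ hm (Nat.zero_le i)
    rwa [h0] at this
  have key : ∀ (T : ℝ) (k : ℕ), ((p : ℝ) + 1) * s k ^ p * T - p * s k ^ (p + 1) ≤
      ((p : ℝ) + 1) * ∑ i ∈ range k, (s (i + 1) ^ p - s i ^ p) * (T - s i) := by
    intro T k
    induction k with
    | zero => simp [h0, zero_pow (Nat.one_le_iff_ne_zero.1 hp)]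
    | succ k ih =>
      rw [sum_range_succ, mul_add]
      have := young p (hn k) (hn (k + 1))
      simp only [pow_succ] at this ih ⊢
      nlinarith [this, ih]
  have := key (s n) n
  simp only [pow_succ] at this ⊢
  nlinarith [this]

end Qv53

open Qv53

theorem garS : GarS := by
  intro α _ μ _ p n S W c hS hW h0 hm hyp hp hc
  obtain ⟨hc0, hc⟩ := hc
  have hn : ∀ i a, 0 ≤ S i a := fun i a => by
    have := monotone_nat_of_le_succ (f := fun i => S i a) (fun i => hm i a) (Nat.zero_le i)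
    simpa [h0 a] using this
  have hp1 : (1 : ℝ) ≤ p := by exact_mod_cast hp
  refine ⟨by positivity, ?_⟩
  have hG : ∀ i, Bm fun a => S (i + 1) a ^ p - S i a ^ p := fun i =>
    bm_sub (bm_pow (hS _) _) (bm_pow (hS _) _)
  have e1 : ∫ a, |S n a| ^ (p + 1) ∂μ = ∫ a, S n a ^ (p + 1) ∂μ := by
    refine integral_congr_ae (ae_of_all _ fun a => ?_)
    simp only [abs_of_nonneg (hn n a)]
  have i1 : Integrable (fun a => S n a ^ (p + 1)) μ := bm_int (bm_pow (hS n) _) μ
  have i2 : Integrable (fun a => |W a| ^ (p + 1)) μ := bm_int (bm_pow (bm_abs hW) _) μ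
  have h1 : ∫ a, S n a ^ (p + 1) ∂μ ≤ ((p : ℝ) + 1) * ∫ a, S n a ^ p * W a ∂μ := by
    calc ∫ a, S n a ^ (p + 1) ∂μ
        ≤ ∫ a, ((p : ℝ) + 1) * ∑ i ∈ range n,
            (S (i + 1) a ^ p - S i a ^ p) * (S n a - S i a) ∂μ :=
          integral_mono i1 (bm_int (bm_mul (bm_const _) (bm_sum _ fun i _ =>
            bm_mul (hG i) (bm_sub (hS _) (hS _)))) μ)
            fun a => gar_pt p n hp (fun i => S i a) (h0 a) fun i => hm i a
      _ = ((p : ℝ) + 1) * ∑ i ∈ range n,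
            ∫ a, (S (i + 1) a ^ p - S i a ^ p) * (S n a - S i a) ∂μ := by
          rw [integral_const_mul, integral_finsetSum _ fun i _ =>
            bm_int (bm_mul (hG i) (bm_sub (hS _) (hS _))) μ]
      _ ≤ ((p : ℝ) + 1) * ∑ i ∈ range n, ∫ a, (S (i + 1) a ^ p - S i a ^ p) * W a ∂μ :=
          mul_le_mul_of_nonneg_left (sum_le_sum fun i hi => hyp i (mem_range.1 hi)) (by positivity)
      _ = ((p : ℝ) + 1) * ∫ a, S n a ^ p * W a ∂μ := by
          rw [← integral_finsetSum _ fun i _ => bm_int (bm_mul (hG i) hW) μ]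
          congr 1
          refine integral_congr_ae (ae_of_all _ fun a => ?_)
          simp only
          rw [← sum_mul, sum_range_sub (fun i => S i a ^ p), h0 a,
            zero_pow (Nat.one_le_iff_ne_zero.1 hp), sub_zero]
  have h2 : 2 * (p : ℝ) * (((p : ℝ) + 1) * ∫ a, S n a ^ p * W a ∂μ) ≤
      p * ∫ a, S n a ^ (p + 1) ∂μ + (2 * (p : ℝ)) ^ (p + 1) * ∫ a, |W a| ^ (p + 1) ∂μ := by
    rw [← integral_const_mul, ← integral_const_mul, ← integral_const_mul, ← integral_const_mul,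
      ← integral_add (i1.const_mul _) (i2.const_mul _)]
    refine integral_mono (((bm_int (bm_mul (bm_pow (hS n) p) hW) μ).const_mul _).const_mul _)
      ((i1.const_mul _).add (i2.const_mul _)) fun a => ?_
    have y := young p (a := 2 * (p : ℝ) * |W a|) (b := S n a) (by positivity) (hn n a)
    rw [mul_pow] at y
    have z : S n a ^ p * W a ≤ S n a ^ p * |W a| :=
      mul_le_mul_of_nonneg_left (le_abs_self _) (pow_nonneg (hn n a) _)
    have z' := mul_le_mul_of_nonneg_left z (show 0 ≤ 2 * (p : ℝ) * ((p : ℝ) + 1) by positivity)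
    simp only
    nlinarith [y, z']
  rw [e1]
  have h3 : (p : ℝ) * ∫ a, S n a ^ (p + 1) ∂μ ≤ (2 * (p : ℝ)) ^ (p + 1) * c ^ (p + 1) := by
    have := mul_le_mul_of_nonneg_left h1 (show 0 ≤ 2 * (p : ℝ) by positivity)
    have h4 := mul_le_mul_of_nonneg_left hc (show 0 ≤ (2 * (p : ℝ)) ^ (p + 1) by positivity)
    nlinarith [this, h2, h4]
  have h5 : (2 * (p : ℝ)) ^ (p + 1) * c ^ (p + 1) ≤ (2 * ((p : ℝ) + 1) * c) ^ (p + 1) := by
    rw [← mul_pow]
    exact pow_le_pow_left₀ (by positivity) (by nlinarith) _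
  have h6 : 0 ≤ ∫ a, S n a ^ (p + 1) ∂μ := integral_nonneg fun a => pow_nonneg (hn n a) _
  nlinarith [h3, h5, h6]

namespace Qv53

variable {α ι : Type} [MeasurableSpace α] [Fintype ι]

theorem sq2_nonneg (z : ι → ℝ) : 0 ≤ sq2 z := sum_nonneg fun _ _ => sq_nonneg _

theorem sq2_split (x y z : ι → ℝ) :
    sq2 (z - x) = sq2 (y - x) + sq2 (z - y) + 2 * dt (y - x) (z - y) := by
  simp only [sq2, dt, Pi.sub_apply, mul_sum, ← sum_add_distrib]
  exact sum_congr rfl fun i _ => by ring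

theorem sq2_sub (x y : ι → ℝ) : sq2 y - sq2 x = sq2 (y - x) + 2 * dt x (y - x) := by
  simp only [sq2, dt, Pi.sub_apply, mul_sum, ← sum_add_distrib, ← sum_sub_distrib]
  exact sum_congr rfl fun i _ => by ring

theorem sq2_sub_le (x y z : ι → ℝ) : sq2 (z - y) ≤ 2 * sq2 (z - x) + 2 * sq2 (y - x) := by
  simp only [sq2, Pi.sub_apply, mul_sum, ← sum_add_distrib]
  exact sum_le_sum fun i _ => by nlinarith [sq_nonneg (z i + y i - 2 * x i)]

theorem dt_smul (c : ℝ) (x y : ι → ℝ) : dt (fun i => c * x i) y = c * dt x y := by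
  simp only [dt, mul_sum]
  exact sum_congr rfl fun i _ => by ring

theorem cont_sq2 {β : Type} [TopologicalSpace β] {f : β → ι → ℝ} (hf : Continuous f) :
    Continuous fun b => sq2 (f b) := by
  unfold sq2
  fun_prop

variable {S : Sys α ι}

theorem bm_m (hS : S.Ok) (j : ℕ) (i : ι) : Bm fun a => S.m j a i := by
  refine ⟨hS.mm j i, 1, fun a => ?_⟩
  have h1 : S.m j a i ^ 2 ≤ 1 :=
    (single_le_sum (f := fun i => S.m j a i ^ 2) (fun _ _ => sq_nonneg _) (mem_univ i)).trans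
      (hS.bd j a)
  exact (sq_le_one_iff_abs_le_one _).1 h1

theorem bm_sq2 (hS : S.Ok) (i j : ℕ) : Bm fun a => sq2 (S.m j a - S.m i a) :=
  bm_sum _ fun k _ => bm_pow (bm_sub (bm_m hS j k) (bm_m hS i k)) 2

theorem bm_rho (hS : S.Ok) (j : ℕ) : Bm (S.rho j) :=
  bm_sum _ fun k _ => bm_pow (bm_m hS j k) 2

theorem bm_dt (hS : S.Ok) (i j k l : ℕ) :
    Bm fun a => dt (S.m j a - S.m i a) (S.m l a - S.m k a) :=
  bm_sum _ fun u _ => bm_mul (bm_sub (bm_m hS j u) (bm_m hS i u)) (bm_sub (bm_m hS l u) (bm_m hS k u))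

theorem bm_dt' (hS : S.Ok) (j k l : ℕ) : Bm fun a => dt (S.m j a) (S.m l a - S.m k a) :=
  bm_sum _ fun u _ => bm_mul (bm_m hS j u) (bm_sub (bm_m hS l u) (bm_m hS k u))

/-- `G` is a continuous function of the path up to time `t` -/
def Adp (S : Sys α ι) (t : ℕ) (G : α → ℝ) : Prop :=
  ∃ Φ : (ℕ → ι → ℝ) → ℝ, Continuous Φ ∧ ∀ t', t ≤ t' → ∀ a, Φ (fun k => S.m (min k t') a) = G a

theorem mart1 (hS : S.Ok) {t : ℕ} {G : α → ℝ} (hG : Adp S t G) {s u j : ℕ} (ht : t ≤ u)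
    (hs : s ≤ u) (hj : u ≤ j) :
    ∫ a, G a * dt (S.m u a - S.m s a) (S.m j a - S.m u a) ∂S.μ = 0 := by
  obtain ⟨Φ, hΦ, he⟩ := hG
  have := hS.mart u j hj (fun x i => Φ x * (x u - x s) i) (by fun_prop)
  rw [← this]
  refine integral_congr_ae (ae_of_all _ fun a => ?_)
  simp only [he u ht a, min_self, min_eq_left hs]
  rw [dt_smul]

theorem mart2 (hS : S.Ok) {t : ℕ} {G : α → ℝ} (hG : Adp S t G) {u j : ℕ} (ht : t ≤ u)
    (hj : u ≤ j) : ∫ a, G a * dt (S.m u a) (S.m j a - S.m u a) ∂S.μ = 0 := by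
  obtain ⟨Φ, hΦ, he⟩ := hG
  have := hS.mart u j hj (fun x i => Φ x * x u i) (by fun_prop)
  rw [← this]
  refine integral_congr_ae (ae_of_all _ fun a => ?_)
  simp only [he u ht a, min_self]
  rw [dt_smul]

/-- orthogonal increments under an adapted weight -/
theorem qv_eq (hS : S.Ok) {t : ℕ} {G : α → ℝ} (hG : Adp S t G) (hb : Bm G) (τ : ℕ → ℕ)
    (hτ : Monotone τ) (i : ℕ) (hi : t ≤ τ i) (k : ℕ) :
    ∫ a, G a * ∑ l ∈ range k, sq2 (S.m (τ (i + l + 1)) a - S.m (τ (i + l)) a) ∂S.μ =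
      ∫ a, G a * sq2 (S.m (τ (i + k)) a - S.m (τ i) a) ∂S.μ := by
  have := hS.prob
  induction k with
  | zero => simp [sq2]
  | succ k ih =>
    have h1 := mart1 hS hG (s := τ i) (u := τ (i + k)) (j := τ (i + k + 1))
      (hi.trans (hτ (Nat.le_add_right _ _))) (hτ (Nat.le_add_right _ _)) (hτ (Nat.le_succ _))
    have i1 := bm_int (bm_mul hb (bm_sum (range k) fun l _ =>
      bm_sq2 hS (τ (i + l)) (τ (i + l + 1)))) S.μ
    have i2 := bm_int (bm_mul hb (bm_sq2 hS (τ (i + k)) (τ (i + k + 1)))) S.μ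
    have i3 := bm_int (bm_mul hb (bm_sq2 hS (τ i) (τ (i + k)))) S.μ
    have i4 := bm_int (bm_mul hb (bm_dt hS (τ i) (τ (i + k)) (τ (i + k)) (τ (i + k + 1)))) S.μ
    have e : ∫ a, G a * sq2 (S.m (τ (i + (k + 1))) a - S.m (τ i) a) ∂S.μ =
        ∫ a, (G a * sq2 (S.m (τ (i + k)) a - S.m (τ i) a) +
          G a * sq2 (S.m (τ (i + k + 1)) a - S.m (τ (i + k)) a)) +
          2 * (G a * dt (S.m (τ (i + k)) a - S.m (τ i) a)
            (S.m (τ (i + k + 1)) a - S.m (τ (i + k)) a)) ∂S.μ := by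
      refine integral_congr_ae (ae_of_all _ fun a => ?_)
      simp only
      rw [← Nat.add_assoc, sq2_split (S.m (τ i) a) (S.m (τ (i + k)) a)]
      ring
    have i5 := bm_int (bm_add (bm_mul hb (bm_sq2 hS (τ i) (τ (i + k))))
      (bm_mul hb (bm_sq2 hS (τ (i + k)) (τ (i + k + 1))))) S.μ
    rw [e, integral_add i5 (i4.const_mul 2), integral_add i3 i2, integral_const_mul, h1,
      ← ih, ← integral_add i1 i2]
    simp only [sum_range_succ, mul_add, mul_zero, add_zero]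

theorem qv1 (hS : S.Ok) (p b h n : ℕ) (X P : ℝ) (hp : 2 ≤ p) (hP : 1 ≤ P)
    (hn : (n + 1 : ℝ) ≤ P ^ p)
    (hX : ∀ i ≤ n, Nb S.μ p (fun a => sq2 (S.m (b + i * h) a - S.m b a)) X) :
    Nb S.μ p (fun a => ∑ i ∈ range n, sq2 (S.m (b + (i + 1) * h) a - S.m (b + i * h) a))
      (16 * p * P * X) := by
  have := hS.prob
  obtain ⟨q, rfl⟩ : ∃ q, p = q + 1 := ⟨p - 1, by omega⟩
  have hq : 1 ≤ q := by omega
  have hX0 : 0 ≤ X := (hX 0 (Nat.zero_le _)).1
  set τ : ℕ → ℕ := fun i => b + i * h with hτd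
  have hτ : Monotone τ := fun i j hij => Nat.add_le_add_left (Nat.mul_le_mul_right h hij) b
  set T : ℕ → α → ℝ := fun i a => ∑ l ∈ range i, sq2 (S.m (τ (l + 1)) a - S.m (τ l) a) with hT
  set M : α → ℝ := fun a => (range (n + 1)).sup' nonempty_range_add_one
    fun k => sq2 (S.m (τ k) a - S.m b a) with hM
  have bM : Bm M := bm_sup n fun k _ => bm_sq2 hS b (τ k)
  have bT : ∀ i, Bm (T i) := fun i => bm_sum _ fun l _ => bm_sq2 hS _ _
  have hle : ∀ k ≤ n, ∀ a, sq2 (S.m (τ k) a - S.m b a) ≤ M a := fun k hk a =>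
    le_sup' (fun k => sq2 (S.m (τ k) a - S.m b a)) (mem_range.2 (Nat.lt_succ_iff.2 hk))
  have hM0 : ∀ a, 0 ≤ M a := fun a => (sq2_nonneg _).trans (hle 0 (Nat.zero_le _) a)
  have hmono : ∀ i a, T i a ≤ T (i + 1) a := fun i a => by
    simp only [hT, sum_range_succ]
    linarith [sq2_nonneg (S.m (τ (i + 1)) a - S.m (τ i) a)]
  have hT0 : ∀ i a, 0 ≤ T i a := fun i a => sum_nonneg fun _ _ => sq2_nonneg _
  have hW : Nb S.μ (q + 1) (fun a => 8 * M a) (8 * (P * X)) := by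
    refine ⟨by positivity, ?_⟩
    have i1 : ∀ k, Integrable (fun a => |sq2 (S.m (τ k) a - S.m b a)| ^ (q + 1)) S.μ := fun k =>
      bm_int (bm_pow (bm_abs (bm_sq2 hS b (τ k))) _) S.μ
    calc ∫ a, |8 * M a| ^ (q + 1) ∂S.μ
        ≤ ∫ a, 8 ^ (q + 1) * ∑ k ∈ range (n + 1),
            |sq2 (S.m (τ k) a - S.m b a)| ^ (q + 1) ∂S.μ := by
          refine integral_mono (bm_int (bm_pow (bm_abs (bm_mul (bm_const 8) bM)) _) S.μ)
            ((integrable_finsetSum _ fun k _ => i1 k).const_mul _) fun a => ?_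
          simp only
          rw [abs_mul, mul_pow, abs_of_pos (show (0 : ℝ) < 8 by norm_num)]
          refine mul_le_mul_of_nonneg_left ?_ (by positivity)
          obtain ⟨k, hk, he⟩ := exists_mem_eq_sup' (nonempty_range_add_one (n := n))
            fun k => sq2 (S.m (τ k) a - S.m b a)
          have : M a = sq2 (S.m (τ k) a - S.m b a) := he
          rw [this]
          exact single_le_sum (f := fun k => |sq2 (S.m (τ k) a - S.m b a)| ^ (q + 1))
            (fun _ _ => by positivity) hk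
      _ = 8 ^ (q + 1) * ∑ k ∈ range (n + 1),
            ∫ a, |sq2 (S.m (τ k) a - S.m b a)| ^ (q + 1) ∂S.μ := by
          rw [integral_const_mul, integral_finsetSum _ fun k _ => i1 k]
      _ ≤ 8 ^ (q + 1) * ∑ _k ∈ range (n + 1), X ^ (q + 1) :=
          mul_le_mul_of_nonneg_left (sum_le_sum fun k hk =>
            (hX k (Nat.lt_succ_iff.1 (mem_range.1 hk))).2) (by positivity)
      _ ≤ (8 * (P * X)) ^ (q + 1) := by
          rw [sum_const, card_range, nsmul_eq_mul, mul_pow, mul_pow]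
          refine mul_le_mul_of_nonneg_left ?_ (by positivity)
          push_cast
          exact mul_le_mul_of_nonneg_right hn (by positivity)
  have aT : ∀ i t, τ i ≤ t → ∃ Φ : (ℕ → ι → ℝ) → ℝ, Continuous Φ ∧
      ∀ t', t ≤ t' → ∀ a, Φ (fun k => S.m (min k t') a) = T i a := by
    intro i t hi
    refine ⟨fun x => ∑ l ∈ range i, sq2 (x (τ (l + 1)) - x (τ l)),
      continuous_finsetSum _ fun l _ => cont_sq2 (by fun_prop), fun t' ht' a => ?_⟩
    refine sum_congr rfl fun l hl => ?_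
    have h1 : τ (l + 1) ≤ t' := (hτ (mem_range.1 hl)).trans (hi.trans ht')
    have h2 : τ l ≤ t' := (hτ (Nat.le_succ l)).trans h1
    simp only [min_eq_left h1, min_eq_left h2]
  have key := garS α S.μ q n T (fun a => 8 * M a) (8 * (P * X)) bT (bm_mul (bm_const 8) bM)
    (fun a => by simp [hT]) hmono ?_ hq hW
  · have e : 2 * ((q : ℝ) + 1) * (8 * (P * X)) = 16 * ((q + 1 : ℕ) : ℝ) * P * X := by
      push_cast; ring
    rw [e] at key
    exact key
  intro i hi
  set G : α → ℝ := fun a => T (i + 1) a ^ q - T i a ^ q with hG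
  have bG : Bm G := bm_sub (bm_pow (bT _) _) (bm_pow (bT _) _)
  have G0 : ∀ a, 0 ≤ G a := fun a => sub_nonneg.2 (pow_le_pow_left₀ (hT0 i a) (hmono i a) _)
  have aG : Adp S (τ (i + 1)) G := by
    obtain ⟨Φ, h1, h2⟩ := aT (i + 1) (τ (i + 1)) le_rfl
    obtain ⟨Ψ, h3, h4⟩ := aT i (τ (i + 1)) (hτ (Nat.le_succ i))
    exact ⟨fun x => Φ x ^ q - Ψ x ^ q, by fun_prop, fun t' ht' a => by
      simp only [h2 t' ht' a, h4 t' ht' a, hG]⟩
  obtain ⟨k, rfl⟩ : ∃ k, n = i + 1 + k := ⟨n - (i + 1), by omega⟩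
  have h1 := qv_eq hS aG bG τ hτ (i + 1) le_rfl k
  have i1 := bm_int (bm_mul bG (bm_sum (range k) fun l _ =>
    bm_sq2 hS (τ (i + 1 + l)) (τ (i + 1 + l + 1)))) S.μ
  have i2 := bm_int (bm_mul bG (bm_sq2 hS (τ i) (τ (i + 1)))) S.μ
  have i3 := bm_int (bm_mul bG (bm_sq2 hS (τ (i + 1)) (τ (i + 1 + k)))) S.μ
  have e : ∫ a, G a * (T (i + 1 + k) a - T i a) ∂S.μ =
      ∫ a, G a * sq2 (S.m (τ (i + 1)) a - S.m (τ i) a) +
        G a * ∑ l ∈ range k, sq2 (S.m (τ (i + 1 + l + 1)) a - S.m (τ (i + 1 + l)) a) ∂S.μ := by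
    refine integral_congr_ae (ae_of_all _ fun a => ?_)
    simp only [hT]
    rw [sum_range_add, sum_range_succ]
    ring
  change ∫ a, G a * (T (i + 1 + k) a - T i a) ∂S.μ ≤ ∫ a, G a * (8 * M a) ∂S.μ
  rw [e, integral_add i2 i1, h1, ← integral_add i2 i3]
  refine integral_mono (i2.add i3) (bm_int (bm_mul bG (bm_mul (bm_const 8) bM)) S.μ) fun a => ?_
  simp only
  rw [← mul_add]
  refine mul_le_mul_of_nonneg_left ?_ (G0 a)
  have a1 := sq2_sub_le (S.m b a) (S.m (τ i) a) (S.m (τ (i + 1)) a)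
  have a2 := sq2_sub_le (S.m b a) (S.m (τ (i + 1)) a) (S.m (τ (i + 1 + k)) a)
  have a3 := hle i (by omega) a
  have a4 := hle (i + 1) (by omega) a
  have a5 := hle (i + 1 + k) le_rfl a
  linarith

/-- submartingale property under an adapted weight -/
theorem sub_le (hS : S.Ok) {t : ℕ} {G : α → ℝ} (hG : Adp S t G) (hb : Bm G) (G0 : ∀ a, 0 ≤ G a)
    {j y : ℕ} (ht : t ≤ j) (hy : j ≤ y) :
    ∫ a, G a * S.rho j a ∂S.μ ≤ ∫ a, G a * S.rho y a ∂S.μ := by
  have := hS.prob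
  have h1 := mart2 hS hG ht hy
  have i1 := bm_int (bm_mul hb (bm_rho hS j)) S.μ
  have i2 := bm_int (bm_mul hb (bm_dt' hS j j y)) S.μ
  have : ∫ a, G a * S.rho j a + 2 * (G a * dt (S.m j a) (S.m y a - S.m j a)) ∂S.μ ≤
      ∫ a, G a * S.rho y a ∂S.μ := by
    refine integral_mono (i1.add (i2.const_mul 2)) (bm_int (bm_mul hb (bm_rho hS y)) S.μ)
      fun a => ?_
    have e := sq2_sub (S.m j a) (S.m y a)
    have := mul_nonneg (G0 a) (sq2_nonneg (S.m y a - S.m j a))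
    simp only [Sys.rho]
    have e' : sq2 (S.m y a) = sq2 (S.m j a) + sq2 (S.m y a - S.m j a) +
      2 * dt (S.m j a) (S.m y a - S.m j a) := by linarith
    rw [e']
    nlinarith [this]
  rwa [integral_add i1 (i2.const_mul 2), integral_const_mul, h1, mul_zero, add_zero] at this

theorem qv2 (hS : S.Ok) (p j N : ℕ) (c X : ℝ) (hp : 2 ≤ p) (hN : 1 ≤ N)
    (hX : Nb S.μ p (fun a => max (av j N (fun y => S.rho y a) - c) 0) X) :
    Nb S.μ p (fun a => max (S.rho j a - c) 0) X := by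
  have := hS.prob
  obtain ⟨q, rfl⟩ : ∃ q, p = q + 1 := ⟨p - 1, by omega⟩
  have hq : q ≠ 0 := by omega
  refine ⟨hX.1, le_trans ?_ hX.2⟩
  set F : α → ℝ := fun a => max (S.rho j a - c) 0 with hF
  set H : α → ℝ := fun a => max (av j N (fun y => S.rho y a) - c) 0 with hH
  have bA : Bm fun a => av j N fun y => S.rho y a := bm_div (bm_sum _ fun y _ => bm_rho hS y) _
  have bF : Bm F := bm_max (bm_sub (bm_rho hS j) (bm_const c)) (bm_const 0)
  have bH : Bm H := bm_max (bm_sub bA (bm_const c)) (bm_const 0)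
  have F0 : ∀ a, 0 ≤ F a := fun a => le_max_right _ _
  have H0 : ∀ a, 0 ≤ H a := fun a => le_max_right _ _
  have bG : Bm fun a => F a ^ q := bm_pow bF q
  have aG : Adp S j fun a => F a ^ q :=
    ⟨fun x => max (sq2 (x j) - c) 0 ^ q,
      (((cont_sq2 (continuous_apply j)).sub continuous_const).max continuous_const).pow q,
      fun t' ht' a => by simp only [min_eq_left ht', hF, Sys.rho]⟩
  have hN0 : (0 : ℝ) < N := by exact_mod_cast hN
  have h1 : ∫ a, F a ^ q * S.rho j a ∂S.μ ≤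
      ∫ a, F a ^ q * av j N (fun y => S.rho y a) ∂S.μ := by
    have e : ∫ a, F a ^ q * av j N (fun y => S.rho y a) ∂S.μ =
        (∑ y ∈ Ico j (j + N), ∫ a, F a ^ q * S.rho y a ∂S.μ) / N := by
      rw [← integral_finsetSum _ fun y _ => bm_int (bm_mul bG (bm_rho hS y)) S.μ,
        ← integral_div]
      refine integral_congr_ae (ae_of_all _ fun a => ?_)
      simp only [av]
      rw [← mul_sum, mul_div_assoc]
    rw [e, le_div_iff₀ hN0]
    have := sum_le_sum (s := Ico j (j + N)) (f := fun _ => ∫ a, F a ^ q * S.rho j a ∂S.μ)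
      fun y hy => sub_le hS aG bG (fun a => pow_nonneg (F0 a) q) le_rfl (mem_Ico.1 hy).1
    rw [sum_const, Nat.card_Ico, Nat.add_sub_cancel_left, nsmul_eq_mul, mul_comm] at this
    exact this
  have i1 := bm_int (bm_pow bF (q + 1)) S.μ
  have i2 := bm_int (bm_pow bH (q + 1)) S.μ
  have i3 := bm_int (bm_mul bG (bm_rho hS j)) S.μ
  have i4 := bm_int (bm_mul bG bA) S.μ
  have h2 : ∫ a, ((q : ℝ) + 1) * F a ^ (q + 1) +
        ((q : ℝ) + 1) * (F a ^ q * av j N (fun y => S.rho y a)) ∂S.μ ≤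
      ∫ a, ((q : ℝ) * F a ^ (q + 1) + H a ^ (q + 1)) +
        ((q : ℝ) + 1) * (F a ^ q * S.rho j a) ∂S.μ := by
    refine integral_mono ((i1.const_mul _).add (i4.const_mul _))
      (((i1.const_mul _).add i2).add (i3.const_mul _)) fun a => ?_
    have y := young q (H0 a) (F0 a)
    have e : F a ^ (q + 1) = F a ^ q * (S.rho j a - c) := by
      rcases le_total (S.rho j a - c) 0 with h | h
      · have : F a = 0 := max_eq_right h
        rw [this, zero_pow hq, zero_pow (Nat.succ_ne_zero q), zero_mul]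
      · have : F a = S.rho j a - c := max_eq_left h
        rw [pow_succ, ← this]
    have z : F a ^ q * (av j N (fun y => S.rho y a) - c) ≤ F a ^ q * H a :=
      mul_le_mul_of_nonneg_left (le_max_left _ _) (pow_nonneg (F0 a) q)
    have z' := mul_le_mul_of_nonneg_left z (show 0 ≤ (q : ℝ) + 1 by positivity)
    have e' : ((q : ℝ) + 1) * F a ^ (q + 1) = ((q : ℝ) + 1) * (F a ^ q * (S.rho j a - c)) := by
      rw [e]
    simp only
    nlinarith [y, z', e']
  have i5 := bm_int (bm_add (bm_mul (bm_const (q : ℝ)) (bm_pow bF (q + 1)))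
    (bm_pow bH (q + 1))) S.μ
  rw [integral_add (i1.const_mul _) (i4.const_mul _),
    integral_add i5 (i3.const_mul _), integral_add (i1.const_mul _) i2,
    integral_const_mul, integral_const_mul, integral_const_mul, integral_const_mul] at h2
  have e1 : ∫ a, |F a| ^ (q + 1) ∂S.μ = ∫ a, F a ^ (q + 1) ∂S.μ :=
    integral_congr_ae (ae_of_all _ fun a => by simp only [abs_of_nonneg (F0 a)])
  have e2 : ∫ a, |H a| ^ (q + 1) ∂S.μ = ∫ a, H a ^ (q + 1) ∂S.μ :=
    integral_congr_ae (ae_of_all _ fun a => by simp only [abs_of_nonneg (H0 a)])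
  rw [e1, e2]
  have h3 := mul_le_mul_of_nonneg_left h1 (show 0 ≤ (q : ℝ) + 1 by positivity)
  linarith

theorem qv3 (hS : S.Ok) (i j : ℕ) (hij : i ≤ j) :
    ∫ a, sq2 (S.m j a - S.m i a) ∂S.μ = S.r j - S.r i := by
  have := hS.prob
  have h1 := mart2 hS (t := 0) (G := fun _ => 1)
    ⟨fun _ => 1, continuous_const, fun _ _ _ => rfl⟩ (Nat.zero_le i) hij
  simp only [one_mul] at h1
  have i1 := bm_int (bm_rho hS j) S.μ
  have i2 := bm_int (bm_rho hS i) S.μ
  have i3 := bm_int (bm_dt' hS i i j) S.μ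
  have e : ∫ a, sq2 (S.m j a - S.m i a) ∂S.μ =
      ∫ a, (S.rho j a - S.rho i a) - 2 * dt (S.m i a) (S.m j a - S.m i a) ∂S.μ := by
    refine integral_congr_ae (ae_of_all _ fun a => ?_)
    have := sq2_sub (S.m i a) (S.m j a)
    simp only [Sys.rho]
    linarith
  have i4 := bm_int (bm_sub (bm_rho hS j) (bm_rho hS i)) S.μ
  rw [e, integral_sub i4 (i3.const_mul 2), integral_sub i1 i2, integral_const_mul, h1]
  simp [Sys.r]

end Qv53

theorem qvS : QvS := fun _ _ _ _ _ hS =>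
  ⟨fun p b h n X P => qv1 hS p b h n X P, fun p j N c X => qv2 hS p j N c X, qv3 hS⟩

end Crest.Agent.T156.Q57
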