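import Crest.Agent.T156.QDef_57

/-!
# Row 156, block Q: tools for `SyncS` (helper57)
-/

set_option autoImplicit false
set_option linter.unusedSectionVars false

noncomputable section

namespace Crest.Agent.T156.Q57.Sy57

open MeasureTheory Real Finset

section bm
variable {α : Type} [MeasurableSpace α] {X Y : α → ℝ}

theorem bm_const (c : ℝ) : Bm (fun _ : α => c) := ⟨measurable_const, |c|, fun _ => le_rfl⟩

theorem bm_add (h : Bm X) (h' : Bm Y) : Bm fun a => X a + Y a := by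
  obtain ⟨m, C, hC⟩ := h
  obtain ⟨m', C', hC'⟩ := h'
  exact ⟨m.add m', C + C', fun a => (abs_add_le _ _).trans (add_le_add (hC a) (hC' a))⟩

theorem bm_mul (h : Bm X) (h' : Bm Y) : Bm fun a => X a * Y a := by
  obtain ⟨m, C, hC⟩ := h
  obtain ⟨m', C', hC'⟩ := h'
  exact ⟨m.mul m', C * C', fun a => by
    rw [abs_mul]; exact mul_le_mul (hC a) (hC' a) (abs_nonneg _) ((abs_nonneg _).trans (hC a))⟩

theorem bm_cmul (c : ℝ) (h : Bm X) : Bm fun a => c * X a := bm_mul (bm_const c) h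

theorem bm_sub (h : Bm X) (h' : Bm Y) : Bm fun a => X a - Y a := by
  simpa [sub_eq_add_neg] using bm_add h (bm_cmul (-1) h')

theorem bm_div (h : Bm X) (c : ℝ) : Bm fun a => X a / c := by
  simpa [div_eq_mul_inv] using bm_mul h (bm_const c⁻¹)

theorem bm_sum {κ : Type} (s : Finset κ) {X : κ → α → ℝ} (h : ∀ k ∈ s, Bm (X k)) :
    Bm fun a => ∑ k ∈ s, X k a := by
  classical
  induction s using Finset.induction_on with
  | empty => simpa using bm_const (α := α) 0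
  | insert k s hk ih =>
    simp only [Finset.sum_insert hk]
    exact bm_add (h k (by simp)) (ih fun k' hk' => h k' (by simp [hk']))

theorem bm_abs (h : Bm X) : Bm fun a => |X a| := by
  obtain ⟨m, C, hC⟩ := h
  exact ⟨m.abs, C, fun a => by rw [abs_abs]; exact hC a⟩

theorem bm_pos (h : Bm X) : Bm fun a => max (X a) 0 := by
  obtain ⟨m, C, hC⟩ := h
  refine ⟨m.max measurable_const, C, fun a => ?_⟩
  rw [abs_of_nonneg (le_max_right _ _)]
  exact max_le ((le_abs_self _).trans (hC a)) ((abs_nonneg _).trans (hC a))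

theorem bm_sqrt (h : Bm X) : Bm fun a => √(X a) := by
  obtain ⟨m, C, hC⟩ := h
  refine ⟨m.sqrt, √C, fun a => ?_⟩
  rw [abs_of_nonneg (sqrt_nonneg _)]
  exact sqrt_le_sqrt ((le_abs_self _).trans (hC a))

theorem bm_av (b N : ℕ) {X : ℕ → α → ℝ} (h : ∀ y, Bm (X y)) : Bm fun a => av b N fun y => X y a :=
  bm_div (bm_sum _ fun y _ => h y) _

theorem bm_dt {ι : Type} [Fintype ι] {z z' : α → ι → ℝ} (h : ∀ i, Bm fun a => z a i)
    (h' : ∀ i, Bm fun a => z' a i) : Bm fun a => dt (z a) (z' a) :=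
  bm_sum _ fun i _ => bm_mul (h i) (h' i)

theorem bm_sq2 {ι : Type} [Fintype ι] {z : α → ι → ℝ} (h : ∀ i, Bm fun a => z a i) :
    Bm fun a => sq2 (z a) :=
  bm_sum _ fun i _ => by simpa [sq] using bm_mul (h i) (h i)

end bm

section vec
variable {ι : Type} [Fintype ι]

theorem sq2_nn (z : ι → ℝ) : 0 ≤ sq2 z := Finset.sum_nonneg fun _ _ => sq_nonneg _

theorem sq2_sub (z z' : ι → ℝ) : sq2 (z - z') = sq2 z - sq2 z' - 2 * dt z' (z - z') := by
  simp only [sq2, dt, Pi.sub_apply, Finset.mul_sum, ← Finset.sum_sub_distrib]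
  exact Finset.sum_congr rfl fun _ _ => by ring

theorem sq2_tri (z z' y : ι → ℝ) : sq2 (z - z') ≤ 2 * sq2 (z - y) + 2 * sq2 (z' - y) := by
  simp only [sq2, Pi.sub_apply, Finset.mul_sum, ← Finset.sum_add_distrib]
  exact Finset.sum_le_sum fun i _ => by nlinarith [sq_nonneg (z i + z' i - 2 * y i)]

theorem sq2_le4 {z z' : ι → ℝ} (h : sq2 z ≤ 1) (h' : sq2 z' ≤ 1) : sq2 (z - z') ≤ 4 := by
  have := sq2_tri z z' 0
  simp only [sub_zero] at this
  linarith

theorem abs_dt_le {z z' : ι → ℝ} (h : sq2 z ≤ 1) (h' : sq2 z' ≤ 4) : |dt z z'| ≤ 2 := by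
  have h1 : dt z z' ^ 2 ≤ sq2 z * sq2 z' := Finset.sum_mul_sq_le_sq_mul_sq _ _ _
  refine abs_le_of_sq_le_sq' ?_ (by norm_num) |> fun h => abs_le.2 h
  nlinarith [sq2_nn z, sq2_nn z']

theorem dt_sum {κ : Type} (s : Finset κ) (z : κ → ι → ℝ) (y : ι → ℝ) :
    dt (∑ k ∈ s, z k) y = ∑ k ∈ s, dt (z k) y := by
  simp only [dt, Finset.sum_apply, Finset.sum_mul]
  exact Finset.sum_comm

theorem form_sum {A : ι → ι → ℝ} (hA : ∀ z : ι → ℝ, 0 ≤ ∑ i, ∑ k, z i * z k * A i k) {κ : Type}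
    (s : Finset κ) (z : κ → ι → ℝ) :
    ∑ i, ∑ k, (∑ q ∈ s, z q) i * (∑ q ∈ s, z q) k * A i k ≤
      s.card * ∑ q ∈ s, ∑ i, ∑ k, z q i * z q k * A i k := by
  set Bl : κ → κ → ℝ := fun q q' => ∑ i, ∑ k, z q i * z q' k * A i k with hBl
  have e1 : ∑ i, ∑ k, (∑ q ∈ s, z q) i * (∑ q ∈ s, z q) k * A i k = ∑ q ∈ s, ∑ q' ∈ s, Bl q q' := by
    simp only [hBl, Finset.sum_apply, Finset.sum_mul, Finset.mul_sum]
    rw [Finset.sum_comm' (t' := univ) (s' := fun _ => univ) (by simp)]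
    simp only [Finset.sum_comm (s := univ (α := ι)) (t := s)]
    refine Finset.sum_comm.trans (Finset.sum_congr rfl fun _ _ => Finset.sum_congr rfl fun _ _ => ?_)
    exact Finset.sum_comm
  have e2 : ∀ q q', Bl q q' + Bl q' q ≤ Bl q q + Bl q' q' := fun q q' => by
    have := hA (z q - z q')
    have e : ∑ i, ∑ k, (z q - z q') i * (z q - z q') k * A i k =
        Bl q q + Bl q' q' - (Bl q q' + Bl q' q) := by
      simp only [hBl, Pi.sub_apply, ← Finset.sum_add_distrib, ← Finset.sum_sub_distrib]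
      exact Finset.sum_congr rfl fun _ _ => Finset.sum_congr rfl fun _ _ => by ring
    linarith
  have e3 : ∑ q ∈ s, ∑ q' ∈ s, (Bl q q' + Bl q' q) ≤ ∑ q ∈ s, ∑ q' ∈ s, (Bl q q + Bl q' q') :=
    Finset.sum_le_sum fun q _ => Finset.sum_le_sum fun q' _ => e2 q q'
  simp only [Finset.sum_add_distrib, Finset.sum_const, nsmul_eq_mul] at e3
  rw [Finset.sum_comm (f := fun q q' => Bl q' q), ← Finset.mul_sum] at e3
  rw [e1]
  show _ ≤ s.card * ∑ q ∈ s, Bl q q
  linarith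

end vec

section av
variable {b N : ℕ} {f g : ℕ → ℝ}

theorem av_mono (h : ∀ y, b ≤ y → y < b + N → f y ≤ g y) : av b N f ≤ av b N g :=
  div_le_div_of_nonneg_right (Finset.sum_le_sum fun y hy =>
    h y (Finset.mem_Ico.1 hy).1 (Finset.mem_Ico.1 hy).2) (Nat.cast_nonneg _)

theorem av_const (hN : 1 ≤ N) (c : ℝ) : av b N (fun _ => c) = c := by
  have : (N : ℝ) ≠ 0 := by positivity
  simp [av]; field_simp

theorem av_add : av b N (fun y => f y + g y) = av b N f + av b N g := by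
  simp only [av, Finset.sum_add_distrib, add_div]

theorem av_sub : av b N (fun y => f y - g y) = av b N f - av b N g := by
  simp only [av, Finset.sum_sub_distrib, sub_div]

theorem av_mul (c : ℝ) : av b N (fun y => c * f y) = c * av b N f := by
  simp only [av, ← Finset.mul_sum, mul_div_assoc]

theorem av_sum {κ : Type} (s : Finset κ) (F : κ → ℕ → ℝ) :
    av b N (fun y => ∑ k ∈ s, F k y) = ∑ k ∈ s, av b N (F k) := by
  simp only [av, ← Finset.sum_div]
  rw [Finset.sum_comm]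

theorem av_nn (h : ∀ y, 0 ≤ f y) : 0 ≤ av b N f :=
  div_nonneg (Finset.sum_nonneg fun y _ => h y) (Nat.cast_nonneg _)

theorem av_le (hN : 1 ≤ N) {c : ℝ} (h : ∀ y, b ≤ y → y < b + N → f y ≤ c) : av b N f ≤ c :=
  (av_mono h).trans (av_const hN c).le

theorem av_sqrt (hN : 1 ≤ N) (h : ∀ y, 0 ≤ f y) : av b N (fun y => √(f y)) ≤ √(av b N f) := by
  have hp : (0 : ℝ) < N := by positivity
  refine le_sqrt_of_sq_le ?_
  have h1 := Finset.sum_mul_sq_le_sq_mul_sq (Ico b (b + N)) (fun _ => (1 : ℝ)) fun y => √(f y)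
  simp only [one_mul, one_pow, Finset.sum_const, Nat.card_Ico, add_tsub_cancel_left, nsmul_eq_mul,
    mul_one, sq_sqrt (h _)] at h1
  rw [av, av, div_pow, div_le_div_iff₀ (by positivity) hp]
  nlinarith [mul_le_mul_of_nonneg_right h1 hp.le]

end av

section nb
variable {α : Type} [MeasurableSpace α] {μ : Measure α} [IsProbabilityMeasure μ] {p : ℕ}
  {X Y : α → ℝ} {c d : ℝ}

theorem nb_le (h : Nb μ p X c) (hc : c ≤ d) : Nb μ p X d :=
  ⟨h.1.trans hc, h.2.trans (pow_le_pow_left₀ h.1 hc p)⟩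

theorem nb_const (hc : 0 ≤ c) : Nb μ p (fun _ => c) c := ⟨hc, by simp [abs_of_nonneg hc]⟩

theorem nb_cmul (hd : 0 ≤ d) (h : Nb μ p X c) : Nb μ p (fun a => d * X a) (d * c) :=
  ⟨mul_nonneg hd h.1, by
    simp only [abs_mul, mul_pow, integral_const_mul, abs_of_nonneg hd]
    exact mul_le_mul_of_nonneg_left h.2 (pow_nonneg hd p)⟩

variable (nb : NbS) (hp : 1 ≤ p)
include nb hp

theorem nb_sum {κ : Type} (s : Finset κ) {X : κ → α → ℝ} {c : κ → ℝ} (h : ∀ k ∈ s, Bm (X k))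
    (h' : ∀ k ∈ s, Nb μ p (X k) (c k)) : Nb μ p (fun a => ∑ k ∈ s, X k a) (∑ k ∈ s, c k) :=
  (nb α μ p hp).1 κ s X c h h'

theorem nb_add (bX : Bm X) (bY : Bm Y) (h : Nb μ p X c) (h' : Nb μ p Y d) :
    Nb μ p (fun a => X a + Y a) (c + d) := by
  have := nb_sum nb hp (univ : Finset Bool) (X := fun k => if k then X else Y)
    (c := fun k => if k then c else d) (fun k _ => by cases k <;> simpa)
    (fun k _ => by cases k <;> simpa)
  simpa using this

/-- domination by a nonnegative function -/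
theorem nb_dom (bX : Bm X) (bY : Bm Y) (h : ∀ a, |X a| ≤ Y a) (h' : Nb μ p Y c) : Nb μ p X c :=
  (nb α μ p hp).2.1 X Y c bX bY (fun a => (h a).trans (le_abs_self _)) h'

theorem nb_abs (bX : Bm X) (h : Nb μ p X c) : Nb μ p (fun a => |X a|) c :=
  (nb α μ p hp).2.1 _ X c (bm_abs bX) bX (fun a => (abs_abs _).le) h

theorem nb_bd (bX : Bm X) (hc : 0 ≤ c) (h : ∀ a, |X a| ≤ c) : Nb μ p X c :=
  nb_dom nb hp bX (bm_const c) h (nb_const hc)

theorem nb_av {b N : ℕ} (hN : 1 ≤ N) {X : ℕ → α → ℝ} (bX : ∀ y, Bm (X y)) (hc : 0 ≤ c)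
    (h : ∀ y, b ≤ y → y < b + N → Nb μ p (X y) c) : Nb μ p (fun a => av b N fun y => X y a) c := by
  have hp' : (0 : ℝ) < N := by positivity
  have h1 := nb_cmul (d := (N : ℝ)⁻¹) (by positivity) (nb_sum nb hp (Ico b (b + N)) (c := fun _ => c)
    (fun y _ => bX y) fun y hy => h y (Finset.mem_Ico.1 hy).1 (Finset.mem_Ico.1 hy).2)
  simp only [Finset.sum_const, Nat.card_Ico, add_tsub_cancel_left, nsmul_eq_mul] at h1
  rw [← mul_assoc, inv_mul_cancel₀ hp'.ne', one_mul] at h1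
  simpa only [av, div_eq_inv_mul] using h1

end nb

section sys
variable {α ι : Type} [MeasurableSpace α] [Fintype ι] {S : Sys α ι} (hO : S.Ok)
include hO

theorem bm_m (j : ℕ) (i : ι) : Bm fun a => S.m j a i := by
  refine ⟨hO.mm j i, 1, fun a => ?_⟩
  have h1 : S.m j a i ^ 2 ≤ S.rho j a :=
    Finset.single_le_sum (f := fun i => S.m j a i ^ 2) (fun _ _ => sq_nonneg _) (Finset.mem_univ i)
  exact abs_le_one_iff_mul_self_le_one.2 (by nlinarith [hO.bd j a])

theorem bm_rho (j : ℕ) : Bm (S.rho j) := bm_sq2 (bm_m hO j)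

theorem bm_dm (j j' : ℕ) (i : ι) : Bm fun a => (S.m j a - S.m j' a) i :=
  bm_sub (bm_m hO j i) (bm_m hO j' i)

theorem bm_pc (L k y : ℕ) (i : ι) : Bm fun a => S.pc L k y a i := by
  unfold Sys.pc
  split_ifs
  · exact bm_dm hO _ _ i
  · exact bm_m hO _ i

theorem bm_D (L : ℕ) (v : ℝ) (k y : ℕ) : Bm (S.D L v k y) := bm_div (bm_sq2 (bm_pc hO L k y)) _

theorem aa_nn (j : ℕ) (a : α) : 0 ≤ S.aa j a := hO.psd _ _ _

theorem aa_le (j : ℕ) (a : α) : S.aa j a ≤ 1 := (hO.bdB _ _ _).trans (hO.bd j a)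

theorem bm_aa (j : ℕ) : Bm (S.aa j) :=
  ⟨Finset.measurable_sum _ fun i _ => Finset.measurable_sum _ fun k _ =>
    ((hO.mm j i).mul (hO.mm j k)).mul (hO.mA j i k), 1, fun a => by
      rw [abs_of_nonneg (aa_nn hO j a)]; exact aa_le hO j a⟩

theorem pc_le (L k y : ℕ) (a : α) : sq2 (S.pc L k y a) ≤ 4 := by
  unfold Sys.pc
  split_ifs
  · exact sq2_le4 (hO.bd _ a) (hO.bd _ a)
  · exact (hO.bd _ a).trans (by norm_num)

omit hO in
theorem pc_sum (L y : ℕ) (a : α) : ∑ k ∈ range (L + 2), S.pc L k y a = S.m y a := by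
  have h : ∀ n ≤ L, ∑ k ∈ range (n + 1), S.pc L k y a = S.m y a - S.m (y - 2 ^ n) a := by
    intro n hn
    induction n with
    | zero => simp [Sys.pc]
    | succ n ih =>
      rw [Finset.sum_range_succ, ih (by omega), Sys.pc, if_pos hn, pow_succ,
        Nat.mul_div_cancel _ two_pos]
      abel
  rw [Finset.sum_range_succ, h L le_rfl, Sys.pc, if_neg (by omega)]
  abel

theorem aa_le_pc (L y : ℕ) (a : α) :
    S.aa y a ≤ ((L : ℝ) + 2) * ∑ k ∈ range (L + 2), S.B y a (S.pc L k y a) := by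
  have := form_sum (A := S.A y a) (hO.psd y a) (range (L + 2)) fun k => S.pc L k y a
  rw [pc_sum, Finset.card_range] at this
  push_cast at this
  exact this

end sys

end Crest.Agent.T156.Q57.Sy57
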