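import Crest.Agent.T156.QSy_57
import Crest.Agent.T156.QNb_89
import Crest.Agent.T156.QBlp_56

/-!
# Row 156, block Q: increments of the martingale in `L^p` (helper57)
-/

set_option autoImplicit false
set_option linter.unusedVariables false

noncomputable section

namespace Crest.Agent.T156.Q57

open MeasureTheory Real Finset

/-- **(Q2c)** same prefix as `SyncS`; increments over two windows. -/
def SyncC : Prop := ∀ (i : ℕ) (K : ℝ), 1 ≤ i → ∃ C : ℝ, 1 ≤ C ∧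
  ∀ (α ι : Type) [MeasurableSpace α] [Fintype ι] (S : Sys α ι) (L J j0 j1 : ℕ) (v l2 l3 e P Z : ℝ)
    (N : ℕ → ℕ) (τ c g : ℕ → ℝ), S.Ok → S.Good L v l2 l3 (e ^ 2 ^ i) j0 j1 →
    S.Win L v l2 l3 K j0 j1 N τ c g → 0 ≤ e → e ≤ v → e ≤ l3 → 1 ≤ P → (2 : ℝ) ^ (L + 3) ≤ P ^ 2 ^ i →
    1 ≤ Z → 4 / v ≤ Z ^ 2 ^ J → ∀ j, j0 + (J + 1) * (8 * 2 ^ L) ≤ j → j + (J + 1) * (8 * 2 ^ L) ≤ j1 →
      ∀ j', j ≤ j' → j' ≤ j + 2 * N j →
        Nb S.μ (2 ^ i) (fun a => sq2 (S.m j' a - S.m j a)) (C * P * Z * τ j)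

open Sy57 in
theorem syncC_of (nb : NbS) (qv : QvS) (bl : BlpS) : SyncC := by
  intro i K hi
  obtain ⟨C1, C11, hC⟩ := bl i
  set E : ℝ := 48 * (2 * C1 + |K| + 7) * |K| + 8 with hE
  set A0 : ℝ := 16 * (2 ^ i : ℕ) * E with hA0
  have K0 := abs_nonneg K
  have E1 : 1 ≤ E := by
    have h2 : 0 ≤ 48 * (2 * C1 + |K| + 7) * |K| := by positivity
    linarith
  have A01 : 1 ≤ A0 := by
    have : (1 : ℝ) ≤ (2 ^ i : ℕ) := by exact_mod_cast Nat.two_pow_pos i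
    nlinarith
  refine ⟨E * A0, one_le_mul_of_one_le_of_one_le E1 A01, ?_⟩
  intro α ι _ _ S L J j0 j1 v l2 l3 e P Z N τ c g ok good win e0 ev el P1 PL Z1 hZ j r1 r2 j' h1 h2
  have := ok.prob
  have H : Cx S (2 ^ i) L j0 j1 v l2 l3 e P K C1 N τ c g :=
    ⟨nb, qv, ok, good, win, by
      calc 2 = 2 ^ 1 := rfl
        _ ≤ 2 ^ i := Nat.pow_le_pow_right two_pos hi, e0, ev, el, P1, PL, C11, hC α ι S ok⟩
  rw [abs_of_nonneg (zero_le_one.trans win.K1)] at hE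
  have A1 : 1 ≤ A0 * P := one_le_mul_of_one_le_of_one_le A01 P1
  have tp := H.t0 j
  have hv := win.v0
  rcases Nat.eq_zero_or_pos J with rfl | hJ
  · refine nb_le (nb_bd H.nb H.p1 (bm_sq2 (bm_dm ok j' j)) (c := 4) (by norm_num) fun a => ?_) ?_
    · rw [abs_of_nonneg (sq2_nn _)]
      exact sq2_le4 (ok.bd j' a) (ok.bd j a)
    · rw [pow_zero, pow_one, div_le_iff₀ hv] at hZ
      have h3 : Z * v ≤ Z * τ j := mul_le_mul_of_nonneg_left (H.vt j) (by linarith)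
      have h4 : 1 ≤ E * (A0 * P) := one_le_mul_of_one_le_of_one_le E1 A1
      nlinarith [mul_le_mul_of_nonneg_right h4 (mul_nonneg (zero_le_one.trans Z1) tp.le)]
  · obtain ⟨q, rfl⟩ : ∃ q, J = q + 1 := ⟨J - 1, by omega⟩
    have hD := H.iter (A := A0 * P) (by rw [hA0, hE]; ring) A1 Z1 hZ q (by omega)
    rw [show q + 1 - q = 1 by omega, pow_one, ← mul_pow] at hD
    have hΛ : 1 ≤ (A0 * P * Z) ^ 2 := one_le_pow₀ (one_le_mul_of_one_le_of_one_le A1 Z1)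
    have h5 := H.incr' hD hΛ (by omega) (j := j) ⟨r1, r2⟩ (u := N j) le_rfl h1 h2 (by omega)
      (win.NU j)
    refine nb_le h5 (le_of_eq ?_)
    have Np := H.Nv0 j
    rw [sqrt_sq (by positivity), ← hE, mul_assoc, div_mul_cancel₀ _ Np.ne']
    ring

theorem syncC57 : SyncC := syncC_of N89.nbS N89.qvS blpS

theorem syncS57 : SyncS := syncS_of57 N89.nbS N89.qvS blpS

end Crest.Agent.T156.Q57
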