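import Crest.Agent.T156.QSyA_57

/-!
# Row 156, block Q: `L^p` synchronisation (helper57)
-/

set_option autoImplicit false
set_option linter.unusedSectionVars false
set_option linter.unusedVariables false

noncomputable section

namespace Crest.Agent.T156.Q57.Sy57

open MeasureTheory Real Finset

/-- everything the steps use -/
structure Cx {α ι : Type} [MeasurableSpace α] [Fintype ι] (S : Sys α ι) (p L j0 j1 : ℕ)
    (v l2 l3 e P K C1 : ℝ) (N : ℕ → ℕ) (τ c g : ℕ → ℝ) : Prop where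
  nb : NbS
  qv : QvS
  ok : S.Ok
  good : S.Good L v l2 l3 (e ^ p) j0 j1
  win : S.Win L v l2 l3 K j0 j1 N τ c g
  p2 : 2 ≤ p
  e0 : 0 ≤ e
  ev : e ≤ v
  el : e ≤ l3
  P1 : 1 ≤ P
  PL : (2 : ℝ) ^ (L + 3) ≤ P ^ p
  C11 : 1 ≤ C1
  blp : ∀ (J : Finset ℕ) (φ : ℕ → ℝ) (γ : ℝ),
    Nb S.μ p (fun a => ∑ j ∈ J, S.dm j * (φ j ^ 2 * S.aa j a)) γ →
    Nb S.μ (2 * p) (fun a => ∑ j ∈ J, S.dm j * (φ j * (S.rho j a - S.r j))) (C1 * √γ)

variable {α ι : Type} [MeasurableSpace α] [Fintype ι] {S : Sys α ι} {p L j0 j1 : ℕ}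
  {v l2 l3 e P K C1 : ℝ} {N : ℕ → ℕ} {τ c g : ℕ → ℝ}

/-- node `j` lies `s` margins inside -/
def In (L j0 j1 s j : ℕ) : Prop := j0 + s * (8 * 2 ^ L) ≤ j ∧ j + s * (8 * 2 ^ L) ≤ j1

/-- the induction hypothesis -/
def HD (S : Sys α ι) (p L j0 j1 : ℕ) (v : ℝ) (N : ℕ → ℕ) (τ : ℕ → ℝ) (Λ : ℝ) (s : ℕ) : Prop :=
  ∀ j, In L j0 j1 s j → ∀ b, (b = j ∨ b + N j = j) → ∀ k ≤ L + 1,
    Nb S.μ p (fun a => av b (N j) fun y => S.D L v k y a) (Λ * (τ j / (N j * v)))

namespace Cx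

variable (H : Cx S p L j0 j1 v l2 l3 e P K C1 N τ c g)
include H

theorem p1 : 1 ≤ p := le_trans (by norm_num) H.p2

theorem Nv0 (j : ℕ) : 0 < (N j : ℝ) * v := by
  have := H.win.N1 j
  exact mul_pos (by positivity) H.win.v0

theorem t0 (j : ℕ) : 0 < τ j := (H.Nv0 j).trans_le (H.win.Nv j)

theorem k1 (j : ℕ) : 1 ≤ τ j / (N j * v) := (one_le_div (H.Nv0 j)).2 (H.win.Nv j)

theorem vt (j : ℕ) : v ≤ τ j := by
  have h1 : (1 : ℝ) ≤ N j := by exact_mod_cast H.win.N1 j
  nlinarith [H.win.Nv j, H.win.v0]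

theorem D_nn (k y : ℕ) (a : α) : 0 ≤ S.D L v k y a :=
  div_nonneg (sq2_nn _) (by have := H.win.v0; positivity)

variable {Λ : ℝ} {s j b : ℕ}

omit H in
theorem rng (hs : 1 ≤ s) (hj : In L j0 j1 s j) : j0 + 8 * 2 ^ L ≤ j ∧ j + 8 * 2 ^ L ≤ j1 := by
  have h : 8 * 2 ^ L ≤ s * (8 * 2 ^ L) := Nat.le_mul_of_pos_left _ hs
  exact ⟨by have := hj.1; omega, by have := hj.2; omega⟩

theorem aA (hD : HD S p L j0 j1 v N τ Λ s) (hΛ : 1 ≤ Λ) (hs : 1 ≤ s) (hj : In L j0 j1 s j)
    (hb : b = j ∨ b + N j = j) : Nb S.μ p (fun a => av b (N j) fun y => S.aa y a)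
      (2 * Λ * (((L : ℝ) + 2) ^ 2 * l3 * (τ j / (N j * v)))) := by
  have := H.ok.prob
  obtain ⟨Bad, mB, hB, hg⟩ := H.good.ex
  obtain ⟨r1, r2⟩ := rng hs hj
  have nU := H.win.NU j
  have l3p := H.win.l30
  have bD := fun k => bm_av b (N j) (bm_D H.ok L v k)
  have h1 := nb_cmul (d := ((L : ℝ) + 2) * l3) (by positivity)
    (nb_sum H.nb H.p1 (range (L + 2)) (fun k _ => bD k)
      fun k hk => hD j hj b hb k (by have := Finset.mem_range.1 hk; omega))
  have h2 := (H.nb α S.μ p H.p1).2.2.2.2.2 Bad _ _ _ 1 e mB (bm_av b (N j) (bm_aa H.ok))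
    (bm_cmul _ (bm_sum _ fun k _ => bD k)) zero_le_one H.e0 hB (fun a => by
      rw [abs_of_nonneg (av_nn fun y => aa_nn H.ok y a)]
      exact av_le (H.win.N1 j) fun y _ _ => aa_le H.ok y a) (fun a ha => by
      rw [abs_of_nonneg (av_nn fun y => aa_nn H.ok y a)]
      refine le_trans ?_ (le_abs_self _)
      rw [← av_sum, ← av_mul]
      refine av_mono fun y y1 y2 => (aa_le_pc H.ok L y a).trans ?_
      rw [mul_assoc, Finset.mul_sum (s := range (L + 2)) (a := l3)]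
      refine mul_le_mul_of_nonneg_left (Finset.sum_le_sum fun k hk => ?_) (by positivity)
      exact (hg a ha k (by have := Finset.mem_range.1 hk; omega) y (by omega) (by omega)).1) h1
  refine nb_le h2 ?_
  simp only [Finset.sum_const, Finset.card_range, nsmul_eq_mul]
  push_cast
  have k1 := H.k1 j
  set κ := τ j / (N j * v)
  have h3 : (1 : ℝ) ≤ ((L : ℝ) + 2) ^ 2 := one_le_pow₀ (by have : (0 : ℝ) ≤ L := Nat.cast_nonneg L; linarith)
  have h4 : 1 ≤ Λ * (((L : ℝ) + 2) ^ 2 * κ) :=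
    one_le_mul_of_one_le_of_one_le hΛ (one_le_mul_of_one_le_of_one_le h3 k1)
  have h5 := mul_le_mul_of_nonneg_left h4 l3p.le
  nlinarith [H.el]

theorem nwin (hD : HD S p L j0 j1 v N τ Λ s) (hΛ : 1 ≤ Λ) (hs : 1 ≤ s) (hj : In L j0 j1 s j)
    (hb : b = j ∨ b + N j = j) (ht : τ j < 2) :
    Nb S.μ p (fun a => av b (N j) fun y => S.rho y a - S.r y) (2 * C1 * √Λ * τ j) := by
  have := H.ok.prob
  obtain ⟨r1, r2⟩ := rng hs hj
  obtain ⟨g0, hg, h3⟩ := (H.win.T3 j (by omega) (by omega)).resolve_left (not_le.2 ht)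
  have N1 := H.win.N1 j
  have Np : (0 : ℝ) < N j := by positivity
  have hd : ∀ y ∈ Ico b (b + N j), g j ≤ S.dm y := fun y hy => by
    have := Finset.mem_Ico.1 hy
    exact hg y (by omega) (by omega)
  have bA := bm_av b (N j) (bm_aa H.ok)
  have h1 := nb_cmul (d := (g j * N j)⁻¹) (by positivity) (H.aA hD hΛ hs hj hb)
  have h2 : Nb S.μ p (fun a => ∑ y ∈ Ico b (b + N j), S.dm y * ((N j * S.dm y)⁻¹ ^ 2 * S.aa y a))
      (2 * Λ * τ j ^ 2) := by
    refine nb_le (nb_dom H.nb H.p1 (bm_sum _ fun y _ => bm_cmul _ (bm_cmul _ (bm_aa H.ok y)))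
      (bm_cmul _ bA) (fun a => ?_) h1) ?_
    · rw [abs_of_nonneg (Finset.sum_nonneg fun y _ => mul_nonneg (H.ok.dm0 y)
        (mul_nonneg (sq_nonneg _) (aa_nn H.ok y a))), av, Finset.sum_div, Finset.mul_sum]
      refine Finset.sum_le_sum fun y hy => ?_
      have d0 := g0.trans_le (hd y hy)
      have e1 : S.dm y * ((N j * S.dm y)⁻¹ ^ 2 * S.aa y a) = (S.dm y * N j)⁻¹ * (S.aa y a / N j) := by
        field_simp
      rw [e1]
      refine mul_le_mul_of_nonneg_right (inv_anti₀ (by positivity) ?_)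
        (div_nonneg (aa_nn H.ok y a) Np.le)
      exact mul_le_mul_of_nonneg_right (hd y hy) Np.le
    · have Nv := H.Nv0 j
      have tp := H.t0 j
      rw [inv_mul_le_iff₀ (by positivity)]
      have h4 : ((L : ℝ) + 2) ^ 2 * l3 * (τ j / (N j * v)) ≤ g j * N j * τ j ^ 2 := by
        rw [← mul_div_assoc, div_le_iff₀ Nv]
        nlinarith [mul_le_mul_of_nonneg_right h3 tp.le]
      nlinarith [mul_le_mul_of_nonneg_left h4 (by linarith : 0 ≤ 2 * Λ)]
  have h5 := H.blp _ (fun y => (N j * S.dm y)⁻¹) _ h2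
  have e2 : (fun a => ∑ y ∈ Ico b (b + N j), S.dm y * ((N j * S.dm y)⁻¹ * (S.rho y a - S.r y))) =
      fun a => av b (N j) fun y => S.rho y a - S.r y := by
    funext a
    rw [av, Finset.sum_div]
    refine Finset.sum_congr rfl fun y hy => ?_
    have d0 := g0.trans_le (hd y hy)
    field_simp
  rw [e2] at h5
  refine nb_le ((H.nb α S.μ p H.p1).2.2.1 _ _
    (bm_av _ _ fun y => bm_sub (bm_rho H.ok y) (bm_const _)) h5) ?_
  have h6 : √(2 * Λ * τ j ^ 2) ≤ 2 * √Λ * τ j := by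
    have tp := H.t0 j
    refine sqrt_le_iff.2 ⟨by positivity, ?_⟩
    rw [mul_pow, mul_pow, sq_sqrt (by linarith)]
    nlinarith [mul_nonneg (by linarith : 0 ≤ Λ) (sq_nonneg (τ j))]
  nlinarith [mul_le_mul_of_nonneg_left h6 (by linarith [H.C11] : 0 ≤ C1)]

/-- deterministic part of a window average -/
theorem det (hs : 1 ≤ s) (hj : In L j0 j1 s j) (hb : b = j ∨ b + N j = j) :
    |av b (N j) S.r - c j| ≤ (K + 1) * τ j := by
  obtain ⟨r1, r2⟩ := rng hs hj
  have nU := H.win.NU j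
  have N1 := H.win.N1 j
  have key : ∀ y, b ≤ y → y < b + N j → |S.r y - c j| ≤ (K + 1) * τ j := fun y y1 y2 => by
    have h1 := H.win.loc y (by omega) (by omega)
    have h2 := (H.win.near y j (by omega) (by omega) (by omega) (by omega) (by omega) (by omega)).2.2
    have h3 : |c y - c j| ≤ τ j := by
      have hv := H.win.v0
      have Nv := H.win.Nv j
      rcases le_total y j with h | h
      · obtain ⟨a1, a2⟩ := H.win.clk y j h
        have : (j : ℝ) - y ≤ N j := by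
          have : j ≤ y + N j := by omega
          have : (j : ℝ) ≤ y + N j := by exact_mod_cast this
          linarith
        rw [abs_sub_comm, abs_of_nonneg a1]
        nlinarith
      · obtain ⟨a1, a2⟩ := H.win.clk j y h
        have : (y : ℝ) - j ≤ N j := by
          have : y ≤ j + N j := by omega
          have : (y : ℝ) ≤ j + N j := by exact_mod_cast this
          linarith
        rw [abs_of_nonneg a1]
        nlinarith
    have := abs_sub_le (S.r y) (c y) (c j)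
    linarith
  refine abs_le.2 ⟨?_, ?_⟩
  · have := av_mono (b := b) (N := N j) (f := fun _ => c j - (K + 1) * τ j) (g := S.r)
      fun y y1 y2 => by linarith [(abs_le.1 (key y y1 y2)).1]
    rw [av_const N1] at this
    linarith
  · have := av_le (b := b) N1 (f := S.r) (c := c j + (K + 1) * τ j)
      fun y y1 y2 => by linarith [(abs_le.1 (key y y1 y2)).2]
    linarith

/-- window averages stay near the clock -/
theorem wav (hD : HD S p L j0 j1 v N τ Λ s) (hΛ : 1 ≤ Λ) (hs : 1 ≤ s) (hj : In L j0 j1 s j)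
    (hb : b = j ∨ b + N j = j) :
    Nb S.μ p (fun a => av b (N j) (fun y => S.rho y a) - c j) ((2 * C1 + K + 1) * √Λ * τ j) := by
  have := H.ok.prob
  have s1 : 1 ≤ √Λ := one_le_sqrt.2 hΛ
  have tp := H.t0 j
  have K1 := H.win.K1
  have C11 := H.C11
  have bR := bm_av b (N j) (bm_rho H.ok)
  rcases lt_or_ge (τ j) 2 with ht | ht
  · have bF : Bm fun a => av b (N j) fun y => S.rho y a - S.r y :=
      bm_av _ _ fun y => bm_sub (bm_rho H.ok y) (bm_const _)
    have h1 := nb_add H.nb H.p1 (bm_abs bF) (bm_const ((K + 1) * τ j))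
      (nb_abs H.nb H.p1 bF (H.nwin hD hΛ hs hj hb ht)) (nb_const (by positivity))
    refine nb_le (nb_dom H.nb H.p1 (bm_sub bR (bm_const _)) (bm_add (bm_abs bF)
      (bm_const ((K + 1) * τ j))) (fun a => ?_) h1) ?_
    · have := abs_sub_le (av b (N j) fun y => S.rho y a) (av b (N j) S.r) (c j)
      rw [av_sub]
      linarith [H.det hs hj hb]
    · nlinarith [mul_le_mul_of_nonneg_left s1 (by positivity : 0 ≤ (K + 1) * τ j)]
  · refine nb_le (nb_bd H.nb H.p1 (bm_sub bR (bm_const _)) (c := 2) zero_le_two fun a => ?_) ?_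
    · have a1 : 0 ≤ av b (N j) fun y => S.rho y a := av_nn fun y => sq2_nn _
      have a2 : av b (N j) (fun y => S.rho y a) ≤ 1 := av_le (H.win.N1 j) fun y _ _ => H.ok.bd y a
      obtain ⟨c1, c2⟩ := H.win.c02 j
      exact abs_le.2 ⟨by linarith, by linarith⟩
    · have : 1 ≤ (2 * C1 + K + 1) * √Λ := one_le_mul_of_one_le_of_one_le (by linarith) s1
      nlinarith

theorem up (hD : HD S p L j0 j1 v N τ Λ s) (hΛ : 1 ≤ Λ) (hs : 1 ≤ s) (hj : In L j0 j1 s j) :
    Nb S.μ p (fun a => max (S.rho j a - c j) 0) ((2 * C1 + K + 1) * √Λ * τ j) := by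
  have := H.ok.prob
  have bR := bm_sub (bm_av j (N j) (bm_rho H.ok)) (bm_const (c j))
  refine (H.qv α ι S H.ok).2.1 p j (N j) _ _ H.p2 (H.win.N1 j) ?_
  refine nb_dom H.nb H.p1 (bm_pos bR) (bm_abs bR) (fun a => ?_)
    (nb_abs H.nb H.p1 bR (H.wav hD hΛ hs hj (Or.inl rfl)))
  rw [abs_of_nonneg (le_max_right _ _)]
  exact max_le (le_abs_self _) (abs_nonneg _)

/-- locking, averaged over the window before `j` -/
theorem lock (hD : HD S p L j0 j1 v N τ Λ s) (hΛ : 1 ≤ Λ) (hs : 1 ≤ s) (hj : In L j0 j1 s j)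
    (hb : b + N j = j) {y' : ℕ} (h1 : j ≤ y') (h2 : y' ≤ j1) :
    Nb S.μ p (fun a => av b (N j) fun y => |dt (S.m y a) (S.m y' a - S.m y a)|) (3 * √Λ * τ j) := by
  have := H.ok.prob
  obtain ⟨Bad, mB, hB, hg⟩ := H.good.ex
  obtain ⟨r1, r2⟩ := rng hs hj
  have nU := H.win.NU j
  have N1 := H.win.N1 j
  have l2p := H.win.l20
  have bD := fun k => bm_av b (N j) (bm_D H.ok L v k)
  have a1 := nb_cmul (d := √l2) (sqrt_nonneg _)
    (nb_sum H.nb H.p1 (range (L + 2)) (fun k _ => bm_sqrt (bD k))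
      fun k hk => (H.nb α S.μ p H.p1).2.2.2.1 _ _ (bD k)
        (hD j hj b (Or.inr hb) k (by have := Finset.mem_range.1 hk; omega)))
  have a2 := (H.nb α S.μ p H.p1).2.2.2.2.2 Bad _ _ _ 2 e mB
    (bm_av b (N j) fun y => bm_abs (bm_dt (bm_m H.ok y) (bm_dm H.ok y' y)))
    (bm_cmul _ (bm_sum _ fun k _ => bm_sqrt (bD k))) zero_le_two H.e0 hB (fun a => by
      rw [abs_of_nonneg (av_nn fun y => abs_nonneg _)]
      exact av_le N1 fun y _ _ => abs_dt_le (H.ok.bd y a) (sq2_le4 (H.ok.bd _ a) (H.ok.bd _ a)))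
    (fun a ha => by
      rw [abs_of_nonneg (av_nn fun y => abs_nonneg _)]
      refine le_trans ?_ (le_abs_self _)
      have b1 : av b (N j) (fun y => |dt (S.m y a) (S.m y' a - S.m y a)|) ≤
          av b (N j) fun y => √l2 * ∑ k ∈ range (L + 2), √(S.D L v k y a) := by
        refine av_mono fun y y1 y2 => ?_
        conv_lhs => rw [← pc_sum L y a, dt_sum, pc_sum L y a]
        rw [Finset.mul_sum]
        refine (Finset.abs_sum_le_sum_abs _ _).trans (Finset.sum_le_sum fun k hk => ?_)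
        rw [← sqrt_mul l2p.le]
        exact abs_le_sqrt ((hg a ha k (by have := Finset.mem_range.1 hk; omega) y (by omega)
          (by omega)).2 y' (by omega) h2)
      rw [av_mul, av_sum] at b1
      exact b1.trans (mul_le_mul_of_nonneg_left (Finset.sum_le_sum fun k _ =>
        av_sqrt N1 fun y => H.D_nn k y a) (sqrt_nonneg _))) a1
  refine nb_le a2 ?_
  simp only [Finset.sum_const, Finset.card_range, nsmul_eq_mul]
  push_cast
  have s1 : 1 ≤ √Λ := one_le_sqrt.2 hΛ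
  have tp := H.t0 j
  have Nv := H.Nv0 j
  have h4 := H.win.T4 j (by omega) (by omega)
  have h5 : √l2 * (((L : ℝ) + 2) * √(Λ * (τ j / (N j * v)))) ≤ √Λ * τ j := by
    refine le_of_sq_le_sq ?_ (by positivity) |> fun h => h
    rw [mul_pow, mul_pow, mul_pow, sq_sqrt l2p.le, sq_sqrt (by positivity), sq_sqrt (by linarith)]
    have h6 : ((L : ℝ) + 2) ^ 2 * l2 * (τ j / (N j * v)) ≤ τ j ^ 2 := by
      rw [← mul_div_assoc, div_le_iff₀ Nv]
      nlinarith [mul_le_mul_of_nonneg_right h4 tp.le]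
    nlinarith [mul_le_mul_of_nonneg_left h6 (by linarith : 0 ≤ Λ)]
  nlinarith [H.ev, H.vt j, mul_le_mul_of_nonneg_right s1 tp.le]

/-- mean square distance to the window before `j` -/
theorem dist (hD : HD S p L j0 j1 v N τ Λ s) (hΛ : 1 ≤ Λ) (hs : 1 ≤ s) (hj : In L j0 j1 s j)
    (hb : b + N j = j) {y' : ℕ} (h1 : j ≤ y') (hy : In L j0 j1 s y') :
    Nb S.μ p (fun a => av b (N j) fun y => sq2 (S.m y' a - S.m y a))
      ((2 * C1 + K + 7) * √Λ * (τ j + τ y') + (y' - j : ℝ) * v) := by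
  have := H.ok.prob
  obtain ⟨c1, c2⟩ := H.win.clk j y' h1
  have b1 : Bm fun a => max (S.rho y' a - c y') 0 := bm_pos (bm_sub (bm_rho H.ok _) (bm_const _))
  have b2 : Bm fun a => av b (N j) (fun y => S.rho y a) - c j :=
    bm_sub (bm_av b (N j) (bm_rho H.ok)) (bm_const _)
  have b3 : Bm fun a => av b (N j) fun y => |dt (S.m y a) (S.m y' a - S.m y a)| :=
    bm_av b (N j) fun y => bm_abs (bm_dt (bm_m H.ok y) (bm_dm H.ok y' y))
  have a1 := nb_add H.nb H.p1 (bm_add (bm_add b1 (bm_abs b2)) (bm_cmul 2 b3))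
    (bm_const ((y' - j : ℝ) * v))
    (nb_add H.nb H.p1 (bm_add b1 (bm_abs b2)) (bm_cmul 2 b3)
      (nb_add H.nb H.p1 b1 (bm_abs b2) (H.up hD hΛ hs hy)
        (nb_abs H.nb H.p1 b2 (H.wav hD hΛ hs hj (Or.inr hb))))
      (nb_cmul zero_le_two (H.lock hD hΛ hs hj hb h1 (by have := hy.2; omega))))
    (nb_const (c1.trans c2))
  refine nb_le (nb_dom H.nb H.p1 (bm_av b (N j) fun y => bm_sq2 (bm_dm H.ok y' y))
    (bm_add (bm_add (bm_add b1 (bm_abs b2)) (bm_cmul 2 b3)) (bm_const _)) (fun a => ?_) a1) ?_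
  · rw [abs_of_nonneg (av_nn fun y => sq2_nn _)]
    have e1 : av b (N j) (fun y => sq2 (S.m y' a - S.m y a)) ≤ av b (N j) fun y =>
        (S.rho y' a - S.rho y a) + 2 * |dt (S.m y a) (S.m y' a - S.m y a)| :=
      av_mono fun y _ _ => by
        rw [sq2_sub]
        have := neg_abs_le (dt (S.m y a) (S.m y' a - S.m y a))
        simp only [Sys.rho]
        linarith
    rw [av_add, av_sub, av_mul, av_const (H.win.N1 j)] at e1
    have e2 := le_max_left (S.rho y' a - c y') 0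
    have e3 := neg_abs_le (av b (N j) (fun y => S.rho y a) - c j)
    linarith
  · have s0 := sqrt_nonneg Λ
    have t1 := H.t0 j
    have t2 := H.t0 y'
    nlinarith [mul_nonneg s0 t1.le, mul_nonneg s0 t2.le]

/-- increments of the martingale -/
theorem incr (hD : HD S p L j0 j1 v N τ Λ s) (hΛ : 1 ≤ Λ) (hs : 1 ≤ s) (hj : In L j0 j1 s j)
    {y' : ℕ} (h1 : j ≤ y') (hy : In L j0 j1 s y') :
    Nb S.μ p (fun a => sq2 (S.m y' a - S.m j a))
      (6 * (2 * C1 + K + 7) * √Λ * (τ j + τ y') + 2 * ((y' - j : ℝ) * v)) := by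
  have := H.ok.prob
  obtain ⟨r1, r2⟩ := rng hs hj
  have nU := H.win.NU j
  have hb : j - N j + N j = j := by omega
  have b1 := fun y' => bm_av (j - N j) (N j) fun y => bm_sq2 (bm_dm H.ok y' y)
  have a1 := nb_add H.nb H.p1 (bm_cmul 2 (b1 y')) (bm_cmul 2 (b1 j))
    (nb_cmul zero_le_two (H.dist hD hΛ hs hj hb h1 hy))
    (nb_cmul zero_le_two (H.dist hD hΛ hs hj hb le_rfl hj))
  refine nb_le (nb_dom H.nb H.p1 (bm_sq2 (bm_dm H.ok y' j))
    (bm_add (bm_cmul 2 (b1 y')) (bm_cmul 2 (b1 j))) (fun a => ?_) a1) ?_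
  · rw [abs_of_nonneg (sq2_nn _), ← av_mul, ← av_mul, ← av_add,
      ← av_const (b := j - N j) (H.win.N1 j) (sq2 (S.m y' a - S.m j a))]
    exact av_mono fun y _ _ => sq2_tri _ _ _
  · have s0 := sqrt_nonneg Λ
    have t1 := H.t0 j
    have t2 := H.t0 y'
    have e0 : 0 ≤ (2 * C1 + K + 7) * √Λ := mul_nonneg (by linarith [H.C11, H.win.K1]) s0
    nlinarith [mul_nonneg e0 t1.le, mul_nonneg e0 t2.le]

/-- tolerance at the nodes seen from a window of `j` at scale `u ≥ N j` -/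
theorem tol (hj : In L j0 j1 (s + 1) j) {i u : ℕ} (hu : N j ≤ u) (h1 : i ≤ j + 2 * N j)
    (h2 : j ≤ i + 2 * u) (h3 : u ≤ 2 ^ L) :
    In L j0 j1 s i ∧ τ i ≤ 4 * K * (τ j / (N j * v)) * (u * v) := by
  have nU := H.win.NU j
  have hs : (s + 1) * (8 * 2 ^ L) = s * (8 * 2 ^ L) + 8 * 2 ^ L := by ring
  obtain ⟨r1, r2⟩ := hj
  rw [hs] at r1 r2
  refine ⟨⟨by omega, by omega⟩, ?_⟩
  have N1 := H.win.N1 j
  have Np : (0 : ℝ) < N j := by positivity
  have hv := H.win.v0
  have tp := H.t0 j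
  have K1 := H.win.K1
  have e : 4 * K * (τ j / (N j * v)) * (u * v) = 4 * K * τ j * u / N j := by field_simp
  have hu' : (N j : ℝ) ≤ u := by exact_mod_cast hu
  rw [e, le_div_iff₀ Np]
  have kt : 0 ≤ K * τ j := by positivity
  rcases le_or_gt (i + N j) j with h | h
  · have h4 := H.win.back i j (by omega) (by omega) h (by omega)
    have h5 : (j : ℝ) - i ≤ 2 * u := by
      have : (j : ℝ) ≤ i + 2 * u := by exact_mod_cast h2
      linarith
    nlinarith [mul_le_mul_of_nonneg_left h5 kt]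
  · have h4 := (H.win.near i j (by omega) (by omega) (by omega) (by omega) (by omega) (by omega)).2.2
    nlinarith [mul_le_mul_of_nonneg_right h4 Np.le, mul_le_mul_of_nonneg_left hu' kt]

/-- increments between two such nodes -/
theorem incr' (hD : HD S p L j0 j1 v N τ Λ s) (hΛ : 1 ≤ Λ) (hs : 1 ≤ s)
    (hj : In L j0 j1 (s + 1) j) {i i' u : ℕ} (hu : N j ≤ u) (h0 : i ≤ i') (h1 : i' ≤ j + 2 * N j)
    (h2 : j ≤ i + 2 * u) (h3 : u ≤ 2 ^ L) :
    Nb S.μ p (fun a => sq2 (S.m i' a - S.m i a))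
      ((48 * (2 * C1 + K + 7) * K + 8) * √Λ * (τ j / (N j * v)) * (u * v)) := by
  have := H.ok.prob
  obtain ⟨a1, a2⟩ := H.tol hj hu (i := i) (by omega) h2 h3
  obtain ⟨a3, a4⟩ := H.tol hj hu (i := i') h1 (by omega) h3
  refine nb_le (H.incr hD hΛ hs a1 h0 a3) ?_
  have s1 : 1 ≤ √Λ := one_le_sqrt.2 hΛ
  have k1 := H.k1 j
  have hv := H.win.v0
  have h5 : (i' : ℝ) - i ≤ 4 * u := by
    have : i' ≤ i + 4 * u := by omega
    have : (i' : ℝ) ≤ i + 4 * u := by exact_mod_cast this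
    linarith
  have uv : 0 ≤ (u : ℝ) * v := by positivity
  have e0 : 0 ≤ 6 * (2 * C1 + K + 7) * √Λ := by have := H.C11; have := H.win.K1; positivity
  have h6 := mul_le_mul_of_nonneg_left (add_le_add a2 a4) e0
  have h7 := mul_le_mul_of_nonneg_right (one_le_mul_of_one_le_of_one_le s1 k1) uv
  nlinarith [mul_le_mul_of_nonneg_right h5 hv.le]

omit H in
theorem sum_res (F : ℕ → ℝ) (hF : ∀ y, 0 ≤ F y) (b N h : ℕ) (h0 : 0 < h) :
    ∑ y ∈ range N, F (b + y) ≤ ∑ r ∈ range h, ∑ i ∈ range (N / h + 1), F (b + r + i * h) := by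
  have e : ∀ n, ∑ y ∈ range (n * h), F (b + y) = ∑ r ∈ range h, ∑ i ∈ range n, F (b + r + i * h) := by
    intro n
    induction n with
    | zero => simp
    | succ n ih =>
      rw [Nat.succ_mul, Finset.sum_range_add, ih, ← Finset.sum_add_distrib]
      refine Finset.sum_congr rfl fun r _ => ?_
      rw [Finset.sum_range_succ]
      congr 2; ring
  rw [← e]
  refine Finset.sum_le_sum_of_subset_of_nonneg (Finset.range_mono ?_) fun _ _ _ => hF _
  have := Nat.lt_div_mul_add (a := N) h0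
  rw [Nat.succ_mul]; omega

theorem step (hD : HD S p L j0 j1 v N τ Λ s) (hΛ : 1 ≤ Λ) (hs : 1 ≤ s) :
    HD S p L j0 j1 v N τ (16 * p * P * (48 * (2 * C1 + K + 7) * K + 8) * √Λ) (s + 1) := by
  have := H.ok.prob
  intro j hj b hb k hk
  obtain ⟨r1, r2⟩ := rng (s := s + 1) (by omega) hj
  have nU := H.win.NU j
  have N1 := H.win.N1 j
  have Np : (0 : ℝ) < N j := by positivity
  have hv := H.win.v0
  have s1 : 1 ≤ √Λ := one_le_sqrt.2 hΛ
  have k1 := H.k1 j
  have K1 := H.win.K1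
  have C11 := H.C11
  set E := 48 * (2 * C1 + K + 7) * K + 8 with hE
  set κ := τ j / (N j * v) with hκ
  have E0 : 0 ≤ E := by positivity
  have pP : 1 ≤ 16 * p * P := by
    have : (2 : ℝ) ≤ p := by exact_mod_cast H.p2
    nlinarith [H.P1]
  have mono : E * √Λ * κ ≤ 16 * p * P * E * √Λ * κ := by
    have := mul_le_mul_of_nonneg_right pP (by positivity : 0 ≤ E * √Λ * κ)
    linarith
  rcases Nat.lt_or_ge L k with hL | hL
  · -- the old part
    obtain rfl : k = L + 1 := by omega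
    refine nb_le (nb_av H.nb H.p1 N1 (bm_D H.ok L v _) (by positivity) fun y y1 y2 => ?_) mono
    obtain ⟨a1, a2⟩ := H.tol hj nU (i := y - 2 ^ L) (by omega) (by omega) le_rfl
    have b1 : Bm fun a => max (S.rho (y - 2 ^ L) a - c (y - 2 ^ L)) 0 :=
      bm_pos (bm_sub (bm_rho H.ok _) (bm_const _))
    have c0 := (H.win.c02 j).1
    have U0 : (0 : ℝ) < 2 ^ L * v := by positivity
    have h1 := nb_cmul (d := (2 ^ L * v)⁻¹) (by positivity)
      (nb_add H.nb H.p1 b1 (bm_const (c j)) (H.up hD hΛ hs a1) (nb_const c0))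
    refine nb_le (nb_dom H.nb H.p1 (bm_D H.ok L v _ y) (bm_cmul _ (bm_add b1 (bm_const _)))
      (fun a => ?_) h1) ?_
    · rw [abs_of_nonneg (H.D_nn _ y a), Sys.D, Sys.pc, if_neg (by omega), ← div_eq_inv_mul]
      have c1 := (H.win.clk (y - 2 ^ L) j (by omega)).1
      have c2 := le_max_left (S.rho (y - 2 ^ L) a - c (y - 2 ^ L)) 0
      refine div_le_div₀ (by positivity) (by simp only [Sys.rho] at c2 ⊢; linarith) U0 ?_
      rw [pow_succ]; nlinarith
    · rw [inv_mul_le_iff₀ U0]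
      have c3 : c j ≤ K * κ * (2 ^ L * v) := by
        have e : K * κ * (2 ^ L * v) = K * τ j * 2 ^ L / N j := by rw [hκ]; field_simp
        rw [e, le_div_iff₀ Np]
        exact H.win.old j (by omega) (by omega)
      push_cast at a2
      have h2 := mul_le_mul_of_nonneg_left a2 (by positivity : 0 ≤ (2 * C1 + K + 1) * √Λ)
      have h3 := mul_le_mul_of_nonneg_right s1 (by positivity : 0 ≤ K * κ * (2 ^ L * v))
      have h4 : 0 ≤ √Λ * κ * (2 ^ L * v) := by positivity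
      have h5 : (2 * C1 + K + 1) * (4 * K) + K ≤ E := by nlinarith
      nlinarith [mul_le_mul_of_nonneg_right h5 h4]
  have kU : 2 ^ k ≤ 2 ^ L := Nat.pow_le_pow_right two_pos hL
  have k0 : 0 < 2 ^ k := Nat.two_pow_pos k
  have U0 : (0 : ℝ) < 2 ^ k * v := by positivity
  rcases Nat.lt_or_ge (N j) (2 ^ k) with hN | hN
  · -- long pieces
    refine nb_le (nb_av H.nb H.p1 N1 (bm_D H.ok L v _) (by positivity) fun y y1 y2 => ?_) mono
    have h1 := nb_cmul (d := (2 ^ k * v)⁻¹) (by positivity)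
      (H.incr' hD hΛ hs hj hN.le (i := y - 2 ^ k) (i' := y - 2 ^ k / 2) (by omega) (by omega)
        (by omega) kU)
    push_cast at h1
    rw [← hE, ← hκ, mul_comm _ ((2 : ℝ) ^ k * v), inv_mul_cancel_left₀ U0.ne'] at h1
    have e : S.D L v k y = fun a => (2 ^ k * v)⁻¹ * sq2 (S.m (y - 2 ^ k / 2) a - S.m (y - 2 ^ k) a) := by
      funext a
      rw [Sys.D, Sys.pc, if_pos hL, div_eq_inv_mul]
    rw [e]
    exact h1
  · -- short pieces
    set h := 2 ^ k - 2 ^ k / 2 with hh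
    have h0 : 0 < h := by omega
    have hm : (N j / h) * h ≤ N j := Nat.div_mul_le_self _ _
    have hP : ((N j / h + 1 : ℕ) + 1 : ℝ) ≤ P ^ p := by
      refine le_trans ?_ H.PL
      have : N j / h + 1 + 1 ≤ 2 ^ (L + 3) := by
        have := Nat.div_le_self (N j) h
        have : 0 < 2 ^ L := Nat.two_pow_pos L
        rw [pow_add]; omega
      exact_mod_cast this
    have h1 : ∀ r ∈ range h, Nb S.μ p (fun a => ∑ i ∈ range (N j / h + 1),
        sq2 (S.m (b - 2 ^ k + r + (i + 1) * h) a - S.m (b - 2 ^ k + r + i * h) a))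
        (16 * p * P * (E * √Λ * κ * (N j * v))) := fun r hr =>
      (H.qv α ι S H.ok).1 p _ h _ _ P H.p2 H.P1 hP fun i hi => by
        have := Finset.mem_range.1 hr
        have h2 : i * h ≤ (N j / h + 1) * h := Nat.mul_le_mul_right _ hi
        rw [Nat.succ_mul] at h2
        exact H.incr' hD hΛ hs hj le_rfl (by omega) (by omega) (by omega) nU
    have bS : ∀ r, Bm fun a => ∑ i ∈ range (N j / h + 1),
        sq2 (S.m (b - 2 ^ k + r + (i + 1) * h) a - S.m (b - 2 ^ k + r + i * h) a) :=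
      fun r => bm_sum _ fun i _ => bm_sq2 (bm_dm H.ok _ _)
    have h2 := nb_cmul (d := (2 ^ k * v * N j)⁻¹) (by positivity)
      (nb_sum H.nb H.p1 (range h) (fun r _ => bS r) h1)
    refine nb_le (nb_dom H.nb H.p1 (bm_av _ _ (bm_D H.ok L v k))
      (bm_cmul _ (bm_sum _ fun r _ => bS r)) (fun a => ?_) h2) ?_
    · rw [abs_of_nonneg (av_nn fun y => H.D_nn k y a), av, ← div_eq_inv_mul, ← div_div]
      refine div_le_div_of_nonneg_right ?_ Np.le
      simp only [Sys.D, ← Finset.sum_div]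
      refine div_le_div_of_nonneg_right ?_ U0.le
      have h3 := sum_res (fun y => sq2 (S.m (y + h) a - S.m y a)) (fun _ => sq2_nn _) (b - 2 ^ k)
        (N j) h h0
      refine le_trans (le_of_eq ?_) (h3.trans (le_of_eq ?_))
      · rw [Finset.sum_Ico_eq_sum_range, add_tsub_cancel_left]
        refine Finset.sum_congr rfl fun y _ => ?_
        rw [Sys.pc, if_pos hL, show b + y - 2 ^ k / 2 = b - 2 ^ k + y + h by omega,
          show b + y - 2 ^ k = b - 2 ^ k + y by omega]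
      · refine Finset.sum_congr rfl fun r _ => Finset.sum_congr rfl fun i _ => ?_
        rw [Nat.succ_mul, add_assoc _ (i * h) h]
    · simp only [Finset.sum_const, Finset.card_range, nsmul_eq_mul]
      rw [inv_mul_le_iff₀ (by positivity)]
      have h4 : (h : ℝ) ≤ 2 ^ k := by exact_mod_cast (by omega : h ≤ 2 ^ k)
      have h5 : 0 ≤ 16 * p * P * (E * √Λ * κ * (N j * v)) := by positivity
      nlinarith [mul_le_mul_of_nonneg_right h4 h5]

theorem crude (s : ℕ) : HD S p L j0 j1 v N τ (4 / v) s := by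
  have := H.ok.prob
  intro j _ b _ k _
  have hv := H.win.v0
  refine nb_le (nb_bd H.nb H.p1 (bm_av _ _ (bm_D H.ok L v k)) (c := 4 / v) (by positivity)
    fun a => ?_) (le_mul_of_one_le_right (by positivity) (H.k1 j))
  rw [abs_of_nonneg (av_nn fun y => H.D_nn k y a)]
  refine av_le (H.win.N1 j) fun y _ _ => div_le_div₀ (by norm_num) (pc_le H.ok L k y a) hv ?_
  exact le_mul_of_one_le_left hv.le (one_le_pow₀ one_le_two)

theorem hd_le {Λ' : ℝ} (hD : HD S p L j0 j1 v N τ Λ s) (h : Λ ≤ Λ') : HD S p L j0 j1 v N τ Λ' s := by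
  have := H.ok.prob
  exact fun j hj b hb k hk => nb_le (hD j hj b hb k hk)
    (mul_le_mul_of_nonneg_right h (zero_le_one.trans (H.k1 j)))

theorem iter {A Z : ℝ} (hA : A = 16 * p * P * (48 * (2 * C1 + K + 7) * K + 8)) (A1 : 1 ≤ A)
    (Z1 : 1 ≤ Z) {J : ℕ} (hZ : 4 / v ≤ Z ^ 2 ^ J) :
    ∀ q ≤ J, HD S p L j0 j1 v N τ (A ^ 2 * Z ^ 2 ^ (J - q)) (q + 1) := by
  intro q hq
  induction q with
  | zero => exact H.hd_le (H.crude 1) (hZ.trans (le_mul_of_one_le_left (by positivity)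
      (one_le_pow₀ A1)))
  | succ q ih =>
    have h1 := H.step (ih (by omega)) (one_le_mul_of_one_le_of_one_le (one_le_pow₀ A1)
      (one_le_pow₀ Z1)) (by omega)
    rw [← hA, show J - q = J - (q + 1) + 1 by omega, pow_succ 2, pow_mul, ← mul_pow,
      sqrt_sq (by positivity), ← mul_assoc, ← sq] at h1
    exact h1

/-- two-sided bound at a node -/
theorem two (hD : HD S p L j0 j1 v N τ Λ s) (hΛ : 1 ≤ Λ) (hs : 1 ≤ s) (hj : In L j0 j1 s j) :
    Nb S.μ p (fun a => S.rho j a - c j) (2 * (2 * C1 + K + 7) * √Λ * τ j) := by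
  have := H.ok.prob
  obtain ⟨r1, r2⟩ := rng hs hj
  have nU := H.win.NU j
  have hb : j - N j + N j = j := by omega
  have b1 : Bm fun a => max (S.rho j a - c j) 0 := bm_pos (bm_sub (bm_rho H.ok _) (bm_const _))
  have b2 : Bm fun a => av (j - N j) (N j) (fun y => S.rho y a) - c j :=
    bm_sub (bm_av _ (N j) (bm_rho H.ok)) (bm_const _)
  have b3 : Bm fun a => av (j - N j) (N j) fun y => |dt (S.m y a) (S.m j a - S.m y a)| :=
    bm_av _ (N j) fun y => bm_abs (bm_dt (bm_m H.ok y) (bm_dm H.ok j y))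
  have a1 := nb_add H.nb H.p1 (bm_add b1 (bm_abs b2)) (bm_cmul 2 b3)
      (nb_add H.nb H.p1 b1 (bm_abs b2) (H.up hD hΛ hs hj)
        (nb_abs H.nb H.p1 b2 (H.wav hD hΛ hs hj (Or.inr hb))))
      (nb_cmul zero_le_two (H.lock hD hΛ hs hj hb le_rfl (by omega)))
  refine nb_le (nb_dom H.nb H.p1 (bm_sub (bm_rho H.ok _) (bm_const _))
    (bm_add (bm_add b1 (bm_abs b2)) (bm_cmul 2 b3)) (fun a => ?_) a1) ?_
  · have e1 : av (j - N j) (N j) (fun y => S.rho y a) ≤ av (j - N j) (N j) fun y =>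
        S.rho j a + 2 * |dt (S.m y a) (S.m j a - S.m y a)| :=
      av_mono fun y _ _ => by
        have h1 := sq2_nn (S.m j a - S.m y a)
        rw [sq2_sub] at h1
        have := neg_abs_le (dt (S.m y a) (S.m j a - S.m y a))
        simp only [Sys.rho]
        linarith
    rw [av_add, av_mul, av_const (H.win.N1 j)] at e1
    have e2 := le_max_left (S.rho j a - c j) 0
    have e2' := le_max_right (S.rho j a - c j) 0
    have e3 := neg_abs_le (av (j - N j) (N j) (fun y => S.rho y a) - c j)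
    have e4 := abs_nonneg (av (j - N j) (N j) (fun y => S.rho y a) - c j)
    have e5 : 0 ≤ av (j - N j) (N j) fun y => |dt (S.m y a) (S.m j a - S.m y a)| :=
      av_nn fun _ => abs_nonneg _
    exact abs_le.2 ⟨by linarith, by linarith⟩
  · nlinarith [mul_nonneg (sqrt_nonneg Λ) (H.t0 j).le]

end Cx

end Sy57

open Sy57 in
/-- **(Q2)** -/
theorem syncS_of57 (nb : NbS) (qv : QvS) (bl : BlpS) : SyncS := by
  intro i K hi
  obtain ⟨C1, C11, hC⟩ := bl i
  set A0 : ℝ := 16 * (2 ^ i : ℕ) * (48 * (2 * C1 + |K| + 7) * |K| + 8) with hA0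
  have K0 := abs_nonneg K
  have A01 : 1 ≤ A0 := by
    have : (1 : ℝ) ≤ (2 ^ i : ℕ) := by exact_mod_cast Nat.two_pow_pos i
    have h2 : 0 ≤ 48 * (2 * C1 + |K| + 7) * |K| := by positivity
    nlinarith
  refine ⟨2 * (2 * C1 + |K| + 7) * A0 ^ 2, ?_, ?_⟩
  · exact one_le_mul_of_one_le_of_one_le (by linarith) (one_le_pow₀ A01)
  intro α ι _ _ S L J j0 j1 v l2 l3 e P Z N τ c g ok good win e0 ev el P1 PL Z1 hZ j r1 r2
  have := ok.prob
  have H : Cx S (2 ^ i) L j0 j1 v l2 l3 e P K C1 N τ c g :=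
    ⟨nb, qv, ok, good, win, by
      calc 2 = 2 ^ 1 := rfl
        _ ≤ 2 ^ i := Nat.pow_le_pow_right two_pos hi, e0, ev, el, P1, PL, C11, hC α ι S ok⟩
  rw [abs_of_nonneg (zero_le_one.trans win.K1)] at hA0 ⊢
  have A1 : 1 ≤ A0 * P := one_le_mul_of_one_le_of_one_le A01 P1
  have hD := H.iter (A := A0 * P) (by rw [hA0]; ring) A1 Z1 hZ J le_rfl
  rw [Nat.sub_self, pow_zero, pow_one] at hD
  have hΛ : 1 ≤ (A0 * P) ^ 2 * Z := one_le_mul_of_one_le_of_one_le (one_le_pow₀ A1) Z1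
  have K1 := win.K1
  refine ⟨nb_le (H.two hD hΛ (by omega) ⟨r1, r2⟩) ?_,
    nb_le (H.aA hD hΛ (by omega) ⟨r1, r2⟩ (Or.inl rfl)) ?_⟩
  · refine mul_le_mul_of_nonneg_right ?_ (H.t0 j).le
    have h1 : √((A0 * P) ^ 2 * Z) ≤ A0 ^ 2 * P * Z := by
      refine Real.sqrt_le_iff.2 ⟨by positivity, ?_⟩
      have h2 : A0 ^ 2 * Z ≤ (A0 ^ 2 * Z) ^ 2 := by
        have : 1 ≤ A0 ^ 2 * Z := one_le_mul_of_one_le_of_one_le (one_le_pow₀ A01) Z1
        nlinarith
      nlinarith [mul_le_mul_of_nonneg_right h2 (sq_nonneg P)]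
    nlinarith [mul_le_mul_of_nonneg_left h1 (by positivity : 0 ≤ 2 * (2 * C1 + K + 7))]
  · refine mul_le_mul_of_nonneg_right ?_ (mul_nonneg (by have := win.l30; positivity)
      (zero_le_one.trans (H.k1 j)))
    have : 0 ≤ (A0 * P) ^ 2 * Z := by positivity
    nlinarith [mul_le_mul_of_nonneg_right (by linarith : (1 : ℝ) ≤ 2 * C1 + K + 7) this]

end Crest.Agent.T156.Q57
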