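import Crest.Agent.T156.QDef_57
import Crest.Agent.T156.LpT_43
import Crest.Agent.T156.Lp_12
import Crest.Agent.T156.QOne_33

/-!
# Row 156, block Q: a cascade is a `Q57.Sys` (helper98)

`mu w L h` is the path law of the noise, `qsys w L l₀ h ν` the system of the node means of the
features of `l₀` at the nodes `ν 0 < ν 1 < …`; `qsys_ok` is `Sys.Ok`.
-/

set_option autoImplicit false
set_option maxHeartbeats 400000

noncomputable section

namespace Crest.Agent.T156.Cas.QSys98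

open MeasureTheory Real Set Filter Topology
open Crest.Agent.T157.E Crest.Agent.T157.Casc Crest.Agent.T157.SL
open Crest.Agent.T156.Cas.Sy41 Crest.Agent.T156.Q57

variable {Ω : Type} [Fintype Ω] {w : Ω → ℝ}

/-- density of the noise -/
def dn (w : Ω → ℝ) (L : List (Lv Ω)) (h : Ω → ℝ) (g : NI L → ℝ) : ℝ := ∑ x, den w L h g x

theorem dn_nonneg (hw : Wt w) (L : List (Lv Ω)) (h : Ω → ℝ) (g : NI L → ℝ) : 0 ≤ dn w L h g :=
  Finset.sum_nonneg fun x _ => Pe.den_nonneg hw L h g x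

theorem eg_dn (hw : Wt w) (L : List (Lv Ω)) (h : Ω → ℝ) : Eg (dn w L h) :=
  Eg.sum _ fun x _ => Pe.eg_den hw L h x

/-- the path law of the noise -/
def mu (w : Ω → ℝ) (L : List (Lv Ω)) (h : Ω → ℝ) : Measure (NI L → ℝ) :=
  (gv (NI L)).withDensity fun g => ((dn w L h g).toNNReal : ENNReal)

/-- **dictionary**: every integral is a `pE` -/
theorem int_mu (hw : Wt w) (L : List (Lv Ω)) (h : Ω → ℝ) (F : (NI L → ℝ) → ℝ) :
    ∫ g, F g ∂mu w L h = pE w L h fun g _ => F g := by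
  rw [mu, integral_withDensity_eq_integral_smul
    (eg_dn hw L h).cont.measurable.real_toNNReal, pE]
  refine integral_congr_ae (ae_of_all _ fun g => ?_)
  simp only [NNReal.smul_def, smul_eq_mul, Real.coe_toNNReal _ (dn_nonneg hw L h g)]
  rw [dn, Finset.sum_mul]

theorem prob_mu (hw : Wt w) (L : List (Lv Ω)) (h : Ω → ℝ) : IsProbabilityMeasure (mu w L h) := by
  refine ⟨?_⟩
  have h1 : ∫ g, dn w L h g ∂gv (NI L) = 1 := by
    have := pE_const hw L h 1
    simpa only [pE, mul_one, dn] using this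
  rw [mu, withDensity_apply _ MeasurableSet.univ, Measure.restrict_univ]
  have := ofReal_integral_eq_lintegral_ofReal (Pe.eg_int (eg_dn hw L h))
    (ae_of_all _ (dn_nonneg hw L h))
  rw [h1, ENNReal.ofReal_one] at this
  exact this.symm

theorem integrable_mu (hw : Wt w) (L : List (Lv Ω)) (h : Ω → ℝ) {F : (NI L → ℝ) → ℝ} (hF : Eg F) :
    Integrable F (mu w L h) := by
  rw [mu, integrable_withDensity_iff_integrable_smul (eg_dn hw L h).cont.measurable.real_toNNReal]
  refine (Pe.eg_int ((eg_dn hw L h).mul hF)).congr (ae_of_all _ fun g => ?_)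
  simp only [NNReal.smul_def, smul_eq_mul, Real.coe_toNNReal _ (dn_nonneg hw L h g)]

theorem int_EE (hw : Wt w) (L : List (Lv Ω)) (h : Ω → ℝ) {F : Lp12.Pth Ω → ℝ} (hF : Lp12.EP F) :
    ∫ g, F (fun j => st L j h g) ∂mu w L h = Lp12.EE w L h F := by
  rw [int_mu hw, Lp12.EE_eq hw L h hF]

theorem int_node (hw : Wt w) (L : List (Lv Ω)) (h : Ω → ℝ) (j : ℕ) {Φ : (Ω → ℝ) → ℝ} (hΦ : Eg Φ) :
    ∫ g, Φ (st L j h g) ∂mu w L h = node w L j Φ h := by
  rw [int_mu hw]; exact Pe.pE_node1 hw hΦ L j h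

/-- the system of node means along the nodes `ν j` -/
def qsys (w : Ω → ℝ) (L : List (Lv Ω)) (l₀ : Lv Ω) (h : Ω → ℝ) (ν : ℕ → ℕ) :
    Sys (NI L → ℝ) l₀.ι where
  μ := mu w L h
  m := fun j g => mv w (L.drop (ν j)) l₀ (st L (ν j) h g)
  A := fun j g i k => Hb w (L.drop (ν j)) (st L (ν j) h g) (fun x => l₀.A x i) fun x => l₀.A x k
  dm := fun j => cf .one L () (ν j)

section dict
variable (w) (L : List (Lv Ω)) (l₀ : Lv Ω) (h : Ω → ℝ) (ν : ℕ → ℕ)

theorem qsys_mu : (qsys w L l₀ h ν).μ = mu w L h := rfl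

theorem qsys_m (j : ℕ) (g : NI L → ℝ) :
    (qsys w L l₀ h ν).m j g = mv w (L.drop (ν j)) l₀ (st L (ν j) h g) := rfl

theorem qsys_rho (j : ℕ) (g : NI L → ℝ) :
    (qsys w L l₀ h ν).rho j g = rr w (L.drop (ν j)) l₀ (st L (ν j) h g) := rfl

theorem qsys_B (j : ℕ) (g : NI L → ℝ) (z : l₀.ι → ℝ) :
    (qsys w L l₀ h ν).B j g z = Bq w (L.drop (ν j)) l₀ (st L (ν j) h g) z :=
  (Hb_fld _ l₀ _ z z).symm

theorem qsys_aa (j : ℕ) (g : NI L → ℝ) :
    (qsys w L l₀ h ν).aa j g = mAm w (L.drop (ν j)) l₀ (st L (ν j) h g) :=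
  qsys_B w L l₀ h ν j g _

theorem qsys_dm {j : ℕ} (hj : 1 ≤ ν j) : (qsys w L l₀ h ν).dm j = dm L 0 (ν j) := by
  show cf .one L () (ν j) = _
  obtain ⟨k, e⟩ := Nat.exists_eq_add_of_le' hj
  rw [e]; rfl

theorem qsys_dm_zero {j : ℕ} (hj : ν j = 0) : (qsys w L l₀ h ν).dm j = 0 := by
  show cf .one L () (ν j) = _
  rw [hj]; rfl

variable {w}

theorem qsys_r (hw : Wt w) (j : ℕ) : (qsys w L l₀ h ν).r j = rho w L l₀ h (ν j) :=
  int_node hw L h (ν j) (eg_rr hw _ l₀)

theorem qsys_int_aa (hw : Wt w) (j : ℕ) :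
    ∫ g, (qsys w L l₀ h ν).aa j g ∂(qsys w L l₀ h ν).μ = Q33.aa w L l₀ h (ν j) := by
  simp only [qsys_aa]
  exact int_node hw L h (ν j) (eg_mAm hw _ l₀)

theorem cont_m (hw : Wt w) (j : ℕ) : Continuous ((qsys w L l₀ h ν).m j) :=
  continuous_pi fun i => (Pe.eg_st L h (ν j) (eg_mv hw _ l₀ i)).cont

end dict

theorem cf_zero (L : List (Lv Ω)) {j : ℕ} (hj : L.length < j) : cf .one L () j = 0 := by
  obtain ⟨k, rfl⟩ : ∃ k, j = k + 1 := ⟨j - 1, by omega⟩
  show dm L 0 (k + 1) = 0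
  have h1 : L[k + 1]? = none := List.getElem?_eq_none (by omega)
  have h2 : L[k]? = none := List.getElem?_eq_none (by omega)
  simp [dm, exP, T157.Casc.ex, h1, h2]

/-- a continuous function of the stopped path of means is admissible -/
theorem eg_path (hw : Wt w) (L : List (Lv Ω)) (l₀ : Lv Ω) (h : Ω → ℝ) (ν : ℕ → ℕ) (τ : ℕ → ℕ)
    {φ : (ℕ → l₀.ι → ℝ) → ℝ} (hφ : Continuous φ) :
    Eg fun g => φ fun k => (qsys w L l₀ h ν).m (τ k) g := by
  have hK : IsCompact (Set.pi univ fun _ : ℕ => Set.pi univ fun i : l₀.ι =>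
      Icc (-∑ x, |l₀.A x i|) (∑ x, |l₀.A x i|)) :=
    isCompact_univ_pi fun _ => isCompact_univ_pi fun _ => isCompact_Icc
  obtain ⟨C, hC⟩ := hK.exists_bound_of_continuousOn hφ.continuousOn
  refine Eg.of_bdd (hφ.comp (continuous_pi fun k => cont_m L l₀ h ν hw (τ k))) C fun g => hC _ ?_
  exact fun k _ i _ => abs_le.1 (abs_mv_le hw _ l₀ _ i)

theorem mart (hw : Wt w) (L : List (Lv Ω)) (l₀ : Lv Ω) (h : Ω → ℝ) {s t : ℕ} (hst : s ≤ t)
    {G : (NI L → ℝ) → ℝ} (hG : Eg G) (aG : LpR43.Ad L s G) (i : l₀.ι) :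
    pE w L h (fun g _ => G g * mv w (L.drop t) l₀ (st L t h g) i) =
      pE w L h fun g _ => G g * mv w (L.drop s) l₀ (st L s h g) i := by
  rw [LpR43.pE_markov hw hst L h hG aG (eg_mv hw (L.drop t) l₀ i)]
  have e : L.drop t = (L.drop s).drop (t - s) := by
    rw [List.drop_drop]; congr 1; omega
  simp only [e, node_mv hw]

/-- sums over the chosen nodes as sums over all nodes -/
theorem sum_nodes (L : List (Lv Ω)) {ν : ℕ → ℕ} (hν : Function.Injective ν) (J : Finset ℕ)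
    (f : ℕ → ℝ) :
    ∑ j ∈ Finset.range (L.length + 1), cf .one L () j *
      (∑ k ∈ J, if ν k = j then f k else 0) = ∑ k ∈ J, cf .one L () (ν k) * f k := by
  simp only [Finset.mul_sum]
  rw [Finset.sum_comm]
  refine Finset.sum_congr rfl fun k _ => ?_
  simp only [mul_ite, mul_zero, Finset.sum_ite_eq, Finset.mem_range]
  split_ifs with hk
  · rfl
  · rw [cf_zero L (by omega), zero_mul]

theorem bl (hw : Wt w) {L : List (Lv Ω)} (hL : Mono 0 L) (h : Ω → ℝ) {T : Set (Equiv.Perm Ω)}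
    (hT : ∀ τ ∈ T, Sym w L h τ) (htr : ∀ x y, w x ≠ 0 → w y ≠ 0 → ∃ τ ∈ T, τ x = y) (l₀ : Lv Ω)
    (h₀ : ∀ τ ∈ T, ∀ x y, l₀.cov (τ x) (τ y) = l₀.cov x y) {G G' : ℕ → ℝ → ℝ}
    (hG : ∀ j t, HasDerivAt (G j) (G' j t) t) (hG' : ∀ j, Continuous (G' j)) {Ψ Ψ' : ℝ → ℝ}
    (hΨ : ∀ t, HasDerivAt Ψ (Ψ' t) t) (hΨ' : Continuous Ψ') :
    pE w L h (fun g _ => Ψ (∑ j ∈ Finset.range (L.length + 1),
        cf .one L () j * G j (rr w (L.drop j) l₀ (st L j h g))) ^ 2) -
      pE w L h (fun g _ => Ψ (∑ j ∈ Finset.range (L.length + 1),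
        cf .one L () j * G j (rr w (L.drop j) l₀ (st L j h g)))) ^ 2 ≤
      pE w L h fun g _ => Ψ' (∑ j ∈ Finset.range (L.length + 1),
        cf .one L () j * G j (rr w (L.drop j) l₀ (st L j h g))) ^ 2 *
        (4 * ∑ j ∈ Finset.range (L.length + 1), cf .one L () j *
          (G' j (rr w (L.drop j) l₀ (st L j h g)) ^ 2 * mAm w (L.drop j) l₀ (st L j h g))) := by
  have cG : ∀ j, Continuous (G j) := fun j =>
    continuous_iff_continuousAt.2 fun t => (hG j t).continuousAt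
  have cΨ : Continuous Ψ := continuous_iff_continuousAt.2 fun t => (hΨ t).continuousAt
  have e1 := fun j => eg_comp_rr hw (L.drop j) l₀ (cG j)
  have e2 := fun j => eg_comp_rr hw (L.drop j) l₀ (hG' j)
  have D := Dir.nodes (w := w) (s := .one) (L := L) (h := h)
    (f := fun _ j z => G j (rr w (L.drop j) l₀ z))
    (u := fun _ j z x => 2 * G' j (rr w (L.drop j) l₀ z) * l₀.fld (mv w (L.drop j) l₀ z) x)
    (fun _ j y => ((e2 j).const_mul 2).mul (eg_fld l₀ (eg_mv hw _ l₀) y))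
    fun _ j => (gr_comp (gr_rr hw (L.drop j) l₀) (hG j) (e1 j) (e2 j)).congr fun y z => by
      rw [Finset.mul_sum]; exact Finset.sum_congr rfl fun _ _ => by ring
  have su : ∀ Φ : Unit → ℕ → ℝ, ∑ a : Sh.one.Lf, ∑ j ∈ Finset.range (L.length + 1),
      cf .one L a j * Φ a j = ∑ j ∈ Finset.range (L.length + 1), cf .one L () j * Φ () j := by
    intro Φ
    show ∑ a : Unit, _ = _
    rw [Fintype.sum_unique]
  rw [funext fun g => su fun a j => G j (rr w (L.drop j) l₀ (stT .one L h g a j))] at D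
  have ep : ∀ {φ : ℝ → ℝ}, Continuous φ → Eg fun g : NI L → ℝ =>
      φ (∑ j ∈ Finset.range (L.length + 1),
        cf .one L () j * G j (rr w (L.drop j) l₀ (st L j h g))) := fun {φ} hφ =>
    eg_path hw L l₀ h id id (φ := fun p => φ (∑ j ∈ Finset.range (L.length + 1),
      cf .one L () j * G j (∑ i, p j i ^ 2)))
      (hφ.comp (continuous_finset_sum _ fun j _ => continuous_const.mul ((cG j).comp
        (continuous_finset_sum _ fun i _ =>
          ((continuous_apply i).comp (continuous_apply j)).pow 2))))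
  have D2 := D.comp hΨ (ep cΨ) (ep hΨ')
  have key := bl_pE hw hL h hT htr
    (F := fun p => Ψ (∑ j ∈ Finset.range (L.length + 1), cf .one L () j *
      G j (rr w (L.drop j) l₀ (p j))))
    (cΨ.measurable.comp (Finset.measurable_sum _ fun j _ =>
      ((e1 _).cont.measurable.comp (measurable_pi_apply _)).const_mul _)) (fun τ hτ p => ?_) D2
  · refine key.trans (le_of_eq ?_)
    congr 1
    funext g _
    simp only [HT, mul_zero, sq (0 : ℝ), Finset.sum_const_zero, add_zero, ← mul_assoc, Hb_smul]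
    rw [Finset.mul_sum]
    refine (Fintype.sum_unique (ι := Unit) _).trans (Finset.sum_congr rfl fun _ _ => ?_)
    simp only [stT, mAm]
    exact (by intros; ring : ∀ c a b d : ℝ, c * (a * 2 * b) ^ 2 * d = a ^ 2 * 4 * (c * b ^ 2 * d)) _ _ _ _
  · congr 1
    refine Finset.sum_congr rfl fun j _ => ?_
    rw [rr_eq, rr_eq]
    congr 2
    have e := fun x => (symStmt Ω w hw L h τ (hT τ hτ)).2.1 j (fun y => p j (τ.symm y)) x
    simp only [Equiv.symm_apply_apply] at e
    simp only [qf, e]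
    rw [← Equiv.sum_comp τ]
    refine Finset.sum_congr rfl fun x _ => ?_
    rw [← Equiv.sum_comp τ]
    simp only [h₀ τ hτ]

/-- **a symmetric cascade is an `Ok` system** -/
theorem qsys_ok (hw : Wt w) {L : List (Lv Ω)} (hL : Mono 0 L) (h : Ω → ℝ) {T : Set (Equiv.Perm Ω)}
    (hT : ∀ τ ∈ T, Sym w L h τ) (htr : ∀ x y, w x ≠ 0 → w y ≠ 0 → ∃ τ ∈ T, τ x = y) (l₀ : Lv Ω)
    (h₀ : ∀ τ ∈ T, ∀ x y, l₀.cov (τ x) (τ y) = l₀.cov x y) (h1 : ∀ x, l₀.cov x x ≤ 1)
    {ν : ℕ → ℕ} (hν : StrictMono ν) : (qsys w L l₀ h ν).Ok where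
  prob := prob_mu hw L h
  mm := fun j i => (Pe.eg_st L h (ν j) (eg_mv hw _ l₀ i)).cont.measurable
  mA := fun j i k => (Pe.eg_st L h (ν j) (Hess87.eg_Hb hw _ _ _)).cont.measurable
  bd := fun j g => Q33.rr_le hw _ h1 _
  psd := fun j g z => by
    rw [qsys_B]
    exact Hess87.Hb_nonneg hw _ _ _ ((Sy41.mono_drop _ hL).nn le_rfl)
  bdB := fun j g z => by
    rw [qsys_B]
    have := Bq_le hw (Sy41.mono_drop (ν j) hL) l₀ (Q33.fld_sq_le' h1) (st L (ν j) h g) z
    rwa [one_mul] at this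
  dm0 := fun j => cf_nonneg .one L 0 le_rfl hL () (ν j)
  mart := fun t j htj φ hφ => by
    have eG : ∀ i, Eg fun g => φ (fun k => (qsys w L l₀ h ν).m (min k t) g) i := fun i =>
      eg_path hw L l₀ h ν (fun k => min k t) ((continuous_apply i).comp hφ)
    have aG : ∀ i, LpR43.Ad L (ν t) fun g => φ (fun k => (qsys w L l₀ h ν).m (min k t) g) i :=
      fun i => (LpR43.Ad.pi fun k => LpR43.Ad.st L (hν.monotone (min_le_right k t)) h
        (mv w (L.drop (ν (min k t))) l₀)).comp fun p => φ p i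
    have em : ∀ j i, Eg fun g => (qsys w L l₀ h ν).m j g i := fun j i =>
      Pe.eg_st L h (ν j) (eg_mv hw _ l₀ i)
    simp only [dt, Pi.sub_apply, mul_sub, qsys_mu]
    rw [integral_finset_sum _ fun i _ => integrable_mu hw L h
      (((eG i).mul (em j i)).sub ((eG i).mul (em t i)))]
    refine Finset.sum_eq_zero fun i _ => ?_
    rw [integral_sub (integrable_mu hw L h ((eG i).mul (em j i)))
      (integrable_mu hw L h ((eG i).mul (em t i))), int_mu hw, int_mu hw, sub_eq_zero]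
    exact mart hw L l₀ h (hν.monotone htj) (eG i) (aG i) i
  bl := fun J g g' Ψ Ψ' hg hg' hΨ hΨ' => by
    have key := bl hw hL h hT htr l₀ h₀ (G := fun j t => ∑ k ∈ J, if ν k = j then g k t else 0)
      (G' := fun j t => ∑ k ∈ J, if ν k = j then g' k t else 0)
      (fun j t => HasDerivAt.fun_sum fun k _ => by
        split_ifs
        · exact hg k t
        · exact hasDerivAt_const t 0)
      (fun j => continuous_finset_sum _ fun k _ => by
        split_ifs
        · exact hg' k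
        · exact continuous_const) hΨ hΨ'
    have e1 : ∀ a : NI L → ℝ, ∑ j ∈ Finset.range (L.length + 1), cf .one L () j *
        (∑ k ∈ J, if ν k = j then g k (rr w (L.drop j) l₀ (st L j h a)) else 0) =
        ∑ k ∈ J, (qsys w L l₀ h ν).dm k * g k ((qsys w L l₀ h ν).rho k a) := fun a => by
      refine Eq.trans (Finset.sum_congr rfl fun j _ => congrArg _
        (Finset.sum_congr rfl fun k _ => ?_)) (sum_nodes L hν.injective J _)
      split_ifs with hk
      · rw [← hk]; rfl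
      · rfl
    have e2 : ∀ a : NI L → ℝ, ∑ j ∈ Finset.range (L.length + 1), cf .one L () j *
        ((∑ k ∈ J, if ν k = j then g' k (rr w (L.drop j) l₀ (st L j h a)) else 0) ^ 2 *
          mAm w (L.drop j) l₀ (st L j h a)) =
        ∑ k ∈ J, (qsys w L l₀ h ν).dm k *
          (g' k ((qsys w L l₀ h ν).rho k a) ^ 2 * (qsys w L l₀ h ν).aa k a) := fun a => by
      refine Eq.trans (Finset.sum_congr rfl fun j _ => congrArg _ ?_) (sum_nodes L hν.injective J _)
      by_cases hj : ∃ k ∈ J, ν k = j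
      · obtain ⟨k, hk, rfl⟩ := hj
        simp only [hν.injective.eq_iff, Finset.sum_ite_eq', hk, if_true, qsys_aa, qsys_rho]
      · push Not at hj
        rw [Finset.sum_eq_zero fun k hk => if_neg (hj k hk),
          Finset.sum_eq_zero fun k hk => if_neg (hj k hk)]
        ring
    simp only [e1, e2] at key
    simp only [qsys_mu, int_mu hw]
    exact key

end Crest.Agent.T156.Cas.QSys98
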