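import Crest.Agent.T156.QDef_57

/-!
# Row 156, block Q (helper30): the leaves `CoverS`, `TolS`, `JointS`
-/

set_option autoImplicit false

noncomputable section

namespace Crest.Agent.T156.Q57

open MeasureTheory Real Finset

theorem coverS_30 : CoverS := by
  intro N U b0 b1 f G hN hf hG hw
  induction hd : b1 - b0 using Nat.strong_induction_on generalizing b0 with
  | _ d ih =>
    rcases le_or_gt b1 b0 with h | h
    · rw [Ico_eq_empty (not_lt.2 h), sum_empty]
      exact sum_nonneg fun y _ => hG y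
    · have h1 := (hN b0).1
      have h2 := (hN b0).2
      have e1 := ih (b1 - (b0 + N b0)) (by omega) (b0 + N b0)
        (fun j hj hj' => hw j (by omega) hj') rfl
      have e2 := hw b0 le_rfl h
      have e3 : ∑ y ∈ Ico b0 b1, f y ≤
          ∑ y ∈ Ico b0 (b0 + N b0), f y + ∑ y ∈ Ico (b0 + N b0) b1, f y := by
        rcases le_or_gt (b0 + N b0) b1 with h3 | h3
        · exact (sum_Ico_consecutive f (by omega) h3).ge
        · exact (sum_le_sum_of_subset_of_nonneg (Ico_subset_Ico_right h3.le)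
            fun y _ _ => hf y).trans (le_add_of_nonneg_right (sum_nonneg fun y _ => hf y))
      have e4 := sum_Ico_consecutive G (m := b0) (n := b0 + N b0) (k := b1 + U) (by omega)
        (by omega)
      linarith

namespace Tol30

theorem pers {f : ℕ → ℝ} {v : ℝ} (hf : ∀ j, f j - v ≤ f (j + 1)) (i k : ℕ) :
    f i - k * v ≤ f (i + k) := by
  induction k with
  | zero => simp
  | succ k ih =>
    have := hf (i + k)
    rw [← add_assoc]
    push_cast
    linarith

/-- the number of nodes within distance `ρ` -/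
theorem cnt (s : Finset ℕ) (k : ℕ) {ρ : ℝ} (hρ : 0 ≤ ρ) :
    ((s.filter fun j : ℕ => |(k : ℝ) - j| ≤ ρ).card : ℝ) ≤ 2 * ρ + 1 := by
  have h1 : (s.filter fun j : ℕ => |(k : ℝ) - j| ≤ ρ) ⊆ Icc (k - ⌊ρ⌋₊) (k + ⌊ρ⌋₊) := by
    intro j hj
    have h := abs_le.1 (mem_filter.1 hj).2
    rw [mem_Icc]
    constructor
    · rcases le_or_gt k j with h2 | h2
      · omega
      · have : k - j ≤ ⌊ρ⌋₊ := Nat.le_floor (by rw [Nat.cast_sub h2.le]; linarith [h.2])
        omega
    · rcases le_or_gt j k with h2 | h2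
      · omega
      · have : j - k ≤ ⌊ρ⌋₊ := Nat.le_floor (by rw [Nat.cast_sub h2.le]; linarith [h.1])
        omega
  have h2 : (s.filter fun j : ℕ => |(k : ℝ) - j| ≤ ρ).card ≤ 2 * ⌊ρ⌋₊ + 1 :=
    (card_le_card h1).trans (by rw [Nat.card_Icc]; omega)
  have h3 : (((s.filter fun j : ℕ => |(k : ℝ) - j| ≤ ρ).card : ℕ) : ℝ) ≤ 2 * (⌊ρ⌋₊ : ℝ) + 1 := by
    exact_mod_cast h2
  linarith [Nat.floor_le hρ]

/-- a deviation persists -/
theorem win {f : ℕ → ℝ} {v u : ℝ} {j0 j1 H i j : ℕ} (hv : 0 < v) (hf : ∀ j, f j - v ≤ f (j + 1))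
    (hH : H ≤ j0) (hi0 : j0 ≤ i) (hi1 : i ≤ j1) (hb : |f i| ≤ H * v) (hu : 0 < u) (h1 : u ≤ |f i|)
    (h2 : |(i : ℝ) - j| * v ≤ 32 * u) :
    f i ^ 2 ≤ 8 * (v / u) * ∑ k ∈ Icc (j0 - H) (j1 + H),
      if |(k : ℝ) - j| ≤ 33 * u / v then f k ^ 2 else 0 := by
  set N := ⌊u / (2 * v)⌋₊ with hN
  have n1 : (N : ℝ) * v ≤ u / 2 := by
    have := Nat.floor_le (a := u / (2 * v)) (by positivity)
    rw [← hN, le_div_iff₀ (by positivity)] at this
    linarith
  have n2 : u / 2 < (N + 1) * v := by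
    have := Nat.lt_floor_add_one (u / (2 * v))
    rw [← hN, div_lt_iff₀ (by positivity)] at this
    linarith
  have n3 : N ≤ H := by
    have : (N : ℝ) * v ≤ H * v := by linarith
    exact_mod_cast le_of_mul_le_mul_right this hv
  obtain ⟨P, hP, hc, hk⟩ : ∃ P : Finset ℕ, P ⊆ Icc (j0 - H) (j1 + H) ∧ P.card = N + 1 ∧
      ∀ k ∈ P, |(k : ℝ) - i| ≤ N ∧ f i ^ 2 / 4 ≤ f k ^ 2 := by
    rcases le_total 0 (f i) with h | h
    · refine ⟨Icc i (i + N), Icc_subset_Icc (by omega) (by omega), by rw [Nat.card_Icc]; omega,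
        fun k hk => ?_⟩
      obtain ⟨k1, k2⟩ := mem_Icc.1 hk
      obtain ⟨t, rfl⟩ := Nat.exists_eq_add_of_le k1
      have t1 : (t : ℝ) ≤ N := by exact_mod_cast (by omega : t ≤ N)
      have t0 : (0 : ℝ) ≤ t := Nat.cast_nonneg t
      have := pers hf i t
      rw [abs_of_nonneg h] at h1
      have t2 : (t : ℝ) * v ≤ N * v := mul_le_mul_of_nonneg_right t1 hv.le
      refine ⟨by push_cast; rw [add_sub_cancel_left, abs_of_nonneg t0]; exact t1, ?_⟩
      have : f i / 2 ≤ f (i + t) := by linarith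
      nlinarith
    · refine ⟨Icc (i - N) i, Icc_subset_Icc (by omega) (by omega), by rw [Nat.card_Icc]; omega,
        fun k hk => ?_⟩
      obtain ⟨k1, k2⟩ := mem_Icc.1 hk
      obtain ⟨t, rfl⟩ := Nat.exists_eq_add_of_le k2
      have t1 : (t : ℝ) ≤ N := by exact_mod_cast (by omega : t ≤ N)
      have t0 : (0 : ℝ) ≤ t := Nat.cast_nonneg t
      have := pers hf k t
      rw [abs_of_nonpos h] at h1
      have t2 : (t : ℝ) * v ≤ N * v := mul_le_mul_of_nonneg_right t1 hv.le
      refine ⟨by push_cast; rw [abs_sub_comm, add_sub_cancel_left, abs_of_nonneg t0]; exact t1, ?_⟩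
      have : f k ≤ f (k + t) / 2 := by linarith
      nlinarith
  have s1 : ∑ k ∈ P, f i ^ 2 / 4 ≤ ∑ k ∈ P, if |(k : ℝ) - j| ≤ 33 * u / v then f k ^ 2 else 0 := by
    refine sum_le_sum fun k hkP => ?_
    obtain ⟨a1, a2⟩ := hk k hkP
    rw [if_pos]
    · exact a2
    · rw [le_div_iff₀ hv]
      have a3 : |(k : ℝ) - j| ≤ |(k : ℝ) - i| + |(i : ℝ) - j| := abs_sub_le _ _ _
      have a4 : |(k : ℝ) - j| * v ≤ (N + |(i : ℝ) - j|) * v :=
        mul_le_mul_of_nonneg_right (by linarith) hv.le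
      nlinarith
  have s2 := s1.trans (sum_le_sum_of_subset_of_nonneg hP fun k _ _ => by split_ifs <;> positivity)
  rw [sum_const, hc, nsmul_eq_mul] at s2
  push_cast at s2
  set W := ∑ k ∈ Icc (j0 - H) (j1 + H), if |(k : ℝ) - j| ≤ 33 * u / v then f k ^ 2 else 0
  rw [mul_comm 8, mul_assoc, div_mul_eq_mul_div, le_div_iff₀ hu]
  have s3 : f i ^ 2 * (u / 2) ≤ f i ^ 2 * ((N + 1) * v) :=
    mul_le_mul_of_nonneg_left n2.le (sq_nonneg _)
  have s4 := mul_le_mul_of_nonneg_left s2 hv.le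
  nlinarith

end Tol30

open Tol30 in
theorem tolS_30 : TolS := by
  refine ⟨536, by norm_num, fun r c v l0 j0 j1 H Q hv hl hr hc hH hb hQ => ?_⟩
  set f : ℕ → ℝ := fun j => r j - c j with hf
  have hf1 : ∀ j, f j - v ≤ f (j + 1) := fun j => by
    have := hr j; have := hc j; simp only [hf]; linarith
  have l0p : 0 < l0 := by linarith
  have hHv : 0 ≤ (H : ℝ) * v := by positivity
  refine ⟨fun j => (Icc j0 j1).fold max l0 fun i => |f i| - |(i : ℝ) - j| * v / 16,
    fun j => ⟨(le_fold_max _).2 (.inl le_rfl), (fold_max_le _).2 ⟨by linarith, fun i hi => ?_⟩⟩,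
    fun j h0 h1 => (le_fold_max _).2 (.inr ⟨j, mem_Icc.2 ⟨h0, h1⟩, by simp [hf]⟩), ?_, ?_⟩
  · have := hb i (mem_Icc.1 hi).1 (mem_Icc.1 hi).2
    have : 0 ≤ |(i : ℝ) - j| * v / 16 := by positivity
    simp only [hf]; linarith
  · have key : ∀ i j : ℕ, ((Icc j0 j1).fold max l0 fun k => |f k| - |(k : ℝ) - i| * v / 16) ≤
        ((Icc j0 j1).fold max l0 fun k => |f k| - |(k : ℝ) - j| * v / 16) +
          |(i : ℝ) - j| * v / 16 := by
      intro i j
      have p0 : 0 ≤ |(i : ℝ) - j| * v / 16 := by positivity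
      refine (fold_max_le _).2 ⟨?_, fun k hk => ?_⟩
      · have : l0 ≤ (Icc j0 j1).fold max l0 fun k => |f k| - |(k : ℝ) - j| * v / 16 :=
          (le_fold_max _).2 (.inl le_rfl)
        linarith
      · have a1 : |f k| - |(k : ℝ) - j| * v / 16 ≤
            (Icc j0 j1).fold max l0 fun k => |f k| - |(k : ℝ) - j| * v / 16 :=
          (le_fold_max _).2 (.inr ⟨k, hk, le_rfl⟩)
        have a2 : |(k : ℝ) - j| * v ≤ (|(k : ℝ) - i| + |(i : ℝ) - j|) * v :=
          mul_le_mul_of_nonneg_right (abs_sub_le _ _ _) hv.le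
        linarith
    intro i j
    have a := key i j
    have b := key j i
    rw [abs_sub_comm (j : ℝ)] at b
    exact abs_le.2 ⟨by linarith, by linarith⟩
  · set S := Icc (j0 - H) (j1 + H) with hS
    set W : ℕ → ℕ → ℝ := fun q j => 8 * (v / (2 ^ q * l0)) * ∑ k ∈ S,
      if |(k : ℝ) - j| ≤ 33 * (2 ^ q * l0) / v then f k ^ 2 else 0 with hW
    have W0 : ∀ q j, 0 ≤ W q j := fun q j => mul_nonneg (by positivity)
      (sum_nonneg fun k _ => by split_ifs <;> positivity)
    have pt : ∀ j : ℕ, ((Icc j0 j1).fold max l0 fun i => |f i| - |(i : ℝ) - j| * v / 16) ^ 2 ≤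
        l0 ^ 2 + ∑ q ∈ range (Q + 1), W q j := by
      intro j
      have z0 : 0 ≤ ∑ q ∈ range (Q + 1), W q j := sum_nonneg fun q _ => W0 q j
      have z1 : l0 ≤ √(l0 ^ 2 + ∑ q ∈ range (Q + 1), W q j) :=
        le_sqrt_of_sq_le (by linarith)
      have z2 : l0 ≤ (Icc j0 j1).fold max l0 fun i => |f i| - |(i : ℝ) - j| * v / 16 :=
        (le_fold_max _).2 (.inl le_rfl)
      refine (Real.le_sqrt (by linarith) (by positivity)).1 ((fold_max_le _).2 ⟨z1, fun i hi => ?_⟩)
      rcases le_or_gt (|f i| - |(i : ℝ) - j| * v / 16) l0 with h | h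
      · exact h.trans z1
      have p0 : 0 ≤ |(i : ℝ) - j| * v / 16 := by positivity
      obtain ⟨q, q1, q2⟩ := exists_nat_pow_near (x := |f i| / l0) (y := 2)
        (by rw [le_div_iff₀ l0p]; linarith) (by norm_num)
      rw [le_div_iff₀ l0p] at q1
      rw [div_lt_iff₀ l0p, pow_succ] at q2
      have hbi := hb i (mem_Icc.1 hi).1 (mem_Icc.1 hi).2
      have q3 : q ≤ Q := by
        have : (2 : ℝ) ^ q * l0 ≤ 2 ^ Q * l0 := q1.trans (hbi.trans hQ)
        exact (pow_le_pow_iff_right₀ (by norm_num : (1 : ℝ) < 2)).1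
          (le_of_mul_le_mul_right this l0p)
      have w1 : f i ^ 2 ≤ W q j := win hv hf1 hH (mem_Icc.1 hi).1 (mem_Icc.1 hi).2 hbi
        (by positivity) q1 (by linarith)
      have w2 : W q j ≤ ∑ q ∈ range (Q + 1), W q j :=
        single_le_sum (fun q _ => W0 q j) (mem_range.2 (by omega))
      refine le_trans (by linarith : _ ≤ |f i|) (le_sqrt_of_sq_le ?_)
      rw [sq_abs]
      nlinarith [sq_nonneg l0]
    have sm : ∀ q : ℕ, ∑ j ∈ Icc j0 j1, W q j ≤ 536 * ∑ k ∈ S, f k ^ 2 := by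
      intro q
      have u0 : 0 < 2 ^ q * l0 := by positivity
      have u1 : v ≤ 2 ^ q * l0 := by
        have : (1 : ℝ) ≤ 2 ^ q := one_le_pow₀ (by norm_num)
        nlinarith
      simp only [hW]
      rw [← mul_sum, sum_comm, mul_sum, mul_sum]
      refine sum_le_sum fun k _ => ?_
      rw [← sum_filter, sum_const, nsmul_eq_mul, ← mul_assoc]
      refine mul_le_mul_of_nonneg_right ?_ (sq_nonneg _)
      have c1 := cnt (Icc j0 j1) k (ρ := 33 * (2 ^ q * l0) / v) (by positivity)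
      refine (mul_le_mul_of_nonneg_left c1 (by positivity)).trans ?_
      have c2 : v / (2 ^ q * l0) ≤ 1 := (div_le_one u0).2 u1
      have c3 : 8 * (v / (2 ^ q * l0)) * (2 * (33 * (2 ^ q * l0) / v) + 1) =
          528 + 8 * (v / (2 ^ q * l0)) := by field_simp; ring
      linarith
    refine (sum_le_sum fun j _ => pt j).trans ?_
    rw [sum_add_distrib, sum_const, Nat.card_Icc, nsmul_eq_mul, sum_comm]
    have s1 := sum_le_sum (s := range (Q + 1)) fun q _ => sm q
    rw [sum_const, card_range, nsmul_eq_mul] at s1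
    have s2 : (0 : ℝ) ≤ ((j1 + 1 - j0 : ℕ) : ℝ) * l0 ^ 2 := by positivity
    push_cast at s1
    simp only [hf] at s1 ⊢
    linarith


namespace Tol30

variable {α ι : Type} [MeasurableSpace α] [Fintype ι] {S : Sys α ι}

theorem m_rho (h : S.Ok) (j : ℕ) : Measurable (S.rho j) :=
  Finset.measurable_sum _ fun i _ => (h.mm j i).pow_const 2

theorem m_aa (h : S.Ok) (j : ℕ) : Measurable (S.aa j) :=
  Finset.measurable_sum _ fun i _ => Finset.measurable_sum _ fun k _ =>
    ((h.mm j i).mul (h.mm j k)).mul (h.mA j i k)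

theorem rho0 (j : ℕ) (a : α) : 0 ≤ S.rho j a := sum_nonneg fun _ _ => sq_nonneg _

theorem aa0 (h : S.Ok) (j : ℕ) (a : α) : 0 ≤ S.aa j a := h.psd j a _

theorem aa1 (h : S.Ok) (j : ℕ) (a : α) : S.aa j a ≤ 1 := (h.bdB j a _).trans (h.bd j a)

theorem int_bd {μ : Measure α} [IsFiniteMeasure μ] {X : α → ℝ} (hX : Measurable X) (C : ℝ)
    (hb : ∀ a, |X a| ≤ C) : Integrable X μ :=
  Integrable.of_bound hX.aestronglyMeasurable C (.of_forall hb)

/-- Lyapunov -/
theorem nb_one {μ : Measure α} [IsProbabilityMeasure μ] {X : α → ℝ} (hX : Measurable X) {C : ℝ}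
    (hb : ∀ a, |X a| ≤ C) {p : ℕ} {G : ℝ} (hp : 1 ≤ p) (hG : 0 < G) (h : Nb μ p X G) :
    ∫ a, |X a| ∂μ ≤ G := by
  have i1 : Integrable (fun a => |X a|) μ := (int_bd hX C hb).abs
  have i2 : Integrable (fun a => |X a| ^ p) μ := int_bd (hX.abs.pow_const p) (C ^ p) fun a => by
    rw [abs_pow, abs_abs]; exact pow_le_pow_left₀ (abs_nonneg _) (hb a) p
  have pt : ∀ a, 1 + p * (|X a| / G - 1) ≤ |X a| ^ p / G ^ p := fun a => by
    have := one_add_mul_le_pow (a := |X a| / G - 1)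
      (by have : 0 ≤ |X a| / G := by positivity
          linarith) p
    rwa [add_sub_cancel, div_pow] at this
  have i3 : Integrable (fun a => (p : ℝ) * (|X a| / G - 1)) μ :=
    ((i1.div_const G).sub (integrable_const 1)).const_mul p
  have e : ∫ a, 1 + (p : ℝ) * (|X a| / G - 1) ∂μ ≤ ∫ a, |X a| ^ p / G ^ p ∂μ :=
    integral_mono ((integrable_const 1).add i3) (i2.div_const _) pt
  rw [integral_add (integrable_const 1) i3,
    integral_const_mul, integral_sub (i1.div_const G) (integrable_const 1), integral_div,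
    integral_div] at e
  simp only [integral_const, probReal_univ, smul_eq_mul, mul_one] at e
  have e2 : (∫ a, |X a| ^ p ∂μ) / G ^ p ≤ 1 := (div_le_one (by positivity)).2 h.2
  have p1 : (0 : ℝ) < p := by exact_mod_cast hp
  have e3 : (p : ℝ) * ((∫ a, |X a| ∂μ) / G - 1) ≤ p * 0 := by linarith
  have e4 := le_of_mul_le_mul_left e3 p1
  exact (div_le_one hG).1 (by linarith)

theorem joint_pos (h : S.Ok) (p q j N : ℕ) (c : ℕ → ℝ) (M G lam : ℝ) (hN : 1 ≤ N) (hq : q ≤ p)
    (hp : 1 ≤ p) (hG : 0 < G) (hl : 1 ≤ lam) (hGl : 1 ≤ G * lam ^ p) (hM : 0 < M)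
    (h1 : ∀ y ∈ Ico j (j + N), ∫ a, |S.rho y a - c y| ^ p ∂S.μ ≤ M ^ p)
    (h2 : Nb S.μ p (fun a => av j N fun y => S.aa y a) G) :
    av j N (fun y => ∫ a, |S.rho y a - c y| ^ q * S.aa y a ∂S.μ) ≤ 2 * (lam * M) ^ q * G := by
  have := h.prob
  set t := lam * M with ht
  have t0 : 0 < t := by positivity
  have N0 : (0 : ℝ) < N := by exact_mod_cast hN
  have eb : ∀ y a, |S.rho y a - c y| ≤ 1 + |c y| := fun y a =>
    (abs_sub _ _).trans (by rw [abs_of_nonneg (rho0 y a)]; linarith [h.bd y a])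
  have ia : ∀ y, Integrable (S.aa y) S.μ := fun y => int_bd (m_aa h y) 1 fun a => by
    rw [abs_of_nonneg (aa0 h y a)]; exact aa1 h y a
  have ie : ∀ y k, Integrable (fun a => |S.rho y a - c y| ^ k) S.μ := fun y k =>
    int_bd (((m_rho h y).sub_const _).abs.pow_const k) ((1 + |c y|) ^ k) fun a => by
      rw [abs_pow, abs_abs]; exact pow_le_pow_left₀ (abs_nonneg _) (eb y a) k
  have one : ∀ y ∈ Ico j (j + N), ∫ a, |S.rho y a - c y| ^ q * S.aa y a ∂S.μ ≤
      t ^ q * ∫ a, S.aa y a ∂S.μ + t ^ q * G := by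
    intro y hy
    have pt : ∀ a, |S.rho y a - c y| ^ q * S.aa y a ≤
        t ^ q * S.aa y a + |S.rho y a - c y| ^ p / t ^ (p - q) := fun a => by
      rcases le_total |S.rho y a - c y| t with h3 | h3
      · exact (mul_le_mul_of_nonneg_right (pow_le_pow_left₀ (abs_nonneg _) h3 q) (aa0 h y a)).trans
          (le_add_of_nonneg_right (by positivity))
      · have a1 : |S.rho y a - c y| ^ q * S.aa y a ≤ |S.rho y a - c y| ^ q :=
          mul_le_of_le_one_right (by positivity) (aa1 h y a)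
        have a2 : |S.rho y a - c y| ^ q ≤ |S.rho y a - c y| ^ p / t ^ (p - q) := by
          rw [le_div_iff₀ (by positivity), ← Nat.add_sub_cancel' hq, pow_add,
            Nat.add_sub_cancel_left]
          exact mul_le_mul_of_nonneg_left (pow_le_pow_left₀ t0.le h3 _) (by positivity)
        have a3 : 0 ≤ t ^ q * S.aa y a := mul_nonneg (by positivity) (aa0 h y a)
        linarith
    have e := integral_mono_of_nonneg (μ := S.μ) (.of_forall fun a =>
      mul_nonneg (by positivity) (aa0 h y a))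
      (((ia y).const_mul (t ^ q)).add ((ie y p).div_const (t ^ (p - q)))) (.of_forall pt)
    refine e.trans ?_
    simp only [Pi.add_apply]
    rw [integral_add ((ia y).const_mul _) ((ie y p).div_const _), integral_const_mul, integral_div]
    refine add_le_add le_rfl ?_
    rw [div_le_iff₀ (by positivity)]
    refine (h1 y hy).trans ?_
    have e1 : t ^ q * G * t ^ (p - q) = G * lam ^ p * M ^ p := by
      rw [mul_right_comm, ← pow_add, Nat.add_sub_cancel' hq, ht, mul_pow]; ring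
    rw [e1]
    exact le_mul_of_one_le_left (by positivity) hGl
  have avb : ∀ a, |av j N fun y => S.aa y a| ≤ 1 := fun a => by
    rw [av, abs_div, abs_of_nonneg (sum_nonneg fun y _ => aa0 h y a), abs_of_pos N0,
      div_le_one N0]
    refine (sum_le_sum fun y _ => aa1 h y a).trans ?_
    simp
  have l1 := nb_one ((Finset.measurable_sum _ fun y _ => m_aa h y).div_const _) avb hp hG h2
  have l2 : (∑ y ∈ Ico j (j + N), ∫ a, S.aa y a ∂S.μ) / N ≤ G := by
    rw [← integral_finsetSum _ fun y _ => ia y, ← integral_div]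
    refine le_trans (le_of_eq ?_) l1
    refine integral_congr_ae (.of_forall fun a => ?_)
    exact (abs_of_nonneg (div_nonneg (sum_nonneg fun y _ => aa0 h y a) N0.le)).symm
  rw [av, div_le_iff₀ N0]
  refine (sum_le_sum one).trans ?_
  rw [sum_add_distrib, ← mul_sum, sum_const, Nat.card_Ico, Nat.add_sub_cancel_left, nsmul_eq_mul]
  rw [div_le_iff₀ N0] at l2
  have l3 := mul_le_mul_of_nonneg_left l2 (pow_nonneg t0.le q)
  linarith

end Tol30

open Tol30 in
theorem jointS : JointS := by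
  intro α ι _ _ S h p q j N c M G lam hN hq hp hG hl hGl h1 h2
  have M0 : 0 ≤ M := (h1 j (mem_Ico.2 ⟨le_rfl, by omega⟩)).1
  have hc : Filter.Tendsto (fun M' : ℝ => 2 * (lam * M') ^ q * G) (nhdsWithin M (Set.Ioi M))
      (nhds (2 * (lam * M) ^ q * G)) :=
    (by fun_prop : Continuous fun M' : ℝ => 2 * (lam * M') ^ q * G).continuousAt.tendsto.mono_left
      nhdsWithin_le_nhds
  refine ge_of_tendsto hc (eventually_nhdsWithin_of_forall fun M' hM' => ?_)
  exact joint_pos h p q j N c M' G lam hN hq hp hG hl hGl (M0.trans_lt hM')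
    (fun y hy => (h1 y hy).2.trans (pow_le_pow_left₀ M0 (le_of_lt hM') p)) h2

end Crest.Agent.T156.Q57
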