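import Mathlib

/-!
# Row 156, block Q, leaf C6 (helper21), part A: `L^p` synchronisation, frame-free core

A class `C` of functions with a monotone seminorm `nm`; a vector process `m j`; windows of nodes.
-/

set_option autoImplicit false
set_option linter.unusedSectionVars false

noncomputable section

namespace Crest.Agent.T156.Q21

open Finset Real

/-- a class of functions with a monotone seminorm -/
structure NS (P : Type) where
  C : (P → ℝ) → Prop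
  nm : (P → ℝ) → ℝ
  c_const : ∀ c, C fun _ => c
  c_add : ∀ {F G}, C F → C G → C fun p => F p + G p
  c_mul : ∀ {F G}, C F → C G → C fun p => F p * G p
  c_abs : ∀ {F}, C F → C fun p => |F p|
  nonneg : ∀ F, 0 ≤ nm F
  mono : ∀ {F G}, C F → C G → (∀ p, |F p| ≤ |G p|) → nm F ≤ nm G
  add : ∀ {F G}, C F → C G → nm (fun p => F p + G p) ≤ nm F + nm G
  smul : ∀ {F} (c : ℝ), 0 ≤ c → C F → nm (fun p => c * F p) ≤ c * nm F
  const : ∀ c, 0 ≤ c → nm (fun _ => c) ≤ c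

namespace NS
variable {P : Type} (S : NS P) {F G X : P → ℝ}

theorem c_cmul (c : ℝ) (h : S.C F) : S.C fun p => c * F p := S.c_mul (S.c_const c) h

theorem c_sub (h : S.C F) (h' : S.C G) : S.C fun p => F p - G p := by
  simpa [sub_eq_add_neg] using S.c_add h (S.c_cmul (-1) h')

theorem c_sq (h : S.C F) : S.C fun p => F p ^ 2 := by simpa [sq] using S.c_mul h h

theorem c_div (h : S.C F) (c : ℝ) : S.C fun p => F p / c := by
  simpa [div_eq_inv_mul] using S.c_cmul c⁻¹ h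

theorem c_sum {κ : Type*} (s : Finset κ) {F : κ → P → ℝ} (h : ∀ k ∈ s, S.C (F k)) :
    S.C fun p => ∑ k ∈ s, F k p := by
  classical
  induction s using Finset.induction_on with
  | empty => simpa using S.c_const 0
  | insert a s ha ih =>
    simp only [sum_insert ha]
    exact S.c_add (h a (mem_insert_self _ _)) (ih fun k hk => h k (mem_insert_of_mem hk))

theorem c_pos (h : S.C F) : S.C fun p => max (F p) 0 := by
  have : (fun p => max (F p) 0) = fun p => (1 / 2) * (F p + |F p|) := funext fun p => by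
    rcases le_total (F p) 0 with k | k
    · rw [max_eq_right k, abs_of_nonpos k]; ring
    · rw [max_eq_left k, abs_of_nonneg k]; ring
  rw [this]; exact S.c_cmul _ (S.c_add h (S.c_abs h))

theorem mono' (h : S.C F) (h' : S.C G) (e : ∀ p, |F p| ≤ G p) : S.nm F ≤ S.nm G :=
  S.mono h h' fun p => (e p).trans (le_abs_self _)

theorem abs_le (h : S.C F) : S.nm (fun p => |F p|) ≤ S.nm F :=
  S.mono (S.c_abs h) h fun p => by simp

theorem sum_le {κ : Type*} (s : Finset κ) {F : κ → P → ℝ} (h : ∀ k ∈ s, S.C (F k)) :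
    S.nm (fun p => ∑ k ∈ s, F k p) ≤ ∑ k ∈ s, S.nm (F k) := by
  classical
  induction s using Finset.induction_on with
  | empty => simpa using S.const 0 le_rfl
  | insert a s ha ih =>
    simp only [sum_insert ha]
    have h2 := fun k hk => h k (mem_insert_of_mem hk)
    exact (S.add (h a (mem_insert_self _ _)) (S.c_sum s h2)).trans (by linarith [ih h2])

theorem wsum_le {κ : Type*} (s : Finset κ) {F : κ → P → ℝ} (h : ∀ k ∈ s, S.C (F k)) {c : κ → ℝ}
    (hc : ∀ k ∈ s, 0 ≤ c k) (h1 : ∑ k ∈ s, c k = 1) {M : ℝ} (hM : ∀ k ∈ s, S.nm (F k) ≤ M) :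
    S.nm (fun p => ∑ k ∈ s, c k * F k p) ≤ M := by
  refine (S.sum_le s fun k hk => S.c_cmul _ (h k hk)).trans ?_
  calc _ ≤ ∑ k ∈ s, c k * M := sum_le_sum fun k hk => (S.smul _ (hc k hk) (h k hk)).trans
        (mul_le_mul_of_nonneg_left (hM k hk) (hc k hk))
    _ = M := by rw [← sum_mul, h1, one_mul]

theorem le_add_const (h : S.C F) (h' : S.C G) {c : ℝ} (hc : 0 ≤ c) (e : ∀ p, |F p| ≤ G p + c) :
    S.nm F ≤ S.nm G + c :=
  (S.mono' h (S.c_add h' (S.c_const c)) e).trans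
    ((S.add h' (S.c_const c)).trans (by linarith [S.const c hc]))

/-- a square root under the norm -/
theorem le_sqrt (h : S.C F) (h' : S.C G) (hX : S.C X) (X0 : ∀ p, 0 ≤ X p) {c : ℝ} (hc : 0 ≤ c)
    (e : ∀ p, |F p| ≤ G p + c * √(X p)) : S.nm F ≤ S.nm G + c * √(S.nm X) := by
  have key : ∀ θ : ℝ, 0 < θ → S.nm F ≤ S.nm G + c * (θ / 2 + S.nm X / (2 * θ)) := fun θ hθ => by
    have h1 : ∀ p, |F p| ≤ (G p + c / (2 * θ) * X p) + c * (θ / 2) := fun p => by
      have a := sq_sqrt (X0 p)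
      have b : √(X p) ≤ θ / 2 + X p / (2 * θ) := by
        rw [div_add_div _ _ (by norm_num) (by positivity), le_div_iff₀ (by positivity)]
        nlinarith [sq_nonneg (θ - √(X p))]
      have := mul_le_mul_of_nonneg_left b hc
      have q : c * (θ / 2 + X p / (2 * θ)) = c / (2 * θ) * X p + c * (θ / 2) := by ring
      linarith [e p]
    have h2 := S.le_add_const h (S.c_add h' (S.c_cmul _ hX)) (by positivity) h1
    have h3 := S.add h' (S.c_cmul (c / (2 * θ)) hX)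
    have h4 := S.smul (c / (2 * θ)) (by positivity) hX
    have q : c * (θ / 2 + S.nm X / (2 * θ)) = c / (2 * θ) * S.nm X + c * (θ / 2) := by ring
    linarith
  rcases (S.nonneg X).eq_or_lt with k | k
  · rw [← k, sqrt_zero, mul_zero, add_zero]
    refine le_of_forall_pos_le_add fun ε hε => ?_
    have := key (ε / (c + 1)) (by positivity)
    rw [← k, zero_div, add_zero] at this
    refine this.trans (add_le_add le_rfl ?_)
    rw [← mul_div_assoc, ← mul_div_assoc, div_div, div_le_iff₀ (by positivity)]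
    nlinarith
  · have hs := sqrt_pos.2 k
    have := key _ hs
    refine this.trans_eq ?_
    congr 2
    have a := sq_sqrt k.le
    field_simp
    nlinarith

end NS

variable {P ι W : Type} [Fintype ι]

/-- data of the synchronisation argument -/
structure Dat (P ι W : Type) where
  m : ℕ → P → ι → ℝ
  a : ℕ → P → ℝ
  Ξ : P → ℝ
  I : W → Finset ℕ
  ω : W → ℕ → ℝ
  b : ℕ → ℕ → ℕ
  u : ℕ → ℝ
  L : ℕ
  J : ℕ
  γ : W → ℝ
  r : W → ℝ
  l1 : ℝ
  l2 : ℝ
  ξ : ℝ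

namespace Dat
variable (D : Dat P ι W) (S : NS P)

def ρ (j : ℕ) (p : P) : ℝ := ∑ i, D.m j p i ^ 2
def inc (i j : ℕ) (p : P) : ℝ := ∑ k, (D.m j p k - D.m i p k) ^ 2
def Y (y j : ℕ) (p : P) : ℝ := ∑ k, D.m y p k * (D.m j p k - D.m y p k)
/-- normalised square of the piece `k` of `m y` -/
def Dk (k y : ℕ) (p : P) : ℝ :=
  (if k < D.L then D.inc (D.b (k + 1) y) (D.b k y) p else D.ρ (D.b D.L y) p) / D.u k
def X (t : W) (p : P) : ℝ := ∑ y ∈ D.I t, D.ω t y * ∑ k ∈ range (D.L + 1), (D.Dk k y p + 1)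
def rb (t : W) (p : P) : ℝ := ∑ y ∈ D.I t, D.ω t y * D.ρ y p
def ab (t : W) (p : P) : ℝ := ∑ y ∈ D.I t, D.ω t y * D.a y p
def Λ (t : W) : ℝ := S.nm (D.X t)
def Λk (t : W) (k : ℕ) : ℝ := S.nm fun p => ∑ y ∈ D.I t, D.ω t y * D.Dk k y p
def N (t : W) : ℝ := S.nm fun p => D.rb t p - D.r t
def V (t : W) : ℝ := |D.r t - D.γ t|
def T (t : W) : ℝ := D.l1 * √((D.L + 1) * D.Λ S t) + D.ξ
def Z (t : W) : ℝ := D.N S t + D.V t + 2 * D.T S t

/-- hypotheses on the process -/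
structure Ok : Prop where
  cm : ∀ j i, S.C fun p => D.m j p i
  ca : ∀ j, S.C (D.a j)
  a0 : ∀ j p, 0 ≤ D.a j p
  cΞ : S.C D.Ξ
  nΞ : S.nm D.Ξ ≤ D.ξ
  Ξ0 : ∀ p, 0 ≤ D.Ξ p
  ω0 : ∀ t y, 0 ≤ D.ω t y
  u0 : ∀ k, 0 < D.u k
  l10 : 0 ≤ D.l1
  l20 : 0 ≤ D.l2

/-- submartingale + Jensen: the window `t` lies after the node `j` -/
def Up (t : W) (j : ℕ) : Prop :=
  S.nm (fun p => max (D.ρ j p - D.γ t) 0) ≤ S.nm fun p => max (D.rb t p - D.γ t) 0

/-- hypotheses on one window -/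
structure Gd (t : W) : Prop where
  ω1 : ∑ y ∈ D.I t, D.ω t y = 1
  g1 : ∀ y ∈ D.I t, ∀ j, y ≤ j → j ≤ D.J → ∀ p,
    |D.Y y j p| ≤ D.l1 * ∑ k ∈ range (D.L + 1), √(D.Dk k y p + 1) + D.Ξ p
  g2 : ∀ y ∈ D.I t, ∀ p, D.a y p ≤ D.l2 * ∑ k ∈ range (D.L + 1), (D.Dk k y p + 1) + D.Ξ p

variable {D S}

theorem ρ0 (j : ℕ) (p : P) : 0 ≤ D.ρ j p := sum_nonneg fun _ _ => sq_nonneg _
theorem inc0 (i j : ℕ) (p : P) : 0 ≤ D.inc i j p := sum_nonneg fun _ _ => sq_nonneg _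

theorem inc_eq (y j : ℕ) (p : P) : D.inc y j p = D.ρ j p - D.ρ y p - 2 * D.Y y j p := by
  simp only [inc, ρ, Y, mul_sum, ← sum_sub_distrib]
  exact sum_congr rfl fun _ _ => by ring

theorem inc_tri (y i j : ℕ) (p : P) : D.inc i j p ≤ 2 * (D.inc y j p + D.inc y i p) := by
  simp only [inc, mul_sum, ← sum_add_distrib]
  exact sum_le_sum fun k _ => by
    nlinarith [sq_nonneg (D.m j p k - D.m y p k + (D.m i p k - D.m y p k))]

namespace Ok
variable (H : D.Ok S)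
include H

theorem cρ (j : ℕ) : S.C (D.ρ j) := S.c_sum _ fun i _ => S.c_sq (H.cm j i)
theorem cinc (i j : ℕ) : S.C (D.inc i j) :=
  S.c_sum _ fun k _ => S.c_sq (S.c_sub (H.cm j k) (H.cm i k))
theorem cY (y j : ℕ) : S.C (D.Y y j) :=
  S.c_sum _ fun k _ => S.c_mul (H.cm y k) (S.c_sub (H.cm j k) (H.cm y k))
theorem cD (k y : ℕ) : S.C (D.Dk k y) := by
  unfold Dk
  by_cases h : k < D.L
  · simp only [if_pos h]; exact S.c_div (H.cinc _ _) _
  · simp only [if_neg h]; exact S.c_div (H.cρ _) _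
theorem D0 (k y : ℕ) (p : P) : 0 ≤ D.Dk k y p := by
  refine div_nonneg ?_ (H.u0 k).le
  split_ifs
  exacts [inc0 _ _ _, ρ0 _ _]
theorem cX (t : W) : S.C (D.X t) := S.c_sum _ fun y _ => S.c_cmul _
  (S.c_sum _ fun k _ => S.c_add (H.cD k y) (S.c_const 1))
theorem X0 (t : W) (p : P) : 0 ≤ D.X t p := sum_nonneg fun y _ => mul_nonneg (H.ω0 t y)
  (sum_nonneg fun k _ => by linarith [H.D0 k y p])
theorem crb (t : W) : S.C (D.rb t) := S.c_sum _ fun y _ => S.c_cmul _ (H.cρ y)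
theorem cab (t : W) : S.C (D.ab t) := S.c_sum _ fun y _ => S.c_cmul _ (H.ca y)
theorem ξ0 : 0 ≤ D.ξ := (S.nonneg _).trans H.nΞ
theorem T0 (t : W) : 0 ≤ D.T S t := add_nonneg (mul_nonneg H.l10 (sqrt_nonneg _)) H.ξ0
theorem NV_le (t : W) : D.N S t + D.V t ≤ D.Z S t := by unfold Z; linarith [H.T0 t]
theorem Z0 (t : W) : 0 ≤ D.Z S t :=
  (add_nonneg (S.nonneg _) (abs_nonneg _)).trans (H.NV_le t)

/-- (a) upper bound from a later window -/
theorem up_le {t : W} {j : ℕ} (hj : D.Up S t j) :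
    S.nm (fun p => max (D.ρ j p - D.γ t) 0) ≤ D.N S t + D.V t := by
  refine le_trans hj ?_
  have c1 := S.c_sub (H.crb t) (S.c_const (D.r t))
  refine (S.le_add_const (G := fun p => |D.rb t p - D.r t|)
    (S.c_pos (S.c_sub (H.crb t) (S.c_const _))) (S.c_abs c1) (abs_nonneg (D.r t - D.γ t))
    fun p => ?_).trans (add_le_add (S.abs_le c1) le_rfl)
  rw [abs_of_nonneg (le_max_right _ _)]
  refine max_le ?_ (by positivity)
  show D.rb t p - D.γ t ≤ _
  linarith [le_abs_self (D.rb t p - D.r t), le_abs_self (D.r t - D.γ t)]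

/-- (b) locking, pathwise -/
theorem lock {t : W} {j : ℕ} (G : D.Gd t) (hj : ∀ y ∈ D.I t, y ≤ j) (hJ : j ≤ D.J) (p : P) :
    ∑ y ∈ D.I t, D.ω t y * |D.Y y j p| ≤ D.Ξ p + D.l1 * √((D.L + 1) * D.X t p) := by
  have h1 : ∑ y ∈ D.I t, D.ω t y * |D.Y y j p| ≤ ∑ y ∈ D.I t, D.ω t y *
      (D.l1 * ∑ k ∈ range (D.L + 1), √(D.Dk k y p + 1) + D.Ξ p) :=
    sum_le_sum fun y hy => mul_le_mul_of_nonneg_left (G.g1 y hy j (hj y hy) hJ p) (H.ω0 t y)
  have h2 : ∑ y ∈ D.I t, D.ω t y * (D.l1 * ∑ k ∈ range (D.L + 1), √(D.Dk k y p + 1) + D.Ξ p) =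
      D.Ξ p + D.l1 * ∑ y ∈ D.I t, D.ω t y * ∑ k ∈ range (D.L + 1), √(D.Dk k y p + 1) := by
    simp only [mul_add, sum_add_distrib, ← sum_mul, G.ω1, mul_sum, mul_left_comm]; ring
  refine h1.trans (h2.trans_le (add_le_add le_rfl (mul_le_mul_of_nonneg_left ?_ H.l10)))
  refine le_sqrt_of_sq_le ?_
  set f : ℕ → ℝ := fun y => ∑ k ∈ range (D.L + 1), √(D.Dk k y p + 1) with hf
  have j1 : (∑ y ∈ D.I t, D.ω t y * f y) ^ 2 ≤ ∑ y ∈ D.I t, D.ω t y * f y ^ 2 := by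
    have := sum_sq_le_sum_mul_sum_of_sq_le_mul (D.I t) (r := fun y => D.ω t y * f y)
      (f := fun y => D.ω t y) (g := fun y => D.ω t y * f y ^ 2) (fun y _ => H.ω0 t y)
      (fun y _ => mul_nonneg (H.ω0 t y) (sq_nonneg _)) (fun y _ => le_of_eq (by ring))
    rwa [G.ω1, one_mul] at this
  refine j1.trans ?_
  rw [X, mul_sum]
  refine sum_le_sum fun y _ => ?_
  rw [mul_left_comm]
  refine mul_le_mul_of_nonneg_left ?_ (H.ω0 t y)
  have := sq_sum_le_card_mul_sum_sq (s := range (D.L + 1)) (f := fun k => √(D.Dk k y p + 1))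
  simp only [card_range, Nat.cast_add, Nat.cast_one] at this
  refine this.trans_eq ?_
  congr 1
  exact sum_congr rfl fun k _ => sq_sqrt (by linarith [H.D0 k y p])

theorem avg_inc {t : W} {j : ℕ} (G : D.Gd t) (hj : ∀ y ∈ D.I t, y ≤ j) (hJ : j ≤ D.J) (p : P) :
    ∑ y ∈ D.I t, D.ω t y * D.inc y j p ≤
      D.ρ j p - D.rb t p + 2 * (D.Ξ p + D.l1 * √((D.L + 1) * D.X t p)) := by
  have h := H.lock G hj hJ p
  have : ∑ y ∈ D.I t, D.ω t y * D.inc y j p ≤
      ∑ y ∈ D.I t, D.ω t y * (D.ρ j p - D.ρ y p + 2 * |D.Y y j p|) :=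
    sum_le_sum fun y _ => mul_le_mul_of_nonneg_left
      (by rw [inc_eq]; linarith [neg_abs_le (D.Y y j p)]) (H.ω0 t y)
  have e : ∑ y ∈ D.I t, D.ω t y * (D.ρ j p - D.ρ y p + 2 * |D.Y y j p|) =
      D.ρ j p - D.rb t p + 2 * ∑ y ∈ D.I t, D.ω t y * |D.Y y j p| := by
    simp only [mul_add, mul_sub, sum_add_distrib, sum_sub_distrib, ← sum_mul, G.ω1, rb, mul_sum,
      mul_left_comm]; ring
  linarith

/-- norm of a function dominated by `G + c (|rb - r| + V + 2 lock)` -/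
theorem le_Z {t : W} {F G : P → ℝ} (hF : S.C F) (hG : S.C G) {c : ℝ} (hc : 0 ≤ c)
    (e : ∀ p, |F p| ≤ G p + c * (|D.rb t p - D.r t| + D.V t +
      2 * (D.Ξ p + D.l1 * √((D.L + 1) * D.X t p)))) : S.nm F ≤ S.nm G + c * D.Z S t := by
  have c1 := S.c_sub (H.crb t) (S.c_const (D.r t))
  have c2 := S.c_abs c1
  have c3 := S.c_cmul ((D.L : ℝ) + 1) (H.cX t)
  have cV := S.c_const (c * D.V t)
  have hV : 0 ≤ c * D.V t := mul_nonneg hc (abs_nonneg _)
  have k1 := S.le_sqrt hF (S.c_add (S.c_add (S.c_add hG (S.c_cmul c c2)) cV)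
    (S.c_cmul (2 * c) H.cΞ)) c3 (fun p => mul_nonneg (by positivity) (H.X0 t p))
    (c := 2 * c * D.l1) (mul_nonneg (by positivity) H.l10) fun p => (e p).trans_eq (by ring)
  have k2 := S.add (S.c_add (S.c_add hG (S.c_cmul c c2)) cV) (S.c_cmul (2 * c) H.cΞ)
  have k3 := S.add (S.c_add hG (S.c_cmul c c2)) cV
  have k4 := S.add hG (S.c_cmul c c2)
  have k5 := S.smul c hc c2
  have k6 := mul_le_mul_of_nonneg_left (S.abs_le c1) hc
  have k7 := S.const _ hV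
  have k8 := S.smul (2 * c) (by positivity) H.cΞ
  have k9 := mul_le_mul_of_nonneg_left H.nΞ (show 0 ≤ 2 * c by positivity)
  have k10 := mul_le_mul_of_nonneg_left (sqrt_le_sqrt (S.smul ((D.L : ℝ) + 1) (by positivity)
    (H.cX t))) (show 0 ≤ 2 * c * D.l1 from mul_nonneg (by positivity) H.l10)
  have e2 : c * D.Z S t = c * D.N S t + c * D.V t +
      (2 * c * D.l1 * √((D.L + 1) * D.Λ S t) + 2 * c * D.ξ) := by simp only [Z, T]; ring
  rw [e2]; simp only [N, Λ]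
  linarith

/-- **(Q2), one node**: a window `t` before `j` and a window `t'` after `j` -/
theorem loc {t t' : W} {j : ℕ} (G : D.Gd t) (hj : ∀ y ∈ D.I t, y ≤ j) (hJ : j ≤ D.J)
    (hj' : D.Up S t' j) (c : ℝ) :
    S.nm (fun p => D.ρ j p - c) ≤ D.Z S t + D.Z S t' + |D.γ t - c| + |D.γ t' - c| := by
  have cu := S.c_pos (S.c_sub (H.cρ j) (S.c_const (D.γ t')))
  have k := H.le_Z (t := t) (S.c_sub (H.cρ j) (S.c_const c))
    (S.c_add cu (S.c_const (|D.γ t - c| + |D.γ t' - c|))) zero_le_one fun p => by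
      have a := H.avg_inc G hj hJ p
      have b : 0 ≤ ∑ y ∈ D.I t, D.ω t y * D.inc y j p :=
        sum_nonneg fun y _ => mul_nonneg (H.ω0 t y) (inc0 _ _ _)
      have q : 0 ≤ D.Ξ p + D.l1 * √((D.L + 1) * D.X t p) :=
        add_nonneg (H.Ξ0 p) (mul_nonneg H.l10 (sqrt_nonneg _))
      rw [_root_.abs_le, V]
      constructor <;>
      linarith [le_max_left (D.ρ j p - D.γ t') 0, le_max_right (D.ρ j p - D.γ t') 0,
        le_abs_self (D.γ t - c), neg_abs_le (D.γ t - c), le_abs_self (D.γ t' - c),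
        abs_nonneg (D.γ t' - c), neg_abs_le (D.rb t p - D.r t), abs_nonneg (D.rb t p - D.r t),
        neg_abs_le (D.r t - D.γ t), abs_nonneg (D.r t - D.γ t), abs_nonneg (D.γ t - c)]
  have k2 := S.add cu (S.c_const (|D.γ t - c| + |D.γ t' - c|))
  have k3 := S.const (|D.γ t - c| + |D.γ t' - c|) (by positivity)
  linarith [H.up_le hj', H.NV_le t']

/-- (c) increments: a window `t` before `i ≤ j`, windows `t1` after `i`, `t2` after `j` -/
theorem inc_le {t t1 t2 : W} {i j : ℕ} (G : D.Gd t) (hi : ∀ y ∈ D.I t, y ≤ i) (hij : i ≤ j)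
    (hJ : j ≤ D.J) (hi' : D.Up S t1 i) (hj' : D.Up S t2 j) :
    S.nm (D.inc i j) ≤ 4 * D.Z S t + 2 * (D.Z S t1 + |D.γ t1 - D.γ t|) +
      2 * (D.Z S t2 + |D.γ t2 - D.γ t|) := by
  have cj := S.c_pos (S.c_sub (H.cρ j) (S.c_const (D.γ t2)))
  have ci := S.c_pos (S.c_sub (H.cρ i) (S.c_const (D.γ t1)))
  have cc := S.c_const (2 * |D.γ t1 - D.γ t| + 2 * |D.γ t2 - D.γ t|)
  have k := H.le_Z (t := t) (H.cinc i j)
    (S.c_add (S.c_add (S.c_cmul 2 cj) (S.c_cmul 2 ci)) cc) (c := 4) (by norm_num) fun p => by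
      have a := H.avg_inc G (fun y hy => (hi y hy).trans hij) hJ p
      have a' := H.avg_inc G hi (hij.trans hJ) p
      have b : D.inc i j p ≤ 2 * (∑ y ∈ D.I t, D.ω t y * D.inc y j p +
          ∑ y ∈ D.I t, D.ω t y * D.inc y i p) := by
        calc D.inc i j p = ∑ y ∈ D.I t, D.ω t y * D.inc i j p := by rw [← sum_mul, G.ω1, one_mul]
          _ ≤ ∑ y ∈ D.I t, D.ω t y * (2 * (D.inc y j p + D.inc y i p)) :=
            sum_le_sum fun y _ => mul_le_mul_of_nonneg_left (inc_tri y i j p) (H.ω0 t y)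
          _ = _ := by
            simp only [mul_add, sum_add_distrib, mul_sum, mul_left_comm]
      rw [abs_of_nonneg (inc0 _ _ _), V]
      linarith [le_max_left (D.ρ j p - D.γ t2) 0, le_max_left (D.ρ i p - D.γ t1) 0,
        le_abs_self (D.γ t2 - D.γ t), le_abs_self (D.γ t1 - D.γ t),
        neg_abs_le (D.rb t p - D.r t), neg_abs_le (D.r t - D.γ t)]
  have k2 := S.add (S.c_add (S.c_cmul 2 cj) (S.c_cmul 2 ci)) cc
  have k3 := S.add (S.c_cmul 2 cj) (S.c_cmul 2 ci)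
  have k4 := S.smul 2 zero_le_two cj
  have k5 := S.smul 2 zero_le_two ci
  have k6 := S.const (2 * |D.γ t1 - D.γ t| + 2 * |D.γ t2 - D.γ t|) (by positivity)
  linarith [H.up_le hj', H.up_le hi', H.NV_le t1, H.NV_le t2]

theorem ρ_le {t : W} {j : ℕ} (hj : D.Up S t j) :
    S.nm (D.ρ j) ≤ D.Z S t + |D.γ t| := by
  have := S.le_add_const (H.cρ j) (S.c_pos (S.c_sub (H.cρ j) (S.c_const (D.γ t))))
    (abs_nonneg (D.γ t)) fun p => by
      rw [abs_of_nonneg (ρ0 _ _)]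
      linarith [le_max_left (D.ρ j p - D.γ t) 0, le_abs_self (D.γ t)]
  linarith [H.up_le hj, H.NV_le t]

/-- (e) the averaged Hessian form -/
theorem ab_le {t : W} (G : D.Gd t) : S.nm (D.ab t) ≤ D.l2 * D.Λ S t + D.ξ := by
  have k := S.mono' (H.cab t) (S.c_add (S.c_cmul D.l2 (H.cX t)) H.cΞ) fun p => by
    rw [ab, abs_of_nonneg (sum_nonneg fun y _ => mul_nonneg (H.ω0 t y) (H.a0 y p))]
    calc _ ≤ ∑ y ∈ D.I t, D.ω t y * (D.l2 * ∑ k ∈ range (D.L + 1), (D.Dk k y p + 1) + D.Ξ p) :=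
          sum_le_sum fun y hy => mul_le_mul_of_nonneg_left (G.g2 y hy p) (H.ω0 t y)
      _ = _ := by
        rw [X, mul_sum]
        simp only [mul_add (D.ω t _), sum_add_distrib, ← sum_mul, G.ω1, one_mul, mul_left_comm]
  have k2 := S.add (S.c_cmul D.l2 (H.cX t)) H.cΞ
  have k3 := S.smul D.l2 H.l20 (H.cX t)
  simp only [Λ]
  linarith [H.nΞ]

/-- (d) splitting into scales -/
theorem Λ_le {t : W} (h1 : ∑ y ∈ D.I t, D.ω t y = 1) :
    D.Λ S t ≤ ∑ k ∈ range (D.L + 1), (D.Λk S t k + 1) := by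
  have e : D.X t = fun p => ∑ k ∈ range (D.L + 1), (∑ y ∈ D.I t, D.ω t y * D.Dk k y p + 1) := by
    funext p
    simp only [X, mul_sum]
    rw [sum_comm]
    exact sum_congr rfl fun k _ => by simp only [mul_add, sum_add_distrib, mul_one, h1]
  have c : ∀ k, S.C fun p => ∑ y ∈ D.I t, D.ω t y * D.Dk k y p := fun k =>
    S.c_sum _ fun y _ => S.c_cmul _ (H.cD k y)
  rw [Λ, e]
  refine (S.sum_le _ fun k _ => S.c_add (c k) (S.c_const 1)).trans (sum_le_sum fun k _ => ?_)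
  exact (S.add (c k) (S.c_const 1)).trans (add_le_add le_rfl (S.const 1 zero_le_one))

theorem Λk_point {t : W} {k : ℕ} (h1 : ∑ y ∈ D.I t, D.ω t y = 1) (hk : k < D.L) {M : ℝ}
    (hM : ∀ y ∈ D.I t, S.nm (D.inc (D.b (k + 1) y) (D.b k y)) ≤ M) : D.Λk S t k ≤ M / D.u k := by
  refine S.wsum_le _ (fun y _ => H.cD k y) (fun y _ => H.ω0 t y) h1 fun y hy => ?_
  have : D.Dk k y = fun p => (D.u k)⁻¹ * D.inc (D.b (k + 1) y) (D.b k y) p := by
    funext p; rw [Dk, if_pos hk, div_eq_inv_mul]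
  rw [this, div_eq_inv_mul]
  have u := (inv_pos.2 (H.u0 k)).le
  exact (S.smul _ u (H.cinc _ _)).trans (mul_le_mul_of_nonneg_left (hM y hy) u)

theorem Λk_top {t : W} (h1 : ∑ y ∈ D.I t, D.ω t y = 1) {M : ℝ}
    (hM : ∀ y ∈ D.I t, S.nm (D.ρ (D.b D.L y)) ≤ M) : D.Λk S t D.L ≤ M / D.u D.L := by
  refine S.wsum_le _ (fun y _ => H.cD _ y) (fun y _ => H.ω0 t y) h1 fun y hy => ?_
  have : D.Dk D.L y = fun p => (D.u D.L)⁻¹ * D.ρ (D.b D.L y) p := by
    funext p; rw [Dk, if_neg (lt_irrefl _), div_eq_inv_mul]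
  rw [this, div_eq_inv_mul]
  have u := (inv_pos.2 (H.u0 D.L)).le
  exact (S.smul _ u (H.cρ _)).trans (mul_le_mul_of_nonneg_left (hM y hy) u)

end Ok

end Dat

end Crest.Agent.T156.Q21

end
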