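import Crest.Agent.T156.QTwoA_21
import Crest.Agent.T156.QDef_57

/-!
# Row 156, block Q, leaf C6 (helper21), part B: the core in the frame of `QDef_57`
-/

set_option autoImplicit false
set_option linter.unusedSectionVars false

noncomputable section

namespace Crest.Agent.T156.Q21

open MeasureTheory Finset Real Crest.Agent.T156.Q57

section ns
variable {α : Type} [MeasurableSpace α] {μ : Measure α} {p : ℕ} {X Y : α → ℝ}

/-- the `L^p` norm -/
def nr (μ : Measure α) (p : ℕ) (X : α → ℝ) : ℝ := (∫ a, |X a| ^ p ∂μ) ^ ((p : ℝ)⁻¹)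

theorem nr0 (X : α → ℝ) : 0 ≤ nr μ p X :=
  rpow_nonneg (integral_nonneg fun _ => by positivity) _

theorem nr_pow (hp : 1 ≤ p) (X : α → ℝ) : nr μ p X ^ p = ∫ a, |X a| ^ p ∂μ :=
  rpow_inv_natCast_pow (integral_nonneg fun _ => by positivity) (by omega)

theorem nb_nr (hp : 1 ≤ p) (X : α → ℝ) : Nb μ p X (nr μ p X) := ⟨nr0 X, (nr_pow hp X).ge⟩

theorem nr_le (hp : 1 ≤ p) {c : ℝ} (h : Nb μ p X c) : nr μ p X ≤ c :=
  (pow_le_pow_iff_left₀ (nr0 X) h.1 (by omega)).1 ((nr_pow hp X).trans_le h.2)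

theorem nb_of_le (hp : 1 ≤ p) {c : ℝ} (h : nr μ p X ≤ c) : Nb μ p X c :=
  ⟨(nr0 X).trans h, (nr_pow hp X).ge.trans (pow_le_pow_left₀ (nr0 X) h p)⟩

theorem bm_const (c : ℝ) : Bm fun _ : α => c := ⟨measurable_const, |c|, fun _ => le_rfl⟩

theorem bm_add (h : Bm X) (h' : Bm Y) : Bm fun a => X a + Y a := by
  obtain ⟨m, C, hC⟩ := h
  obtain ⟨m', C', hC'⟩ := h'
  exact ⟨m.add m', C + C', fun a => (abs_add_le _ _).trans (add_le_add (hC a) (hC' a))⟩

theorem bm_mul (h : Bm X) (h' : Bm Y) : Bm fun a => X a * Y a := by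
  obtain ⟨m, C, hC⟩ := h
  obtain ⟨m', C', hC'⟩ := h'
  exact ⟨m.mul m', C * C', fun a => by
    rw [abs_mul]; exact mul_le_mul (hC a) (hC' a) (abs_nonneg _) ((abs_nonneg _).trans (hC a))⟩

theorem bm_abs (h : Bm X) : Bm fun a => |X a| := by
  obtain ⟨m, C, hC⟩ := h
  exact ⟨m.abs, C, fun a => by simpa using hC a⟩

/-- the seminorm frame of a probability space -/
def ns (hN : NbS) (μ : Measure α) [IsProbabilityMeasure μ] {p : ℕ} (hp : 1 ≤ p) : NS α where
  C := Bm
  nm := nr μ p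
  c_const := bm_const
  c_add := bm_add
  c_mul := bm_mul
  c_abs := bm_abs
  nonneg := nr0
  mono := fun h h' e => nr_le hp ((hN α μ p hp).2.1 _ _ _ h h' e (nb_nr hp _))
  add := fun {F G} h h' => nr_le hp (by
    have := (hN α μ p hp).1 Bool univ (fun b => bif b then F else G)
      (fun b => bif b then nr μ p F else nr μ p G) (fun b _ => by cases b <;> assumption)
      (fun b _ => by cases b <;> exact nb_nr hp _)
    simpa using this)
  smul := fun {F} c hc _ => nr_le hp ⟨mul_nonneg hc (nr0 F), by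
    simp only [abs_mul, abs_of_nonneg hc, mul_pow, integral_const_mul, nr_pow hp, le_refl]⟩
  const := fun c hc => nr_le hp ⟨hc, by simp [abs_of_nonneg hc]⟩

end ns

variable {α ι : Type} [MeasurableSpace α] [Fintype ι]

/-- first node of the window -/
def st (N : ℕ → ℕ) (t : ℕ × Bool) : ℕ := bif t.2 then t.1 else t.1 - N t.1

open Classical in
/-- the data: the window `(j, true)` starts at `j`, the window `(j, false)` ends before `j` -/
def dat (S : Sys α ι) (Bad : Set α) (L j1 : ℕ) (v l2 l3 e : ℝ) (N : ℕ → ℕ) (c : ℕ → ℝ) :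
    Dat α ι (ℕ × Bool) where
  m := S.m
  a := S.aa
  Ξ := fun a => if a ∈ Bad then 2 else 0
  I := fun t => Ico (st N t) (st N t + N t.1)
  ω := fun t _ => (N t.1 : ℝ)⁻¹
  b := fun k y => y - 2 ^ k / 2
  u := fun k => 2 ^ k * v
  L := L + 1
  J := j1
  γ := fun t => c t.1
  r := fun t => av (st N t) (N t.1) S.r
  l1 := √l2
  l2 := (L + 2) * l3
  ξ := 2 * e

section dict
variable {S : Sys α ι} {Bad : Set α} {L j1 : ℕ} {v l2 l3 e : ℝ} {N : ℕ → ℕ} {c : ℕ → ℝ}

theorem dat_ρ (j : ℕ) : (dat S Bad L j1 v l2 l3 e N c).ρ j = S.rho j := rfl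

theorem dat_inc (i j : ℕ) :
    (dat S Bad L j1 v l2 l3 e N c).inc i j = fun a => sq2 (S.m j a - S.m i a) := rfl

theorem dat_D (k y : ℕ) (hk : k ≤ L + 1) (a : α) :
    (dat S Bad L j1 v l2 l3 e N c).Dk k y a = S.D L v k y a := by
  have e1 : ∀ k : ℕ, 2 ^ (k + 1) / 2 = 2 ^ k := fun k => by rw [pow_succ]; omega
  unfold Dat.Dk Sys.D Sys.pc
  by_cases h : k ≤ L
  · rw [if_pos h, if_pos (show k < (dat S Bad L j1 v l2 l3 e N c).L from Nat.lt_succ_of_le h)]
    simp only [dat_inc, dat, e1]; rfl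
  · rw [if_neg h, if_neg (show ¬ k < (dat S Bad L j1 v l2 l3 e N c).L from fun h' => h (by
      simpa [dat, Nat.lt_succ_iff] using h'))]
    simp only [dat, e1]; rfl

theorem av_eq (b n : ℕ) (f : ℕ → ℝ) : av b n f = ∑ y ∈ Ico b (b + n), (n : ℝ)⁻¹ * f y := by
  rw [av, ← mul_sum, div_eq_inv_mul]

theorem dat_rb (t : ℕ × Bool) (a : α) : (dat S Bad L j1 v l2 l3 e N c).rb t a =
    av (st N t) (N t.1) fun y => S.rho y a := (av_eq _ _ _).symm

theorem dat_ab (t : ℕ × Bool) (a : α) : (dat S Bad L j1 v l2 l3 e N c).ab t a =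
    av (st N t) (N t.1) fun y => S.aa y a := (av_eq _ _ _).symm

theorem sum_pc (y : ℕ) (a : α) : ∑ k ∈ range (L + 2), S.pc L k y a = S.m y a := by
  have e1 : ∀ k : ℕ, 2 ^ (k + 1) / 2 = 2 ^ k := fun k => by rw [pow_succ]; omega
  rw [sum_range_succ]
  have : ∑ k ∈ range (L + 1), S.pc L k y a =
      ∑ k ∈ range (L + 1), (S.m (y - 2 ^ k / 2) a - S.m (y - 2 ^ (k + 1) / 2) a) :=
    sum_congr rfl fun k hk => by rw [Sys.pc, if_pos (Nat.lt_succ_iff.1 (mem_range.1 hk)), e1]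
  rw [this, sum_range_sub' fun k => S.m (y - 2 ^ k / 2) a, Sys.pc, if_neg (by omega), e1]
  simp

theorem abs_m_le (H : S.Ok) (j : ℕ) (a : α) (i : ι) : |S.m j a i| ≤ 1 := by
  have h : S.m j a i ^ 2 ≤ 1 :=
    (single_le_sum (f := fun i => S.m j a i ^ 2) (fun _ _ => sq_nonneg _) (mem_univ i)).trans
      (H.bd j a)
  exact abs_le_one_iff_mul_self_le_one.2 (by nlinarith)

theorem aa_le (H : S.Ok) (j : ℕ) (a : α) : S.aa j a ≤ 1 := (H.bdB j a _).trans (H.bd j a)

theorem bm_aa (H : S.Ok) (j : ℕ) : Bm (S.aa j) :=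
  ⟨Finset.measurable_sum _ fun i _ => Finset.measurable_sum _ fun k _ =>
    ((H.mm j i).mul (H.mm j k)).mul (H.mA j i k), 1, fun a => by
      rw [abs_of_nonneg (show 0 ≤ S.aa j a from H.psd j a _)]; exact aa_le H j a⟩

theorem B_add (H : S.Ok) (j : ℕ) (a : α) (z z' : ι → ℝ) {θ : ℝ} (hθ : 0 < θ) :
    S.B j a (z + z') ≤ (1 + 1 / θ) * S.B j a z + (1 + θ) * S.B j a z' := by
  have h := H.psd j a (z - θ • z')
  have e : θ * ((1 + 1 / θ) * S.B j a z + (1 + θ) * S.B j a z' - S.B j a (z + z')) =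
      S.B j a (z - θ • z') := by
    simp only [Sys.B, mul_sum, ← sum_add_distrib, ← sum_sub_distrib, Pi.add_apply, Pi.sub_apply,
      Pi.smul_apply, smul_eq_mul]
    refine sum_congr rfl fun i _ => sum_congr rfl fun k _ => ?_
    field_simp; ring
  rw [← e] at h
  linarith [nonneg_of_mul_nonneg_right h hθ]

theorem B_sum (H : S.Ok) (j : ℕ) (a : α) (z : ℕ → ι → ℝ) : ∀ n : ℕ,
    S.B j a (∑ k ∈ range (n + 1), z k) ≤ (n + 1) * ∑ k ∈ range (n + 1), S.B j a (z k)
  | 0 => by simp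
  | n + 1 => by
    have ih := B_sum H j a z n
    have p : (0 : ℝ) < n + 1 := by positivity
    rw [sum_range_succ, sum_range_succ _ (n + 1)]
    refine (B_add H j a _ _ p).trans ?_
    have := mul_le_mul_of_nonneg_left ih (show 0 ≤ 1 + 1 / ((n : ℝ) + 1) by positivity)
    have e : (1 + 1 / ((n : ℝ) + 1)) * ((n + 1) * ∑ k ∈ range (n + 1), S.B j a (z k)) =
        (n + 1 + 1) * ∑ k ∈ range (n + 1), S.B j a (z k) := by field_simp
    push_cast
    nlinarith

theorem abs_Y_le (H : S.Ok) (y j : ℕ) (a : α) :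
    |(dat S Bad L j1 v l2 l3 e N c).Y y j a| ≤ 2 := by
  have h1 := Dat.inc_eq (D := dat S Bad L j1 v l2 l3 e N c) y j a
  have h2 := Dat.inc0 (D := dat S Bad L j1 v l2 l3 e N c) y j a
  have h3 : (dat S Bad L j1 v l2 l3 e N c).inc y j a ≤ 2 * (S.rho j a + S.rho y a) := by
    simp only [Dat.inc, Sys.rho, sq2, mul_sum, ← sum_add_distrib]
    exact sum_le_sum fun k _ => by
      show (S.m j a k - S.m y a k) ^ 2 ≤ _
      nlinarith [sq_nonneg (S.m j a k + S.m y a k)]
  rw [dat_ρ, dat_ρ] at h1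
  have r0 : ∀ j, 0 ≤ S.rho j a := fun j => sum_nonneg fun _ _ => sq_nonneg _
  rw [abs_le]
  constructor <;> linarith [H.bd j a, H.bd y a, r0 j, r0 y]

theorem D_le (H : S.Ok) (hv : 0 < v) (k y : ℕ) (a : α) :
    (dat S Bad L j1 v l2 l3 e N c).Dk k y a ≤ 4 / v := by
  have h3 : ∀ i j, (dat S Bad L j1 v l2 l3 e N c).inc i j a ≤ 4 := fun y j => by
    have : (dat S Bad L j1 v l2 l3 e N c).inc y j a ≤ 2 * (S.rho j a + S.rho y a) := by
      simp only [Dat.inc, Sys.rho, sq2, mul_sum, ← sum_add_distrib]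
      exact sum_le_sum fun k _ => by
        show (S.m j a k - S.m y a k) ^ 2 ≤ _
        nlinarith [sq_nonneg (S.m j a k + S.m y a k)]
    linarith [H.bd j a, H.bd y a]
  refine div_le_div₀ (by norm_num) ?_ hv (le_mul_of_one_le_left hv.le (one_le_pow₀ one_le_two))
  split_ifs
  · exact h3 _ _
  · exact (H.bd _ a).trans (by norm_num)

theorem dat_ok (hN : NbS) (H : S.Ok) {p : ℕ} (hp : 1 ≤ p) (hB : MeasurableSet Bad)
    (hμ : S.μ.real Bad ≤ e ^ p) (he : 0 ≤ e) (hv : 0 < v) (h3 : 0 ≤ l3) :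
    haveI := H.prob; (dat S Bad L j1 v l2 l3 e N c).Ok (ns hN S.μ hp) := by
  have := H.prob
  classical
  have cΞ : Bm (dat S Bad L j1 v l2 l3 e N c).Ξ :=
    ⟨Measurable.ite hB measurable_const measurable_const, 2, fun a => by
      simp only [dat]; split_ifs <;> norm_num⟩
  refine ⟨fun j i => ⟨H.mm j i, 1, fun a => abs_m_le H j a i⟩, bm_aa H, fun j a => H.psd j a _, cΞ,
    ?_, fun a => ?_, fun t y => ?_, fun k => ?_, sqrt_nonneg _, ?_⟩
  · have := (hN α S.μ p hp).2.2.2.2.2 Bad _ (fun _ => 0) 0 2 e hB cΞ (bm_const 0) zero_le_two he hμ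
      (fun a => by simp only [dat]; split_ifs <;> norm_num)
      (fun a ha => by simp only [dat, if_neg ha, le_refl]) ⟨le_rfl, by simp [show p ≠ 0 by omega]⟩
    rw [zero_add] at this
    exact nr_le hp this
  · simp only [dat]; split_ifs <;> norm_num
  · simp only [dat]; positivity
  · simp only [dat]; positivity
  · simp only [dat]; positivity

theorem dat_gd (H : S.Ok) {j0 : ℕ} (hv : 0 < v) (h2 : 0 ≤ l2) (h3 : 0 ≤ l3)
    (hG : ∀ a, a ∉ Bad → ∀ k ≤ L + 1, ∀ y, j0 + 2 ^ L ≤ y → y ≤ j1 →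
      S.B y a (S.pc L k y a) ≤ l3 * S.D L v k y a ∧
      ∀ y', y ≤ y' → y' ≤ j1 → dt (S.pc L k y a) (S.m y' a - S.m y a) ^ 2 ≤ l2 * S.D L v k y a)
    {t : ℕ × Bool} (hN : 1 ≤ N t.1) (h0 : j0 + 2 ^ L ≤ st N t) (h1 : st N t + N t.1 ≤ j1) :
    (dat S Bad L j1 v l2 l3 e N c).Gd t := by
  classical
  have D0 : ∀ k y a, 0 ≤ S.D L v k y a := fun k y a =>
    div_nonneg (sum_nonneg fun _ _ => sq_nonneg _) (by positivity)
  have hk : ∀ k ∈ range ((dat S Bad L j1 v l2 l3 e N c).L + 1), k ≤ L + 1 := fun k hk =>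
    Nat.lt_succ_iff.1 (mem_range.1 hk)
  refine ⟨?_, fun y hy j hj hJ a => ?_, fun y hy a => ?_⟩
  · simp only [dat, sum_const, Nat.card_Ico, add_tsub_cancel_left, nsmul_eq_mul]
    exact mul_inv_cancel₀ (by positivity)
  · have hy := mem_Ico.1 hy
    by_cases ha : a ∈ Bad
    · refine (abs_Y_le H y j a).trans ?_
      have : (dat S Bad L j1 v l2 l3 e N c).Ξ a = 2 := if_pos ha
      rw [this]
      exact le_add_of_nonneg_left (mul_nonneg (sqrt_nonneg _) (sum_nonneg fun _ _ => sqrt_nonneg _))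
    · have : (dat S Bad L j1 v l2 l3 e N c).Ξ a = 0 := if_neg ha
      rw [this, add_zero]
      have e1 : (dat S Bad L j1 v l2 l3 e N c).Y y j a =
          ∑ k ∈ range (L + 2), dt (S.pc L k y a) (S.m j a - S.m y a) := by
        simp only [dt]
        rw [sum_comm]
        refine sum_congr rfl fun i _ => ?_
        rw [← sum_mul, ← Finset.sum_apply, sum_pc]; rfl
      rw [e1, mul_sum]
      refine (abs_sum_le_sum_abs _ _).trans (sum_le_sum fun k hk' => ?_)
      rw [dat_D k y (hk k hk')]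
      show _ ≤ √l2 * _
      rw [← sqrt_mul h2]
      refine abs_le_sqrt (((hG a ha k (hk k hk') y (by omega) (by omega)).2 j hj hJ).trans ?_)
      nlinarith
  · have hy := mem_Ico.1 hy
    have s0 : 0 ≤ ∑ k ∈ range ((dat S Bad L j1 v l2 l3 e N c).L + 1),
        ((dat S Bad L j1 v l2 l3 e N c).Dk k y a + 1) :=
      sum_nonneg fun k hk' => by rw [dat_D k y (hk k hk')]; linarith [D0 k y a]
    by_cases ha : a ∈ Bad
    · have : (dat S Bad L j1 v l2 l3 e N c).Ξ a = 2 := if_pos ha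
      rw [this]
      have q : 0 ≤ (dat S Bad L j1 v l2 l3 e N c).l2 := by simp only [dat]; positivity
      have := aa_le H y a
      show S.aa y a ≤ _
      nlinarith [mul_nonneg q s0]
    · have : (dat S Bad L j1 v l2 l3 e N c).Ξ a = 0 := if_neg ha
      rw [this, add_zero]
      show S.B y a (S.m y a) ≤ ((L : ℝ) + 2) * l3 * _
      have := B_sum H y a (fun k => S.pc L k y a) (L + 1)
      rw [sum_pc] at this
      refine this.trans ?_
      push_cast
      rw [show (L : ℝ) + 1 + 1 = L + 2 by ring, mul_assoc, mul_sum _ _ l3]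
      refine mul_le_mul_of_nonneg_left (sum_le_sum fun k hk' => ?_) (by positivity)
      rw [dat_D k y (hk k hk')]
      refine (hG a ha k (hk k hk') y (by omega) (by omega)).1.trans ?_
      nlinarith

end dict

/-- sums of shifted increments through the residue classes -/
theorem qv_shift {P : Type} (S : NS P) {f : ℕ → ℕ → P → ℝ} (hf : ∀ i j, S.C (f i j))
    (f0 : ∀ i j a, 0 ≤ f i j a) (lo n h : ℕ) (hh : 1 ≤ h) {M : ℝ}
    (hM : ∀ ρ < h, S.nm (fun a => ∑ i ∈ range (n / h + 1),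
      f (lo + ρ + i * h) (lo + ρ + (i + 1) * h) a) ≤ M) :
    S.nm (fun a => ∑ y ∈ Ico lo (lo + n), f y (y + h) a) ≤ h * M := by
  have c := fun ρ => S.c_sum (range (n / h + 1)) fun i _ =>
    hf (lo + ρ + i * h) (lo + ρ + (i + 1) * h)
  refine (S.mono' (S.c_sum _ fun y _ => hf _ _) (S.c_sum (range h) fun ρ _ => c ρ) fun a => ?_).trans
    ((S.sum_le _ fun ρ _ => c ρ).trans ?_)
  · rw [abs_of_nonneg (sum_nonneg fun _ _ => f0 _ _ _), ← sum_product']
    have inj : Set.InjOn (fun y => ((y - lo) % h, (y - lo) / h)) (Ico lo (lo + n) : Finset ℕ) :=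
      fun y hy y' hy' e => by
        have h1 := mem_Ico.1 (mem_coe.1 hy)
        have h2 := mem_Ico.1 (mem_coe.1 hy')
        have a1 := Nat.mod_add_div (y - lo) h
        have a2 := Nat.mod_add_div (y' - lo) h
        simp only [Prod.mk.injEq] at e
        rw [e.1, e.2] at a1
        omega
    have e0 : ∑ y ∈ Ico lo (lo + n), f y (y + h) a =
        ∑ x ∈ (Ico lo (lo + n)).image fun y => ((y - lo) % h, (y - lo) / h),
          f (lo + x.1 + x.2 * h) (lo + x.1 + (x.2 + 1) * h) a := by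
      rw [sum_image inj]
      refine sum_congr rfl fun y hy => ?_
      have h1 := mem_Ico.1 hy
      have a1 := Nat.mod_add_div' (y - lo) h
      have e1 : lo + (y - lo) % h + (y - lo) / h * h = y := by omega
      have e2 : lo + (y - lo) % h + ((y - lo) / h + 1) * h = y + h := by rw [add_mul]; omega
      simp only [e1, e2]
    rw [e0]
    refine sum_le_sum_of_subset_of_nonneg (fun y hy => ?_) fun _ _ _ => f0 _ _ _
    obtain ⟨z, hz, rfl⟩ := mem_image.1 hy
    have h1 := mem_Ico.1 hz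
    exact mem_product.2 ⟨mem_range.2 (Nat.mod_lt _ hh), mem_range.2
      (Nat.lt_succ_of_le (Nat.div_le_div_right (by omega)))⟩
  · calc _ ≤ ∑ ρ ∈ range h, M := sum_le_sum fun ρ hρ => hM ρ (mem_range.1 hρ)
      _ = h * M := by simp

end Crest.Agent.T156.Q21

end
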