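import Crest.Agent.T156.QTwoB_21

/-!
# Row 156, block Q, leaf C6 (helper21): `L^p` synchronisation, `Q57.syncS_of`
-/

set_option autoImplicit false
set_option linter.unusedSectionVars false

noncomputable section

namespace Crest.Agent.T156.Q21

open MeasureTheory Finset Real Crest.Agent.T156.Q57

variable {α ι : Type} [MeasurableSpace α] [Fintype ι]

/-- everything that is fixed during the iteration -/
structure Ctx (S : Sys α ι) (Sn : NS α) (Bad : Set α) (L j0 j1 : ℕ) (v l2 l3 e K CB A : ℝ)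
    (N : ℕ → ℕ) (τ c g : ℕ → ℝ) : Prop where
  ok : S.Ok
  win : S.Win L v l2 l3 K j0 j1 N τ c g
  dok : (dat S Bad L j1 v l2 l3 e N c).Ok Sn
  gd : ∀ t : ℕ × Bool, j0 + 2 ^ L ≤ st N t → st N t + N t.1 ≤ j1 →
    (dat S Bad L j1 v l2 l3 e N c).Gd t
  ev : e ≤ v
  e3 : e ≤ l3
  CB1 : 1 ≤ CB
  A1 : 1 ≤ A
  up : ∀ j, (dat S Bad L j1 v l2 l3 e N c).Up Sn (j, true) j
  bl : ∀ (J : Finset ℕ) (φ : ℕ → ℝ) (γ : ℝ),
    Sn.nm (fun a => ∑ j ∈ J, S.dm j * (φ j ^ 2 * S.aa j a)) ≤ γ →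
    Sn.nm (fun a => ∑ j ∈ J, S.dm j * (φ j * (S.rho j a - S.r j))) ≤ CB * √γ
  qv : ∀ (b h n : ℕ) (X : ℝ), n + 1 ≤ 2 ^ (L + 3) →
    (∀ i ≤ n, Sn.nm (fun a => sq2 (S.m (b + i * h) a - S.m b a)) ≤ X) →
    Sn.nm (fun a => ∑ i ∈ range n, sq2 (S.m (b + (i + 1) * h) a - S.m (b + i * h) a)) ≤ A * X

/-- the shrinking ranges -/
def Rg (L j0 j1 n j : ℕ) : Prop := j0 + (n + 1) * (8 * 2 ^ L) ≤ j ∧ j + (n + 1) * (8 * 2 ^ L) ≤ j1

theorem Rg.near {L j0 j1 n j i : ℕ} (h : Rg L j0 j1 (n + 1) j) (h1 : i ≤ j + 8 * 2 ^ L)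
    (h2 : j ≤ i + 8 * 2 ^ L) : Rg L j0 j1 n i := by
  obtain ⟨a, b⟩ := h
  rw [add_mul (n + 1)] at a b
  constructor <;> omega

theorem Rg.base {L j0 j1 n j : ℕ} (h : Rg L j0 j1 n j) :
    j0 + 8 * 2 ^ L ≤ j ∧ j + 8 * 2 ^ L ≤ j1 := by
  obtain ⟨a, b⟩ := h
  rw [add_mul n] at a b
  constructor <;> omega

theorem r_mem {S : Sys α ι} (H : S.Ok) (j : ℕ) : 0 ≤ S.r j ∧ S.r j ≤ 1 := by
  have := H.prob
  have r0 : ∀ a, 0 ≤ S.rho j a := fun a => sum_nonneg fun _ _ => sq_nonneg _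
  refine ⟨integral_nonneg r0, ?_⟩
  have := integral_mono_of_nonneg (μ := S.μ) (f := S.rho j) (g := fun _ => (1 : ℝ))
    (.of_forall r0) (integrable_const 1) (.of_forall (H.bd j))
  simpa [Sys.r] using this

theorem abs_av_le {b n : ℕ} (hn : 1 ≤ n) {f : ℕ → ℝ} {q M : ℝ}
    (h : ∀ y ∈ Ico b (b + n), |f y - q| ≤ M) : |av b n f - q| ≤ M := by
  have p : (0 : ℝ) < n := by positivity
  have e : av b n f - q = (∑ y ∈ Ico b (b + n), (f y - q)) / n := by
    rw [sum_sub_distrib, av]; simp only [sum_const, Nat.card_Ico, add_tsub_cancel_left, nsmul_eq_mul]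
    field_simp
  rw [e, abs_div, abs_of_pos p, div_le_iff₀ p]
  refine (abs_sum_le_sum_abs _ _).trans ((sum_le_sum h).trans_eq ?_)
  simp [mul_comm]

namespace Ctx
variable {S : Sys α ι} {Sn : NS α} {Bad : Set α} {L j0 j1 : ℕ} {v l2 l3 e K CB A : ℝ}
  {N : ℕ → ℕ} {τ c g : ℕ → ℝ} (H : Ctx S Sn Bad L j0 j1 v l2 l3 e K CB A N τ c g)
include H

theorem Nv0 (j : ℕ) : 0 < N j * v := mul_pos (by exact_mod_cast H.win.N1 j) H.win.v0
theorem τ0 (j : ℕ) : 0 < τ j := (H.Nv0 j).trans_le (H.win.Nv j)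
theorem q1 (j : ℕ) : 1 ≤ τ j / (N j * v) := (one_le_div (H.Nv0 j)).2 (H.win.Nv j)
theorem v_le (j : ℕ) : v ≤ τ j :=
  (le_mul_of_one_le_left H.win.v0.le (by exact_mod_cast H.win.N1 j)).trans (H.win.Nv j)

theorem st_bd (j : ℕ) (b : Bool) (hj : 2 ^ L ≤ j) : st N (j, b) ≤ j ∧ j ≤ st N (j, b) + N j := by
  have := H.win.NU j
  cases b <;> simp only [st, cond_true, cond_false] <;> omega

theorem gd' {n j : ℕ} (hj : Rg L j0 j1 n j) (b : Bool) :
    (dat S Bad L j1 v l2 l3 e N c).Gd (j, b) := by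
  have h1 := hj.base
  have h2 := H.st_bd j b (by omega)
  have h3 := H.win.NU j
  exact H.gd _ (by omega) (by show _ + N j ≤ _; omega)

theorem c_sub {i j : ℕ} {d : ℕ} (h1 : i ≤ j + d) (h2 : j ≤ i + d) : |c i - c j| ≤ d * v := by
  have v0 := H.win.v0
  rcases le_total i j with k | k
  · obtain ⟨a, b⟩ := H.win.clk i j k
    rw [abs_sub_comm, abs_of_nonneg a]
    refine b.trans (mul_le_mul_of_nonneg_right ?_ v0.le)
    have : (j : ℝ) ≤ i + d := by exact_mod_cast h2
    linarith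
  · obtain ⟨a, b⟩ := H.win.clk j i k
    rw [abs_of_nonneg a]
    refine b.trans (mul_le_mul_of_nonneg_right ?_ v0.le)
    have : (i : ℝ) ≤ j + d := by exact_mod_cast h1
    linarith

theorem τ_near {n i j : ℕ} (hj : Rg L j0 j1 n j) (h1 : i ≤ j + 4 * N j) (h2 : j ≤ i + 4 * N j) :
    τ i ≤ K * τ j := by
  have h3 := hj.base
  have h4 := H.win.NU j
  exact (H.win.near i j (by omega) (by omega) (by omega) (by omega) h1 h2).2.2

theorem τ_back {n i j d : ℕ} (hj : Rg L j0 j1 n j) (hd : N j ≤ d) (hd' : d ≤ 2 ^ L)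
    (h1 : i ≤ j + N j) (h2 : j ≤ i + 2 * d) : τ i * N j ≤ 2 * K * τ j * d := by
  have h3 := hj.base
  have k0 : 0 ≤ K * τ j := mul_nonneg (by linarith [H.win.K1]) (H.τ0 j).le
  have d1 : (N j : ℝ) ≤ d := by exact_mod_cast hd
  by_cases k : i + N j ≤ j
  · refine (H.win.back i j (by omega) (by omega) k (by omega)).trans ?_
    have : (j : ℝ) ≤ i + 2 * d := by exact_mod_cast h2
    nlinarith
  · have := H.τ_near hj (i := i) (by omega) (by omega)
    have n0 : (0 : ℝ) ≤ N j := by positivity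
    nlinarith [mul_le_mul this d1 n0 k0]

theorem ab_le {n j : ℕ} (hj : Rg L j0 j1 n j) (b : Bool) {x : ℝ}
    (hΛ : (dat S Bad L j1 v l2 l3 e N c).Λ Sn (j, b) ≤ (L + 2) * x * (τ j / (N j * v))) :
    Sn.nm ((dat S Bad L j1 v l2 l3 e N c).ab (j, b)) ≤
      (x + 2) * (((L : ℝ) + 2) ^ 2 * l3 * (τ j / (N j * v))) := by
  refine (H.dok.ab_le (H.gd' hj b)).trans ?_
  show ((L : ℝ) + 2) * l3 * _ + 2 * e ≤ _
  have l3p := H.win.l30
  have h1 := mul_le_mul_of_nonneg_left hΛ (show 0 ≤ ((L : ℝ) + 2) * l3 by positivity)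
  have h2 : l3 ≤ ((L : ℝ) + 2) ^ 2 * l3 * (τ j / (N j * v)) := by
    have a0 : (0 : ℝ) ≤ L := by positivity
    have a : (1 : ℝ) ≤ ((L : ℝ) + 2) ^ 2 := one_le_pow₀ (by linarith)
    nlinarith [mul_le_mul a (H.q1 j) zero_le_one (by positivity)]
  nlinarith [H.e3]

theorem Z_le {n j : ℕ} (hj : Rg L j0 j1 n j) (b : Bool) {x : ℝ} (hx : 1 ≤ x)
    (hΛ : (dat S Bad L j1 v l2 l3 e N c).Λ Sn (j, b) ≤ (L + 2) * x * (τ j / (N j * v))) :
    (dat S Bad L j1 v l2 l3 e N c).Z Sn (j, b) ≤ (2 * CB + K + 7) * √x * τ j := by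
  have h3 := hj.base
  have h4 := H.win.NU j
  have h5 := H.st_bd j b (by omega)
  have t0 := H.τ0 j
  have n0 := H.Nv0 j
  have np : (0 : ℝ) < N j := by exact_mod_cast H.win.N1 j
  have sx : 1 ≤ √x := one_le_sqrt.2 hx
  have sx2 : √x ^ 2 = x := sq_sqrt (by linarith)
  have v0 := H.win.v0
  have hT : (dat S Bad L j1 v l2 l3 e N c).T Sn (j, b) ≤ √x * τ j + 2 * τ j := by
    show √l2 * √((((L + 1 : ℕ) : ℝ) + 1) * _) + 2 * e ≤ _
    refine add_le_add ?_ (by linarith [H.ev, H.v_le j])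
    rw [← sqrt_mul H.win.l20.le]
    refine sqrt_le_iff.2 ⟨by positivity, ?_⟩
    push_cast
    have a := mul_le_mul_of_nonneg_left hΛ (show 0 ≤ l2 * ((L : ℝ) + 2) by
      have := H.win.l20; positivity)
    have b' := mul_le_mul_of_nonneg_right (H.win.T4 j (by omega) (by omega))
      (show 0 ≤ x * (τ j / (N j * v)) by positivity)
    have e1 : τ j * (N j * v) * (x * (τ j / (N j * v))) = x * τ j ^ 2 := by field_simp
    rw [mul_pow, sx2]
    nlinarith
  have hV : (dat S Bad L j1 v l2 l3 e N c).V (j, b) ≤ (K + 1) * τ j := by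
    refine abs_av_le (H.win.N1 j) fun y hy => ?_
    have hy : st N (j, b) ≤ y ∧ y < st N (j, b) + N j := mem_Ico.1 hy
    have a1 := H.win.loc y (by omega) (by omega)
    have a2 := H.τ_near hj (i := y) (by omega) (by omega)
    have a3 := H.c_sub (i := y) (j := j) (d := N j) (by omega) (by omega)
    have a4 := abs_sub_le (S.r y) (c y) (c j)
    have := H.win.Nv j
    show |S.r y - c j| ≤ _
    linarith
  have hN : (dat S Bad L j1 v l2 l3 e N c).N Sn (j, b) ≤ 2 * CB * √x * τ j := by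
    have cN := Sn.c_sub (H.dok.crb (j, b)) (Sn.c_const ((dat S Bad L j1 v l2 l3 e N c).r (j, b)))
    rcases H.win.T3 j (by omega) (by omega) with k | ⟨g0, g1, g2⟩
    · have := Sn.mono' cN (Sn.c_const 2) fun a => by
        rw [dat_rb]
        have b1 := abs_av_le (b := st N (j, b)) (H.win.N1 j) (f := fun y => S.rho y a) (q := 0)
          (M := 1) fun y _ => by
            rw [sub_zero, abs_of_nonneg (show 0 ≤ S.rho y a from
              sum_nonneg fun _ _ => sq_nonneg _)]; exact H.ok.bd y a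
        have b2 := abs_av_le (b := st N (j, b)) (H.win.N1 j) (f := S.r) (q := 0)
          (M := 1) fun y _ => by
            rw [sub_zero, abs_of_nonneg (r_mem H.ok y).1]; exact (r_mem H.ok y).2
        rw [sub_zero] at b1 b2
        refine (abs_sub _ _).trans ?_
        show |av (st N (j, b)) (N j) fun y => S.rho y a| + |av (st N (j, b)) (N j) S.r| ≤ 2
        linarith
      refine (this.trans (Sn.const 2 zero_le_two)).trans ?_
      have := mul_le_mul H.CB1 sx zero_le_one (by linarith [H.CB1])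
      nlinarith
    · have dp : ∀ y ∈ Ico (st N (j, b)) (st N (j, b) + N j), g j ≤ S.dm y := fun y hy => by
        have hy := mem_Ico.1 hy
        exact g1 y (by omega) (by omega)
      have caa : ∀ y, Sn.C (S.aa y) := H.dok.ca
      have k1 : Sn.nm (fun a => ∑ y ∈ Ico (st N (j, b)) (st N (j, b) + N j),
          S.dm y * ((N j * S.dm y)⁻¹ ^ 2 * S.aa y a)) ≤ (2 * √x * τ j) ^ 2 := by
        refine (Sn.mono' (Sn.c_sum _ fun y _ => Sn.c_cmul _ (Sn.c_cmul _ (caa y)))
          (Sn.c_cmul (g j * N j)⁻¹ (H.dok.cab (j, b))) fun a => ?_).trans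
          ((Sn.smul _ (by positivity) (H.dok.cab (j, b))).trans ?_)
        · rw [abs_of_nonneg (sum_nonneg fun y _ => mul_nonneg (H.ok.dm0 y)
            (mul_nonneg (sq_nonneg _) (show 0 ≤ S.aa y a from H.ok.psd y a _))), dat_ab, av_eq,
            mul_sum]
          refine sum_le_sum fun y hy => ?_
          have d0 := g0.trans_le (dp y hy)
          have a0 : 0 ≤ S.aa y a := H.ok.psd y a _
          have : S.dm y * ((N j * S.dm y)⁻¹ ^ 2 * S.aa y a) =
              (S.dm y * N j)⁻¹ * ((N j : ℝ)⁻¹ * S.aa y a) := by field_simp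
          rw [this]
          exact mul_le_mul_of_nonneg_right (inv_anti₀ (by positivity)
            (mul_le_mul_of_nonneg_right (dp y hy) np.le)) (by positivity)
        · rw [inv_mul_le_iff₀ (by positivity)]
          refine (H.ab_le hj b hΛ).trans ?_
          have b' := mul_le_mul_of_nonneg_right g2 (show 0 ≤ τ j / (N j * v) by positivity)
          have e1 : g j * N j * (τ j * (N j * v)) * (τ j / (N j * v)) = g j * N j * τ j ^ 2 := by
            field_simp
          rw [e1] at b'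
          have q : 0 ≤ g j * N j * τ j ^ 2 := by positivity
          calc _ ≤ (x + 2) * (g j * N j * τ j ^ 2) := mul_le_mul_of_nonneg_left b' (by linarith)
            _ ≤ (4 * x) * (g j * N j * τ j ^ 2) := mul_le_mul_of_nonneg_right (by linarith) q
            _ = _ := by rw [mul_pow, mul_pow, sx2]; ring
      have k2 := H.bl _ _ _ k1
      rw [sqrt_sq (by positivity)] at k2
      refine le_of_eq_of_le ?_ (k2.trans_eq (by ring))
      unfold Dat.N
      congr 1
      funext a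
      rw [dat_rb]
      show av _ _ _ - av (st N (j, b)) (N j) S.r = _
      rw [av_eq, av_eq, ← sum_sub_distrib]
      refine sum_congr rfl fun y hy => ?_
      have d0 := g0.trans_le (dp y hy)
      show (N j : ℝ)⁻¹ * _ - _ = _
      field_simp
  unfold Dat.Z
  have k0 : 0 ≤ (K + 5) * τ j := mul_nonneg (by linarith [H.win.K1]) t0.le
  nlinarith [mul_le_mul_of_nonneg_left sx k0]

/-- the invariant -/
def Inv (_ : Ctx S Sn Bad L j0 j1 v l2 l3 e K CB A N τ c g) (n : ℕ) (x : ℝ) : Prop :=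
  ∀ j b, Rg L j0 j1 n j →
    (dat S Bad L j1 v l2 l3 e N c).Λ Sn (j, b) ≤ (L + 2) * x * (τ j / (N j * v))

theorem before {n j : ℕ} (hj : Rg L j0 j1 n j) :
    ∀ y ∈ (dat S Bad L j1 v l2 l3 e N c).I (j, false), y ≤ j := fun y hy => by
  have hy : j - N j ≤ y ∧ y < j - N j + N j := mem_Ico.1 hy
  have := hj.base
  have := H.win.NU j
  omega

theorem inc_le {n : ℕ} {x : ℝ} (hx : 1 ≤ x) (I : H.Inv n x) {i j : ℕ} (hi : Rg L j0 j1 n i)
    (hj : Rg L j0 j1 n j) {d : ℕ} (hij : i ≤ j) (hd : j ≤ i + d) :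
    Sn.nm ((dat S Bad L j1 v l2 l3 e N c).inc i j) ≤
      (2 * CB + K + 7) * √x * (6 * τ i + 2 * τ j) + 2 * (d * v) := by
  have h := H.dok.inc_le (H.gd' hi false) (H.before hi) hij
    (show j ≤ j1 by have := hj.base; omega) (H.up i) (H.up j)
  have z1 := H.Z_le hi false hx (I _ _ hi)
  have z2 := H.Z_le hi true hx (I _ _ hi)
  have z3 := H.Z_le hj true hx (I _ _ hj)
  have c1 := H.c_sub (i := j) (j := i) (d := d) hd (by omega)
  have e1 : |(dat S Bad L j1 v l2 l3 e N c).γ (i, true) -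
    (dat S Bad L j1 v l2 l3 e N c).γ (i, false)| = 0 := by simp [dat]
  have e2 : |(dat S Bad L j1 v l2 l3 e N c).γ (j, true) -
    (dat S Bad L j1 v l2 l3 e N c).γ (i, false)| = |c j - c i| := rfl
  rw [e1, e2] at h
  linarith

/-- one scale -/
theorem scale {n : ℕ} {x : ℝ} (hx : 1 ≤ x) (I : H.Inv n x) {j : ℕ} (hj : Rg L j0 j1 (n + 1) j)
    (b : Bool) {k : ℕ} (hk : k ≤ L + 1) :
    (dat S Bad L j1 v l2 l3 e N c).Λk Sn (j, b) k ≤
      A * (16 * K * (2 * CB + K + 7) + K + 8) * √x * (τ j / (N j * v)) := by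
  set C1 := 2 * CB + K + 7 with hC1
  have K1 := H.win.K1
  have c0 : 0 ≤ C1 := by linarith [H.CB1]
  have h3 := hj.base
  have h4 := H.win.NU j
  have h5 := H.st_bd j b (by omega)
  have t0 := H.τ0 j
  have n0 := H.Nv0 j
  have v0 := H.win.v0
  have q1 := H.q1 j
  have np : (0 : ℝ) < N j := by exact_mod_cast H.win.N1 j
  have sx : 1 ≤ √x := one_le_sqrt.2 hx
  have w1 := (H.gd' hj b).ω1
  have e1 : ∀ k : ℕ, 2 ^ (k + 1) / 2 = 2 ^ k := fun k => by rw [pow_succ]; omega
  have fin : ∀ y : ℝ, y ≤ (16 * K * C1 + K + 8) * √x * (τ j / (N j * v)) →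
      y ≤ A * (16 * K * C1 + K + 8) * √x * (τ j / (N j * v)) := fun y hy => by
    have : 0 ≤ (16 * K * C1 + K + 8) * √x * (τ j / (N j * v)) := by positivity
    nlinarith [H.A1]
  have xq : 1 ≤ √x * (τ j / (N j * v)) := by nlinarith
  rcases hk.lt_or_eq with hk | rfl
  · have kU : 2 ^ k ≤ 2 ^ L := Nat.pow_le_pow_right two_pos (by omega)
    have kp : 1 ≤ 2 ^ k := Nat.one_le_two_pow
    have kr : (0 : ℝ) < 2 ^ k := by positivity
    by_cases hs : 2 ^ k ≤ N j
    · set h := 2 ^ k - 2 ^ k / 2 with hh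
      have h1 : 1 ≤ h := by omega
      set X := (8 * K * C1 + 8) * √x * τ j with hX
      have key := qv_shift Sn H.dok.cinc Dat.inc0 (st N (j, b) - 2 ^ k) (N j) h h1 (M := A * X)
        fun ρ hρ => H.qv _ h _ X (by
          have := Nat.div_le_self (N j) h
          rw [pow_add]; omega) fun i hi => by
          have a1 : i * h ≤ (N j / h + 1) * h := Nat.mul_le_mul_right _ hi
          have a2 := Nat.div_mul_le_self (N j) h
          rw [add_mul, one_mul] at a1
          have b1 := H.inc_le hx I (i := st N (j, b) - 2 ^ k + ρ)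
            (j := st N (j, b) - 2 ^ k + ρ + i * h) (hj.near (by omega) (by omega))
            (hj.near (by omega) (by omega)) (d := 4 * N j) (by omega) (by omega)
          have b2 := H.τ_near hj (i := st N (j, b) - 2 ^ k + ρ) (by omega) (by omega)
          have b3 := H.τ_near hj (i := st N (j, b) - 2 ^ k + ρ + i * h) (by omega) (by omega)
          refine b1.trans ?_
          have b4 := mul_le_mul_of_nonneg_left (show 6 * τ (st N (j, b) - 2 ^ k + ρ) +
            2 * τ (st N (j, b) - 2 ^ k + ρ + i * h) ≤ 8 * K * τ j by linarith)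
            (show 0 ≤ C1 * √x by positivity)
          have b5 := H.win.Nv j
          push_cast
          nlinarith [mul_le_mul_of_nonneg_right sx t0.le]
      have e2 : (fun a => ∑ y ∈ (dat S Bad L j1 v l2 l3 e N c).I (j, b),
          (dat S Bad L j1 v l2 l3 e N c).ω (j, b) y * (dat S Bad L j1 v l2 l3 e N c).Dk k y a) =
          fun a => (N j * (2 ^ k * v))⁻¹ * ∑ y ∈ Ico (st N (j, b) - 2 ^ k)
            (st N (j, b) - 2 ^ k + N j), (dat S Bad L j1 v l2 l3 e N c).inc y (y + h) a := by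
        funext a
        show ∑ y ∈ Ico (st N (j, b)) (st N (j, b) + N j), _ = _
        rw [mul_sum, sum_Ico_eq_sum_range, sum_Ico_eq_sum_range, add_tsub_cancel_left,
          add_tsub_cancel_left]
        refine sum_congr rfl fun y _ => ?_
        rw [Dat.Dk, if_pos (show k < (dat S Bad L j1 v l2 l3 e N c).L from hk)]
        show (N j : ℝ)⁻¹ * ((dat S Bad L j1 v l2 l3 e N c).inc (st N (j, b) + y - 2 ^ (k + 1) / 2)
          (st N (j, b) + y - 2 ^ k / 2) a / (2 ^ k * v)) = _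
        rw [e1, show st N (j, b) + y - 2 ^ k = st N (j, b) - 2 ^ k + y by omega,
          show st N (j, b) + y - 2 ^ k / 2 = st N (j, b) - 2 ^ k + y + h by omega]
        field_simp
      unfold Dat.Λk
      rw [e2]
      refine (Sn.smul _ (by positivity) (Sn.c_sum _ fun y _ => H.dok.cinc _ _)).trans ?_
      rw [inv_mul_le_iff₀ (by positivity)]
      refine key.trans ?_
      have hr : (h : ℝ) ≤ 2 ^ k := by exact_mod_cast (show h ≤ 2 ^ k by omega)
      have A0 : 0 ≤ A := by linarith [H.A1]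
      have e3 : N j * (2 ^ k * v) * (A * (16 * K * C1 + K + 8) * √x * (τ j / (N j * v))) =
          2 ^ k * (A * ((16 * K * C1 + K + 8) * √x * τ j)) := by field_simp
      rw [e3]
      refine mul_le_mul hr (mul_le_mul_of_nonneg_left ?_ A0) (by positivity) kr.le
      have : 0 ≤ K * C1 := by positivity
      exact mul_le_mul_of_nonneg_right (mul_le_mul_of_nonneg_right (by linarith) (by positivity))
        t0.le
    · refine fin _ ((H.dok.Λk_point w1 (show k < (dat S Bad L j1 v l2 l3 e N c).L from hk)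
        (M := C1 * √x * (16 * K * τ j * 2 ^ k / N j) + 2 * (2 ^ k * v)) fun y hy => ?_).trans ?_)
      · have hy : st N (j, b) ≤ y ∧ y < st N (j, b) + N j := mem_Ico.1 hy
        show Sn.nm ((dat S Bad L j1 v l2 l3 e N c).inc (y - 2 ^ (k + 1) / 2) (y - 2 ^ k / 2)) ≤ _
        rw [e1]
        have b1 := H.inc_le hx I (i := y - 2 ^ k) (j := y - 2 ^ k / 2)
          (hj.near (by omega) (by omega)) (hj.near (by omega) (by omega)) (d := 2 ^ k) (by omega)
          (by omega)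
        have b2 := H.τ_back hj (i := y - 2 ^ k) (d := 2 ^ k) (by omega) kU (by omega) (by omega)
        have b3 := H.τ_back hj (i := y - 2 ^ k / 2) (d := 2 ^ k) (by omega) kU (by omega) (by omega)
        push_cast at b1 b2 b3
        refine b1.trans (add_le_add (mul_le_mul_of_nonneg_left ?_ (by positivity)) le_rfl)
        rw [le_div_iff₀ np]; linarith
      · show _ / (2 ^ k * v) ≤ _
        have e3 : (C1 * √x * (16 * K * τ j * 2 ^ k / N j) + 2 * (2 ^ k * v)) / (2 ^ k * v) =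
            16 * K * C1 * (√x * (τ j / (N j * v))) + 2 := by field_simp
        rw [e3]
        nlinarith
  · refine fin _ ((H.dok.Λk_top w1 (M := C1 * √x * (2 * K * τ j * 2 ^ L / N j) +
        K * τ j * 2 ^ L / N j) fun y hy => ?_).trans ?_)
    · have hy : st N (j, b) ≤ y ∧ y < st N (j, b) + N j := mem_Ico.1 hy
      show Sn.nm ((dat S Bad L j1 v l2 l3 e N c).ρ (y - 2 ^ (L + 1) / 2)) ≤ _
      rw [e1]
      have r1 : Rg L j0 j1 n (y - 2 ^ L) := hj.near (by omega) (by omega)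
      have b1 := H.dok.ρ_le (H.up (y - 2 ^ L))
      have b2 := H.Z_le r1 true hx (I _ _ r1)
      have b3 := H.τ_back hj (i := y - 2 ^ L) (d := 2 ^ L) h4 le_rfl (by omega) (by omega)
      have b4 := (H.win.clk (y - 2 ^ L) j (by omega)).1
      have b5 := H.win.old j (by omega) (by omega)
      have b6 : |(dat S Bad L j1 v l2 l3 e N c).γ (y - 2 ^ L, true)| = c (y - 2 ^ L) :=
        abs_of_nonneg (H.win.c02 _).1
      push_cast at b3
      rw [b6] at b1
      refine b1.trans (add_le_add (b2.trans (mul_le_mul_of_nonneg_left ?_ (by positivity))) ?_)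
      · rw [le_div_iff₀ np]; exact b3
      · rw [le_div_iff₀ np]; nlinarith
    · show _ / (2 ^ (L + 1) * v) ≤ _
      have e3 : (C1 * √x * (2 * K * τ j * 2 ^ L / N j) + K * τ j * 2 ^ L / N j) / (2 ^ (L + 1) * v) =
          K * C1 * (√x * (τ j / (N j * v))) + K / 2 * (τ j / (N j * v)) := by
        rw [pow_succ]; field_simp
      rw [e3]
      have a1 : 0 ≤ K * C1 := by positivity
      have a2 : τ j / (N j * v) ≤ √x * (τ j / (N j * v)) := by nlinarith
      nlinarith [mul_le_mul_of_nonneg_left a2 (show 0 ≤ K / 2 by positivity)]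

theorem round {n : ℕ} {x : ℝ} (hx : 1 ≤ x) (I : H.Inv n x) :
    H.Inv (n + 1) (A * (16 * K * (2 * CB + K + 7) + K + 9) * √x) := fun j b hj => by
  refine (H.dok.Λ_le (H.gd' hj b).ω1).trans ?_
  have sx : 1 ≤ √x := one_le_sqrt.2 hx
  have q1 := H.q1 j
  have : (1 : ℝ) ≤ A * (√x * (τ j / (N j * v))) := by
    have : 1 ≤ √x * (τ j / (N j * v)) := by nlinarith
    nlinarith [H.A1]
  calc _ ≤ ∑ k ∈ range (L + 1 + 1),
        A * (16 * K * (2 * CB + K + 7) + K + 9) * √x * (τ j / (N j * v)) :=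
        sum_le_sum fun k hk => by
          have := H.scale hx I hj b (Nat.lt_succ_iff.1 (mem_range.1 hk))
          linarith
    _ = _ := by simp only [sum_const, card_range, nsmul_eq_mul]; push_cast; ring

theorem start {x : ℝ} (hx : 4 / v + 1 ≤ x) : H.Inv 0 x := fun j b hj => by
  have w1 := (H.gd' hj b).ω1
  have v0 := H.win.v0
  have x0 : 0 ≤ ((L : ℝ) + 2) * x := by
    have : 0 ≤ 4 / v + 1 := by positivity
    exact mul_nonneg (by positivity) (this.trans hx)
  refine ((Sn.mono' (H.dok.cX _) (Sn.c_const (((L : ℝ) + 2) * x)) fun a => ?_).trans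
    (Sn.const _ x0)).trans (le_mul_of_one_le_right x0 (H.q1 j))
  rw [abs_of_nonneg (H.dok.X0 _ a), ← one_mul (((L : ℝ) + 2) * x), ← w1, sum_mul]
  refine sum_le_sum fun y _ => mul_le_mul_of_nonneg_left ?_ (H.dok.ω0 _ y)
  calc _ ≤ ∑ k ∈ range (L + 1 + 1), x := sum_le_sum fun k _ => by
        linarith [D_le (Bad := Bad) (L := L) (j1 := j1) (l2 := l2) (l3 := l3) (e := e) (N := N)
          (c := c) H.ok v0 k y a]
    _ = _ := by simp only [sum_const, card_range, nsmul_eq_mul]; push_cast; ring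

theorem iter {Z B : ℝ} (hB : B = A * (16 * K * (2 * CB + K + 7) + K + 9)) {J : ℕ} (hZ : 1 ≤ Z)
    (hJ : 4 / v ≤ Z ^ 2 ^ J) : ∀ n ≤ J, H.Inv n (B ^ 2 * Z ^ 2 ^ (J - n)) := by
  have B2 : 2 ≤ B := by
    have a : 0 ≤ 16 * K * (2 * CB + K + 7) := by
      have := H.win.K1; have := H.CB1; positivity
    nlinarith [H.A1, H.win.K1]
  intro n
  induction n with
  | zero =>
    intro _
    refine H.start ?_
    have : 1 ≤ Z ^ 2 ^ J := one_le_pow₀ hZ
    rw [Nat.sub_zero]
    have b4 : 2 ≤ B ^ 2 := by nlinarith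
    nlinarith [mul_le_mul_of_nonneg_right b4 (zero_le_one.trans this)]
  | succ n ih =>
    intro hn
    have z1 : 1 ≤ Z ^ 2 ^ (J - n) := one_le_pow₀ hZ
    have := H.round (by nlinarith) (ih (by omega))
    rw [← hB, show J - n = J - (n + 1) + 1 by omega, pow_succ 2, pow_mul, ← mul_pow,
      sqrt_sq (by positivity), ← mul_assoc, ← sq] at this
    exact this

theorem out {n : ℕ} {x : ℝ} (hx : 1 ≤ x) (I : H.Inv n x) {j : ℕ} (hj : Rg L j0 j1 n j) :
    Sn.nm (fun a => S.rho j a - c j) ≤ 2 * (2 * CB + K + 7) * √x * τ j ∧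
    Sn.nm (fun a => av j (N j) fun y => S.aa y a) ≤
      (x + 2) * (((L : ℝ) + 2) ^ 2 * l3 * (τ j / (N j * v))) := by
  constructor
  · have h := H.dok.loc (H.gd' hj false) (H.before hj) (show j ≤ j1 by have := hj.base; omega)
      (H.up j) (c j)
    have z1 := H.Z_le hj false hx (I _ _ hj)
    have z2 := H.Z_le hj true hx (I _ _ hj)
    have e1 : ∀ b, |(dat S Bad L j1 v l2 l3 e N c).γ (j, b) - c j| = 0 := fun b => by simp [dat]
    rw [e1, e1, dat_ρ] at h
    linarith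
  · have h := H.ab_le hj true (I _ _ hj)
    rwa [show (dat S Bad L j1 v l2 l3 e N c).ab (j, true) = fun a => av j (N j) fun y => S.aa y a
      from funext fun a => dat_ab _ a] at h

end Ctx

end Crest.Agent.T156.Q21

namespace Crest.Agent.T156.Q57

open MeasureTheory Finset Real Crest.Agent.T156.Q21

/-- **(Q2)** -/
theorem syncS_of (hN : NbS) (hQ : QvS) (hB : BlpS) : SyncS := by
  intro i K hi
  obtain ⟨CB, CB1, hB⟩ := hB i
  set B0 : ℝ := 16 * (2 ^ i : ℕ) * (16 * K * (2 * CB + K + 7) + K + 9) with hB0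
  refine ⟨1 + (|2 * (2 * CB + K + 7) * B0| + (B0 ^ 2 + 2)), le_add_of_nonneg_right (by positivity),
    fun α ι _ _ S L J j0 j1 v l2 l3 e P Z N τ c g H hG W e0 ev e3 P1 hP Z1 hZ j h0 h1 => ?_⟩
  have := H.prob
  obtain ⟨Bad, mB, μB, hG⟩ := hG.ex
  have hp : 1 ≤ 2 ^ i := Nat.one_le_two_pow
  have hp2 : 2 ≤ 2 ^ i := by
    calc 2 = 2 ^ 1 := rfl
      _ ≤ 2 ^ i := Nat.pow_le_pow_right two_pos hi
  have pr : (1 : ℝ) ≤ (2 ^ i : ℕ) := by exact_mod_cast hp
  have dok := dat_ok (Bad := Bad) (L := L) (j1 := j1) (l2 := l2) (N := N) (c := c) hN H hp mB μB e0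
    W.v0 W.l30.le
  have X : Ctx S (ns hN S.μ hp) Bad L j0 j1 v l2 l3 e K CB (16 * (2 ^ i : ℕ) * P) N τ c g := by
    refine ⟨H, W, dok, fun t a b => dat_gd H W.v0 W.l20.le W.l30.le hG (W.N1 _) a b, ev, e3, CB1,
      by nlinarith, fun j => ?_, fun J φ γ h => ?_, fun b h n X hn hX => ?_⟩
    · refine nr_le hp ((hQ α ι S H).2.1 _ j (N j) (c j) _ hp2 (W.N1 j) ?_)
      have : (fun a => max ((dat S Bad L j1 v l2 l3 e N c).rb (j, true) a -
          (dat S Bad L j1 v l2 l3 e N c).γ (j, true)) 0) =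
          fun a => max (av j (N j) (fun y => S.rho y a) - c j) 0 := funext fun a => by
        rw [dat_rb]; rfl
      show Nb _ _ _ (nr S.μ _ _)
      rw [this]; exact nb_nr hp _
    · refine nr_le hp ((hN α S.μ _ hp).2.2.1 _ _ ?_ (hB α ι S H J φ γ (nb_of_le hp h)))
      exact (ns hN S.μ hp).c_sum _ fun y _ => (ns hN S.μ hp).c_cmul _ ((ns hN S.μ hp).c_cmul _
        ((ns hN S.μ hp).c_sub (dok.cρ y) (bm_const _)))
    · refine nr_le hp ((hQ α ι S H).1 _ b h n X P hp2 P1 (le_trans ?_ hP)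
        fun i hi => nb_of_le hp (hX i hi))
      exact_mod_cast hn
  have I := X.iter (B := B0 * P) (by rw [hB0]; ring) Z1 hZ J le_rfl
  rw [Nat.sub_self, pow_zero, pow_one] at I
  have K1 := W.K1
  have B1 : 1 ≤ B0 := by
    have a : 0 ≤ 16 * K * (2 * CB + K + 7) := by positivity
    nlinarith
  have BP : 1 ≤ B0 * P := by nlinarith
  have x1 : 1 ≤ (B0 * P) ^ 2 * Z := by nlinarith [one_le_pow₀ (n := 2) BP]
  obtain ⟨o1, o2⟩ := X.out x1 I (j := j) ⟨h0, h1⟩
  have t0 := X.τ0 j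
  constructor
  · refine nb_of_le hp (le_trans o1 (mul_le_mul_of_nonneg_right ?_ t0.le))
    have s1 : √((B0 * P) ^ 2 * Z) ≤ B0 * P * Z :=
      sqrt_le_iff.2 ⟨by positivity, by
        rw [mul_pow (B0 * P)]
        exact mul_le_mul_of_nonneg_left (by nlinarith) (by positivity)⟩
    refine (mul_le_mul_of_nonneg_left s1 (by positivity)).trans ?_
    have a := le_abs_self (2 * (2 * CB + K + 7) * B0)
    have b : 0 ≤ P * Z := by positivity
    nlinarith [mul_le_mul_of_nonneg_right a b, sq_nonneg B0]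
  · refine nb_of_le hp (le_trans o2 (mul_le_mul_of_nonneg_right ?_ ?_))
    · have a := abs_nonneg (2 * (2 * CB + K + 7) * B0)
      have b : 1 ≤ P ^ 2 * Z := by nlinarith [one_le_pow₀ (n := 2) P1]
      nlinarith [mul_nonneg a (zero_le_one.trans b)]
    · have := W.l30; have := X.q1 j; positivity

end Crest.Agent.T156.Q57

end
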