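import Crest.Agent.T156.R1Alg_77
import Crest.Agent.T156.CIn_12
import Crest.Agent.T156.FamDerB_77

/-!
# Row 156 (helper77): exact split of the derivative `DG` against the test head
-/

set_option autoImplicit false
set_option linter.unusedSectionVars false

noncomputable section

namespace Crest.Agent.T156.Alt.Alg77

open Finset
open Crest.Agent.T157.E Crest.Agent.T157.Casc Crest.Agent.T157.SL
open Crest.Agent.T156.Cas Crest.Agent.T156.Cas.C40 Crest.Agent.T156.Cas.R1J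
open Crest.Agent.T156.Cas.Alg77 Crest.Agent.T156.Alt.CIn12 Crest.Agent.T156.Alt.Md67
open Crest.ProbabilityR.SpinGlassDynamics (spin)

/-- the residual of the test head -/
def Rs (D : CD) : ℝ := ∑ j ∈ D.up, D.om j * (D.rb j - D.Gam j) - D.main

/-- the words with low letters of degree at least three -/
def lw (D : CD) : ℝ := D.y3 + D.y4 + D.mx

/-- the site cascade above the root (profile indices) -/
def St (M : Md) (m : ℕ) (ρ : ℕ → ℝ) (J : ℕ) : List (Lv Bool) :=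
  (opS m 1 (M.Mx 0) (qx M (cq J ρ))).tail

/-- the density, `0` below the cut (cascade indices) -/
def fc (J : ℕ) (f : ℕ → ℝ) (j : ℕ) : ℝ := if j ≤ J then 0 else f (j - 1)

variable {M : Md} {m J : ℕ} {a a' x : ℝ} {ρ f : ℕ → ℝ} {Wt Wt' : Option (ℕ → ℝ)} {E E' : Ev}

theorem fc_succ {k : ℕ} (h : J ≤ k) : fc J f (k + 1) = f k := if_neg (by omega)

theorem S_cons (hJ : 0 < J) (hN : 0 < M.N) : ∃ l : Lv Bool, (∀ x i, l.A x i = 0) ∧
    (cd M m a ρ J Wt E).S = l :: St M m ρ J := by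
  refine ⟨_, fun x i => ?_, rfl⟩
  have : qx M (cq J ρ) 1 = 0 := (qx_succ hN).trans (cq_lt hJ)
  show √(0 + ((0 + _) * qx M (cq J ρ) 1 - 0 * _)) * spin x = 0
  simp [this]

/-- site words in profile indices -/
theorem W_cd (hJ : 0 < J) (hN : 0 < M.N) {V : List (ℕ → ℝ)} (hV : ∀ f ∈ V, f 0 = 0 ∧ f 1 = 0)
    (k : ℕ) : W (cd M m a ρ J Wt E).S (k + 1) V =
      W (St M m ρ J) k (V.map fun f j => f (j + 1)) := by
  obtain ⟨l, hl, e⟩ := S_cons (m := m) (a := a) (ρ := ρ) (Wt := Wt) (E := E) hJ hN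
  rw [e, W_dead hl _ hV]

/-- **site words do not depend on the root tilt** -/
theorem W_free (hJ : 0 < J) (hN : 0 < M.N) {V : List (ℕ → ℝ)} (hV : ∀ f ∈ V, f 0 = 0 ∧ f 1 = 0)
    {j : ℕ} (hj : 0 < j) : W (cd M m a' ρ J Wt' E').S j V = W (cd M m a ρ J Wt E).S j V := by
  obtain ⟨k, rfl⟩ := Nat.exists_eq_add_of_le' hj
  rw [W_cd hJ hN hV, W_cd hJ hN hV]

theorem Gam_W (D : CD) (j : ℕ) : D.Gam j = W D.S j [] := (Wt87.tX_two w1 _ j _ _).symm

theorem Gam_free (hJ : 0 < J) (hN : 0 < M.N) {j : ℕ} (hj : 0 < j) :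
    (cd M m a' ρ J Wt' E').Gam j = (cd M m a ρ J Wt E).Gam j := by
  rw [Gam_W, Gam_W, W_free hJ hN (by simp) hj]

theorem lam2_free (hJ : 0 < J) : (cd M m a' ρ J Wt E').lam2 = (cd M m a ρ J Wt E).lam2 := by
  obtain ⟨k, rfl⟩ := Nat.exists_eq_add_of_le' hJ
  cases Wt <;> rfl

/-- a cut just above the root atom -/
structure Cut (M : Md) (x : ℝ) (J : ℕ) : Prop where
  leg : M.Leg x
  top : Top M
  J0 : 0 < J
  JN : J ≤ M.N
  low : ∀ k, 1 ≤ k → k < J → M.z k = M.z (k - 1)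

/-- the test datum with density `f` -/
abbrev cdf (M : Md) (m : ℕ) (a : ℝ) (ρ : ℕ → ℝ) (J : ℕ) (f : ℕ → ℝ) (E : Ev) : CD :=
  cd M m a ρ J (some fun k => M.dz m 0 k * f k) E

namespace Cut

variable (h : Cut M x J)
include h

theorem N0 : 0 < M.N := h.top.1

theorem tw : Tw (cdf M m a ρ J f E) (fc J f) where
  tst := rfl
  cut := by rw [cd_K, cd_J]; exact Nat.lt_succ_of_le h.JN
  top := by rw [cd_K, cd_dx]; exact dz_last h.leg h.top
  lo j hj := if_pos hj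
  om j hj := by
    obtain ⟨k, rfl, h1, -⟩ := mem_up hj
    rw [cd_om, cd_dx, fc_succ h1, dz_free h.leg m 0 (h.J0.trans_le h1)]
    rfl

theorem sum_low (F : ℕ → ℝ) : ∑ j ∈ (cd M m a ρ J Wt E).lo, (cd M m a ρ J Wt E).dx j * F j =
    M.dz m a 0 * F 1 := by
  rw [sum_lo, sum_eq_single 0 (fun k hk h0 => by
    have := mem_range.1 hk
    rw [cd_dx, Md77.dz_low M m a (by omega) (this.trans_le h.JN) (h.low k (by omega) this),
      zero_mul]) fun e => absurd (mem_range.2 h.J0) e, cd_dx]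

theorem yh_eq : (cd M m a ρ J Wt E).yh = 0 := by
  rw [CD.yh, CD.Sh', h.sum_low, show fAcc (cd M m a ρ J Wt E).M 1 = 0 from
    (fAcc_Mx h.leg (Nat.zero_le _)).trans h.leg.H0]
  simp

theorem S2_eq : (cd M m a ρ J Wt E).S2 =
    tp M m 0 ^ 2 * (M.dz m a 0 * M.E2 m a (fun r => r ^ 2) 0) := by
  rw [CD.S2, h.sum_low, cd_tau m a ρ Wt E (Nat.zero_le _), cd_E2 M m a ρ J Wt E fun r => r ^ 2]
  ring

theorem I_free (F : ℕ → ℝ) : (cd M m a' ρ J Wt' E').I F = (cd M m a ρ J Wt E).I F := by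
  rw [cd_I, cd_I]
  exact sum_congr rfl fun k hk => by
    rw [dz_free h.leg m a (h.J0.trans_le (mem_Ico.1 hk).1)]

theorem I_congr' {F G : ℕ → ℝ} (e : ∀ j, J < j → j ≤ M.N → F j = G j) :
    (cd M m a ρ J Wt E).I F = (cd M m a ρ J Wt E).I G := by
  rw [cd_I, cd_I]
  exact sum_congr rfl fun k hk => by rw [e _ (by have := mem_Ico.1 hk; omega) (mem_Ico.1 hk).2]

/-- the difference of two test heads -/
theorem test_sub (D D' : CD) (hD : D = cdf M m a ρ J f E) (hD' : D' = cdf M m a' ρ J f E') :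
    D.I (fun t => fc J f t * (D'.del t - D.del t)) = Rs D' - Rs D + (D'.y2 - D.y2) +
      (lw D' - lw D) + D.I fun t =>
        D.τ t * W D.S t [fc J f] * (D'.del t - D.del t) +
        D.τ t ^ 2 / 2 * W D.S t [ind t, fc J f] * (D'.u 2 t - D.u 2 t) +
        D.τ t / 2 * W D.S t [off t fun j => gd D j + gd D' j, fc J f] * (D'.del t - D.del t) +
        D.τ t ^ 3 / 6 * W D.S t [ind t, ind t, fc J f] * (D'.u3 t - D.u3 t) := by
  have T : Tw D (fc J f) := hD ▸ h.tw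
  have T' : Tw D' (fc J f) := hD' ▸ h.tw
  have f1 : fc J f 0 = 0 ∧ fc J f 1 = 0 := ⟨if_pos (Nat.zero_le _), if_pos h.J0⟩
  have eJ : D.J = J := by rw [hD]; rfl
  have eJ' : D'.J = J := by rw [hD']; rfl
  have eI : ∀ F G : ℕ → ℝ, (∀ j, J < j → F j = G j) → D'.I F = D.I G := fun F G e => by
    rw [hD, hD', h.I_free]
    exact h.I_congr' fun j h1 _ => e j h1
  have eW : ∀ {V : List (ℕ → ℝ)}, (∀ f ∈ V, f 0 = 0 ∧ f 1 = 0) → ∀ {j}, J < j →
      W D'.S j V = W D.S j V := fun hV j hj => by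
    rw [hD, hD']
    exact W_free h.J0 h.N0 hV (by omega)
  have eτ : ∀ j, D'.τ j = D.τ j := fun j => by
    rw [hD, hD']
    cases j <;> rfl
  have i1 : ∀ {j}, J < j → ind j 0 = 0 ∧ ind j 1 = 0 := fun hj => by
    have := h.J0
    exact ⟨if_neg (by omega), if_neg (by omega)⟩
  have g1 : ∀ j ≤ D.J, gd D' j = 0 := fun j hj => gd_lo D' (by omega)
  have e1 := eI (fun t => D'.τ t * D'.del t * W D'.S t [fc J f]) _ fun j hj => by
    rw [eW (by simpa using f1) hj, eτ]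
  have e2 := eI (fun t => D'.τ t ^ 2 * D'.u 2 t * W D'.S t [ind t, fc J f]) _ fun j hj => by
    rw [eW (by simp [f1, i1 hj]) hj, eτ]
  have e3 := eI (fun t => D'.τ t ^ 3 * D'.u3 t * W D'.S t [ind t, ind t, fc J f]) _ fun j hj => by
    rw [eW (by simp [f1, i1 hj]) hj, eτ]
  have e4 : Bq D' (fc J f) (gd D') (gd D') = Bq D (fc J f) (gd D') (gd D') :=
    eI _ _ fun j hj => by
      have := h.J0
      rw [eW (by simp [f1, off, g1 0 (Nat.zero_le _), g1 1 (by omega)]) hj]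
  have e5 := T.Bq_sub (fun j hj => gd_lo D hj) g1
  have e6 : ∀ D : CD, Tw D (fc J f) → ∑ j ∈ D.up, D.om j * (D.rb j - D.Gam j) =
      D.I (fun t => fc J f t * D.del t) + D.I fun t => fc J f t * (D.q t - D.Gam t) := fun D T => by
    rw [CD.I, CD.I, ← sum_add_distrib]
    exact sum_congr rfl fun j hj => by rw [T.om j hj, CD.del]; ring
  have e7 := eI (fun t => fc J f t * D'.del t) _ fun _ _ => rfl
  have e8 : (D'.I fun t => fc J f t * (D'.q t - D'.Gam t)) =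
      D.I fun t => fc J f t * (D.q t - D.Gam t) := eI _ _ fun j hj => by
    rw [hD, hD', Gam_free h.J0 h.N0 (by omega)]
    rfl
  have e9 : (D.I fun t => (gd D' t - gd D t) *
      W D.S t [off t fun j => gd D j + gd D' j, fc J f]) = D.I fun t =>
      D.τ t * W D.S t [off t fun j => gd D j + gd D' j, fc J f] * (D'.del t - D.del t) :=
    I_congr D fun j hj => by
      rw [gd_up D hj, gd_up D' (by rw [hD'] ; rw [hD] at hj; exact hj), eτ]
      ring
  have y : D.yh = 0 := hD ▸ h.yh_eq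
  have y' : D'.yh = 0 := hD' ▸ h.yh_eq
  rw [Rs, Rs, lw, lw, e6 D T, e6 D' T', T.main_eq, T'.main_eq, e1, e2, e3, e4, e7, e8, y, y']
  rw [e9] at e5
  have k1 : D.I (fun t => fc J f t * (D'.del t - D.del t)) =
      D.I (fun t => fc J f t * D'.del t) - D.I fun t => fc J f t * D.del t := by
    simp only [CD.I, ← sum_sub_distrib]
    exact sum_congr rfl fun j _ => by ring
  have k2 : (D.I fun t => D.τ t * W D.S t [fc J f] * (D'.del t - D.del t) +
        D.τ t ^ 2 / 2 * W D.S t [ind t, fc J f] * (D'.u 2 t - D.u 2 t) +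
        D.τ t / 2 * W D.S t [off t fun j => gd D j + gd D' j, fc J f] * (D'.del t - D.del t) +
        D.τ t ^ 3 / 6 * W D.S t [ind t, ind t, fc J f] * (D'.u3 t - D.u3 t)) =
      (D.I (fun t => D.τ t * D'.del t * W D.S t [fc J f]) -
        D.I fun t => D.τ t * D.del t * W D.S t [fc J f]) +
      (D.I (fun t => D.τ t ^ 2 * D'.u 2 t * W D.S t [ind t, fc J f]) -
        D.I fun t => D.τ t ^ 2 * D.u 2 t * W D.S t [ind t, fc J f]) / 2 +
      D.I (fun t => D.τ t * W D.S t [off t fun j => gd D j + gd D' j, fc J f] *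
        (D'.del t - D.del t)) / 2 +
      (D.I (fun t => D.τ t ^ 3 * D'.u3 t * W D.S t [ind t, ind t, fc J f]) -
        D.I fun t => D.τ t ^ 3 * D.u3 t * W D.S t [ind t, ind t, fc J f]) / 6 := by
    simp only [CD.I, ← sum_sub_distrib, sum_div, ← sum_add_distrib]
    exact sum_congr rfl fun j _ => by ring
  rw [k1, k2, ← e5]
  ring

end Cut

/-- coefficient of `E (R - q)²` -/
def c2 (D : CD) (f : ℕ → ℝ) (b' : ℝ) (t : ℕ) : ℝ := b' / 4 + D.τ t ^ 2 / 4 * W D.S t [ind t, f]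

/-- the same at the root atom -/
def c2lo (D : CD) (b' : ℝ) : ℝ := b' / 4 + D.τ 1 ^ 2 * D.lam2 / 8

/-- linear residual -/
def lin (D : CD) (f ψ : ℕ → ℝ) (t : ℕ) : ℝ := (D.τ t * W D.S t [f] - ψ t) / 2

/-- off-diagonal response -/
def phi (D D' : CD) (f : ℕ → ℝ) (t : ℕ) : ℝ :=
  D.τ t / 4 * W D.S t [off t fun j => gd D j + gd D' j, f]

/-- coefficient of `E (R - q)³` -/
def c3 (D : CD) (f : ℕ → ℝ) (t : ℕ) : ℝ := D.τ t ^ 3 / 12 * W D.S t [ind t, ind t, f]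

/-- the second moment on the root atom -/
def S0 (M : Md) (m : ℕ) (a : ℝ) : ℝ := M.dz m a 0 * M.E2 m a (fun r => r ^ 2) 0

/-- **the exact split** -/
theorem Cut.alg (h : Cut M x J) (D D' : CD) (hD : D = cdf M m a ρ J f E)
    (hD' : D' = cdf M m a' ρ J f E') (b' : ℝ) (ψ : ℕ → ℝ) :
    b' / 4 * (S0 M m a' - S0 M m a) + ∑ k ∈ Ico J M.N, M.dz m a k * (b' / 4 *
      (M.E2 m a' (fun r => (r - ρ k) ^ 2) k - M.E2 m a (fun r => (r - ρ k) ^ 2) k) +
        (f k - ψ k) / 2 * (M.rb m a' k - M.rb m a k)) =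
    (Rs D' - Rs D) / 2 + c2lo D b' * (S0 M m a' - S0 M m a) + (lw D' - lw D) / 2 +
      D.I fun t => c2 D (fc J f) b' t * (D'.u 2 t - D.u 2 t) +
        (lin D (fc J f) (sh ψ) t + phi D D' (fc J f) t) * (D'.del t - D.del t) +
        c3 D (fc J f) t * (D'.u3 t - D.u3 t) := by
  have e := h.test_sub D D' hD hD'
  have y : D'.y2 - D.y2 = D.τ 1 ^ 2 * D.lam2 / 4 * (S0 M m a' - S0 M m a) := by
    rw [CD.y2, CD.y2, hD, hD', h.tw.dd, h.tw.dd, h.S2_eq, h.S2_eq, lam2_free h.J0,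
      cd_tau m a ρ _ E (Nat.zero_le _), S0, S0]
    ring
  have k : ∑ k ∈ Ico J M.N, M.dz m a k * (b' / 4 *
      (M.E2 m a' (fun r => (r - ρ k) ^ 2) k - M.E2 m a (fun r => (r - ρ k) ^ 2) k) +
        (f k - ψ k) / 2 * (M.rb m a' k - M.rb m a k)) = D.I fun t =>
      b' / 4 * (D'.u 2 t - D.u 2 t) + (fc J f t - sh ψ t) / 2 * (D'.del t - D.del t) := by
    rw [hD, hD', cd_I]
    refine sum_congr rfl fun k hk => ?_
    obtain ⟨h1, h2⟩ := mem_Ico.1 hk
    rw [cd_u m a' ρ _ E' 2 h1 h2, cd_u m a ρ _ E 2 h1 h2, cd_del m a' ρ _ E' h1 h2,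
      cd_del m a ρ _ E h1 h2, fc_succ h1, sh_succ, sub_sub_sub_cancel_right]
    simp only [sq_abs]
  have k' : (D.I fun t => c2 D (fc J f) b' t * (D'.u 2 t - D.u 2 t) +
        (lin D (fc J f) (sh ψ) t + phi D D' (fc J f) t) * (D'.del t - D.del t) +
        c3 D (fc J f) t * (D'.u3 t - D.u3 t)) = (D.I fun t =>
      b' / 4 * (D'.u 2 t - D.u 2 t) + (fc J f t - sh ψ t) / 2 * (D'.del t - D.del t)) -
      D.I (fun t => fc J f t * (D'.del t - D.del t)) / 2 + (D.I fun t =>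
        D.τ t * W D.S t [fc J f] * (D'.del t - D.del t) +
        D.τ t ^ 2 / 2 * W D.S t [ind t, fc J f] * (D'.u 2 t - D.u 2 t) +
        D.τ t / 2 * W D.S t [off t fun j => gd D j + gd D' j, fc J f] * (D'.del t - D.del t) +
        D.τ t ^ 3 / 6 * W D.S t [ind t, ind t, fc J f] * (D'.u3 t - D.u3 t)) / 2 := by
    simp only [CD.I, ← sum_sub_distrib, sum_div, ← sum_add_distrib, c2, lin, phi, c3]
    exact sum_congr rfl fun j _ => by ring
  rw [k, k', e, y, c2lo]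
  ring

/-- velocity of the node times along the graded path -/
def sv (p : Pm) (σ : ℝ) (k : ℕ) : ℝ := -Md77.dom p (Md77.omG' p) σ k

/-- `b q'` along the graded path -/
def bq (p : Pm) (P : Pl) (σ : ℝ) (k : ℕ) : ℝ := p.bG σ * deriv (fun t => p.qO P (p.omG t) k) σ

theorem cut_gst {p : Pm} {P : Pl} {σ : ℝ} (h : (p.gst P σ).Leg x) (ht : Top (p.gst P σ))
    (hj : p.jf < p.NP P) : Cut (p.gst P σ) x (p.jf + 1) :=
  ⟨h, ht, Nat.succ_pos _, hj, fun k _ hk => by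
    simp only [Pm.gst, Pm.famO, max_eq_right (Nat.lt_succ_iff.1 hk),
      max_eq_right ((Nat.sub_le k 1).trans (Nat.lt_succ_iff.1 hk))]⟩

/-- **ALG**: the exact split of `DG` -/
theorem alg_gst {p : Pm} {P : Pl} {σ : ℝ} (h : (p.gst P σ).Leg x) (ht : Top (p.gst P σ))
    (hj : p.jf < p.NP P) (D D' : CD)
    (hD : D = cdf (p.gst P σ) m a (p.gst P σ).q (p.jf + 1) (sv p σ) E)
    (hD' : D' = cdf (p.gst P σ) m a' (p.gst P σ).q (p.jf + 1) (sv p σ) E') :
    Md77.DG p P σ m a a' = (Rs D' - Rs D) / 2 +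
      c2lo D (deriv p.bG σ) * (S0 (p.gst P σ) m a' - S0 (p.gst P σ) m a) + (lw D' - lw D) / 2 +
      D.I fun t => c2 D (fc (p.jf + 1) (sv p σ)) (deriv p.bG σ) t * (D'.u 2 t - D.u 2 t) +
        (lin D (fc (p.jf + 1) (sv p σ)) (sh (bq p P σ)) t + phi D D' (fc (p.jf + 1) (sv p σ)) t) *
          (D'.del t - D.del t) + c3 D (fc (p.jf + 1) (sv p σ)) t * (D'.u3 t - D.u3 t) := by
  rw [← (cut_gst h ht hj).alg D D' hD hD', Md77.DG]
  congr 1
  have e : Ioc p.jf (p.NP P) = insert (p.NP P) (Ico (p.jf + 1) (p.NP P)) := by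
    ext k
    simp only [mem_Ioc, mem_insert, mem_Ico]
    omega
  rw [e, sum_insert (by simp), show (p.gst P σ).dz m a (p.NP P) = 0 from dz_last h ht, zero_mul,
    zero_add]
  rfl

end Crest.Agent.T156.Alt.Alg77

end
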