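import Crest.Agent.T156.R1Lo3_73
import Crest.Agent.T156.SW_76

/-!
Row 156 (helper65): site link, crude replicon coefficient and cubic word on the cavity list.
-/

set_option autoImplicit false
set_option linter.unusedSectionVars false

noncomputable section

namespace Crest.Agent.T156.Alt.Co65

open Finset
open Crest.Agent.T157.Casc Crest.Agent.T157.SL Crest.Agent.T157.Casc.C
open Crest.ProbabilityR.SpinGlassDynamics (spin)
open Crest.Agent.T156.Pp Crest.Agent.T156.Hess65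
open Crest.Agent.T156.Pp.Area50 hiding ind
open Crest.Agent.T156.Cas Crest.Agent.T156.Cas.C40 Crest.Agent.T156.Alt.Md77
open Crest.Agent.T156.Alt.Md67 Crest.Agent.T156.Alt.CIn12 Crest.Agent.T156.Alt.Alg77
open Crest.Agent.T156.Cas.R1J (n1 ind)
open Crest.Agent.T156.Cas.R1P (len_rk ex_rk up_np rk_sML)

theorem tr_link : ∃ C : ℝ, 1 ≤ C ∧ ∀ (z s σ : ℕ → ℝ) (N c k : ℕ) (Lr Lc : List (Lv Bool)) (q : ℝ),
    TR z s σ N c Lr Lc → c < k → k < N → 0 < q → min 1 (z k + max (s k) (σ k)) ≤ q →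
    |Wd Lc [] (k + 1) - Wd Lr [] k| ≤ |σ k - s k| + C * (q * gam z s σ c Lc) ∧
      |R1J.G Lc (k + 1)| ≤ C ∧ ∀ f : ℕ → ℝ, f 0 = 0 →
        |Wd Lc [ind (k + 1), ind (k + 1), f] (k + 1)| ≤ C * (|f (k + 1)| + q * n1 Lc f) := by
  obtain ⟨C, c1, hC⟩ := R1J.s1
  obtain ⟨C', c2, hC'⟩ := R1J.s4
  refine ⟨C + C' + 80, by linarith, fun z s σ N c k Lr Lc q h k0 hk q0 hq => ?_⟩
  have σ0 := h.low 0 c.zero_le
  have r := Ker15.r1_of h.cav
  have l : k + 1 < Lc.length := (len_rk h.cav).symm ▸ Nat.succ_lt_succ hk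
  refine ⟨?_, ?_, fun f f0 => ?_⟩
  · obtain ⟨Lp, H⟩ := ex_rk1 z h.uσ
    obtain ⟨θ, hθ, M, HM, e⟩ := mvt_Wd h.us h.uσ (σ0.trans h.s0.symm) h.ref H [] k
    have u : Up (fun j => s j + θ * (σ j - s j)) N := fun j hj => by
      have a := mul_nonneg (sub_nonneg.2 hθ.2.le) (sub_nonneg.2 (h.us j hj))
      have b := mul_nonneg hθ.1.le (sub_nonneg.2 (h.uσ j hj))
      show s j + θ * (σ j - s j) ≤ s (j + 1) + θ * (σ (j + 1) - s (j + 1))
      linarith
    have e' := h.cut H (V := []) (by simp) hk.le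
    have a := hC M k q ⟨Ker15.r1_of HM, mono_rk HM h.lab u, c.zero_le.trans_lt k0,
      (len_rk HM).symm ▸ hk, q0, le_trans (min_le_min le_rfl ?_) hq⟩ (fun j => σ j - s j)
      (by simp [σ0, h.s0])
    · have g := Gn_mem HM (adm_lsg N z _ h.zN h.lab.pos (fun j _ => h.lab.mono j.le_succ) u)
        ((len_rk HM).symm ▸ hk.le)
      have b : |(σ k - s k) * R1J.G M k| ≤ |σ k - s k| := by
        rw [abs_mul]
        exact mul_le_of_le_one_right (abs_nonneg _) ((abs_of_nonneg g.1).trans_le g.2)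
      rw [List.map_nil] at e'
      rw [n1_same HM h.ref h.zN, W_eq] at a
      rw [e', e, List.nil_append]
      have d := mul_le_mul_of_nonneg_left h.n1_h q0.le
      have d0 := mul_nonneg q0.le h.gam_nn
      have d1 := mul_le_mul_of_nonneg_left d (zero_le_one.trans c1)
      have d2 := mul_nonneg (zero_le_one.trans c2) d0
      linarith [abs_sub_abs_le_abs_sub (Wd M [fun j => σ j - s j] k) ((σ k - s k) * R1J.G M k)]
    · rw [ex_rk HM h.zN hk.le, tm_rk HM (by simp [σ0, h.s0]) hk.le]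
      have a := mul_nonneg (sub_nonneg.2 hθ.2.le) (sub_nonneg.2 (le_max_left (s k) (σ k)))
      have b := mul_nonneg hθ.1.le (sub_nonneg.2 (le_max_right (s k) (σ k)))
      linarith
  · have a := hC Lc (k + 1) 1 ⟨r, h.mono, k.succ_pos, l, one_pos, min_le_left _ _⟩ (ind (k + 1))
      (by simp [ind])
    have b := abs_Wd1c r h.mono l.le (ind (k + 1))
    have d := dm_le_one h.mono l.le
    rw [n1_ind l.le, show ind (k + 1) (k + 1) = 1 from if_pos rfl] at a b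
    rw [one_mul, one_mul, W_eq] at a
    rw [abs_one] at b
    have := mul_le_of_le_one_right (zero_le_one.trans c1) d
    linarith [abs_sub_abs_le_abs_sub (R1J.G Lc (k + 1)) (Wd Lc [ind (k + 1)] (k + 1)),
      abs_sub_comm (R1J.G Lc (k + 1)) (Wd Lc [ind (k + 1)] (k + 1))]
  · refine (hC' Lc (k + 1) q ⟨r, h.mono, k.succ_pos, l, q0, le_trans (min_le_min le_rfl ?_) hq⟩ f
      f0).trans (mul_le_mul_of_nonneg_right (by linarith)
        (add_nonneg (abs_nonneg _) (mul_nonneg q0.le (n1_nn h.mono f))))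
    rw [h.tilt k k0.le hk.le, tm_rk h.cav σ0 (Nat.succ_le_succ hk.le)]
    exact add_le_add le_rfl (le_max_right _ _)

variable {p : Pm} {P : Pl} {σ Y a : ℝ} {m : ℕ}

/-- the cavity list of the graded family -/
theorem ctx (h : OP p (Set.Ioi 0) p.omG (omG' p) p.epsG Y) (σ0 : 0 < σ) (hg : P.γ = 0)
    (hz : Pr.Lab (p.zP P) (p.NP P)) (hj : p.jf < p.J) (G : Lg (p.gst P σ) m a) (ha : 0 < a)
    (ht : Top (p.gst P σ)) (hρ : Rf (p.gst P σ) (p.gst P σ).q) {Wt : Option (ℕ → ℝ)}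
    {E : CIn12.Ev} {D : CD} (hD : D = cd (p.gst P σ) m a (p.gst P σ).q (p.jf + 1) Wt E) :
    ∃ Lr, TR (p.zP P) (p.sO P (p.omG σ)) (fun k => D.sig (k + 1)) (p.NP P) p.jf Lr D.S ∧
      (∀ k, p.jf < k → k < p.NP P → |D.sig (k + 1) - p.sO P (p.omG σ) k| ≤ hd p P σ m k) ∧
      gam (p.zP P) (p.sO P (p.omG σ)) (fun k => D.sig (k + 1)) p.jf D.S ≤ Gm p P σ m a ∧
      ∀ k ≤ p.NP P, (p.gst P σ).q k = Wd Lr [] k := by
  have om := h.hom σ σ0
  have c := P73.col_nu (P := P) h.lab fun k _ => (hz.pos.trans_le (hz.mono k.zero_le)).ne'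
  have es : p.sO P (p.omG σ) = fun k => Pr.sig p.v (p.omG σ) (nu p P k) := funext (h.sO_eq hg σ0)
  have us : Up (p.sO P (p.omG σ)) (p.NP P) := es ▸ c.up (up_np h.np σ0 _)
  have s0 : p.sO P (p.omG σ) 0 = 0 := (Mem37.sP_lo p.J.zero_le).trans om.sig0
  obtain ⟨Lr, H⟩ := ex_rk1 (p.zP P) us
  have jN : p.jf < p.NP P := by unfold Pm.NP; omega
  have dd : ∀ k, (p.gst P σ).d k = p.bG σ := fun k => by simp [Pm.gst, Pm.famO]
  obtain ⟨u, hu⟩ : ∃ u, u = p.bG σ / (m + 1) := ⟨_, rfl⟩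
  have u0 : 0 ≤ u := hu ▸ div_nonneg (dd 0 ▸ G.d0) (by positivity)
  have hh : ∀ k, p.jf + 1 ≤ k → k < p.NP P →
      |D.sig (k + 1) - p.sO P (p.omG σ) k| ≤ |(p.gst P σ).G k| + u := fun k h1 h2 => by
    have e : D.sig (k + 1) - p.sO P (p.omG σ) k = (p.gst P σ).G k - u * (p.gst P σ).q k := by
      have := (tp_mem (m := m) G.toLeg k).2.2
      rw [dd, ← hu] at this
      rw [hD, cd_sig m _ Wt E G.toLeg h1 h2, Md.G, dd, ← this]
      change _ - (p.gst P σ).s k = _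
      ring
    rw [e]
    refine (abs_sub _ _).trans (add_le_add le_rfl ?_)
    rw [abs_of_nonneg (mul_nonneg u0 (q_nonneg k))]
    exact mul_le_of_le_one_right u0 (q_le_one k)
  refine ⟨Lr, hD ▸ tr_cd G ha hρ jN hz (fun k h1 _ => congrArg (p.zP P) (max_eq_left h1))
    (by simp [Pm.gst, Pm.famO, Pm.HO]) us s0 H, fun k h1 h2 => by
      rw [hd, ← hu]; exact hh k h1 h2, ?_, fun k hk => ?_⟩
  · have nD := n1_cd (m := m) (ρ := (p.gst P σ).q) (c := p.jf) (Wt := Wt) (E := E) G.toLeg ht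
    rw [← hD] at nD
    rw [gam, Gm, nD, Mem37.zP_lo hj, Mem37.sP_lo hj.le, ← hu]
    refine add_le_add ((sum_le_sum fun k hk => mul_le_mul_of_nonneg_left
      (hh k (mem_Ico.1 hk).1 (mem_Ico.1 hk).2) (G.dz_nonneg k)).trans ?_)
      (mul_le_mul_of_nonneg_left (om.sig_le _) (h.lab.pos.le.trans (h.lab.mono p.jf.zero_le)))
    simp only [mul_add, sum_add_distrib, ← sum_mul]
    exact add_le_add le_rfl (mul_le_of_le_one_left u0 ((G.sum_dz_le _).trans (by linarith)))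
  · have R := rk_sML (z := p.z) (σ := fun t => Pr.sig p.v (p.omG t)) (σ' := fun t j => -omG' p t j)
      (up_np h.np σ0 (p.J + p.Nr))
    have e := c.wd [] (by simp) hk om.sig0 (up_np h.np σ0 _) R (es ▸ H)
    rw [List.map_nil, Wd_nil R ((len_rk R).symm ▸ nu_le p P hk), tm_lsg _ _ _ _ (nu_le p P hk),
      om.sig0, sub_zero] at e
    rw [e]
    exact h.qO_eq hg σ0 k

/-- **site link, replicon coefficient, cubic word** -/
theorem coR : ∃ C : ℝ, 1 ≤ C ∧ ∀ (p : Pm) (P : Pl) (σ Y a : ℝ) (m : ℕ),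
    OP p (Set.Ioi 0) p.omG (omG' p) p.epsG Y → 0 < σ → P.γ = 0 → Pr.Lab (p.zP P) (p.NP P) →
    p.jf < p.J → Lg (p.gst P σ) m a → 0 < a → Top (p.gst P σ) → ∀ Wt E D,
    D = cd (p.gst P σ) m a (p.gst P σ).q (p.jf + 1) Wt E → ∀ k, p.jf < k → k < p.NP P → ∀ q, 0 < q →
    min 1 ((p.gst P σ).z k + ((p.gst P σ).s k + hd p P σ m k)) ≤ q →
    D.gq (k + 1) ≤ hd p P σ m k + C * (q * Gm p P σ m a) ∧ |R1J.G D.S (k + 1)| ≤ C ∧
      min 1 ((p.gst P σ).z k + D.sig (k + 1)) ≤ q ∧ 0 ≤ Gm p P σ m a ∧ ∀ f : ℕ → ℝ, f 0 = 0 →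
        |R1J.W D.S (k + 1) [ind (k + 1), ind (k + 1), f]| ≤ C * (|f (k + 1)| + q * n1 D.S f) := by
  obtain ⟨C, c1, hC⟩ := tr_link
  refine ⟨C, c1, fun p P σ Y a m h σ0 hg hz hj G ha ht Wt E D hD k k0 kN q q0 hq => ?_⟩
  obtain ⟨Lr, T, h1, h2, h3⟩ := ctx h σ0 hg hz hj G ha ht (P73.rf_gst h σ0 hg) hD
  have a := h1 k k0 kN
  have b : D.sig (k + 1) ≤ (p.gst P σ).s k + hd p P σ m k := by
    change _ ≤ p.sO P (p.omG σ) k + _
    linarith [le_abs_self (D.sig (k + 1) - p.sO P (p.omG σ) k)]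
  have e : (p.gst P σ).z k = p.zP P k := congrArg (p.zP P) (max_eq_left k0.le)
  obtain ⟨g1, g2, g3⟩ := hC _ _ _ _ _ k _ _ q T k0 kN q0 (le_trans (min_le_min le_rfl
    (add_le_add e.ge (max_le (le_add_of_nonneg_right ((abs_nonneg _).trans a)) b))) hq)
  refine ⟨?_, g2, (min_le_min le_rfl (add_le_add le_rfl b)).trans hq, T.gam_nn.trans h2, g3⟩
  have e2 : D.q (k + 1) = Wd Lr [] k := by rw [hD, cd_q m _ _ Wt E k0 kN, h3 k kN.le]
  rw [CD.gq, e2, Gam_W]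
  exact g1.trans (add_le_add a (mul_le_mul_of_nonneg_left (mul_le_mul_of_nonneg_left h2 q0.le)
    (zero_le_one.trans c1)))

end Crest.Agent.T156.Alt.Co65

end
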