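import Crest.Agent.T156.R2H0_6
import Crest.Agent.T156.CErr_54
import Crest.Agent.T156.Lsg_89
import Crest.Agent.T156.CHd_50

/-!
# Row 156, R1 (helper76): absolute bounds of the low words of the test head (no envelopes)
-/

set_option autoImplicit false
set_option linter.unusedSectionVars false

noncomputable section

namespace Crest.Agent.T156.Cas.C40.Lw76

open MeasureTheory Real Set Filter Topology
open Crest.Agent.T157.E Crest.Agent.T157.Casc Crest.Agent.T157.SL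
open Crest.Agent.T157.G1 (ov)
open H06 Mul55

variable {D : CD} {τ0 : ℝ}

/-- the part of `Ok` without envelopes -/
structure Lt (D : CD) (τ0 : ℝ) : Prop where
  ook : OOk D.M D.q
  mono : Mono 0 D.B
  cut : D.J < D.K
  top : D.dx D.K = 0
  tau : D.τ D.K ≤ τ0

theorem Lt.of (h : D.Ok τ0) : Lt D τ0 := ⟨h.ook, h.mono, h.cut, h.top, h.tau⟩

/-- the envelope of the letter `Sd` -/
def gS (D : CD) (τ0 : ℝ) (j : ℕ) : ℝ := if D.J < j then τ0 * |D.del j| else 0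

/-- absolute low moments -/
def Sa (D : CD) (p : ℕ) : ℝ := ∑ j ∈ D.lo, D.dx j * D.E2 j fun x y => |ov x y| ^ p

/-- third absolute moment of the low kernel -/
def nu (D : CD) (j : ℕ) : ℝ := D.E2 j fun x y => |D.KR j x y| ^ 3

theorem nu0 (D : CD) (j : ℕ) : 0 ≤ nu D j := pi2_nonneg wt_one90 _ _ (fun _ _ => by positivity) _

theorem nu_out {j : ℕ} (hj : j ∉ D.lo) : nu D j = 0 := by
  have : D.KR j = fun _ _ => 0 := by
    funext x y
    unfold CD.KR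
    split_ifs with e
    · rw [show j = 0 by rw [CD.mem_lo] at hj; omega, show D.τ 0 = 0 by simp [CD.τ, oTau, dAcc],
        zero_mul]
    · rfl
  simp only [nu, this, CD.E2, pi2_const wt_one90]
  simp

theorem abs_three (a b c : ℝ) : |a * (b * c)| ≤ 3⁻¹ * (|a| ^ 3 + |b| ^ 3 + |c| ^ 3) := by
  rw [abs_mul, abs_mul]
  nlinarith [mul_nonneg (add_nonneg (add_nonneg (abs_nonneg a) (abs_nonneg b)) (abs_nonneg c))
    (add_nonneg (add_nonneg (sq_nonneg (|a| - |b|)) (sq_nonneg (|a| - |c|)))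
      (sq_nonneg (|b| - |c|)))]

theorem nu_shr (D : CD) (j i : ℕ) (a b : (Sh.two j).Lf) :
    nu D ((Sh.two j).shr a b i) ≤ nu D j + nu D i := by
  have e : (Sh.two j).shr a b i = i ∨ (Sh.two j).shr a b i = j := by
    rcases Wt87.two_cases j a with rfl | rfl <;> rcases Wt87.two_cases j b with rfl | rfl
    · exact .inl (Wt87.shr_self _ _ _)
    · rw [Wt87.shr_two]; omega
    · rw [Wt87.shr_comm, Wt87.shr_two]; omega
    · exact .inl (Wt87.shr_self _ _ _)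
  rcases e with e | e <;> rw [e] <;> linarith [nu0 D j, nu0 D i]

namespace Lt

variable (h : Lt D τ0)
include h

theorem dx0 (j : ℕ) : 0 ≤ D.dx j := dm_nonneg h.mono j

theorem tau_mem (j : ℕ) : 0 ≤ D.τ j ∧ D.τ j ≤ τ0 :=
  ⟨(h.ook.oTau_le _ _ j).1, (h.ook.oTau_le _ _ j).2.trans h.tau⟩

theorem tau0 : 0 ≤ τ0 := (h.tau_mem 0).1.trans (h.tau_mem 0).2

theorem monoJ (i : ℕ) : Mono 0 (D.S.drop i) :=
  One15.mono_drop i (Cav22.mono_tilt tilt_opS.symm h.mono)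

theorem sum_dx_le {A : Finset ℕ} {j : ℕ} (hA : ∀ i ∈ A, i ≤ j) : ∑ i ∈ A, D.dx i ≤ ex D.B j :=
  (Finset.sum_le_sum_of_subset_of_nonneg (fun i hi => Finset.mem_range.2
    (Nat.lt_succ_of_le (hA i hi))) fun i _ _ => h.dx0 i).trans_eq
      ((sum_dm D.B 0 j).trans (sub_zero _))

theorem sum_lo : ∑ i ∈ D.lo, D.dx i ≤ ex D.B D.J := h.sum_dx_le fun _ hi => (CD.mem_lo.1 hi).2

theorem ex_le {i j : ℕ} (hij : i ≤ j) : ex D.B i ≤ ex D.B j :=
  ((sum_dm D.B 0 i).trans (sub_zero _)).symm.trans_le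
    (h.sum_dx_le fun k hk => by have := Finset.mem_range.1 hk; omega)

theorem ex0 (j : ℕ) : 0 ≤ ex D.B j := by simpa using h.sum_dx_le (A := ∅) (j := j) (by simp)

theorem ex1 : ex D.B D.J ≤ 1 := by
  have := ex_length D.B
  rw [D.B_len] at this
  exact (h.ex_le h.cut.le).trans_eq this

theorem I0 {a : ℕ → ℝ} (ha : ∀ j ∈ D.up, 0 ≤ a j) : 0 ≤ D.I a :=
  Finset.sum_nonneg fun j hj => mul_nonneg (h.dx0 j) (ha j hj)

theorem I_mono {a b : ℕ → ℝ} (ha : ∀ j ∈ D.up, a j ≤ b j) : D.I a ≤ D.I b :=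
  Finset.sum_le_sum fun j hj => mul_le_mul_of_nonneg_left (ha j hj) (h.dx0 j)

theorem I_le {a : ℕ → ℝ} {c : ℝ} (hc : 0 ≤ c) (ha : ∀ j ∈ D.up, a j ≤ c) : D.I a ≤ c := by
  refine (h.I_mono ha).trans ?_
  have := ex_length D.B
  rw [D.B_len] at this
  rw [CD.I, ← Finset.sum_mul]
  exact mul_le_of_le_one_left hc
    ((h.sum_dx_le fun _ hi => (CD.mem_up.1 hi).2.le).trans_eq this)

theorem abs_lam : |D.lam| ≤ 4 := by
  have := abs_iter_Ph (h.monoJ D.J) 1 0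
  norm_num at this
  exact this

theorem abs_k4 : |D.k4| ≤ 512 := by
  have := abs_iter_Ph (h.monoJ D.J) 3 0
  norm_num at this
  exact this

theorem gS0 (j : ℕ) : 0 ≤ gS D τ0 j := by
  unfold gS
  split_ifs
  exacts [mul_nonneg h.tau0 (abs_nonneg _), le_rfl]

theorem abs_Sd {j : ℕ} (hj : j ≤ D.K) (a b : Bool) : |D.Sd j a b| ≤ gS D τ0 j := by
  unfold CD.Sd gS
  split_ifs
  · have t := h.tau_mem j
    rw [abs_mul, abs_mul, abs_of_nonneg (by linarith : 0 ≤ D.τ j / 2)]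
    have a1 := mul_le_mul_of_nonneg_left (abs_oE_le h.ook hj a b)
      (mul_nonneg (by linarith : 0 ≤ D.τ j / 2) (abs_nonneg (D.del j)))
    have a2 := mul_le_mul_of_nonneg_right t.2 (abs_nonneg (D.del j))
    linarith
  · rw [abs_zero]

theorem abs_Sd' : ∀ j ≤ (D.S.drop D.J).length, ∀ a b,
    |D.Sd (j + D.J) a b| ≤ gS D τ0 (j + D.J) := fun j hj a b =>
  h.abs_Sd (by rw [List.length_drop, len_S] at hj; have := h.cut; omega) a b

theorem sum_gS : ∑ i ∈ Finset.range ((D.S.drop D.J).length + 1),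
    dm (D.S.drop D.J) 0 i * gS D τ0 (i + D.J) = τ0 * D.I fun j => |D.del j| := by
  rw [Hd50.sum_up h.top le_rfl h.cut (g := gS D τ0) fun j hj => if_neg (by omega), ← D.I_mul]
  exact Finset.sum_congr rfl fun j hj => by rw [gS, if_pos (CD.mem_up.1 hj).1]

/-- the empty word of the test -/
theorem abs_dP_nil (hW : D.W.isSome = true) (r : ℕ) :
    |D.dP r []| ≤ (2 * (2 + r)) ^ r * 2 * D.wt := by
  rw [dP_eq, abs_neg, hd, CD.dd_test hW, CD.wt_test hW, ← D.Iw_const]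
  exact D.abs_sum_om fun j hj => (bnd_DY (h.monoJ D.J) r 0 zero_le_two).two _ zero_le_two
    fun a b => abs_oE_le h.ook (CD.mem_up.1 hj).2.le a b

/-- the letter `Sd`, value -/
theorem abs_dP_val (r : ℕ) :
    |D.val.dP r [D.Sd]| ≤ (2 * (2 + r)) ^ r * (τ0 * D.I fun j => |D.del j|) := by
  rw [dP_eq, abs_neg, ← h.sum_gS]
  exact (bnd_DY (h.monoJ D.J) r 0 zero_le_two).pair (h.monoJ D.J) (fun j => h.gS0 _) h.abs_Sd'

/-- the letter `Sd`, test -/
theorem abs_dP_test (hW : D.W.isSome = true) (r : ℕ) :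
    |D.dP r [D.Sd]| ≤ 848 * (2 * (4 + r)) ^ r * τ0 *
      (2 * D.Iw (fun j => |D.del j|) + D.wt * D.I fun j => |D.del j|) := by
  rw [dP_eq, abs_neg, hd, CD.dd_test hW, CD.wt_test hW, mul_comm (D.Iw fun _ => 1), ← D.Iw_const,
    ← D.Iw_mul, ← D.Iw_add, ← D.Iw_mul]
  refine D.abs_sum_om fun j hj => ?_
  obtain ⟨h1, h2⟩ := CD.mem_up.1 hj
  have := (bnd_DY (h.monoJ D.J) r 0 (by norm_num : (0 : ℝ) ≤ 4)).two_wt (h.monoJ D.J)
    (by positivity) (fun j => h.gS0 (j + D.J)) h.abs_Sd' (j := j - D.J)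
    (by rw [List.length_drop, len_S]; omega) zero_le_two fun a b => abs_oE_le h.ook h2.le a b
  rw [h.sum_gS, Nat.sub_add_cancel h1.le, gS, if_pos h1] at this
  exact this.trans_eq (by ring)

theorem Sa0 (p : ℕ) : 0 ≤ Sa D p := Finset.sum_nonneg fun j _ => mul_nonneg (h.dx0 j)
  (pi2_nonneg wt_one90 _ _ (fun _ _ => by positivity) _)

theorem Sa_anti {p p' : ℕ} (e : p ≤ p') : Sa D p' ≤ Sa D p := Finset.sum_le_sum fun j _ =>
  mul_le_mul_of_nonneg_left (pi2_mono wt_one90 _ _ (fun x y =>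
    pow_le_pow_of_le_one (abs_nonneg _) (T157.G1.abs_ov_le x y) e) _) (h.dx0 j)

theorem S_le (p : ℕ) :
    |∑ j ∈ D.lo, D.dx j * (D.τ j ^ (2 * p) * D.E2 j fun x y => ov x y ^ (2 * p))| ≤
      τ0 ^ (2 * p) * Sa D (2 * p) := by
  rw [Sa, Finset.mul_sum]
  refine (Finset.abs_sum_le_sum_abs _ _).trans (Finset.sum_le_sum fun j _ => ?_)
  have e0 : 0 ≤ D.E2 j fun x y => ov x y ^ (2 * p) :=
    pi2_nonneg wt_one90 _ _ (fun _ _ => (even_two_mul p).pow_nonneg _) _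
  simp only [(even_two_mul p).pow_abs]
  rw [abs_of_nonneg (mul_nonneg (h.dx0 j) (mul_nonneg (pow_nonneg (h.tau_mem j).1 _) e0)),
    mul_left_comm]
  exact mul_le_mul_of_nonneg_right (pow_le_pow_left₀ (h.tau_mem j).1 (h.tau_mem j).2 _)
    (mul_nonneg (h.dx0 j) e0)

theorem abs_S2 : |D.S2| ≤ τ0 ^ 2 * Sa D 2 := h.S_le 1

theorem abs_S4 : |D.S4| ≤ τ0 ^ 4 * Sa D 4 := h.S_le 2

theorem sum_nu : ∑ j ∈ D.lo, D.dx j * nu D j ≤ τ0 ^ 3 * Sa D 3 := by
  rw [Sa, Finset.mul_sum]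
  refine Finset.sum_le_sum fun j hj => ?_
  rw [mul_left_comm]
  refine mul_le_mul_of_nonneg_left ?_ (h.dx0 j)
  rw [CD.E2, ← pi2_const_mul]
  refine pi2_mono wt_one90 _ _ (fun x y => ?_) _
  rw [CD.KR, if_pos (CD.mem_lo.1 hj).2, abs_mul, abs_of_nonneg (h.tau_mem j).1, mul_pow]
  exact mul_le_mul_of_nonneg_right (pow_le_pow_left₀ (h.tau_mem j).1 (h.tau_mem j).2 _)
    (by positivity)

theorem cw_nu {j : ℕ} (hj : j ≤ D.J) :
    ∑ a : (Sh.two j).Lf, ∑ i ∈ Finset.range (D.J + 1), cw (Sh.two j) D.B a i * nu D i ≤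
      2 * ∑ i ∈ D.lo, D.dx i * nu D i + ex D.B D.J * nu D j := by
  have JK : D.J ≤ D.B.length := D.B_len ▸ h.cut.le
  have e := Wt87.sum_cw_eq (Sh.two j) D.B fun _ i => nu D i
  rw [Wt87.Wn_two D.B (hj.trans JK) fun _ _ _ _ => rfl] at e
  have a0 : ∀ A : Finset ℕ, ∑ i ∈ A, dm D.B 0 i * nu D i ≤ ∑ i ∈ D.lo, D.dx i * nu D i := fun A => by
    rw [← Finset.sum_subset (Finset.inter_subset_left (s₁ := A) (s₂ := D.lo)) fun i h1 h2 => by
      rw [nu_out fun h3 => h2 (Finset.mem_inter.2 ⟨h1, h3⟩), mul_zero]]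
    exact Finset.sum_le_sum_of_subset_of_nonneg Finset.inter_subset_right
      fun i _ _ => mul_nonneg (h.dx0 i) (nu0 D i)
  have a1 := a0 (Finset.range (j + 1) ∪ Finset.Ioc j D.B.length)
  rw [Finset.sum_union (Finset.disjoint_left.2 fun i h1 h2 => by
    have := Finset.mem_range.1 h1; have := Finset.mem_Ioc.1 h2; omega)] at a1
  have a2 := a0 (Finset.Ioc j D.B.length)
  have a3 := mul_le_mul_of_nonneg_right (h.ex_le hj) (nu0 D j)
  simp only [mul_add, Finset.sum_add_distrib] at e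
  refine (Finset.sum_le_sum fun a _ => Finset.sum_le_sum_of_subset_of_nonneg
    (Finset.range_mono (Nat.succ_le_succ JK)) fun i _ _ =>
      mul_nonneg (cw_nonneg _ h.mono a i) (nu0 D i)).trans (e.trans_le ?_)
  linarith

/-- **the low triangle** -/
theorem abs_S3 : |D.S3| ≤ 4 * ex D.B D.J * (τ0 ^ 3 * Sa D 3) := by
  have hw := wt_one90 (Ω := Cube D.n)
  have x0 := h.ex0 D.J
  set T := ∑ i ∈ D.lo, D.dx i * nu D i with hT
  have T0 : 0 ≤ T := Finset.sum_nonneg fun i _ => mul_nonneg (h.dx0 i) (nu0 D i)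
  refine (Finset.abs_sum_le_sum_abs _ _).trans ((Finset.sum_le_sum (g := fun j =>
    8 / 3 * ex D.B D.J * (D.dx j * nu D j) + D.dx j * (4 / 3 * T)) fun j hj => ?_).trans ?_)
  swap
  · rw [Finset.sum_add_distrib, ← Finset.mul_sum, ← Finset.sum_mul, ← hT]
    have a1 := mul_le_mul_of_nonneg_right h.sum_lo T0
    have a2 := mul_le_mul_of_nonneg_left h.sum_nu x0
    rw [← hT] at a2
    linarith
  have jJ := (CD.mem_lo.1 hj).2
  have jK : j ≤ D.B.length := D.B_len ▸ jJ.trans h.cut.le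
  have b1 := mul_le_mul_of_nonneg_right (Lsg89.sum_cw_lo h.mono (Sh.two j) D.J) (nu0 D j)
  have b2 := h.cw_nu jJ
  rw [Wt87.card_two, Finset.sum_mul] at b1
  simp only [Finset.sum_mul] at b1
  rw [abs_mul, abs_of_nonneg (h.dx0 j), mul_left_comm _ (D.dx j), ← mul_add]
  refine mul_le_mul_of_nonneg_left (le_trans (b := ∑ a : (Sh.two j).Lf,
    ∑ i ∈ Finset.range (D.J + 1), (cw (Sh.two j) D.B a i * nu D j +
      2 / 3 * (cw (Sh.two j) D.B a i * nu D i))) ?_ ?_) (h.dx0 j)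
  swap
  · simp only [Finset.sum_add_distrib, ← Finset.mul_sum]
    push_cast at b1
    linarith
  refine (Finset.abs_sum_le_sum_abs _ _).trans (Finset.sum_le_sum fun a _ => ?_)
  refine (Finset.abs_sum_le_sum_abs _ _).trans (Finset.sum_le_sum fun i hi => ?_)
  have iK : i ≤ D.B.length := by
    have := Finset.mem_range.1 hi; have := h.cut; rw [D.B_len]; omega
  rw [abs_mul, abs_of_nonneg (cw_nonneg _ h.mono a i), mul_left_comm (2 / 3 : ℝ), ← mul_add]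
  refine mul_le_mul_of_nonneg_left ?_ (cw_nonneg _ h.mono a i)
  refine ((Law.abs_TE_le hw _ _ _ _).trans
    (Law.TE_mono hw _ _ _ fun x => abs_three _ _ _)).trans ?_
  rw [Law.TE_const_mul hw, Law.TE_add hw, Law.TE_add hw,
    Tay38.TE_pair hw (fun x y => |D.KR j x y| ^ 3) _ _ _ _ _
      ((Tay38.emb_inj _ a i).ne (Tay38.two_ne j)),
    Tay38.TE_pair hw (fun x y => |D.KR ((Sh.two j).shr (Sh.twoL j) a i) x y| ^ 3) _ _ _ _ _
      (Tay38.emb_ne _ a i _),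
    Tay38.TE_pair hw (fun x y => |D.KR ((Sh.two j).shr (Sh.twoR j) a i) x y| ^ 3) _ _ _ _ _
      (Tay38.emb_ne _ a i _),
    Wt87.shr_emb, Wt87.shr_two, Wt87.shr_nw, Wt87.shr_nw, min_eq_left jK, min_eq_left iK]
  have c1 := nu_shr D j i (Sh.twoL j) a
  have c2 := nu_shr D j i (Sh.twoR j) a
  change 3⁻¹ * (nu D j + nu D _ + nu D _) ≤ _
  linarith

theorem abs_del {j : ℕ} (hj : j ≤ D.K) : |D.del j| ≤ 2 := by
  have hw := wt_one90 (Ω := Cube D.n)
  have a := h.ook.mem hj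
  have b := pi2_mono hw D.B j (K := ov) (K' := fun _ _ => 1)
    (fun x y => (abs_le.1 (T157.G1.abs_ov_le x y)).2) 0
  have c := pi2_mono hw D.B j (K := fun _ _ => -1) (K' := ov)
    (fun x y => (abs_le.1 (T157.G1.abs_ov_le x y)).1) 0
  rw [pi2_const hw] at b c
  rw [CD.del, CD.rb, CD.E2, abs_le]
  constructor <;> linarith [a.1, a.2]

variable (hW : D.W.isSome = true)
include hW

theorem abs_lam2 : |D.lam2| ≤ 1024 * D.wt := by
  rw [CD.lam2, CD.dd_test hW]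
  exact (abs_mul_le (abs_mul_le (le_refl |(2 : ℝ)|) h.abs_lam) (h.abs_dP_nil hW 2)).trans_eq
    (by norm_num; ring)

theorem abs_lam3 : |D.lam3| ≤ 6144 * D.wt := by
  have b : |D.lam ^ 2| ≤ 16 := by
    rw [abs_pow]
    exact (pow_le_pow_left₀ (abs_nonneg _) h.abs_lam 2).trans_eq (by norm_num)
  rw [CD.lam3, CD.dd_test hW]
  exact (abs_mul_le (abs_mul_le (le_refl |(3 : ℝ)|) b) (h.abs_dP_nil hW 2)).trans_eq
    (by norm_num; ring)

theorem abs_k44 : |D.k44| ≤ 42467328 * D.wt := by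
  rw [CD.k44, CD.dd_test hW]
  exact (abs_mul_le (abs_mul_le (le_refl |(2 : ℝ)|) h.abs_k4) (h.abs_dP_nil hW 4)).trans_eq
    (by norm_num; ring)

theorem abs_dmx : |D.dmx| ≤ 976896 * τ0 *
    (D.wt * D.I (fun j => |D.del j|) + D.Iw fun j => |D.del j|) := by
  have a := abs_mul_le (h.abs_dP_nil hW 2) (h.abs_dP_val 2)
  have b := abs_mul_le h.abs_lam (h.abs_dP_test hW 2)
  have c := mul_nonneg h.tau0 (mul_nonneg D.wt0 (h.I0 fun j _ => abs_nonneg (D.del j)))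
  rw [CD.dmx, CD.dd_test hW]
  push_cast at a b
  linarith [abs_add_le (D.dP 2 [] * D.val.dP 2 [D.Sd]) (D.lam * D.dP 2 [D.Sd])]

theorem abs_y2 : |D.y2| ≤ 256 * τ0 ^ 2 * (D.wt * Sa D 2) := by
  have a := abs_mul_le (h.abs_lam2 hW) h.abs_S2
  rw [CD.y2, CD.dd_test hW, zero_mul, neg_zero, zero_div, zero_add, abs_div,
    abs_of_nonneg (by norm_num : (0 : ℝ) ≤ 4)]
  linarith

theorem abs_y3 : |D.y3| ≤ 4096 * τ0 ^ 3 * (D.wt * (ex D.B D.J * Sa D 3)) := by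
  have a := abs_mul_le (h.abs_lam3 hW) h.abs_S3
  rw [CD.y3, abs_div, abs_neg, abs_of_nonneg (by norm_num : (0 : ℝ) ≤ 6)]
  linarith

theorem abs_y4 : |D.y4| ≤ 884736 * τ0 ^ 4 * (D.wt * Sa D 4) := by
  have a := abs_mul_le (h.abs_k44 hW) h.abs_S4
  rw [CD.y4, abs_div, abs_of_nonneg (by norm_num : (0 : ℝ) ≤ 48)]
  linarith

theorem abs_mx : |D.mx| ≤ 488448 * τ0 ^ 3 *
    (Sa D 2 * (D.wt * D.I (fun j => |D.del j|) + D.Iw fun j => |D.del j|)) := by
  have a := abs_mul_le h.abs_S2 (h.abs_dmx hW)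
  rw [CD.mx, abs_div, abs_two]
  linarith

/-- **the low words of degree at least three** -/
theorem abs_lw : |D.y3 + D.y4 + D.mx| ≤ 10 ^ 6 * (1 + τ0) ^ 4 *
    (D.wt * (ex D.B D.J * Sa D 3 + Sa D 4) +
      Sa D 2 * (D.wt * D.I (fun j => |D.del j|) + D.Iw fun j => |D.del j|)) := by
  have t0 := h.tau0
  have c3 : τ0 ^ 3 ≤ (1 + τ0) ^ 4 :=
    (pow_le_pow_left₀ t0 (by linarith) 3).trans (pow_le_pow_right₀ (by linarith) (by norm_num))
  have c4 : τ0 ^ 4 ≤ (1 + τ0) ^ 4 := pow_le_pow_left₀ t0 (by linarith) 4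
  have c0 : 0 ≤ (1 + τ0) ^ 4 := by positivity
  have A0 := mul_nonneg D.wt0 (mul_nonneg (h.ex0 D.J) (h.Sa0 3))
  have B0 := mul_nonneg D.wt0 (h.Sa0 4)
  have C0 := mul_nonneg (h.Sa0 2) (add_nonneg
    (mul_nonneg D.wt0 (h.I0 fun j _ => abs_nonneg (D.del j)))
    (D.Iw0 fun j _ => abs_nonneg (D.del j)))
  linarith [abs_add_three D.y3 D.y4 D.mx, h.abs_y3 hW, h.abs_y4 hW, h.abs_mx hW,
    mul_le_mul_of_nonneg_right c3 A0, mul_le_mul_of_nonneg_right c4 B0,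
    mul_le_mul_of_nonneg_right c3 C0, mul_nonneg c0 A0, mul_nonneg c0 B0, mul_nonneg c0 C0]

/-- **all low words, crude** -/
theorem low_crude : |D.y2| + |D.y3| + |D.y4| + |D.mx| ≤
    3000000 * (1 + τ0) ^ 4 * (D.wt * Sa D 2) := by
  have t0 := h.tau0
  have c2 : τ0 ^ 2 ≤ (1 + τ0) ^ 4 :=
    (pow_le_pow_left₀ t0 (by linarith) 2).trans (pow_le_pow_right₀ (by linarith) (by norm_num))
  have c3 : τ0 ^ 3 ≤ (1 + τ0) ^ 4 :=
    (pow_le_pow_left₀ t0 (by linarith) 3).trans (pow_le_pow_right₀ (by linarith) (by norm_num))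
  have c4 : τ0 ^ 4 ≤ (1 + τ0) ^ 4 := pow_le_pow_left₀ t0 (by linarith) 4
  have c0 : 0 ≤ (1 + τ0) ^ 4 := by positivity
  have w0 := D.wt0
  have A0 := mul_nonneg w0 (h.Sa0 2)
  have a3 : ex D.B D.J * Sa D 3 ≤ Sa D 2 :=
    (mul_le_of_le_one_left (h.Sa0 3) h.ex1).trans (h.Sa_anti (by norm_num))
  have d1 : D.I (fun j => |D.del j|) ≤ 2 :=
    h.I_le zero_le_two fun j hj => h.abs_del (CD.mem_up.1 hj).2.le
  have d2 : D.Iw (fun j => |D.del j|) ≤ 2 * D.wt := by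
    rw [CD.wt_test hW, ← D.Iw_const]
    exact D.Iw_mono fun j hj => h.abs_del (CD.mem_up.1 hj).2.le
  have e3 := mul_le_mul c3 (mul_le_mul_of_nonneg_left a3 w0)
    (mul_nonneg w0 (mul_nonneg (h.ex0 D.J) (h.Sa0 3))) c0
  have e4 := mul_le_mul c4 (mul_le_mul_of_nonneg_left (h.Sa_anti (by norm_num : 2 ≤ 4)) w0)
    (mul_nonneg w0 (h.Sa0 4)) c0
  have e5 := mul_le_mul c3 (mul_le_mul_of_nonneg_left
    (add_le_add (mul_le_mul_of_nonneg_left d1 w0) d2) (h.Sa0 2)) (mul_nonneg (h.Sa0 2) (add_nonneg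
      (mul_nonneg w0 (h.I0 fun j _ => abs_nonneg (D.del j)))
      (D.Iw0 fun j _ => abs_nonneg (D.del j)))) c0
  linarith [h.abs_y2 hW, h.abs_y3 hW, h.abs_y4 hW, h.abs_mx hW,
    mul_le_mul_of_nonneg_right c2 A0, mul_nonneg c0 A0]

end Lt

end Crest.Agent.T156.Cas.C40.Lw76

end
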