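import Crest.Agent.T156.R1PE_60
import Crest.Agent.T156.R1LwA_76

/-!
# Row 156 (helper60): the size of `J` on the frame, read on a window
-/

set_option autoImplicit false
set_option linter.unusedSectionVars false

noncomputable section

namespace Crest.Agent.T156.Alt.P60

open Real Finset
open Crest.Agent.T156.Cas Crest.Agent.T156.Cas.C40 Crest.Agent.T156.Alt.CIn12
open Crest.Agent.T156.Alt.Md67
open Crest.Agent.T156.Alt.Alg77 Crest.Agent.T156.Alt.R77 Crest.Agent.T156.Alt.R62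
open Crest.Agent.T156.Alt.R82 Crest.Agent.T156.Cas.C40.R1L

/-- the test density of a window -/
def wf (c μ1 μ2 : ℝ) (n k : ℕ) : ℝ :=
  c * ((if k ∈ Ioc (3 * n) (4 * n) then μ1 else 0) - if k ∈ Ioc n (2 * n) then μ2 else 0)

theorem wf_out (c μ1 μ2 : ℝ) {n k : ℕ} (h : k ∉ Ioc n (4 * n)) : wf c μ1 μ2 n k = 0 := by
  rw [mem_Ioc] at h
  rw [wf, if_neg (by rw [mem_Ioc]; omega), if_neg (by rw [mem_Ioc]; omega), sub_zero, mul_zero]

theorem wf_abs {c μ1 μ2 : ℝ} (hc : 0 ≤ c) (h1 : 0 ≤ μ1) (h2 : 0 ≤ μ2) (n k : ℕ) :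
    |wf c μ1 μ2 n k| ≤ c * (μ1 + μ2) := by
  rw [wf, abs_mul, abs_of_nonneg hc]
  refine mul_le_mul_of_nonneg_left (abs_le.2 ⟨?_, ?_⟩) hc <;> split_ifs <;> linarith

theorem wf_sum (c μ1 μ2 : ℝ) {n : ℕ} {T : Finset ℕ} (hT : Ioc n (4 * n) ⊆ T) (d g : ℕ → ℝ) :
    ∑ k ∈ T, d k * (wf c μ1 μ2 n k * g k) = c * (μ1 * ∑ k ∈ Ioc (3 * n) (4 * n), d k * g k -
      μ2 * ∑ k ∈ Ioc n (2 * n), d k * g k) := by
  have a1 : Ioc (3 * n) (4 * n) ⊆ T := (Ioc_subset_Ioc (by omega) le_rfl).trans hT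
  have a2 : Ioc n (2 * n) ⊆ T := (Ioc_subset_Ioc le_rfl (by omega)).trans hT
  rw [← inter_eq_right.2 a1, ← sum_ite_mem, ← inter_eq_right.2 a2, ← sum_ite_mem, mul_sum, mul_sum,
    ← sum_sub_distrib, mul_sum]
  refine sum_congr rfl fun k _ => ?_
  rw [wf]
  split_ifs <;> ring

theorem sum_sh (F : ℕ → ℝ) (a b : ℕ) :
    ∑ j ∈ Icc (a + 1) (b + 1), F j = ∑ k ∈ Icc a b, F (k + 1) :=
  (sum_Ico_add' F a (b + 1) 1).symm

/-- more numbers -/
structure Xt (E : ℝ) (p : Pm) : Prop where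
  κ0 : 0 < p.κ
  v0 : 0 < p.v
  vn : p.v ≤ 1 / p.n
  nr : 1 / p.n ≤ p.r ^ 3
  ye : E ^ 8 * p.ye ≤ 1
  β : p.β ^ 2 ≤ E

/-- a window -/
structure Wi (E : ℝ) (p : Pm) (P : Pl) (t a a' Q : ℝ) (m : ℕ) (S : Sc) (l Λ₀ x d : ℝ) (n : ℕ) :
    Prop where
  xt : Xt E p
  hx : x ∈ Set.Icc a a'
  nm : p.n ≤ m
  ms : MS E d p t S (p.gst P t) m x l Λ₀
  co : ∀ k, p.jf < k → k ≤ p.Jp P →
    |1 - (D0 p P t m x).τ (k + 1) * R1J.G (D0 p P t m x).S (k + 1)| ≤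
      E * max ((p.gst P t).s k) p.r ^ 2 ∧
    (D0 p P t m x).gq (k + 1) ≤ |(p.gst P t).G k| + E * ((p.gst P t).s k * p.r ^ 2 + 1 / p.n)
  jn : p.jf < n
  ln : E ^ 10 * l ≤ n * p.v
  ny : n * p.v < 2 * p.ye

variable {E t a a' Q l Φ l0 Λ₀ Pt u1 V4 x d : ℝ} {p : Pm} {P : Pl} {m I n : ℕ} {S : Sc}
  {Pf : ℝ → ℝ}

theorem lt (F : SD56.Fr E p P t a a' Q m S l Φ Pf l0 Λ₀ Pt u1 V4 I) (hx : x ∈ Set.Icc a a')
    (f : ℕ → ℝ) (V : CIn12.Ev) {K : ℝ} (hK : p.β ^ 2 ≤ K) :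
    Lw76.Lt (cdf (p.gst P t) m x (p.gst P t).q (p.jf + 1) f V) K where
  ook := (rf_cq (rf_q F.cl) _).ook F.fx.leg
  mono := (F.fx.lg hx.1 hx.2).monoL
  cut := F.fx.cut.tw.cut
  top := F.fx.cut.tw.top
  tau := by
    rw [cd_K, cd_tau m x _ _ V le_rfl]
    exact (F.fx.tp_le _).2.trans hK

theorem bs (F : SD56.Fr E p P t a a' Q m S l Φ Pf l0 Λ₀ Pt u1 V4 I) (hx : x ∈ Set.Icc a a')
    (f : ℕ → ℝ) (V : CIn12.Ev) {K : ℝ} (hK : p.β ^ 2 ≤ K) :
    Bs (cdf (p.gst P t) m x (p.gst P t).q (p.jf + 1) f V) K :=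
  have h := lt F hx f V hK
  ⟨h.ook, h.mono, h.top, h.tau_mem⟩

/-- the density of the window `n` -/
def wd (p : Pm) (M : Md) (t : ℝ) (n : ℕ) : ℕ → ℝ :=
  wf (p.lamG t (n * p.v) / (M.z (2 * n) - M.z n + (M.z (4 * n) - M.z (3 * n))))
    (M.z (2 * n) - M.z n) (M.z (4 * n) - M.z (3 * n)) n

namespace Wi

variable (F : SD56.Fr E p P t a a' Q m S l Φ Pf l0 Λ₀ Pt u1 V4 I)
  (A : Wi E p P t a a' Q m S l Λ₀ x d n)
include F A

theorem pw {i j : ℕ} (h : i ≤ j) : E ^ i ≤ E ^ j := pow_le_pow_right₀ F.E1' h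

theorem lX : l ≤ n * p.v :=
  (le_mul_of_one_le_left F.l0'.le (one_le_pow₀ F.E1')).trans A.ln

theorem X0 : 0 < n * p.v := F.l0'.trans_le (A.lX F)

theorem rX : p.r ≤ n * p.v := (F.nr.r0.trans F.nr.l0l).trans (A.lX F)

theorem X1 : E ^ 8 * (n * p.v) ≤ 2 := by
  have := mul_le_mul_of_nonneg_left A.ny.le (pow_pos F.E0 8).le
  linarith [A.xt.ye]

theorem X2 {c : ℝ} {i : ℕ} (c1 : c ≤ 500) (hi : i ≤ 7) : c * E ^ i * (n * p.v) ≤ 1 := by
  have a1 := A.X1 F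
  have a2 := A.X0 F
  have a3 : c * E ^ i ≤ E ^ 8 / 2 := by
    have := A.pw F hi
    have := pow_pos F.E0 i
    have := F.E1
    rw [pow_succ E 7]
    nlinarith
  nlinarith

theorem s_le {k : ℕ} (hk : k ≤ 4 * n) (hJ : k ≤ S.J) : (p.gst P t).s k ≤ 4 * E * (n * p.v) := by
  have a1 := (F.cl.s_bds hJ).2
  have a2 : (k : ℝ) ≤ 4 * n := by exact_mod_cast hk
  have := A.xt.v0
  have := F.cl.C0
  rw [F.sc.v] at a1
  exact a1.trans ((mul_le_mul a2 (mul_le_mul_of_nonneg_right F.sc.C (by positivity))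
    (by positivity) (by positivity)).trans_eq (by ring))

theorem yT : 4 * E * (n * p.v) ≤ T0 S (p.gst P t) := by
  have a1 := F.T0_ge
  have a2 := A.X2 F (c := 192) (i := 5) (by norm_num) (by norm_num)
  exact le_of_mul_le_mul_left (by linarith) (show 0 < 48 * E ^ 4 by have := F.E0; positivity)

theorem nJ : 4 * n < S.J := by
  by_contra h
  have a1 := A.s_le F (not_lt.1 h) le_rfl
  have a2 := A.yT F
  have a3 := mul_pos F.E0 (A.X0 F)
  rw [T0] at a2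
  linarith

theorem s4 {k : ℕ} (hk : k ≤ 4 * n) : (p.gst P t).s k ≤ 4 * E * (n * p.v) :=
  A.s_le F hk (hk.trans (A.nJ F).le)

theorem kN {k : ℕ} (hk : k ≤ 4 * n) : k < (p.gst P t).N :=
  (hk.trans_lt (A.nJ F)).trans F.cl.J_lt

theorem kJ {k : ℕ} (hk : k ≤ 4 * n) : k ≤ p.Jp P :=
  F.sc.Jp ▸ (hk.trans (A.nJ F).le).trans F.cl.i3

theorem G0 {k : ℕ} (h : p.jf < k) (hk : k ≤ 4 * n) : (p.gst P t).G k = 0 := by
  obtain ⟨G, K⟩ := F.bk x A.hx
  refine K.glo k (F.sc.jl ▸ h) ((A.s4 F hk).trans ?_)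
  rw [le_div_iff₀ F.E0]
  linarith [A.X2 F (c := 4) (i := 2) (by norm_num) (by norm_num)]

theorem sig (f : ℕ → ℝ) {k : ℕ} (h : p.jf < k) (hk : k ≤ 4 * n) :
    (p.gst P t).s k - E * p.r ^ 3 ≤
      (cdf (p.gst P t) m x (p.gst P t).q (p.jf + 1) f E0).sig (k + 1) ∧
    (cdf (p.gst P t) m x (p.gst P t).q (p.jf + 1) f E0).sig (k + 1) ≤ (p.gst P t).s k := by
  have a1 := sig_sub (m := m) F.cl (p.gst P t).q k
  have a2 := F.cl.d_ge k
  have a3 := ((F.cl.d_le (A.kN F hk).le).trans F.cl.b1).trans F.sc.C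
  have a4 : (p.n : ℝ) ≤ m + 1 := by exact_mod_cast A.nm.trans (Nat.le_succ m)
  have a5 : (p.gst P t).d k / (m + 1) * (p.gst P t).q k ≤ E * p.r ^ 3 :=
    calc _ ≤ E / p.n * 1 := mul_le_mul (div_le_div₀ F.E0.le a3 F.n0 a4) (q_le_one k) (q_nonneg k)
          (div_nonneg F.E0.le F.n0.le)
      _ ≤ _ := by
        rw [mul_one, div_eq_mul_one_div]
        exact mul_le_mul_of_nonneg_left A.xt.nr F.E0.le
  have a6 : 0 ≤ (p.gst P t).d k / (m + 1) * (p.gst P t).q k :=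
    mul_nonneg (div_nonneg (by linarith) (by positivity)) (q_nonneg k)
  rw [cd_sig m _ _ _ (F.fx.lg A.hx.1 A.hx.2).toLeg h (A.kN F hk)]
  rw [A.G0 F h hk, sub_self, mul_zero] at a1
  constructor <;> linarith

theorem vr : E * p.v ≤ E * p.r ^ 3 := mul_le_mul_of_nonneg_left (A.xt.vn.trans A.xt.nr) F.E0.le

theorem Cv : S.C * S.v ≤ E * p.r ^ 3 :=
  (mul_le_mul_of_nonneg_right F.sc.C F.cl.v0.le).trans (F.sc.v ▸ A.vr F)

theorem dz {k : ℕ} (h : p.jf < k) (hk : k ≤ 4 * n) : (p.gst P t).dz m x k ≤ E * p.r ^ 3 := by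
  obtain ⟨k, rfl⟩ : ∃ j, k = j + 1 := ⟨k - 1, by omega⟩
  rw [dz_succ F.fx.leg]
  exact (F.cl.zs k (by rw [F.sc.j0]; omega) (hk.trans_lt (A.nJ F))).2.trans (A.Cv F)

theorem rg : 5 * (E * p.r ^ 3) ≤ 5 * E ^ 2 * (n * p.v) * p.r ^ 2 := by
  have := F.r0
  have := F.E0
  calc _ = 5 * (E * 1) * p.r * p.r ^ 2 := by ring
    _ ≤ 5 * (E * E) * (n * p.v) * p.r ^ 2 := by gcongr; exacts [F.E1', A.rX F]
    _ = _ := by ring

theorem tel {i j : ℕ} (hi : n ≤ i) (e : j = i + n) (hj : j ≤ 4 * n) :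
    n * p.v / E ≤ (p.gst P t).z j - (p.gst P t).z i ∧
      n * p.v / E ≤ (p.gst P t).s j - (p.gst P t).s i := by
  have a0 : n * p.v / E ≤ ((j : ℝ) - i) * (S.v / S.C) := by
    rw [e, F.sc.v]
    push_cast
    rw [add_sub_cancel_left, ← mul_div_assoc]
    exact div_le_div_of_nonneg_left (A.X0 F).le F.cl.C0 F.sc.C
  exact ⟨a0.trans (F.cl.z_tel (by rw [F.sc.j0]; have := A.jn; omega) (by omega)
    (hj.trans_lt (A.nJ F))).1, a0.trans (F.cl.s_tel (by omega) (hj.trans (A.nJ F).le)).1⟩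

theorem z4 : (p.gst P t).z (4 * n) + (p.gst P t).s (4 * n) ≤ 5 * E ^ 2 * (n * p.v) := by
  have a1 := (F.cl.z_s (k := 4 * n) (by rw [F.sc.j0]; have := A.jn; omega) (A.nJ F)).2
  have a2 := A.s4 F le_rfl
  have a3 : S.v ≤ n * p.v := by
    rw [F.sc.v]
    exact le_mul_of_one_le_left A.xt.v0.le (by have := A.jn; exact_mod_cast (by omega : 1 ≤ n))
  have X0 := A.X0 F
  have a4 := mul_le_mul F.sc.C (show (p.gst P t).s (4 * n) + 2 * S.v ≤ 4 * E * (n * p.v) +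
    2 * (n * p.v) by linarith) (by linarith [F.cl.s_nn (4 * n), F.cl.v0]) F.E0.le
  nlinarith [mul_nonneg (mul_nonneg (sub_nonneg.2 F.E1) F.E0.le) X0.le, mul_pos F.E0 X0]

theorem lam0 : 0 < p.lamG t (n * p.v) :=
  have h := lt_min (A.X0 F) F.fx.y0
  mul_pos A.xt.κ0 (lt_min h (mul_pos F.fx.t0 (sqrt_pos.2 h)))

theorem u0 : 0 < n * p.v / E := div_pos (A.X0 F) F.E0

theorem m1 : n * p.v / E ≤ (p.gst P t).z (2 * n) - (p.gst P t).z n :=
  (A.tel F le_rfl (by ring) (by omega)).1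

theorem m2 : n * p.v / E ≤ (p.gst P t).z (4 * n) - (p.gst P t).z (3 * n) :=
  (A.tel F (by omega) (by ring) le_rfl).1

theorem wd_abs (k : ℕ) : |wd p (p.gst P t) t n k| ≤ p.lamG t (n * p.v) := by
  have a1 := (A.u0 F).trans_le (A.m1 F)
  have a2 := (A.u0 F).trans_le (A.m2 F)
  exact (wf_abs (div_pos (A.lam0 F) (add_pos a1 a2)).le a1.le a2.le n k).trans_eq
    (div_mul_cancel₀ _ (add_pos a1 a2).ne')

theorem den : Den p t 1 (wd p (p.gst P t) t n) := by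
  have v0 := A.xt.v0
  refine ⟨fun k => ?_, fun k h => wf_out _ _ _ fun e => ?_⟩
  · have a0 := lamG_nn A.xt.κ0.le F.fx.y0.le F.fx.t0.le (show 0 ≤ k * p.v by positivity)
    by_cases e : k ∈ Ioc n (4 * n)
    · have a1 : (n : ℝ) ≤ k := by exact_mod_cast (mem_Ioc.1 e).1.le
      linarith [A.wd_abs F k, Pm.lamG_mono A.xt.κ0.le F.fx.t0.le
        (mul_le_mul_of_nonneg_right a1 v0.le)]
    · rw [wd, wf_out _ _ _ e, abs_zero]
      linarith
  · have a1 : (k : ℝ) ≤ 4 * n := by exact_mod_cast (mem_Ioc.1 e).2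
    linarith [mul_le_mul_of_nonneg_right a1 v0.le, A.ny]

theorem sub : Ioc n (4 * n) ⊆ Ico (p.jf + 1) (p.gst P t).N := fun k hk => by
  have := A.jn
  have := mem_Ioc.1 hk
  exact mem_Ico.2 ⟨by omega, A.kN F this.2⟩

theorem I_wd (g : ℕ → ℝ) :
    (cdf (p.gst P t) m x (p.gst P t).q (p.jf + 1) (wd p (p.gst P t) t n) E0).I
      (fun j => fc (p.jf + 1) (wd p (p.gst P t) t n) j * g j) =
    p.lamG t (n * p.v) / ((p.gst P t).z (2 * n) - (p.gst P t).z n +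
      ((p.gst P t).z (4 * n) - (p.gst P t).z (3 * n))) *
    (((p.gst P t).z (2 * n) - (p.gst P t).z n) *
      ∑ k ∈ Ioc (3 * n) (4 * n), (p.gst P t).dz m x k * g (k + 1) -
    ((p.gst P t).z (4 * n) - (p.gst P t).z (3 * n)) *
      ∑ k ∈ Ioc n (2 * n), (p.gst P t).dz m x k * g (k + 1)) := by
  rw [cd_I, ← wf_sum _ _ _ (A.sub F)]
  exact sum_congr rfl fun k hk => by rw [fc_succ (mem_Ico.1 hk).1]; rfl

theorem dz0 (k : ℕ) : 0 ≤ (p.gst P t).dz m x k := (F.fx.lg A.hx.1 A.hx.2).dz_nonneg k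

theorem gap : p.lamG t (n * p.v) * (5 * E ^ 2 * (n * p.v)) * (5 * E ^ 2 * (n * p.v)) ≤
    E ^ 7 * (cdf (p.gst P t) m x (p.gst P t).q (p.jf + 1) (wd p (p.gst P t) t n) E0).I fun j =>
      fc (p.jf + 1) (wd p (p.gst P t) t n) j *
        (cdf (p.gst P t) m x (p.gst P t).q (p.jf + 1) (wd p (p.gst P t) t n) E0).sig j := by
  have jn := A.jn
  have b1 := A.m1 F
  have b2 := A.m2 F
  have b3 := (A.tel F (i := 2 * n) (j := 3 * n) (by omega) (by ring) (by omega)).2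
  have u0 := A.u0 F
  have l0 := A.lam0 F
  have E0' := F.E0
  have X0 := A.X0 F
  have c1 := sum_le_sum (s := Ioc n (2 * n)) fun k hk => mul_le_mul_of_nonneg_left
    ((A.sig F (wd p (p.gst P t) t n) (k := k) (by have := mem_Ioc.1 hk; omega)
      (by have := mem_Ioc.1 hk; omega)).2.trans (F.cl.sm (mem_Ioc.1 hk).2)) (A.dz0 F k)
  have c2 := sum_le_sum (s := Ioc (3 * n) (4 * n)) fun k hk => mul_le_mul_of_nonneg_left
    ((sub_le_sub_right (F.cl.sm (mem_Ioc.1 hk).1.le) _).trans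
      (A.sig F (wd p (p.gst P t) t n) (k := k) (by have := mem_Ioc.1 hk; omega)
        (mem_Ioc.1 hk).2).1) (A.dz0 F k)
  rw [← sum_mul, sum_dz F.fx.leg (by omega)] at c1 c2
  have c3 : E * p.r ^ 3 ≤ n * p.v / E / 2 := by
    have r1 := F.ry.trans F.y1
    have r0 := F.r0
    have : p.r ^ 3 ≤ l := (pow_le_of_le_one r0.le r1 (by norm_num)).trans
      (F.nr.r0.trans F.nr.l0l)
    rw [div_div, le_div_iff₀ (by positivity)]
    calc E * p.r ^ 3 * (E * 2) ≤ E * l * (E * E ^ 8) := by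
          gcongr
          · exact (mul_pos E0' F.l0').le
          · exact (show (2 : ℝ) ≤ E by linarith [F.E1]).trans
              (le_self_pow₀ (n := 8) F.E1' (by norm_num))
      _ = E ^ 10 * l := by ring
      _ ≤ _ := A.ln
  rw [A.I_wd F]
  generalize (p.gst P t).z (2 * n) - (p.gst P t).z n = μ1 at *
  generalize (p.gst P t).z (4 * n) - (p.gst P t).z (3 * n) = μ2 at *
  have h1 := u0.trans_le b1
  have h2 := u0.trans_le b2
  have c4 : n * p.v / E / 2 * (μ1 + μ2) ≤ μ1 * μ2 := by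
    nlinarith [mul_nonneg h1.le (sub_nonneg.2 b2), mul_nonneg h2.le (sub_nonneg.2 b1)]
  have c5 := add_le_add (mul_le_mul_of_nonneg_left c2 h1.le)
    (neg_le_neg (mul_le_mul_of_nonneg_left c1 h2.le))
  have c6 := mul_le_mul_of_nonneg_left (show n * p.v / E / 2 ≤ (p.gst P t).s (3 * n) -
    E * p.r ^ 3 - (p.gst P t).s (2 * n) by linarith) (mul_pos h1 h2).le
  have c7 := mul_le_mul_of_nonneg_right c4 (half_pos u0).le
  refine le_trans ?_ (mul_le_mul_of_nonneg_left (mul_le_mul_of_nonneg_left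
    (show n * p.v / E / 2 * (μ1 + μ2) * (n * p.v / E / 2) ≤ _ by linarith) (by positivity))
    (by positivity))
  calc _ = 100 * E ^ 6 * (p.lamG t (n * p.v) * (n * p.v / E / 2) ^ 2) := by field_simp; ring
    _ ≤ E * E ^ 6 * (p.lamG t (n * p.v) * (n * p.v / E / 2) ^ 2) := by
        gcongr; linarith [F.E1]
    _ = _ := by field_simp

theorem p0 : 0 < 5 * E ^ 2 * (n * p.v) := by have := F.E0; have := A.X0 F; positivity

theorem lp : E * l ≤ 5 * E ^ 2 * (n * p.v) := by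
  have := mul_le_mul_of_nonneg_left (A.lX F) F.E0.le
  nlinarith [mul_nonneg (sub_nonneg.2 F.E1') (mul_pos F.E0 (A.X0 F)).le, mul_pos F.E0 (A.X0 F)]

theorem yp : 4 * E * (n * p.v) ≤ 5 * E ^ 2 * (n * p.v) := by
  nlinarith [mul_nonneg (sub_nonneg.2 F.E1') (mul_pos F.E0 (A.X0 F)).le, mul_pos F.E0 (A.X0 F)]

theorem ly : l ≤ 4 * E * (n * p.v) := by
  nlinarith [mul_nonneg (sub_nonneg.2 F.E1') (A.X0 F).le, A.lX F, A.X0 F]

theorem cum0 (y : ℝ) : 0 ≤ cum S (p.gst P t) m x y :=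
  sum_nonneg fun k _ => mul_nonneg (A.dz0 F k) (abs_nonneg _)

theorem cum_le : E ^ 12 * cum S (p.gst P t) m x (4 * E * (n * p.v)) ≤ (n * p.v) ^ 2 := by
  have E0' := F.E0
  have X0 := A.X0 F
  have l0 := F.l0'
  refine (pow_le_pow_iff_left₀ (mul_nonneg (by positivity) (A.cum0 F _)) (by positivity)
    two_ne_zero).1 ?_
  calc _ = E ^ 24 * cum S (p.gst P t) m x (4 * E * (n * p.v)) ^ 2 := by ring
    _ ≤ E ^ 24 * (E ^ 4 * (4 * E * (n * p.v) * l ^ 3)) :=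
        mul_le_mul_of_nonneg_left (A.ms.Gb _ (A.ly F)) (by positivity)
    _ ≤ E ^ 24 * (E ^ 4 * (E * E * (n * p.v) * l ^ 3)) := by gcongr; linarith [F.E1]
    _ = n * p.v * (E ^ 10 * l) ^ 3 := by ring
    _ ≤ n * p.v * (n * p.v) ^ 3 :=
        mul_le_mul_of_nonneg_left (pow_le_pow_left₀ (by positivity) A.ln 3) X0.le
    _ = _ := by ring

theorem low : |(cdf (p.gst P t) m x (p.gst P t).q (p.jf + 1) (wd p (p.gst P t) t n) E0).yh +
    (cdf (p.gst P t) m x (p.gst P t).q (p.jf + 1) (wd p (p.gst P t) t n) E0).y2 +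
    (cdf (p.gst P t) m x (p.gst P t).q (p.jf + 1) (wd p (p.gst P t) t n) E0).y3 +
    (cdf (p.gst P t) m x (p.gst P t).q (p.jf + 1) (wd p (p.gst P t) t n) E0).y4 +
    (cdf (p.gst P t) m x (p.gst P t).q (p.jf + 1) (wd p (p.gst P t) t n) E0).mx| ≤
    p.lamG t (n * p.v) * (5 * E ^ 2 * (n * p.v)) * (E ^ 16 * l ^ 3) := by
  have h := lt F A.hx (wd p (p.gst P t) t n) E0 A.xt.β
  have E0' := F.E0
  have l0 := A.lam0 F
  have a1 := h.low_crude rfl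
  have a2 : Lw76.Sa (cdf (p.gst P t) m x (p.gst P t).q (p.jf + 1) (wd p (p.gst P t) t n) E0) 2 =
      S0 (p.gst P t) m x := by
    rw [Lw76.Sa, F.fx.cut.sum_low]
    simp only [sq_abs]
    rfl
  have a3 : (cdf (p.gst P t) m x (p.gst P t).q (p.jf + 1) (wd p (p.gst P t) t n) E0).wt ≤
      p.lamG t (n * p.v) * (5 * E ^ 2 * (n * p.v)) := by
    rw [CD.wt, F.fx.cut.tw.dd, cd_Iw, ← sum_subset (A.sub F) fun k _ hk => by
      simp only [omP, wd, wf_out _ _ _ hk, mul_zero, abs_zero, zero_mul]]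
    refine (sum_le_sum (g := fun k => p.lamG t (n * p.v) * (p.gst P t).dz m x k)
      fun k hk => ?_).trans ?_
    · simp only [omP]
      rw [mul_one, abs_mul, dz_free F.fx.leg m x (by have := mem_Ioc.1 hk; omega),
        abs_of_nonneg (A.dz0 F k), mul_comm]
      exact mul_le_mul_of_nonneg_right (A.wd_abs F k) (A.dz0 F k)
    · rw [← mul_sum, sum_dz F.fx.leg (by omega)]
      gcongr
      linarith [A.z4 F, F.cl.z_pos n, F.cl.s_nn (4 * n)]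
  have a4 : 3000000 * (1 + E) ^ 4 ≤ E ^ 7 := by
    calc _ ≤ 3000000 * (2 * E) ^ 4 := by gcongr; linarith [F.E1]
      _ = 48000000 * E ^ 4 := by ring
      _ ≤ 1000 ^ 3 * E ^ 4 := by gcongr; norm_num
      _ ≤ E ^ 3 * E ^ 4 := by gcongr; exact F.E1
      _ = _ := by ring
  have a5 := h.Sa0 2
  have a6 := A.p0 F
  rw [F.fx.cut.yh_eq, zero_add]
  refine le_trans ?_ (a1.trans ((mul_le_mul a4 (mul_le_mul a3 (a2.trans_le A.ms.s0) a5
    (by positivity)) (mul_nonneg (CD.wt0 _) a5) (by positivity)).trans_eq (by ring)))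
  exact (abs_add_le _ _).trans (add_le_add_left (abs_add_three _ _ _) _)

/-- **the window** -/
theorem wj : WJ (cdf (p.gst P t) m x (p.gst P t).q (p.jf + 1) (wd p (p.gst P t) t n) E0)
    (fc (p.jf + 1) (wd p (p.gst P t) t n)) (4 * n + 1) (E ^ 7)
    (p.lamG t (n * p.v) * (5 * E ^ 2 * (n * p.v))) (5 * E ^ 2 * (n * p.v))
    (cum S (p.gst P t) m x (4 * E * (n * p.v)))
    (∑ k ∈ Ioo S.jl (p.gst P t).N, (p.gst P t).dz m x k * |(p.gst P t).del m x k|)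
    (E ^ 16 * l ^ 3) (5 * E ^ 2 * (n * p.v) * p.r ^ 2) := by
  have jn := A.jn
  have E0' := F.E0
  have l0 := F.l0'
  have r0 := F.r0
  have X0 := A.X0 F
  have p0 := A.p0 F
  have rg := A.rg F
  have r3 : 0 ≤ E * p.r ^ 3 := by positivity
  have ix : ∀ j, p.jf + 1 < j → j ≤ 4 * n + 1 → ∃ k, j = k + 1 ∧ p.jf < k ∧ k ≤ 4 * n :=
    fun j h1 h2 => ⟨j - 1, by omega, by omega, by omega⟩
  have eI : ∀ i, (cdf (p.gst P t) m x (p.gst P t).q (p.jf + 1) (wd p (p.gst P t) t n) E0).I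
      ((cdf (p.gst P t) m x (p.gst P t).q (p.jf + 1) (wd p (p.gst P t) t n) E0).u i) =
      ∑ k ∈ Ioo S.jl (p.gst P t).N, (p.gst P t).dz m x k *
        (p.gst P t).E2 m x (fun R => |R - (p.gst P t).q k| ^ i) k := fun i => by
    rw [cd_I, ← F.up_eq]
    exact sum_congr rfl fun k hk => by rw [cd_u _ _ _ _ _ _ (mem_Ico.1 hk).1 (mem_Ico.1 hk).2]
  have e2 : E ^ 2 * l ^ 3 ≤ E ^ 16 * l ^ 3 :=
    mul_le_mul_of_nonneg_right (A.pw F (by norm_num)) (by positivity)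
  refine ⟨F.fx.cut.tw, mem_Ioo.2 ⟨show p.jf + 1 < _ by omega, ?_⟩, one_le_pow₀ F.E1',
    mul_pos (A.lam0 F) p0, p0, A.X2 F (by norm_num) (by norm_num), fun j hj => ?_, fun j => ?_, ?_,
    A.gap F, ?_, fun j h1 h2 => ?_, fun j h1 h2 => ?_, ?_, ?_, ?_, ?_,
    A.ms.N2.trans (A.lp F), (eI 2).trans_le (A.ms.u2.trans e2), (eI 3).trans_le (A.ms.u3.trans e2),
    ?_, fun j h1 h2 => ?_, fun j h1 h2 => ?_, A.low F⟩
  · rw [cd_K]; exact Nat.succ_lt_succ (A.kN F le_rfl)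
  · rw [fc, if_neg (by omega)]
    exact wf_out _ _ _ (by rw [mem_Ioc]; omega)
  · rw [mul_comm]
    refine mul_le_mul_of_nonneg_right ?_ p0.le
    unfold fc
    split_ifs
    exacts [abs_zero.trans_le (A.lam0 F).le, A.wd_abs F _]
  · have := A.I_wd F fun _ => 1
    simp only [mul_one] at this
    rw [this, sum_dz F.fx.leg (by omega), sum_dz F.fx.leg (by omega)]
    ring
  · exact (add_le_add (ex_succ F.fx.leg _).le
      (A.sig F (wd p (p.gst P t) t n) (k := 4 * n) (by omega) le_rfl).2).trans (A.z4 F)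
  · obtain ⟨k, rfl, k1, k2⟩ := ix j h1 h2.le
    rw [cd_dx, cd_dx]
    linarith [(A.sig F (wd p (p.gst P t) t n) k1 k2).1, A.dz F k1 k2, A.Cv F,
      (A.sig F (wd p (p.gst P t) t n) (k := k + 1) (by omega) (by omega)).2,
      A.dz F (k := k + 1) (by omega) (by omega), (F.cl.ss k (k2.trans_lt (A.nJ F))).2]
  · obtain ⟨k, rfl, k1, k2⟩ := ix j h1 h2
    rw [cd_dx]
    linarith [A.dz F k1 k2]
  · rw [cd_J, sum_sh]
    refine (sum_congr rfl fun k hk => ?_).trans_le (sum_le_sum_of_subset_of_nonneg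
      (fun k hk => ?_) fun k _ _ => mul_nonneg (A.dz0 F k) (abs_nonneg _))
    · rw [cd_dx, cd_del _ _ _ _ _ (mem_Icc.1 hk).1 (A.kN F (mem_Icc.1 hk).2)]; rfl
    · exact mem_filter.2 ⟨mem_Ioo.2 ⟨F.sc.jl ▸ (mem_Icc.1 hk).1,
        (mem_Icc.1 hk).2.trans_lt (A.nJ F)⟩, A.s4 F (mem_Icc.1 hk).2⟩
  · have := mul_le_mul_of_nonneg_left (A.cum_le F) (show 0 ≤ 2 * E ^ 2 by positivity)
    have := mul_le_mul_of_nonneg_right (A.pw F (show 2 ≤ 4 by norm_num)) (sq_nonneg (n * p.v))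
    have := mul_pos (pow_pos E0' 4) (pow_pos X0 2)
    linarith
  · exact mul_le_of_le_one_right p0.le (pow_le_one₀ r0.le (F.ry.trans F.y1))
  · rw [cd_I, ← F.up_eq]
    exact (sum_congr rfl fun k hk => by
      rw [cd_del _ _ _ _ _ (mem_Ico.1 hk).1 (mem_Ico.1 hk).2]; rfl).le
  · rw [cd_J, sum_sh]
    refine (sum_congr rfl fun k hk => ?_).trans_le ((sum_le_sum_of_subset_of_nonneg
      (fun k hk => ?_) fun k _ _ => mul_nonneg (A.dz0 F k) ?_).trans (A.ms.u3'.trans ?_))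
    · rw [cd_dx, cd_u _ _ _ _ _ _ (mem_Icc.1 hk).1 (A.kN F (mem_Icc.1 hk).2)]
    · exact mem_Ioo.2 ⟨F.sc.jl ▸ (mem_Icc.1 hk).1, (mem_Icc.1 hk).2.trans_lt (A.nJ F)⟩
    · exact Crest.Agent.T157.Casc.pi2_nonneg wt_one90 _ _ (fun _ _ => by positivity) _
    · calc E ^ 3 * l ^ 4 = E * l * (E ^ 2 * l ^ 3) := by ring
        _ ≤ _ := mul_le_mul (A.lp F) e2 (by positivity) p0.le
  · obtain ⟨k, rfl, k1, k2⟩ := ix j h1 h2
    refine (A.co k k1 (A.kJ F k2)).1.trans (mul_le_mul (le_self_pow₀ F.E1' (by norm_num))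
      (pow_le_pow_left₀ (r0.le.trans (le_max_right _ _)) (max_le ((A.s4 F k2).trans (A.yp F))
        ((F.nr.r0.trans F.nr.l0l).trans ((A.ly F).trans (A.yp F)))) 2) (sq_nonneg _)
      (by positivity))
  · obtain ⟨k, rfl, k1, k2⟩ := ix j h1 h2
    have a1 := (A.co k k1 (A.kJ F k2)).2
    rw [A.G0 F k1 k2, abs_zero, zero_add, CD.gq] at a1
    refine a1.trans ?_
    have := mul_le_mul_of_nonneg_left (add_le_add (mul_le_mul_of_nonneg_right (A.s4 F k2)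
      (sq_nonneg p.r)) A.xt.nr) E0'.le
    linarith

/-- the size of the remainder -/
theorem rho (hd : d = (1 / E ^ 200) ^ 2 * n4 p) {y : ℝ} (h1 : l ≤ y) (h2 : y ≤ E * (n * p.v))
    (h3 : n * p.v ≤ 2 * E ^ 10 * y) {ρ : ℝ}
    (hρ : ρ = cum S (p.gst P t) m x (4 * E * (n * p.v)) + p.r ^ 2 +
      E ^ 16 * l ^ 3 / (5 * E ^ 2 * (n * p.v)) + 5 * E ^ 2 * (n * p.v) *
        ∑ k ∈ Ioo S.jl (p.gst P t).N, (p.gst P t).dz m x k * |(p.gst P t).del m x k|) :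
    0 ≤ ρ ∧ S.ms y * ρ ^ 2 ≤ E ^ 37 * d * y ^ 2 ∧ ρ ≤ E ^ 22 * y ^ 2 := by
  have E0' := F.E0
  have E1 := F.E1
  have l0 := F.l0'
  have r0 := F.r0
  have X0 := A.X0 F
  have p0 := A.p0 F
  have y0 := l0.trans_le h1
  have m0 := F.cl.ms_pos y0.le
  have d0 : 0 ≤ d := by have := F.n40; rw [hd]; positivity
  have y4 : y ≤ 4 * E * (n * p.v) := by linarith [mul_pos E0' X0]
  have yp := y4.trans (A.yp F)
  have yT := y4.trans (A.yT F)
  have rl := F.nr.r0.trans F.nr.l0l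
  have γ0 := A.cum0 F (4 * E * (n * p.v))
  have N0 : 0 ≤ ∑ k ∈ Ioo S.jl (p.gst P t).N, (p.gst P t).dz m x k * |(p.gst P t).del m x k| :=
    sum_nonneg fun k _ => mul_nonneg (A.dz0 F k) (abs_nonneg _)
  have a1 := A.cum_le F
  have a2 := A.ms.Ga _ (A.ly F) (A.yT F)
  have a3 := A.ms.N1
  have a4 := A.ms.N2
  generalize cum S (p.gst P t) m x (4 * E * (n * p.v)) = γ at *
  generalize ∑ k ∈ Ioo S.jl (p.gst P t).N, (p.gst P t).dz m x k * |(p.gst P t).del m x k| = N at *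
  have up : ∀ {c : ℝ} {i j : ℕ} {z : ℝ}, c ≤ 1000 → i < j → 0 ≤ z → c * E ^ i * z ≤ E ^ j * z :=
    fun {c i j z} hc hi hz => mul_le_mul_of_nonneg_right
      ((mul_le_mul_of_nonneg_right (hc.trans E1) (by positivity)).trans
        ((pow_succ' E i).symm.trans_le (A.pw F hi))) hz
  have dy : 0 ≤ d * y ^ 2 := by positivity
  have b1 : γ ≤ E ^ 21 * y ^ 2 :=
    calc γ ≤ E ^ 12 * γ := le_mul_of_one_le_left γ0 (one_le_pow₀ F.E1')
      _ ≤ (2 * E ^ 10 * y) ^ 2 := a1.trans (pow_le_pow_left₀ X0.le h3 2)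
      _ = 4 * E ^ 20 * y ^ 2 := by ring
      _ ≤ _ := up (by norm_num) (by norm_num) (sq_nonneg _)
  have b2 : p.r ^ 2 ≤ E ^ 21 * y ^ 2 := (pow_le_pow_left₀ r0.le (rl.trans h1) 2).trans
    (le_mul_of_one_le_left (sq_nonneg _) (one_le_pow₀ F.E1'))
  have b3 : E ^ 16 * l ^ 3 / (5 * E ^ 2 * (n * p.v)) ≤ E ^ 16 * l ^ 3 / y :=
    div_le_div_of_nonneg_left (by positivity) y0 yp
  have b4 : E ^ 16 * l ^ 3 / y ≤ E ^ 21 * y ^ 2 := by
    rw [div_le_iff₀ y0, mul_assoc, ← pow_succ]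
    gcongr
    exacts [F.E1', by norm_num]
  have b5 : 5 * E ^ 2 * (n * p.v) ≤ 10 * E ^ 12 * y :=
    (mul_le_mul_of_nonneg_left h3 (by positivity)).trans_eq (by ring)
  have b6 : 5 * E ^ 2 * (n * p.v) * N ≤ E ^ 21 * y ^ 2 :=
    calc _ ≤ 10 * E ^ 12 * y * (E * y) := mul_le_mul b5 (a4.trans (by gcongr)) N0 (by positivity)
      _ = 10 * E ^ 13 * y ^ 2 := by ring
      _ ≤ _ := up (by norm_num) (by norm_num) (sq_nonneg _)
  have c1 : S.ms y * γ ^ 2 ≤ E ^ 35 * (d * y ^ 2) :=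
    calc _ ≤ E ^ 10 * d * (4 * E * (2 * E ^ 10 * y)) ^ 2 :=
          ((mul_le_mul_of_nonneg_right (F.cl.msm y4) (sq_nonneg _)).trans a2).trans (by gcongr)
      _ = 64 * E ^ 32 * (d * y ^ 2) := by ring
      _ ≤ _ := up (by norm_num) (by norm_num) dy
  have c2 : S.ms y * (p.r ^ 2) ^ 2 ≤ E ^ 35 * (d * y ^ 2) := by
    have := F.nr.f y (F.nr.l0l.trans h1) yT
    rw [max_eq_left h1, div_le_iff₀ (by positivity), ← hd] at this
    refine le_trans (le_of_mul_le_mul_right ?_ y0) (le_mul_of_one_le_left dy (one_le_pow₀ F.E1'))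
    linarith
  have c3 : S.ms y * (E ^ 16 * l ^ 3 / (5 * E ^ 2 * (n * p.v))) ^ 2 ≤ E ^ 35 * (d * y ^ 2) := by
    have e1 := F.nr.b l F.nr.l0l (h1.trans yT)
    have e2 := F.cl.ms_mul l0.le ((one_le_div l0).2 h1)
    rw [F.nr.Plo l le_rfl, ← F.nr.l3, max_self, div_le_iff₀ (by positivity), ← hd] at e1
    rw [div_mul_cancel₀ _ l0.ne'] at e2
    have e3 : S.ms l * l ^ 2 ≤ d := le_of_mul_le_mul_right (by linarith) (pow_pos l0 4)
    calc _ ≤ 4 * (y / l) ^ 2 * S.ms l * (E ^ 16 * l ^ 3 / y) ^ 2 :=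
          mul_le_mul e2 (pow_le_pow_left₀ (by positivity) b3 2) (sq_nonneg _) (m0.le.trans e2)
      _ = 4 * E ^ 32 * (S.ms l * l ^ 2 * l ^ 2) := by field_simp
      _ ≤ 4 * E ^ 32 * (d * y ^ 2) := by gcongr
      _ ≤ _ := up (by norm_num) (by norm_num) dy
  have c4 : S.ms y * (5 * E ^ 2 * (n * p.v) * N) ^ 2 ≤ E ^ 35 * (d * y ^ 2) := by
    have e1 : S.ms y * N ^ 2 ≤ E ^ 10 * d := le_trans (mul_le_mul_of_nonneg_right
      ((F.cl.ms1 y).trans (le_mul_of_one_le_right F.θ0.le F.nr.L1)) (sq_nonneg _)) a3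
    calc _ = (5 * E ^ 2 * (n * p.v)) ^ 2 * (S.ms y * N ^ 2) := by ring
      _ ≤ (10 * E ^ 12 * y) ^ 2 * (E ^ 10 * d) := by gcongr
      _ = 100 * E ^ 34 * (d * y ^ 2) := by ring
      _ ≤ _ := up (by norm_num) (by norm_num) dy
  have q0 : 0 ≤ E ^ 16 * l ^ 3 / (5 * E ^ 2 * (n * p.v)) := by positivity
  have q1 : 0 ≤ 5 * E ^ 2 * (n * p.v) * N := by positivity
  generalize E ^ 16 * l ^ 3 / (5 * E ^ 2 * (n * p.v)) = u at *
  generalize 5 * E ^ 2 * (n * p.v) * N = w at *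
  refine ⟨by rw [hρ]; positivity, ?_, ?_⟩
  · have e1 : ρ ^ 2 ≤ 4 * (γ ^ 2 + (p.r ^ 2) ^ 2 + u ^ 2 + w ^ 2) := by
      rw [hρ]
      nlinarith [sq_nonneg (γ - p.r ^ 2), sq_nonneg (γ - u), sq_nonneg (γ - w),
        sq_nonneg (p.r ^ 2 - u), sq_nonneg (p.r ^ 2 - w), sq_nonneg (u - w)]
    linarith [mul_le_mul_of_nonneg_left e1 m0.le, up (c := 16) (i := 35) (j := 37) (by norm_num)
      (by norm_num) dy]
  · linarith [up (c := 4) (i := 21) (j := 22) (by norm_num) (by norm_num) (sq_nonneg y)]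

end Wi

theorem xt_of {β c0 C0 c η K : ℝ} {A : ℕ} (H : Reg β c0 C0 A c η K p) (h : 3 * η ≤ c) :
    Xt ((p.n : ℝ) ^ η) p := by
  have A2 : (2 : ℝ) ≤ A := by exact_mod_cast H.A2
  have n0 := one_div_pos.2 H.N0
  have e : logb p.n (1 / (p.n : ℝ)) = -1 := by rw [one_div, logb_inv, H.lg_n]
  refine ⟨H.κ0, H.v0, H.le_of_lg H.v0 n0 ?_, H.le_of_lg n0 (pow_pos H.r0 3) ?_,
    H.le_of_lg (mul_pos (pow_pos H.Λ0 8) H.ye0) one_pos ?_, H.hβ ▸ H.β_le⟩
  · linarith [H.lg_v_le, H.η_le, H.c_le]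
  · rw [logb_pow, H.lg_r]
    push_cast
    linarith [H.lg_s.1, H.c_pos]
  · rw [logb_mul (pow_pos H.Λ0 8).ne' H.ye0.ne', logb_pow, H.lg_rp, H.lg_ye, logb_one]
    push_cast
    linarith [H.η_pos]

/-- **the density times `J`** -/
theorem jwG_of {β : ℝ} (hβ : 1 < β) (hC : Sml β Co) (hR : Gain β RsG) (hM : Sml β MsG) :
    Sml β JwG := by
  obtain ⟨C, c1, hJ⟩ := jwin
  have k1 := (hR.mono fun _ p _ _ H (_ : 0 ≤ p.s) => H).sml 42 mo_RsG
  refine Sml.glue' hβ ((hC.and k1).and hM) 2 one_pos 3 fun c0 C0 A c η _ _ _ _ =>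
    ⟨C, fun p H _ _ hη ⟨⟨co, rs⟩, ms⟩ σ σ' P t a a' Q m X S l Φ Pf l0 Λ₀ Pt u1 V4 I F x hx k
      k1 k2 => ?_⟩
  have xt := xt_of H (by exact_mod_cast hη)
  have CE := H.K_le
  have s0 := H.s0.le
  have B0 := Bud_nonneg s0 X.Q0
  generalize (p.n : ℝ) ^ η = E at *
  have E0' := F.E0
  have E1 := F.E1
  have l0' := F.l0'
  have v0 := xt.v0
  have m0 : (0 : ℝ) < m := Nat.cast_pos.2 F.fx.m0
  have hx' : x ∈ Set.Icc a a' := by
    rcases hx with rfl | rfl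
    exacts [⟨le_rfl, F.fx.aa⟩, ⟨F.fx.aa, le_rfl⟩]
  have y0 : 0 < max ((p.gst P t).s k) l := l0'.trans_le (le_max_right _ _)
  have n4' := F.n40
  by_cases hs : sv p t k = 0
  · refine ⟨0, le_rfl, fun _ => rfl, by rw [sq (0 : ℝ), mul_zero, mul_zero]; positivity,
      by positivity, ?_⟩
    rw [hs, abs_zero, mul_zero, zero_mul, mul_zero, add_zero]
    split_ifs
    exacts [by positivity, le_rfl]
  have kJ : k < p.J := by
    by_contra h
    exact hs (by rw [F.fx.sv_eq, if_neg h])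
  have ky : k * p.v < 2 * p.ye := not_le.1 fun h => hs (F.fx.sv_hi h)
  have sk := F.cl.s_bds (F.sc.J ▸ kJ.le)
  have C0 := F.cl.C0
  have k0 : (0 : ℝ) ≤ k * p.v := by positivity
  rw [F.sc.v] at sk
  have s1 : k * p.v ≤ E * (p.gst P t).s k := by
    have := sk.1
    rw [← mul_div_assoc, div_le_iff₀ C0, mul_comm _ S.C] at this
    exact this.trans (mul_le_mul_of_nonneg_right F.sc.C (F.cl.s_nn k))
  have s2 : (p.gst P t).s k ≤ E * (k * p.v) :=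
    sk.2.trans ((mul_left_comm _ _ _).trans_le (mul_le_mul_of_nonneg_right F.sc.C k0))
  obtain ⟨n, kn, ln, nu⟩ : ∃ n : ℕ, k ≤ n ∧ E ^ 10 * l ≤ n * p.v ∧
      (n = k ∨ n * p.v ≤ 2 * E ^ 10 * l) := by
    have a1 := (div_le_iff₀ v0).1 (Nat.le_ceil (E ^ 10 * l / p.v))
    have a2 := (Nat.ceil_lt_add_one (show 0 ≤ E ^ 10 * l / p.v by positivity)).le
    rw [div_add_one v0.ne', le_div_iff₀ v0] at a2
    have a3 : p.v ≤ E ^ 10 * l := (H.v_le_r.trans (F.nr.r0.trans F.nr.l0l)).trans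
      (le_mul_of_one_le_left l0'.le (one_le_pow₀ F.E1'))
    rcases le_total k ⌈E ^ 10 * l / p.v⌉₊ with h | h
    · exact ⟨_, h, a1, .inr (by linarith)⟩
    · exact ⟨k, le_rfl, a1.trans (by gcongr), .inl rfl⟩
  have kn' : k * p.v ≤ n * p.v := by gcongr
  have W : Wi E p P t a a' Q m S l Λ₀ x _ n := ⟨xt, hx', X.m1,
    ms σ σ' P t a a' Q m X S l Φ Pf l0 Λ₀ Pt u1 V4 I F x hx',
    co.2.2.2.2.2 σ σ' P t a a' Q m X x hx', k1.trans_le kn, ln, by
      rcases nu with rfl | h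
      · exact ky
      · have a1 := mul_le_mul_of_nonneg_left F.nr.ly (show 0 ≤ E ^ 10 by positivity)
        have a2 : E ^ 10 * (1 / E ^ 200 * p.ye) < p.ye := by
          rw [← mul_assoc, mul_one_div]
          exact mul_lt_of_lt_one_left F.fx.y0 ((div_lt_one (by positivity)).2
            (pow_lt_pow_right₀ (by linarith) (by norm_num)))
        linarith⟩
  have X0 := W.X0 F
  have y1 : max ((p.gst P t).s k) l ≤ E * (n * p.v) :=
    max_le (s2.trans (by gcongr)) ((W.lX F).trans (le_mul_of_one_le_left X0.le F.E1'))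
  have y2 : n * p.v ≤ 2 * E ^ 10 * max ((p.gst P t).s k) l := by
    rcases nu with rfl | h
    · refine s1.trans (mul_le_mul ?_ (le_max_left _ _) (F.cl.s_nn _) (by positivity))
      linarith [le_self_pow₀ F.E1' (show 10 ≠ 0 by norm_num)]
    · exact h.trans (by gcongr; exact le_max_right _ _)
  obtain ⟨ρ0, ρ1, ρ2⟩ := W.rho F rfl (le_max_right _ _) y1 y2 rfl
  have j1 := hJ _ _ _ _ _ _ _ _ _ _ (bs F hx' _ E0 (xt.β.trans (le_self_pow₀ F.E1' (by norm_num))))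
    (W.wj F) (k + 1) (Nat.succ_lt_succ k1) (by omega)
  have j2 := rs s0 σ σ' P t a a' Q m X x hx _ (W.den F)
  have j3 := sv_lam F.fx xt.κ0.le v0.le k
  have j4 := Pm.lamG_mono xt.κ0.le F.fx.t0.le kn'
  have j5 := lamG_mul xt.κ0.le F.fx.y0.le F.fx.t0.le (F.cl.s_nn k) F.E1' s1
  have j6 := lamG_nn xt.κ0.le F.fx.y0.le F.fx.t0.le (F.cl.s_nn k)
  have lam0 := W.lam0 F
  have p0 := W.p0 F
  have yp : max ((p.gst P t).s k) l ≤ 5 * E ^ 2 * (n * p.v) :=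
    (y1.trans (by linarith [mul_pos E0' X0])).trans (W.yp F)
  rw [Rs] at j2
  change _ * |R1J.J (D0 p P t m x).S (Cas.Alg77.gd (D0 p P t m x)) (k + 1)| ≤ _ at j1
  rw [if_pos kJ]
  generalize |R1J.J (D0 p P t m x).S (Cas.Alg77.gd (D0 p P t m x)) (k + 1)| = Jv at *
  generalize max ((p.gst P t).s k) l = y at *
  generalize cum S (p.gst P t) m x (4 * E * (n * p.v)) = γ at *
  generalize ∑ k ∈ Ioo S.jl (p.gst P t).N, (p.gst P t).dz m x k * |(p.gst P t).del m x k| = N at *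
  generalize 5 * E ^ 2 * (n * p.v) = u at *
  generalize p.lamG t (n * p.v) = lam at *
  have dy : 0 ≤ (1 / E ^ 200) ^ 2 * n4 p := by positivity
  refine ⟨E ^ 31 * (γ + p.r ^ 2 + E ^ 16 * l ^ 3 / u + u * N), by positivity, fun h => absurd
    ((co.2.2.2.2.1 σ σ' P t a a' Q m X x hx' k k1 k2).2.1 h.le) hs, ?_, ?_, ?_⟩
  · calc _ = E ^ 62 * (S.ms y * (γ + p.r ^ 2 + E ^ 16 * l ^ 3 / u + u * N) ^ 2) := by ring
      _ ≤ E ^ 62 * (E ^ 37 * ((1 / E ^ 200) ^ 2 * n4 p) * y ^ 2) := by gcongr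
      _ = E ^ 99 * ((1 / E ^ 200) ^ 2 * n4 p) * y ^ 2 := by ring
      _ ≤ _ := by gcongr; exacts [F.E1', by norm_num]
  · calc _ ≤ E ^ 31 * (E ^ 22 * y ^ 2) := by gcongr
      _ = E ^ 53 * y ^ 2 := by ring
      _ ≤ _ := by gcongr; exacts [F.E1', by norm_num]
  · set ρ := γ + p.r ^ 2 + E ^ 16 * l ^ 3 / u + u * N with hρ
    set ε := E⁻¹ ^ 42 * Bud p Q / m with hε
    have ε0 : 0 ≤ ε := by positivity
    have a1 : Jv ≤ E ^ 29 * (ε / (lam * u * u) + ρ) := by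
      refine le_of_mul_le_mul_left (j1.trans ?_) (show 0 < lam * u * u by positivity)
      calc _ ≤ E * (E ^ 7) ^ 4 * (ε + lam * u * (u * γ + u * p.r ^ 2 + E ^ 16 * l ^ 3 +
              u ^ 2 * N)) := by
            refine mul_le_mul (by gcongr) (add_le_add_left ((le_div_iff₀' m0).2 j2) _) ?_
              (by positivity)
            have : u * γ + u * p.r ^ 2 + E ^ 16 * l ^ 3 + u ^ 2 * N = u * ρ := by
              rw [hρ]; field_simp
            rw [this]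
            positivity
        _ = _ := by rw [hρ]; field_simp
    have t0 : 0 ≤ t * |sv p t k| := mul_nonneg F.fx.t0.le (abs_nonneg _)
    calc _ ≤ t * |sv p t k| * (E ^ 29 * (ε / (lam * u * u))) + t * |sv p t k| * (E ^ 29 * ρ) :=
          (mul_le_mul_of_nonneg_left a1 t0).trans_eq (by ring)
      _ ≤ E * lam * (E ^ 29 * (ε / (lam * y * y))) +
            E * (E * p.lamG t ((p.gst P t).s k)) * (E ^ 29 * ρ) := by
          have e4 : (4 : ℝ) ≤ E := by linarith only [E1]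
          have b1 : t * |sv p t k| ≤ E * lam :=
            j3.trans (mul_le_mul e4 j4 (lamG_nn xt.κ0.le F.fx.y0.le F.fx.t0.le k0) E0'.le)
          have b2 : t * |sv p t k| ≤ E * (E * p.lamG t ((p.gst P t).s k)) :=
            j3.trans (mul_le_mul e4 j5 (lamG_nn xt.κ0.le F.fx.y0.le F.fx.t0.le k0) E0'.le)
          have b3 : ε / (lam * u * u) ≤ ε / (lam * y * y) :=
            div_le_div_of_nonneg_left ε0 (by positivity) (by gcongr)
          exact add_le_add (mul_le_mul b1 (mul_le_mul_of_nonneg_left b3 (by positivity))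
            (by positivity) (by positivity)) (mul_le_mul_of_nonneg_right b2 (by positivity))
      _ = _ := by rw [hε]; field_simp

/-- **`PhiR`** -/
theorem phiR_of (h1 : PhSD) (h2 : PhOff) (h3 : MsS) (hT : HT) {β : ℝ} (hβ : 1 < β) (hC : Sml β Co)
    (hK : Sml β Kit) (hE : Gain β ErrG) : Gain β PhiR :=
  h1 β hβ hK (h3 β hβ) (h2 β hβ hC (h3 β hβ) (jwG_of hβ hC (rsG_of hβ hT hE) (h3 β hβ)))

end Crest.Agent.T156.Alt.P60

end
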