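import Crest.Agent.T156.R1Kit_82
import Crest.Agent.T156.R1SDB_56
import Crest.Agent.T156.PlM_13
import Crest.Agent.T156.QLow_33

/-!
# Row 156 (helper82): the full kit from the location statement `LocG`
-/

set_option autoImplicit false
set_option linter.unusedSectionVars false

noncomputable section

namespace Crest.Agent.T156.Alt.R82

open Real Finset Filter Topology
open Crest.Agent.T156.Alt.CIn12 Crest.Agent.T156.Alt.R77 Crest.Agent.T156.Alt.R62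
open Crest.Agent.T156.Alt.Md67 Crest.Agent.T156.Alt.SD56 Crest.Agent.T156.Alt.Plt13

/-- pair fluctuations on the class (text of `LPk_6`) -/
def PKS' : Prop := CL fun E Λ S M m a => ∀ l Φ P l0 Λ₀ Λ₁ Pt Vt u1 V4,
  KN S M E l Φ P l0 Λ₀ Λ₁ Pt Vt u1 V4 → LK S M m a Φ P l0 Λ₁ Pt Vt u1 → PK S M Λ m a l l0 Λ₀ u1

section cls

variable {S : Sc} {M : Md} {m q : ℕ} {a E E' δ δ' Λ Λ' l Φ l0 Λ₀ Λ₀' Λ₁ Pt Vt u1 V4 : ℝ}
  {P : ℝ → ℝ} {G : ℕ → ℝ}

theorem MK_mono (h : MK S M q Λ m a l Φ P l0 Λ₀ Pt u1 V4 G) (F : C33.Fn S M m a) (e : Λ ≤ Λ')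
    (h0 : 0 ≤ Λ) (e' : Λ₀ ≤ Λ₀') (L0 : 0 ≤ Λ₀) (l00 : 0 < l0) (l' : 0 ≤ l) (Φ0 : 0 ≤ Φ)
    (P0 : ∀ t, 0 ≤ P t) (Pt0 : 0 ≤ Pt) (V0 : 0 ≤ V4) :
    MK S M q Λ' m a l Φ P l0 Λ₀' Pt u1 V4 G := by
  have w : ∀ t, l0 ≤ t → 0 ≤ S.w3 t := fun t ht => (F.w3_pos (l00.trans_le ht)).le
  have w1 := (F.w3_pos one_pos).le
  have h1 : 0 ≤ Λ' := h0.trans e
  refine { h with
    sl := fun k x y => (h.sl k x y).trans (by gcongr)
    tot := h.tot.trans (by gcongr)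
    qua := h.qua.trans (by gcongr)
    b2 := fun t x y => (h.b2 t x y).trans (by have := P0 t; gcongr)
    a0 := fun t x y => (h.a0 t x y).trans (by
      have := w t x; have := l'.trans (le_max_right t l); gcongr)
    a2 := fun t x y => (h.a2 t x y).trans (by have := w t x; have := P0 t; gcongr)
    a4 := fun t x y => (h.a4 t x y).trans (by have := w t x; have := P0 t; gcongr)
    t2 := h.t2.trans (by gcongr)
    t4 := h.t4.trans (by gcongr)
    c0 := h.c0.trans (by gcongr)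
    c2 := h.c2.trans (by gcongr)
    c4 := h.c4.trans (by gcongr) }

theorem NR_mono {p : Pm} (h : NR E δ p S M l Φ P l0 Λ₀ Pt u1 V4) (d0 : 0 ≤ δ) (e : δ ≤ δ')
    (hs : 0 ≤ p.s) (hy : 0 ≤ p.ye) (θ0 : 0 ≤ S.θ)
    (k : ∀ t, l0 ≤ t → t ≤ T0 S M → t * max t l * S.θ ≤ E' * S.ms t) :
    NR E' δ' p S M l Φ P l0 Λ₀ Pt u1 V4 := by
  have e5 : δ * n5 p ≤ δ' * n5 p := mul_le_mul_of_nonneg_right e (by unfold n5; positivity)
  have e4 : δ ^ 2 * n4 p ≤ δ' ^ 2 * n4 p :=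
    mul_le_mul_of_nonneg_right (pow_le_pow_left₀ d0 e 2) (by unfold n4; positivity)
  exact { h with
    ly := h.ly.trans (mul_le_mul_of_nonneg_right e hy)
    a := h.a.trans e5
    b := fun t x y => (h.b t x y).trans e4
    c := h.c.trans e4
    d := h.d.trans e5
    e := h.e.trans e5
    f := fun t x y => (h.f t x y).trans e4
    i := fun t x y => (h.i t x y).trans e4
    j := fun t x y => (h.j t x y).trans (mul_le_mul_of_nonneg_left e4 θ0)
    k := k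
    l5 := h.l5.trans e5 }

/-- the weight of `GsqS` -/
def hw (S : Sc) (M : Md) (Pt : ℝ) (k : ℕ) : ℝ :=
  1 / (|M.z (k - 1) - M.z (S.J - 1)| + Pt ^ ((1 : ℝ) / 3)) + 1 / du M k

theorem sJ_ge (F : C33.Fn S M m a) : 1 ≤ 3 * S.C ^ 4 * M.s S.J := by
  have a1 := F.J_lo
  have a2 := (F.s_mem (k := S.J) le_rfl).1
  have := F.C0
  nlinarith [mul_le_mul_of_nonneg_left a2 (show 0 ≤ 3 * S.C ^ 3 by positivity)]

theorem hw_low (F : C33.Fn S M m a) (Pt0 : 0 ≤ Pt) {k : ℕ} (h1 : S.jl < k) (h2 : k < S.J)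
    (h3 : M.s k ≤ 2 * T0 S M) : hw S M Pt k ≤ 5 * S.C ^ 6 := by
  have C1 := F.C1
  have C0 := F.C0
  have i1 := F.i1
  have a1 := (F.toCl.z_tel (i := k - 1) (j := S.J - 1) (by omega) (by omega) (by omega)).1
  have a2 := (F.toCl.s_tel h2.le le_rfl).2
  have e : ((S.J - 1 : ℕ) : ℝ) - ((k - 1 : ℕ) : ℝ) = (S.J : ℝ) - k := by
    rw [Nat.cast_sub (by omega), Nat.cast_sub (by omega)]; ring
  rw [e] at a1
  have a3 := sJ_ge F
  have a4 : ((S.J : ℝ) - k) * (S.C * S.v) = S.C ^ 2 * (((S.J : ℝ) - k) * (S.v / S.C)) := by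
    field_simp
  have a5 : 7 / 8 * M.s S.J ≤ S.C ^ 2 * (M.z (S.J - 1) - M.z (k - 1)) := by
    unfold T0 at h3
    nlinarith [mul_le_mul_of_nonneg_left a1 (sq_nonneg S.C)]
  have a6 : 1 / (4 * S.C ^ 6) ≤ M.z (S.J - 1) - M.z (k - 1) := by
    rw [div_le_iff₀ (by positivity)]
    nlinarith [mul_le_mul_of_nonneg_left a5 (show 0 ≤ S.C ^ 4 by positivity)]
  have p6 : 0 < 1 / (4 * S.C ^ 6) := by positivity
  have b1 : 1 / (|M.z (k - 1) - M.z (S.J - 1)| + Pt ^ ((1 : ℝ) / 3)) ≤ 4 * S.C ^ 6 := by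
    rw [← one_div_one_div (4 * S.C ^ 6)]
    refine one_div_le_one_div_of_le p6 ?_
    have := rpow_nonneg Pt0 ((1 : ℝ) / 3)
    rw [abs_sub_comm]
    linarith [le_abs_self (M.z (S.J - 1) - M.z (k - 1))]
  have b2 : 1 / du M k ≤ S.C := by
    rw [← one_div_one_div S.C]
    refine one_div_le_one_div_of_le (by positivity) ?_
    unfold du
    linarith [F.atom.2]
  have b3 : S.C ≤ S.C ^ 6 := le_self_pow₀ C1 (by norm_num)
  unfold hw
  linarith

theorem gsq_of (F : C33.Fn S M m a) (K : MK S M q Λ m a l Φ P l0 Λ₀ Pt u1 V4 G)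
    (W : ∑ k ∈ tz S M u1, M.dz m a k * (hw S M Pt k * ja M m a 0 k) ≤ Λ * Λ₀ * S.w3 1)
    {B s0 : ℝ} {I : ℕ} (B0 : 0 ≤ B) (Pt0 : 0 ≤ Pt) (Λ0 : 0 ≤ Λ) (s00 : 0 < s0) (ls : l ≤ s0)
    (l0l : l0 ≤ l) (hI : T0 S M ≤ s0 * 2 ^ I) (hm : ∀ t, s0 ≤ t → S.θ ≤ S.ms t)
    (hG : ∀ k, S.jl < k → k ≤ S.Jp → M.G k ^ 2 ≤ B * hw S M Pt k)
    (hz : ∀ k, S.jl < k → M.s k ≤ s0 → M.G k = 0) :
    ∑ k ∈ Ioo S.jl M.N \ (Ico S.J M.N \ pl S M u1), M.dz m a k * (M.G k ^ 2 * ja M m a 0 k) ≤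
      I * (B * (5 * S.C ^ 6) * (Λ * S.w3 1)) + B * (Λ * Λ₀ * S.w3 1) := by
  have C0 := F.C0
  have w1 := F.w3_pos one_pos
  have dz0 : ∀ k, S.jl < k → 0 ≤ M.dz m a k := fun k hk => by
    rw [dz_up F.leg (by omega)]; exact sub_nonneg.2 (F.leg.zm (by omega))
  have ja0 : ∀ k, 0 ≤ ja M m a 0 k := fun k => JA_nonneg F.lg 0 (M.q k) k
  have g0 : ∀ k ∈ Ioo S.jl M.N, 0 ≤ M.dz m a k * (M.G k ^ 2 * ja M m a 0 k) := fun k hk =>
    mul_nonneg (dz0 k (mem_Ioo.1 hk).1) (mul_nonneg (sq_nonneg _) (ja0 k))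
  refine le_trans ?_ (dyad (l0 := s0) (u1 := u1) F.toCl g0 (by positivity) hI s00.le
    (fun t h1 h2 => ?_) ?_)
  · rw [← sum_filter_ne_zero]
    refine sum_le_sum_of_subset_of_nonneg (fun k hk => ?_) fun k hk _ => g0 k (gd_sub F.toCl hk)
    obtain ⟨h1, h2⟩ := mem_filter.1 hk
    obtain ⟨h3, h4⟩ := mem_sdiff.1 h1
    have h5 := mem_Ioo.1 h3
    by_cases c : k ∈ pl S M u1
    · exact mem_union_right _ c
    · have : k < S.J := by
        by_contra d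
        exact h4 (mem_sdiff.2 ⟨mem_Ico.2 ⟨not_lt.1 d, h5.2⟩, c⟩)
      refine mem_union_left _ (mem_filter.2 ⟨mem_Ioo.2 ⟨h5.1, this⟩, ?_⟩)
      by_contra d
      exact h2 (by rw [hz k h5.1 (not_le.1 d).le]; ring)
  · have t0 : 0 < t := s00.trans_le h1
    have a1 := K.a0 t (by linarith) h2
    have a2 : S.w3 t * max t l ≤ S.w3 1 := by
      have m0 := F.ms_pos zero_le_one
      have := F.n1
      have := F.F0
      rw [max_eq_left (by linarith), Sc.w3, Sc.w3, mul_one]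
      calc _ = S.F / (S.n * S.ms t) := by field_simp
        _ ≤ _ := by have := hm t h1; unfold Sc.θ at this; gcongr
    calc _ ≤ ∑ k ∈ sb S M t (2 * t), B * (5 * S.C ^ 6) * (M.dz m a k * ja M m a 0 k) :=
          sum_le_sum fun k hk => by
            obtain ⟨⟨b1, b2⟩, -, b3⟩ := mem_sb.1 hk
            have c1 := (hG k b1 (b2.le.trans F.i3)).trans
              (mul_le_mul_of_nonneg_left (hw_low F Pt0 b1 b2 (by linarith)) B0)
            have := mul_le_mul_of_nonneg_right c1 (mul_nonneg (dz0 k b1) (ja0 k))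
            linarith
      _ ≤ _ := by
          rw [← mul_sum]
          refine mul_le_mul_of_nonneg_left (a1.trans ?_) (by positivity)
          rw [mul_assoc]
          exact mul_le_mul_of_nonneg_left a2 Λ0
  · calc _ ≤ ∑ k ∈ tz S M u1, B * (M.dz m a k * (hw S M Pt k * ja M m a 0 k)) :=
          sum_le_sum fun k hk => by
            have b1 := (mem_Ioo.1 (tz_sub F.toCl hk)).1
            have := mul_le_mul_of_nonneg_right (hG k b1 (tz_le F.toCl hk))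
              (mul_nonneg (dz0 k b1) (ja0 k))
            linarith
      _ ≤ _ := by rw [← mul_sum]; exact mul_le_mul_of_nonneg_left W B0

theorem z_low (F : C33.Fn S M m a) (hv : 8 * S.C ^ 2 * S.v ≤ 1) {k : ℕ} (h1 : S.jl < k)
    (h2 : M.s k ≤ 1 / (4 * S.C ^ 4)) : k < S.J ∧ M.z k ≤ 1 / (2 * S.C) := by
  have C1 := F.C1
  have C0 := F.C0
  rw [le_div_iff₀ (by positivity)] at h2
  have hJ : k < S.J := by
    by_contra c
    have := mul_le_mul_of_nonneg_left (F.sm (not_lt.1 c)) (show 0 ≤ S.C ^ 4 by positivity)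
    linarith [sJ_ge F]
  refine ⟨hJ, (F.z_le_s (F.i1.trans h1.le) hJ).trans ?_⟩
  rw [le_div_iff₀ (by positivity)]
  have := mul_le_mul_of_nonneg_left (pow_le_pow_right₀ C1 (show 2 ≤ 4 by norm_num)) (F.s_nonneg k)
  nlinarith

end cls

/-- the square of the static marks against the weight -/
theorem rF_sq {p : Pm} {μ Pt x : ℝ} (h : Nm p μ) (hP : p.la μ ^ 2 ≤ Pt) (hx : x < 1) :
    p.rF μ x ^ 2 ≤ 4 * log p.n * Pt * (1 / (|x - p.xs| + Pt ^ ((1 : ℝ) / 3)) + 1 / (1 - x)) := by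
  have lp := h.lp
  have up := h.u0p
  have l1 := h.l1
  have P0 : 0 < Pt := (pow_pos lp 2).trans_le hP
  have u3 : u0 p μ ^ 3 = p.la μ ^ 2 := by
    rw [u0, ← rpow_natCast, ← rpow_mul lp.le]; norm_num
  obtain ⟨W, hW⟩ : ∃ W, W = Pt ^ ((1 : ℝ) / 3) := ⟨_, rfl⟩
  have W0 : 0 < W := hW ▸ rpow_pos_of_pos P0 _
  have W3 : W ^ 3 = Pt := by rw [hW, ← rpow_natCast, ← rpow_mul P0.le]; norm_num
  have uW : u0 p μ ≤ W := le_of_pow_le_pow_left₀ (n := 3) (by norm_num) W0.le (by linarith)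
  have uW2 : u0 p μ ^ 2 ≤ W ^ 2 := pow_le_pow_left₀ up.le uW 2
  rw [← hW]
  have d0 := abs_nonneg (x - p.xs)
  have x0 : 0 < 1 - x := by linarith
  have q1 : 0 < 1 / (|x - p.xs| + W) := by positivity
  have q2 : 0 < 1 / (1 - x) := by positivity
  have lo : p.rB μ x ^ 2 ≤ 2 * log p.n * Pt * (1 / (|x - p.xs| + W)) := by
    rw [mul_one_div, le_div_iff₀ (by positivity), rB_eq]
    rcases le_total p.xs x with c | c
    · have A : 0 < x - p.xs + u0 p μ := by linarith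
      rw [Rs13.r1_hi lp c, abs_of_nonneg (sub_nonneg.2 c), neg_sq, div_pow]
      change _ / √(x - p.xs + u0 p μ) ^ 2 * _ ≤ _
      rw [sq_sqrt A.le, div_mul_eq_mul_div, div_le_iff₀ A]
      have e1 : p.la μ ^ 2 * W ≤ Pt * u0 p μ := by
        rw [← u3, ← W3]; nlinarith [mul_le_mul_of_nonneg_left uW2 (mul_pos up W0).le]
      have e2 := mul_le_mul_of_nonneg_right hP (sub_nonneg.2 c)
      nlinarith [mul_pos P0 A]
    · rcases le_total (x + log p.n * u0 p μ) p.xs with d | d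
      · rw [Rs13.r1_zero lp (by linarith) d]
        have : 0 ≤ 2 * log (p.n : ℝ) * Pt := by positivity
        simpa using this
      · have b := Rs13.r1_bd (lg := log p.n) (xs := p.xs) lp x
        have b2 : Rs13.r1 (p.la μ) (log p.n) p.xs x ^ 2 ≤ W ^ 2 :=
          sq_le_sq' (by have := b.1; unfold u0 at uW; linarith) (by linarith [b.2])
        have b3 : |x - p.xs| + W ≤ 2 * log p.n * W := by
          rw [abs_of_nonpos (sub_nonpos.2 c)]
          nlinarith [mul_le_mul_of_nonneg_left uW (show 0 ≤ log (p.n : ℝ) by linarith)]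
        calc _ ≤ W ^ 2 * (2 * log p.n * W) := by gcongr
          _ = _ := by rw [← W3]; ring
  have hi : (2 * (p.la μ / √(1 - x))) ^ 2 ≤ 4 * Pt * (1 / (1 - x)) := by
    rw [mul_pow, div_pow, sq_sqrt x0.le, div_eq_mul_one_div]
    nlinarith [mul_le_mul_of_nonneg_right hP q2.le]
  have a1 := (h.rF_bd hx).2.2
  have a2 : p.rB μ x ≤ p.rF μ x := le_add_of_nonneg_right (h.top_bd hx).1
  have a3 : p.rF μ x ^ 2 ≤ p.rB μ x ^ 2 + (2 * (p.la μ / √(1 - x))) ^ 2 := by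
    rcases le_total 0 (p.rF μ x) with c | c
    · nlinarith [pow_le_pow_left₀ c a1 2, sq_nonneg (p.rB μ x)]
    · nlinarith [sq_nonneg (2 * (p.la μ / √(1 - x)))]
  nlinarith [mul_pos P0 q1, mul_pos P0 q2, mul_le_mul_of_nonneg_right l1 (mul_pos P0 q2).le,
    mul_le_mul_of_nonneg_right l1 (mul_pos P0 q1).le]

section gst

variable {β c0 C0 c η K₀ K c0' C0' η' σ t lam E' Λ' : ℝ} {A : ℕ} {p : Pm} {P : Pl} {b : Nb}

theorem line_k (H : Reg β c0 C0 A c η K₀ p) (ht : 0 < t) {l l0 u C : ℝ} (r0 : p.r ≤ l0)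
    (lk : l * p.ye ^ 2 ≤ l0) (hu : l0 ≤ u) (h1 : u ≤ C) (l1 : l ≤ 1) (C1 : 1 ≤ C) :
    u * max u l * p.msG t 1 ≤ C ^ 2 * p.msG t u := by
  have u0 : 0 < u := H.r0.trans_le (r0.trans hu)
  have y0 := H.ye0
  have y1 := H.ye1
  have m0 := H.msG0 ht u
  rw [H.msG_one]
  rcases le_total p.ye u with e | e
  · rw [H.msG_hi t e] at m0 ⊢
    have : max u l ≤ C := max_le h1 (l1.trans C1)
    rw [sq]; gcongr
  · have g := Gr29.gS_mul (σ := t) (k := p.ye / u) ht.le ((one_le_div u0).2 e) u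
    rw [div_mul_cancel₀ _ u0.ne', div_mul_eq_mul_div, le_div_iff₀ u0] at g
    have g0 := Gr29.gS_nn ht.le y0.le
    have a : max u l * p.ye ^ 2 ≤ u :=
      by rw [max_mul_of_nonneg _ _ (sq_nonneg _)]
         exact max_le (mul_le_of_le_one_right u0.le (pow_le_one₀ y0.le y1)) (lk.trans hu)
    have k0 := H.κ0
    refine le_trans ?_ (le_mul_of_one_le_left m0.le (one_le_pow₀ C1))
    rw [Gr29.msG_eq, Gr29.xc_mid (r0.trans hu) e, Pm.muG]
    refine le_of_mul_le_mul_right ?_ y0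
    calc _ = p.κ * u * (max u l * p.ye ^ 2 * gS t p.ye) := by ring
      _ ≤ p.κ * u * (u * gS t p.ye) := by gcongr
      _ ≤ p.κ * u * (p.ye * gS t u) :=
          mul_le_mul_of_nonneg_left (by linarith) (by positivity)
      _ = _ := by ring

theorem at_of (H : Reg β c0 C0 A c η K₀ p) (o : p.OctR σ t) (hP : p.PlG (p.muG σ) P)
    (D : GrD K c0' C0' η' p σ t P) (hl : 500 * (8 * K ^ 2) ^ 11 ≤ lam) (lg : log p.n ≤ lam)
    (hy : lam * p.ye ≤ 1) (hE : lam ≤ E') (kn : b.KN (p.scG K σ t P) (p.gst P t) E')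
    (la : p.la (p.mt (p.muG σ)) ^ 2 ≤ b.Pt) (L : b.Λ₀ ≤ Λ') (P0 : ∀ u, 0 ≤ b.P u) (V0 : 0 ≤ b.V4)
    {m : ℕ} {a : ℝ} {G : ℕ → ℝ} (F : C33.Fn (p.scG K σ t P) (p.gst P t) m a)
    (lk : b.LK (p.scG K σ t P) (p.gst P t) m a)
    (lowE : LowE (p.scG K σ t P) (p.gst P t) m a (lam ^ 2) b.l)
    (cru : Crude lam (p.scG K σ t P) (p.gst P t) m a b.l (p.scG K σ t P).jl)
    (mk : b.MK (p.scG K σ t P) (p.gst P t) 8 lam m a G)
    (env : ∀ k, (p.scG K σ t P).jl ≤ k → k ≤ (p.gst P t).N →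
      Env (p.scG K σ t P) (p.gst P t) m a k (G k))
    (pk : PK (p.scG K σ t P) (p.gst P t) lam m a b.l b.l0 b.Λ₀ b.u1)
    (gs : ∑ k ∈ tz (p.scG K σ t P) (p.gst P t) b.u1, (p.gst P t).dz m a k *
      (hw (p.scG K σ t P) (p.gst P t) b.Pt k * ja (p.gst P t) m a 0 k) ≤
      lam * b.Λ₀ * (p.scG K σ t P).w3 1)
    (ql : ∀ k ≤ (p.gst P t).N, (p.gst P t).E2 m a (fun R => R ^ (2 * 8)) k ≤
      (lam * lam * max ((p.gst P t).z k) b.l) ^ (2 * 8)) :
    At (lam ^ 3) (p.scG K σ t P) (p.gst P t) m a b Λ' G := by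
  obtain ⟨M0, M1⟩ := Gr29.oct_mem o
  have N := (D.nb.la _ (H.mtG_mem M0).1 (H.mtG_mem M0).2).1
  have O := hP.ok
  have Ge := D.memD.geo
  have K1 := D.nb.K1
  have μ0 := H.muG0 (H.σ0 M0)
  have eθ : (p.scG K σ t P).θ = p.muG t := H.msG_one t
  have μθ : p.muG σ ≤ (p.scG K σ t P).θ := eθ ▸ (H.oct_mu o).1
  have hm : ∀ u, p.ye ≤ u → (p.scG K σ t P).θ ≤ (p.scG K σ t P).ms u := D.sl.fl
  have eC : (p.scG K σ t P).C = 8 * K ^ 2 := rfl
  have eG : ∀ k, p.jf < k → (p.gst P t).G k = p.muG σ * p.rF (p.mt (p.muG σ)) (p.xP P k) :=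
    fun k hk => (D.memD.G_hi hk).trans (by rw [hP.hs])
  have ez : ∀ k, p.jf ≤ k → (p.gst P t).z k = p.zP P k := fun k hk => gst_z p P t hk
  have ex : ∀ k, p.jf < k → k ≤ p.Jp P → p.xP P k = (p.gst P t).z (k - 1) := fun k h1 h2 => by
    rw [Mem37.xP_lo h2, ez _ (by omega)]
  have x3 : ∀ k ≤ p.Jp P, (p.n : ℝ) ^ (-(3 : ℝ)) ≤ 1 - p.xP P k := fun k hk => by
    have a1 : p.xP P k ≤ P.x P.I := by
      rw [← Ge.xP_top le_rfl, Mem37.xP_lo hk, Mem37.xP_lo le_rfl]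
      exact Ge.zP_mono (by omega)
    linarith [show _ ≤ 1 - P.x P.I from O.e1]
  have jJ : p.jf + 1 < p.J := F.i2
  have exs : (p.gst P t).z (p.J - 1) = p.xs := by
    rw [ez _ (by omega), Mem37.zP_lo (by omega)]; rfl
  have z0 : ∀ x, x ≤ 1 / (2 * K) → P.hs x = 0 := fun x hx => (D.pl.z0 x hx).2
  have at' : 1 / K ≤ 1 - p.xs := by linarith [D.sl.atom.2]
  have e2 : 1 - P.x P.I ≤ 1 / p.n := by
    have np := N.np
    have e : (p.n : ℝ) ^ (-(2 : ℝ)) = 1 / (p.n : ℝ) ^ 2 := by rw [rpow_neg np.le]; norm_num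
    exact (O.e2.trans e.le).trans (one_div_le_one_div_of_le np (by nlinarith [N.n2]))
  have g2 := N.gtp Ge (by have := shg_of N O; exact this) e2 (by linarith) at'
    (show p.jf < p.J by omega)
  have eGh : ∀ k, p.jf < k → (p.gst P t).G k = P.hs (p.xP P k) := fun k hk => D.memD.G_hi hk
  have eJ : (p.scG K σ t P).J = p.J := rfl
  have ej : (p.scG K σ t P).jl = p.jf := rfl
  have eP : (p.scG K σ t P).Jp = p.Jp P := rfl
  generalize p.scG K σ t P = S at *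
  generalize p.gst P t = M at *
  rw [← eC] at hl
  have C1 := F.C1
  have C0' := F.C0
  have KC : K ≤ S.C := by rw [eC]; nlinarith
  have Cp : ∀ i ≤ 11, S.C ^ i ≤ S.C ^ 11 := fun i hi => pow_le_pow_right₀ C1 hi
  have C11 : 1 ≤ S.C ^ 11 := one_le_pow₀ C1
  have l1 : 1 ≤ lam := by linarith
  have l13 : lam ≤ lam ^ 3 := le_self_pow₀ l1 (by norm_num)
  have l23 : lam ^ 2 ≤ lam ^ 3 := pow_le_pow_right₀ l1 (by norm_num)
  have l00 : 0 < b.l0 := by linarith [kn.jl, F.toCl.s_pos (F.i0.trans F.i1)]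
  have l0 : 0 < b.l := l00.trans_le kn.l0l
  have ll : lam * b.l ≤ 1 := (mul_le_mul_of_nonneg_right hE l0.le).trans kn.l1
  have b1 : b.l ≤ 1 := by nlinarith
  have v0 := F.v0
  have Pt0 : 0 < b.Pt := v0.trans_le kn.Ptw.2
  have Φ0 : 0 ≤ b.Φ := Pt0.le.trans kn.PtΦ
  have vl : S.v ≤ b.l := by
    have := kn.l3
    have : b.l ^ 3 ≤ b.l := pow_le_of_le_one l0.le b1 (by norm_num)
    linarith [kn.Ptw.2, kn.PtΦ]
  have L1 : 1 ≤ b.Λ₀ := kn.L1.1.trans kn.L1.2.1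
  have w1 := F.w3_pos one_pos
  have θ0 : 0 < S.θ := μ0.trans_le μθ
  have sm : ∀ x, 0 ≤ x → lam * x ≤ 1 → x ≤ 1 / (4 * S.C ^ 4) := fun x h0 h => by
    rw [le_div_iff₀ (by positivity)]
    nlinarith [Cp 4 (by norm_num)]
  have hz : ∀ k, S.jl < k → M.s k ≤ 1 / (4 * S.C ^ 4) → M.G k = 0 := fun k h1 h2 => by
    obtain ⟨h3, h4⟩ := z_low F (by nlinarith [Cp 2 (by norm_num)]) h1 h2
    have := F.i3
    rw [eGh k (by omega), ex k (by omega) (by omega)]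
    exact z0 _ (((F.leg.zm (Nat.sub_le k 1)).trans h4).trans
      (one_div_le_one_div_of_le (by linarith) (by linarith)))
  have lg1 := N.l1
  have hG : ∀ k, S.jl < k → k ≤ S.Jp → M.G k ^ 2 ≤ 4 * lam * (S.θ ^ 2 * b.Pt) * hw S M b.Pt k :=
    fun k h1 h2 => by
      have a1 : p.xP P k < 1 := by linarith [x3 k (by omega), rpow_pos_of_pos N.np (-(3 : ℝ))]
      have a2 := rF_sq N la a1
      have a3 : 0 ≤ 1 / (|p.xP P k - p.xs| + b.Pt ^ ((1 : ℝ) / 3)) + 1 / (1 - p.xP P k) := by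
        have : 0 < 1 - p.xP P k := by linarith
        positivity
      rw [eG k (by omega), mul_pow, hw, du, eJ, exs, ← ex k (by omega) (by omega)]
      calc _ ≤ S.θ ^ 2 * (4 * lam * b.Pt * (1 / (|p.xP P k - p.xs| + b.Pt ^ ((1 : ℝ) / 3)) +
            1 / (1 - p.xP P k))) := mul_le_mul (by gcongr) (a2.trans (by gcongr)) (sq_nonneg _)
            (sq_nonneg _)
        _ = _ := by ring
  refine ⟨lk, lowE.mono l0.le (by positivity) l23 le_rfl, ⟨F, MK_mono mk F l13 (by linarith) L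
    (by linarith) l00 l0.le Φ0 P0 Pt0.le V0, ⟨cru.1.trans l13, fun k x y => (cru.2 k x y).trans
      (mul_le_mul_of_nonneg_right l13 (l0.le.trans (le_max_right _ _)))⟩, fun k hk => ?_,
    fun u x y => (pk.b u x y).trans ?_, pk.c.trans (by gcongr), ?_, fun k x y => ?_,
    fun k x y => hz k x (y.trans (one_div_le_one_div_of_le (by positivity)
      (by linarith [Cp 4 (by norm_num)]))), ?_⟩,
    MK_mono mk F l13 (by linarith) le_rfl (by linarith) l00 l0.le Φ0 P0 Pt0.le V0, env⟩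
  · have := l0.le.trans (le_max_right (M.z k) b.l)
    refine (ql k hk).trans (pow_le_pow_left₀ (by positivity) ?_ 16)
    rw [← sq]; gcongr
  · have u0 := l00.trans_le x
    have := F.w3_pos u0
    have := l0.le.trans (le_max_right u b.l)
    gcongr
  · have hI : T0 S M ≤ 1 / (4 * S.C ^ 4) * 2 ^ ⌈4 * S.C ^ 5⌉₊ := by
      have a1 : ((⌈4 * S.C ^ 5⌉₊ : ℕ) : ℝ) ≤ 2 ^ ⌈4 * S.C ^ 5⌉₊ := by
        exact_mod_cast Nat.lt_two_pow_self.le
      have a2 := (Nat.le_ceil (4 * S.C ^ 5)).trans a1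
      have a3 := F.toCl.s_le_C F.i3
      rw [one_div_mul_eq_div, le_div_iff₀ (by positivity), T0]
      nlinarith [mul_le_mul_of_nonneg_right a3 (show 0 ≤ S.C ^ 4 by positivity),
        show 0 ≤ S.C ^ 5 by positivity]
    have a4 : ((⌈4 * S.C ^ 5⌉₊ : ℕ) : ℝ) ≤ 5 * S.C ^ 5 := by
      linarith [Nat.ceil_lt_add_one (show 0 ≤ 4 * S.C ^ 5 by positivity),
        one_le_pow₀ (n := 5) C1]
    refine (gsq_of F mk gs (by positivity) Pt0.le (by linarith) (by positivity) (sm _ l0.le ll)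
      kn.l0l hI (fun u hu => hm u ((sm _ H.ye0.le hy).trans hu)) hG hz).trans ?_
    have a5 : 0 < S.θ ^ 2 * S.w3 1 * b.Pt := by positivity
    calc _ ≤ 5 * S.C ^ 5 * (4 * lam * (S.θ ^ 2 * b.Pt) * (5 * S.C ^ 6) * (lam * S.w3 1)) * Λ' +
          4 * lam * (S.θ ^ 2 * b.Pt) * (lam * Λ' * S.w3 1) * S.C ^ 11 := by
          refine add_le_add (le_trans (by gcongr) (le_mul_of_one_le_right (by positivity)
            (L1.trans L))) (le_trans (by gcongr) (le_mul_of_one_le_right ?_ C11))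
          have : 0 ≤ Λ' := by linarith
          positivity
      _ = 104 * S.C ^ 11 * (lam ^ 2 * Λ' * (S.θ ^ 2 * S.w3 1 * b.Pt)) := by ring
      _ ≤ lam * (lam ^ 2 * Λ' * (S.θ ^ 2 * S.w3 1 * b.Pt)) := by
          have : 0 ≤ Λ' := by linarith
          gcongr; linarith
      _ = _ := by ring
  · rw [eG k (by omega), abs_mul, abs_of_pos μ0, mul_comm]
    refine mul_le_mul ((N.abs_rF_log (x3 k (by omega))).trans ?_) μθ μ0.le (by positivity)
    nlinarith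
  · have i4 := F.i4
    have i3 := F.i3
    have a1 : ∑ k ∈ Ioo S.jl M.N, M.dz m a k * M.G k ^ 2 = ∑ k ∈ Ioc p.jf (p.Jp P),
        p.muG σ ^ 2 * ((p.zP P k - p.zP P (k - 1)) * p.rF (p.mt (p.muG σ)) (p.xP P k) ^ 2) := by
      rw [← sum_subset (s₁ := Ioc p.jf (p.Jp P)) (fun k hk => by
        have := mem_Ioc.1 hk; exact mem_Ioo.2 (by omega)) fun k h1 h2 => by
          have := mem_Ioo.1 h1
          rw [mem_Ioc] at h2
          rw [dz_up F.leg (by omega), F.top k (by omega), F.top (k - 1) (by omega), sub_self,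
            zero_mul]]
      refine sum_congr rfl fun k hk => ?_
      have := mem_Ioc.1 hk
      rw [dz_up F.leg (by omega), ez k (by omega), ez (k - 1) (by omega), eG k (by omega)]
      ring
    rw [a1, ← mul_sum]
    calc _ ≤ S.θ ^ 2 * (lam * (b.Pt * lam)) := by
          refine mul_le_mul (by gcongr) (g2.trans ?_) (sum_nonneg fun k _ => mul_nonneg
            (sub_nonneg.2 (Ge.zP_mono (Nat.sub_le k 1))) (sq_nonneg _)) (sq_nonneg _)
          gcongr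
          linarith [Cp 1 (by norm_num), pow_one S.C]
      _ = lam ^ 2 * S.θ ^ 2 * b.Pt := by ring
      _ ≤ _ := by gcongr

end gst

/-- **the kit** -/
theorem kit_of {β : ℝ} (hβ : 1 < β) (hM : MomE) (hP : PKS') (hG : GsqS) (hL : LocG β) :
    Sml β Kit' := by
  intro c0 C0 h0 h1
  obtain ⟨K, K1, Gm⟩ := grM hβ c0 C0 h0 h1
  filter_upwards [((((momF_of hM 8 (by norm_num)).and hP).and hG).and (C33.qLowS 8)) (8 * K ^ 2),
    hL K K1 c0 C0 h0 h1, Pre29.ev_reg hβ h0 h1, eventually_ge_atTop 2] with A hc hL hR hA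
  filter_upwards [hL, hR, Pre29.ev_pos, Pre29.ev_le (by norm_num : (0 : ℝ) < 1 / 200)]
    with c ⟨c', hc', hL⟩ hR c0' c1
  filter_upwards [hR, Pre29.ev_pos, Pre29.ev_le (by positivity : 0 < c' / 200)] with η hR hη hη'
  have η3 : 0 < η / 3 := by positivity
  filter_upwards [hc c' hc' (η / 3) η3, hL, hR 1, Gm A hA c c0' c1,
    Pre29.ev_K (500 * (8 * K ^ 2) ^ 11) η3, Pre29.ev_log η3]
    with n hc hL hR Gm a1 a2 p b1 b2 b3 b4 b5 σ t P o hP
  subst b2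
  have H := hR p b1 rfl b3 b4 b5
  obtain ⟨c0', C0', η', Gm⟩ := Gm p b1 rfl b3 b4 b5
  have D := (Gm σ t o P hP).1
  obtain ⟨b, kn, ⟨Λ', L, lk, nr⟩, nx, loc⟩ := hL p b1 rfl b3 b4 b5 c0' C0' η' σ t P o D (.inl hP)
  have n1 := H.n1
  have e1 : ((p.n : ℝ) ^ (-c'))⁻¹ = (p.n : ℝ) ^ c' := by rw [rpow_neg H.N0.le, inv_inv]
  have e3 : (p.n : ℝ) ^ η = ((p.n : ℝ) ^ (η / 3)) ^ 3 := by
    rw [Pre29.rp_pow]; congr 1; push_cast; ring
  have e2 : ((p.n : ℝ) ^ η) ^ 200 ≤ (p.n : ℝ) ^ c' := by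
    rw [Pre29.rp_pow]; exact Pre29.rp_le n1 (by push_cast; linarith)
  have e4 : (p.n : ℝ) ^ (-c') ≤ 1 / ((p.n : ℝ) ^ η) ^ 200 := by
    rw [rpow_neg H.N0.le, ← one_div]
    exact one_div_le_one_div_of_le (pow_pos H.Λ0 _) e2
  rw [e1] at kn nr
  have cl := D.cl.1
  have C1 : 1 ≤ 8 * K ^ 2 := cl.C1
  have l1 : 1 ≤ (p.n : ℝ) ^ (η / 3) := one_le_rpow H.N1.le η3.le
  have e5 : (p.n : ℝ) ^ (η / 3) ≤ (p.n : ℝ) ^ η := Pre29.rp_le n1 (by linarith)
  have e6 : (8 * K ^ 2) ^ 2 ≤ (p.n : ℝ) ^ η := by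
    linarith [pow_le_pow_right₀ C1 (show 2 ≤ 11 by norm_num), one_le_pow₀ (n := 11) C1]
  have e7 : (p.n : ℝ) ^ η ≤ (p.n : ℝ) ^ c' := Pre29.rp_le n1 (by linarith)
  have l00 : 0 < b.l0 := H.r0.trans_le nr.r0
  have l0 : 0 < b.l := l00.trans_le nr.l0l
  have bl : b.l ≤ 1 := by nlinarith [kn.l1, H.Λ1]
  have t0 := H.σ0 (Gr29.oct_mem o).2
  have w0 : 0 ≤ (p.scG K σ t P).w3 1 :=
    div_nonneg zero_le_one (mul_nonneg (by positivity) cl.θ0.le)
  refine ⟨K, c0', C0', η', b, Λ', K1, D, scG_ok D (by nlinarith), L, lk,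
    KN_anti kn e2 l0.le cl.v0.le w0, NR_mono nr (H.rp0 _).le e4 H.s0.le H.ye0.le cl.θ0.le
      fun u x y => ?_, nx.mono H.s0.le l00.le e4, fun m a i => ?_⟩
  · have a3 : u ≤ 8 * K ^ 2 := by
      have := cl.s_le_C cl.i3
      have := cl.s_nn (p.scG K σ t P).J
      unfold T0 at y
      change u ≤ (p.scG K σ t P).C
      linarith
    exact (line_k H t0 nr.r0 lk x a3 bl C1).trans
      (mul_le_mul_of_nonneg_right e6 (H.msG0 t0 u).le)
  · obtain ⟨⟨⟨f1, f2⟩, f3⟩, f4⟩ := hc _ _ rfl b3 rfl cl m a i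
    obtain ⟨F, -, lw, cr, G, mk, env⟩ := f1 _ _ _ _ _ _ _ _ _ _ kn (loc m a i)
    refine ⟨G, e3 ▸ at_of H o hP D a1 a2 ?_ (e5.trans e7) kn nx.la L (fun u => (nr.P0 u).1)
      (nr.Pt0.1.trans nr.Pt0.2.2.2) F (loc m a i) lw cr mk env
      (f2 _ _ _ _ _ _ _ _ _ _ kn (loc m a i)) (f3 _ _ _ _ _ _ _ _ _ _ kn (loc m a i))
      fun k hk => (f4 _ b.l l0 (by linarith [kn.jl, kn.l0l, cl.s_nn (p.scG K σ t P).jl])
        (kn.w0 b.l (by linarith [kn.l0l]) (bl.trans C1)) cr k hk).2⟩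
    refine H.le_of_lg (mul_pos (H.rp0 _) H.ye0) one_pos ?_
    rw [logb_mul (H.rp0 _).ne' H.ye0.ne', H.lg_ye, H.lg_rp, logb_one]
    linarith [H.η_le, H.c_pos]

end Crest.Agent.T156.Alt.R82

end
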