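import Crest.Agent.T156.R1MK_77
import Crest.Agent.T156.CInM_12

/-!
# Row 156 (helper82): the full kit `Kit'` of a member (statements)
-/

set_option autoImplicit false

noncomputable section

namespace Crest.Agent.T156.Alt.R82

open Real Finset
open Crest.Agent.T156.Alt.CIn12 Crest.Agent.T156.Alt.R77 Crest.Agent.T156.Alt.R62

/-- weighted Riccati sum of the top zone -/
def GsqS : Prop := CL fun E Λ S M m a => ∀ l Φ P l0 Λ₀ Λ₁ Pt Vt u1 V4,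
  KN S M E l Φ P l0 Λ₀ Λ₁ Pt Vt u1 V4 → LK S M m a Φ P l0 Λ₁ Pt Vt u1 →
  ∑ k ∈ tz S M u1, M.dz m a k * ((1 / (|M.z (k - 1) - M.z (S.J - 1)| + Pt ^ ((1 : ℝ) / 3)) +
    1 / du M k) * ja M m a 0 k) ≤ Λ * Λ₀ * S.w3 1

/-- everything that is known at one size and one root tilt -/
structure At (E : ℝ) (S : Sc) (M : Md) (m : ℕ) (a : ℝ) (b : Nb) (Λ' : ℝ) (G : ℕ → ℝ) : Prop where
  lk : b.LK S M m a
  lowE : LowE S M m a E b.l
  bk : BK E S M m a b.l b.Φ b.P b.l0 Λ' b.Pt b.u1 b.V4 G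
  mk' : b.MK S M 8 E m a G
  env : ∀ k, S.jl ≤ k → k ≤ M.N → Env S M m a k (G k)

/-- the kit of the member `t` of the octave that starts at `σ` -/
structure KitM (E : ℝ) (p : Pm) (σ t : ℝ) (P : Pl) (K c0 C0 η : ℝ) (b : Nb) (Λ' : ℝ) : Prop where
  K1 : 1 ≤ K
  gd : GrD K c0 C0 η p σ t P
  sc : ScG E p P t (p.scG K σ t P)
  L : b.Λ₀ ≤ Λ'
  lk : b.l * p.ye ^ 2 ≤ b.l0
  kn : b.KN (p.scG K σ t P) (p.gst P t) (E ^ 200)
  nr : NR E (1 / E ^ 200) p (p.scG K σ t P) (p.gst P t) b.l b.Φ b.P b.l0 Λ' b.Pt b.u1 b.V4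
  nx : b.NX (1 / E ^ 200) p σ t (T0 (p.scG K σ t P) (p.gst P t))
  loc : ∀ m a, (p.scG K σ t P).In m a → ∃ G, At E (p.scG K σ t P) (p.gst P t) m a b Λ' G

/-- **the full kit** -/
def Kit' (E : ℝ) (p : Pm) : Prop := ∀ σ t P, p.OctR σ t → p.PlG (p.muG σ) P →
  ∃ K c0 C0 η b Λ', KitM E p σ t P K c0 C0 η b Λ'

theorem Kit'.kit {E : ℝ} {p : Pm} (h : Kit' E p) : Kit E p := fun σ t P o hP => by
  obtain ⟨K, c0, C0, η, b, Λ', k⟩ := h σ t P o hP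
  exact ⟨_, _, _, _, _, _, _, _, _, k.sc, k.nr, fun m a i => (k.loc m a i).imp fun _ g => g.bk⟩

/-- a budget of `R1Top_77` from the table of coefficients and the full kit -/
def From' (X : ℝ → Pm → Prop) : Prop :=
  ∀ β : ℝ, 1 < β → Sml β Co → Sml β Kit' → Gain β X

theorem From.from' {X : ℝ → Pm → Prop} (h : From X) : From' X := fun β hβ hC hK =>
  h β hβ hC (hK.mono fun _ _ => Kit'.kit)

/-- **one octave** -/
theorem octG_kit' {β : ℝ} (hβ : 1 < β) (hT : Cas.C40.HT) (hC : Sml β Co) (hK : Sml β Kit')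
    (h1 : From' ErrR) (h2 : From' LoR) (h3 : From' LwR) (h4 : From' C2R) (h5 : From' LinR)
    (h6 : From' PhiR) (h7 : From' C3R) : Gain β OctG :=
  octG_of hβ hT (h1 β hβ hC hK) (h2 β hβ hC hK) (h3 β hβ hC hK) (h4 β hβ hC hK) (h5 β hβ hC hK)
    (h6 β hβ hC hK) (h7 β hβ hC hK)

end Crest.Agent.T156.Alt.R82

end
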