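import Crest.Agent.T156.R1K_60
import Crest.Agent.T156.CErr_54
import Crest.Agent.T156.AltOne_23
import Crest.Agent.T156.CHd_50

/-!
# Row 156 (helper60): the `J`-lemma of the tested stage in the names of block C
-/

set_option autoImplicit false

noncomputable section

namespace Crest.Agent.T156.Cas.C40.R1L

open Finset
open Crest.Agent.T157.E Crest.Agent.T157.Casc Crest.Agent.T157.SL
open Crest.ProbabilityR.SpinGlassDynamics (spin)
open R1J
open Hd50 (ω)

variable {D : CD} {τ0 : ℝ}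

theorem lenS (D : CD) : D.S.length = D.K := opS_length

theorem dmS (D : CD) (j : ℕ) : dm D.S 0 j = D.dx j := Cav22.dm_tilt tilt_opS 0 j

theorem exS (D : CD) (j : ℕ) : ex D.S j = ex D.B j := Cav22.ex_tilt tilt_opS j

theorem tmS (H : D.Ok τ0) {j : ℕ} (hj : j ≤ D.K) : Ker15.tm D.S j = D.sig j :=
  (Ker15.tm_eq (rk_opS H.ook) j).trans (TT_opV hj)

theorem monoS (H : D.Ok τ0) : Mono 0 D.S := mono_opS H.mono

/-- an upper node is a node of the site cascade of parity size `e j` -/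
theorem nd (H : D.Ok τ0) (hX : 0 < D.X) {j : ℕ} (hj : j ∈ D.up) : Nd D.S j (D.e j) :=
  ⟨Ker15.r1_of (rk_opS H.ook), monoS H, Nat.zero_lt_of_lt (CD.mem_up.1 hj).1,
    (lenS D).symm ▸ (CD.mem_up.1 hj).2, hX.trans_le (H.eX j), by
      rw [exS, tmS H (CD.mem_up.1 hj).2.le]; exact H.esc j hj⟩

/-- the site factor of the local term -/
theorem lev_le (s2 : S2) (s3 : S3) : ∃ C : ℝ, 1 ≤ C ∧ ∀ (τ0 : ℝ) (D : CD), D.Ok τ0 → 0 < D.X →
    ∀ j ∈ D.up, ∀ t ∈ D.up, |W D.S j [ind t, ind t]| ≤ C * ((if t = j then D.e j + D.dx j else 0) +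
      2 * D.e j * D.dx t + if t < j then D.dx t else 0) := by
  obtain ⟨C2, c2, h2⟩ := s2
  obtain ⟨C3, c3, h3⟩ := s3
  refine ⟨C2 + C3, by linarith, fun τ0 D H hX j hj t ht => ?_⟩
  have N := nd H hX hj
  have t0 : 0 < t := Nat.zero_lt_of_lt (CD.mem_up.1 ht).1
  have tK : t ≤ D.S.length := (lenS D).symm ▸ (CD.mem_up.1 ht).2.le
  have e0 := H.e0 j
  have d0 := H.dx0 t
  have d1 := H.dx1 (CD.mem_up.1 ht).2.le
  have n1e : n1 D.S (ind t) = D.dx t := (n1_ind tK).trans (dmS D t)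
  rcases eq_or_ne t j with rfl | h
  · have := h3 D.S t _ N (ind t) (ind_zero t0)
    rw [n1e, show ind t t = 1 from if_pos rfl, abs_one, mul_one] at this
    rw [if_pos rfl, if_neg (lt_irrefl _)]
    refine this.trans ?_
    have := mul_nonneg e0 d0
    nlinarith
  · have z : ind t j = 0 := if_neg h.symm
    have k := h2 D.S j _ N _ _ (ind_zero t0) (ind_zero t0) z z
    have sq : (fun i => ind t i * ind t i) = ind t := by
      funext i; by_cases hi : i = t <;> simp [ind, hi]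
    have a1 : hi D.S j (ind t) ≤ D.dx t := (hi_le N.mono j _).trans n1e.le
    have a2 : lo D.S j (ind t) = if t < j then D.dx t else 0 := by
      simp only [lo, ind, dmS, apply_ite abs, abs_one, abs_zero, mul_ite, mul_one, mul_zero,
        sum_ite_eq', mem_range]
    rw [sq, n1e, a2] at k
    rw [if_neg h, zero_add]
    have a3 : 0 ≤ if t < j then D.dx t else 0 := by split_ifs <;> simp [d0]
    have a4 : D.e j * (D.dx t * D.dx t) ≤ D.e j * D.dx t := by
      gcongr; exact mul_le_of_le_one_right d0 d1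
    have a5 := mul_le_mul_of_nonneg_left a1 e0
    have a6 := mul_nonneg e0 d0
    refine k.trans (mul_le_mul (by linarith) (by linarith) ?_ (by linarith))
    have := hi_nonneg N.mono j (ind t)
    positivity

theorem del_sq (D : CD) (j : ℕ) : D.del j ^ 2 ≤ D.u 2 j := by
  have k := pi2_nonneg wt_one90 D.B j (K := fun x y =>
    |oU D.q j x y| ^ 2 - 2 * D.del j * oU D.q j x y + D.del j ^ 2)
    (fun x y => by rw [sq_abs]; nlinarith [sq_nonneg (oU D.q j x y - D.del j)]) 0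
  rw [pi2_add wt_one90, pi2_sub wt_one90, pi2_const_mul, pi2_const wt_one90] at k
  have e : D.del j = pi2 (fun _ => 1) D.B j (oU D.q j) 0 := by
    unfold CD.del CD.rb CD.E2 oU
    rw [pi2_sub wt_one90, pi2_const wt_one90]
  change 0 ≤ D.u 2 j - _ * pi2 _ D.B j (oU D.q j) 0 + _ at k
  rw [← e] at k
  linarith

theorem om_eq {a : ℕ → ℝ} (hW : D.W = some a) : D.om = a := by
  funext j; simp only [CD.om, hW]

/-- variance of the overlap at a node -/
def vr (D : CD) (t : ℕ) : ℝ := D.u 2 t - D.del t ^ 2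

theorem vr0 (D : CD) (t : ℕ) : 0 ≤ vr D t := sub_nonneg.2 (del_sq D t)

theorem vr_le (D : CD) (t : ℕ) : vr D t ≤ D.u 2 t := sub_le_self _ (sq_nonneg _)

/-- size of the local term -/
def lE (D : CD) : ℝ :=
  D.Iw fun j => (D.e j + D.dx j) * vr D j + 2 * D.e j * D.I (vr D) + D.lw (vr D) j

/-- **the local term of the test** -/
theorem LOC_le (s2 : S2) (s3 : S3) : ∃ C : ℝ, 1 ≤ C ∧ ∀ (τ0 : ℝ) (D : CD), D.Ok τ0 → 0 < D.X →
    D.W.isSome = true → |D.LOC| ≤ C * τ0 ^ 2 * lE D := by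
  obtain ⟨C, c, h⟩ := lev_le s2 s3
  refine ⟨C, c, fun τ0 D H hX hW => ?_⟩
  obtain ⟨a, ha⟩ := Option.isSome_iff_exists.1 hW
  have e : D.LOC = ∑ j ∈ D.up, D.om j * ∑ t ∈ D.up, D.τ t ^ 2 * vr D t * W D.S j [ind t, ind t] := by
    simp only [mul_sum]
    rw [sum_comm, CD.LOC, om_eq ha]
    refine sum_congr rfl fun t ht => ?_
    rw [Hd50.lev2_test ha (Hd50.up0 ht) (Hd50.up0 ht), mul_sum, mul_sum]
    exact sum_congr rfl fun j _ => by rw [vr]; ring
  rw [e, lE, ← D.Iw_mul]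
  refine D.abs_sum_om fun j hj => (abs_sum_le_sum_abs _ _).trans ((sum_le_sum (g := fun t =>
    C * τ0 ^ 2 * (vr D t * ((if t = j then D.e j + D.dx j else 0) + 2 * D.e j * D.dx t +
      if t < j then D.dx t else 0))) fun t ht => ?_).trans_eq ?_)
  · have v := vr0 D t
    have k := h τ0 D H hX j hj t ht
    have k0 := (abs_nonneg _).trans k
    have t2 : D.τ t ^ 2 ≤ τ0 ^ 2 := pow_le_pow_left₀ (H.tau_mem t).1 (H.tau_mem t).2 2
    rw [abs_mul, abs_of_nonneg (mul_nonneg (sq_nonneg _) v)]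
    refine (mul_le_mul (mul_le_mul_of_nonneg_right t2 v) k (abs_nonneg _)
      (mul_nonneg (sq_nonneg _) v)).trans_eq (by ring)
  · rw [← mul_sum]
    congr 1
    simp only [mul_add, sum_add_distrib, mul_ite, mul_zero, sum_ite_eq', if_pos hj]
    rw [← sum_filter, CD.I, CD.lw, mul_sum]
    have f : D.up.filter (· < j) = Ioo D.J j := by
      ext t
      have := CD.mem_up.1 hj
      simp only [mem_filter, mem_Ioo]
      omega
    rw [f]
    congr 1
    · congr 1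
      · ring
      · exact sum_congr rfl fun t _ => by ring
    · exact sum_congr rfl fun t _ => by ring

/-- a test measure of mass zero on a window of mesh `ms` -/
structure Wd (D : CD) (i0 i1 : ℕ) (ms : ℝ) : Prop where
  tst : D.W.isSome = true
  lo : D.J < i0
  le : i0 ≤ i1
  hi : i1 < D.K
  sup : ∀ j ∈ D.up, j ∉ Icc i0 i1 → D.om j = 0
  mass : ∑ j ∈ D.up, D.om j = 0
  st : ∀ i, i0 ≤ i → i < i1 → D.sig (i + 1) - D.sig i + D.dx i + D.dx (i + 1) ≤ ms
  ms1 : ∀ j ∈ Icc i0 i1, D.dx j ≤ ms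

variable {i0 i1 : ℕ} {ms : ℝ}

theorem Wd.sub (w : Wd D i0 i1 ms) : Icc i0 i1 ⊆ D.up := fun j hj => by
  have := mem_Icc.1 hj
  have := w.lo
  have := w.hi
  exact CD.mem_up.2 ⟨by omega, by omega⟩

theorem Wd.sum (w : Wd D i0 i1 ms) (f : ℕ → ℝ) :
    ∑ j ∈ D.up, D.om j * f j = ∑ j ∈ Icc i0 i1, D.om j * f j :=
  (sum_subset w.sub fun j hj hj' => by rw [w.sup j hj hj', zero_mul]).symm

theorem Wd.wn (w : Wd D i0 i1 ms) (H : D.Ok τ0) (hX : 0 < D.X) :
    R1J.Wn D.S i0 i1 (D.e i1) ms D.om :=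
  ⟨Nat.zero_lt_of_lt w.lo, nd H hX (w.sub (mem_Icc.2 ⟨w.le, le_rfl⟩)),
    by simpa using (w.sum fun _ => 1).symm.trans (by simpa using w.mass), fun i a b => by
      have := w.hi
      rw [tmS H (by omega), tmS H (by omega), dmS, dmS]
      exact w.st i a b, fun j hj => (dmS D j).symm ▸ w.ms1 j hj⟩

/-- **`J`-lemma in the names of block C** -/
theorem jcd (s1 : S1) (s2 : S2) (s3 : S3) (s5 : S5) : ∃ C : ℝ, 1 ≤ C ∧
    ∀ (τ0 : ℝ) (D : CD) (i0 i1 : ℕ) (ms : ℝ), D.Ok τ0 → 0 < D.X → Wd D i0 i1 ms →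
    ∀ k ∈ Icc i0 i1,
      (∀ j ∈ Icc i0 i1, |J D.S (ω D) j - J D.S (ω D) k| ≤ C * osc D.S i0 i1 (ω D)) ∧
      |J D.S (ω D) k| * |∑ j ∈ D.up, D.om j * (D.sig j + ω D j)| ≤
        |∑ j ∈ D.up, D.om j * (D.rb j - D.Gam j) - D.main| +
        D.Iw (fun j => |D.del j| * |1 - D.τ j * G D.S j|) +
        |∑ j ∈ D.up, D.om j * (D.Gam j - D.q j)| +
        |D.yh + D.y2 + D.y3 + D.y4 + D.mx + D.c3| + |D.LOC| / 2 +
        C * jE D.S i0 i1 (D.e i1) ms D.om (ω D) := by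
  obtain ⟨C, c, h⟩ := jsite s1 s2 s3 s5
  refine ⟨C, c, fun τ0 D i0 i1 ms H hX w k hk => ?_⟩
  obtain ⟨h1, h2⟩ := h D.S i0 i1 _ ms _ (w.wn H hX) (ω D) (Hd50.ω_lo D (Nat.zero_le _)) k hk
  refine ⟨h1, ?_⟩
  obtain ⟨a, ha⟩ := Option.isSome_iff_exists.1 w.tst
  have e1 : ∑ j ∈ Icc i0 i1, D.om j * (Ker15.tm D.S j + ω D j) =
      ∑ j ∈ D.up, D.om j * (D.sig j + ω D j) := by
    rw [w.sum]
    exact sum_congr rfl fun j hj => by rw [tmS H (CD.mem_up.1 (w.sub hj)).2.le]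
  have k1 := D.abs_sum_om (a := fun j => D.del j * (1 - D.τ j * G D.S j))
    (b := fun j => |D.del j| * |1 - D.τ j * G D.S j|) fun j _ => (abs_mul _ _).le
  have e2 : ∑ j ∈ D.up, D.om j * (W D.S j [ω D] + W D.S j [ω D, ω D] / 2 - ω D j * G D.S j) =
      -(∑ j ∈ D.up, D.om j * (D.rb j - D.Gam j) - D.main) +
      ∑ j ∈ D.up, D.om j * (D.del j * (1 - D.τ j * G D.S j)) -
      ∑ j ∈ D.up, D.om j * (D.Gam j - D.q j) -
      (D.yh + D.y2 + D.y3 + D.y4 + D.mx + D.c3) - D.LOC / 2 := by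
    have e3 : ∑ j ∈ D.up, D.om j * (W D.S j [ω D] + W D.S j [ω D, ω D] / 2 - ω D j * G D.S j) =
        D.f1' + D.QM / 2 + (∑ j ∈ D.up, D.om j * (D.del j * (1 - D.τ j * G D.S j)) -
          ∑ j ∈ D.up, D.om j * (D.Gam j - D.q j) - ∑ j ∈ D.up, D.om j * (D.rb j - D.Gam j)) := by
      rw [Hd50.f1_test ha, Hd50.QM_test ha, ← om_eq ha, sum_div]
      simp only [← sum_sub_distrib, ← sum_add_distrib]
      refine sum_congr rfl fun j hj => ?_
      rw [Hd50.ω_up D hj, CD.del]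
      ring
    rw [e3, CD.main, CD.q2, CD.dd_test w.tst]
    ring
  rw [← w.sum, e1, e2] at h2
  rw [← abs_mul]
  have a1 := abs_le.1 h2
  have a2 := abs_le.1 k1
  have a3 := le_abs_self (∑ j ∈ D.up, D.om j * (D.rb j - D.Gam j) - D.main)
  have a4 := neg_abs_le (∑ j ∈ D.up, D.om j * (D.rb j - D.Gam j) - D.main)
  have a5 := le_abs_self (∑ j ∈ D.up, D.om j * (D.Gam j - D.q j))
  have a6 := neg_abs_le (∑ j ∈ D.up, D.om j * (D.Gam j - D.q j))
  have a7 := le_abs_self (D.yh + D.y2 + D.y3 + D.y4 + D.mx + D.c3)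
  have a8 := neg_abs_le (D.yh + D.y2 + D.y3 + D.y4 + D.mx + D.c3)
  have a9 := le_abs_self D.LOC
  have a10 := neg_abs_le D.LOC
  rw [abs_le]
  constructor <;> linarith [a1.1, a1.2, a2.1, a2.2]

/-- `J` is Lipschitz for the `L¹` norm -/
theorem J_lip (s3 : S3) : ∃ C : ℝ, 1 ≤ C ∧ ∀ (T : List (Lv Bool)) (k : ℕ) (p : ℝ), Nd T k p →
    ∀ f g : ℕ → ℝ, f 0 = 0 → g 0 = 0 → |J T f k - J T g k| ≤ C * n1 T fun j => f j - g j := by
  obtain ⟨C, c, h⟩ := s3
  refine ⟨C, c, fun T k p N f g hf hg => ?_⟩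
  have z : (fun j => f j - g j) 0 = 0 := by simp [hf, hg]
  have e := J_add (T := T) N.k0 (g := fun j => f j - g j) (h := g) z hg
  simp only [sub_add_cancel] at e
  have k1 := h T k p N _ (off_zero k (f := fun j => f j - g j) z)
  rw [off_self, abs_zero, mul_zero, zero_add] at k1
  rw [e, add_sub_cancel_right]
  exact k1.trans (mul_le_mul_of_nonneg_left (n1_off N.mono k _) (by linarith))

/-- the value at the top node does not matter -/
theorem J_top (s3 : S3) (H : D.Ok τ0) (hX : 0 < D.X) {k : ℕ} (hk : k ∈ D.up) {f g : ℕ → ℝ}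
    (hf : f 0 = 0) (hg : g 0 = 0) (e : ∀ j < D.K, f j = g j) : J D.S f k = J D.S g k := by
  obtain ⟨C, -, h⟩ := J_lip s3
  have k1 := h D.S k _ (nd H hX hk) f g hf hg
  have z : n1 D.S (fun j => f j - g j) = 0 := sum_eq_zero fun j hj => by
    rcases (Nat.lt_succ_iff.1 (mem_range.1 hj)).lt_or_eq with a | a
    · simp [e j (lenS D ▸ a)]
    · rw [a, lenS, dmS, H.top, zero_mul]
  rw [z, mul_zero] at k1
  exact sub_eq_zero.1 (abs_nonpos_iff.1 k1)

/-- norms of a letter carried by UP -/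
theorem n1_up (H : D.Ok τ0) {f : ℕ → ℝ} (hf : ∀ j ≤ D.J, f j = 0) :
    n1 D.S f = D.I fun j => |f j| := by
  simp only [n1, lenS, dmS, CD.I]
  refine (sum_subset (fun j hj => mem_range.2 (by have := mem_Ioo.1 hj; omega))
    fun j h1 h2 => ?_).symm
  rcases le_or_gt j D.J with e | e
  · rw [hf j e, abs_zero, mul_zero]
  · rw [show j = D.K by rw [mem_range] at h1; rw [mem_Ioo] at h2; omega, H.top, zero_mul]

theorem lo_up (D : CD) {f : ℕ → ℝ} (hf : ∀ j ≤ D.J, f j = 0) (k : ℕ) :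
    R1J.lo D.S k f = D.lw (fun j => |f j|) k := by
  simp only [R1J.lo, dmS, CD.lw]
  refine (sum_subset (fun j hj => mem_range.2 (mem_Ioo.1 hj).2) fun j h1 h2 => ?_).symm
  rw [hf j (by rw [mem_range] at h1; rw [mem_Ioo] at h2; omega), abs_zero, mul_zero]

end Crest.Agent.T156.Cas.C40.R1L

end
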