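import Crest.Agent.T156.R1MixC_65
import Crest.Agent.T156.R1Alg_77
import Crest.Agent.T156.Twin_20

/-!
# Row 156 (helper73): the coefficient of the root atom
-/

set_option autoImplicit false
set_option linter.unusedSectionVars false

noncomputable section

namespace Crest.Agent.T156.Cas.R1P

open Finset
open Crest.Agent.T157.E Crest.Agent.T157.Casc Crest.Agent.T157.SL Crest.Agent.T157.Casc.C
open Crest.Agent.R339.B Crest.Agent.R339.Var Crest.Agent.T157 Crest.Agent.T157.Pf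
open Crest.ProbabilityR.SpinGlassDynamics (spin)
open Crest.Agent.T156.Pp Crest.Agent.T156.Pp.Area50
open Crest.Agent.T156.Hess65 Crest.Agent.T156.Cas.C40
open Crest.Agent.T156.Cas.R1J (n1)

/-- all nodes above the root -/
def u1 (j : ℕ) : ℝ := if j = 0 then 0 else 1

/-- `Γ_k` with the field `y` -/
def Gf (T : List (Lv Bool)) (k : ℕ) (y : ℝ) : ℝ :=
  pi2 (fun _ => 1) T k (fun a b => spin a * spin b) fun b => y * spin b

variable {T L Lr Lc : List (Lv Bool)} {ℓ : List (ℝ × ℝ)} {z z' s σ f : ℕ → ℝ} {N c k : ℕ}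

theorem Gf_cons {m v : ℝ} (H : List.Forall₂ (Rk1 spin) T ((m, v) :: ℓ)) (hm : m ≠ 0)
    (hk : k ≤ ℓ.length) : Gf T (k + 1) = At (PhiL 1 ℓ) m (EX 1 ℓ (R339.Var.TT (ℓ.take k))
      fun y => Dn 0 (PhiT 1 ℓ (R339.Var.TT (ℓ.take k))) y ^ 2) v := by
  funext y
  have n : ∀ q ∈ ℓ, 0 ≤ q.2 := fun q hq => One15.nn_of H q (List.mem_cons_of_mem _ hq)
  have r : 0 ≤ R339.Var.TT (ℓ.take k) := One15.TT_nonneg fun q hq => n q (List.mem_of_mem_take hq)
  have := One15.pi2_spin H (j := k + 1) (by simpa using hk) y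
  rw [List.take_succ_cons, One15.TT_cons, EX_next hm n (by simpa using r),
    PhiT_next hm n (by simpa using r), add_sub_cancel_left] at this
  simp only [Dn_zero]
  exact this

/-- **heat equation at the root** -/
theorem heat (H : List.Forall₂ (Rk1 spin) T (lsg z σ (N + 1))) (a : Adm 1 (lsg z σ (N + 1)))
    (hσ : Up σ (N + 1)) (h1 : σ 0 < σ 1) (hk : k ≤ N) :
    BD (Gf T (k + 1)) ∧ iteratedDeriv 2 (Gf T (k + 1)) 0 = 2 * Wd T [u1] (k + 1) := by
  set ℓ := lsg (fun j => z (j + 1)) (fun j => σ (j + 1)) N with hℓ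
  have e : ∀ t, lsg z (fun j => σ j + t * u1 j) (N + 1) = (z 0, σ 1 - σ 0 + t) :: ℓ := fun t => by
    rw [lsg_succ]
    congr 1
    · simp [u1]; ring
    · simp [hℓ, lsg, u1]
  have up : ∀ t, σ 0 - σ 1 < t → Up (fun j => σ j + t * u1 j) (N + 1) := fun t ht j hj => by
    have := hσ j hj
    rcases j with _ | j <;> simp [u1] <;> linarith
  have d := der_pth (z := z) (s := σ) (f := u1) (N := N + 1) (I := Set.Ioi (σ 0 - σ 1)) isOpen_Ioi
    (fun j _ => by
      rcases j with _ | j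
      · exact Or.inr fun t ht => by have := Set.mem_Ioi.1 ht; simp [u1]; linarith
      · exact Or.inl (by simp [u1])) (by simp [u1]) (u := 0) (by simpa using h1) [] (k + 1)
  have R := rk1_pth 0 _ z σ u1 (up 0 (by linarith))
  simp only [zero_mul, add_zero] at R
  rw [List.nil_append, Wd_rk1 R H] at d
  rw [lsg_succ] at H a
  have m0 : z 0 ≠ 0 := ne_of_gt a.1
  have l : k ≤ ℓ.length := by simpa [hℓ, lsg] using hk
  have hP := PhiL_prof one_pos ℓ
  have n : ∀ q ∈ ℓ, 0 ≤ q.2 := fun q hq => One15.nn_of H q (List.mem_cons_of_mem _ hq)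
  have b : BD (EX 1 ℓ (R339.Var.TT (ℓ.take k)) fun y => Dn 0 (PhiT 1 ℓ (R339.Var.TT (ℓ.take k))) y ^ 2) :=
    Twin20.EX_bd ((Ker.Dk_bd 0 _ _).pow 2) a.2.2.2
      (One15.TT_nonneg fun q hq => n q (List.mem_of_mem_take hq))
  have g := TB_dv (Lip62.tb_At' hP (z 0) b) (sub_pos.2 h1) 0
  have d0 := Ode3.D0_zero a
  rw [Dn_zero, PhiL] at d0
  rw [D1_eq hP, Lip62.At_deriv hP, d0, mul_zero, zero_mul, add_zero, sub_zero] at g
  have g' := (g.comp_of_eq 0 ((hasDerivAt_id' (0 : ℝ)).const_add (σ 1 - σ 0)) (by simp))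
  have := d.unique (g'.congr_of_eventuallyEq (by
    filter_upwards [Ioi_mem_nhds (show σ 0 - σ 1 < 0 by linarith)] with t ht
    have R := rk1_pth t _ z σ u1 (up t ht)
    rw [e] at R
    have := congrFun (Gf_cons R m0 l) 0
    simp only [Gf, zero_mul] at this
    exact (twoF_TEf One15.w1 _ _ _ _).trans this))
  rw [Gf_cons H m0 l]
  refine ⟨At_bd hP _ b _, ?_⟩
  rw [this, iteratedDeriv_succ, iteratedDeriv_one]
  ring

/-- `χ = 1 - ∑ dm Γ` -/
theorem chi_W (H : List.Forall₂ (Rk1 spin) T ℓ) : deriv (deriv (PhiL 1 ℓ)) 0 =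
    1 - ∑ j ∈ range (T.length + 1), dm T 0 j * Wd T [] j := by
  rw [← One15.Hb_spin H, zero_smul, D28.Hb_eq One15.w1]
  simp only [← sq, One15.spin_sq, Pf, mul_one, sum_P One15.w1]
  congr 1
  exact sum_congr rfl fun j _ => congrArg _ (twoF_TEf One15.w1 _ _ _ _).symm

theorem sum_dm_le (g : ℕ → ℝ) {a : ℝ} (hM : Mono 0 L) {h : ℕ → ℝ}
    (hg : ∀ k ≤ L.length, |g k| ≤ a + h k) :
    |∑ k ∈ range (L.length + 1), dm L 0 k * g k| ≤ a + ∑ k ∈ range (L.length + 1), dm L 0 k * h k := by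
  have e := sum_dm L 0 L.length
  rw [ex_length, sub_zero] at e
  refine (abs_sum_le_sum_abs _ _).trans ?_
  rw [← mul_one a, ← e, mul_sum, ← sum_add_distrib]
  refine sum_le_sum fun k hk => ?_
  rw [abs_mul, abs_of_nonneg (dm_nonneg hM k), mul_comm a, ← mul_add]
  exact mul_le_mul_of_nonneg_left (hg k (Nat.lt_succ_iff.1 (mem_range.1 hk))) (dm_nonneg hM k)

/-- a word summed over the nodes -/
def SW (L : List (Lv Bool)) (V : List (ℕ → ℝ)) : ℝ :=
  ∑ k ∈ range (L.length + 1), dm L 0 k * Wd L V k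

/-- the same above the cut -/
def SU (L : List (Lv Bool)) (J : ℕ) (V : List (ℕ → ℝ)) : ℝ :=
  ∑ k ∈ Ioc J L.length, dm L 0 k * Wd L V k

theorem abs_SW1 (H : Ker15.R1 L) (hM : Mono 0 L) (f : ℕ → ℝ) : |SW L [f]| ≤ 80 * n1 L f := by
  refine (sum_dm_le _ (a := 40 * n1 L f) hM (h := fun k => 40 * |f k|) fun k hk =>
    (abs_Wd1c H hM hk f).trans_eq (mul_add _ _ _)).trans (le_of_eq ?_)
  simp only [mul_left_comm _ (40 : ℝ), ← mul_sum, n1]
  ring

section tr
variable (h : TR z s σ N c Lr Lc)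
include h

theorem rk_drop : List.Forall₂ (Rk1 spin) (Lc.drop (c + 1))
    (lsg (fun i => z (i + c)) (fun i => σ (i + c)) (N - c)) := by
  have := List.forall₂_drop (c + 1) h.cav
  have cN := h.cN
  rw [show N + 1 = c + 1 + (N - c) by omega, Hess65.lsg_add, List.drop_left' (by simp [lsg])] at this
  rwa [Hess65.lsg_congr (z' := fun i => z (i + c)) (s' := fun i => σ (i + c))
    (fun j hj => by rw [show c + 1 + j = j + c + 1 by ring, h.tilt _ (by omega) (by omega)])
    fun j _ => by congr 1; omega] at this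

theorem up_drop : Up (fun i => σ (i + c)) (N - c) := fun i hi => by
  have := h.uσ (i + c) (by omega)
  rwa [Nat.add_right_comm] at this

theorem adm_drop : Adm 1 (lsg (fun i => z (i + c)) (fun i => σ (i + c)) (N - c)) :=
  adm_lsg _ _ _ (h.lab.top _ (by have := h.cN; omega))
    (h.lab.pos.trans_le (h.lab.mono (Nat.zero_le _))) (fun j _ => h.lab.mono (by omega)) (up_drop h)

theorem wd_drop {V : List (ℕ → ℝ)} (hV : ∀ f ∈ V, f 0 = 0) (hk : k ≤ N + 1) :
    Wd Lc (V.map fun f j => f (j - (c + 1))) k = Wd (Lc.drop (c + 1)) V (k - (c + 1)) := by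
  have cN := h.cN
  have c1 : Col (fun j => j - (c + 1)) (ex Lc) (fun i => z (i + c)) (N + 1) (N - c) :=
    ⟨Nat.zero_sub _, by omega, fun j hj => by
      rcases le_or_gt j c with a | a
      · exact Or.inl ⟨by omega, h.ne j a⟩
      · obtain ⟨i, rfl⟩ := Nat.exists_eq_add_of_lt a
        exact Or.inr ⟨by omega, by rw [h.tilt _ (by omega) (by omega)]; congr 1; omega⟩⟩
  refine c1.wd V hV hk (σ := fun i => σ (i + c)) (h.low _ (by simp)) (up_drop h) (rk_drop h) ?_
  rw [Hess65.lsg_congr (fun _ _ => rfl) (s' := fun j => σ (j - 1)) fun j _ => by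
    rcases le_total j (c + 1) with a | a
    · rw [h.low _ (by omega), h.low _ (by omega)]
    · congr 1; omega]
  exact h.cav

theorem SU_eq {V : List (ℕ → ℝ)} (h0 : ∀ k ≤ c, Wd Lc V (k + 1) = 0) :
    SU Lc (c + 1) V = ∑ k ∈ range (Lr.length + 1), dm Lr 0 k * Wd Lc V (k + 1) := by
  have cN := h.cN
  rw [SU, len_rk h.cav, len_rk h.ref, ← Ico_add_one_add_one_eq_Ioc,
    ← sum_Ico_add' (fun k => dm Lc 0 k * Wd Lc V k), range_eq_Ico,
    ← sum_Ico_consecutive _ (c + 1).zero_le (by omega : c + 1 ≤ N + 1),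
    sum_eq_zero (s := Ico 0 (c + 1)) fun k hk => by
      rw [h0 k (Nat.lt_succ_iff.1 (mem_Ico.1 hk).2), mul_zero], zero_add]
  exact sum_congr rfl fun k hk => by
    rw [h.dm_eq (mem_Ico.1 hk).1 (Nat.lt_succ_iff.1 (mem_Ico.1 hk).2)]

theorem SU_nil : |SU Lc (c + 1) [] - SW Lr []| ≤ 80 * gam z s σ c Lc := by
  obtain ⟨Lp, H⟩ := ex_rk1 z h.uσ
  rw [SU_eq h fun k hk => by
    have := h.cut H (V := []) (by simp) (hk.trans h.cN)
    rw [List.map_nil] at this
    have a := adm_lsg N z σ h.zN h.lab.pos (fun j _ => h.lab.mono (Nat.le_succ j)) h.uσ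
    rw [this, Wd_nil H ((len_rk H).symm ▸ hk.trans h.cN), tm_lsg _ _ _ _ (hk.trans h.cN),
      h.low k hk, h.low 0 c.zero_le, sub_zero, Ode3.Gam, Ode3.Et_zero _ (One15.nn_of H), Ode3.W0,
      Ode3.D0_zero a]
    simp, SW, ← sum_sub_distrib]
  simp only [← mul_sub]
  refine (sum_dm_le _ (a := 40 * n1 Lr fun j => σ j - s j) h.monoR
    (h := fun k => 40 * |σ k - s k|) fun k hk => ?_).trans ?_
  · obtain ⟨M, r, m, l, e, -, w⟩ := h.mvt (V := []) (by simp) (len_rk h.ref ▸ hk)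
    rw [List.map_nil] at w
    rw [w, ← e, ← mul_add]
    exact abs_Wd1c r m l _
  · simp only [mul_left_comm _ (40 : ℝ), ← mul_sum]
    have := h.n1_h
    unfold n1 at this ⊢
    linarith

theorem SU_one (f0 : f 0 = 0) : |SU Lc (c + 1) [up1 c f] - SW Lr [f]| ≤
    80 * ∑ j ∈ range c, Pr.dm z j * |f (j + 1)| + 3 * 4500 ^ 2 *
      (n1 Lc (up1 c f) * gam z s σ c Lc + n1 Lc (up1 c fun j => f j * (σ j - s j))) := by
  obtain ⟨Lp, H⟩ := ex_rk1 z h.uσ
  have cN := h.cN
  have hV : ∀ g ∈ [ct c f], ∀ k ≤ c, g k = 0 := fun g hg j hj => by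
    rw [List.mem_singleton.1 hg, ct_lo hj]
  have e : SW Lr [f] = SW Lr [fun j => f j - ct c f j] + SW Lr [ct c f] := by
    simp only [SW, ← sum_add_distrib, ← mul_add]
    refine sum_congr rfl fun k _ => congrArg _ ?_
    rw [← W_eq, ← W_eq, ← W_eq, ← Alg77.W_add]
    simp
  have a := abs_SW1 (Ker15.r1_of h.ref) h.monoR fun j => f j - ct c f j
  rw [n1_rk h.ref h.zN (by simp [f0, ct]), Pr.Dw, ← sum_subset (range_mono cN) fun j _ hj => by
      rw [ct_hi (by simpa [Nat.lt_succ_iff] using hj)]; simp,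
    sum_congr rfl (g := fun j => Pr.dm z j * |f (j + 1)|) fun j hj => by
      rw [ct_lo (mem_range.1 hj)]; simp] at a
  have b : |SU Lc (c + 1) [up1 c f] - SW Lr [ct c f]| ≤ 3 * 4500 ^ 2 *
      (n1 Lc (up1 c f) * gam z s σ c Lc + n1 Lc (up1 c fun j => f j * (σ j - s j))) := by
    rw [SU_eq h fun k hk => by
      have := h.cut H hV (hk.trans cN)
      rw [List.map_singleton, ← up1_eq] at this
      have b := abs_Wd1 (Ker15.r1_of H) (mono_rk H h.lab h.uσ) ((len_rk H).symm ▸ hk.trans cN)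
        (ct_lo (f := f) hk)
      simp only [pz, fun y => tm_rk H (h.low 0 c.zero_le) ((min_le_right y k).trans (hk.trans cN)),
        fun y => h.low _ ((min_le_right y k).trans hk)] at b
      rw [this]
      simpa [n1] using b, SW, ← sum_sub_distrib]
    simp only [← mul_sub]
    have a1 := h.n1_h
    have a2 := n1_nn h.monoR (ct c f)
    refine (sum_dm_le _ (a := 4500 ^ 2 * (n1 Lr (ct c f) * (n1 Lr fun j => σ j - s j) +
      n1 Lr fun j => ct c f j * (σ j - s j))) h.monoR (h := fun k => 4500 ^ 2 *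
        (n1 Lr (ct c f) * |σ k - s k| + (n1 Lr fun j => σ j - s j) * |ct c f k| +
          2 * |ct c f k * (σ k - s k)|)) fun k hk => ?_).trans ?_
    · obtain ⟨M, r, m, l, e, -, w⟩ := h.mvt hV (len_rk h.ref ▸ hk)
      rw [List.map_singleton, ← up1_eq] at w
      have := abs_Wd2c r m l (ct c f) fun j => σ j - s j
      simp only [e] at this
      rw [w]
      refine this.trans (le_of_eq ?_)
      rw [abs_mul]
      ring
    · simp only [mul_left_comm (dm Lr 0 _), mul_add, sum_add_distrib, ← mul_sum]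
      rw [← h.n1_fh, h.n1_up]
      have := mul_le_mul_of_nonneg_left a1 a2
      unfold n1 at this ⊢
      linarith
  rw [e, ← sub_sub, sub_right_comm]
  exact (abs_sub _ _).trans (by linarith)

end tr

/-- **`λ` and its variation as sums of site words** -/
theorem lam_W {D : CD} (h : TR z s σ N c Lr D.S) (hJ : D.J = c + 1) (T : Alg77.Tw D (up1 c f))
    (hc : c < N) (h1 : 0 < σ (c + 1)) : (0 ≤ D.lam ∧ D.lam ≤ 1) ∧ D.lam = 1 - SU D.S (c + 1) [] ∧
      D.lam2 = -(4 * D.lam * SU D.S (c + 1) [up1 c f]) := by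
  have R := rk_drop h
  have a := adm_drop h
  have lS := len_rk h.cav
  have lK : D.K = N + 1 := (Alg77.lenS D).symm.trans lS
  have e : D.lam = deriv (deriv (PhiL 1 (lsg (fun i => z (i + c)) (fun i => σ (i + c)) (N - c)))) 0 := by
    rw [CD.lam, iteratedDeriv_succ, iteratedDeriv_one, ← funext (X_spin R)]
    unfold CD.Ph
    rw [hJ]
    rfl
  have su : ∀ (V : List (ℕ → ℝ)) (g : ℕ → ℝ), (∀ f ∈ V, f 0 = 0) → g (c + 1) = 0 →
      ∑ i ∈ range ((D.S.drop (c + 1)).length + 1), dm (D.S.drop (c + 1)) 0 i *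
        (g (i + (c + 1)) * Wd (D.S.drop (c + 1)) V i) = ∑ k ∈ Ioc (c + 1) D.S.length,
        dm D.S 0 k * (g k * Wd D.S (V.map fun f j => f (j - (c + 1))) k) := fun V g hV g0 => by
    have := Wt87.sum_dm_drop D.S (j := c + 1) (by omega)
      fun k => g k * Wd (D.S.drop (c + 1)) V (k - (c + 1))
    simp only [Nat.add_sub_cancel, g0, zero_mul, mul_zero, zero_add] at this
    rw [List.length_drop, this]
    exact sum_congr rfl fun k hk => by rw [wd_drop h hV (lS ▸ (mem_Ioc.1 hk).2)]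
  have u : ∀ V : List (ℕ → ℝ), ∑ k ∈ Ioc (c + 1) D.S.length, dm D.S 0 k *
      (u1 (k - (c + 1)) * Wd D.S V k) = SU D.S (c + 1) V := fun V => sum_congr rfl fun k hk => by
    rw [u1, if_neg (by have := mem_Ioc.1 hk; omega), one_mul]
  refine ⟨⟨?_, ?_⟩, ?_, ?_⟩
  · have := Ode3.D1_pos a 0 0
    rw [PhiT_zero (One15.nn_of R), Dn_one, ← e] at this
    exact this.le
  · have := Ode3.D1_le a 0 0
    rwa [PhiT_zero (One15.nn_of R), Dn_one, ← e] at this
  · have := su [] (fun k => u1 (k - (c + 1))) (by simp) (by simp [u1])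
    rw [List.map_nil, u] at this
    rw [e, chi_W R, ← this]
    refine congrArg _ (sum_congr rfl fun i _ => congrArg _ ?_)
    rcases i with _ | i
    · rw [Wd_nil R (Nat.zero_le _), tm_lsg _ _ _ _ (Nat.zero_le _), sub_self, Ode3.Gam,
        Ode3.Et_zero _ (One15.nn_of R), Ode3.W0, Ode3.D0_zero a]
      simp
    · simp [u1]
  · obtain ⟨M, hM⟩ := Nat.exists_eq_add_of_lt hc
    have eN : N - c = M + 1 := by omega
    rw [eN] at R a
    have ht := fun k hk => heat (k := k) R a (eN ▸ up_drop h)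
      (by rw [zero_add, h.low c le_rfl, add_comm]; exact h1) hk
    have hj : ∀ j ∈ D.up, ∃ k, k ≤ M ∧ j - (c + 1) = k + 1 := fun j hj =>
      ⟨j - (c + 2), by have := mem_Ioo.1 hj; omega, by have := mem_Ioo.1 hj; omega⟩
    have e2 : (fun y => D.sH D.J y []) = fun y => ∑ j ∈ D.up,
        D.om j * (-D.q j + Gf (D.S.drop (c + 1)) (j - (c + 1)) y) := funext fun y => by
      rw [CD.sH, T.dd, hJ]
      refine sum_congr rfl fun j _ => congrArg _ ?_
      rw [List.map_nil, WdO_nil, twoF_TEf One15.w1]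
      unfold oE
      rw [pi2_sub One15.w1, pi2_const One15.w1, Gf]
      ring
    have f0 : up1 c f (c + 1) = 0 := if_pos le_rfl
    have s1 := Wt87.sum_dm_drop D.S (j := c + 1) (by omega)
      fun k => up1 c f k * Wd (D.S.drop (c + 1)) [u1] (k - (c + 1))
    simp only [Nat.add_sub_cancel, f0, zero_mul, mul_zero, zero_add] at s1
    rw [← List.length_drop, Alg77.lenS, ← Ioo_insert_right (hJ ▸ T.cut), sum_insert (by simp),
      Alg77.dmS, T.top, zero_mul, zero_add] at s1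
    have s2 := su [fun i => up1 c f (i + (c + 1))] (fun k => u1 (k - (c + 1))) (by simpa using f0)
      (by simp [u1])
    have s3 := Alg77.W_sym (D.S.drop (c + 1)) (f := fun i => up1 c f (i + (c + 1))) (g := u1)
      (V := []) (by simpa using f0) (by simp [u1]) (by simp)
    simp only [Nat.add_sub_cancel] at s2
    rw [u, List.map_singleton, show (fun j => up1 c f (j - (c + 1) + (c + 1))) = up1 c f from
      funext fun j => by
        rcases le_total (c + 1) j with b | b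
        · rw [Nat.sub_add_cancel b]
        · rw [Nat.sub_eq_zero_of_le b, zero_add, f0, up1, if_pos b]] at s2
    rw [CD.lam2, T.dd, CD.dP, e2, iteratedDeriv_fun_sum fun j hj' => by
      obtain ⟨k, hk, e⟩ := hj j hj'
      exact ((((BD.const _).add (e ▸ (ht k hk).1)).const_mul _).contDiff 2).contDiffAt,
      ← (s1.symm.trans (s3.trans s2)), ← hJ, sum_congr rfl (g := fun j => 2 * (dm D.S 0 j *
        (up1 c f j * Wd (D.S.drop D.J) [u1] (j - D.J)))) fun j hj' => by
        obtain ⟨k, hk, e⟩ := hj j hj'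
        rw [iteratedDeriv_const_mul_field, iteratedDeriv_const_add two_pos, hJ, e, (ht k hk).2,
          T.om j hj', Alg77.dmS]
        ring, ← mul_sum]
    ring

theorem der_col {I : Set ℝ} {s s' : ℝ → ℕ → ℝ} {ν : ℕ → ℕ} {N' : ℕ} {τ : ℝ} (h : Pr.NP I s s')
    (hc : Col ν z' z N' N) (hz : z' N' = 1) (hτ : τ ∈ I)
    (H : List.Forall₂ (Rk1 spin) L (lsg z' (fun j => s τ (ν j)) N')) :
    Pr.chi (Pr.lst z (s τ) N) = 1 - SW L [] ∧
    HasDerivAt (fun u => Pr.chi (Pr.lst z (s u) N)) (-SW L [fun j => s' τ (ν j)]) τ := by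
  have R := fun u (hu : u ∈ I) => rk_sML (z := z') (σ := fun u j => s u (ν j))
    (σ' := fun u j => s' u (ν j)) (hc.up (up_np h hu N))
  have e : ∀ u ∈ I, ∀ {L}, List.Forall₂ (Rk1 spin) L (lsg z' (fun j => s u (ν j)) N') →
      Pr.chi (Pr.lst z (s u) N) = 1 - SW L [] := fun u hu L H => by
    rw [SW, ← chi_W H, ← PhiT_zero (One15.nn_of H), (hc.eqv (up_np h hu N)).phiT 0 le_rfl,
      Pr.chi, Pr.Dk, Dn_one]
    rfl
  have d := fun k => der_Wd (P := Pr.sML z' (fun u j => s u (ν j)) (fun u j => s' u (ν j)) N')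
    h.op (fun p hp => by
      obtain ⟨k, rfl⟩ := (List.mem_ofFn' _ _).1 hp
      rcases hc.step k k.2 with ⟨e, -⟩ | ⟨e, -⟩
      · exact Or.inr fun u => by simp [e]
      · exact Or.inl ⟨fun u hu => ⟨(h.der u hu _).sub (h.der u hu _),
          sub_pos.2 (h.sm u hu (by omega))⟩, (h.cont _).sub (h.cont _)⟩) hτ
    (om := fun j => s' τ (ν j)) (fun j hj x y => by
      rw [Pr.dcov_sML _ _ _ _ _ _ (by simpa [Pr.sML] using hj), hc.zero, h.d0 hτ, sub_zero]) [] k
  simp only [List.nil_append, Wd_rk1 (R τ hτ) H] at d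
  refine ⟨e τ hτ H, ((HasDerivAt.fun_sum fun k _ => (d k).const_mul (dm L 0 k)).const_sub
    1).congr_of_eventuallyEq ?_⟩
  filter_upwards [h.op.mem_nhds hτ] with u hu
  rw [e u hu (R u hu), SW, len_rk (R u hu), len_rk H]
  refine congrArg _ (sum_congr rfl fun k hk => ?_)
  have hk := Nat.lt_succ_iff.1 (mem_range.1 hk)
  congr 1
  cases k with
  | zero => rw [dm, dm, ex_rk H hz hk, ex_rk (R u hu) hz hk]; rfl
  | succ j => rw [dm_rk H hz hk, dm_rk (R u hu) hz hk]

end Crest.Agent.T156.Cas.R1P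

end
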