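import Crest.Agent.T156.R1MixD_65
import Crest.Agent.T156.R1Lo2_73
import Crest.Agent.T156.L0_48

/-!
# Row 156 (helper73): the coefficient `c2lo` of the root atom on the graded family
-/

set_option autoImplicit false
set_option linter.unusedSectionVars false

noncomputable section

namespace Crest.Agent.T156.Alt.P73

open Finset Filter
open Crest.Agent.T157.Casc Crest.Agent.T157.SL Crest.Agent.T157.Casc.C
open Crest.ProbabilityR.SpinGlassDynamics (spin)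
open Crest.Agent.T156.Pp Crest.Agent.T156.Hess65
open Crest.Agent.T156.Pp.Area50 hiding ind
open Crest.Agent.T156.Cas Crest.Agent.T156.Cas.C40 Crest.Agent.T156.Alt.Md77
open Crest.Agent.T156.Alt.Md67 Crest.Agent.T156.Alt.CIn12 Crest.Agent.T156.Alt.Alg77
open Crest.Agent.T156.Alt.Co65
open Crest.Agent.T156.Cas.R1J (n1)
open Crest.Agent.T156.Cas.R1P

theorem abs_SU1 {L : List (Lv Bool)} (H : Ker15.R1 L) (hM : Mono 0 L) (J : ℕ) (f : ℕ → ℝ) :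
    |SU L J [f]| ≤ 80 * n1 L f := by
  have := sum_dm_le (fun k => |Wd L [f] k|) (a := 40 * n1 L f) hM (h := fun k => 40 * |f k|)
    fun k hk => (abs_abs _).trans_le ((abs_Wd1c H hM hk f).trans_eq (mul_add _ _ _))
  simp only [mul_left_comm _ (40 : ℝ), ← mul_sum] at this
  refine (abs_sum_le_sum_abs _ _).trans ?_
  simp only [abs_mul, abs_of_nonneg (dm_nonneg hM _)]
  refine (sum_le_sum_of_subset_of_nonneg (t := range (L.length + 1))
    (fun k hk => mem_range.2 (Nat.lt_succ_of_le (mem_Ioc.1 hk).2))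
    fun k _ _ => mul_nonneg (dm_nonneg hM k) (abs_nonneg _)).trans ?_
  unfold n1 at this ⊢
  linarith [le_abs_self (∑ k ∈ range (L.length + 1), dm L 0 k * |Wd L [f] k|)]

theorem lo_num {σ B K τ u b' ε ε' χ l d w F lo γ Γ P Φ ms μ : ℝ} (σ0 : 0 < σ) (B1 : 1 ≤ B)
    (K1 : 1 ≤ K) (t0 : 0 ≤ τ) (u0 : 0 ≤ u) (tB : τ + u ≤ B) (uΓ : u ≤ Γ)
    (e1 : (τ + u) * χ ^ 2 = 1 - ε) (e2 : b' * χ ^ 2 + (τ + u) * (2 * χ * -w) = -ε')
    (c0 : 0 ≤ χ) (c1 : χ ≤ 1) (l0 : 0 ≤ l) (l1 : l ≤ 1) (a1 : σ * |b'| ≤ K * μ) (μ0 : 0 ≤ μ)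
    (μ1 : μ ≤ 1) (ε0 : 0 ≤ ε) (εm : ε ≤ ms) (a2 : σ * |ε'| ≤ ε) (a3 : |d| ≤ 80 * F)
    (FK : σ * F ≤ K * μ) (a4 : |χ - l| ≤ 80 * γ) (γ0 : 0 ≤ γ) (γΓ : γ ≤ Γ)
    (a5 : |d - w| ≤ 80 * lo + 3 * 4500 ^ 2 * (F * γ + P)) (lK : σ * lo ≤ K * ms)
    (PΦ : σ * P ≤ Φ + K * (u * μ)) (Φ0 : 0 ≤ Φ) :
    σ * |b' / 4 + τ ^ 2 * -(4 * l * d) / 8| ≤ B ^ 2 * K * (4 * 4500 ^ 2) * (ms + μ * Γ + Φ) := by
  have K0 := zero_le_one.trans K1
  have Γ0 := γ0.trans γΓ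
  have m0 := ε0.trans εm
  have b0 : 0 ≤ τ + u := by positivity
  obtain ⟨S, hS⟩ : ∃ S, S = K * (ms + μ * Γ + Φ) := ⟨_, rfl⟩
  have d1 : 0 ≤ K * ms := by positivity
  have d2 : 0 ≤ K * (μ * Γ) := by positivity
  have d3 := le_mul_of_one_le_left Φ0 K1
  have d4 := le_mul_of_one_le_left m0 K1
  have S0 : 0 ≤ S := by rw [hS]; positivity
  have id : σ * (b' / 4 + τ ^ 2 * -(4 * l * d) / 8) = (σ * b' * ε - (τ + u) * (σ * ε')) / 4 +
      ((2 * τ + u) * l * (u * (σ * d)) + (τ + u) ^ 2 * ((χ - l) * (σ * d)) -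
        (τ + u) ^ 2 * χ * (σ * (d - w))) / 2 := by
    linear_combination σ * (τ + u) / 4 * e2 - σ * b' / 4 * e1
  have ab : ∀ x, |σ * x| = σ * |x| := fun x => by rw [abs_mul, abs_of_pos σ0]
  have T0 : σ * |d| ≤ 80 * (K * μ) := by linarith [mul_le_mul_of_nonneg_left a3 σ0.le]
  have B2 : B ≤ B ^ 2 := le_self_pow₀ B1 two_ne_zero
  have bB := pow_le_pow_left₀ b0 tB 2
  have q : ∀ {c x y C : ℝ}, 0 ≤ c → c ≤ C * B ^ 2 → |x| ≤ y * S → |c * x| ≤ C * y * (B ^ 2 * S) :=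
    fun {c x y C} h0 h1 h2 => by
      rw [abs_mul, abs_of_nonneg h0]
      exact (mul_le_mul h1 h2 (abs_nonneg _) (h0.trans h1)).trans_eq (by ring)
  have q1 := q (x := σ * b' * ε) (y := 1) (C := 1) zero_le_one (by linarith) (by
    rw [abs_mul, ab, abs_of_nonneg ε0]
    have := mul_le_mul (a1.trans (mul_le_of_le_one_right K0 μ1)) εm ε0 K0
    rw [hS]; linarith)
  have q2 := q (x := σ * ε') (y := 1) (C := 1) b0 (by linarith) (by rw [ab, hS]; linarith)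
  have q3 := q (x := u * (σ * d)) (y := 80) (C := 2) (c := (2 * τ + u) * l) (by positivity)
    ((mul_le_of_le_one_right (by positivity) l1).trans (by linarith)) (by
      rw [abs_mul, ab, abs_of_nonneg u0]
      have := mul_le_mul uΓ T0 (by positivity) Γ0
      rw [hS]; linarith)
  have q4 := q (x := (χ - l) * (σ * d)) (y := 6400) (C := 1) (sq_nonneg (τ + u)) (by linarith) (by
    rw [abs_mul, ab]
    have := mul_le_mul (a4.trans (show _ ≤ 80 * Γ by linarith)) T0 (by positivity) (by positivity)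
    rw [hS]; linarith)
  have q5 := q (x := σ * (d - w)) (y := 6 * 4500 ^ 2) (C := 1) (c := (τ + u) ^ 2 * χ)
    (by positivity) ((mul_le_of_le_one_right (by positivity) c1).trans (by linarith)) (by
      have x1 := mul_le_mul_of_nonneg_left a5 σ0.le
      have x2 := mul_le_mul FK γΓ γ0 (by positivity)
      have x3 := mul_le_mul_of_nonneg_left (mul_le_mul_of_nonneg_right uΓ μ0) K0
      rw [ab, hS]; linarith)
  have : 0 ≤ B ^ 2 * S := by positivity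
  rw [← ab, id, show B ^ 2 * K * (4 * 4500 ^ 2) * (ms + μ * Γ + Φ) =
    4 * 4500 ^ 2 * (B ^ 2 * S) by rw [hS]; ring]
  rw [one_mul] at q1
  rw [abs_le] at *
  constructor <;> linarith [q1.1, q1.2, q2.1, q2.2, q3.1, q3.2, q4.1, q4.2, q5.1, q5.2]

variable {p : Pm} {P : Pl} {σ Y : ℝ}

theorem ap_gst (h : OP p (Set.Ioi 0) p.omG (omG' p) p.epsG Y) (hσ : 0 < σ) :
    Ode3.AP (p.lG σ) ∧ R339.Var.TT (p.lG σ) = Pr.sig p.v (p.omG σ) (p.J + p.Nr) :=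
  have := (Pr.areaS p.z _ _ h.labN (h.hom σ hσ).sig0 (h.np.sm σ hσ)).1
  ⟨.of_ok this.1, this.2.1⟩

theorem nu_mono (p : Pm) (P : Pl) (k : ℕ) : nu p P k ≤ nu p P (k + 1) := by
  unfold Md77.nu Pm.Jp
  split_ifs <;> omega

/-- the reference overlaps are admissible -/
theorem rf_gst (h : OP p (Set.Ioi 0) p.omG (omG' p) p.epsG Y) (hσ : 0 < σ) (hg : P.γ = 0) :
    Rf (p.gst P σ) (p.gst P σ).q := by
  refine ⟨q_nonneg 0, fun k hk => ?_, fun k _ => q_le_one k⟩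
  obtain ⟨a, e⟩ := ap_gst h hσ
  have sm := (h.np.sm σ hσ).monotone
  change p.qO P (p.omG σ) k ≤ p.qO P (p.omG σ) (k + 1)
  rw [h.qO_eq hg hσ, h.qO_eq hg hσ]
  exact Ode3.Gam_mono a ((h.hom σ hσ).sig0.ge.trans (sm (Nat.zero_le _))) (sm (nu_mono p P k))
    (e ▸ sm (nu_le p P hk.le))

theorem q_pos (h : OP p (Set.Ioi 0) p.omG (omG' p) p.epsG Y) (hσ : 0 < σ) (hg : P.γ = 0) {k : ℕ}
    (h0 : 0 < k) (hk : k ≤ p.J) : 0 < (p.gst P σ).q k := by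
  obtain ⟨a, e⟩ := ap_gst h hσ
  have sm := h.np.sm σ hσ
  have s0 : 0 < Pr.sig p.v (p.omG σ) k := (h.hom σ hσ).sig0.ge.trans_lt (sm h0)
  change 0 < p.qO P (p.omG σ) k
  rw [h.qO_eq hg hσ, nu_lo hk]
  exact (mul_pos (Real.exp_pos _) s0).trans_le
    (L048.Gam_ge a le_rfl ⟨s0.le, e ▸ sm.monotone (by omega)⟩)

/-- **the coefficient of the root atom** -/
def LoQ (C : ℝ) (p : Pm) : Prop := ∀ σ, p.MemG σ → ∀ P : Pl, P.γ = 0 →
  Pr.Lab (p.zP P) (p.NP P) → p.jf < p.J → p.J < p.NP P → ∀ m a, Lg (p.gst P σ) m a → 0 < a →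
  Top (p.gst P σ) → ∀ E D, D = cdf (p.gst P σ) m a (p.gst P σ).q (p.jf + 1) (sv p σ) E →
  σ * |c2lo D (deriv p.bG σ)| ≤
    C * (p.msG σ (p.jf * p.v) + p.muG σ * Gm p P σ m a + Fg p P σ m a)

set_option maxHeartbeats 800000 in
theorem loQ (β : ℝ) (hβ : 1 < β) : Cst β LoQ := by
  intro c0 C0 hc0 hC0
  obtain ⟨K, k1, H1⟩ := P73.c2Q R1J.s1 R1J.s2 R1J.s3 β hβ c0 C0 hc0 hC0
  obtain ⟨K', -, H2⟩ := p1G β hβ c0 C0 hc0 hC0
  have B1 : 1 ≤ β ^ 2 := one_le_pow₀ hβ.le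
  refine ⟨(β ^ 2) ^ 2 * K * (4 * 4500 ^ 2), one_le_mul_of_one_le_of_one_le
    (one_le_mul_of_one_le_of_one_le (one_le_pow₀ B1) k1) (by norm_num), fun A' hA' c hc hc' => ?_⟩
  filter_upwards [H1 A' hA' c hc hc', H2 A' hA' c hc hc'] with n H1 H2 p q1 q2 q3 q4 ok σ hm
    P hg hz hj hN m a G ha ht E D hD
  obtain ⟨⟨σ0, κ0, r0, ry, κ1, yJ⟩, ⟨om, -⟩, ⟨b0, b1, -⟩, -, -, -, -, -, em, -, ve, -, -, μκ⟩ :=
    H2 p q1 q2 q3 q4 ok σ hm
  obtain ⟨⟨f1, f2, f6, f3, f4⟩, -⟩ := H1 p q1 q2 q3 q4 ok σ hm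
  rw [q1] at b1
  have hb := ok.base
  have v0 := hb.v_pos
  have h := op_gst p v0 hb.lab κ0.le (by linarith) (by linarith) yJ
  have hρ := rf_gst h σ0 hg
  have ε0 : 0 ≤ p.epsG σ := (Real.sqrt_nonneg _).trans ve
  have μ0 : 0 ≤ p.muG σ := (ε0.trans (em 0).1).trans (em 0).2
  have cl := col_nu h.lab fun k (_ : k < p.NP P) => (hz.pos.trans_le (hz.mono k.zero_le)).ne'
  have es : p.sO P (p.omG σ) = fun k => Pr.sig p.v (p.omG σ) (nu p P k) := funext (h.sO_eq hg σ0)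
  have us : Up (p.sO P (p.omG σ)) (p.NP P) := es ▸ cl.up (up_np h.np σ0 _)
  have s0 : p.sO P (p.omG σ) 0 = 0 := (Mem37.sP_lo p.J.zero_le).trans om.sig0
  obtain ⟨Lr, H⟩ := ex_rk1 (p.zP P) us
  have jN : p.jf < p.NP P := hj.trans hN
  have T : TR (p.zP P) (p.sO P (p.omG σ)) (fun k => D.sig (k + 1)) (p.NP P) p.jf Lr D.S :=
    hD ▸ tr_cd G ha hρ jN hz (fun k h1 _ => congrArg (p.zP P) (max_eq_left h1))
      (by simp [Pm.gst, Pm.famO, Pm.HO]) us s0 H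
  have nD : ∀ f, n1 D.S (up1 p.jf f) =
      ∑ k ∈ Ico (p.jf + 1) (p.NP P), (p.gst P σ).dz m a k * |f k| := fun f =>
    hD ▸ n1_cd G.toLeg ht f
  have dd : ∀ k, (p.gst P σ).d k = p.bG σ := fun k => by simp [Pm.gst, Pm.famO]
  obtain ⟨u, hu⟩ : ∃ u, u = p.bG σ / (m + 1) := ⟨_, rfl⟩
  have u0 : 0 ≤ u := hu ▸ div_nonneg (by linarith) (by positivity)
  have tu : ∀ k, 0 ≤ tp (p.gst P σ) m k ∧ p.bG σ = tp (p.gst P σ) m k + u := fun k => by
    have := tp_mem (m := m) G.toLeg k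
    rw [dd] at this
    exact ⟨this.1, by linarith [this.2.2]⟩
  have hh : ∀ k, p.jf + 1 ≤ k → k < p.NP P →
      |D.sig (k + 1) - p.sO P (p.omG σ) k| ≤ |(p.gst P σ).G k| + u := fun k h1 h2 => by
    have e : D.sig (k + 1) - p.sO P (p.omG σ) k = (p.gst P σ).G k - u * (p.gst P σ).q k := by
      rw [hD, cd_sig m _ _ E G.toLeg h1 h2, Md.G, dd, (tu k).2]
      change _ - (p.gst P σ).s k = _
      ring
    rw [e]
    refine (abs_sub _ _).trans (add_le_add le_rfl ?_)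
    rw [abs_of_nonneg (mul_nonneg u0 (q_nonneg k))]
    exact mul_le_of_le_one_right u0 (q_le_one k)
  have fo : ∀ k, σ * |sv p σ k| ≤ p.omG σ k := fun k => by
    rw [sv, abs_neg, dom]
    split_ifs
    exacts [f3 k, by simpa using om.nn k]
  have FK : σ * n1 D.S (up1 p.jf (sv p σ)) ≤ K * p.muG σ := by
    refine le_trans (mul_le_mul_of_nonneg_left ?_ σ0.le)
      ((mul_le_mul_of_nonneg_left (n1_sv h σ0 hz H) σ0.le).trans f2)
    rw [T.n1_up]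
    exact R1J.n1_mono T.monoR fun j => by unfold ct; split_ifs <;> simp
  have z0 : 0 ≤ p.z p.jf := hb.lab.pos.le.trans (hb.lab.mono p.jf.zero_le)
  have γΓ : gam (p.zP P) (p.sO P (p.omG σ)) (fun k => D.sig (k + 1)) p.jf D.S ≤ Gm p P σ m a := by
    rw [gam, Gm, nD, Mem37.zP_lo hj, Mem37.sP_lo hj.le, ← hu]
    refine add_le_add ((sum_le_sum fun k hk => mul_le_mul_of_nonneg_left
      (hh k (mem_Ico.1 hk).1 (mem_Ico.1 hk).2) (G.dz_nonneg k)).trans ?_)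
      (mul_le_mul_of_nonneg_left (om.sig_le _) z0)
    simp only [mul_add, sum_add_distrib, ← sum_mul]
    exact add_le_add le_rfl (mul_le_of_le_one_left u0 ((G.sum_dz_le _).trans (by linarith)))
  have uΓ : u ≤ Gm p P σ m a := by
    have : 0 ≤ ∑ k ∈ Ico (p.jf + 1) (p.NP P), (p.gst P σ).dz m a k * |(p.gst P σ).G k| :=
      sum_nonneg fun k _ => mul_nonneg (G.dz_nonneg k) (abs_nonneg _)
    have : 0 ≤ p.z p.jf * (p.jf * p.v) := by positivity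
    rw [Gm, ← hu]
    linarith
  have PΦ : σ * n1 D.S (up1 p.jf fun j => sv p σ j * (D.sig (j + 1) - p.sO P (p.omG σ) j)) ≤
      Fg p P σ m a + K * (u * p.muG σ) := by
    have := mul_le_mul_of_nonneg_left FK u0
    rw [nD, mul_sum, mul_sum] at this
    rw [nD, Fg, mul_sum, mul_left_comm K]
    refine le_trans ?_ (add_le_add le_rfl this)
    rw [← sum_add_distrib]
    refine sum_le_sum fun k hk => ?_
    have x1 := mul_le_mul_of_nonneg_left (hh k (mem_Ico.1 hk).1 (mem_Ico.1 hk).2)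
      (mul_nonneg σ0.le (abs_nonneg (sv p σ k)))
    have x2 := mul_le_mul_of_nonneg_right (fo k) (abs_nonneg ((p.gst P σ).G k))
    have := mul_le_mul_of_nonneg_left (show σ * |sv p σ k| * |D.sig (k + 1) - p.sO P (p.omG σ) k| ≤
      p.omG σ k * |(p.gst P σ).G k| + σ * |sv p σ k| * u by linarith) (G.dz_nonneg k)
    rw [abs_mul]
    linarith
  have lK : σ * ∑ j ∈ range p.jf, Pr.dm (p.zP P) j * |sv p σ (j + 1)| ≤
      K * p.msG σ (p.jf * p.v) := by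
    refine (congrArg _ (sum_congr rfl fun j hj' => ?_)).trans_le (f4 _ hj)
    have := mem_range.1 hj'
    rw [Pr.dm, Pr.dm, Mem37.zP_lo (by omega), Mem37.zP_lo (by omega), sv, dom, if_pos (by omega),
      abs_neg]
  have σ1 : 0 < D.sig (p.jf + 1 + 1) := by
    have : 0 < tp (p.gst P σ) m (p.jf + 1) := by
      have := G.m0
      rw [tp, dd]
      positivity
    rw [hD, cd_sig m _ _ E G.toLeg le_rfl (hN.trans_le' hj)]
    exact add_pos_of_pos_of_nonneg (mul_pos this (q_pos h σ0 hg p.jf.succ_pos hj))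
      (G.H0.ge.trans (G.Hm (Nat.zero_le _)))
  obtain ⟨⟨l0, l1⟩, e1, e2⟩ := lam_W T (hD ▸ rfl) (hD ▸ (cut_gst G.toLeg ht jN).tw) jN σ1
  obtain ⟨x1, x2⟩ := der_col h.np cl (hz.top _ le_rfl) σ0 (es ▸ H)
  rw [show (fun j => -omG' p σ (nu p P j)) = sv p σ from
    funext fun k => by rw [sv, h.dom_eq σ0 P]] at x2
  have ch := fun t (ht : 0 < t) => Ode3.chi_eq (ap_gst h ht).1
  have cp := fun t (ht : 0 < t) => (ch t ht).symm ▸ Ode3.chi_pos (ap_gst h ht).1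
  have y := ((h.c1_b.der σ0).mul (x2.pow 2)).unique
    (((h.ce.der σ0).const_sub 1).congr_of_eventuallyEq (by
      filter_upwards [Ioi_mem_nhds σ0] with t ht using Pr.bb_mul (cp t ht) _))
  have y0 := Pr.bb_mul (cp σ σ0) (p.epsG σ)
  obtain ⟨t0, tb⟩ := tu 0
  rw [c2lo, show D.τ 1 = tp (p.gst P σ) m 0 from hD ▸ cd_tau m a _ _ E (Nat.zero_le _), e2]
  refine lo_num (χ := Pr.chi (p.lG σ)) σ0 B1 k1 t0 u0 (tb ▸ b1) uΓ (tb ▸ y0) ?_ (cp σ σ0).le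
    ((ch σ σ0).trans_le (Ode3.chi_le (ap_gst h σ0).1)) l0 l1 f1 μ0 (by linarith) ε0 (em _).1 f6
    (abs_SU1 (Ker15.r1_of T.cav) T.mono _ _) FK ?_ T.gam_nn γΓ
    (SU_one T (by simp [sv, dom, omG', σ0.le])) lK PΦ
    (sum_nonneg fun k _ => mul_nonneg (G.dz_nonneg k) (mul_nonneg (om.nn k) (abs_nonneg _)))
  · rw [← tb]
    simp only [bo_gst, Pi.pow_apply, Nat.cast_ofNat, Nat.add_one_sub_one, pow_one] at y
    exact y
  · rw [e1, show Pr.chi (p.lG σ) = _ from x1, sub_sub_sub_cancel_left]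
    exact SU_nil T

end Crest.Agent.T156.Alt.P73

end
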