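import Crest.Agent.T156.R1Mix_65
import Crest.Agent.T156.R1J_60
import Crest.Agent.T156.PrH_28

/-!
# Row 156 (helper73): the reference end of the coefficient `c2`

`W_t [1_t, s']` on the reference list against the derivative of `G (s_t)` along the path.
-/

set_option autoImplicit false
set_option linter.unusedSectionVars false

noncomputable section

namespace Crest.Agent.T156.Cas.R1P

open Finset
open Crest.Agent.T157.E Crest.Agent.T157.Casc Crest.Agent.T157.SL Crest.Agent.T157.Casc.C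
open Crest.Agent.R339.B Crest.Agent.R339.Var Crest.Agent.T157
open Crest.ProbabilityR.SpinGlassDynamics (spin)
open Crest.Agent.T156.Pp Crest.Agent.T156.Pp.Area50
open Crest.Agent.T156.Cas.R1J Crest.Agent.T156.Hess65 Crest.Agent.T156.Pr

theorem W_eq (T : List (Lv Bool)) (k : ℕ) (V : List (ℕ → ℝ)) : W T k V = Wd T V k := rfl

theorem sk_ok {f : ℕ → ℝ} (h : f 0 = 0) (K : ℕ) : sk f ∈ Mul55.Ok Bool K :=
  ⟨by funext a b; simp [sk, h], f K / 2, fun y => by rw [sk, ← sq, One15.spin_sq, mul_one]⟩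

variable (T : List (Lv Bool)) (k : ℕ)

theorem smW : Mul55.SM (Mul55.Ok Bool T.length) fun U =>
    twoF k (fun a b => spin a * spin b) (WdO T U (TEf (fun _ => 1) T 0)) :=
  Mul55.sm_WdO One15.w1 T 0 (FL.ev _ _)

theorem W_lin (a b : ℝ) (f g : ℕ → ℝ) (U : List (ℕ → ℝ)) :
    W T k ((fun j => a * f j + b * g j) :: U) = a * W T k (f :: U) + b * W T k (g :: U) := by
  have e : sk (fun j => a * f j + b * g j) = a • sk f + b • sk g := by
    funext j x y
    simp only [sk, Pi.add_apply, Pi.smul_apply, smul_eq_mul]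
    ring
  simp only [W, List.map_cons, e]
  exact (smW T k).lin a b _ _ _

theorem W_swap {f g : ℕ → ℝ} (hf : f 0 = 0) (hg : g 0 = 0) : W T k [f, g] = W T k [g, f] :=
  (smW T k).perm (List.Perm.swap _ _ _) fun S hS => by
    simp only [List.map_cons, List.map_nil, List.mem_cons, List.not_mem_nil, or_false] at hS
    rcases hS with rfl | rfl
    exacts [sk_ok hf _, sk_ok hg _]

theorem ind_off (f : ℕ → ℝ) : f = fun j => f k * R1J.ind k j + 1 * off k f j := by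
  funext j
  unfold R1J.ind off
  split_ifs with h <;> simp [h]

/-- the second letter split at the node -/
theorem W_split {u f : ℕ → ℝ} (hu : u 0 = 0) (hf : f 0 = 0) :
    W T k [u, f] = f k * W T k [R1J.ind k, u] + W T k [u, off k f] := by
  rw [W_swap T k hu hf, W_swap T k hu (g := off k f) (by simp [off, hf])]
  conv_lhs => rw [ind_off k f]
  rw [W_lin, one_mul]

variable {T k} {L L' : List (Lv Bool)} {z σ : ℕ → ℝ} {N t : ℕ}

theorem len_rk (H : List.Forall₂ (Rk1 spin) L (lsg z σ N)) : L.length = N := by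
  rw [H.length_eq, lsg, List.length_ofFn]

theorem ex_rk (H : List.Forall₂ (Rk1 spin) L (lsg z σ N)) (hz : z N = 1) {j : ℕ} (hj : j ≤ N) :
    ex L j = z j := by
  rcases hj.eq_or_lt with rfl | hj
  · rw [hz, ← ex_length L, len_rk H]
  · have h1 : j < L.length := len_rk H ▸ hj
    have := (List.forall₂_iff_get.1 H).2 j h1 (H.length_eq ▸ h1)
    rw [Casc.ex, List.getElem?_eq_getElem h1]
    simpa [lsg] using this.1

theorem dm_rk (H : List.Forall₂ (Rk1 spin) L (lsg z σ N)) (hz : z N = 1) {j : ℕ} (hj : j < N) :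
    Casc.dm L 0 (j + 1) = Pr.dm z j := by
  rw [Casc.dm, exP, ex_rk H hz hj, ex_rk H hz hj.le, Pr.dm]

theorem n1_rk (H : List.Forall₂ (Rk1 spin) L (lsg z σ N)) (hz : z N = 1) {f : ℕ → ℝ}
    (hf : f 0 = 0) : n1 L f = Dw z N 1 f := by
  rw [n1, len_rk H, sum_range_succ', hf, abs_zero, mul_zero, add_zero, Dw]
  exact sum_congr rfl fun j hj => by rw [dm_rk H hz (mem_range.1 hj), Pi.one_apply, one_mul]

theorem nd_rk (H : List.Forall₂ (Rk1 spin) L (lsg z σ N)) (hz : Lab z N) (hσ : Up σ N)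
    (h0 : 0 < k) (hk : k < N) : R1J.Nd L k 1 := by
  have a := adm_lsg N z σ (hz.top N le_rfl) hz.pos (fun j _ => hz.mono (Nat.le_succ j)) hσ
  exact ⟨Ker15.r1_of H, mono_of H a (a.head_pos one_pos).le, h0, len_rk H ▸ hk, one_pos,
    min_le_left _ _⟩

/-- doubling of the node `t` -/
def db (t j : ℕ) : ℕ := if j ≤ t then j else j - 1

theorem db_le {t j : ℕ} (h : j ≤ t) : db t j = j := if_pos h

theorem db_succ (t : ℕ) : db t (t + 1) = t := by simp [db]

theorem db_step (t k : ℕ) : (k = t ∧ db t (k + 1) = db t k) ∨ db t (k + 1) = db t k + 1 := by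
  unfold db
  split_ifs <;> omega

theorem db_mono (t : ℕ) : Monotone (db t) := monotone_nat_of_le_succ fun k => by
  rcases db_step t k with h | h <;> omega

theorem db_top (ht : t ≤ N) : db t (N + 1) = N := by
  unfold db
  split_ifs <;> omega

theorem col_db (hz : Lab z N) (ht : t ≤ N) : Col (db t) (fun j => z (db t j)) z (N + 1) N :=
  ⟨db_le t.zero_le, db_top ht, fun k _ => (db_step t k).imp
    (fun h => ⟨h.2, (hz.pos.trans_le (hz.mono (Nat.zero_le _))).ne'⟩) fun h => ⟨h, rfl⟩⟩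

theorem lab_db (hz : Lab z N) (ht : t ≤ N) : Lab (fun j => z (db t j)) (N + 1) :=
  ⟨hz.mono.comp (db_mono t), by simpa [db] using hz.pos, fun k hk =>
    hz.top _ (db_top ht ▸ db_mono t hk)⟩

theorem Dw_col {ν : ℕ → ℕ} (h0 : ν 0 = 0) (h : ∀ k, ν (k + 1) = ν k ∨ ν (k + 1) = ν k + 1)
    (z f : ℕ → ℝ) (M : ℕ) : Dw (fun j => z (ν j)) M 1 (fun j => f (ν j)) = Dw z (ν M) 1 f := by
  induction M with
  | zero => simp [Dw, h0]
  | succ M ih =>
    unfold Dw at ih ⊢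
    rw [sum_range_succ, ih]
    rcases h M with e | e
    · simp [Pr.dm, e]
    · simp [Pr.dm, e, sum_range_succ]

theorem ind_db (t : ℕ) : (fun j => R1J.ind t (db t j)) =
    fun j => 1 * R1J.ind t j + 1 * R1J.ind (t + 1) j := by
  funext j
  unfold R1J.ind db
  split_ifs <;> first | omega | simp

theorem sum_ind_le (S : Finset ℕ) {d : ℕ → ℝ} (g : ℕ → ℝ) (hd : 0 ≤ d t) :
    ∑ j ∈ S, d j * |R1J.ind t j * g j| ≤ d t * |g t| := by
  rw [sum_congr rfl (g := fun j => if j = t then d t * |g t| else 0) fun j _ => by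
    unfold R1J.ind
    split_ifs with h <;> simp [h], sum_ite_eq']
  split_ifs
  · exact le_rfl
  · positivity

variable {I : Set ℝ} {s s' : ℝ → ℕ → ℝ} {τ : ℝ}

theorem up_np (h : NP I s s') (hτ : τ ∈ I) (N : ℕ) : Up (s τ) N :=
  fun j _ => (h.sm τ hτ (Nat.lt_succ_self j)).le

theorem rk_sML {σ σ' : ℝ → ℕ → ℝ} (h : Up (σ τ) N) :
    List.Forall₂ (Rk1 spin) (mat (sML z σ σ' N) τ) (lsg z (σ τ) N) := by
  rw [mat, sML, List.map_ofFn, lsg, List.forall₂_iff_get]
  refine ⟨by simp, fun i h1 h2 => ?_⟩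
  have p : 0 ≤ σ τ (i + 1) - σ τ i := sub_nonneg.2 (h i (by simpa using h1))
  simp only [List.get_eq_getElem, List.getElem_ofFn, Function.comp]
  refine ⟨rfl, p, fun a b => ?_⟩
  show ∑ _i : Unit, √(σ τ (i + 1) - σ τ i) * (√1 * spin a) *
    (√(σ τ (i + 1) - σ τ i) * (√1 * spin b)) = (σ τ (i + 1) - σ τ i) * (spin a * spin b)
  simp only [Finset.univ_unique, Finset.sum_singleton, Real.sqrt_one, one_mul]
  linear_combination (spin a * spin b) * Real.mul_self_sqrt p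

/-- at a weightless node the one-letter word is `G` -/
theorem W_G (h1 : S1) (hz : Lab z N) (hσ : Up σ N) (h0 : σ 0 = 0) (ht : t < N)
    (H : List.Forall₂ (Rk1 spin) L' (lsg (fun j => z (db t j)) (fun j => σ (db t j)) (N + 1))) :
    W L' (t + 1) [R1J.ind (t + 1)] = GG (lst z σ N) (σ t) := by
  obtain ⟨C, -, hC⟩ := h1
  have c := col_db hz ht.le
  have l := lab_db hz ht.le
  have := hC L' (t + 1) 1 (nd_rk H l (c.up hσ) t.succ_pos (by omega)) (R1J.ind (t + 1))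
    (by simp [R1J.ind])
  have e : n1 L' (R1J.ind (t + 1)) = 0 := sum_eq_zero fun j _ => by
    unfold R1J.ind
    split_ifs with a
    · rw [a, dm_rk H (l.top _ le_rfl) (by omega), Pr.dm, db_succ, db_le le_rfl, sub_self, zero_mul]
    · simp
  rw [e, mul_zero, mul_zero, abs_nonpos_iff, sub_eq_zero, show R1J.ind (t + 1) (t + 1) = 1 from
    if_pos rfl, one_mul] at this
  have g : G L' (t + 1) = _ := Gn_eq H (j := t + 1) (by rw [len_rk H]; omega)
  rw [this, g, tm_lsg _ _ _ _ (by omega), db_succ, db_le t.zero_le, h0, sub_zero]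
  exact Et_eqv Ode3.bfn_W1 (c.eqv hσ) (h0 ▸ hσ.le t.zero_le ht.le)

/-- **the derivative of `G (s_t)` is a site word of the doubled list** -/
theorem der_GG (h1 : S1) (h : NP I s s') (hz : Lab z N) (ht : t < N) (hτ : τ ∈ I)
    (H : List.Forall₂ (Rk1 spin) L' (lsg (fun j => z (db t j)) (fun j => s τ (db t j)) (N + 1))) :
    deriv (fun u => GG (lst z (s u) N) (s u t)) τ =
      W L' (t + 1) [R1J.ind (t + 1), fun j => s' τ (db t j)] := by
  have c := col_db hz ht.le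
  have R := fun u (hu : u ∈ I) => rk_sML (z := fun j => z (db t j))
    (σ := fun u j => s u (db t j)) (σ' := fun u j => s' u (db t j)) (c.up (up_np h hu N))
  have d := der_Wd (P := sML (fun j => z (db t j)) (fun u j => s u (db t j))
    (fun u j => s' u (db t j)) (N + 1)) h.op (fun p hp => by
      obtain ⟨k, rfl⟩ := (List.mem_ofFn' _ _).1 hp
      rcases db_step t k with ⟨-, e⟩ | e
      · exact Or.inr fun u => by simp [e]
      · exact Or.inl ⟨fun u hu => ⟨(h.der u hu _).sub (h.der u hu _),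
          sub_pos.2 (h.sm u hu (by omega))⟩, (h.cont _).sub (h.cont _)⟩) hτ
    (om := fun j => s' τ (db t j)) (fun j hj x y => by
      rw [dcov_sML _ _ _ _ _ _ (by simpa [sML] using hj), db_le t.zero_le, h.d0 hτ, sub_zero])
    [R1J.ind (t + 1)] (t + 1)
  rw [W_eq, ← Wd_rk1 (R τ hτ) H]
  refine (d.congr_of_eventuallyEq ?_).deriv
  filter_upwards [h.op.mem_nhds hτ] with u hu
  exact (W_G h1 hz (up_np h hu N) (h.zero u hu) ht (R u hu)).symm

/-- the word `W_t [1_t, f]` against the word of the weightless copy of `t` -/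
theorem W_db (h2 : S2) (h3 : S3) : ∃ C : ℝ, 1 ≤ C ∧ ∀ (z σ f : ℕ → ℝ) (N t : ℕ)
    (L L' : List (Lv Bool)), Lab z N → Up σ N → σ 0 = 0 → f 0 = 0 → t + 1 < N →
    List.Forall₂ (Rk1 spin) L (lsg z σ N) → List.Forall₂ (Rk1 spin) L'
      (lsg (fun j => z (db (t + 1) j)) (fun j => σ (db (t + 1) j)) (N + 1)) →
    |W L (t + 1) [R1J.ind (t + 1), f] -
      W L' (t + 2) [R1J.ind (t + 2), fun j => f (db (t + 1) j)]| ≤
      C * Pr.dm z t * (|f (t + 1)| + Dw z N 1 f) := by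
  obtain ⟨C2, c2, h2⟩ := h2
  obtain ⟨C3, c3, h3⟩ := h3
  refine ⟨2 * C2 + C3, by linarith, fun z σ f N t L L' hz hσ h0 hf ht H H' => ?_⟩
  have c := col_db hz ht.le
  have l := lab_db hz ht.le
  have nd := nd_rk H' l (c.up hσ) (k := t + 2) (by omega) (by omega)
  have i0 : R1J.ind (t + 1) 0 = 0 := by simp [R1J.ind]
  have g0 : f (db (t + 1) 0) = 0 := by rwa [db_le (Nat.zero_le _)]
  have e := c.wd [R1J.ind (t + 1), f] (by simp [i0, hf]) (k := t + 2) (by omega) h0 hσ H H'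
  rw [db_succ, List.map_cons, List.map_cons, List.map_nil, ind_db, ← W_eq, ← W_eq, W_lin] at e
  set g := fun j => f (db (t + 1) j) with hg
  replace g0 : g 0 = 0 := g0
  have dt : Casc.dm L' 0 (t + 1) = Pr.dm z t := by
    rw [dm_rk H' (l.top _ le_rfl) (by omega), Pr.dm, db_le le_rfl, db_le (Nat.le_succ _), Pr.dm]
  have d0 := hz.dm_nn t
  have n0 : n1 L' (R1J.ind (t + 1)) ≤ Pr.dm z t := by
    have := sum_ind_le (t := t + 1) (range (L'.length + 1)) (d := Casc.dm L' 0) 1 (dt ▸ d0)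
    simpa [n1, dt] using this
  have n2 : n1 L' (off (t + 2) g) ≤ Dw z N 1 f := by
    rw [← db_top (t := t + 1) ht.le, ← Dw_col (db_le (Nat.zero_le _))
      (fun k => (db_step _ k).imp And.right id), ← n1_rk H' (l.top _ le_rfl) g0]
    refine sum_le_sum fun j _ => mul_le_mul_of_nonneg_left ?_ (dm_nonneg nd.mono j)
    unfold off
    split_ifs
    · simp
    · exact le_rfl
  have n3 : 0 ≤ n1 L' (off (t + 2) g) :=
    sum_nonneg fun j _ => mul_nonneg (dm_nonneg nd.mono j) (abs_nonneg _)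
  have o : off (t + 2) g (t + 1) = f (t + 1) := by simp [off, hg, db]
  have a := h2 L' _ 1 nd _ (off (t + 2) g) i0 (by simp [off, g0]) (by simp [R1J.ind]) (by simp [off])
  have a1 := sum_ind_le (t := t + 1) (Ioc (t + 2) L'.length) (d := Casc.dm L' 0) (off (t + 2) g)
    (dt ▸ d0)
  have a2 := sum_ind_le (t := t + 1) (range (t + 2)) (d := Casc.dm L' 0) (off (t + 2) g) (dt ▸ d0)
  have b := h3 L' _ 1 nd _ i0
  rw [dt, o] at a1 a2
  rw [show R1J.ind (t + 1) (t + 2) = 0 by simp [R1J.ind], abs_zero, mul_zero, zero_add] at b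
  rw [← e, one_mul, one_mul, add_sub_cancel_right, W_split L' (t + 2) i0 g0,
    show g (t + 2) = f (t + 1) by simp [hg, db]]
  refine (abs_add_le _ _).trans ?_
  rw [abs_mul]
  have b1 := mul_le_mul_of_nonneg_left (b.trans (mul_le_mul_of_nonneg_left n0 (by linarith)))
    (abs_nonneg (f (t + 1)))
  have a3 := mul_le_mul n0 n2 n3 d0
  have a4 : 1 * (n1 L' (R1J.ind (t + 1)) * n1 L' (off (t + 2) g)) + 1 * hi L' (t + 2)
      (fun j => R1J.ind (t + 1) j * off (t + 2) g j) + R1J.lo L' (t + 2)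
      (fun j => R1J.ind (t + 1) j * off (t + 2) g j) ≤
      2 * (Pr.dm z t * (|f (t + 1)| + Dw z N 1 f)) := by
    unfold hi R1J.lo
    nlinarith [mul_nonneg d0 (n3.trans n2)]
  have a5 := a.trans (mul_le_mul_of_nonneg_left a4 (by linarith))
  nlinarith [mul_nonneg (mul_nonneg (zero_le_one.trans c3) d0) (n3.trans n2)]

/-- **the reference end**: `a_t = W_t [1_t, s']` is the derivative of `G (s_t)` up to the mesh -/
theorem a_ref (h1 : S1) (h2 : S2) (h3 : S3) : ∃ C : ℝ, 1 ≤ C ∧ ∀ (I : Set ℝ) (s s' : ℝ → ℕ → ℝ)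
    (z : ℕ → ℝ) (N : ℕ), NP I s s' → Lab z N → ∀ τ ∈ I, ∀ t, 0 < t → t < N →
    ∀ L, List.Forall₂ (Rk1 spin) L (lst z (s τ) N) →
    |W L t [R1J.ind t, s' τ] - deriv (fun u => GG (lst z (s u) N) (s u t)) τ| ≤
      C * (z t - z (t - 1)) * (|s' τ t| + Dw z N 1 (s' τ)) := by
  obtain ⟨C, c1, hC⟩ := W_db h2 h3
  refine ⟨C, c1, fun I s s' z N h hz τ hτ t t0 ht L H => ?_⟩
  obtain ⟨t, rfl⟩ := Nat.exists_eq_add_of_lt t0
  simp only [zero_add] at *
  have R := rk_sML (z := fun j => z (db (t + 1) j)) (σ := fun u j => s u (db (t + 1) j))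
    (σ' := fun u j => s' u (db (t + 1) j)) ((col_db hz ht.le).up (up_np h hτ N))
  rw [der_GG h1 h hz ht hτ R]
  exact hC z _ _ N t L _ hz (up_np h hτ N) (h.zero τ hτ) (h.d0 hτ) ht H R

/-- removing the low part of the direction -/
theorem a_low (h3 : S3) : ∃ C : ℝ, 1 ≤ C ∧ ∀ (z σ f : ℕ → ℝ) (N t j0 : ℕ) (L : List (Lv Bool)),
    Lab z N → Up σ N → f 0 = 0 → j0 < t → t < N → List.Forall₂ (Rk1 spin) L (lsg z σ N) →
    |W L t [R1J.ind t, f] - W L t [R1J.ind t, fun j => if j ≤ j0 then 0 else f j]| ≤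
      C * ∑ j ∈ range j0, Pr.dm z j * |f (j + 1)| := by
  obtain ⟨C, c1, h3⟩ := h3
  refine ⟨C, c1, fun z σ f N t j0 L hz hσ hf h0 ht H => ?_⟩
  have i0 : R1J.ind t 0 = 0 := if_neg (by omega)
  have e : f = fun j => 1 * (if j ≤ j0 then f j else 0) + 1 * if j ≤ j0 then 0 else f j := by
    funext j
    split_ifs <;> simp
  have a := h3 L t 1 (nd_rk H hz hσ (by omega) ht) (fun j => if j ≤ j0 then f j else 0) (by simpa)
  rw [if_neg (by omega), abs_zero, mul_zero, zero_add, n1_rk H (hz.top _ le_rfl) (by simpa),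
    W_swap L t i0 (by simpa)] at a
  rw [W_swap L t i0 hf, W_swap L t i0 (by simp)]
  conv_lhs => enter [1, 1]; rw [e]
  rw [W_lin, one_mul, one_mul, add_sub_cancel_right]
  refine a.trans (le_of_eq ?_)
  rw [Dw, ← sum_subset (range_subset_range.2 (show j0 ≤ N by omega)) fun j _ hj => by
    rw [if_neg (by simpa using hj)]; simp]
  exact congrArg _ (sum_congr rfl fun j hj => by rw [if_pos (by simpa using hj)]; simp)

theorem c2_alg {A B C b b' e e' G G' w w' S m m' D g ε ε' dz f R : ℝ} (a1 : 1 ≤ A) (b1 : 1 ≤ B)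
    (c1 : 1 ≤ C) (R0 : 0 ≤ R) (e0 : 0 ≤ ε) (D0 : 0 ≤ D) (z0 : 0 ≤ dz) (m0 : 0 ≤ m) (b0 : 0 ≤ b)
    (x2 : b ≤ C) (x3 : |b'| ≤ C * (D + |ε'|)) (c : e' = -b' * G - b * G') (ed : e = 1 - b * G)
    (d : |e' - ε' + b * (g * f + 2 * S)| ≤ C * (D + |ε'|) * (R + |e - ε|))
    (a : |w - G'| ≤ A * dz * (|f| + D)) (hb : |w - w'| ≤ B * m') (l1 : m' ≤ m + dz * |f|)
    (l2 : |S| ≤ m) : |b' + b ^ 2 * w'| ≤ C * C * (A + B + 2) *
      (|ε'| + |g| * |f| + m + (D + |ε'|) * (R + |e| + ε) + dz * (|f| + D)) := by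
  have ee1 : |e - ε| ≤ |e| + ε := (abs_sub _ _).trans (by rw [abs_of_nonneg e0])
  have id : b' + b ^ 2 * w' = b' * e - b * (e' - ε' + b * (g * f + 2 * S)) - b * ε' +
      b * b * (g * f) + 2 * (b * b * S) + b * b * (w - G') - b * b * (w - w') := by
    rw [c, ed]; ring
  have bb2 : b * b ≤ C * C := mul_le_mul x2 x2 b0 (by linarith)
  have cc : C ≤ C * C := by nlinarith
  have P0 : 0 ≤ D + |ε'| := by positivity
  have q1 : |b' * e| ≤ C * C * ((D + |ε'|) * (R + |e| + ε)) := by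
    rw [abs_mul, ← mul_assoc]
    exact mul_le_mul (x3.trans (mul_le_mul_of_nonneg_right cc P0)) (by linarith) (abs_nonneg _)
      (by positivity)
  have q2 : |b * (e' - ε' + b * (g * f + 2 * S))| ≤ C * C * ((D + |ε'|) * (R + |e| + ε)) := by
    rw [abs_mul, abs_of_nonneg b0, mul_assoc, ← mul_assoc C (D + |ε'|)]
    exact mul_le_mul x2 (d.trans (mul_le_mul_of_nonneg_left (by linarith) (by positivity)))
      (abs_nonneg _) (by linarith)
  have q3 : |b * ε'| ≤ C * C * |ε'| := by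
    rw [abs_mul, abs_of_nonneg b0]
    exact mul_le_mul_of_nonneg_right (x2.trans cc) (abs_nonneg _)
  have q : ∀ {x y : ℝ}, |x| ≤ y → |b * b * x| ≤ C * C * y := fun h => by
    rw [abs_mul, abs_of_nonneg (mul_self_nonneg b)]
    exact mul_le_mul bb2 h (abs_nonneg _) (by positivity)
  have q4 := q (abs_mul g f).le
  have q5 := q l2
  have q6 := q a
  have q7 := q (hb.trans (mul_le_mul_of_nonneg_left l1 (by linarith)))
  have k : |b' + b ^ 2 * w'| ≤ C * C * (|ε'| + |g| * |f| + (2 + B) * m +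
      2 * ((D + |ε'|) * (R + |e| + ε)) + A * dz * (|f| + D) + B * (dz * |f|)) := by
    rw [abs_le] at q1 q2 q3 q4 q5 q6 q7
    rw [id, abs_le]
    constructor <;> linarith [q1.1, q1.2, q2.1, q2.2, q3.1, q3.2, q4.1, q4.2, q5.1, q5.2, q6.1,
      q6.2, q7.1, q7.2]
  refine k.trans ?_
  rw [mul_assoc (C * C)]
  refine mul_le_mul_of_nonneg_left ?_ (by positivity)
  have p1 := abs_nonneg ε'
  have p2 : 0 ≤ |g| * |f| := by positivity
  have p3 : 0 ≤ (D + |ε'|) * (R + |e| + ε) := by positivity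
  have p4 : 0 ≤ dz * |f| := by positivity
  have p5 : 0 ≤ dz * D := by positivity
  linarith [mul_nonneg (zero_le_one.trans a1) (add_nonneg (add_nonneg p1 p2) (add_nonneg m0 p3)),
    mul_nonneg (zero_le_one.trans b1) (add_nonneg (add_nonneg p1 p2) (add_nonneg p5 p3))]

/-- **`b' + b² a_t` at the reference** -/
theorem c2_ref (h1 : S1) (h2 : S2) (h3 : S3) (T : ℝ) : ∃ C : ℝ, 1 ≤ C ∧ ∀ (I : Set ℝ)
    (s s' : ℝ → ℕ → ℝ) (z : ℕ → ℝ) (N : ℕ) (T1 : ℝ) (eps : ℝ → ℝ), NP I s s' → Lab z N →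
    (∀ τ ∈ I, Ker.Tp T1 (lst z (s τ) N)) → T1 ≤ T → D28.C1 I eps → ∀ τ ∈ I, 0 ≤ eps τ →
    eps τ ≤ 1 / 4 → ∀ t j0, j0 < t → t < N → ∀ L, List.Forall₂ (Rk1 spin) L (lst z (s τ) N) →
    ∀ C0 η : ℝ, 0 ≤ C0 → 0 ≤ η → s τ t ≤ T1 →
    (∀ r, 0 ≤ r → r < s τ t → Pf.lvr 1 (lst z (s τ) N) r ≤ C0 * r + η) →
    |deriv (fun u => Pr.bb (lst z (s u) N) (eps u)) τ + Pr.bb (lst z (s τ) N) (eps τ) ^ 2 *
      W L t [R1J.ind t, fun j => if j ≤ j0 then 0 else s' τ j]| ≤
    C * (|deriv eps τ| + |Gl z (lst z (s τ) N) t (s τ t)| * |s' τ t| +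
      ∑ j ∈ range (t - 1), Pr.dm z j * |s' τ (j + 1)| +
      (Dw z N 1 (s' τ) + |deriv eps τ|) * ((1 + C0) * s τ t ^ 2 + η * s τ t +
        |ee (lst z (s τ) N) (eps τ) (s τ t)| + eps τ) +
      (z t - z (t - 1)) * (|s' τ t| + Dw z N 1 (s' τ))) := by
  obtain ⟨A, a1, hA⟩ := a_ref h1 h2 h3
  obtain ⟨B, b1, hB⟩ := a_low h3
  obtain ⟨C, c1, hC⟩ := ee_der T
  refine ⟨C * C * (A + B + 2), one_le_mul_of_one_le_of_one_le (by nlinarith) (by linarith),
    fun I s s' z N T1 eps h hz hT hT1 he τ hτ e0 e1 t j0 h0 ht L H C0 η c0 η0 t1 hl => ?_⟩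
  have a := hA I s s' z N h hz τ hτ t (by omega) ht L H
  have hb := hB z _ _ N t j0 L hz (up_np h hτ N) (h.d0 hτ) h0 ht H
  obtain ⟨⟨x1, x2, x3⟩, hk⟩ := hC I s s' z N T1 eps h hz hT hT1 he τ hτ e0 e1
  obtain ⟨c, d⟩ := hk t ht.le
  replace d := d C0 η c0 η0 t1 hl
  have lo0 : ∀ M, 0 ≤ ∑ j ∈ range M, Pr.dm z j * |s' τ (j + 1)| := fun M =>
    sum_nonneg fun j _ => mul_nonneg (hz.dm_nn j) (abs_nonneg _)
  have l1 : ∑ j ∈ range j0, Pr.dm z j * |s' τ (j + 1)| ≤
      ∑ j ∈ range (t - 1), Pr.dm z j * |s' τ (j + 1)| + (z t - z (t - 1)) * |s' τ t| := by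
    obtain ⟨t, rfl⟩ := Nat.exists_eq_add_of_lt (Nat.zero_le j0 |>.trans_lt h0)
    simp only [zero_add, Nat.add_sub_cancel] at *
    refine le_trans (sum_le_sum_of_subset_of_nonneg (range_subset_range.2 (by omega))
      fun j _ _ => mul_nonneg (hz.dm_nn j) (abs_nonneg _)) (le_add_of_nonneg_right ?_)
    exact mul_nonneg (hz.dm_nn t) (abs_nonneg _)
  have l2 : |∑ j ∈ range N, Pr.dm z j * ((if j + 1 < t then AA (lst z (s τ) N) (s τ (j + 1))
      else 0) * s' τ (j + 1))| ≤ ∑ j ∈ range (t - 1), Pr.dm z j * |s' τ (j + 1)| := by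
    rw [← sum_subset (range_subset_range.2 (show t - 1 ≤ N by omega)) fun j _ hj => by
      rw [if_neg (by simp at hj; omega)]; simp]
    refine (abs_sum_le_sum_abs _ _).trans (sum_le_sum fun j hj => ?_)
    rw [if_pos (by simp at hj; omega), abs_mul, abs_mul, abs_of_nonneg (hz.dm_nn j), Ode3.AA_eq,
      abs_of_nonneg (Ode3.Am_nonneg (hT τ hτ).adm _)]
    exact mul_le_mul_of_nonneg_left (mul_le_of_le_one_left (abs_nonneg _)
      (Ode3.Am_le_one (hT τ hτ).adm _)) (hz.dm_nn j)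
  have D0 : 0 ≤ Dw z N 1 (s' τ) := sum_nonneg fun j _ =>
    mul_nonneg (hz.dm_nn j) (mul_nonneg zero_le_one (abs_nonneg _))
  have z0 : 0 ≤ z t - z (t - 1) := sub_nonneg.2 (hz.mono (Nat.sub_le _ _))
  have s0 : 0 ≤ s τ t := h.zero τ hτ ▸ (h.sm τ hτ).monotone t.zero_le
  exact c2_alg a1 b1 c1 (by positivity) e0 D0 z0 (lo0 _) (by linarith) x2 x3 c rfl d a hb l1 l2

end Crest.Agent.T156.Cas.R1P

end
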