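import Crest.Agent.T156.R1MixB_65
import Crest.Agent.T156.R1P_73

/-!
Row 156 (helper65): transfer of the site words from the reference list to the cavity list
(same labels above the cut `c`, times `0` below the cut, one more dead level at the root).
-/

set_option autoImplicit false
set_option linter.unusedSectionVars false

noncomputable section

namespace Crest.Agent.T156.Hess65

open MeasureTheory Real Set Filter Topology
open Crest.Agent.T157.E Crest.Agent.T157.Casc Crest.Agent.T157.SL Crest.Agent.T157.Casc.C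
open Crest.Agent.T157 Crest.Agent.T156.Cas
open Crest.ProbabilityR.SpinGlassDynamics (spin)
open Crest.Agent.T156.Pp
open Crest.Agent.T156.Pp.Area50 hiding ind
open Crest.Agent.T156.Cas.Ker15 (R1)
open Crest.Agent.T156.Cas.R1J (n1 ind off G S1)
open Crest.Agent.T156.Cas.R1P (len_rk ex_rk dm_rk n1_rk nd_rk rk_sML up_np)

/-- the part above the cut -/
def ct (c : ℕ) (f : ℕ → ℝ) (k : ℕ) : ℝ := if k ≤ c then 0 else f k

/-- the same in cascade indices -/
def up1 (c : ℕ) (f : ℕ → ℝ) (j : ℕ) : ℝ := if j ≤ c + 1 then 0 else f (j - 1)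

variable {z s σ f : ℕ → ℝ} {N c k : ℕ} {L Lr Lc : List (Lv Bool)}

theorem up1_eq (c : ℕ) (f : ℕ → ℝ) : up1 c f = fun j => ct c f (j - 1) := by
  funext j
  simp only [up1, ct, tsub_le_iff_right]

theorem ct_lo (h : k ≤ c) : ct c f k = 0 := if_pos h

theorem ct_hi (h : c < k) : ct c f k = f k := if_neg h.not_ge

theorem ind_sh (hk : 0 < k) : ind (k + 1) = fun j => ind k (j - 1) := by
  funext j
  unfold ind
  split_ifs <;> first | rfl | omega

theorem ex_rk1 (z : ℕ → ℝ) (h : Up σ N) : ∃ L, List.Forall₂ (Rk1 spin) L (lsg z σ N) :=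
  ⟨_, rk_sML (σ := fun _ => σ) (σ' := fun _ => σ) (τ := 0) h⟩

theorem mono_rk (H : List.Forall₂ (Rk1 spin) L (lsg z σ N)) (hz : Pr.Lab z N) (hσ : Up σ N) :
    Mono 0 L := by
  have a := adm_lsg N z σ (hz.top N le_rfl) hz.pos (fun j _ => hz.mono (Nat.le_succ j)) hσ
  exact mono_of H a (a.head_pos one_pos).le

theorem tm_rk (H : List.Forall₂ (Rk1 spin) L (lsg z σ N)) (h0 : σ 0 = 0) (hk : k ≤ N) :
    Ker15.tm L k = σ k := by
  have := tm_lsg N z σ k hk
  rw [h0, sub_zero] at this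
  exact (Ker15.tm_eq H k).trans this

theorem n1_same {L' : List (Lv Bool)} (H : List.Forall₂ (Rk1 spin) L (lsg z σ N))
    (H' : List.Forall₂ (Rk1 spin) L' (lsg z s N)) (hz : z N = 1) (f : ℕ → ℝ) :
    n1 L f = n1 L' f := by
  rw [n1, n1, len_rk H, len_rk H']
  refine Finset.sum_congr rfl fun j hj => ?_
  have hj := Nat.lt_succ_iff.1 (Finset.mem_range.1 hj)
  cases j with
  | zero => rw [dm, dm, ex_rk H hz hj, ex_rk H' hz hj]; rfl
  | succ j => rw [dm_rk H hz hj, dm_rk H' hz hj]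

/-- **`q'` is a site word** -/
theorem der_q {I : Set ℝ} {s s' : ℝ → ℕ → ℝ} (h : Pr.NP I s s') {τ : ℝ} (hτ : τ ∈ I) (hk : k ≤ N)
    (H : List.Forall₂ (Rk1 spin) L (Pr.lst z (s τ) N)) :
    deriv (fun u => Pr.Gam (Pr.lst z (s u) N) (s u k)) τ = Wd L [s' τ] k := by
  have l : (Pr.sML z s s' N).length = N := by simp [Pr.sML]
  have z0 : s' τ 0 = 0 := (h.der τ hτ 0).unique ((hasDerivAt_const τ (0 : ℝ)).congr_of_eventuallyEq
    (by filter_upwards [h.op.mem_nhds hτ] with u hu using h.zero u hu))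
  have d := der_Wd h.op (h.ok z N) hτ (om := s' τ) (fun j hj x y => by
    rw [Pr.dcov_sML z s s' τ x y (l ▸ hj), z0, sub_zero]) [] k
  rw [List.nil_append, Wd_rk1 (h.rk z N hτ) H] at d
  refine (d.congr_of_eventuallyEq ?_).deriv
  filter_upwards [h.op.mem_nhds hτ] with u hu
  rw [h.Gam_pi2 z hk hu, ← twoF_TEf One15.w1]
  rfl

/-- reference list `Lr` (times `s`) and cavity list `Lc` (times `σ`, shifted by the root) -/
structure TR (z s σ : ℕ → ℝ) (N c : ℕ) (Lr Lc : List (Lv Bool)) : Prop where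
  lab : Pr.Lab z N
  us : Up s N
  s0 : s 0 = 0
  uσ : Up σ N
  low : ∀ k ≤ c, σ k = 0
  cN : c ≤ N
  ref : List.Forall₂ (Rk1 spin) Lr (lsg z s N)
  cav : List.Forall₂ (Rk1 spin) Lc (lsg (ex Lc) (fun j => σ (j - 1)) (N + 1))
  ne : ∀ j ≤ c, ex Lc j ≠ 0
  tilt : ∀ k, c ≤ k → k ≤ N → ex Lc (k + 1) = z k
  mono : Mono 0 Lc

/-- the displacement of the node times, in `L¹` -/
def gam (z s σ : ℕ → ℝ) (c : ℕ) (Lc : List (Lv Bool)) : ℝ :=
  n1 Lc (up1 c fun j => σ j - s j) + z c * s c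

namespace TR

variable (h : TR z s σ N c Lr Lc)
include h

theorem zN : z N = 1 := h.lab.top N le_rfl

theorem cut {Lp : List (Lv Bool)} (H : List.Forall₂ (Rk1 spin) Lp (lsg z σ N)) {V : List (ℕ → ℝ)}
    (hV : ∀ f ∈ V, ∀ k ≤ c, f k = 0) (hk : k ≤ N) :
    Wd Lc (V.map fun f j => f (j - 1)) (k + 1) = Wd Lp V k := by
  have cN := h.cN
  have e1 : ∀ f : ℕ → ℝ, (∀ k ≤ c, f k = 0) → (fun j => f (j - c + c)) = f := fun f hf => by
    funext j
    rcases le_total c j with a | a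
    · rw [Nat.sub_add_cancel a]
    · rw [Nat.sub_eq_zero_of_le a, zero_add, hf c le_rfl, hf j a]
  have e2 : ∀ f : ℕ → ℝ, (∀ k ≤ c, f k = 0) →
      (fun j => f (j - (c + 1) + c)) = fun j => f (j - 1) := fun f hf => by
    funext j
    rw [← congrFun (e1 f hf) (j - 1), Nat.sub_sub, add_comm 1 c]
  have u : Up (fun i => σ (i + c)) (N - c) := fun i hi => by
    have := h.uσ (i + c) (by omega)
    rwa [Nat.add_right_comm] at this
  obtain ⟨L0, H0⟩ := ex_rk1 (fun i => z (i + c)) u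
  have c1 : Col (fun j => j - (c + 1)) (ex Lc) (fun i => z (i + c)) (N + 1) (N - c) :=
    ⟨Nat.zero_sub _, by omega, fun j hj => by
      rcases le_or_gt j c with a | a
      · exact Or.inl ⟨by omega, h.ne j a⟩
      · obtain ⟨i, rfl⟩ := Nat.exists_eq_add_of_lt a
        exact Or.inr ⟨by omega, by rw [h.tilt _ (by omega) (by omega)]; congr 1; omega⟩⟩
  have c2 : Col (fun j => j - c) z (fun i => z (i + c)) N (N - c) :=
    ⟨Nat.zero_sub _, rfl, fun j hj => by
      rcases lt_or_ge j c with a | a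
      · exact Or.inl ⟨by omega, (h.lab.pos.trans_le (h.lab.mono (Nat.zero_le _))).ne'⟩
      · exact Or.inr ⟨by omega, by rw [Nat.sub_add_cancel a]⟩⟩
  have v0 : ∀ f ∈ V.map fun f i => f (i + c), f 0 = 0 := fun f hf => by
    obtain ⟨g, hg, rfl⟩ := List.mem_map.1 hf
    exact hV g hg _ (by simp)
  have s0 : (fun i => σ (i + c)) 0 = 0 := h.low _ (by simp)
  have w1 := c1.wd _ v0 (k := k + 1) (by omega) s0 u H0 (by rw [e2 σ h.low]; exact h.cav)
  have w2 := c2.wd _ v0 hk s0 u H0 (by rw [e1 σ h.low]; exact H)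
  simp only [List.map_map, Function.comp_def] at w1 w2
  rw [List.map_congr_left (g := fun f j => f (j - 1)) fun f hf => e2 f (hV f hf)] at w1
  rw [List.map_congr_left (g := id) fun f hf => e1 f (hV f hf), List.map_id] at w2
  rw [w1, w2, Nat.add_sub_add_right]

theorem mvt {V : List (ℕ → ℝ)} (hV : ∀ f ∈ V, ∀ k ≤ c, f k = 0) (hk : k ≤ N) :
    ∃ M : List (Lv Bool), R1 M ∧ Mono 0 M ∧ k ≤ M.length ∧ (∀ f, n1 M f = n1 Lr f) ∧
      pz M k ≤ min 1 (max (s k) (σ k)) ∧ Wd Lc (V.map fun f j => f (j - 1)) (k + 1) - Wd Lr V k =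
        Wd M (V ++ [fun j => σ j - s j]) k := by
  obtain ⟨Lp, H⟩ := ex_rk1 z h.uσ
  have σ0 := h.low 0 c.zero_le
  obtain ⟨θ, hθ, M, HM, e⟩ := mvt_Wd h.us h.uσ (σ0.trans h.s0.symm) h.ref H V k
  have u : Up (fun j => s j + θ * (σ j - s j)) N := fun j hj => by
    have a := mul_nonneg (sub_nonneg.2 hθ.2.le) (sub_nonneg.2 (h.us j hj))
    have b := mul_nonneg hθ.1.le (sub_nonneg.2 (h.uσ j hj))
    show s j + θ * (σ j - s j) ≤ s (j + 1) + θ * (σ (j + 1) - s (j + 1))
    linarith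
  refine ⟨M, Ker15.r1_of HM, mono_rk HM h.lab u, (len_rk HM).symm ▸ hk, n1_same HM h.ref h.zN,
    min_le_min le_rfl ?_, by rw [h.cut H hV hk, e]⟩
  rw [tm_rk HM (by simp [σ0, h.s0]) hk]
  have a := mul_nonneg (sub_nonneg.2 hθ.2.le) (sub_nonneg.2 (le_max_left (s k) (σ k)))
  have b := mul_nonneg hθ.1.le (sub_nonneg.2 (le_max_right (s k) (σ k)))
  linarith

theorem monoR : Mono 0 Lr := mono_rk h.ref h.lab h.us

theorem dm_eq (h1 : c < k) (hk : k ≤ N) : dm Lc 0 (k + 1) = dm Lr 0 k := by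
  obtain ⟨i, rfl⟩ := Nat.exists_eq_add_of_lt h1
  rw [dm_rk h.ref h.zN hk, dm, exP, h.tilt _ h1.le hk, h.tilt _ (by omega) (by omega), Pr.dm]

theorem n1_up (f : ℕ → ℝ) : n1 Lc (up1 c f) = n1 Lr (ct c f) := by
  rw [n1, n1, len_rk h.cav, len_rk h.ref, Finset.sum_range_succ', up1_eq]
  simp only [Nat.zero_sub, ct_lo c.zero_le, abs_zero, mul_zero, add_zero, Nat.add_sub_cancel]
  refine Finset.sum_congr rfl fun j hj => ?_
  rcases le_or_gt j c with a | a
  · simp [ct_lo a]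
  · rw [h.dm_eq a (Nat.lt_succ_iff.1 (Finset.mem_range.1 hj))]

theorem n1_h : n1 Lr (fun j => σ j - s j) ≤ gam z s σ c Lc := by
  have cN := h.cN
  have sc : 0 ≤ s c := h.s0 ▸ h.us.le c.zero_le cN
  have e := sum_dm Lr 0 c
  rw [sub_zero, ex_rk h.ref h.zN cN] at e
  have e' : z c * s c = ∑ j ∈ Finset.range (N + 1), dm Lr 0 j * if j ≤ c then s c else 0 := by
    rw [← e, Finset.sum_mul, ← Finset.sum_subset (Finset.range_mono (Nat.succ_le_succ cN))
      fun j _ hj => by rw [if_neg fun a => hj (Finset.mem_range.2 (by omega)), mul_zero]]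
    exact Finset.sum_congr rfl fun j hj => by
      rw [if_pos (Nat.lt_succ_iff.1 (Finset.mem_range.1 hj))]
  rw [gam, h.n1_up, e', n1, n1, len_rk h.ref, ← Finset.sum_add_distrib]
  refine Finset.sum_le_sum fun j _ => ?_
  rw [← mul_add]
  refine mul_le_mul_of_nonneg_left ?_ (dm_nonneg h.monoR j)
  rcases le_or_gt j c with a | a
  · rw [ct_lo a, if_pos a, h.low j a, zero_sub, abs_neg, abs_zero, zero_add,
      abs_of_nonneg (h.s0 ▸ h.us.le j.zero_le (a.trans cN))]
    exact h.us.le a cN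
  · rw [ct_hi a, if_neg a.not_ge, add_zero]

theorem n1_fh (f : ℕ → ℝ) : n1 Lr (fun j => ct c f j * (σ j - s j)) =
    n1 Lc (up1 c fun j => f j * (σ j - s j)) := by
  rw [h.n1_up]
  congr 1
  funext j
  unfold ct
  split_ifs <;> simp

theorem gam_nn : 0 ≤ gam z s σ c Lc := (n1_nn h.monoR _).trans h.n1_h

/-- **one letter** -/
theorem lin_up (f : ℕ → ℝ) (h1 : c < k) (hk : k ≤ N) :
    |Wd Lc [up1 c f] (k + 1) - Wd Lr [ct c f] k| ≤ 4500 ^ 2 *
      (1152 * min 1 (max (s k) (σ k)) * (n1 Lc (up1 c f) * gam z s σ c Lc) +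
        2 * (|f k| * gam z s σ c Lc) + 2 * (|σ k - s k| * n1 Lc (up1 c f)) +
        2 * n1 Lc (up1 c fun j => f j * (σ j - s j)) + 8 * |f k * (σ k - s k)|) := by
  obtain ⟨M, r, m, l, e, p, w⟩ := h.mvt (V := [ct c f]) (fun g hg j hj => by
    rw [List.mem_singleton.1 hg, ct_lo hj]) hk
  have b := abs_Wd2 r m l (ct c f) fun j => σ j - s j
  simp only [e, ← h.n1_up, h.n1_fh, ct_hi h1] at b
  rw [List.map_singleton, ← up1_eq] at w
  rw [w]
  refine b.trans (mul_le_mul_of_nonneg_left ?_ (by norm_num))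
  have a1 := h.n1_h
  have a2 := n1_nn h.mono (up1 c f)
  have a3 := mul_le_mul p (mul_le_mul_of_nonneg_left a1 a2)
    (mul_nonneg a2 (n1_nn h.monoR _)) ((pz_nn r k).trans p)
  have a4 := mul_le_mul_of_nonneg_left a1 (abs_nonneg (f k))
  linarith

/-- the low part of the letter -/
theorem lin_low (f0 : f 0 = 0) (h1 : c < k) (hk : k ≤ N) :
    |Wd Lr [f] k - Wd Lr [ct c f] k| ≤
      184320 * (min 1 (s c) * ∑ j ∈ Finset.range c, Pr.dm z j * |f (j + 1)|) := by
  have cN := h.cN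
  have r := Ker15.r1_of h.ref
  have e : Wd Lr [f] k = 1 * Wd Lr [fun j => f j - ct c f j] k + 1 * Wd Lr [ct c f] k := by
    rw [← W_eq, ← W_eq, ← W_eq, ← R1P.W_lin]
    simp
  rw [e, one_mul, one_mul, add_sub_cancel_right]
  refine (abs_Wd1 r h.monoR ((len_rk h.ref).symm ▸ hk) (by simp [ct_hi h1])).trans
    (mul_le_mul_of_nonneg_left ?_ (by norm_num))
  rw [n1_rk h.ref h.zN (by simp [f0, ct]), Pr.Dw, Finset.mul_sum,
    ← Finset.sum_subset (Finset.range_mono cN) fun j _ hj => by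
      rw [ct_hi (by simpa [Nat.lt_succ_iff] using hj)]; simp]
  refine Finset.sum_le_sum fun j hj => ?_
  have a := Finset.mem_range.1 hj
  have d : 0 ≤ Pr.dm z j := sub_nonneg.2 (h.lab.mono (Nat.le_succ j))
  have p : pz Lr (min (j + 1) k) ≤ min 1 (s c) :=
    (pz_mono r ((min_le_left _ _).trans a)).trans_eq (by rw [pz, tm_rk h.ref h.s0 cN])
  rw [ct_lo a, sub_zero, Pi.one_apply, one_mul, abs_mul, abs_of_nonneg (pz_nn r _), mul_comm (min _ _),
    mul_assoc]
  exact mul_le_mul_of_nonneg_left (mul_le_mul_of_nonneg_left p (abs_nonneg _)) d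

/-- **`a_t`** -/
theorem a_up (f : ℕ → ℝ) (h1 : c < k) (hk : k ≤ N) :
    |Wd Lc [ind (k + 1), up1 c f] (k + 1) - Wd Lr [ind k, ct c f] k| ≤ 12 * 4500 ^ 3 *
      ((n1 Lc (up1 c f) + |f k|) * (gam z s σ c Lc + |σ k - s k|) +
        n1 Lc (up1 c fun j => f j * (σ j - s j))) := by
  obtain ⟨M, r, m, l, e, -, w⟩ := h.mvt (V := [ind k, ct c f]) (fun g hg j hj => by
    simp only [List.mem_cons, List.not_mem_nil, or_false] at hg
    rcases hg with rfl | rfl
    exacts [if_neg (by omega), ct_lo hj]) hk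
  have b := abs_Wd3c r m l (ind k) (ct c f) fun j => σ j - s j
  have i : ∀ g : ℕ → ℝ, n1 M (fun y => ind k y * g y) ≤ |g k| := fun g =>
    (R1P.sum_ind_le _ g (dm_nonneg m k)).trans (mul_le_of_le_one_left (abs_nonneg _) (dm_le_one m l))
  have i1 := i fun j => σ j - s j
  have i2 := i (ct c f)
  have i3 := i fun j => ct c f j * (σ j - s j)
  have i0 := dm_le_one m l
  simp only [← mul_assoc] at i3
  rw [n1_ind l] at b
  simp only [e, ← h.n1_up, h.n1_fh, ct_hi h1, show ind k k = 1 from if_pos rfl, one_mul, abs_one,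
    abs_mul] at b i1 i2 i3
  simp only [List.map_cons, List.map_nil, ← up1_eq, ← ind_sh (c.zero_le.trans_lt h1)] at w
  rw [w, mul_comm 12, mul_assoc]
  refine b.trans (mul_le_mul_of_nonneg_left ?_ (by norm_num))
  have a1 := h.n1_h
  have a2 := n1_nn h.mono (up1 c f)
  have a3 := n1_nn h.monoR fun j => σ j - s j
  have a4 := n1_nn h.mono (up1 c fun j => f j * (σ j - s j))
  have a5 := abs_nonneg (f k)
  have a6 := abs_nonneg (σ k - s k)
  have a7 := dm_nonneg m k
  generalize n1 Lr (fun y => ind k y * ct c f y * (σ y - s y)) = x3 at *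
  generalize n1 Lr (fun y => ind k y * ct c f y) = x2 at *
  generalize n1 Lr (fun y => ind k y * (σ y - s y)) = x1 at *
  generalize n1 Lr (fun j => σ j - s j) = H at *
  generalize n1 Lc (up1 c fun j => f j * (σ j - s j)) = P at *
  generalize n1 Lc (up1 c f) = F at *
  generalize gam z s σ c Lc = γ at *
  generalize |f k| = u at *
  generalize |σ k - s k| = v at *
  generalize dm M 0 k = d at *
  have b1 : (d + 1) * ((F + u) * (H + v)) ≤ 2 * ((F + u) * (γ + v)) :=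
    mul_le_mul (by linarith) (by gcongr) (by positivity) (by norm_num)
  have b2 : (x1 + v) * (F + u) ≤ 2 * v * (F + u) := by gcongr; linarith
  have b3 : (d + 1) * (P + u * v) ≤ 2 * (P + u * v) := by gcongr; linarith
  have b4 : (x2 + u) * (H + v) ≤ 2 * u * (γ + v) :=
    mul_le_mul (by linarith) (by linarith) (by positivity) (by positivity)
  have := mul_nonneg a2 (a3.trans a1)
  have := mul_nonneg a2 a6
  have := mul_nonneg a5 (a3.trans a1)
  have := mul_nonneg a5 a6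
  linarith

/-- the local letter alone -/
theorem ind_up (h1 : c < k) (hk : k ≤ N) :
    |Wd Lc [ind (k + 1)] (k + 1) - Wd Lr [ind k] k| ≤
      4 * 4500 ^ 2 * (gam z s σ c Lc + |σ k - s k|) := by
  obtain ⟨M, r, m, l, e, -, w⟩ := h.mvt (V := [ind k]) (fun g hg j hj => by
    rw [List.mem_singleton.1 hg]
    exact if_neg (by omega)) hk
  have b := abs_Wd2c r m l (ind k) fun j => σ j - s j
  have i1 : n1 M (fun y => ind k y * (σ y - s y)) ≤ |σ k - s k| :=
    (R1P.sum_ind_le _ _ (dm_nonneg m k)).trans (mul_le_of_le_one_left (abs_nonneg _) (dm_le_one m l))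
  have i0 := dm_le_one m l
  rw [n1_ind l, e fun j => σ j - s j, show ind k k = 1 from if_pos rfl, one_mul, abs_one] at b
  rw [List.map_singleton, ← ind_sh (c.zero_le.trans_lt h1)] at w
  rw [w, mul_comm 4, mul_assoc]
  refine b.trans (mul_le_mul_of_nonneg_left ?_ (by norm_num))
  have a1 := h.n1_h
  have a3 := n1_nn h.monoR fun j => σ j - s j
  have a6 := abs_nonneg (σ k - s k)
  have b1 : (dm M 0 k + 1) * (n1 Lr (fun j => σ j - s j) + |σ k - s k|) ≤
      2 * (gam z s σ c Lc + |σ k - s k|) :=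
    mul_le_mul (by linarith) (by linarith) (by positivity) (by norm_num)
  linarith

end TR

/-- **`G_t`** -/
theorem G_up (s1 : S1) : ∃ C : ℝ, 1 ≤ C ∧ ∀ (z s σ : ℕ → ℝ) (N c k : ℕ) (Lr Lc : List (Lv Bool)),
    TR z s σ N c Lr Lc → c < k → k < N →
    |G Lc (k + 1) - G Lr k| ≤ C * (dm Lc 0 (k + 1) + gam z s σ c Lc + |σ k - s k|) := by
  obtain ⟨C, c1, hC⟩ := s1
  refine ⟨2 * C + 4 * 4500 ^ 2, by linarith, fun z s σ N c k Lr Lc h h1 hk => ?_⟩
  have k0 := c.zero_le.trans_lt h1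
  have a := hC Lr k 1 (nd_rk h.ref h.lab h.us k0 hk) (ind k) (if_neg k0.ne)
  have b := hC Lc (k + 1) 1 ⟨Ker15.r1_of h.cav, h.mono, k.succ_pos,
    (len_rk h.cav).symm ▸ Nat.succ_lt_succ hk, one_pos, min_le_left _ _⟩ (ind (k + 1)) (by simp [ind])
  have d := h.ind_up h1 hk.le
  rw [n1_ind ((len_rk h.ref).symm ▸ hk.le), ← h.dm_eq h1 hk.le] at a
  rw [n1_ind ((len_rk h.cav).symm ▸ Nat.succ_le_succ hk.le)] at b
  simp only [show ∀ i, ind i i = 1 from fun i => if_pos rfl, one_mul, W_eq] at a b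
  have d0 := dm_nonneg h.mono (k + 1)
  have g0 := add_nonneg h.gam_nn (abs_nonneg (σ k - s k))
  have := mul_nonneg (zero_le_one.trans c1) g0
  rw [abs_le] at a b d ⊢
  constructor <;> nlinarith

end Crest.Agent.T156.Hess65

end
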