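import Crest.Agent.T156.R1P_73
import Crest.Agent.T156.AltPG_3
import Crest.Agent.T156.FamDerB_77

/-!
# Row 156 (helper73): the coefficient `c2` at the reference end of the graded path
-/

set_option autoImplicit false
set_option linter.unusedSectionVars false

noncomputable section

namespace Crest.Agent.T156.Alt.P73

open Finset Filter
open Crest.Agent.T157.Casc Crest.Agent.T157.SL Crest.Agent.T157.Casc.C Crest.Agent.T157.Pf
open Crest.ProbabilityR.SpinGlassDynamics (spin)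
open Crest.Agent.T156.Pp Crest.Agent.T156.Pp.Area50 Crest.Agent.T156.Hess65
open Crest.Agent.T156.Cas Crest.Agent.T156.Cas.R1P Crest.Agent.T156.Alt.Md77

/-- velocity of the node times of the graded path above the cut, profile indices -/
def fG (p : Pm) (σ : ℝ) (k : ℕ) : ℝ := if k ≤ p.jf then 0 else -dom p (omG' p) σ k

variable {p : Pm} {P : Pl} {σ : ℝ}

theorem nu_lo {k : ℕ} (h : k ≤ p.J) : nu p P k = k := if_pos h

/-- the profile grid collapses onto the reference grid -/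
theorem col_nu (hl : Pr.Lab p.z p.J) (hx : ∀ k < p.NP P, p.zP P k ≠ 0) :
    Col (nu p P) (p.zP P) p.z (p.NP P) (p.J + p.Nr) := by
  refine ⟨nu_lo p.J.zero_le, by unfold nu Pm.NP Pm.Jp; split_ifs <;> omega, fun k hk => ?_⟩
  rcases lt_or_ge k p.J with a | a
  · exact Or.inr ⟨by rw [nu_lo a, nu_lo a.le], by rw [nu_lo a.le, Pm.zP, if_pos a]⟩
  · rcases lt_or_ge k (p.Jp P) with b | b
    · exact Or.inl ⟨by unfold nu; split_ifs <;> omega, hx k hk⟩
    · refine Or.inr ⟨by unfold nu Pm.Jp at *; split_ifs <;> omega, ?_⟩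
      rw [Pm.zP, if_neg a.not_gt, if_neg b.not_gt, hl.top _ (by unfold nu; split_ifs <;> omega)]

theorem gS_der (σ : ℝ) {t : ℝ} (ht : 0 ≤ t) : σ * (2 * max 0 (√t - σ)) ≤ gS σ t := by
  rcases le_total √t σ with h | h
  · rw [gS_lo h, max_eq_left (by linarith)]
    linarith
  · rw [gS_hi ht h, max_eq_right (by linarith)]
    nlinarith

theorem om'_le (hv : 0 < p.v) (hκ : 0 ≤ p.κ) (σ : ℝ) (j : ℕ) :
    σ * |omG' p σ j| ≤ p.omG σ j := by
  have a := sub_nonneg.2 (Rs13.sm_le (j * p.v / p.ye - 1))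
  have b := mul_le_mul_of_nonneg_right (mul_le_mul_of_nonneg_left
    (gS_der σ (show 0 ≤ j * p.v by positivity)) hκ) a
  rw [omG', abs_of_nonneg (by positivity), Pm.omG]
  linarith

theorem eps'_le (hκ : 0 ≤ p.κ) (hr : 0 ≤ p.r) (σ : ℝ) : σ * |deriv p.epsG σ| ≤ p.epsG σ := by
  have b := mul_le_mul_of_nonneg_left (gS_der σ hr) (mul_nonneg hκ hr)
  rw [(hasDerivAt_epsG p σ).deriv, abs_of_nonneg (by positivity), Pm.epsG]
  linarith

/-- **(C2) at the reference end** -/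
def C2Q (C : ℝ) (p : Pm) : Prop := ∀ σ, p.MemG σ →
  (σ * |deriv p.bG σ| ≤ C * p.muG σ ∧
    σ * Pr.Dw p.z (p.J + p.Nr) 1 (omG' p σ) ≤ C * p.muG σ ∧ σ * |deriv p.epsG σ| ≤ p.epsG σ ∧
    (∀ j, σ * |omG' p σ j| ≤ p.omG σ j) ∧
    ∀ t < p.J, σ * ∑ j ∈ range t, Pr.dm p.z j * |omG' p σ (j + 1)| ≤ C * p.msG σ (t * p.v)) ∧
  ∀ P : Pl, P.γ = 0 → (∀ k < p.NP P, p.zP P k ≠ 0) → ∀ L : List (Lv Bool),
    List.Forall₂ (Rk1 spin) L (lsg (p.zP P) (p.sO P (p.omG σ)) (p.NP P)) →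
    ∀ t, p.jf < t → t < p.J →
      σ * |deriv p.bG σ + p.bG σ ^ 2 * R1J.W L t [R1J.ind t, fG p σ]| ≤ C * p.msG σ (t * p.v) ∧
      |1 - p.bG σ * R1J.G L t| ≤ C * p.msG σ (t * p.v)

theorem c2_num {σ K B C0 m μ v s ε ε' g f lo D e dz : ℝ} (hσ : 0 < σ) (K1 : 1 ≤ K) (B1 : 1 ≤ B)
    (c0 : 0 ≤ C0) (v0 : 0 ≤ v) (vm : v ≤ m) (μ1 : μ ≤ 1) (s0 : 0 ≤ s) (sB : s ≤ B) (ε0 : 0 ≤ ε)
    (εm : ε ≤ m) (εμ : ε ≤ μ) (h1 : σ * |ε'| ≤ ε) (h2 : |g| * s ≤ K * m + 2 * (C0 * v) * s)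
    (h3 : σ * |f| ≤ s) (h4 : σ * lo ≤ (C0 + K) * m) (h5 : σ * D ≤ K * μ) (D0 : 0 ≤ D)
    (h6 : |e| ≤ K * m) (h7 : μ * s ^ 2 ≤ B ^ 2 * m) (z1 : dz ≤ C0 * v) :
    σ * (|ε'| + |g| * |f| + lo + (D + |ε'|) * ((1 + K) * s ^ 2 + 2 * K * v * s + |e| + ε) +
      dz * (|f| + D)) ≤ (1 + 2 * K + C0 * (3 * B + K + 1) +
      (K + 1) * ((1 + K) * B ^ 2 + 2 * K * B + K + 1)) * m := by
  have m0 : 0 ≤ m := v0.trans vm
  have μ0 : 0 ≤ μ := ε0.trans εμ
  have vs : v * s ≤ B * m := (mul_comm v s).trans_le (mul_le_mul sB vm v0 (by linarith))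
  have a1 := mul_le_mul_of_nonneg_left h3 (abs_nonneg g)
  have a2 := mul_le_mul_of_nonneg_left vs c0
  have a3 : σ * (D + |ε'|) * ((1 + K) * s ^ 2 + 2 * K * v * s + |e| + ε) ≤
      (K + 1) * μ * ((1 + K) * s ^ 2 + 2 * K * (B * m) + K * m + m) :=
    mul_le_mul (by linarith) (by nlinarith) (by positivity) (by positivity)
  have a4 : μ * ((1 + K) * s ^ 2 + 2 * K * (B * m) + K * m + m) ≤
      ((1 + K) * B ^ 2 + 2 * K * B + K + 1) * m := by
    have := mul_le_of_le_one_left (show 0 ≤ 2 * K * (B * m) + K * m + m by positivity) μ1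
    nlinarith [mul_le_mul_of_nonneg_left h7 (show 0 ≤ 1 + K by linarith)]
  have a5 := mul_le_mul_of_nonneg_left a4 (show 0 ≤ K + 1 by linarith)
  have a6 : dz * (σ * |f| + σ * D) ≤ C0 * m * (B + K) :=
    mul_le_mul (z1.trans (mul_le_mul_of_nonneg_left vm c0))
      (by nlinarith) (by positivity) (by positivity)
  nlinarith

set_option maxHeartbeats 1600000 in
theorem c2Q (h1 : R1J.S1) (h2 : R1J.S2) (h3 : R1J.S3) (β : ℝ) (hβ : 1 < β) : Cst β C2Q := by
  intro c0 C0 hc0 hC0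
  obtain ⟨K1, k1, H1⟩ := p1G β hβ c0 C0 hc0 hC0
  obtain ⟨K2, k2, H2⟩ := gpO β hβ c0 C0 hc0 hC0
  obtain ⟨A, a1, hA⟩ := c2_ref h1 h2 h3 (β ^ 2)
  obtain ⟨E, e1, hE⟩ := ph_bd (β ^ 2)
  have B1 : 1 ≤ β ^ 2 := one_le_pow₀ hβ.le
  obtain ⟨K, hK⟩ : ∃ K, K = K1 + K2 := ⟨_, rfl⟩
  obtain ⟨N, hN⟩ : ∃ N, N = 1 + 2 * K + C0 * (3 * β ^ 2 + K + 1) +
    (K + 1) * ((1 + K) * (β ^ 2) ^ 2 + 2 * K * β ^ 2 + K + 1) := ⟨_, rfl⟩
  have KK : 1 ≤ K := by linarith
  have N0 : 0 ≤ N := by rw [hN]; positivity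
  have AN := mul_nonneg (zero_le_one.trans a1) N0
  have EK : K + 1 ≤ E * (K + 1) := le_mul_of_one_le_left (by linarith) e1
  refine ⟨A * N + E * (K + 1) + C0, by linarith, fun A' hA' c hc hc' => ?_⟩
  filter_upwards [H1 A' hA' c hc hc', H2 A' hA' c hc hc'] with n H1 H2 p q1 q2 q3 q4 ok σ hm
  obtain ⟨⟨σ0, κ0, r0, ry, κ1, yJ⟩, ⟨om, -, -, dd⟩, -, cr, -, gp, mo, -, em, my, ve, -, -, μκ⟩ :=
    H1 p q1 q2 q3 q4 ok σ hm
  obtain ⟨l0, -, l1, -⟩ := (H2 p q1 q2 q3 q4 ok).2 p.Nr _ _ _ om (by linarith) le_rfl κ1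
  have hb := ok.base
  have v0 := hb.v_pos
  have JB : p.J * p.v ≤ β ^ 2 := q1 ▸ hb.hi
  have h := op_gst p v0 hb.lab κ0.le (by linarith) (by linarith) yJ
  have hσ : σ ∈ Set.Ioi (0 : ℝ) := σ0
  have ε0 : 0 ≤ p.epsG σ := (Real.sqrt_nonneg _).trans ve
  have εμ : p.epsG σ ≤ p.muG σ := (em 0).1.trans (em 0).2
  have vε : p.v ≤ p.epsG σ := by
    nlinarith only [Real.mul_self_sqrt v0.le, Real.sqrt_nonneg p.v, ve, εμ, μκ, κ1]
  have o1 := om'_le v0 κ0.le σ
  have o2 := eps'_le κ0.le r0.le σ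
  have o3 : ∀ t, σ * ∑ j ∈ range t, Pr.dm p.z j * |omG' p σ (j + 1)| ≤
      ∑ j ∈ range t, Pr.dm p.z j * p.omG σ (j + 1) := fun t => by
    rw [mul_sum]
    exact sum_le_sum fun j _ => by
      rw [mul_left_comm]; exact mul_le_mul_of_nonneg_left (o1 _) (hb.lab.dm_nn j)
  have o4 : ∀ t, ∑ j ∈ range t, Pr.dm p.z j * p.omG σ (j + 1) ≤ K * p.muG σ := fun t => by
    refine le_trans ?_ (dd.trans (mul_le_mul_of_nonneg_right (by linarith) (ε0.trans εμ)))
    simp only [Pr.DD, Pi.zero_apply, sub_zero, abs_of_nonneg (om.nn _)]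
    rcases le_total t p.J with a | a
    · exact sum_le_sum_of_subset_of_nonneg (range_subset_range.2 a)
        fun j _ _ => mul_nonneg (hb.lab.dm_nn j) (om.nn _)
    · exact (sum_subset (range_subset_range.2 a) fun j _ hj => by
        rw [hb.lab.dm_top (by simpa using hj), zero_mul]).ge
  have o5 : σ * Pr.Dw p.z (p.J + p.Nr) 1 (omG' p σ) ≤ K * p.muG σ := by
    simpa only [Pr.Dw, Pi.one_apply, one_mul] using (o3 _).trans (o4 _)
  have m0 : ∀ t, 0 ≤ p.msG σ t := fun t => ε0.trans (em t).1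
  have o6 : ∀ t < p.J, σ * ∑ j ∈ range t, Pr.dm p.z j * |omG' p σ (j + 1)| ≤
      (C0 + K) * p.msG σ (t * p.v) := fun t ht => by
    refine (o3 t).trans ?_
    have := m0 (t * p.v)
    rcases le_total p.ye (t * p.v) with a | a
    · rw [← my _ a] at o4
      nlinarith only [o4 t, this, hC0]
    · have t0 : 0 ≤ t * p.v := by positivity
      have b := sum_le_card_nsmul (range t) (fun j => Pr.dm p.z j * p.omG σ (j + 1))
        (C0 * p.v * (p.κ * gS σ (t * p.v))) fun j hj => by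
          have hj := mem_range.1 hj
          refine mul_le_mul (hb.slo j (by omega)).2 ((PG3.wG_mem κ0.le σ0.le p.ye
            (t := (j + 1 : ℕ) * p.v) (by positivity)).2.trans ?_) (om.nn _) (by positivity)
          exact mul_le_mul_of_nonneg_left (PG3.gS_mono σ0.le (by gcongr; omega)) κ0.le
      have d : PG3.mG p.κ σ (t * p.v) ≤ p.msG σ (t * p.v) :=
        PG3.mG_mono κ0.le σ0.le t0 ((le_min le_rfl a).trans (le_max_right _ _))
      rw [card_range, nsmul_eq_mul] at b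
      rw [PG3.mG] at d
      nlinarith only [mul_le_mul_of_nonneg_left d (zero_le_one.trans hC0), b, this, KK]
  have μ0 := ε0.trans εμ
  have up : ∀ {x y a : ℝ}, x ≤ a * y → 0 ≤ y → a ≤ A * N + E * (K + 1) + C0 →
      x ≤ (A * N + E * (K + 1) + C0) * y := fun a b c => a.trans (mul_le_mul_of_nonneg_right c b)
  refine ⟨⟨up (a := E * (K + 1)) ?_ μ0 (by linarith), up o5 μ0 (by linarith), o2, o1,
    fun t ht => up (o6 t ht) (m0 _) (by linarith)⟩, fun P hg hx L H t t0 ht => ?_⟩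
  · have := mul_le_mul_of_nonneg_left
      (hE p _ _ _ _ _ h JB σ hσ ε0 (by linarith)).1.2.2 σ0.le
    rw [bo_gst] at this
    linarith only [this, mul_le_mul_of_nonneg_left (add_le_add o5 (o2.trans εμ))
      (zero_le_one.trans e1)]
  have c := col_nu hb.lab hx
  have us := up_np h.np hσ (p.J + p.Nr)
  have R := rk_sML (z := p.z) (σ := fun t => Pr.sig p.v (p.omG t))
    (σ' := fun t j => -omG' p t j) us
  rw [show p.sO P (p.omG σ) = fun k => Pr.sig p.v (p.omG σ) (nu p P k) from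
    funext (h.sO_eq hg hσ)] at H
  have tN : t ≤ p.NP P := by unfold Pm.NP; omega
  have s0 := om.sig_nn v0 κ1 t
  have s1 := om.sig_le t
  have s2 : (t : ℝ) * p.v < p.J * p.v := by gcongr
  have s3 := mo s1
  obtain ⟨x1, x2, -⟩ := cr _ ⟨s0, s1.trans s2.le⟩
  have x3 : |Pr.ee (p.lG σ) (p.epsG σ) (Pr.sig p.v (p.omG σ) t)| ≤ K * p.msG σ (t * p.v) := by
    rw [abs_of_nonneg (le_trans (div_nonneg (m0 _) (by linarith)) x1)]
    exact x2.trans (mul_le_mul (by linarith) s3 (m0 _) (by linarith))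
  refine ⟨up (a := A * N) ?_ (m0 _) (by linarith), up (a := K) ?_ (m0 _) (by linarith)⟩
  · have e := c.wd [R1J.ind t, fun j => if j ≤ p.jf then 0 else -omG' p σ j]
      (by simp [R1J.ind]; omega) tN om.sig0 us R H
    have e1 : (fun k => R1J.ind t (nu p P k)) = R1J.ind t := funext fun k => by
      unfold R1J.ind nu
      split_ifs <;> first | rfl | omega
    have e2 : (fun k => if nu p P k ≤ p.jf then 0 else -omG' p σ (nu p P k)) = fG p σ :=
      funext fun k => by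
        rw [fG, h.dom_eq hσ P]
        exact if_congr (by unfold nu; split_ifs <;> omega) rfl rfl
    simp only [List.map_cons, List.map_nil, e1, e2, nu_lo ht.le] at e
    have a := hA _ _ _ p.z _ _ _ h.np h.labN (fun _ => h.tp) JB h.ce σ hσ ε0 (by linarith) t p.jf
      t0 (by omega) _ R K (2 * K * p.v) (by linarith) (by positivity) (s1.trans s2.le)
      fun r a b => by
        have := (l1 0 r le_rfl a (by linarith)).2
        have k : K2 ≤ K := by linarith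
        change lvr 1 (Pr.lo p.z p.v (p.omG σ) (p.J + p.Nr)) r ≤ _
        linarith only [mul_le_mul_of_nonneg_right k a, mul_le_mul_of_nonneg_right k v0.le, this, l0]
    rw [W_eq, ← e, Dw_neg] at a
    simp only [abs_neg] at a
    refine (mul_le_mul_of_nonneg_left a σ0.le).trans ?_
    rw [mul_left_comm σ A, mul_assoc A N, hN]
    refine mul_le_mul_of_nonneg_left ?_ (zero_le_one.trans a1)
    obtain ⟨u, rfl⟩ := Nat.exists_eq_add_of_lt (p.jf.zero_le.trans_lt t0)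
    simp only [zero_add, Nat.add_sub_cancel] at *
    have z1 := (hb.slo u ht).2
    have z0 := hb.lab.dm_nn u
    refine c2_num σ0 KK B1 (by linarith) v0.le (vε.trans (em _).1) (by linarith) s0 (by linarith)
      ε0 (em _).1 εμ o2 ?_ ((o1 _).trans ?_) ((o6 u (by omega)).trans (mul_le_mul_of_nonneg_left
        (mo (by push_cast; linarith)) (by linarith))) o5 (sum_nonneg fun j _ =>
        mul_nonneg (hb.lab.dm_nn j) (mul_nonneg zero_le_one (abs_nonneg _))) x3 ?_ z1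
    · have g := gp _ s0 (s1.trans_lt s2) p.r r0 le_rfl
      have lv := (Pr.areaS p.z _ _ h.labN om.sig0 (h.np.sm σ hσ)).1.2.2.1 (u + 1) _ le_rfl
        (h.np.sm σ hσ (Nat.lt_succ_self _))
      have ad := (h.tp hσ).adm
      have y0 := Ode3.Am_nonneg ad (Pr.sig p.v (p.omG σ) (u + 1))
      have y1 := Ode3.Am_le_one ad (Pr.sig p.v (p.omG σ) (u + 1))
      change |Pr.NN (Pr.lst _ _ _) _ - 2 * lvr 1 (Pr.lst _ _ _) _ * Ode3.Am (Pr.lst _ _ _) _| ≤ _ at g
      change _ ≤ Ode3.Am (Pr.lst _ _ _) _ at y0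
      change Ode3.Am (Pr.lst _ _ _) _ ≤ _ at y1
      rw [lv] at g
      have g1 : p.msG σ (Pr.sig p.v (p.omG σ) (u + 1)) / max (Pr.sig p.v (p.omG σ) (u + 1)) p.r *
          Pr.sig p.v (p.omG σ) (u + 1) ≤ p.msG σ ((u + 1 : ℕ) * p.v) := by
        rw [div_mul_eq_mul_div, div_le_iff₀ (r0.trans_le (le_max_right _ _))]
        exact mul_le_mul s3 (le_max_left _ _) s0 (m0 _)
      rw [Pr.Gl, Ode3.AA_eq, Nat.add_sub_cancel]
      rw [Pr.dm] at z0 z1
      refine le_trans (mul_le_mul_of_nonneg_right (c := K1 * (p.msG σ (Pr.sig p.v (p.omG σ) (u + 1)) /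
        max (Pr.sig p.v (p.omG σ) (u + 1)) p.r) + 2 * (C0 * p.v)) ?_ s0) ?_
      · rw [abs_le] at g ⊢
        constructor <;> linarith only [g.1, g.2, mul_nonneg z0 y0, mul_le_of_le_one_right z0 y1,
          z0, z1]
      · rw [hK]
        linarith only [mul_le_mul_of_nonneg_left g1 (zero_le_one.trans k1),
          mul_nonneg (zero_le_one.trans k2) (m0 ((u + 1 : ℕ) * p.v))]
    · linarith only [om.le (u + 1), om.sig_ge v0 κ1 (u + 1), mul_le_mul_of_nonneg_right κ1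
        (show 0 ≤ ((u + 1 : ℕ) : ℝ) * p.v by positivity)]
    · rcases le_total p.ye ((u + 1 : ℕ) * p.v) with a | a
      · rw [my _ a, mul_comm]
        exact mul_le_mul_of_nonneg_right (pow_le_pow_left₀ s0 (by linarith) 2) μ0
      · have := PG3.mG_conc κ0.le σ0.le (s := max p.r (min ((u + 1 : ℕ) * p.v) p.ye))
          (r0.le.trans (le_max_left _ _)) (max_le ry (min_le_right _ _))
        rw [← PG3.muG_eq, ← PG3.msG_eq] at this
        refine le_trans (mul_le_mul_of_nonneg_left (pow_le_pow_left₀ s0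
          (s1.trans ((le_min le_rfl a).trans (le_max_right _ _))) 2) μ0) (this.trans ?_)
        rw [mul_comm]
        exact mul_le_mul_of_nonneg_right (pow_le_pow_left₀ (by linarith) (by linarith) 2) (m0 _)
  · have g : R1J.G L t = _ := Gn_eq H (j := t) (by rwa [len_rk H])
    rw [g, tm_lsg _ _ _ _ tN, nu_lo ht.le, nu_lo p.J.zero_le, om.sig0, sub_zero, Ode3.Gp,
      Et_eqv Ode3.bfn_W1 (c.eqv us) s0]
    exact x3

end Crest.Agent.T156.Alt.P73

end
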