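import Crest.Agent.T156.R1MixC_65
import Crest.Agent.T156.R1Q_73
import Crest.Agent.T156.R1AlgB_77
import Crest.Agent.T156.R1S_39

/-!
Row 156 (helper65): the coefficients `lin`, `c2`, `1 - τ G` of the tested stage on the cavity list.
-/

set_option autoImplicit false
set_option linter.unusedSectionVars false

noncomputable section

namespace Crest.Agent.T156.Alt.Co65

open Finset Filter
open Crest.Agent.T157.Casc Crest.Agent.T157.SL Crest.Agent.T157.Casc.C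
open Crest.ProbabilityR.SpinGlassDynamics (spin)
open Crest.Agent.T156.Pp Crest.Agent.T156.Hess65
open Crest.Agent.T156.Pp.Area50 hiding ind
open Crest.Agent.T156.Cas Crest.Agent.T156.Cas.C40 Crest.Agent.T156.Alt.Md77
open Crest.Agent.T156.Alt.Md67 Crest.Agent.T156.Alt.CIn12 Crest.Agent.T156.Alt.Alg77
open Crest.Agent.T156.Cas.R1J (n1 ind)
open Crest.Agent.T156.Cas.R1P (len_rk n1_rk up_np rk_sML)

variable {M : Md} {m c : ℕ} {a : ℝ} {ρ z s : ℕ → ℝ} {Wt : Option (ℕ → ℝ)} {E : CIn12.Ev}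
  {Lr : List (Lv Bool)}

theorem ex_S (j : ℕ) : ex (cd M m a ρ c Wt E).S j = ex (M.L m a) j :=
  Cav22.ex_tilt tilt_opS j

/-- the site cascade of the cut model is a cavity list -/
theorem tr_cd (G : Lg M m a) (ha : 0 < a) (hρ : Rf M ρ) (hc : c < M.N) (hz : Pr.Lab z M.N)
    (hz' : ∀ k, c ≤ k → k ≤ M.N → M.z k = z k) (hH : M.H c = 0) (us : Up s M.N) (s0 : s 0 = 0)
    (H : List.Forall₂ (Rk1 spin) Lr (lsg z s M.N)) :
    TR z s (fun k => (cd M m a ρ (c + 1) Wt E).sig (k + 1)) M.N c Lr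
      (cd M m a ρ (c + 1) Wt E).S := by
  have R := rk_opS (n := m) (β := 1) ((rf_cq hρ (c + 1)).ook (a := a) G.toLeg)
  have l : (cd M m a ρ (c + 1) Wt E).S.length = M.N + 1 := opS_length.trans len_Mx
  have t : ∀ j ≤ M.N + 1, Hess65.tm (opV m 1 (M.Mx a) (qx M (cq (c + 1) ρ))) j =
      (cd M m a ρ (c + 1) Wt E).sig j := fun j hj => TT_opV (len_Mx.symm ▸ hj)
  have low : ∀ k ≤ c, (cd M m a ρ (c + 1) Wt E).sig (k + 1) = 0 := fun k hk => by
    rw [CD.sig, cd_q_lo m a ρ Wt E hc (Nat.succ_le_succ hk), mul_zero, zero_add]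
    exact (fAcc_Mx G.toLeg (by omega)).trans
      (le_antisymm ((G.Hm hk).trans hH.le) (G.H0.ge.trans (G.Hm k.zero_le)))
  refine ⟨hz, us, s0, fun j hj => ?_, low, hc.le, H, ?_, fun j _ => ?_, fun k h1 h2 => ?_,
    mono_opS_Mx G⟩
  · have := (nd_tm R).up (j + 1) (l.symm ▸ Nat.succ_lt_succ hj)
    rwa [t _ (by omega), t _ (by omega)] at this
  · have e := eq_lsg R
    erw [l] at e
    have e' := e.trans (lsg_congr (z' := ex (cd M m a ρ (c + 1) Wt E).S) (fun _ _ => rfl)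
      (s' := fun j => (cd M m a ρ (c + 1) Wt E).sig (j - 1 + 1)) fun j hj => by
        cases j with
        | zero => exact (nd_tm R).zero.trans (low 0 c.zero_le).symm
        | succ j => exact t _ hj)
    exact e' ▸ R
  · rw [ex_S]
    exact (ha.trans_le (G.ex_mono j.zero_le)).ne'
  · rw [ex_S, ex_succ G.toLeg, hz' k h1 h2]

theorem n1_cd (h : M.Leg a) (ht : Top M) (f : ℕ → ℝ) :
    n1 (cd M m a ρ (c + 1) Wt E).S (up1 c f) = ∑ k ∈ Ico (c + 1) M.N, M.dz m a k * |f k| := by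
  have l : (cd M m a ρ (c + 1) Wt E).S.length = M.N + 1 := opS_length.trans len_Mx
  have d : ∀ k, dm (cd M m a ρ (c + 1) Wt E).S 0 (k + 1) = M.dz m a k := fun k =>
    Cav22.dm_tilt tilt_opS 0 _
  rw [n1, l, sum_range_succ', sum_range_succ, up1_eq]
  simp only [d, dz_last h ht, Nat.zero_sub, ct_lo c.zero_le, abs_zero, mul_zero, zero_mul, add_zero,
    Nat.add_sub_cancel]
  refine (sum_subset (fun k hk => mem_range.2 (mem_Ico.1 hk).2) fun k h1 h2 => ?_).symm.trans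
    (sum_congr rfl fun k hk => by rw [ct_hi (mem_Ico.1 hk).1])
  rw [ct_lo (by simp only [mem_Ico, mem_range] at h1 h2; omega), abs_zero, mul_zero]

theorem abs_ind2 {L : List (Lv Bool)} {k : ℕ} (H : Ker15.R1 L) (hM : Mono 0 L) (hk : k ≤ L.length)
    (f : ℕ → ℝ) : |Wd L [ind k, f] k| ≤ 4 * 4500 ^ 2 * (n1 L f + |f k|) := by
  have b := abs_Wd2c H hM hk (ind k) f
  have i1 : n1 L (fun y => ind k y * f y) ≤ |f k| :=
    (R1P.sum_ind_le _ _ (dm_nonneg hM k)).trans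
      (mul_le_of_le_one_left (abs_nonneg _) (dm_le_one hM hk))
  rw [n1_ind hk, show ind k k = 1 from if_pos rfl, one_mul, abs_one] at b
  have a3 := n1_nn hM f
  have a6 := abs_nonneg (f k)
  have b1 : (dm L 0 k + 1) * (n1 L f + |f k|) ≤ 2 * (n1 L f + |f k|) :=
    mul_le_mul_of_nonneg_right (by linarith [dm_le_one hM hk]) (by positivity)
  linarith

/-- displacement of the node `k` -/
def hd (p : Pm) (P : Pl) (σ : ℝ) (m k : ℕ) : ℝ := |(p.gst P σ).G k| + p.bG σ / (m + 1)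

/-- displacement in `L¹` -/
def Gm (p : Pm) (P : Pl) (σ : ℝ) (m : ℕ) (a : ℝ) : ℝ :=
  ∑ k ∈ Ico (p.jf + 1) (p.NP P), (p.gst P σ).dz m a k * |(p.gst P σ).G k| + p.bG σ / (m + 1) +
    p.z p.jf * (p.jf * p.v)

/-- overlap of the active zone and of the static marks -/
def Fg (p : Pm) (P : Pl) (σ : ℝ) (m : ℕ) (a : ℝ) : ℝ :=
  ∑ k ∈ Ico (p.jf + 1) (p.NP P), (p.gst P σ).dz m a k * (p.omG σ k * |(p.gst P σ).G k|)

/-- **the coefficients on the cavity list** -/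
def CoQ (C : ℝ) (p : Pm) : Prop := ∀ σ, p.MemG σ → ∀ P : Pl, P.γ = 0 →
  Pr.Lab (p.zP P) (p.NP P) → p.jf < p.J → ∀ m a, Lg (p.gst P σ) m a → 0 < a → Top (p.gst P σ) →
  Rf (p.gst P σ) (p.gst P σ).q → ∀ Wt E D, D = cd (p.gst P σ) m a (p.gst P σ).q (p.jf + 1) Wt E →
  σ * n1 D.S (fc (p.jf + 1) (sv p σ)) ≤ C * p.muG σ ∧ ∀ k, p.jf < k → k < p.NP P →
    σ * |lin D (fc (p.jf + 1) (sv p σ)) (sh (bq p P σ)) (k + 1)| ≤
      C * (min 1 ((p.gst P σ).s k + hd p P σ m k) * (p.muG σ * Gm p P σ m a) +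
        p.omG σ k * (Gm p P σ m a + hd p P σ m k) + hd p P σ m k * p.muG σ + Fg p P σ m a +
        min 1 (p.jf * p.v) * p.msG σ (p.jf * p.v)) ∧
    σ * |c2 D (fc (p.jf + 1) (sv p σ)) (deriv p.bG σ) (k + 1)| ≤ C * (p.muG σ + p.omG σ k) ∧
    (k < p.J → σ * |c2 D (fc (p.jf + 1) (sv p σ)) (deriv p.bG σ) (k + 1)| ≤
        C * (p.msG σ (k * p.v) + (p.muG σ + p.omG σ k) * (Gm p P σ m a + hd p P σ m k) +
          Fg p P σ m a) ∧
      |1 - D.τ (k + 1) * R1J.G D.S (k + 1)| ≤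
        C * (p.msG σ (k * p.v) + (p.gst P σ).dz m a k + Gm p P σ m a + hd p P σ m k))

theorem lin_num {σ B K τ u w r q p p' F γ Γ f o h η P Φ x x' lo ms μ n : ℝ} (σ0 : 0 < σ)
    (B1 : 1 ≤ B) (K1 : 1 ≤ K) (t0 : 0 ≤ τ) (tB : τ ≤ B) (u0 : 0 ≤ u) (uη : u ≤ η)
    (a1 : |w - r| ≤ 4500 ^ 2 * (1152 * p * (F * γ) + 2 * (|f| * γ) + 2 * (|h| * F) + 2 * P +
      8 * |f * h|)) (a2 : |q - r| ≤ 184320 * (x * lo)) (a3 : |q| ≤ 40 * (n + |f|)) (p0 : 0 ≤ p)
    (pp : p ≤ p') (F0 : 0 ≤ F) (FK : σ * F ≤ K * μ) (γ0 : 0 ≤ γ) (γΓ : γ ≤ Γ) (fo : σ * |f| ≤ o)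
    (hη : |h| ≤ η) (PΦ : σ * P ≤ Φ + K * (η * μ)) (Φ0 : 0 ≤ Φ) (x0 : 0 ≤ x) (xx : x ≤ x')
    (lK : σ * lo ≤ K * ms) (ms0 : 0 ≤ ms) (nK : σ * n ≤ K * μ) (μ0 : 0 ≤ μ) :
    σ * |(τ * w - (τ + u) * q) / 2| ≤ B * K * (1200 * 4500 ^ 2) *
      (p' * (μ * Γ) + o * (Γ + η) + η * μ + Φ + x' * ms) := by
  have o0 : 0 ≤ o := le_trans (by positivity) fo
  have η0 := u0.trans uη
  have Γ0 := γ0.trans γΓ
  have s1 : 0 ≤ p' * (μ * Γ) := mul_nonneg (p0.trans pp) (by positivity)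
  have s2 : 0 ≤ o * Γ := by positivity
  have s3 : 0 ≤ o * η := by positivity
  have s4 : 0 ≤ η * μ := by positivity
  have s5 : 0 ≤ x' * ms := mul_nonneg (x0.trans xx) ms0
  have b1 : p * (σ * F * γ) ≤ p' * (K * μ * Γ) := by gcongr; exact p0.trans pp
  have b2 : σ * |f| * γ ≤ o * Γ := by gcongr
  have b3 : |h| * (σ * F) ≤ η * (K * μ) := by gcongr
  have b4 : σ * |f| * |h| ≤ o * η := by gcongr
  have b5 : x * (σ * lo) ≤ K * (x' * ms) :=
    (mul_le_mul_of_nonneg_left lK x0).trans (by rw [mul_left_comm]; gcongr)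
  have c2 := le_mul_of_one_le_left s2 K1
  have c3 := le_mul_of_one_le_left s3 K1
  have c4 := le_mul_of_one_le_left Φ0 K1
  have K0 := zero_le_one.trans K1
  have d1 := mul_nonneg K0 s1
  have d4 := mul_nonneg K0 s4
  have d5 := mul_nonneg K0 s5
  obtain ⟨S, hS⟩ : ∃ S, S = K * (p' * (μ * Γ) + o * (Γ + η) + η * μ + Φ + x' * ms) := ⟨_, rfl⟩
  have T1 : σ * |w - r| ≤ 1152 * 4500 ^ 2 * S := by
    have := mul_le_mul_of_nonneg_left a1 σ0.le
    rw [abs_mul] at this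
    rw [hS]
    linarith
  have T2 : σ * |q - r| ≤ 184320 * S := by
    have := mul_le_mul_of_nonneg_left a2 σ0.le
    rw [hS]
    linarith
  have T3 : u * (σ * |q|) ≤ 40 * S := by
    have : u * (σ * |q|) ≤ η * (40 * (K * μ + o)) :=
      mul_le_mul uη (by linarith [mul_le_mul_of_nonneg_left a3 σ0.le]) (by positivity) η0
    rw [hS]
    linarith
  have S0 : 0 ≤ S := by rw [hS]; positivity
  have e : |(τ * w - (τ + u) * q) / 2| ≤ τ * |w - r| + τ * |q - r| + u * |q| := by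
    have x1 := mul_le_mul_of_nonneg_left (le_abs_self (w - r)) t0
    have x2 := mul_le_mul_of_nonneg_left (neg_abs_le (w - r)) t0
    have x3 := mul_le_mul_of_nonneg_left (le_abs_self (q - r)) t0
    have x4 := mul_le_mul_of_nonneg_left (neg_abs_le (q - r)) t0
    have x5 := mul_le_mul_of_nonneg_left (le_abs_self q) u0
    have x6 := mul_le_mul_of_nonneg_left (neg_abs_le q) u0
    rw [abs_le]
    constructor <;> linarith
  have g1 := mul_le_mul tB T1 (by positivity) (by linarith)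
  have g2 := mul_le_mul tB T2 (by positivity) (by linarith)
  have g3 := le_mul_of_one_le_left S0 B1
  have := mul_le_mul_of_nonneg_left e σ0.le
  have e2 : B * K * (1200 * 4500 ^ 2) * (p' * (μ * Γ) + o * (Γ + η) + η * μ + Φ + x' * ms) =
      1200 * 4500 ^ 2 * (B * S) := by rw [hS]; ring
  rw [e2]
  linarith

theorem c2_crude {σ B K τ b' w F f o μ : ℝ} (σ0 : 0 < σ) (B1 : 1 ≤ B) (K1 : 1 ≤ K) (t0 : 0 ≤ τ)
    (tB : τ ≤ B) (a1 : σ * |b'| ≤ K * μ) (a2 : |w| ≤ 4 * 4500 ^ 2 * (F + |f|))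
    (FK : σ * F ≤ K * μ) (fo : σ * |f| ≤ o) (μ0 : 0 ≤ μ) :
    σ * |b' / 4 + τ ^ 2 / 4 * w| ≤ B ^ 2 * K * (2 * 4500 ^ 2) * (μ + o) := by
  have o0 : 0 ≤ o := le_trans (by positivity) fo
  have c1 := le_mul_of_one_le_left o0 K1
  have K0 := zero_le_one.trans K1
  have T : σ * |w| ≤ 4 * 4500 ^ 2 * (K * (μ + o)) := by
    linarith [mul_le_mul_of_nonneg_left a2 σ0.le]
  have g := mul_le_mul (pow_le_pow_left₀ t0 tB 2) T (by positivity) (by positivity)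
  have g2 := le_mul_of_one_le_left (show 0 ≤ K * (μ + o) by positivity) (one_le_pow₀ (n := 2) B1)
  have e : |b' / 4 + τ ^ 2 / 4 * w| ≤ |b'| / 4 + τ ^ 2 / 4 * |w| := by
    refine (abs_add_le _ _).trans_eq ?_
    rw [abs_mul, abs_div, abs_of_nonneg (show 0 ≤ τ ^ 2 / 4 by positivity), Nat.abs_ofNat]
  have := mul_le_mul_of_nonneg_left e σ0.le
  have := mul_nonneg K0 o0
  have := mul_nonneg K0 μ0
  linarith

theorem c2_num {σ B K τ u b' w r F f o μ γ Γ h η P Φ ms : ℝ} (σ0 : 0 < σ) (B1 : 1 ≤ B)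
    (K1 : 1 ≤ K) (t0 : 0 ≤ τ) (u0 : 0 ≤ u) (tB : τ + u ≤ B) (uη : u ≤ η)
    (a1 : σ * |b' + (τ + u) ^ 2 * r| ≤ K * ms) (a2 : |r| ≤ 4 * 4500 ^ 2 * (F + |f|))
    (a3 : |w - r| ≤ 12 * 4500 ^ 3 * ((F + |f|) * (γ + |h|) + P)) (FK : σ * F ≤ K * μ)
    (fo : σ * |f| ≤ o) (μ0 : 0 ≤ μ) (γ0 : 0 ≤ γ) (γΓ : γ ≤ Γ) (hη : |h| ≤ η)
    (PΦ : σ * P ≤ Φ + K * (η * μ)) (Φ0 : 0 ≤ Φ) (ms0 : 0 ≤ ms) :
    σ * |b' / 4 + τ ^ 2 / 4 * w| ≤
      B ^ 2 * K * (8 * 4500 ^ 3) * (ms + (μ + o) * (Γ + η) + Φ) := by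
  have o0 : 0 ≤ o := le_trans (by positivity) fo
  have η0 := u0.trans uη
  have Γ0 := γ0.trans γΓ
  have K0 := zero_le_one.trans K1
  have c1 := le_mul_of_one_le_left o0 K1
  have c2 := le_mul_of_one_le_left Φ0 K1
  have b0 : σ * (F + |f|) ≤ K * (μ + o) := by linarith
  have b1 : σ * (F + |f|) * (γ + |h|) ≤ K * (μ + o) * (Γ + η) :=
    mul_le_mul b0 (by linarith) (by positivity) (by positivity)
  obtain ⟨S, hS⟩ : ∃ S, S = K * (ms + (μ + o) * (Γ + η) + Φ) := ⟨_, rfl⟩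
  have d1 : 0 ≤ K * ms := by positivity
  have d2 : 0 ≤ K * (μ * Γ) := by positivity
  have d3 : 0 ≤ K * (o * Γ) := by positivity
  have d4 : 0 ≤ K * (o * η) := by positivity
  have d5 : 0 ≤ K * (μ * η) := by positivity
  have T1 : σ * |w - r| ≤ 24 * 4500 ^ 3 * S := by
    have := mul_le_mul_of_nonneg_left a3 σ0.le
    rw [hS]
    linarith
  have T2 : u * (σ * |r|) ≤ 4 * 4500 ^ 2 * S := by
    have : u * (σ * |r|) ≤ η * (4 * 4500 ^ 2 * (K * (μ + o))) :=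
      mul_le_mul uη (by linarith [mul_le_mul_of_nonneg_left a2 σ0.le]) (by positivity) η0
    rw [hS]
    linarith
  have T3 : σ * |b' + (τ + u) ^ 2 * r| ≤ S := by rw [hS]; linarith
  have S0 : 0 ≤ S := le_trans (by positivity) T3
  have e : |b' / 4 + τ ^ 2 / 4 * w| ≤
      (|b' + (τ + u) ^ 2 * r| + τ ^ 2 * |w - r| + (2 * τ + u) * (u * |r|)) / 4 := by
    have y0 : 0 ≤ (2 * τ + u) * u := by positivity
    have x1 := mul_le_mul_of_nonneg_left (le_abs_self (w - r)) (sq_nonneg τ)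
    have x2 := mul_le_mul_of_nonneg_left (neg_abs_le (w - r)) (sq_nonneg τ)
    have x3 := mul_le_mul_of_nonneg_left (le_abs_self r) y0
    have x4 := mul_le_mul_of_nonneg_left (neg_abs_le r) y0
    have x5 := le_abs_self (b' + (τ + u) ^ 2 * r)
    have x6 := neg_abs_le (b' + (τ + u) ^ 2 * r)
    rw [abs_le]
    constructor <;> linarith
  have B2 : B ≤ B ^ 2 := le_self_pow₀ B1 two_ne_zero
  have g1 := mul_le_mul (pow_le_pow_left₀ t0 (show τ ≤ B by linarith) 2) T1 (by positivity)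
    (by positivity)
  have g2 := mul_le_mul (show 2 * τ + u ≤ 2 * B ^ 2 by linarith) T2 (by positivity) (by positivity)
  have g3 := le_mul_of_one_le_left S0 (B1.trans B2)
  have := mul_le_mul_of_nonneg_left e σ0.le
  have e2 : B ^ 2 * K * (8 * 4500 ^ 3) * (ms + (μ + o) * (Γ + η) + Φ) =
      8 * 4500 ^ 3 * (B ^ 2 * S) := by rw [hS]; ring
  rw [e2]
  linarith

theorem G_num {B K A τ u v g r d γ Γ h η ms : ℝ} (B1 : 1 ≤ B) (K1 : 1 ≤ K) (A1 : 1 ≤ A)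
    (t0 : 0 ≤ τ) (u0 : 0 ≤ u) (tB : τ + u ≤ B) (uη : u ≤ η) (b0 : 3 / 4 ≤ τ + u)
    (uv : u = (τ + u) * v) (v1 : v ≤ 1) (a1 : |1 - (τ + u) * r| ≤ K * ms)
    (a2 : |g - r| ≤ A * (d + γ + |h|)) (d0 : 0 ≤ d) (γ0 : 0 ≤ γ) (γΓ : γ ≤ Γ) (hη : |h| ≤ η) :
    |1 - τ * g| ≤ (B * A + 2 * K) * (ms + d + Γ + η) := by
  have v0 : 0 ≤ v := by
    by_contra hv
    nlinarith
  have ms0 : 0 ≤ ms := (mul_nonneg_iff_of_pos_left (by linarith)).1 ((abs_nonneg _).trans a1)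
  have η0 := u0.trans uη
  have vη : v ≤ 2 * η := by nlinarith
  have e : 1 - τ * g = (1 - v) * (1 - (τ + u) * r) - τ * (g - r) + v := by
    linear_combination r * uv
  have x1 : |(1 - v) * (1 - (τ + u) * r)| ≤ K * ms := by
    rw [abs_mul, abs_of_nonneg (sub_nonneg.2 v1)]
    exact (mul_le_of_le_one_left (abs_nonneg _) (by linarith)).trans a1
  have x2 : |τ * (g - r)| ≤ B * (A * (d + Γ + η)) := by
    rw [abs_mul, abs_of_nonneg t0]
    exact mul_le_mul (by linarith) (a2.trans (mul_le_mul_of_nonneg_left (by linarith) (by linarith)))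
      (abs_nonneg _) (by linarith)
  have y1 : 0 ≤ B * A * ms := by positivity
  have y2 : 0 ≤ K * (ms + d + Γ) := mul_nonneg (by linarith) (by linarith)
  have y3 := le_mul_of_one_le_left η0 K1
  have y4 : 0 ≤ K * (d + Γ) := mul_nonneg (by linarith) (by linarith)
  rw [e, abs_le] at *
  constructor <;> linarith

variable {p : Pm} {P : Pl} {σ Y : ℝ}

/-- the mass of the velocity on the profile grid -/
theorem n1_sv (h : OP p (Set.Ioi 0) p.omG (omG' p) p.epsG Y) (hσ : 0 < σ)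
    (hz : Pr.Lab (p.zP P) (p.NP P)) (H : List.Forall₂ (Rk1 spin) Lr (lsg (p.zP P) s (p.NP P))) :
    n1 Lr (sv p σ) ≤ Pr.Dw p.z (p.J + p.Nr) 1 (omG' p σ) := by
  have z0 : sv p σ 0 = 0 := by simp [sv, dom, omG', hσ.le]
  rw [n1_rk H (hz.top _ le_rfl) z0, Pr.Dw, Pr.Dw,
    ← sum_subset (s₁ := range (p.J - 1)) (range_subset_range.2 (by unfold Pm.NP; omega))
      fun j _ hj => by
        rw [sv, h.dom_eq hσ P, h.om'_hi hσ (by
          have := mem_range.not.1 hj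
          unfold Md77.nu
          split_ifs <;> omega)]
        simp]
  refine (sum_congr rfl fun j hj => ?_).trans_le (sum_le_sum_of_subset_of_nonneg
    (range_subset_range.2 (by omega : p.J - 1 ≤ _)) fun j _ _ =>
      mul_nonneg (h.lab.dm_nn j) (mul_nonneg zero_le_one (abs_nonneg _)))
  have := mem_range.1 hj
  rw [Pr.dm, Pr.dm, Mem37.zP_lo (by omega), Mem37.zP_lo (by omega), sv, dom, if_pos (by omega),
    abs_neg]

/-- **`q'` on the profile grid** -/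
theorem dq_W (h : OP p (Set.Ioi 0) p.omG (omG' p) p.epsG Y) (hσ : 0 < σ) (hg : P.γ = 0)
    (hz : Pr.Lab (p.zP P) (p.NP P))
    (H : List.Forall₂ (Rk1 spin) Lr (lsg (p.zP P) (p.sO P (p.omG σ)) (p.NP P))) {k : ℕ}
    (hk : k ≤ p.NP P) : deriv (fun t => p.qO P (p.omG t) k) σ = Wd Lr [sv p σ] k := by
  have c := P73.col_nu h.lab fun k _ => (hz.pos.trans_le (hz.mono k.zero_le)).ne'
  have R := h.np.rk p.z (p.J + p.Nr) hσ
  rw [show p.sO P (p.omG σ) = fun k => Pr.sig p.v (p.omG σ) (nu p P k) from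
    funext (h.sO_eq hg hσ)] at H
  have e := c.wd [fun j => -omG' p σ j] (by simp [omG', hσ.le]) hk (h.hom σ hσ).sig0
    (up_np h.np hσ _) R H
  rw [h.dq_eq hg hσ, show sv p σ = fun k => -omG' p σ (nu p P k) from
    funext fun k => by rw [sv, h.dom_eq hσ P]]
  exact (der_q h.np hσ (nu_le p P hk) R).trans e.symm

set_option maxHeartbeats 800000 in
theorem coQ (β : ℝ) (hβ : 1 < β) : Cst β CoQ := by
  intro c0 C0 hc0 hC0
  obtain ⟨K, k1, H1⟩ := P73.c2Q R1J.s1 R1J.s2 R1J.s3 β hβ c0 C0 hc0 hC0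
  obtain ⟨K', -, H2⟩ := p1G β hβ c0 C0 hc0 hC0
  obtain ⟨A, a1, hA⟩ := G_up R1J.s1
  have B1 : 1 ≤ β ^ 2 := one_le_pow₀ hβ.le
  have B2 : β ^ 2 ≤ (β ^ 2) ^ 2 := le_self_pow₀ B1 two_ne_zero
  have BK : K ≤ β ^ 2 * K := le_mul_of_one_le_left (by linarith) B1
  have BK' : β ^ 2 * K ≤ (β ^ 2) ^ 2 * K := mul_le_mul_of_nonneg_right B2 (by linarith)
  have BA : 0 ≤ β ^ 2 * A := by positivity
  obtain ⟨C, hC⟩ : ∃ C, C = (β ^ 2) ^ 2 * K * (8 * 4500 ^ 3) + β ^ 2 * A := ⟨_, rfl⟩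
  refine ⟨C, by linarith, fun A' hA' c hc hc' => ?_⟩
  filter_upwards [H1 A' hA' c hc hc', H2 A' hA' c hc hc'] with n H1 H2 p q1 q2 q3 q4 ok σ hm
    P hg hz hj m a G ha ht hρ Wt E D hD
  obtain ⟨⟨σ0, κ0, r0, ry, κ1, yJ⟩, ⟨om, -⟩, ⟨b0, b1, -⟩, -, -, -, -, -, em, -, ve, -⟩ :=
    H2 p q1 q2 q3 q4 ok σ hm
  obtain ⟨⟨f1, f2, -, f3, f4⟩, f5⟩ := H1 p q1 q2 q3 q4 ok σ hm
  rw [q1] at b1
  have hb := ok.base
  have v0 := hb.v_pos
  have h := op_gst p v0 hb.lab κ0.le (by linarith) (by linarith) yJ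
  have ε0 : 0 ≤ p.epsG σ := (Real.sqrt_nonneg _).trans ve
  have m0 : ∀ t, 0 ≤ p.msG σ t := fun t => ε0.trans (em t).1
  have μ0 : 0 ≤ p.muG σ := (m0 0).trans (em 0).2
  have hx : ∀ k < p.NP P, p.zP P k ≠ 0 := fun k _ => (hz.pos.trans_le (hz.mono k.zero_le)).ne'
  have us : Up (p.sO P (p.omG σ)) (p.NP P) := by
    rw [show p.sO P (p.omG σ) = fun k => Pr.sig p.v (p.omG σ) (nu p P k) from
      funext (h.sO_eq hg σ0)]
    exact (P73.col_nu h.lab hx).up (up_np h.np σ0 _)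
  have s0 : p.sO P (p.omG σ) 0 = 0 := (Mem37.sP_lo p.J.zero_le).trans om.sig0
  obtain ⟨Lr, H⟩ := ex_rk1 (p.zP P) us
  have jN : p.jf < p.NP P := by unfold Pm.NP; omega
  have T : TR (p.zP P) (p.sO P (p.omG σ)) (fun k => D.sig (k + 1)) (p.NP P) p.jf Lr D.S :=
    hD ▸ tr_cd G ha hρ jN hz (fun k h1 _ => congrArg (p.zP P) (max_eq_left h1))
      (by simp [Pm.gst, Pm.famO, Pm.HO]) us s0 H
  have nD : ∀ f, n1 D.S (up1 p.jf f) =
      ∑ k ∈ Ico (p.jf + 1) (p.NP P), (p.gst P σ).dz m a k * |f k| := fun f =>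
    hD ▸ n1_cd G.toLeg ht f
  have dd : ∀ k, (p.gst P σ).d k = p.bG σ := fun k => by simp [Pm.gst, Pm.famO]
  obtain ⟨u, hu⟩ : ∃ u, u = p.bG σ / (m + 1) := ⟨_, rfl⟩
  have u0 : 0 ≤ u := hu ▸ div_nonneg (by linarith) (by positivity)
  have tu : ∀ k, 0 ≤ tp (p.gst P σ) m k ∧ p.bG σ = tp (p.gst P σ) m k + u := fun k => by
    have := tp_mem (m := m) G.toLeg k
    rw [dd] at this
    exact ⟨this.1, by linarith [this.2.2]⟩
  have hh : ∀ k, p.jf + 1 ≤ k → k < p.NP P →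
      |D.sig (k + 1) - p.sO P (p.omG σ) k| ≤ |(p.gst P σ).G k| + u := fun k h1 h2 => by
    have e : D.sig (k + 1) - p.sO P (p.omG σ) k = (p.gst P σ).G k - u * (p.gst P σ).q k := by
      rw [hD, cd_sig m _ Wt E G.toLeg h1 h2, Md.G, dd, (tu k).2]
      change _ - (p.gst P σ).s k = _
      ring
    rw [e]
    refine (abs_sub _ _).trans (add_le_add le_rfl ?_)
    rw [abs_of_nonneg (mul_nonneg u0 (q_nonneg k))]
    exact mul_le_of_le_one_right u0 (q_le_one k)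
  have fo : ∀ k, σ * |sv p σ k| ≤ p.omG σ k := fun k => by
    rw [sv, abs_neg, dom]
    split_ifs
    exacts [f3 k, by simpa using om.nn k]
  have nK : σ * n1 Lr (sv p σ) ≤ K * p.muG σ :=
    (mul_le_mul_of_nonneg_left (n1_sv h σ0 hz H) σ0.le).trans f2
  have FK : σ * n1 D.S (up1 p.jf (sv p σ)) ≤ K * p.muG σ := by
    refine le_trans (mul_le_mul_of_nonneg_left ?_ σ0.le) nK
    rw [T.n1_up]
    exact R1J.n1_mono T.monoR fun j => by unfold ct; split_ifs <;> simp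
  have γΓ : gam (p.zP P) (p.sO P (p.omG σ)) (fun k => D.sig (k + 1)) p.jf D.S ≤ Gm p P σ m a := by
    rw [gam, Gm, nD, Mem37.zP_lo hj, Mem37.sP_lo hj.le, ← hu]
    refine add_le_add ((sum_le_sum fun k hk => mul_le_mul_of_nonneg_left
      (hh k (mem_Ico.1 hk).1 (mem_Ico.1 hk).2) (G.dz_nonneg k)).trans ?_)
      (mul_le_mul_of_nonneg_left (om.sig_le _) (hb.lab.pos.le.trans (hb.lab.mono p.jf.zero_le)))
    simp only [mul_add, sum_add_distrib, ← sum_mul]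
    exact add_le_add le_rfl (mul_le_of_le_one_left u0 ((G.sum_dz_le _).trans (by linarith)))
  have PΦ : σ * n1 D.S (up1 p.jf fun j => sv p σ j * (D.sig (j + 1) - p.sO P (p.omG σ) j)) ≤
      Fg p P σ m a + K * (u * p.muG σ) := by
    have := mul_le_mul_of_nonneg_left FK u0
    rw [nD, mul_sum, mul_sum] at this
    rw [nD, Fg, mul_sum, mul_left_comm K]
    refine le_trans ?_ (add_le_add le_rfl this)
    rw [← sum_add_distrib]
    refine sum_le_sum fun k hk => ?_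
    have x1 := mul_le_mul_of_nonneg_left (hh k (mem_Ico.1 hk).1 (mem_Ico.1 hk).2)
      (mul_nonneg σ0.le (abs_nonneg (sv p σ k)))
    have x2 := mul_le_mul_of_nonneg_right (fo k) (abs_nonneg ((p.gst P σ).G k))
    have := mul_le_mul_of_nonneg_left (show σ * |sv p σ k| * |D.sig (k + 1) - p.sO P (p.omG σ) k| ≤
      p.omG σ k * |(p.gst P σ).G k| + σ * |sv p σ k| * u by linarith) (G.dz_nonneg k)
    rw [abs_mul]
    linarith
  have Φ0 : 0 ≤ Fg p P σ m a :=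
    sum_nonneg fun k _ => mul_nonneg (G.dz_nonneg k) (mul_nonneg (om.nn k) (abs_nonneg _))
  have lK : σ * ∑ j ∈ range p.jf, Pr.dm (p.zP P) j * |sv p σ (j + 1)| ≤
      K * p.msG σ (p.jf * p.v) := by
    refine (congrArg _ (sum_congr rfl fun j hj' => ?_)).trans_le (f4 _ hj)
    have := mem_range.1 hj'
    rw [Pr.dm, Pr.dm, Mem37.zP_lo (by omega), Mem37.zP_lo (by omega), sv, dom, if_pos (by omega),
      abs_neg]
  have up : ∀ {x y a : ℝ}, x ≤ a * y → 0 ≤ y → a ≤ C → x ≤ C * y :=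
    fun a b c => a.trans (mul_le_mul_of_nonneg_right c b)
  refine ⟨up FK μ0 (by linarith), fun k k0 kN => ?_⟩
  have hη : |D.sig (k + 1) - p.sO P (p.omG σ) k| ≤ hd p P σ m k := by
    rw [hd, ← hu]; exact hh k k0 kN
  have uη : u ≤ hd p P σ m k := by rw [hd, ← hu]; linarith [abs_nonneg ((p.gst P σ).G k)]
  have η0 := u0.trans uη
  have Γ0 := T.gam_nn.trans γΓ
  have o0 := om.nn k
  have PΦ' := PΦ.trans (add_le_add le_rfl (mul_le_mul_of_nonneg_left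
    (mul_le_mul_of_nonneg_right uη μ0) (zero_le_one.trans k1)))
  have τe : D.τ (k + 1) = tp (p.gst P σ) m k := hD ▸ cd_tau m a _ Wt E kN.le
  obtain ⟨t0, tb⟩ := tu k
  have tB : tp (p.gst P σ) m k ≤ β ^ 2 := by linarith
  have sk : 0 ≤ p.sO P (p.omG σ) k := s0 ▸ us.le k.zero_le kN.le
  have sj : 0 ≤ p.sO P (p.omG σ) p.jf := s0 ▸ us.le p.jf.zero_le jN.le
  have F0 := n1_nn T.mono (up1 p.jf (sv p σ))
  have lR : k ≤ Lr.length := (len_rk H).symm ▸ kN.le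
  refine ⟨up (a := β ^ 2 * K * (1200 * 4500 ^ 2)) ?_ ?_ (by linarith),
    up (a := (β ^ 2) ^ 2 * K * (2 * 4500 ^ 2)) ?_ (by positivity) (by linarith), fun kJ =>
    ⟨up (a := (β ^ 2) ^ 2 * K * (8 * 4500 ^ 3)) ?_ (by have := m0 (k * p.v); positivity)
      (by linarith), up (a := β ^ 2 * A + 2 * K) ?_
      (by have := m0 (k * p.v); have := G.dz_nonneg k; positivity) (by linarith)⟩⟩
  · rw [lin, τe, sh_succ, bq, dq_W h σ0 hg hz H kN.le, tb]
    refine lin_num σ0 B1 k1 t0 tB u0 uη (T.lin_up (sv p σ) k0 kN.le)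
      (T.lin_low (by simp [sv, dom, omG', σ0.le]) k0 kN.le)
      (abs_Wd1c (Ker15.r1_of H) T.monoR lR _) (le_min zero_le_one (sk.trans (le_max_left _ _)))
      (min_le_min le_rfl (max_le (le_add_of_nonneg_right η0) ?_)) F0 FK T.gam_nn γΓ (fo k) hη PΦ'
      Φ0 (le_min zero_le_one sj) (min_le_min le_rfl ?_) lK (m0 _) nK μ0
    · change _ ≤ p.sO P (p.omG σ) k + _
      linarith [le_abs_self (D.sig (k + 1) - p.sO P (p.omG σ) k)]
    · rw [Mem37.sP_lo hj.le]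
      exact om.sig_le _
  · have : 0 ≤ min 1 ((p.gst P σ).s k + hd p P σ m k) := le_min zero_le_one (add_nonneg sk η0)
    have : 0 ≤ min 1 (p.jf * p.v) := le_min zero_le_one (by positivity)
    have := m0 (p.jf * p.v)
    positivity
  · rw [c2, τe]
    have a := abs_ind2 (Ker15.r1_of T.cav) T.mono (k := k + 1)
      ((len_rk T.cav).symm ▸ Nat.succ_le_succ kN.le) (up1 p.jf (sv p σ))
    rw [show up1 p.jf (sv p σ) (k + 1) = sv p σ k from if_neg (by omega)] at a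
    exact c2_crude σ0 B1 k1 t0 tB f1 a FK (fo k) μ0
  · rw [c2, τe]
    have a := abs_ind2 (Ker15.r1_of H) T.monoR lR (ct p.jf (sv p σ))
    have b := (f5 P hg hx Lr H k k0 kJ).1
    rw [← T.n1_up, ct_hi k0] at a
    rw [tb] at b
    exact c2_num σ0 B1 k1 t0 u0 (by linarith) uη b a (T.a_up (sv p σ) k0 kN.le) FK (fo k) μ0
      T.gam_nn γΓ hη PΦ' Φ0 (m0 _)
  · have a' := hA _ _ _ _ _ _ _ _ T k0 kN
    have b := (f5 P hg hx Lr H k k0 kJ).2
    rw [show dm D.S 0 (k + 1) = (p.gst P σ).dz m a k from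
      hD ▸ Cav22.dm_tilt tilt_opS 0 _] at a'
    rw [τe]
    rw [tb] at b
    exact G_num (v := 1 / (m + 1)) B1 k1 a1 t0 u0 (by linarith) uη (by linarith)
      (by rw [← tb, hu]; ring) (div_le_one_of_le₀ (by linarith [Nat.cast_nonneg (α := ℝ) m])
        (by positivity)) b a' (G.dz_nonneg k) T.gam_nn γΓ hη

end Crest.Agent.T156.Alt.Co65

end
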