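import Crest.Agent.T156.R1PD_60
import Crest.Agent.T156.R1C2_56

/-!
# Row 156, R1 (helper75): the `L¹` sums `N1`, `Ga`, `Gb`, `A1` of `P60.MS`
-/

set_option autoImplicit false
set_option linter.unusedSectionVars false

noncomputable section

namespace Crest.Agent.T156.Alt.P60.M75

open Real Finset
open Crest.Agent.T156.Alt.Md67 Crest.Agent.T156.Alt.R62 Crest.Agent.T156.Alt.R77
open Crest.Agent.T156.Alt.R82 Crest.Agent.T156.Alt.SD56

theorem cs_w {U : Finset ℕ} {w f : ℕ → ℝ} (hw : ∀ k ∈ U, 0 ≤ w k) :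
    (∑ k ∈ U, w k * f k) ^ 2 ≤ (∑ k ∈ U, w k) * ∑ k ∈ U, w k * f k ^ 2 := by
  have := Finset.sum_mul_sq_le_sq_mul_sq U (fun k => √(w k)) fun k => √(w k) * f k
  rwa [sum_congr rfl (g := fun k => w k * f k) fun k hk => by
      rw [← mul_assoc, mul_self_sqrt (hw k hk)],
    sum_congr rfl (f := fun k => √(w k) ^ 2) (g := w) fun k hk => sq_sqrt (hw k hk),
    sum_congr rfl (f := fun k => (√(w k) * f k) ^ 2) (g := fun k => w k * f k ^ 2) fun k hk => by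
      rw [mul_pow, sq_sqrt (hw k hk)]] at this

section cls

variable {S : Sc} {M : Md} {m : ℕ} {E x l Φ l0 Λ₀ Pt u1 V4 : ℝ} {Pf : ℝ → ℝ} {G : ℕ → ℝ}

/-- sloped nodes of time `≤ y` -/
def up (S : Sc) (M : Md) (y : ℝ) : Finset ℕ := (Ioo S.jl S.J).filter fun k => M.s k ≤ y

theorem up_sub (h : Cl S M) {y : ℝ} : up S M y ⊆ Ioo S.jl M.N := fun k hk => by
  have := h.i3
  have := h.i4
  have := mem_Ioo.1 (mem_filter.1 hk).1
  exact mem_Ioo.2 (by omega)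

theorem lz_sub (h : Cl S M) {y : ℝ} : lz S M y ⊆ Ioo S.jl M.N := fun k hk => by
  have := h.i3
  have := h.i4
  have := mem_Ioo.1 (mem_filter.1 hk).1
  exact mem_Ioo.2 (by omega)

theorem dz0 (h : Cl S M) {k : ℕ} (hk : k ∈ Ioo S.jl M.N) : 0 ≤ M.dz m x k := by
  rw [dz_up h.leg (pos_of S M k hk)]; exact sub_nonneg.2 (h.leg.zm (Nat.sub_le _ _))

theorem ms_rat (h : Cl S M) {τ y : ℝ} (τ0 : 0 < τ) (hy : τ ≤ y) :
    S.ms y * τ ^ 2 ≤ 4 * y ^ 2 * S.ms τ := by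
  obtain ⟨i, h1, h2⟩ := exists_nat_pow_near ((one_le_div τ0).2 hy) (one_lt_two (α := ℝ))
  rw [le_div_iff₀ τ0] at h1
  rw [div_lt_iff₀ τ0] at h2
  have a := (h.msm h2.le).trans (h.ms_pow τ0.le (i + 1))
  have b : (2 ^ i * τ) ^ 2 ≤ y ^ 2 := pow_le_pow_left₀ (by positivity) h1 2
  have c : (4 : ℝ) ^ (i + 1) * τ ^ 2 = 4 * (2 ^ i * τ) ^ 2 := by
    rw [mul_pow, ← pow_mul, mul_comm i 2, pow_mul, pow_succ]; ring
  calc S.ms y * τ ^ 2 ≤ 4 ^ (i + 1) * S.ms τ * τ ^ 2 := by gcongr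
    _ = 4 * (2 ^ i * τ) ^ 2 * S.ms τ := by rw [← c]; ring
    _ ≤ _ := by have := h.ms_pos τ0.le; gcongr

theorem wt_lz (h : Cl S M) {U : Finset ℕ} {y : ℝ} (y0 : 0 ≤ y) (hU : U ⊆ lz S M y) :
    ∑ k ∈ U, M.dz m x k ≤ S.C ^ 2 * y :=
  (sum_le_sum_of_subset_of_nonneg hU fun _ hk _ => dz0 h (lz_sub h hk)).trans (lz_wt h y0)

theorem abs_del (K : MK S M 8 E m x l Φ Pf l0 Λ₀ Pt u1 V4 G) {k : ℕ} (hk : k ∈ Ioo S.jl M.N) :
    |M.del m x k| ≤ 4 * G k := by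
  have h := mom K (i := 1) (by norm_num) hk
  rw [show (2 : ℝ) ^ (1 + 1) = 4 by norm_num, pow_one (G k)] at h
  have e : M.del m x k = M.E2 m x (fun R => R + -M.q k) k := by
    rw [E2_add, E2_const]; rfl
  have e' : -M.del m x k = M.E2 m x (fun R => -1 * (R + -M.q k)) k := by rw [E2_mul, e]; ring
  have k1 : M.del m x k ≤ M.E2 m x (fun R => |R - M.q k| ^ 1) k :=
    e ▸ E2_mono (fun r _ => by rw [pow_one]; exact le_abs_self _) k
  have k2 : -M.del m x k ≤ M.E2 m x (fun R => |R - M.q k| ^ 1) k :=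
    e' ▸ E2_mono (fun r _ => by rw [pow_one]; linarith [neg_abs_le (r - M.q k)]) k
  exact _root_.abs_le.2 ⟨by linarith, by linarith⟩

/-- Cauchy–Schwarz on one piece -/
theorem piece (h : Cl S M) (K : MK S M 8 E m x l Φ Pf l0 Λ₀ Pt u1 V4 G) {U : Finset ℕ}
    (hU : U ⊆ Ioo S.jl M.N) {c : ℕ → ℝ} {B w b : ℝ} (c0 : ∀ k, 0 ≤ c k) (hc : ∀ k ∈ U, c k ≤ B)
    (B0 : 0 ≤ B) (hw : ∑ k ∈ U, M.dz m x k ≤ w) (hb : ∑ k ∈ U, M.dz m x k * G k ^ 2 ≤ b) :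
    (∑ k ∈ U, M.dz m x k * (c k * |M.del m x k|)) ^ 2 ≤ 16 * B ^ 2 * (w * b) := by
  have d0 : ∀ k ∈ U, 0 ≤ M.dz m x k := fun k hk => dz0 h (hU hk)
  have a1 : ∑ k ∈ U, M.dz m x k * (c k * |M.del m x k|) ≤ 4 * B * ∑ k ∈ U, M.dz m x k * G k := by
    rw [mul_sum]
    refine sum_le_sum fun k hk => ?_
    have := mul_le_mul_of_nonneg_left
      (mul_le_mul (hc k hk) (abs_del K (hU hk)) (abs_nonneg _) B0) (d0 k hk)
    linarith
  have a2 := (cs_w (f := G) d0).trans (mul_le_mul hw hb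
    (sum_nonneg fun k hk => mul_nonneg (d0 k hk) (sq_nonneg _)) ((sum_nonneg d0).trans hw))
  refine (pow_le_pow_left₀ (sum_nonneg fun k hk => mul_nonneg (d0 k hk)
    (mul_nonneg (c0 k) (abs_nonneg _))) a1 2).trans ?_
  rw [mul_pow, mul_pow, show (4 : ℝ) ^ 2 = 16 by norm_num]
  exact mul_le_mul_of_nonneg_left a2 (by positivity)

/-- dyadic splitting of the sloped nodes below `y ≤ T0` -/
theorem split (h : Cl S M) {g : ℕ → ℝ} {I : ℕ} {y v : ℝ} (g0 : ∀ k ∈ Ioo S.jl M.N, 0 ≤ g k)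
    (v0 : 0 ≤ v) (hI : T0 S M ≤ l0 * 2 ^ I) (l00 : 0 ≤ l0) (hT : l0 ≤ T0 S M) (hy : y ≤ T0 S M)
    (lo : ∑ k ∈ lz S M l0, g k ≤ v)
    (hb : ∀ τ, l0 ≤ τ → τ ≤ y → ∑ k ∈ sb S M τ (2 * τ), g k ≤ v) :
    ∑ k ∈ up S M y, g k ≤ (I + 2) * v := by
  classical
  let g' : ℕ → ℝ := fun k => if k ∈ up S M y then g k else 0
  have g1 : ∀ k ∈ Ioo S.jl M.N, 0 ≤ g' k := fun k hk => by
    simp only [g']; split_ifs; exacts [g0 k hk, le_rfl]
  have g2 : ∀ k ∈ Ioo S.jl M.N, g' k ≤ g k := fun k hk => by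
    simp only [g']; split_ifs; exacts [le_rfl, g0 k hk]
  have b1 : ∀ τ, l0 ≤ τ → ∑ k ∈ sb S M τ (2 * τ), g' k ≤ v := fun τ h1 => by
    rcases le_or_gt τ y with c | c
    · exact (sum_le_sum fun k hk => g2 k (sb_sub h hk)).trans (hb τ h1 c)
    · refine (sum_eq_zero fun k hk => if_neg fun e => ?_).trans_le v0
      linarith [(mem_filter.1 e).2, (mem_sb.1 hk).2.1]
  have b2 : ∑ k ∈ tz S M 0, g' k ≤ v := by
    refine le_trans ?_ (b1 _ hT)
    rw [← sum_filter_add_sum_filter_not (tz S M 0) fun k => k ∈ up S M y,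
      sum_eq_zero (s := filter (fun k => k ∉ up S M y) _) fun k hk => if_neg (mem_filter.1 hk).2,
      add_zero]
    refine sum_le_sum_of_subset_of_nonneg (fun k hk => ?_) fun k hk _ => g1 k (sb_sub h hk)
    obtain ⟨h1, h2⟩ := mem_filter.1 hk
    obtain ⟨h3, h4⟩ := mem_filter.1 h2
    rcases mem_union.1 h1 with e | e
    · exact mem_sb.2 ⟨mem_Ioo.1 h3, (mem_sb.1 e).2.1, by linarith⟩
    · exact absurd (mem_Ioo.1 h3).2 (not_lt.2 (mem_pl.1 e).1.1)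
  have b3 := dyad (u1 := 0) h g1 v0 hI l00 (fun τ h1 _ => b1 τ h1) b2
  have b4 : ∑ k ∈ up S M y, g k ≤ ∑ k ∈ lz S M l0 ∪ gd S M l0 0, g' k := by
    rw [sum_congr rfl (g := g') fun k hk => (if_pos hk).symm]
    refine sum_le_sum_of_subset_of_nonneg (fun k hk => ?_)
      fun k hk _ => g1 k (union_subset (lz_sub h) (gd_sub h) hk)
    rcases lt_or_ge (M.s k) l0 with c | c
    · exact mem_union_left _ (mem_filter.2 ⟨(mem_filter.1 hk).1, c⟩)
    · exact mem_union_right _ (mem_union_left _ (mem_filter.2 ⟨(mem_filter.1 hk).1, c⟩))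
  have b5 := sum_union_le (U := lz S M l0) fun k hk => g1 k (gd_sub (l0 := l0) (u1 := 0) h hk)
  have b6 : ∑ k ∈ lz S M l0, g' k ≤ v := (sum_le_sum fun k hk => g2 k (lz_sub h hk)).trans lo
  linarith

end cls

variable {E t a a' Q l Φ l0 Λ₀ Pt u1 V4 x : ℝ} {p : Pm} {P : Pl} {m I : ℕ} {S : Sc} {Pf : ℝ → ℝ}
  (F : Fr E p P t a a' Q m S l Φ Pf l0 Λ₀ Pt u1 V4 I)
include F

theorem T0_pos : 0 < T0 S (p.gst P t) := by
  have := F.T0_ge
  have := pow_pos F.E0 4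
  by_contra c
  nlinarith [not_lt.1 c]

theorem l_le : l ≤ 1 / E ^ 200 :=
  F.nr.ly.trans (mul_le_of_le_one_right (by have := F.E0; positivity) F.y1)

theorem l_T0 : l ≤ T0 S (p.gst P t) := by
  have E0 := F.E0
  have a1 := F.T0_ge
  have a2 := T0_pos F
  have a3 : 48 * E ^ 4 ≤ E ^ 200 := by
    have : E ^ 5 ≤ E ^ 200 := F.pw (by norm_num)
    nlinarith [pow_pos E0 4, F.E1]
  refine (l_le F).trans ?_
  rw [div_le_iff₀ (by positivity)]
  nlinarith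

theorem l0_T0 : l0 ≤ T0 S (p.gst P t) := F.nr.l0l.trans (l_T0 F)

theorem l0_ye : l0 ≤ p.ye := F.nr.l0l.trans (F.nr.ly.trans (mul_le_of_le_one_left F.fx.y0.le
  ((div_le_one (pow_pos F.E0 _)).2 (one_le_pow₀ F.E1'))))

/-- **the dyadic sum against a profile** -/
theorem core (hx : x ∈ Set.Icc a a') {c : ℕ → ℝ} {B : ℝ → ℝ} {y A D : ℝ} (c0 : ∀ k, 0 ≤ c k)
    (B0 : ∀ τ, l0 ≤ τ → 0 ≤ B τ) (A0 : 0 < A) (hy0 : l0 ≤ y) (hy : y ≤ T0 S (p.gst P t))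
    (hlo : ∀ k ∈ lz S (p.gst P t) l0, c k ≤ B l0)
    (hb : ∀ τ, l0 ≤ τ → ∀ k ∈ sb S (p.gst P t) τ (2 * τ), c k ≤ B τ)
    (hn : ∀ τ, l0 ≤ τ → τ ≤ y → A * (B τ ^ 2 * (τ * Pf τ)) ≤ D) :
    A * (∑ k ∈ up S (p.gst P t) y,
      (p.gst P t).dz m x k * (c k * |(p.gst P t).del m x k|)) ^ 2 ≤ 256 * E ^ 7 * D := by
  obtain ⟨G, K⟩ := F.mkk x hx
  have E0 := F.E0
  have l00 := F.l00
  have h := F.cl
  have C2 := F.C2
  have P0 : ∀ τ, 0 ≤ Pf τ := fun τ => (F.nr.P0 τ).1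
  have D0 : 0 ≤ D := le_trans (by have := P0 l0; positivity) (hn l0 le_rfl hy0)
  set v := √(64 * E ^ 3 * D / A) with hv
  have v2 : v ^ 2 = 64 * E ^ 3 * D / A := sq_sqrt (by positivity)
  have key : ∀ τ z, l0 ≤ τ → τ ≤ y → z ^ 2 ≤ 16 * B τ ^ 2 * (S.C ^ 2 * (4 * τ) * (E * Pf τ)) →
      z ≤ v := fun τ z h1 h2 h3 => by
    have τ0 := l00.trans_le h1
    have := P0 τ
    refine le_sqrt_of_sq_le (h3.trans ?_)
    rw [le_div_iff₀ A0]
    calc 16 * B τ ^ 2 * (S.C ^ 2 * (4 * τ) * (E * Pf τ)) * A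
        = 64 * S.C ^ 2 * E * (A * (B τ ^ 2 * (τ * Pf τ))) := by ring
      _ ≤ 64 * E ^ 2 * E * D := by gcongr; exact hn τ h1 h2
      _ = _ := by ring
  have s := split (I := I) (g := fun k => (p.gst P t).dz m x k * (c k * |(p.gst P t).del m x k|)) h
    (fun k hk => mul_nonneg (dz0 h hk) (mul_nonneg (c0 k) (abs_nonneg _))) (sqrt_nonneg _) F.hI
    l00.le (l0_T0 F) hy
    (key l0 _ le_rfl hy0 (piece h K (lz_sub h) c0 hlo (B0 _ le_rfl)
      (wt_lz h (by positivity) fun k hk => mem_filter.2 ⟨(mem_filter.1 hk).1, by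
        linarith [(mem_filter.1 hk).2]⟩)
      ((sum_le_sum_of_subset_of_nonneg (lz_sub h) fun k hk _ =>
        mul_nonneg (dz0 h hk) (sq_nonneg _)).trans (by rw [F.nr.Plo l0 F.nr.l0l]; exact K.tot))))
    fun τ h1 h2 => key τ _ h1 h2 (piece h K (sb_sub h) c0 (hb τ h1) (B0 τ h1)
      (wt_lz h (by linarith) fun k hk => mem_filter.2 ⟨mem_Ioo.2 (mem_sb.1 hk).1, by
        linarith [(mem_sb.1 hk).2.2]⟩) (K.b2 τ h1 (h2.trans hy)))
  have s2 : ((I : ℝ) + 2) * v ≤ 2 * E ^ 2 * v :=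
    mul_le_mul_of_nonneg_right (by linarith [F.I1, (Nat.cast_nonneg I : (0 : ℝ) ≤ I)])
      (sqrt_nonneg _)
  have s3 := pow_le_pow_left₀ (sum_nonneg fun k hk => mul_nonneg (dz0 h (up_sub h hk))
    (mul_nonneg (c0 k) (abs_nonneg _))) (s.trans s2) 2
  refine (mul_le_mul_of_nonneg_left s3 A0.le).trans_eq ?_
  rw [mul_pow, v2]
  field_simp
  ring

theorem d0 : 0 ≤ (1 / E ^ 200) ^ 2 * n4 p := by have := F.n40; positivity

theorem Pt_le : S.θ * Λ₀ * Pt ≤ (1 / E ^ 200) ^ 2 * n4 p := by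
  refine le_trans (mul_le_mul_of_nonneg_left ?_ (mul_nonneg F.θ0.le (by linarith [F.nr.L1]))) F.nr.c
  have := F.nr.Pt0
  have := pow_pos F.r0 4
  linarith [this]

theorem ms_N1 (hx : x ∈ Set.Icc a a') : S.θ * Λ₀ * (∑ k ∈ Ioo S.jl (p.gst P t).N,
    (p.gst P t).dz m x k * |(p.gst P t).del m x k|) ^ 2 ≤ E ^ 10 * ((1 / E ^ 200) ^ 2 * n4 p) := by
  have E0 := F.E0
  have h := F.cl
  have A0 : 0 < S.θ * Λ₀ := mul_pos F.θ0 (by linarith [F.nr.L1])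
  have a1 := core F hx (c := fun _ => 1) (B := fun _ => 1) (D := (1 / E ^ 200) ^ 2 * n4 p)
    (fun _ => zero_le_one)
    (fun _ _ => zero_le_one) A0 (l0_T0 F) le_rfl (fun _ _ => le_rfl) (fun _ _ _ _ => le_rfl)
    fun τ h1 h2 => by rw [one_pow, one_mul]; exact F.nr.i τ h1 h2
  obtain ⟨G, K⟩ := F.mkk x hx
  have hU : sb S (p.gst P t) (T0 S (p.gst P t)) S.C ∪ Ico S.J (p.gst P t).N ⊆
      Ioo S.jl (p.gst P t).N := union_subset (sb_sub h) fun k hk => by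
    have := mem_Ico.1 hk
    have := h.jl_lt
    exact mem_Ioo.2 (by omega)
  have a2 := piece h K hU (c := fun _ => 1) (fun _ => zero_le_one) (fun _ _ => le_rfl) zero_le_one
    (F.W.wt_le x hU) K.t2
  simp only [one_mul, one_pow, mul_one] at a1 a2
  have g0 : ∀ k ∈ Ioo S.jl (p.gst P t).N, 0 ≤ (p.gst P t).dz m x k * |(p.gst P t).del m x k| :=
    fun k hk => mul_nonneg (dz0 h hk) (abs_nonneg _)
  have a3 := (sum_le_sum_of_subset_of_nonneg (s := Ioo S.jl (p.gst P t).N)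
    (t := up S (p.gst P t) (T0 S (p.gst P t)) ∪
      (sb S (p.gst P t) (T0 S (p.gst P t)) S.C ∪ Ico S.J (p.gst P t).N)) (fun k hk => by
      obtain ⟨h1, h2⟩ := mem_Ioo.1 hk
      rcases lt_or_ge k S.J with c | c
      · rcases le_total ((p.gst P t).s k) (T0 S (p.gst P t)) with e | e
        · exact mem_union_left _ (mem_filter.2 ⟨mem_Ioo.2 ⟨h1, c⟩, e⟩)
        · exact mem_union_right _ (mem_union_left _
            (mem_sb.2 ⟨⟨h1, c⟩, e, h.s_le_C (c.le.trans h.i3)⟩))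
      · exact mem_union_right _ (mem_union_right _ (mem_Ico.2 ⟨c, h2⟩)))
    fun k hk _ => g0 k (union_subset (up_sub h) hU hk)).trans
    (sum_union_le fun k hk => g0 k (hU hk))
  have a4 := pow_le_pow_left₀ (sum_nonneg g0) a3 2
  have a5 := mul_le_mul_of_nonneg_left (a4.trans (add_sq_le)) A0.le
  have a6 := mul_le_mul_of_nonneg_left a2 A0.le
  have a7 := mul_le_mul_of_nonneg_left (Pt_le F) E0.le
  have a8 : 512 * E ^ 7 + 32 * E ≤ E ^ 10 := by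
    have b1 : E ^ 1 ≤ E ^ 7 := F.pw (by norm_num)
    have b2 : E ^ 8 ≤ E ^ 10 := F.pw (by norm_num)
    nlinarith [pow_pos E0 7, F.E1]
  nlinarith [mul_le_mul_of_nonneg_right a8 (d0 F)]

theorem cum_eq (y : ℝ) : cum S (p.gst P t) m x y = ∑ k ∈ up S (p.gst P t) y,
    (p.gst P t).dz m x k * (1 * |(p.gst P t).del m x k|) := by
  simp only [one_mul]; rfl

theorem ms_Ga (hx : x ∈ Set.Icc a a') : ∀ y, l ≤ y → y ≤ T0 S (p.gst P t) →
    S.ms y * cum S (p.gst P t) m x y ^ 2 ≤ E ^ 10 * ((1 / E ^ 200) ^ 2 * n4 p) * y ^ 2 := by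
  intro y h1 h2
  have E0 := F.E0
  have h := F.cl
  have y0 := F.l0'.trans_le h1
  have a1 := core F hx (c := fun _ => 1) (B := fun _ => 1)
    (D := 4 * y ^ 2 * ((1 / E ^ 200) ^ 2 * n4 p)) (fun _ => zero_le_one)
    (fun _ _ => zero_le_one) (h.ms_pos y0.le) (F.nr.l0l.trans h1) h2 (fun _ _ => le_rfl)
    (fun _ _ _ _ => le_rfl) fun τ h3 h4 => by
      have τ0 := F.l00.trans_le h3
      have b1 := ms_rat h τ0 h4
      have b2 := F.nr.b τ h3 (h4.trans h2)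
      have P0 := (F.nr.P0 τ).1
      have m0 := h.ms_pos τ0.le
      have b3 : S.ms τ * Pf τ / τ ≤ S.ms τ * Pf τ * max τ l ^ 3 / τ ^ 4 := by
        rw [div_le_div_iff₀ τ0 (by positivity)]
        calc S.ms τ * Pf τ * τ ^ 4 = S.ms τ * Pf τ * τ ^ 3 * τ := by ring
          _ ≤ _ := by gcongr; exact le_max_left _ _
      calc S.ms y * (1 ^ 2 * (τ * Pf τ)) = S.ms y * τ ^ 2 * (Pf τ / τ) := by field_simp
        _ ≤ 4 * y ^ 2 * S.ms τ * (Pf τ / τ) := by gcongr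
        _ = 4 * y ^ 2 * (S.ms τ * Pf τ / τ) := by ring
        _ ≤ _ := by gcongr; exact b3.trans b2
  rw [cum_eq F]
  refine a1.trans ?_
  have a8 : 1024 * E ^ 7 ≤ E ^ 10 := by
    have b2 : E ^ 9 ≤ E ^ 10 := F.pw (by norm_num)
    nlinarith [pow_pos E0 7, F.E1, mul_pos E0 (pow_pos E0 7)]
  nlinarith [mul_le_mul_of_nonneg_right a8 (mul_nonneg (d0 F) (sq_nonneg y))]

theorem ms_Gb (hx : x ∈ Set.Icc a a') : ∀ y, l ≤ y →
    cum S (p.gst P t) m x y ^ 2 ≤ E ^ 4 * (y * l ^ 3) := by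
  intro y h1
  have E0 := F.E0
  have h := F.cl
  have l0' := F.l0'
  have y0 := l0'.trans_le h1
  obtain ⟨G, K⟩ := F.mkk x hx
  have a1 := piece h K (up_sub (y := y) h) (c := fun _ => 1) (fun _ => zero_le_one)
    (fun _ _ => le_rfl) zero_le_one (wt_lz (y := 2 * y) h (by positivity) fun k hk =>
      mem_filter.2 ⟨(mem_filter.1 hk).1, by linarith [(mem_filter.1 hk).2]⟩)
    ((sum_le_sum_of_subset_of_nonneg (up_sub h) fun k hk _ =>
      mul_nonneg (dz0 h hk) (sq_nonneg _)).trans K.tot)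
  rw [cum_eq F]
  refine a1.trans ?_
  rw [← F.nr.l3]
  calc 16 * 1 ^ 2 * (S.C ^ 2 * (2 * y) * (E * l ^ 3)) = 32 * S.C ^ 2 * E * (y * l ^ 3) := by ring
    _ ≤ E * E ^ 2 * E * (y * l ^ 3) := by
        have := F.C2
        gcongr
        linarith [F.E1]
    _ = _ := by ring

theorem mt_low {y : ℝ} (hy : y ≤ l0) : mt p t y ≤ S.ms l0 / l0 := by
  have y1 := l0_ye F
  have r0 := F.r0
  have κ0 : 0 < p.κ := lt_of_pow_lt_pow_left₀ 3 (by
    by_contra c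
    have := F.fx.y0
    rw [Pm.ye] at this
    exact absurd (Odd.pow_neg (by decide : Odd 3) (not_le.1 c)) (not_lt.2 this.le))
    (by simpa [Pm.ye] using F.fx.y0)
  have m0 : 0 < max y p.r := lt_max_of_lt_right r0
  rw [R82.mt, F.sc.ms, Pm.msG, Pm.msG, min_eq_left (hy.trans y1), min_eq_left y1,
    max_eq_right F.nr.r0, max_comm p.r y, mul_right_comm, mul_right_comm p.κ l0,
    mul_div_cancel_right₀ _ m0.ne', mul_div_cancel_right₀ _ F.l00.ne']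
  exact mul_le_mul_of_nonneg_left (Gr29.gS_mono F.fx.t0.le (max_le hy F.nr.r0)) κ0.le

theorem ms_A1 (hx : x ∈ Set.Icc a a') :
    Λ₀ * (∑ k ∈ (Ioo S.jl S.J).filter fun k => (p.gst P t).s k ≤ 2 * p.ye,
      (p.gst P t).dz m x k * (mt p t ((p.gst P t).s k) * |(p.gst P t).del m x k|)) ^ 2 ≤
      E ^ 10 * (S.θ * ((1 / E ^ 200) ^ 2 * n4 p)) := by
  have E0 := F.E0
  have h := F.cl
  have θ0 := F.θ0
  have T0' := T0_pos F
  have A0 : 0 < Λ₀ := by linarith [F.nr.L1]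
  have c0 : ∀ k, 0 ≤ mt p t ((p.gst P t).s k) := fun k => F.mt0 (h.s_nn k)
  have a1 := core F hx (c := fun k => mt p t ((p.gst P t).s k)) (B := fun τ => 4 * S.ms τ / τ)
    (D := 16 * (S.θ * ((1 / E ^ 200) ^ 2 * n4 p))) c0
    (fun τ h1 => by have := F.l00.trans_le h1; have := h.ms_pos this.le; positivity) A0 (l0_T0 F)
    le_rfl (fun k hk => (mt_low F (mem_filter.1 hk).2.le).trans
      (div_le_div_of_nonneg_right (by linarith [h.ms_pos F.l00.le]) F.l00.le))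
    (fun τ h1 k hk => F.mt_le (F.ms_blk h1 hk) (F.l00.trans_le h1)
      (le_max_of_le_left (mem_sb.1 hk).2.1) (by linarith [h.ms_pos (F.l00.le.trans h1)]))
    fun τ h1 h2 => by
      have τ0 := F.l00.trans_le h1
      have b := F.nr.j τ h1 h2
      calc Λ₀ * ((4 * S.ms τ / τ) ^ 2 * (τ * Pf τ)) = 16 * (Λ₀ * S.ms τ ^ 2 * Pf τ / τ) := by
            field_simp; ring
        _ ≤ _ := by linarith
  obtain ⟨G, K⟩ := F.mkk x hx
  have a2 := piece h K (sb_sub (t := T0 S (p.gst P t)) (t' := S.C) h) (B := S.θ / T0 S (p.gst P t))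
    c0 (fun k hk => F.mt_le (h.ms1 _) T0' (le_max_of_le_left (mem_sb.1 hk).2.1) θ0.le)
    (by positivity) (wt_lz (y := 17 * T0 S (p.gst P t)) h (by positivity) fun k hk =>
      mem_filter.2 ⟨mem_Ioo.2 (mem_sb.1 hk).1, by
        have := h.sm (mem_sb.1 hk).1.2.le
        have e : (p.gst P t).s S.J = 16 * T0 S (p.gst P t) := by rw [T0]; ring
        linarith⟩)
    ((sum_le_sum_of_subset_of_nonneg subset_union_left fun k hk _ => mul_nonneg (dz0 h (by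
      rcases mem_union.1 hk with e | e
      · exact sb_sub h e
      · have := mem_Ico.1 e
        have := h.jl_lt
        exact mem_Ioo.2 (by omega))) (sq_nonneg _)).trans K.t2)
  have g0 : ∀ k ∈ Ioo S.jl (p.gst P t).N,
      0 ≤ (p.gst P t).dz m x k * (mt p t ((p.gst P t).s k) * |(p.gst P t).del m x k|) :=
    fun k hk => mul_nonneg (dz0 h hk) (mul_nonneg (c0 k) (abs_nonneg _))
  have a3 := (sum_le_sum_of_subset_of_nonneg (s := up S (p.gst P t) (2 * p.ye))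
    (t := up S (p.gst P t) (T0 S (p.gst P t)) ∪ sb S (p.gst P t) (T0 S (p.gst P t)) S.C)
    (fun k hk => by
      obtain ⟨h1, c⟩ := mem_Ioo.1 (mem_filter.1 hk).1
      rcases le_total ((p.gst P t).s k) (T0 S (p.gst P t)) with e | e
      · exact mem_union_left _ (mem_filter.2 ⟨mem_Ioo.2 ⟨h1, c⟩, e⟩)
      · exact mem_union_right _ (mem_sb.2 ⟨⟨h1, c⟩, e, h.s_le_C (c.le.trans h.i3)⟩))
    fun k hk _ => g0 k (union_subset (up_sub h) (sb_sub h) hk)).trans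
    (sum_union_le fun k hk => g0 k (sb_sub h hk))
  have a4 := pow_le_pow_left₀ (sum_nonneg fun k hk => g0 k (up_sub h hk)) a3 2
  have a5 := mul_le_mul_of_nonneg_left (a4.trans (add_sq_le)) A0.le
  have Pt0 : 0 ≤ Pt := F.nr.Pt0.1.trans F.nr.Pt0.2.1
  have a6 : Λ₀ * (16 * (S.θ / T0 S (p.gst P t)) ^ 2 * (S.C ^ 2 * (17 * T0 S (p.gst P t)) * (E * Pt)))
      ≤ 13056 * E ^ 7 * (S.θ * ((1 / E ^ 200) ^ 2 * n4 p)) := by
    have b1 : 1 / T0 S (p.gst P t) ≤ 48 * E ^ 4 := (div_le_iff₀ T0').2 F.T0_ge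
    calc _ = 272 * S.C ^ 2 * E * (1 / T0 S (p.gst P t)) * (S.θ * (S.θ * Λ₀ * Pt)) := by
          field_simp; ring
      _ ≤ 272 * E ^ 2 * E * (48 * E ^ 4) * (S.θ * ((1 / E ^ 200) ^ 2 * n4 p)) := by
          have := F.C2
          have := Pt_le F
          gcongr
      _ = _ := by ring
  have a7 := (mul_le_mul_of_nonneg_left a2 A0.le).trans a6
  have a8 : 34304 * E ^ 7 ≤ E ^ 10 := by
    have b2 : E ^ 9 ≤ E ^ 10 := F.pw (by norm_num)
    nlinarith [pow_pos E0 7, F.E1, mul_pos E0 (pow_pos E0 7)]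
  refine a5.trans ?_
  nlinarith [mul_le_mul_of_nonneg_right a8 (mul_nonneg θ0.le (d0 F))]

end Crest.Agent.T156.Alt.P60.M75

end
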