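import Crest.Agent.T156.R1PD_60

/-!
# Row 156 (helper38): sums of moments on the frame, the crude fields of `P60.MS`
-/

set_option autoImplicit false
set_option linter.all false

noncomputable section

namespace Crest.Agent.T156.Alt.P60.M38

open Real Finset
open Crest.Agent.T156.Alt.Md67 Crest.Agent.T156.Alt.R62 Crest.Agent.T156.Alt.R77
open Crest.Agent.T156.Alt.R82 Crest.Agent.T156.Alt.SD56 Crest.Agent.T156.Alt.Alg77

section cls
variable {S : Sc} {M : Md} {m : ℕ} {x l Φ l0 Λ Λ₀ Pt u1 V4 : ℝ} {P : ℝ → ℝ} {G : ℕ → ℝ}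

theorem del_le (K : MK S M 8 Λ m x l Φ P l0 Λ₀ Pt u1 V4 G) {k : ℕ} (hk : k ∈ Ioo S.jl M.N) :
    |M.del m x k| ≤ 4 * G k := by
  have h := SD56.mom K (i := 1) (by norm_num) hk
  simp only [pow_one] at h
  refine le_trans (le_of_eq ?_) ((abs_E2_le (fun R => R - M.q k) k).trans (h.trans_eq (by norm_num)))
  rw [E2_sub, E2_const]; rfl

end cls

variable {E t a a' Q l Φ l0 Λ₀ Pt u1 V4 x : ℝ} {p : Pm} {P : Pl} {m I : ℕ} {S : Sc} {Pf : ℝ → ℝ}
  (F : Fr E p P t a a' Q m S l Φ Pf l0 Λ₀ Pt u1 V4 I) (hx : x ∈ Set.Icc a a')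
include F

theorem l_one : l ≤ 1 := by
  have h1 : 1 / E ^ 200 ≤ 1 := (div_le_one (pow_pos F.E0 _)).2 (one_le_pow₀ F.E1')
  exact F.nr.ly.trans (mul_le_one₀ h1 F.fx.y0.le F.y1)

theorem sub_J : Ioo S.jl S.J ⊆ Ioo S.jl (p.gst P t).N :=
  Ioo_subset_Ioo_right (F.cl.i3.trans F.cl.i4.le)

include hx

theorem ms_sup (k : ℕ) (h1 : S.jl < k) (h2 : k < S.J) : |(p.gst P t).del m x k| ≤ 4 * E * l := by
  obtain ⟨G, K⟩ := F.mkk x hx
  linarith [del_le K (sub_J F (mem_Ioo.2 ⟨h1, h2⟩)), K.sl k h1.le h2]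

theorem ms_N2 : ∑ k ∈ Ioo S.jl (p.gst P t).N, (p.gst P t).dz m x k * |(p.gst P t).del m x k| ≤
    E * l := by
  obtain ⟨G, K⟩ := F.mkk x hx
  have e0 := mul_pos F.E0 F.l0'
  have k1 := K.tot
  have k2 := F.W.wt_le (S := S) x (U := Ioo S.jl (p.gst P t).N) Subset.rfl
  rw [← F.nr.l3] at k1
  refine le_of_mul_le_mul_left ?_ e0
  rw [mul_sum]
  refine (sum_le_sum (g := fun k => (E * l) ^ 2 / 2 * (p.gst P t).dz m x k +
    8 * ((p.gst P t).dz m x k * G k ^ 2)) fun k hk => ?_).trans ?_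
  · have d := F.W.dz0 x (pos_of S _ k hk)
    have := mul_le_mul_of_nonneg_left (del_le K hk) e0.le
    nlinarith [mul_le_mul_of_nonneg_left (show E * l * |(p.gst P t).del m x k| ≤
      (E * l) ^ 2 / 2 + 8 * G k ^ 2 by nlinarith [sq_nonneg (E * l - 4 * G k)]) d]
  · rw [sum_add_distrib, ← mul_sum, ← mul_sum]
    have k3 := mul_le_of_le_one_right (show 0 ≤ (E * l) ^ 2 / 2 by positivity) k2
    have k4 : 16 * l ≤ E := by linarith [l_one F, F.E1]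
    nlinarith [mul_le_mul_of_nonneg_left k4 (mul_pos e0 F.l0').le]

theorem sum_pow {U : Finset ℕ} (hU : U ⊆ Ioo S.jl (p.gst P t).N) (i : ℕ) (hi : i ≤ 1) {g : ℝ}
    (g0 : 0 ≤ g) (hg : ∀ G, MK S (p.gst P t) 8 E m x l Φ Pf l0 Λ₀ Pt u1 V4 G → ∀ k ∈ U, G k ≤ g) :
    ∑ k ∈ U, (p.gst P t).dz m x k * (p.gst P t).E2 m x
      (fun R => |R - (p.gst P t).q k| ^ (i + 2)) k ≤ 2 ^ (i + 3) * g ^ i * (E * l ^ 3) := by
  obtain ⟨G, K⟩ := F.mkk x hx
  have d := fun k hk => F.W.dz0 x (pos_of S (p.gst P t) k hk)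
  rw [F.nr.l3]
  refine le_trans ?_ (mul_le_mul_of_nonneg_left ((sum_le_sum_of_subset_of_nonneg hU
    fun k hk _ => mul_nonneg (d k hk) (sq_nonneg _)).trans K.tot) (by positivity))
  rw [mul_sum]
  refine sum_le_sum fun k hk => ?_
  rw [mul_left_comm]
  refine mul_le_mul_of_nonneg_left ((SD56.mom K (by omega) (hU hk)).trans ?_) (d k (hU hk))
  rw [pow_add (G k), mul_assoc]
  exact mul_le_mul_of_nonneg_left (mul_le_mul_of_nonneg_right
    (pow_le_pow_left₀ (K.pos k).le (hg G K k hk) i) (sq_nonneg _)) (by positivity)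

theorem ms_u2 : ∑ k ∈ Ioo S.jl (p.gst P t).N, (p.gst P t).dz m x k * (p.gst P t).E2 m x
    (fun R => |R - (p.gst P t).q k| ^ 2) k ≤ E ^ 2 * l ^ 3 := by
  have h := sum_pow F hx Subset.rfl 0 zero_le_one zero_le_two fun G K k _ => K.le2 k
  have := mul_le_mul_of_nonneg_right F.E1 (mul_pos F.E0 (pow_pos F.l0' 3)).le
  have := mul_pos F.E0 (pow_pos F.l0' 3)
  refine h.trans ?_
  norm_num
  linarith

theorem ms_u3 : ∑ k ∈ Ioo S.jl (p.gst P t).N, (p.gst P t).dz m x k * (p.gst P t).E2 m x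
    (fun R => |R - (p.gst P t).q k| ^ 3) k ≤ E ^ 2 * l ^ 3 := by
  have h := sum_pow F hx Subset.rfl 1 le_rfl zero_le_two fun G K k _ => K.le2 k
  have := mul_le_mul_of_nonneg_right F.E1 (mul_pos F.E0 (pow_pos F.l0' 3)).le
  have := mul_pos F.E0 (pow_pos F.l0' 3)
  refine h.trans ?_
  norm_num
  linarith

theorem ms_u3' : ∑ k ∈ Ioo S.jl S.J, (p.gst P t).dz m x k * (p.gst P t).E2 m x
    (fun R => |R - (p.gst P t).q k| ^ 3) k ≤ E ^ 3 * l ^ 4 := by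
  have e0 := mul_pos F.E0 F.l0'
  have h := sum_pow F hx (sub_J F) 1 le_rfl e0.le
    fun G K k hk => K.sl k (mem_Ioo.1 hk).1.le (mem_Ioo.1 hk).2
  have := mul_le_mul_of_nonneg_right F.E1 (mul_pos e0 (mul_pos F.E0 (pow_pos F.l0' 3))).le
  have := mul_pos e0 (mul_pos F.E0 (pow_pos F.l0' 3))
  refine h.trans ?_
  norm_num
  linarith

theorem ms_s0 : S0 (p.gst P t) m x ≤ E ^ 9 * l ^ 3 := by
  obtain ⟨G, K⟩ := F.bk x hx
  have E0 := F.E0
  have l0 := F.l0'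
  have C0 := K.fn.C0
  have i0 := K.fn.i0
  have i1 := K.fn.i1
  have i2 := K.fn.i2
  have z1 : (p.gst P t).z 0 ≤ 3 / 8 * E ^ 2 * l := by
    have a1 := K.fn.z_le_s (k := S.j0) le_rfl (by omega)
    have a2 := (K.fn.ss 0 (by omega)).1
    rw [K.fn.s0, sub_zero, div_le_iff₀' C0] at a2
    have a3 := K.fn.sm (show 0 + 1 ≤ S.j0 from i0)
    have a4 : (p.gst P t).s S.j0 ≤ l / 8 := by linarith [K.fn.sm i1, F.nr.jl, F.nr.l0l]
    have a5 := mul_le_mul F.sc.C (a3.trans a4) (K.fn.s_nonneg _) E0.le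
    have a6 : (p.gst P t).s S.j0 + 2 * S.v ≤ 3 / 8 * E * l := by nlinarith [F.E1]
    rw [K.fn.low 0 (Nat.zero_le _)]
    exact a1.trans ((mul_le_mul F.sc.C a6 (by linarith [K.fn.s_nonneg S.j0, K.fn.v0]) E0.le).trans_eq
      (by ring))
  have z2 : max ((p.gst P t).z 0) l ≤ E ^ 2 * l :=
    max_le (by nlinarith [mul_pos (pow_pos E0 2) l0])
      (le_mul_of_one_le_left l0.le (one_le_pow₀ F.E1'))
  have b0 : 0 < E * max ((p.gst P t).z 0) l := mul_pos E0 (l0.trans_le (le_max_right _ _))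
  have h := CIn12.mom_pair (M := p.gst P t) (m := m) (a := x) (k := 0) (p := 8) (i := 2) (c := 0)
    (q := 0) b0 (by norm_num) (by simpa only [sub_zero] using K.low 0 (Nat.zero_le _))
  simp only [sub_zero, abs_zero, add_zero, sq_abs] at h
  have h2 : (E * max ((p.gst P t).z 0) l) ^ 2 ≤ (E * (E ^ 2 * l)) ^ 2 := by gcongr
  have h3 : (p.gst P t).dz m x 0 ≤ 3 / 8 * E ^ 2 * l := by
    rw [dz_zero K.fn.leg]
    linarith [F.fx.a0, hx.1]
  refine (mul_le_mul h3 (h.trans (mul_le_mul_of_nonneg_left h2 (by positivity)))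
    (E2_nonneg (fun _ _ => sq_nonneg _) 0) (by positivity)).trans ?_
  have := mul_pos (pow_pos E0 8) (pow_pos l0 3)
  nlinarith [F.E1]

end Crest.Agent.T156.Alt.P60.M38

end
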