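import Crest.Agent.T156.R1PE_60

/-!
# Row 156 (helper52): the numbers of the off-off half of `PhP` on the frame
-/

set_option autoImplicit false
set_option linter.unusedSectionVars false

noncomputable section

namespace Crest.Agent.T156.Alt.P60.Po52

open Real Finset
open Crest.Agent.T156.Cas Crest.Agent.T156.Cas.C40 Crest.Agent.T156.Alt.CIn12
open Crest.Agent.T156.Alt.Alg77 Crest.Agent.T156.Alt.R77 Crest.Agent.T156.Alt.R62
open Crest.Agent.T156.Alt.R82 Crest.Agent.T156.Alt.Md67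
open Crest.Agent.T156.Cas.Alg77 (gd gd_lo gd_up)

theorem ye_sm {β c0 C0 c η K : ℝ} {A : ℕ} {p : Pm} (H : Reg β c0 C0 A c η K p)
    (h : 2 * η ≤ c) : 48 * ((p.n : ℝ) ^ η) ^ 4 * p.ye ≤ 1 := by
  have a : (48 : ℝ) ≤ (p.n : ℝ) ^ η := le_trans (by norm_num) H.num_le
  have e : ((p.n : ℝ) ^ η) ^ 5 * p.ye ≤ 1 := by
    rw [Pm.ye, Pm.κ, ← rpow_natCast, ← rpow_natCast, ← rpow_mul H.N0.le, ← rpow_mul H.N0.le,
      ← rpow_add H.N0]
    exact rpow_le_one_of_one_le_of_nonpos H.N1.le (by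
      push_cast; linarith [H.hc, H.c_pos, H.η_pos])
  have := H.ye0
  calc _ ≤ (p.n : ℝ) ^ η * ((p.n : ℝ) ^ η) ^ 4 * p.ye := by gcongr
    _ = ((p.n : ℝ) ^ η) ^ 5 * p.ye := by ring
    _ ≤ 1 := e

theorem sum_cut {T U : Finset ℕ} {w f g : ℕ → ℝ} (hw : ∀ j, 0 ≤ w j) (hg : ∀ j ∈ U, 0 ≤ g j)
    (h : ∀ j ∈ T, f j = 0 ∨ (j ∈ U ∧ f j ≤ g j)) : ∑ j ∈ T, w j * f j ≤ ∑ j ∈ U, w j * g j :=
  calc _ ≤ ∑ j ∈ T, if j ∈ U then w j * g j else 0 := sum_le_sum fun j hj => by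
        rcases h j hj with e | ⟨e, e'⟩
        · rw [e, mul_zero]
          split_ifs with u
          exacts [mul_nonneg (hw j) (hg j u), le_rfl]
        · rw [if_pos e]; exact mul_le_mul_of_nonneg_left e' (hw j)
    _ = ∑ j ∈ T ∩ U, w j * g j := sum_ite_mem ..
    _ ≤ _ := sum_le_sum_of_subset_of_nonneg inter_subset_right
        fun j hj _ => mul_nonneg (hw j) (hg j hj)

variable {E d t a a' Q l Φ l0 Λ₀ Pt u1 V4 x σ σ' : ℝ} {p : Pm} {P : Pl} {m I : ℕ} {S : Sc}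
  {Pf : ℝ → ℝ}

/-- the envelope-free facts -/
theorem bs (F : SD56.Fr E p P t a a' Q m S l Φ Pf l0 Λ₀ Pt u1 V4 I) (hβ : p.β ^ 2 ≤ E)
    (hx : x ∈ Set.Icc a a') : R1L.Bs (D0 p P t m x) E := by
  refine ⟨(rf_cq (rf_q F.cl) _).ook F.fx.leg, (F.fx.lg hx.1 hx.2).monoL, (F.fx.tw x E0).top,
    fun j => ⟨mul_nonneg (sq_nonneg _) (List.sum_nonneg fun y hp => ?_),
      (oTau_le F.fx.leg j).trans ((gst_d p P t _).trans_le (F.fx.b1.trans hβ))⟩⟩
  obtain ⟨c, hc, rfl⟩ := List.mem_map.1 hp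
  exact (Mx_nn F.fx.leg c (List.mem_of_mem_take hc)).1

/-- the node with its parity size -/
theorem nd (F : SD56.Fr E p P t a a' Q m S l Φ Pf l0 Λ₀ Pt u1 V4 I) (hβ : p.β ^ 2 ≤ E)
    (X : Cx p σ σ' P t a a' Q m) (co : CoF E p) {k : ℕ} (k0 : p.jf < k) (k1 : k ≤ p.Jp P) :
    k + 1 ∈ (D0 p P t m a).up ∧ ∃ ϖ, R1J.Nd (D0 p P t m a).S (k + 1) ϖ ∧ 0 < ϖ ∧ ϖ ≤ 1 ∧
      ϖ ≤ E * min 1 ((p.gst P t).s k) := by
  have i4 := F.cl.i4
  rw [F.sc.Jp] at i4
  have u : k + 1 ∈ (D0 p P t m a).up :=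
    CD.mem_up.2 ⟨Nat.succ_lt_succ k0, by rw [cd_K]; omega⟩
  have s0 : 0 < (p.gst P t).s k := F.cl.s_pos (by omega)
  have E0 := F.E0
  have q : 0 < min 1 (E * (p.gst P t).s k) := lt_min one_pos (by positivity)
  refine ⟨u, _, (bs F hβ F.W.lo).nd u q (le_min (min_le_left _ _) ?_), q, min_le_left _ _, ?_⟩
  · rw [show T157.Casc.ex (D0 p P t m a).B (k + 1) = (p.gst P t).z k from ex_succ F.fx.leg k]
    exact (co σ σ' P t a a' Q m X a F.W.lo k k0 k1).2.2.2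
  · rw [mul_min_of_nonneg _ _ E0.le]
    exact min_le_min (by linarith [F.E1]) le_rfl

/-- **the numbers**: everything is read on the stage of the tilt `a` -/
theorem nums (F : SD56.Fr E p P t a a' Q m S l Φ Pf l0 Λ₀ Pt u1 V4 I) (hβ : p.β ^ 2 ≤ E)
    (hκ : 0 ≤ p.κ) (hy : 48 * E ^ 4 * p.ye ≤ 1) (X : Cx p σ σ' P t a a' Q m) (co : CoF E p)
    (hx : x ∈ Set.Icc a a') (ms : MS E d p t S (p.gst P t) m x l Λ₀) :
    ∃ b, 0 ≤ b ∧ Λ₀ * b ^ 2 ≤ E ^ 20 * (S.θ * d) ∧ b ≤ E ^ 10 * S.θ ∧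
      t * (R1J.n1 (D0 p P t m a).S (fd p t) * R1J.n1 (D0 p P t m a).S (gd (D0 p P t m x))) ≤ b ∧
      t * R1J.n1 (D0 p P t m a).S (fun j => fd p t j * gd (D0 p P t m x) j) ≤ b ∧
      ∀ k, p.jf < k → k ≤ p.Jp P → ∃ R, 0 ≤ R ∧ (2 * p.ye < (p.gst P t).s k → R = 0) ∧
        S.ms (max ((p.gst P t).s k) l) * R ^ 2 ≤ E ^ 20 * d * max ((p.gst P t).s k) l ^ 2 ∧
        R ≤ E ^ 10 * max ((p.gst P t).s k) l ^ 2 ∧
        t * R1J.lo (D0 p P t m a).S (k + 1) (fun j => fd p t j * gd (D0 p P t m x) j) ≤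
          p.lamG t ((p.gst P t).s k) * R + (if p.ye ≤ (p.gst P t).s k then 1 else 0) * b := by
  have Ba := bs F hβ F.W.lo
  have Bx := bs F hβ hx
  have f := F.fx
  have t0 := f.t0
  have E0 := F.E0
  have E1 := F.E1
  have θ0 := F.θ0
  have l0 := F.l0'
  have L1 := F.nr.L1
  have i3 := F.cl.i3
  have i4 := F.cl.i4
  have jl := F.sc.jl
  have eJ := F.sc.J
  have eP := F.sc.Jp
  have ly : l ≤ p.ye := F.nr.ly.trans (mul_le_of_le_one_left f.y0.le
    ((div_le_one (by positivity)).2 (one_le_pow₀ F.E1')))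
  have l1 : l ≤ 1 := ly.trans F.y1
  have w0 : ∀ j, 0 ≤ (p.gst P t).dz m x j := (f.lg hx.1 hx.2).dz_nonneg
  have sJ : ∀ j, S.J ≤ j → sv p t j = 0 := fun j hj => by
    rw [f.sv_eq, if_neg (by omega)]
  have g : ∀ j, p.jf < j → j < (p.gst P t).N →
      |gd (D0 p P t m x) (j + 1)| ≤ E * |(p.gst P t).del m x j| := fun j h1 h2 => by
    have := Bx.abs_gd (j + 1)
    rwa [cd_del m x _ _ _ h1 h2] at this
  have g0 : ∀ j ≤ (D0 p P t m a).J, gd (D0 p P t m x) j = 0 := fun j hj => gd_lo _ hj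
  have g1 : ∀ j ≤ (D0 p P t m a).J, fd p t j * gd (D0 p P t m x) j = 0 := fun j hj => by
    rw [g0 j hj, mul_zero]
  have g2 : ∀ T : Finset ℕ, T ⊆ Ico (p.jf + 1) (p.gst P t).N →
      t * ∑ j ∈ T, (p.gst P t).dz m a j * |fd p t (j + 1) * gd (D0 p P t m x) (j + 1)| ≤
      E * ∑ j ∈ T, (p.gst P t).dz m x j * (t * |sv p t j| * |(p.gst P t).del m x j|) :=
    fun T hT => by
      rw [mul_sum, mul_sum]
      refine sum_le_sum fun j hj => ?_
      obtain ⟨h1, h2⟩ := mem_Ico.1 (hT hj)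
      rw [dz_free f.leg m x (by omega : 0 < j), fd_succ p t h1, abs_mul]
      have := mul_le_mul_of_nonneg_left (g j h1 h2)
        (mul_nonneg (mul_nonneg t0.le (w0 j)) (abs_nonneg (sv p t j)))
      linarith
  obtain ⟨N, hN⟩ : ∃ N, N = ∑ k ∈ Ioo S.jl (p.gst P t).N,
    (p.gst P t).dz m x k * |(p.gst P t).del m x k| := ⟨_, rfl⟩
  obtain ⟨A, hA⟩ : ∃ A, A = ∑ j ∈ Ico (p.jf + 1) (p.gst P t).N,
    (p.gst P t).dz m x j * (t * |sv p t j| * |(p.gst P t).del m x j|) := ⟨_, rfl⟩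
  have N0 : 0 ≤ N := hN ▸ sum_nonneg fun j _ => mul_nonneg (w0 j) (abs_nonneg _)
  have A0 : 0 ≤ A := hA ▸ sum_nonneg fun j _ => mul_nonneg (w0 j) (by positivity)
  have N1 := ms.N1
  have N2 := ms.N2
  rw [← hN] at N1 N2
  have d0 : 0 ≤ d := nonneg_of_mul_nonneg_right (le_trans (by positivity) N1) (by positivity)
  have n1g : R1J.n1 (D0 p P t m a).S (gd (D0 p P t m x)) ≤ E * N := by
    rw [Ba.n1_up g0, cd_I, hN, ← F.up_eq, mul_sum]
    refine sum_le_sum fun j hj => ?_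
    obtain ⟨h1, h2⟩ := mem_Ico.1 hj
    rw [dz_free f.leg m x (by omega : 0 < j), mul_left_comm]
    exact mul_le_mul_of_nonneg_left (g j h1 h2) (w0 j)
  have n1f : t * R1J.n1 (D0 p P t m a).S (fd p t) ≤ E * S.θ := by
    rw [Ba.n1_up fun j hj => fd_lo p t hj, F.th]
    exact f.n1 a R77.E0
  have n1A : t * R1J.n1 (D0 p P t m a).S (fun j => fd p t j * gd (D0 p P t m x) j) ≤ E * A := by
    rw [Ba.n1_up g1, cd_I, hA]
    exact g2 _ Subset.rfl
  have A1 : Λ₀ * A ^ 2 ≤ E ^ 12 * (S.θ * d) := by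
    have m0 : ∀ y, 0 ≤ mt p t y := fun y => div_nonneg
      (mul_nonneg (mul_nonneg hκ (F.r0.le.trans (le_max_left _ _)))
        (Gr29.gS_nn t0.le (F.r0.le.trans (le_max_left _ _)))) (F.r0.le.trans (le_max_right _ _))
    have a : A ≤ E * ∑ k ∈ (Ioo S.jl S.J).filter fun k => (p.gst P t).s k ≤ 2 * p.ye,
        (p.gst P t).dz m x k * (mt p t ((p.gst P t).s k) * |(p.gst P t).del m x k|) := by
      rw [hA, mul_sum]
      simp only [mul_left_comm E]
      refine sum_cut w0 (fun j _ => by have := m0 ((p.gst P t).s j); positivity) fun j hj => ?_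
      obtain ⟨h1, h2⟩ := mem_Ico.1 hj
      by_cases e : sv p t j = 0
      · exact .inl (by rw [e, abs_zero, mul_zero, zero_mul])
      · have h3 : j < S.J := not_le.1 fun u => e (sJ j u)
        have c := co σ σ' P t a a' Q m X x hx j h1 (by omega)
        refine .inr ⟨mem_filter.2 ⟨mem_Ioo.2 ⟨by omega, h3⟩, (not_le.1 fun u => e (c.2.1 u)).le⟩, ?_⟩
        have := mul_le_mul_of_nonneg_right c.1 (abs_nonneg ((p.gst P t).del m x j))
        linarith
    have b := mul_le_mul_of_nonneg_left ms.A1 (sq_nonneg E)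
    have c := mul_le_mul_of_nonneg_left (pow_le_pow_left₀ A0 a 2) (zero_le_one.trans L1)
    rw [mul_pow] at c
    calc _ ≤ _ := c
      _ = _ := mul_left_comm _ _ _
      _ ≤ _ := b
      _ = _ := by ring
  have A2 : A ≤ 4 * E * l * (E * S.θ) := by
    have a := f.n1 x R77.E0
    rw [f.I_fd x R77.E0 fun _ y => |y|, ← F.th] at a
    refine le_trans ?_ (mul_le_mul_of_nonneg_left a (by positivity))
    rw [hA, mul_sum, mul_sum]
    refine sum_le_sum fun j hj => ?_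
    obtain ⟨h1, h2⟩ := mem_Ico.1 hj
    rcases le_or_gt S.J j with e | e
    · simp [sJ j e]
    · have := mul_le_mul_of_nonneg_left (ms.sup j (by omega) e)
        (mul_nonneg (mul_nonneg t0.le (w0 j)) (abs_nonneg (sv p t j)))
      linarith
  have e6 : 16 ≤ E ^ 6 := le_trans (by linarith) (le_self_pow₀ F.E1' (by norm_num))
  have e7 : 16 ≤ E ^ 7 := le_trans (by linarith) (le_self_pow₀ F.E1' (by norm_num))
  have b1 : 0 ≤ E ^ 2 * S.θ * N := by positivity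
  have b2 : 0 ≤ E * A := by positivity
  refine ⟨E ^ 2 * S.θ * N + E * A, by positivity, ?_, ?_, ?_, by linarith, fun k k0 k1 => ?_⟩
  · have c1 := mul_le_mul_of_nonneg_left N1 (show 0 ≤ E ^ 4 * S.θ by positivity)
    have c2 := mul_le_mul_of_nonneg_left A1 (sq_nonneg E)
    have c3 := mul_le_mul_of_nonneg_right e6 (show 0 ≤ E ^ 14 * (S.θ * d) by positivity)
    have c4 := mul_nonneg (zero_le_one.trans L1) (sq_nonneg (E ^ 2 * S.θ * N - E * A))
    have c5 : 0 ≤ E ^ 14 * (S.θ * d) := by positivity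
    linarith
  · have c1 := mul_le_mul_of_nonneg_left (N2.trans (mul_le_of_le_one_right E0.le l1))
      (show 0 ≤ E ^ 2 * S.θ by positivity)
    have c2 := mul_le_mul_of_nonneg_left A2 E0.le
    have c3 := mul_le_mul_of_nonneg_left l1 (show 0 ≤ 4 * E ^ 3 * S.θ by positivity)
    have c4 := mul_le_mul_of_nonneg_right e7 (show 0 ≤ E ^ 3 * S.θ by positivity)
    have c5 : 0 ≤ E ^ 3 * S.θ := by positivity
    linarith
  · have c1 := mul_le_mul n1f n1g (R1J.n1_nonneg (mono_opS Ba.mono) _) (by positivity)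
    linarith
  have kN : Ico (p.jf + 1) k ⊆ Ico (p.jf + 1) (p.gst P t).N := Ico_subset_Ico_right (by omega)
  have lo := g2 _ kN
  rw [R1L.lo_up _ g1, cd_lw]
  have s0 := F.cl.s_nn k
  rcases le_or_gt p.ye ((p.gst P t).s k) with e | e
  · have m0 : 0 ≤ E ^ 20 * d * max ((p.gst P t).s k) l ^ 2 := by positivity
    refine ⟨0, le_rfl, fun _ => rfl, by simpa using m0, by positivity, ?_⟩
    rw [if_pos e, mul_zero, zero_add, one_mul]
    have c := mul_le_mul_of_nonneg_left (sum_le_sum_of_subset_of_nonneg kN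
      (f := fun j => (p.gst P t).dz m x j * (t * |sv p t j| * |(p.gst P t).del m x j|))
      fun j _ _ => mul_nonneg (w0 j) (by positivity)) E0.le
    rw [← hA] at c
    linarith
  obtain ⟨y, hy'⟩ : ∃ y, y = max ((p.gst P t).s k) l := ⟨_, rfl⟩
  rw [← hy']
  have y1 : l ≤ y := hy' ▸ le_max_right _ _
  have y2 : (p.gst P t).s k ≤ y := hy' ▸ le_max_left _ _
  have y3 : y ≤ T0 S (p.gst P t) := (hy' ▸ max_le e.le ly : y ≤ p.ye).trans
    (le_of_mul_le_mul_left (hy.trans F.T0_ge) (by positivity))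
  have y0 : 0 < y := l0.trans_le y1
  have Ga := ms.Ga y y1 y3
  have Gb := ms.Gb y y1
  have c0 : 0 ≤ cum S (p.gst P t) m x y := sum_nonneg fun j _ => mul_nonneg (w0 j) (abs_nonneg _)
  have lam := lamG_nn hκ f.y0.le t0.le s0
  refine ⟨4 * E ^ 2 * cum S (p.gst P t) m x y, by positivity,
    fun u => absurd (u.trans e) (by linarith [f.y0]), ?_, ?_, ?_⟩
  · have c1 := mul_le_mul_of_nonneg_left Ga (show 0 ≤ 16 * E ^ 4 by positivity)
    have c2 := mul_le_mul_of_nonneg_right e6 (show 0 ≤ E ^ 14 * d * y ^ 2 by positivity)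
    linarith
  · have c1 : cum S (p.gst P t) m x y ≤ E ^ 2 * y ^ 2 := by
      refine (pow_le_pow_iff_left₀ c0 (by positivity) two_ne_zero).1 (Gb.trans ?_)
      calc E ^ 4 * (y * l ^ 3) ≤ E ^ 4 * (y * y ^ 3) := by gcongr
        _ = _ := by ring
    have c2 := mul_le_mul_of_nonneg_left c1 (show 0 ≤ 4 * E ^ 2 by positivity)
    have c3 := mul_le_mul_of_nonneg_right e6 (show 0 ≤ E ^ 4 * y ^ 2 by positivity)
    have c4 : 0 ≤ E ^ 4 * y ^ 2 := by positivity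
    linarith
  · rw [if_neg e.not_ge, zero_mul, add_zero]
    have v0 : 0 < p.v := F.sc.v ▸ F.cl.v0
    have a : ∑ j ∈ Ico (p.jf + 1) k, (p.gst P t).dz m x j *
        (t * |sv p t j| * |(p.gst P t).del m x j|) ≤
        4 * E * p.lamG t ((p.gst P t).s k) * cum S (p.gst P t) m x y := by
      rw [cum, mul_sum]
      simp only [mul_left_comm (4 * E * p.lamG t ((p.gst P t).s k))]
      refine sum_cut w0 (fun j _ => by positivity) fun j hj => ?_
      obtain ⟨h1, h2⟩ := mem_Ico.1 hj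
      rcases le_or_gt S.J j with u | u
      · exact .inl (by rw [sJ j u, abs_zero, mul_zero, zero_mul])
      · have sj := F.cl.sm h2.le
        refine .inr ⟨mem_filter.2 ⟨mem_Ioo.2 ⟨by omega, u⟩, sj.trans y2⟩,
          mul_le_mul_of_nonneg_right ((sv_lam f hκ v0.le j).trans ?_) (abs_nonneg _)⟩
        have c1 := (F.cl.s_bds u.le).1
        rw [← mul_div_assoc, div_le_iff₀ F.cl.C0, F.sc.v] at c1
        have c2 : (j : ℝ) * p.v ≤ E * (p.gst P t).s k :=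
          c1.trans ((mul_le_mul sj F.sc.C F.cl.C0.le s0).trans_eq (mul_comm _ _))
        have := lamG_mul hκ f.y0.le t0.le s0 F.E1' c2
        linarith
    have := mul_le_mul_of_nonneg_left a E0.le
    linarith

end Crest.Agent.T156.Alt.P60.Po52

end
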