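import Crest.Agent.T156.R1Jw_60

/-!
# Row 156 (helper60): the profile of the off-diagonal response
-/

set_option autoImplicit false
set_option linter.unusedSectionVars false

noncomputable section

namespace Crest.Agent.T156.Alt.P60

open Real Finset
open Crest.Agent.T156.Cas Crest.Agent.T156.Cas.C40 Crest.Agent.T156.Alt.CIn12
open Crest.Agent.T156.Alt.Md67
open Crest.Agent.T156.Alt.Alg77 Crest.Agent.T156.Alt.R77 Crest.Agent.T156.Alt.R62
open Crest.Agent.T156.Alt.R82 Crest.Agent.T156.Cas.C40.R1L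

/-- `∑_T dz c |del|` -/
def sd (M : Md) (m : ℕ) (x : ℝ) (T : Finset ℕ) (c : ℕ → ℝ) : ℝ :=
  ∑ k ∈ T, M.dz m x k * (c k * |M.del m x k|)

variable {E t a a' Q l Φ l0 Λ₀ Pt u1 V4 x d : ℝ} {p : Pm} {P : Pl} {m I : ℕ} {S : Sc}
  {Pf : ℝ → ℝ} (F : SD56.Fr E p P t a a' Q m S l Φ Pf l0 Λ₀ Pt u1 V4 I)
include F

theorem sd0 (hx : x ∈ Set.Icc a a') (T : Finset ℕ) {c : ℕ → ℝ} (hc : ∀ k, 0 ≤ c k) :
    0 ≤ sd (p.gst P t) m x T c := sum_nonneg fun k _ =>
  mul_nonneg ((F.fx.lg hx.1 hx.2).dz_nonneg k) (mul_nonneg (hc k) (abs_nonneg _))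

theorem sv_J {k : ℕ} (h : sv p t k ≠ 0) : k < S.J := by
  by_contra e
  exact h (by rw [F.fx.sv_eq, if_neg (F.sc.J ▸ e)])

theorem ts0 (k : ℕ) : 0 ≤ t * |sv p t k| := mul_nonneg F.fx.t0.le (abs_nonneg _)

/-- a sum against the density lives on the support of the density -/
theorem sd_le (hx : x ∈ Set.Icc a a') {T U : Finset ℕ} {g : ℕ → ℝ} (g0 : ∀ k ∈ U, 0 ≤ g k)
    (h : ∀ k ∈ T, sv p t k ≠ 0 → k ∈ U ∧ t * |sv p t k| * |(p.gst P t).del m x k| ≤ g k) :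
    sd (p.gst P t) m x T (fun k => t * |sv p t k|) ≤ ∑ k ∈ U, (p.gst P t).dz m x k * g k := by
  have z := (F.fx.lg hx.1 hx.2).dz_nonneg
  rw [sd, ← sum_filter_of_ne (p := fun k => sv p t k ≠ 0) fun k _ h e => h (by
    rw [e, abs_zero, mul_zero, zero_mul, mul_zero])]
  exact (sum_le_sum fun k hk => mul_le_mul_of_nonneg_left
    (h k (mem_filter.1 hk).1 (mem_filter.1 hk).2).2 (z k)).trans
    (sum_le_sum_of_subset_of_nonneg (fun k hk => (h k (mem_filter.1 hk).1 (mem_filter.1 hk).2).1)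
      fun k hk _ => mul_nonneg (z k) (g0 k hk))

theorem El : E * l ≤ 1 := by
  have E0 := F.E0
  refine (mul_le_mul_of_nonneg_left (F.nr.ly.trans (mul_le_of_le_one_right (by positivity) F.y1))
    E0.le).trans ?_
  rw [mul_one_div, div_le_one (by positivity)]
  exact le_self_pow₀ F.E1' (by norm_num)

theorem kv {k : ℕ} (hk : k ≤ S.J) : k * p.v ≤ E * (p.gst P t).s k := by
  have := (F.cl.s_bds hk).1
  rw [F.sc.v, ← mul_div_assoc, div_le_iff₀ F.cl.C0, mul_comm _ S.C] at this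
  exact this.trans (mul_le_mul_of_nonneg_right F.sc.C (F.cl.s_nn k))

/-- the global sums -/
theorem glob (hx : x ∈ Set.Icc a a') (ms : MS E d p t S (p.gst P t) m x l Λ₀)
    (co : ∀ k, p.jf < k → k ≤ p.Jp P → t * |sv p t k| ≤ E * mt p t ((p.gst P t).s k) ∧
      (2 * p.ye ≤ (p.gst P t).s k → sv p t k = 0)) {N A : ℝ}
    (hN : N = S.θ * sd (p.gst P t) m x (Ioo S.jl (p.gst P t).N) fun _ => 1)
    (hA : A = sd (p.gst P t) m x (Ioo S.jl (p.gst P t).N) fun k => t * |sv p t k|) :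
    0 ≤ N ∧ 0 ≤ A ∧ Λ₀ * N ^ 2 ≤ E ^ 12 * (S.θ * d) ∧ Λ₀ * A ^ 2 ≤ E ^ 12 * (S.θ * d) ∧
      N ≤ E ^ 2 * S.θ ∧ A ≤ E ^ 2 * S.θ := by
  have E0' := F.E0
  have θ0 := F.θ0
  have l0' := F.l0'
  have L0 : 0 ≤ Λ₀ := by linarith [F.nr.L1]
  have A0 := hA ▸ sd0 F hx _ (ts0 F)
  have e2 : 1 ≤ E ^ 2 := one_le_pow₀ F.E1'
  have a1 := mul_le_mul_of_nonneg_left ms.N1 θ0.le
  have d0 : 0 ≤ E ^ 10 * (S.θ * d) := le_trans (by positivity) ms.A1
  refine ⟨hN ▸ mul_nonneg θ0.le (sd0 F hx _ fun _ => zero_le_one), A0, ?_, ?_, ?_, ?_⟩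
  · simp only [hN, sd, one_mul]
    linarith [mul_le_mul_of_nonneg_right e2 d0]
  · have a2 := sd_le F hx (T := Ioo S.jl (p.gst P t).N)
      (U := (Ioo S.jl S.J).filter fun k => (p.gst P t).s k ≤ 2 * p.ye)
      (g := fun k => E * (mt p t ((p.gst P t).s k) * |(p.gst P t).del m x k|))
      (fun k _ => mul_nonneg E0'.le (mul_nonneg (div_nonneg (F.sc.ms ▸ (F.cl.ms_pos
        (F.cl.s_nn k)).le) (F.r0.le.trans (le_max_right _ _))) (abs_nonneg _))) fun k hk h => by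
        have k1 := (mem_Ioo.1 hk).1
        have k2 := sv_J F h
        have c := co k (F.sc.jl ▸ k1) (F.sc.Jp ▸ k2.le.trans F.cl.i3)
        exact ⟨mem_filter.2 ⟨mem_Ioo.2 ⟨k1, k2⟩, (not_le.1 fun e => h (c.2 e)).le⟩,
          (mul_le_mul_of_nonneg_right c.1 (abs_nonneg _)).trans_eq (mul_assoc _ _ _)⟩
    simp only [mul_left_comm _ E, ← mul_sum] at a2
    have a3 := mul_le_mul_of_nonneg_left (pow_le_pow_left₀ A0 (hA ▸ a2) 2) L0
    linarith [mul_le_mul_of_nonneg_left ms.A1 (sq_nonneg E)]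
  · simp only [hN, sd, one_mul]
    rw [mul_comm]
    exact mul_le_mul_of_nonneg_right ((ms.N2.trans (El F)).trans e2) θ0.le
  · have a2 := sd_le F hx (T := Ioo S.jl (p.gst P t).N) (U := Ioo S.jl (p.gst P t).N)
      (g := fun k => 4 * t * |sv p t k|) (fun k _ => by linarith [ts0 F k]) fun k hk h =>
        ⟨hk, by linarith [mul_le_mul_of_nonneg_left ((ms.sup k (mem_Ioo.1 hk).1 (sv_J F h)).trans
          (show 4 * E * l ≤ 4 by linarith [El F])) (ts0 F k)]⟩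
    have a3 := F.fx.n1 x E0
    rw [F.fx.I_fd x E0 fun _ y => |y|, ← F.th, ← gst_N p P t, F.up_eq] at a3
    simp only [mul_left_comm _ (4 * t), ← mul_sum] at a2
    nlinarith [mul_nonneg (sub_nonneg.2 F.E1) (mul_pos E0' θ0).le, mul_pos E0' θ0]

/-- the low sums -/
theorem low (xt : Xt E p) (hx : x ∈ Set.Icc a a') (ms : MS E d p t S (p.gst P t) m x l Λ₀) {k : ℕ}
    (hk : (p.gst P t).s k ≤ p.ye) {y γ : ℝ} (hy : y = max ((p.gst P t).s k) l)
    (hγ : γ = cum S (p.gst P t) m x y) :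
    sd (p.gst P t) m x (Ico (p.jf + 1) k) (fun k => t * |sv p t k|) ≤
      4 * E * p.lamG t ((p.gst P t).s k) * γ ∧ 0 ≤ γ ∧ S.ms y * γ ^ 2 ≤ E ^ 10 * d * y ^ 2 ∧
      γ ≤ E ^ 2 * y ^ 2 := by
  have E0' := F.E0
  have l0' := F.l0'
  have ly : l ≤ y := hy ▸ le_max_right _ _
  have y0 := l0'.trans_le ly
  have γ0 : 0 ≤ γ := hγ ▸ sum_nonneg fun k _ =>
    mul_nonneg ((F.fx.lg hx.1 hx.2).dz_nonneg k) (abs_nonneg _)
  have la := lamG_nn xt.κ0.le F.fx.y0.le F.fx.t0.le (F.cl.s_nn k)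
  refine ⟨?_, γ0, hγ ▸ ms.Ga y ly ?_, ?_⟩
  · refine (sd_le F hx (U := (Ioo S.jl S.J).filter fun j => (p.gst P t).s j ≤ y)
      (g := fun j => 4 * E * p.lamG t ((p.gst P t).s k) * |(p.gst P t).del m x j|)
      (fun j _ => by positivity) fun j hj h => ?_).trans_eq ?_
    · have j1 := F.cl.sm (mem_Ico.1 hj).2.le
      refine ⟨mem_filter.2 ⟨mem_Ioo.2 ⟨F.sc.jl ▸ (mem_Ico.1 hj).1, sv_J F h⟩,
        j1.trans (hy ▸ le_max_left _ _)⟩, mul_le_mul_of_nonneg_right ?_ (abs_nonneg _)⟩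
      linarith [sv_lam F.fx xt.κ0.le xt.v0.le j, lamG_mul xt.κ0.le F.fx.y0.le F.fx.t0.le
        (F.cl.s_nn k) F.E1' ((kv F (sv_J F h).le).trans (mul_le_mul_of_nonneg_left j1 E0'.le))]
    · rw [hγ, cum, mul_sum]
      exact sum_congr rfl fun j _ => by ring
  · have a1 : l ≤ p.ye := F.nr.ly.trans (mul_le_of_le_one_left F.fx.y0.le
      ((div_le_one (by positivity)).2 (one_le_pow₀ F.E1')))
    refine (hy ▸ max_le hk a1 : y ≤ p.ye).trans (le_of_mul_le_mul_left ?_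
      (show 0 < 48 * E ^ 4 by positivity))
    have a2 : 48 * E ^ 4 ≤ E ^ 4 * E ^ 4 := mul_le_mul_of_nonneg_right
      ((show (48 : ℝ) ≤ E by linarith [F.E1]).trans (le_self_pow₀ F.E1' (by norm_num)))
      (by positivity)
    linarith [F.T0_ge, xt.ye, mul_le_mul_of_nonneg_right a2 F.fx.y0.le]
  · refine (pow_le_pow_iff_left₀ γ0 (by positivity) two_ne_zero).1 ((hγ ▸ ms.Gb y ly).trans ?_)
    calc E ^ 4 * (y * l ^ 3) ≤ E ^ 4 * (y * y ^ 3) := by gcongr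
      _ = _ := by ring

/-- sums against the total displacement -/
theorem sum_h (xt : Xt E p) {T : Finset ℕ} (hT : T ⊆ Ico (p.jf + 1) (p.gst P t).N) {c : ℕ → ℝ}
    (hc : ∀ k, 0 ≤ c k) : ∑ k ∈ T, (p.gst P t).dz m a k * (c k *
      |Cas.Alg77.gd (D0 p P t m a) (k + 1) + Cas.Alg77.gd (D0 p P t m a') (k + 1)|) ≤
      E * (sd (p.gst P t) m a T c + sd (p.gst P t) m a' T c) := by
  rw [sd, sd, ← sum_add_distrib, mul_sum]
  refine sum_le_sum fun k hk => ?_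
  obtain ⟨k1, k2⟩ := mem_Ico.1 (hT hk)
  have a1 := (bs F ⟨le_rfl, F.fx.aa⟩ (sv p t) E0 xt.β).abs_gd (k + 1)
  have a2 := (bs F ⟨F.fx.aa, le_rfl⟩ (sv p t) E0 xt.β).abs_gd (k + 1)
  rw [cd_del _ _ _ _ _ k1 k2] at a1 a2
  rw [dz_free (m := m) (a := a') F.fx.leg m a (by omega)]
  exact (mul_le_mul_of_nonneg_left (mul_le_mul_of_nonneg_left ((abs_add_le _ _).trans
    (add_le_add a1 a2)) (hc k)) (F.fx.lga.dz_nonneg k)).trans_eq (by rw [Md.del, Md.del]; ring)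

omit F in
theorem sq4 {m a b c e ρ X : ℝ} (m0 : 0 ≤ m) (hρ : ρ = a + b + c + e) (h1 : m * a ^ 2 ≤ X)
    (h2 : m * b ^ 2 ≤ X) (h3 : m * c ^ 2 ≤ X) (h4 : m * e ^ 2 ≤ X) : m * ρ ^ 2 ≤ 16 * X := by
  have e1 : ρ ^ 2 ≤ 4 * (a ^ 2 + b ^ 2 + c ^ 2 + e ^ 2) := by
    rw [hρ]
    nlinarith [sq_nonneg (a - b), sq_nonneg (a - c), sq_nonneg (a - e), sq_nonneg (b - c),
      sq_nonneg (b - e), sq_nonneg (c - e)]
  linarith [mul_le_mul_of_nonneg_left e1 m0]

theorem up {c : ℝ} {i j : ℕ} {z : ℝ} (hc : c ≤ 1000) (hi : i < j) (hz : 0 ≤ z) :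
    c * E ^ i * z ≤ E ^ j * z :=
  mul_le_mul_of_nonneg_right ((mul_le_mul_of_nonneg_right (hc.trans F.E1) (pow_pos F.E0 i).le).trans
    ((pow_succ' E i).symm.trans_le (pow_le_pow_right₀ F.E1' hi))) hz

set_option maxHeartbeats 1000000 in
/-- the split of the response -/
theorem split (xt : Xt E p) {C : ℝ} (CE : C ≤ E)
    (hC : ∀ (T : List (T157.Casc.Lv Bool)) (k : ℕ) (p : ℝ), R1J.Nd T k p →
      ∀ f g : ℕ → ℝ, f 0 = 0 → g 0 = 0 → f k = 0 → g k = 0 → |R1J.W T k [f, g]| ≤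
        C * (p * (R1J.n1 T f * R1J.n1 T g) + p * R1J.hi T k (fun j => f j * g j) +
          R1J.lo T k fun j => f j * g j)) {k : ℕ} (k1 : p.jf < k) (k2 : k ≤ p.Jp P)
    (hp : min 1 ((p.gst P t).z k + (D0 p P t m a).sig (k + 1)) ≤ E * (p.gst P t).s k) :
    |t * phi (D0 p P t m a) (D0 p P t m a') (fd p t) (k + 1)| ≤ E / 4 *
      (t * |sv p t k| * |R1J.J (D0 p P t m a).S (Cas.Alg77.gd (D0 p P t m a)) (k + 1)| +
        t * |sv p t k| * |R1J.J (D0 p P t m a').S (Cas.Alg77.gd (D0 p P t m a')) (k + 1)| +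
      E * (E * min 1 ((p.gst P t).s k) * (E * S.θ * (E *
          (sd (p.gst P t) m a (Ioo S.jl (p.gst P t).N) (fun _ => 1) +
            sd (p.gst P t) m a' (Ioo S.jl (p.gst P t).N) fun _ => 1)) +
          E * (sd (p.gst P t) m a (Ioo S.jl (p.gst P t).N) (fun k => t * |sv p t k|) +
            sd (p.gst P t) m a' (Ioo S.jl (p.gst P t).N) fun k => t * |sv p t k|)) +
        E * (sd (p.gst P t) m a (Ico (p.jf + 1) k) (fun k => t * |sv p t k|) +
          sd (p.gst P t) m a' (Ico (p.jf + 1) k) fun k => t * |sv p t k|))) := by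
  have H := bs F ⟨le_rfl, F.fx.aa⟩ (sv p t) E0 xt.β
  have kN : k < (p.gst P t).N := (F.sc.Jp ▸ k2).trans_lt F.cl.i4
  have E0' := F.E0
  have t0 := F.fx.t0
  have θ0 := F.θ0
  have s0 := F.cl.s_pos (show 1 ≤ k by omega)
  have hM := (H.nd1 (j := k + 1) (mem_Ioo.2 ⟨Nat.succ_lt_succ k1, by
    rw [cd_K]; exact Nat.succ_lt_succ kN⟩)).mono
  set h : ℕ → ℝ := fun j => Cas.Alg77.gd (D0 p P t m a) j + Cas.Alg77.gd (D0 p P t m a') j with hh
  have g1 : ∀ j ≤ p.jf + 1, Cas.Alg77.gd (D0 p P t m a) j = 0 := fun j hj =>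
    Cas.Alg77.gd_lo _ hj
  have g2 : ∀ j ≤ p.jf + 1, Cas.Alg77.gd (D0 p P t m a') j = 0 := fun j hj =>
    Cas.Alg77.gd_lo _ hj
  have h0 : ∀ j ≤ p.jf + 1, h j = 0 := fun j hj => by simp only [hh, g1 j hj, g2 j hj, add_zero]
  have f0 : fd p t 0 = 0 := fd_lo p t (Nat.zero_le _)
  have eJ : R1J.J (D0 p P t m a).S (Cas.Alg77.gd (D0 p P t m a')) (k + 1) =
      R1J.J (D0 p P t m a').S (Cas.Alg77.gd (D0 p P t m a')) (k + 1) :=
    W_free (Nat.succ_pos _) F.fx.cut.N0 (by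
      have := g2 0 (Nat.zero_le _)
      have := g2 1 (by omega)
      have : k ≠ 0 := by omega
      simp [R1J.ind, R1J.off, *]) (Nat.succ_pos _)
  have nd := H.nd (j := k + 1) (mem_Ioo.2 ⟨Nat.succ_lt_succ k1, by
    rw [cd_K]; exact Nat.succ_lt_succ kN⟩) (p := E * min 1 ((p.gst P t).s k))
    (mul_pos E0' (lt_min one_pos s0)) (by
      rw [mul_min_of_nonneg _ _ E0'.le]
      refine le_min ((min_le_left _ _).trans (by linarith [F.E1])) (le_of_eq_of_le ?_ hp)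
      exact congrArg (fun z => min 1 (z + _)) (ex_succ F.fx.leg k))
  have b0 := hC _ _ _ nd _ _ (R1J.off_zero (k + 1) f0) (R1J.off_zero (k + 1) (h0 0 (Nat.zero_le _)))
    (R1J.off_self _ _) (R1J.off_self _ _)
  have b1 : t * R1J.n1 (D0 p P t m a).S (R1J.off (k + 1) (fd p t)) ≤ E * S.θ := by
    refine (mul_le_mul_of_nonneg_left (R1J.n1_off hM _ _) t0.le).trans ?_
    rw [H.n1_up fun j hj => fd_lo p t hj, F.th]
    exact F.fx.n1 a E0
  have b2 := sum_h F xt Subset.rfl (c := fun _ => 1) fun _ => zero_le_one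
  have b3 := sum_h F xt Subset.rfl (ts0 F)
  have b4 := sum_h F xt (Ico_subset_Ico_right kN.le) (ts0 F)
  have e1 : ∀ T ⊆ Ico (p.jf + 1) (p.gst P t).N, t * ∑ j ∈ T, (p.gst P t).dz m a j *
      |fd p t (j + 1) * h (j + 1)| = ∑ j ∈ T, (p.gst P t).dz m a j * (t * |sv p t j| * |h (j + 1)|) :=
    fun T hT => by
      rw [mul_sum]
      exact sum_congr rfl fun j hj => by rw [fd_succ p t (mem_Ico.1 (hT hj)).1, abs_mul]; ring
  simp only [one_mul] at b2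
  have c2 := (R1J.n1_off hM (k + 1) h).trans
    (((H.n1_up h0).trans (cd_I _ _ _ _ _ _ _ _)).trans_le b2)
  have q3 : t * R1J.n1 (D0 p P t m a).S (fun j => fd p t j * h j) =
      ∑ j ∈ Ico (p.jf + 1) (p.gst P t).N, (p.gst P t).dz m a j * (t * |sv p t j| * |h (j + 1)|) := by
    rw [H.n1_up fun j hj => by rw [h0 j hj, mul_zero], cd_I, e1 _ Subset.rfl]
  have q4 : t * R1J.lo (D0 p P t m a).S (k + 1) (fun j => fd p t j * h j) =
      ∑ j ∈ Ico (p.jf + 1) k, (p.gst P t).dz m a j * (t * |sv p t j| * |h (j + 1)|) := by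
    rw [lo_up _ fun j hj => by rw [h0 j hj, mul_zero], cd_lw, e1 _ (Ico_subset_Ico_right kN.le)]
  have c3 := (mul_le_mul_of_nonneg_left ((R1J.hi_mono hM (k + 1) (R1J.abs_off2 (k + 1) (fd p t)
    h)).trans (R1J.hi_le hM _ _)) t0.le).trans (q3.trans_le b3)
  have c4 := (mul_le_mul_of_nonneg_left (R1J.lo_mono hM (le_refl (k + 1))
    (R1J.abs_off2 (k + 1) (fd p t) h)) t0.le).trans (q4.trans_le b4)
  rw [F.up_eq] at c2 c3
  have n1 := R1J.n1_nonneg hM (R1J.off (k + 1) (fd p t))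
  have n2 := R1J.n1_nonneg hM (R1J.off (k + 1) h)
  have n3 := R1J.hi_nonneg hM (k + 1) fun j => R1J.off (k + 1) (fd p t) j * R1J.off (k + 1) h j
  have n4 := R1J.lo_nonneg hM (k + 1) fun j => R1J.off (k + 1) (fd p t) j * R1J.off (k + 1) h j
  have p0 := nd.p0
  have c5 := add_le_add (mul_le_mul_of_nonneg_left (add_le_add
    (mul_le_mul b1 c2 n2 (by positivity)) c3) p0.le) c4
  have c6 := (mul_le_mul_of_nonneg_left (b0.trans (mul_le_mul_of_nonneg_right CE (by positivity)))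
    t0.le).trans ((le_of_eq (by ring)).trans (mul_le_mul_of_nonneg_left c5 E0'.le))
  rw [phi, Cas.Alg77.W_off _ _ f0 (h0 0 (Nat.zero_le _)), R1J.J_add (Nat.succ_pos k)
    (g1 0 (Nat.zero_le _)) (g2 0 (Nat.zero_le _)), eJ, fd_succ p t k1, mul_left_comm, abs_mul,
    abs_of_nonneg (div_nonneg (H.tau _).1 (by norm_num)), abs_mul, abs_of_pos t0]
  refine mul_le_mul (div_le_div_of_nonneg_right (H.tau _).2 (by norm_num)) ?_ (by positivity)
    (by positivity)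
  refine (mul_le_mul_of_nonneg_left ((abs_add_le _ _).trans (add_le_add_left ((abs_mul _ _).trans_le
    (mul_le_mul_of_nonneg_left (abs_add_le _ _) (abs_nonneg _))) _)) t0.le).trans ?_
  exact (le_of_eq (by ring)).trans (add_le_add_right c6 _)

omit F in
/-- **the off-off half** -/
theorem phOff60 : PhOff := fun β hβ hC hM hJ => by
  obtain ⟨C, -, hC2⟩ := R1J.s2
  refine Sml.glue' hβ ((hC.and hM).and hJ) 2 one_pos 3 fun c0 C0 A c η _ _ _ _ =>
    ⟨C, fun p H _ _ hη ⟨⟨co, ms⟩, jw⟩ σ σ' P t a a' Q m X S l Φ Pf l0 Λ₀ Pt u1 V4 I F => ?_⟩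
  have xt := xt_of H (by exact_mod_cast hη)
  have CE := H.K_le
  have B0 := Bud_nonneg H.s0.le X.Q0
  clear H hη
  generalize (p.n : ℝ) ^ η = E at *
  have E0' := F.E0
  have θ0 := F.θ0
  have m0 : (0 : ℝ) < m := Nat.cast_pos.2 F.fx.m0
  have xa : a ∈ Set.Icc a a' := ⟨le_rfl, F.fx.aa⟩
  have xb : a' ∈ Set.Icc a a' := ⟨F.fx.aa, le_rfl⟩
  replace ms := ms σ σ' P t a a' Q m X S l Φ Pf l0 Λ₀ Pt u1 V4 I F
  replace jw := jw σ σ' P t a a' Q m X S l Φ Pf l0 Λ₀ Pt u1 V4 I F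
  replace co := co.2.2.2.2.1 σ σ' P t a a' Q m X a xa
  have d0 : 0 ≤ (1 / E ^ 200) ^ 2 * n4 p := by have := F.n40; positivity
  generalize (1 / E ^ 200) ^ 2 * n4 p = d at *
  obtain ⟨N0, A0, N1, A1, N2, A2⟩ := glob F xa (ms a xa)
    (fun k h1 h2 => ⟨(co k h1 h2).1, (co k h1 h2).2.1⟩) rfl rfl
  obtain ⟨N0', A0', N1', A1', N2', A2'⟩ := glob F xb (ms a' xb)
    (fun k h1 h2 => ⟨(co k h1 h2).1, (co k h1 h2).2.1⟩) rfl rfl
  have sp := fun k k1 k2 => split F xt CE hC2 (k := k) k1 k2 (co k k1 k2).2.2.2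
  have sb : ∀ x ∈ Set.Icc a a', ∀ k ≤ p.Jp P,
      sd (p.gst P t) m x (Ico (p.jf + 1) k) (fun k => t * |sv p t k|) ≤
        sd (p.gst P t) m x (Ioo S.jl (p.gst P t).N) fun k => t * |sv p t k| := fun x hx k hk =>
    sum_le_sum_of_subset_of_nonneg (F.up_eq ▸ Ico_subset_Ico_right
      ((F.sc.Jp ▸ hk).trans F.cl.i4.le)) fun j _ _ => mul_nonneg
        ((F.fx.lg hx.1 hx.2).dz_nonneg j) (mul_nonneg (ts0 F j) (abs_nonneg _))
  have sa := sb a xa
  replace sb := sb a' xb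
  generalize sd (p.gst P t) m a (Ioo S.jl (p.gst P t).N) (fun _ => 1) = N at *
  generalize sd (p.gst P t) m a' (Ioo S.jl (p.gst P t).N) (fun _ => 1) = N' at *
  generalize sd (p.gst P t) m a (Ioo S.jl (p.gst P t).N) (fun k => t * |sv p t k|) = A at *
  generalize sd (p.gst P t) m a' (Ioo S.jl (p.gst P t).N) (fun k => t * |sv p t k|) = A' at *
  have L0 : 0 ≤ Λ₀ := by linarith [F.nr.L1]
  have e45 : E ^ 4 ≤ E ^ 5 := pow_le_pow_right₀ F.E1' (by norm_num)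
  have e35 : E ^ 3 ≤ E ^ 5 := pow_le_pow_right₀ F.E1' (by norm_num)
  refine ⟨E * (1 / E ^ 12 * Bud p Q / m), E ^ 5 * (S.θ * N + S.θ * N' + A + A'), by positivity, ?_,
    by positivity, ?_, ?_, fun k k1 k2 => ?_⟩
  · calc _ = 1 / E ^ 11 * Bud p Q := by field_simp
      _ ≤ _ := by gcongr; exacts [F.E1', by norm_num]
  · have := mul_le_mul_of_nonneg_left (sq4 L0 rfl N1 N1' A1 A1') (show 0 ≤ E ^ 10 by positivity)
    linarith [up F (c := 16) (i := 22) (j := 300) (z := S.θ * d) (by norm_num) (by norm_num)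
      (by positivity)]
  · have := mul_le_mul_of_nonneg_left (add_le_add (add_le_add (add_le_add N2 N2') A2) A2')
      (show 0 ≤ E ^ 5 by positivity)
    linarith [up F (c := 4) (i := 7) (j := 150) (by norm_num) (by norm_num) θ0.le]
  obtain ⟨R, r0, r1, r2, r3, r4⟩ := jw a (.inl rfl) k k1 k2
  obtain ⟨R', r0', r1', r2', r3', r4'⟩ := jw a' (.inr rfl) k k1 k2
  have la := lamG_nn xt.κ0.le F.fx.y0.le F.fx.t0.le (F.cl.s_nn k)
  have mi : 0 ≤ min 1 ((p.gst P t).s k) := le_min zero_le_one (F.cl.s_nn k)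
  have y0 : 0 < max ((p.gst P t).s k) l := F.l0'.trans_le (le_max_right _ _)
  have ms0 := (F.cl.ms_pos y0.le).le
  obtain ⟨γ, γ', g0, g0', g1, g2, g2', g3, g3', g4⟩ : ∃ γ γ' : ℝ, 0 ≤ γ ∧ 0 ≤ γ' ∧
      (p.ye ≤ (p.gst P t).s k → γ = 0 ∧ γ' = 0) ∧
      S.ms (max ((p.gst P t).s k) l) * γ ^ 2 ≤ E ^ 10 * d * max ((p.gst P t).s k) l ^ 2 ∧
      S.ms (max ((p.gst P t).s k) l) * γ' ^ 2 ≤ E ^ 10 * d * max ((p.gst P t).s k) l ^ 2 ∧
      γ ≤ E ^ 2 * max ((p.gst P t).s k) l ^ 2 ∧ γ' ≤ E ^ 2 * max ((p.gst P t).s k) l ^ 2 ∧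
      sd (p.gst P t) m a (Ico (p.jf + 1) k) (fun k => t * |sv p t k|) +
        sd (p.gst P t) m a' (Ico (p.jf + 1) k) (fun k => t * |sv p t k|) ≤
        4 * E * p.lamG t ((p.gst P t).s k) * (γ + γ') +
          (if p.ye ≤ (p.gst P t).s k then 1 else 0) * (A + A') := by
    by_cases h : p.ye ≤ (p.gst P t).s k
    · refine ⟨0, 0, le_rfl, le_rfl, fun _ => ⟨rfl, rfl⟩, ?_, ?_, by positivity, by positivity, ?_⟩
      · rw [sq (0 : ℝ), mul_zero, mul_zero]; positivity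
      · rw [sq (0 : ℝ), mul_zero, mul_zero]; positivity
      · rw [if_pos h]
        linarith [sa k k2, sb k k2]
    · obtain ⟨q1, q2, q3, q4⟩ := low F xt xa (ms a xa) (not_le.1 h).le rfl rfl
      obtain ⟨q1', q2', q3', q4'⟩ := low F xt xb (ms a' xb) (not_le.1 h).le rfl rfl
      exact ⟨_, _, q2, q2', fun e => absurd e h, q3, q3', q4, q4', by rw [if_neg h]; linarith⟩
  have i0 : (0 : ℝ) ≤ if p.ye ≤ (p.gst P t).s k then 1 else 0 := by split_ifs <;> norm_num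
  have dy : 0 ≤ d * max ((p.gst P t).s k) l ^ 2 := by positivity
  have y2 := sq_nonneg (max ((p.gst P t).s k) l)
  refine ⟨E * R + E * R' + E ^ 4 * γ + E ^ 4 * γ', by positivity, fun h => ?_, ?_, ?_,
    (sp k k1 k2).trans ?_⟩
  · obtain ⟨e1, e2⟩ := g1 (by linarith [F.fx.y0])
    rw [r1 h, r1' h, e1, e2]
    ring
  · have u := up F (c := 1) (i := 18) (j := 202) (by norm_num) (by norm_num) dy
    have e2 : 0 ≤ E ^ 2 := by positivity
    have e8 : 0 ≤ E ^ 8 := by positivity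
    have := sq4 (X := E ^ 202 * (d * max ((p.gst P t).s k) l ^ 2)) ms0 (a := E * R) (b := E * R')
      (c := E ^ 4 * γ) (e := E ^ 4 * γ') rfl (by linarith [mul_le_mul_of_nonneg_left r2 e2])
      (by linarith [mul_le_mul_of_nonneg_left r2' e2])
      (by linarith [mul_le_mul_of_nonneg_left g2 e8])
      (by linarith [mul_le_mul_of_nonneg_left g2' e8])
    linarith [up F (c := 16) (i := 202) (j := 300) (by norm_num) (by norm_num) dy]
  · have e4 : 0 ≤ E ^ 4 := by positivity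
    linarith [mul_le_mul_of_nonneg_left r3 E0'.le, mul_le_mul_of_nonneg_left r3' E0'.le,
      mul_le_mul_of_nonneg_left g3 e4, mul_le_mul_of_nonneg_left g3' e4,
      up F (c := 2) (i := 6) (j := 101) (by norm_num) (by norm_num) y2,
      up F (c := 3) (i := 101) (j := 150) (by norm_num) (by norm_num) y2]
  · have e : (if k < p.J then E * (1 / E ^ 12 * Bud p Q / m) / max ((p.gst P t).s k) l ^ 2 else 0) =
        E * if k < p.J then 1 / E ^ 12 * Bud p Q / m / max ((p.gst P t).s k) l ^ 2 else 0 := by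
      split_ifs
      exacts [mul_div_assoc _ _ _, (mul_zero _).symm]
    have z0 : (0 : ℝ) ≤ if k < p.J then 1 / E ^ 12 * Bud p Q / m / max ((p.gst P t).s k) l ^ 2
        else 0 := by
      split_ifs
      exacts [by positivity, le_rfl]
    rw [e]
    generalize (if k < p.J then 1 / E ^ 12 * Bud p Q / m / max ((p.gst P t).s k) l ^ 2 else 0) = z
      at *
    generalize (if p.ye ≤ (p.gst P t).s k then (1 : ℝ) else 0) = i at *
    generalize min 1 ((p.gst P t).s k) = w at *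
    generalize p.lamG t ((p.gst P t).s k) = lam at *
    have AA := add_nonneg A0 A0'
    have NN := add_nonneg N0 N0'
    have e5 : 0 ≤ E ^ 5 := by positivity
    linarith [mul_le_mul_of_nonneg_left r4 E0'.le, mul_le_mul_of_nonneg_left r4' E0'.le,
      mul_le_mul_of_nonneg_left g4 (show 0 ≤ E ^ 3 by positivity), mul_nonneg E0'.le z0,
      mul_nonneg E0'.le (mul_nonneg la r0), mul_nonneg E0'.le (mul_nonneg la r0'),
      mul_le_mul_of_nonneg_right e45 (mul_nonneg mi AA),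
      mul_le_mul_of_nonneg_right e35 (mul_nonneg i0 AA), mul_nonneg e5 (mul_nonneg mi AA),
      mul_nonneg e5 (mul_nonneg i0 AA), mul_nonneg e5 (mul_nonneg mi NN),
      mul_nonneg e5 (mul_nonneg i0 NN)]

end Crest.Agent.T156.Alt.P60

end
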