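import Crest.Agent.T156.QBlU_21
import Crest.Agent.T156.SegC_56
import Crest.Agent.T156.CIn_12
import Crest.Agent.T156.Cost_41

/-!
# Row 156, R1: differences in the root tilt of node sums, (SD) + Brascamp–Lieb (helper56)
-/

set_option autoImplicit false
set_option linter.unusedSectionVars false

noncomputable section

namespace Crest.Agent.T156.Alt.SD56

open MeasureTheory Real Finset
open Crest.Agent.T157.E Crest.Agent.T157.Casc Crest.Agent.T157.SL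
open Crest.Agent.T157.G1 (ov)
open Crest.Agent.T156.Cas Crest.Agent.T156.Cas.Sy41 Crest.Agent.T156.Cas.Q33
open Crest.Agent.T156.Cas.Lp12 Crest.Agent.T156.Cas.C40 Crest.Agent.T156.Alt.Md67
open Link33 (wt1)

/-- `E |ρ_k - c|^i a_k` (the summand of `QO.jnt`) -/
def JA (M : Md) (m : ℕ) (s : ℝ) (i : ℕ) (c : ℝ) (k : ℕ) : ℝ :=
  M.EP' m s fun q => |M.rP m s k q - c| ^ i * M.aP m s k q

/-- `E g (ρ_k)` -/
def GE (M : Md) (m : ℕ) (s : ℝ) (g : ℝ → ℝ) (k : ℕ) : ℝ := M.EP' m s fun q => g (M.rP m s k q)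

/-- `Δ_a ∑_{k ∈ T} dz_k F_k` -/
def Da (M : Md) (m : ℕ) (a a' : ℝ) (T : Finset ℕ) (F : ℝ → ℕ → ℝ) : ℝ :=
  ∑ k ∈ T, M.dz m a' k * F a' k - ∑ k ∈ T, M.dz m a k * F a k

/-- a window of root tilts -/
structure Wn (M : Md) (m : ℕ) (a a' Q : ℝ) : Prop where
  leg : M.Leg a'
  m0 : 0 < m
  a0 : 0 ≤ a
  le : a ≤ a'
  Q0 : 0 ≤ Q
  W : (a' - a) * M.W m a a' ≤ Q ^ 2

variable {M : Md} {m : ℕ} {a a' s Q V B : ℝ} {T : Finset ℕ}

theorem ep_r (k : ℕ) : EP (M.rP m s k) := QCas98.ep_rP wt1 _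
theorem ep_a (k : ℕ) : EP (M.aP m s k) := QCas98.ep_aP wt1 _
theorem ep_g {g : ℝ → ℝ} (hg : Continuous g) (k : ℕ) : EP fun q => g (M.rP m s k q) :=
  QBl21.ep_g wt1 hg _
theorem ep_J (i : ℕ) (c : ℝ) (k : ℕ) : EP fun q => |M.rP m s k q - c| ^ i * M.aP m s k q :=
  (((ep_r k).sub (EP.const c)).abs.pow i).mul (ep_a k)

theorem GE_eq (hm : 0 < m) (g : ℝ → ℝ) (k : ℕ) : GE M m s g k =
    node (fun _ => 1) (M.L m s) (k + 1) (fun z => g (M.rh m s k z)) 0 := by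
  rw [rh_eq (sl_cov hm), ← EE_node wt1]; rfl

theorem GE_lin (hm : 0 < m) (c : ℝ) (k : ℕ) : GE M m s (fun r => c * r) k = c * M.rb m s k := by
  rw [GE_eq hm, rb_node hm, node_const_mul]

theorem GE_mul (c : ℝ) (g : ℝ → ℝ) (k : ℕ) : GE M m s (fun r => c * g r) k = c * GE M m s g k :=
  EE_const_mul c _ _ _

theorem JA_zero (c : ℝ) (k : ℕ) : JA M m s 0 c k = Cost41.aM M m s k := by
  simp only [JA, pow_zero, one_mul]
  exact EE_node wt1 (mAm (fun _ => 1) ((M.L m s).drop (k + 1)) (sl m)) _ _ _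

theorem aP_nonneg (G : Lg M m s) (k : ℕ) (q : Pth (Cube m)) : 0 ≤ M.aP m s k q :=
  Hess87.Hb_nonneg wt1 _ _ _ ((mono_drop _ G.monoL).nn le_rfl)

theorem JA_nonneg (G : Lg M m s) (i : ℕ) (c : ℝ) (k : ℕ) : 0 ≤ JA M m s i c k :=
  EE_nonneg _ _ fun q => mul_nonneg (by positivity) (aP_nonneg G k q)

/-- change of the centre -/
theorem JA_shift (G : Lg M m s) (i : ℕ) (c c' : ℝ) (k : ℕ) : JA M m s i c k ≤
    2 ^ i * (JA M m s i c' k + |c' - c| ^ i * Cost41.aM M m s k) := by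
  rw [← JA_zero c, JA, JA, JA, ← EE_const_mul, ← EE_add wt1 _ _ (ep_J _ _ _)
    ((ep_J _ _ _).const_mul _), ← EE_const_mul]
  refine EE_mono wt1 _ _ (ep_J _ _ _) (((ep_J _ _ _).add ((ep_J _ _ _).const_mul _)).const_mul _)
    fun q => ?_
  have h : |M.rP m s k q - c| ^ i ≤ 2 ^ i * (|M.rP m s k q - c'| ^ i + |c' - c| ^ i) := by
    refine (pow_le_pow_left₀ (abs_nonneg _) (abs_sub_le _ c' c) i).trans
      ((add_pow_le (abs_nonneg _) (abs_nonneg _) i).trans ?_)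
    gcongr
    exacts [one_le_two, Nat.sub_le _ _]
  nlinarith [mul_le_mul_of_nonneg_right h (aP_nonneg G k q)]

/-- crude form: `|ρ - c| ≤ b` costs nothing -/
theorem JA_le (G : Lg M m s) (i : ℕ) {c : ℝ} (h0 : 0 ≤ c) (h1 : c ≤ 1) (k : ℕ) :
    JA M m s i c k ≤ Cost41.aM M m s k := by
  rw [← JA_zero c]
  refine EE_mono wt1 _ _ (ep_J _ _ _) (ep_J _ _ _) fun q =>
    mul_le_mul_of_nonneg_right ?_ (aP_nonneg G k q)
  have e : M.rP m s k q = M.rh m s k (q (k + 1)) := by rw [rh_eq (sl_cov G.m0)]; rfl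
  rw [pow_zero, e]
  exact pow_le_one₀ (abs_nonneg _) (abs_le.2
    ⟨by linarith [rh_nonneg (M := M) (a := s) G.m0 k (q (k + 1))],
     by linarith [rh_le_one (M := M) (a := s) G.m0 k (q (k + 1))]⟩)

theorem Da_add (F G : ℝ → ℕ → ℝ) :
    Da M m a a' T (fun s k => F s k + G s k) = Da M m a a' T F + Da M m a a' T G := by
  simp only [Da, mul_add, sum_add_distrib]; ring

theorem Da_congr {F G : ℝ → ℕ → ℝ} (h : ∀ s, ∀ k ∈ T, F s k = G s k) :
    Da M m a a' T F = Da M m a a' T G := by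
  unfold Da
  congr 1 <;> exact sum_congr rfl fun k hk => by rw [h _ k hk]

theorem Da_union {T' : Finset ℕ} (h : Disjoint T T') (F : ℝ → ℕ → ℝ) :
    Da M m a a' (T ∪ T') F = Da M m a a' T F + Da M m a a' T' F := by
  simp only [Da, sum_union h]; ring

namespace Wn

variable (H : Wn M m a a' Q)
include H

theorem lg (hs : s ∈ Set.Icc a a') : Lg M m s := lg_of H.leg H.m0 (H.a0.trans hs.1) hs.2
theorem lo : a ∈ Set.Icc a a' := ⟨le_rfl, H.le⟩
theorem hi : a' ∈ Set.Icc a a' := ⟨H.le, le_rfl⟩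

theorem dz0 (s : ℝ) {k : ℕ} (hk : 0 < k) : 0 ≤ M.dz m s k := by
  rw [dz_up H.leg hk]; exact sub_nonneg.2 (H.leg.zm (by omega))

/-- a function that does not depend on the root tilt -/
theorem Da_const (hT : ∀ k ∈ T, 0 < k) (c : ℕ → ℝ) : Da M m a a' T (fun _ => c) = 0 :=
  sub_eq_zero.2 (sum_congr rfl fun k hk => by rw [dz_free H.leg m a (hT k hk)])

/-- absolute bound -/
theorem Da_abs (hT : ∀ k ∈ T, 0 < k) {F : ℝ → ℕ → ℝ}
    (h : ∀ s ∈ Set.Icc a a', ∑ k ∈ T, M.dz m s k * |F s k| ≤ B) : |Da M m a a' T F| ≤ 2 * B := by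
  have e : ∀ s ∈ Set.Icc a a', |∑ k ∈ T, M.dz m s k * F s k| ≤ B := fun s hs =>
    ((abs_sum_le_sum_abs _ _).trans (le_of_eq (sum_congr rfl fun k hk => by
      rw [abs_mul, abs_of_nonneg (H.dz0 s (hT k hk))]))).trans (h s hs)
  exact (abs_sub _ _).trans (by linarith [e a H.lo, e a' H.hi])

/-- **(SD)** from an `L²` bound -/
theorem sd_mo (hT : ∀ k ∈ T, 0 < k) {g : ℕ → ℝ → ℝ} (hg : ∀ k, Continuous (g k)) {c : ℝ → ℝ}
    (hV : ∀ s ∈ Set.Icc a a',
      M.Mo m s 2 (fun q => ∑ k ∈ T, M.dz m s k * g k (M.rP m s k q) - c s) V) :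
    |Da M m a a' T fun s k => GE M m s (g k) k| ≤ Q * V := by
  have eF : ∀ s, (fun q => ∑ k ∈ T, M.dz m s k * g k (M.rP m s k q)) =
      fun q => ∑ k ∈ T, M.dz m 0 k * g k (M.rP m 0 k q) := fun s => funext fun q =>
    sum_congr rfl fun k hk => by rw [dz_free H.leg m 0 (hT k hk)]; rfl
  have eE : ∀ s, ∑ k ∈ T, M.dz m s k * GE M m s (g k) k =
      M.EP' m s fun q => ∑ k ∈ T, M.dz m 0 k * g k (M.rP m 0 k q) := fun s => by
    rw [← eF s, Md.EP', EE_sum wt1 _ _ T fun k _ => (ep_g (hg k) k).const_mul _]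
    exact sum_congr rfl fun k _ => (EE_const_mul _ _ _ _).symm
  rw [Da, eE, eE]
  refine Sd56.delta_Mo wt1 (M.root m 0) (M.up m) 0 (c := c)
    (EP.sum T fun k _ => (ep_g (hg k) k).const_mul _) H.le H.Q0 H.W fun s hs => ?_
  exact (hV s hs).congr fun q => congrArg (· - c s) (congrFun (eF s) q).symm

/-- **(SD) + BL for local functionals** -/
theorem sd_gen (hT : ∀ k ∈ T, 0 < k) {g g' : ℕ → ℝ → ℝ} (hg : ∀ k r, HasDerivAt (g k) (g' k r) r)
    (hc : ∀ k, Continuous (g' k)) (c ψ : ℕ → ℝ) (i : ℕ)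
    (hb : ∀ k ∈ T, ∀ r, 0 ≤ r → r ≤ 1 → |g' k r| ≤ ψ k * |r - c k| ^ i) (V0 : 0 ≤ V)
    (hV : ∀ s ∈ Set.Icc a a', ∑ k ∈ T, M.dz m s k * ψ k ^ 2 * JA M m s (2 * i) (c k) k ≤ V ^ 2) :
    |Da M m a a' T fun s k => GE M m s (g k) k| ≤ Q * (2 * V) :=
  H.sd_mo hT (fun k => continuous_iff_continuousAt.2 fun r => (hg k r).continuousAt) fun s hs =>
    QBl21.qVarS M m s a' H.m0 (H.a0.trans hs.1) hs.2 H.leg T g g' c ψ i _ hg hc hb (by positivity)
      (by have := hV s hs; unfold JA at this; linarith)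

/-- **linear terms** -/
theorem sd_lin (hT : ∀ k ∈ T, 0 < k) (φ q : ℕ → ℝ) (V0 : 0 ≤ V)
    (hV : ∀ s ∈ Set.Icc a a', ∑ k ∈ T, M.dz m s k * φ k ^ 2 * Cost41.aM M m s k ≤ V ^ 2) :
    |Da M m a a' T fun s k => φ k * (M.rb m s k - q k)| ≤ Q * (2 * V) := by
  have := H.sd_gen hT (g := fun k r => φ k * r) (g' := fun k _ => φ k)
    (fun k r => by simpa using (hasDerivAt_id r).const_mul (φ k)) (fun _ => continuous_const)
    0 (fun k => |φ k|) 0 (fun k _ r _ _ => by simp) V0 fun s hs => by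
      simpa only [mul_zero, JA_zero, sq_abs] using hV s hs
  rw [Da_congr (G := fun s k => GE M m s (fun r => φ k * r) k + -(φ k * q k)) fun s k _ => by
    rw [GE_lin H.m0]; ring, Da_add, H.Da_const hT, add_zero]
  exact this

/-- **squares** -/
theorem sd_sq (hT : ∀ k ∈ T, 0 < k) (c q : ℕ → ℝ) (V0 : 0 ≤ V)
    (hV : ∀ s ∈ Set.Icc a a', ∑ k ∈ T, M.dz m s k * c k ^ 2 * JA M m s 2 (q k) k ≤ V ^ 2)
    (hB : ∀ s ∈ Set.Icc a a', ∑ k ∈ T, M.dz m s k * (|c k| * M.pf m s k) ≤ B) :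
    |Da M m a a' T fun s k => c k * M.E2 m s (fun r => (r - q k) ^ 2) k| ≤ Q * (4 * V) + 2 * B := by
  have h1 := H.sd_gen hT (V := 2 * V) (g := fun k r => c k * (r - q k) ^ 2)
    (g' := fun k r => c k * (2 * (r - q k)))
    (fun k r => by simpa using (((hasDerivAt_id r).sub_const (q k)).pow 2).const_mul (c k))
    (fun _ => by fun_prop) q (fun k => 2 * |c k|) 1
    (fun k _ r _ _ => by rw [abs_mul, abs_mul, abs_two]; linarith) (by positivity) fun s hs => by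
      have := hV s hs
      simp only [mul_pow, sq_abs, mul_one, mul_left_comm _ ((2 : ℝ) ^ 2), mul_assoc,
        ← mul_sum] at this ⊢
      linarith
  have h2 := H.Da_abs hT (F := fun s k => c k * M.pf m s k) fun s hs => by
    simpa only [abs_mul, abs_of_nonneg (Sg56.pf_nonneg _)] using hB s hs
  rw [Da_congr (G := fun s k => GE M m s (fun r => c k * (r - q k) ^ 2) k + c k * M.pf m s k)
    fun s k _ => by rw [GE_mul, GE_eq H.m0, Sg56.E2_sq H.m0]; ring, Da_add]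
  exact (abs_add_le _ _).trans (by linarith)

end Wn

/-! ### cubes -/

theorem qf_cub {Ω : Type} [Fintype Ω] {p : Ω → ℝ} (h0 : ∀ x, 0 ≤ p x) (h1 : ∑ x, p x = 1)
    {K : Ω → Ω → ℝ} (hK : ∀ x y, |K x y| ≤ 1) (q e : ℝ) :
    |qf p (fun x y => (K x y - q) ^ 3) - (qf p K - q) ^ 3| ≤
      3 * e * (qf p (fun x y => (K x y - q) ^ 2) - (qf p K - q) ^ 2) +
        12 * qf p fun x y => max (|K x y - q| - e) 0 := by
  set ρ := qf p K with hρ
  set t := qf p fun x y => max (|K x y - q| - e) 0 with ht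
  have lin : ∀ (α β γ : ℝ) (A C : Ω → Ω → ℝ), qf p (fun x y => α * A x y + β * C x y + γ) =
      α * qf p A + β * qf p C + γ := fun α β γ A C => by
    rw [qf_add, qf_add, qf_const_mul, qf_const_mul, qf_const h1]
  have r1 : |ρ| ≤ 1 := abs_le.2 ⟨(qf_const h1 _).ge.trans (qf_mono h0 fun x y => (abs_le.1 (hK x y)).1),
    (qf_mono h0 fun x y => (abs_le.1 (hK x y)).2).trans (qf_const h1 _).le⟩
  have r2 : |ρ - q| ≤ e + t := by
    have a1 := qf_mono h0 (K := fun x y => 1 * K x y + -1 * max (|K x y - q| - e) 0 + (-q - e))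
      (K' := fun _ _ => 0) fun x y => by
        linarith [le_max_left (|K x y - q| - e) 0, le_abs_self (K x y - q)]
    have a2 := qf_mono h0 (K := fun x y => -1 * K x y + -1 * max (|K x y - q| - e) 0 + (q - e))
      (K' := fun _ _ => 0) fun x y => by
        linarith [le_max_left (|K x y - q| - e) 0, neg_abs_le (K x y - q)]
    rw [lin, qf_const h1] at a1 a2
    exact abs_le.2 ⟨by linarith, by linarith⟩
  have t0 : 0 ≤ t := (qf_const h1 0).ge.trans (qf_mono h0 fun x y => le_max_right _ _)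
  have pt : ∀ x y, |(K x y - q) ^ 3 - (ρ - q) ^ 3 - 3 * (ρ - q) ^ 2 * (K x y - ρ)| ≤
      3 * e * (K x y - ρ) ^ 2 + 4 * max (|K x y - q| - e) 0 + 8 * t := fun x y => by
    rw [show (K x y - q) ^ 3 - (ρ - q) ^ 3 - 3 * (ρ - q) ^ 2 * (K x y - ρ) =
      (K x y - ρ) ^ 2 * (K x y - q + 2 * (ρ - q)) by ring, abs_mul, abs_of_nonneg (sq_nonneg _)]
    have b1 : |K x y - q + 2 * (ρ - q)| ≤ 3 * e + (max (|K x y - q| - e) 0 + 2 * t) := by
      have := abs_add_le (K x y - q) (2 * (ρ - q))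
      rw [abs_mul, abs_two] at this
      linarith [le_max_left (|K x y - q| - e) 0]
    have b2 : (K x y - ρ) ^ 2 ≤ 4 := by
      have := abs_le.1 (hK x y)
      have := abs_le.1 r1
      nlinarith
    have b3 := mul_le_mul_of_nonneg_left b1 (sq_nonneg (K x y - ρ))
    have b4 := mul_le_mul_of_nonneg_right b2
      (add_nonneg (le_max_right (|K x y - q| - e) 0) (by positivity : 0 ≤ 2 * t))
    linarith
  have e2 : qf p (fun x y => (K x y - ρ) ^ 2) = qf p (fun x y => (K x y - q) ^ 2) - (ρ - q) ^ 2 := by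
    rw [show (fun x y => (K x y - ρ) ^ 2) = fun x y => 1 * (K x y - q) ^ 2 + (-2 * (ρ - q)) * K x y +
      (ρ ^ 2 - q ^ 2) from funext fun x => funext fun y => by ring, lin]
    ring
  have c1 := qf_mono h0 (K := fun x y => 1 * (K x y - q) ^ 3 + (-3 * (ρ - q) ^ 2) * K x y +
      (3 * (ρ - q) ^ 2 * ρ - (ρ - q) ^ 3))
    (K' := fun x y => 3 * e * (K x y - ρ) ^ 2 + 4 * max (|K x y - q| - e) 0 + 8 * t)
    fun x y => by linarith [(abs_le.1 (pt x y)).2]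
  have c2 := qf_mono h0 (K := fun x y => -1 * (K x y - q) ^ 3 + (3 * (ρ - q) ^ 2) * K x y +
      -(3 * (ρ - q) ^ 2 * ρ - (ρ - q) ^ 3))
    (K' := fun x y => 3 * e * (K x y - ρ) ^ 2 + 4 * max (|K x y - q| - e) 0 + 8 * t)
    fun x y => by linarith [(abs_le.1 (pt x y)).1]
  rw [lin, lin, e2] at c1 c2
  exact abs_le.2 ⟨by linarith, by linarith⟩

/-- `E (R - q)³` against `E (ρ - q)³` -/
theorem E2_cub (hm : 0 < m) (k : ℕ) (q e : ℝ) :
    |M.E2 m s (fun r => (r - q) ^ 3) k - GE M m s (fun r => (r - q) ^ 3) k| ≤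
      3 * e * M.pf m s k + 12 * M.E2 m s (fun r => max (|r - q| - e) 0) k := by
  have g : ∀ K, Eg fun z => qf (P (fun _ => 1) ((M.L m s).drop (k + 1)) z) K :=
    Sd56.eg_qf wt1 _
  have gr : ∀ i, Eg fun z => (M.rh m s k z - q) ^ i := fun i => ((g ov).sub (Eg.const q)).pow i
  have e2 := Sg56.E2_sq (M := M) (a := s) hm k q
  have pt := fun z => qf_cub (P_nonneg wt1 ((M.L m s).drop (k + 1)) z) (sum_P wt1 _ z)
    (T157.G1.abs_ov_le (n := m)) q e
  have gB := (((g fun x y => (ov x y - q) ^ 2).sub (gr 2)).const_mul (3 * e)).add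
    ((g fun x y => max (|ov x y - q| - e) 0).const_mul 12)
  have a1 := node_mono wt1 ((g fun x y => (ov x y - q) ^ 3).sub (gr 3)) gB
    (fun z => (abs_le.1 (pt z)).2) (M.L m s) (k + 1) 0
  have a2 := node_mono wt1 ((gr 3).sub (g fun x y => (ov x y - q) ^ 3)) gB
    (fun z => by have := (abs_le.1 (pt z)).1; simp only [Md.rh]; linarith) (M.L m s) (k + 1) 0
  rw [node_add wt1 (((g _).sub (gr 2)).const_mul _) ((g _).const_mul _), node_const_mul,
    node_const_mul, node_sub wt1 (g _) (gr 2)] at a1 a2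
  rw [node_sub wt1 (g _) (gr 3)] at a1
  rw [node_sub wt1 (gr 3) (g _)] at a2
  rw [GE_eq hm]
  simp only [Md.E2, pi2] at e2 a1 a2 ⊢
  rw [e2] at a1 a2
  exact abs_le.2 ⟨by linarith, by linarith⟩

/-- **cubes** -/
theorem Wn.sd_cub (H : Wn M m a a' Q) (hT : ∀ k ∈ T, 0 < k) (c q : ℕ → ℝ) (e : ℝ → ℕ → ℝ)
    (V0 : 0 ≤ V)
    (hV : ∀ s ∈ Set.Icc a a', ∑ k ∈ T, M.dz m s k * c k ^ 2 * JA M m s 4 (q k) k ≤ V ^ 2)
    (hB : ∀ s ∈ Set.Icc a a', ∑ k ∈ T, M.dz m s k * (|c k| * (3 * e s k * M.pf m s k +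
      12 * M.E2 m s (fun r => max (|r - q k| - e s k) 0) k)) ≤ B) :
    |Da M m a a' T fun s k => c k * M.E2 m s (fun r => (r - q k) ^ 3) k| ≤ Q * (6 * V) + 2 * B := by
  have h1 := H.sd_gen hT (V := 3 * V) (g := fun k r => c k * (r - q k) ^ 3)
    (g' := fun k r => c k * (3 * (r - q k) ^ 2))
    (fun k r => by simpa using (((hasDerivAt_id r).sub_const (q k)).pow 3).const_mul (c k))
    (fun _ => by fun_prop) q (fun k => 3 * |c k|) 2
    (fun k _ r _ _ => by rw [abs_mul, abs_mul, abs_pow, abs_of_pos (by norm_num : (0 : ℝ) < 3)]; linarith)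
    (by positivity) fun s hs => by
      have := hV s hs
      simp only [mul_pow, sq_abs, mul_left_comm _ ((3 : ℝ) ^ 2), mul_assoc, ← mul_sum] at this ⊢
      linarith
  have h2 := H.Da_abs hT (B := B) (F := fun s k => c k * (M.E2 m s (fun r => (r - q k) ^ 3) k -
      GE M m s (fun r => (r - q k) ^ 3) k)) fun s hs => le_trans (sum_le_sum fun k hk => by
    rw [abs_mul]
    exact mul_le_mul_of_nonneg_left (mul_le_mul_of_nonneg_left (E2_cub H.m0 k _ (e s k))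
      (abs_nonneg _)) (H.dz0 s (hT k hk))) (hB s hs)
  rw [Da_congr (G := fun s k => GE M m s (fun r => c k * (r - q k) ^ 3) k +
      c k * (M.E2 m s (fun r => (r - q k) ^ 3) k - GE M m s (fun r => (r - q k) ^ 3) k))
    fun s k _ => by rw [GE_mul]; ring, Da_add]
  exact (abs_add_le _ _).trans (by linarith)

/-! ### the names of block C -/

section cd

open CIn12

variable {ρ : ℕ → ℝ} {J : ℕ} {W W' : Option (ℕ → ℝ)} {E E' : Ev}

theorem pos_up (hJ : 0 < J) : ∀ k ∈ Ico J M.N, 0 < k := fun _ hk => hJ.trans_le (mem_Ico.1 hk).1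

theorem Wn.I_eq (H : Wn M m a a' Q) (hJ : 0 < J) (c : ℕ → ℝ) {f f' : ℕ → ℝ} {F : ℝ → ℕ → ℝ}
    (h : ∀ k, J ≤ k → k < M.N → f (k + 1) = F a k ∧ f' (k + 1) = F a' k) :
    (cd M m a ρ J W E).I (fun j => c j * (f' j - f j)) =
      Da M m a a' (Ico J M.N) fun s k => c (k + 1) * F s k := by
  rw [cd_I, Da, ← sum_sub_distrib]
  refine sum_congr rfl fun k hk => ?_
  obtain ⟨e, e'⟩ := h k (mem_Ico.1 hk).1 (mem_Ico.1 hk).2
  rw [e, e', dz_free H.leg m a' (pos_up hJ k hk)]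
  ring

/-- `I (φ Δ_a δ)` as a node sum; split it with `Da_union`, `sd_lin`, `Da_abs` -/
theorem Wn.I_del (H : Wn M m a a' Q) (hJ : 0 < J) (φ : ℕ → ℝ) :
    (cd M m a ρ J W E).I (fun j => φ j * ((cd M m a' ρ J W' E').del j - (cd M m a ρ J W E).del j)) =
      Da M m a a' (Ico J M.N) fun s k => φ (k + 1) * (M.rb m s k - ρ k) :=
  H.I_eq hJ φ fun _ h h' => ⟨cd_del _ _ _ _ _ h h', cd_del _ _ _ _ _ h h'⟩

theorem Wn.I_u2 (H : Wn M m a a' Q) (hJ : 0 < J) (c : ℕ → ℝ) :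
    (cd M m a ρ J W E).I (fun j => c j * ((cd M m a' ρ J W' E').u 2 j - (cd M m a ρ J W E).u 2 j)) =
      Da M m a a' (Ico J M.N) fun s k => c (k + 1) * M.E2 m s (fun r => (r - ρ k) ^ 2) k :=
  H.I_eq hJ c fun _ h h' => by simp only [cd_u _ _ _ _ _ 2 h h', sq_abs, and_self]

theorem Wn.I_u3 (H : Wn M m a a' Q) (hJ : 0 < J) (c : ℕ → ℝ) :
    (cd M m a ρ J W E).I (fun j => c j * ((cd M m a' ρ J W' E').u3 j - (cd M m a ρ J W E).u3 j)) =
      Da M m a a' (Ico J M.N) fun s k => c (k + 1) * M.E2 m s (fun r => (r - ρ k) ^ 3) k :=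
  H.I_eq hJ c fun _ h h' => ⟨cd_u3 _ _ _ _ _ h h', cd_u3 _ _ _ _ _ h h'⟩

end cd

/-! ### good nodes by (SD), the other nodes absolutely -/

namespace Wn

variable (H : Wn M m a a' Q) {T' : Finset ℕ} {A : ℝ}
include H

theorem split (hT : ∀ k ∈ T, 0 < k) (h : T' ⊆ T) {F : ℝ → ℕ → ℝ} (h1 : |Da M m a a' T' F| ≤ B)
    (h2 : ∀ s ∈ Set.Icc a a', ∑ k ∈ T \ T', M.dz m s k * |F s k| ≤ A) :
    |Da M m a a' T F| ≤ B + 2 * A := by
  rw [← union_sdiff_of_subset h, Da_union disjoint_sdiff]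
  exact (abs_add_le _ _).trans (add_le_add h1 (H.Da_abs (fun k hk => hT k (mem_sdiff.1 hk).1) h2))

theorem lin_le (hT : ∀ k ∈ T, 0 < k) (h : T' ⊆ T) (φ q : ℕ → ℝ) (V0 : 0 ≤ V)
    (hV : ∀ s ∈ Set.Icc a a', ∑ k ∈ T', M.dz m s k * φ k ^ 2 * JA M m s 0 (q k) k ≤ V ^ 2)
    (hA : ∀ s ∈ Set.Icc a a', ∑ k ∈ T \ T', M.dz m s k * |φ k * (M.rb m s k - q k)| ≤ A) :
    |Da M m a a' T fun s k => φ k * (M.rb m s k - q k)| ≤ Q * (2 * V) + 2 * A :=
  H.split hT h (H.sd_lin (fun k hk => hT k (h hk)) φ q V0 fun s hs => by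
    simpa only [JA_zero] using hV s hs) hA

end Wn

end Crest.Agent.T156.Alt.SD56

end
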