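import Crest.Agent.T156.R1J_60
import Crest.Agent.T156.EfB_49

/-!
# Row 156 (helper86): `S6`, `S7` of `R1J_60` (constants drop, symmetry of the site words)
-/

set_option autoImplicit false

noncomputable section

namespace Crest.Agent.T156.Cas.R1S86

open Finset
open Crest.Agent.T157.E Crest.Agent.T157.Casc Crest.Agent.T157.SL
open Crest.ProbabilityR.SpinGlassDynamics (spin)
open R1J (sk W S6 S7)

section gen

variable {Ω : Type} [Fintype Ω] {w : Ω → ℝ}

/-- a constant first letter kills any word -/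
theorem wd_cst (hw : Wt w) (M : List (Lv Ω)) (h : Ω → ℝ) {φ : ℕ → ℝ} (h0 : φ 0 = 0)
    {U : List (ℕ → Ω → Ω → ℝ)} (hU : ∀ S ∈ U, S ∈ Mul55.Ok Ω M.length) (s : Sh)
    (F : (s.Lf → Ω) → ℝ) : Dop M (fun k _ _ => φ k) (WdO M U (TEf w M h)) s F = 0 :=
  pd_wordO hw h M ((FL.ev s F).dop M _) (fun M' hM => by
    rw [← Dop_tilt hM]; exact Ef49.dop_cst hw M' h h0 s F) hU

/-- a nonempty word kills constant tests -/
theorem wd_one (hw : Wt w) (M : List (Lv Ω)) (h : Ω → ℝ) {S : ℕ → Ω → Ω → ℝ}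
    (hS : S ∈ Mul55.Ok Ω M.length) {U : List (ℕ → Ω → Ω → ℝ)}
    (hU : ∀ S ∈ U, S ∈ Mul55.Ok Ω M.length) (s : Sh) (v : ℝ) :
    WdO M (S :: U) (TEf w M h) s (fun _ => v) = 0 :=
  pd_wordO hw h M ((FL.ev s fun _ => v).dop M S) (fun M' hM => by
    rw [← Dop_tilt hM]
    exact Ef49.dop_one hw M' h (by rwa [Sch6.len_congr hM]) s v) hU

/-- constants drop from all letters -/
theorem wd_drop (hw : Wt w) (M : List (Lv Ω)) (h : Ω → ℝ) {α : Type} (S : α → ℕ → Ω → Ω → ℝ)
    (φ : α → ℕ → ℝ) : ∀ l : List α, (∀ a ∈ l, S a ∈ Mul55.Ok Ω M.length ∧ φ a 0 = 0) →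
      WdO M (l.map fun a k x y => S a k x y + φ a k) (TEf w M h) = WdO M (l.map S) (TEf w M h)
  | [], _ => rfl
  | a :: l, H => by
    have H' : ∀ b ∈ l, S b ∈ Mul55.Ok Ω M.length ∧ φ b 0 = 0 := fun b hb => H b (by simp [hb])
    rw [List.map_cons, List.map_cons, WdO_cons, WdO_cons, wd_drop hw M h S φ l H']
    funext s F
    have := ((isLin_TEf hw M h).wdO M (l.map S)).dopS M 1 1 (S a) (fun k _ _ => φ a k) s F
    rw [wd_cst hw M h (H a (by simp)).2 (fun T hT => by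
      obtain ⟨b, hb, rfl⟩ := List.mem_map.1 hT
      exact (H' b hb).1)] at this
    simpa only [one_mul, mul_zero, add_zero] using this

/-- constants drop from the test pair -/
theorem two_sub (hw : Wt w) (M : List (Lv Ω)) (h : Ω → ℝ) {S : ℕ → Ω → Ω → ℝ}
    (hS : S ∈ Mul55.Ok Ω M.length) {U : List (ℕ → Ω → Ω → ℝ)}
    (hU : ∀ S ∈ U, S ∈ Mul55.Ok Ω M.length) (k : ℕ) (Q : Ω → Ω → ℝ) (c : ℝ) :
    twoF k (fun a b => Q a b - c) (WdO M (S :: U) (TEf w M h)) =
      twoF k Q (WdO M (S :: U) (TEf w M h)) := by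
  have := (isLin_TEf hw M h).wdO M (S :: U) (Sh.two k) 1 (-1)
    (fun x => Q (x (Sh.twoL k)) (x (Sh.twoR k))) fun _ => c
  rw [wd_one hw M h hS hU] at this
  simpa only [twoF, one_mul, neg_mul, ← sub_eq_add_neg, mul_zero, add_zero] using this

end gen

theorem wt1 : Wt fun _ : Bool => (1 : ℝ) := ⟨fun _ => zero_le_one, by simp⟩

theorem sk_ok {f : ℕ → ℝ} (h : f 0 = 0) (K : ℕ) : sk f ∈ Mul55.Ok Bool K :=
  ⟨by funext a b; simp [sk, h], f K / 2, fun y => by cases y <;> simp [sk, spin]⟩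

theorem sk_map {fs : List (ℕ → ℝ)} (h : ∀ u ∈ fs, u 0 = 0) (K : ℕ) :
    ∀ S ∈ fs.map sk, S ∈ Mul55.Ok Bool K := fun S hS => by
  obtain ⟨u, hu, rfl⟩ := List.mem_map.1 hS
  exact sk_ok (h u hu) K

theorem s6 : S6 := fun T k c f fs q H => by
  have e : (fun (g : ℕ → ℝ) (j : ℕ) (a b : Bool) => g j / 2 * (spin a * spin b - q j)) =
      fun g j a b => sk g j a b + -(g j / 2 * q j) := by
    funext g j a b
    simp only [sk]
    ring
  rw [e, wd_drop wt1 T 0 sk (fun g j => -(g j / 2 * q j)) _ fun g hg =>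
    ⟨sk_ok (H g hg) _, by simp [H g hg]⟩]
  exact two_sub wt1 T 0 (sk_ok (H f (by simp)) _)
    (sk_map (fun u hu => H u (by simp [hu])) _) k _ c

/-- the test weight is one more letter -/
theorem sum_W (T : List (Lv Bool)) (f : ℕ → ℝ) (V : List (ℕ → ℝ)) :
    ∑ j ∈ range (T.length + 1), dm T 0 j * (f j * W T j V) =
      2 * Mul55.Lam (fun _ => 1) T 0 ((f :: V).map sk) := by
  rw [List.map_cons, Mul55.Lam_cons, pairF, mul_sum]
  refine sum_congr rfl fun j _ => ?_
  have := (isLin_TEf wt1 T 0).wdO T (V.map sk) (Sh.two j) (f j / 2) 0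
    (fun x => spin (x (Sh.twoL j)) * spin (x (Sh.twoR j))) fun _ => 0
  simp only [zero_mul, add_zero] at this
  simp only [W, twoF, sk, this]
  ring

/-- the words are symmetric in their letters -/
theorem W_perm (T : List (Lv Bool)) (k : ℕ) {V V' : List (ℕ → ℝ)} (p : V.Perm V')
    (h : ∀ u ∈ V, u 0 = 0) : W T k V = W T k V' := by
  rw [W, W, WdO_perm wt1 T 0 (p.map sk) (sk_map h _)]

/-- the words are linear in the first letter -/
theorem W_lin (T : List (Lv Bool)) (k : ℕ) (a b : ℝ) (f g : ℕ → ℝ) (V : List (ℕ → ℝ)) :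
    W T k ((fun j => a * f j + b * g j) :: V) = a * W T k (f :: V) + b * W T k (g :: V) := by
  have e : sk (fun j => a * f j + b * g j) = fun j x y => a * sk f j x y + b * sk g j x y := by
    funext j x y
    simp only [sk]
    ring
  simp only [W, twoF, List.map_cons, WdO_cons, e]
  exact ((isLin_TEf wt1 T 0).wdO T (V.map sk)).dopS T a b _ _ _ _

theorem s7 : S7 := fun T f g fs hf hg H => by
  rw [sum_W, sum_W, (Mul55.sm_Lam wt1 T 0).perm ((List.Perm.swap g f fs).map sk)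
    (sk_map (fun u hu => ?_) _)]
  simp only [List.mem_cons] at hu
  rcases hu with rfl | rfl | hu
  exacts [hf, hg, H u hu]

end Crest.Agent.T156.Cas.R1S86

end
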