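import Crest.Agent.T156.R1AlgB_77
import Crest.Agent.T156.StartGB_56
import Crest.Agent.T156.GrdB_92
import Crest.Agent.T156.TestDef_82

/-!
# Row 156 (helper77): one octave of the tested path from the test head and seven budgets
-/

set_option autoImplicit false
set_option linter.unusedSectionVars false

noncomputable section

namespace Crest.Agent.T156.Alt.R77

open Real Set Filter Topology
open Crest.Agent.T156.Cas Crest.Agent.T156.Cas.C40 Crest.Agent.T156.Alt.Alg77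
open Crest.Agent.T156.Alt.CIn12 Crest.Agent.T156.Alt.Md67

/-- a point of an octave, two root tilts and a size -/
structure Cx (p : Pm) (σ σ' : ℝ) (P : Pl) (t a a' Q : ℝ) (m : ℕ) : Prop where
  oct : p.OctR σ σ'
  pl : p.PlG (p.muG σ) P
  t0 : σ ≤ t
  t1 : t ≤ σ'
  win : Win p.n p.s p.ga a a'
  Q0 : 0 ≤ Q
  wt : WT p.n (p.gst P '' Icc σ σ') a a' Q
  m1 : p.n ≤ m
  m2 : m ≤ 2 * p.n

/-- the budget -/
def Bud (p : Pm) (Q : ℝ) : ℝ := (p.n : ℝ) ^ ((1 : ℝ) / 6) * (Q * p.s ^ 2 + p.s ^ 5)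

/-- the test datum of the member `t` -/
abbrev Dd (p : Pm) (P : Pl) (t : ℝ) (m : ℕ) (a : ℝ) (E : CIn12.Ev) : CD :=
  cdf (p.gst P t) m a (p.gst P t).q (p.jf + 1) (sv p t) E

/-- no envelopes -/
def E0 : CIn12.Ev := ⟨0, 0, 0, 0, 0, 0, 0, 0, 0⟩

/-- the datum without envelopes -/
abbrev D0 (p : Pm) (P : Pl) (t : ℝ) (m : ℕ) (a : ℝ) : CD := Dd p P t m a E0

/-- the test density in cascade indices -/
abbrev fd (p : Pm) (t : ℝ) : ℕ → ℝ := fc (p.jf + 1) (sv p t)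

/-- `F` is within the budget -/
def Lf (F : Pm → Pl → ℝ → ℕ → ℝ → ℝ → ℝ) (δ : ℝ) (p : Pm) : Prop :=
  ∀ σ σ' P t a a' Q m, Cx p σ σ' P t a a' Q m → t * (m * |F p P t m a a'|) ≤ δ * Bud p Q

/-- admissible envelopes with a small error -/
def ErrR (δ : ℝ) (p : Pm) : Prop := ∀ σ σ' P t a a' Q m, Cx p σ σ' P t a a' Q m →
  ∀ x, x = a ∨ x = a' → ∃ E : CIn12.Ev, (Dd p P t m x E).Ok (p.β ^ 2) ∧
    t * (m * (Dd p P t m x E).Err) ≤ δ * Bud p Q

/-- the root atom -/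
def LoR : ℝ → Pm → Prop := Lf fun p P t m a a' =>
  c2lo (D0 p P t m a) (deriv p.bG t) * (S0 (p.gst P t) m a' - S0 (p.gst P t) m a)

/-- the low words -/
def LwR : ℝ → Pm → Prop := Lf fun p P t m a a' => lw (D0 p P t m a') - lw (D0 p P t m a)

/-- the local quadratic term -/
def C2R : ℝ → Pm → Prop := Lf fun p P t m a a' => (D0 p P t m a).I fun j =>
  c2 (D0 p P t m a) (fd p t) (deriv p.bG t) j * ((D0 p P t m a').u 2 j - (D0 p P t m a).u 2 j)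

/-- the linear residual -/
def LinR : ℝ → Pm → Prop := Lf fun p P t m a a' => (D0 p P t m a).I fun j =>
  lin (D0 p P t m a) (fd p t) (sh (bq p P t)) j * ((D0 p P t m a').del j - (D0 p P t m a).del j)

/-- the off-diagonal quadratic term -/
def PhiR : ℝ → Pm → Prop := Lf fun p P t m a a' => (D0 p P t m a).I fun j =>
  phi (D0 p P t m a) (D0 p P t m a') (fd p t) j * ((D0 p P t m a').del j - (D0 p P t m a).del j)

/-- the local cubic term -/
def C3R : ℝ → Pm → Prop := Lf fun p P t m a a' => (D0 p P t m a).I fun j =>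
  c3 (D0 p P t m a) (fd p t) j * ((D0 p P t m a').u3 j - (D0 p P t m a).u3 j)

theorem Rs_ev (p : Pm) (P : Pl) (t : ℝ) (m : ℕ) (a : ℝ) (E : CIn12.Ev) :
    Rs (Dd p P t m a E) = Rs (D0 p P t m a) := rfl

theorem Bud_nonneg {p : Pm} {Q : ℝ} (hs : 0 ≤ p.s) (hQ : 0 ≤ Q) : 0 ≤ Bud p Q := by
  unfold Bud
  positivity

theorem mo_Lf (F : Pm → Pl → ℝ → ℕ → ℝ → ℝ → ℝ) : Mo fun δ p => 0 ≤ p.s → Lf F δ p :=
  fun _ _ _ _ h H hs σ σ' P t a a' Q m c =>
    (H hs σ σ' P t a a' Q m c).trans (mul_le_mul_of_nonneg_right h (Bud_nonneg hs c.Q0))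

theorem mo_Err : Mo fun δ p => 0 ≤ p.s → ErrR δ p := fun _ _ _ _ h H hs σ σ' P t a a' Q m c x hx =>
  (H hs σ σ' P t a a' Q m c x hx).imp fun _ e =>
    ⟨e.1, e.2.trans (mul_le_mul_of_nonneg_right h (Bud_nonneg hs c.Q0))⟩

theorem Cx.mem {p : Pm} {σ σ' t a a' Q : ℝ} {P : Pl} {m : ℕ} (c : Cx p σ σ' P t a a' Q m) :
    p.MemG t := ⟨c.oct.1.trans c.t0, c.t1.trans c.oct.2.2.2⟩

theorem Cx.oct' {p : Pm} {σ σ' t a a' Q : ℝ} {P : Pl} {m : ℕ} (c : Cx p σ σ' P t a a' Q m) :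
    p.OctR σ t := ⟨c.oct.1, c.t0, c.t1.trans c.oct.2.2.1, c.mem.2⟩

variable {β c0 C0 c η K : ℝ} {A : ℕ} {p : Pm}

theorem Nr_pos (H : Reg β c0 C0 A c η K p) : 0 < p.Nr := by
  refine Nat.pos_of_ne_zero fun e => ?_
  have := H.Nr_bds.1
  have a : (2 : ℝ) ≤ A := by exact_mod_cast H.A2
  rw [e, Nat.cast_zero, zero_mul] at this
  nlinarith [H.log1]

theorem top_gst (H : Reg β c0 C0 A c η K p) (P : Pl) (t : ℝ) (hj : p.jf < p.J) :
    Top (p.gst P t) := by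
  have := Nr_pos H
  refine ⟨show 0 < p.NP P by unfold Pm.NP; omega, ?_⟩
  show p.zP P (max (p.NP P - 1) p.jf) = 1
  unfold Pm.zP Pm.NP Pm.Jp
  rw [if_neg (by omega), if_neg (by omega)]

/-- **one octave** -/
theorem octG_of (hβ : 1 < β) (hT : HT) (h1 : Gain β ErrR) (h2 : Gain β LoR) (h3 : Gain β LwR)
    (h4 : Gain β C2R) (h5 : Gain β LinR) (h6 : Gain β PhiR) (h7 : Gain β C3R) : Gain β OctG := by
  obtain ⟨C, hC, hT⟩ := hT (β ^ 2)
  have k1 := (h1.mono fun _ p _ _ H (_ : 0 ≤ p.s) => H).sml 2 mo_Err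
  have k2 := (h2.mono fun _ p _ _ H (_ : 0 ≤ p.s) => H).sml 2 (mo_Lf _)
  have k3 := (h3.mono fun _ p _ _ H (_ : 0 ≤ p.s) => H).sml 2 (mo_Lf _)
  have k4 := (h4.mono fun _ p _ _ H (_ : 0 ≤ p.s) => H).sml 2 (mo_Lf _)
  have k5 := (h5.mono fun _ p _ _ H (_ : 0 ≤ p.s) => H).sml 2 (mo_Lf _)
  have k6 := (h6.mono fun _ p _ _ H (_ : 0 ≤ p.s) => H).sml 2 (mo_Lf _)
  have k7 := (h7.mono fun _ p _ _ H (_ : 0 ≤ p.s) => H).sml 2 (mo_Lf _)
  refine Sml.gain (Sml.glue' hβ ((((((((k1.and k2).and k3).and k4).and k5).and k6).and k7).and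
    (legG hβ)).and (GB92.pD β hβ).sml) 2 one_pos 40 ?_)
  intro c0 C0 A c η _ _ _ _
  refine ⟨C + 6, fun p H _ _ hη ⟨⟨⟨⟨⟨⟨⟨⟨g1, g2⟩, g3⟩, g4⟩, g5⟩, g6⟩, g7⟩, gL⟩, _, _, _, gD⟩
    σ σ' P o hP => ?_⟩
  have hs := H.s0.le
  have M0 := (Gr29.oct_mem o).1
  have op := (gD σ M0).1.1
  have s0 := H.σ0 M0
  have hj : p.jf < p.J := by
    have a1 := St56.jf_le H (by exact_mod_cast hη)
    have a2 := op.hY
    have a3 := H.r_le_ye
    have a4 := H.r0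
    exact_mod_cast lt_of_mul_lt_mul_right (show (p.jf : ℝ) * p.v < p.J * p.v by linarith) H.v0.le
  have hj' : p.jf < p.NP P := by unfold Pm.NP; omega
  have leg : ∀ t ∈ Icc σ σ', (p.gst P t).Leg p.am ∧ p.bG t ≤ p.β ^ 2 := fun t ht => by
    have o' : p.OctR σ t := ⟨o.1, ht.1, ht.2.trans o.2.2.1, ht.2.trans o.2.2.2⟩
    have := gL t _ P (Gr29.oct_mem o').2 (H.μ0_le_muG M0) (H.oct_mu o').1 hP
    exact ⟨Leg_mono this.1 (by linarith [H.am0]), this.2.2.1⟩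
  set Λ := (p.n : ℝ) ^ η with hΛ
  have hΛ0 : 0 < Λ := H.Λ0
  refine (Md77.go_gst op (P := P) (ε := (C + 6) * Λ⁻¹ ^ 2) hP.ok.g (by have := H.n3; omega) hs hj' s0 o.2.1
    (by positivity) leg fun a a' Q w hQ hW m m1 m2 t ht => ?_).mono82 hs ?_
  · have cx : Cx p σ σ' P t a a' Q m := ⟨o, hP, ht.1.le, ht.2.le, w, hQ, hW, m1, m2⟩
    have t0 : 0 ≤ t := (s0.trans ht.1).le
    have e := alg_gst (leg t (Ioo_subset_Icc_self ht)).1 (top_gst H P t hj) hj' (D0 p P t m a)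
      (D0 p P t m a') rfl rfl
    have r : ∀ x, x = a ∨ x = a' → t * (m * |Rs (D0 p P t m x)|) ≤ C * (Λ⁻¹ ^ 2 * Bud p Q) :=
      fun x hx => by
        obtain ⟨E, ok, er⟩ := g1 hs σ σ' P t a a' Q m cx x hx
        have : |Rs (D0 p P t m x)| ≤ C * (Dd p P t m x E).Err :=
          (Rs_ev p P t m x E) ▸ hT (Dd p P t m x E) (H.hβ ▸ ok) rfl
        calc _ ≤ t * (m * (C * (Dd p P t m x E).Err)) := by gcongr
          _ = C * (t * (m * (Dd p P t m x E).Err)) := by ring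
          _ ≤ _ := by gcongr
    have r1 := r a (.inl rfl)
    have r2 := r a' (.inr rfl)
    have b2 := g2 hs σ σ' P t a a' Q m cx
    have b3 := g3 hs σ σ' P t a a' Q m cx
    have b4 := g4 hs σ σ' P t a a' Q m cx
    have b5 := g5 hs σ σ' P t a a' Q m cx
    have b6 := g6 hs σ σ' P t a a' Q m cx
    have b7 := g7 hs σ σ' P t a a' Q m cx
    have b0 : 0 ≤ Λ⁻¹ ^ 2 * Bud p Q := mul_nonneg (by positivity) (Bud_nonneg hs hQ)
    simp only [CD.I, mul_add, add_mul, Finset.sum_add_distrib] at e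
    simp only [CD.I] at b4 b5 b6 b7
    rw [e]
    generalize Rs (D0 p P t m a') = x1 at *
    generalize Rs (D0 p P t m a) = x2 at *
    have key : ∀ x3 x4 x5 x6 x7 x8 : ℝ, t * (m * |(x1 - x2) / 2 + x3 + x4 / 2 + (x5 + (x6 + x7) + x8)|) ≤
        (t * (m * |x1|) + t * (m * |x2|)) / 2 + t * (m * |x3|) + t * (m * |x4|) / 2 +
          t * (m * |x5|) + t * (m * |x6|) + t * (m * |x7|) + t * (m * |x8|) :=
      fun x3 x4 x5 x6 x7 x8 => by
        have : |(x1 - x2) / 2 + x3 + x4 / 2 + (x5 + (x6 + x7) + x8)| ≤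
            (|x1| + |x2|) / 2 + |x3| + |x4| / 2 + |x5| + |x6| + |x7| + |x8| := by
          rw [abs_le]
          constructor <;> linarith [le_abs_self x1, le_abs_self x2, le_abs_self x3, le_abs_self x4,
            le_abs_self x5, le_abs_self x6, le_abs_self x7, le_abs_self x8, neg_abs_le x1,
            neg_abs_le x2, neg_abs_le x3, neg_abs_le x4, neg_abs_le x5, neg_abs_le x6,
            neg_abs_le x7, neg_abs_le x8]
        calc _ ≤ t * (m * ((|x1| + |x2|) / 2 + |x3| + |x4| / 2 + |x5| + |x6| + |x7| + |x8|)) := by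
              gcongr
          _ = _ := by ring
    refine (key _ _ _ _ _ _).trans ?_
    change _ ≤ (C + 6) * Λ⁻¹ ^ 2 * Bud p Q
    linarith
  · have l2 : log (σ' / σ) ≤ 1 := by
      refine (log_le_sub_one_of_pos (div_pos (s0.trans_le o.2.1) s0)).trans ?_
      rw [sub_le_iff_le_add, div_le_iff₀ s0]
      linarith [o.2.2.1]
    have : C + 6 ≤ Λ := H.K_le
    calc (C + 6) * Λ⁻¹ ^ 2 * log (σ' / σ) ≤ (C + 6) * Λ⁻¹ ^ 2 * 1 := by gcongr
      _ ≤ Λ * Λ⁻¹ ^ 2 * 1 := by gcongr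
      _ = Λ⁻¹ := by field_simp

end Crest.Agent.T156.Alt.R77

end
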