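import Crest.Agent.T156.R1Phi_60
import Crest.Agent.T156.R1KitC_82
import Crest.Agent.T156.ErrR_35
import Crest.Agent.T156.SwGL_2
import Crest.Agent.T156.R1LocB_77
import Crest.Agent.T156.KnG_17
import Crest.Agent.T156.NRo_44
import Crest.Agent.T156.NxD_43

/-!
# Row 156 (helper35): the top of R1
-/

set_option autoImplicit false

namespace Crest.Agent.T156.Alt.Z35

open Crest.Agent.T156.Cas.C40 Crest.Agent.T156.Alt.R77

variable {β : ℝ}

/-- **one octave** from the location statement -/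
theorem octG_loc (hβ : 1 < β) (hT : HT) (hL : LocG β) : Gain β OctG :=
  P60.octG_1 hβ hT (R82.kit hβ hL) fun _ hβ hC hK => E35.errG hβ hC hK

/-- **the location statement** from SR and the three location leaves -/
theorem locG_3 (hβ : 1 < β) (hS : Sr.SrS2) (h1 : OnG Blkx β) (h2 : OnG Topx β) (h3 : OnG Upx β) :
    LocG β :=
  locG_of hβ hS (Kn17.knG hβ) (Nr44.nrG hβ) (nxG_of hβ (Nr44.nrG hβ)) h1 h2 h3

/-- **R1 and the switch** -/
theorem r1 (hβ : 1 < β) (hT : HT) (hS : Sr.SrS2) (h1 : OnG Blkx β) (h2 : OnG Topx β)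
    (h3 : OnG Upx β) : Gain β OctG ∧ Gain β SwG :=
  ⟨octG_loc hβ hT (locG_3 hβ hS h1 h2 h3), swG_of_locG hβ (locG_3 hβ hS h1 h2 h3)⟩

end Crest.Agent.T156.Alt.Z35
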