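import Crest.Agent.T156.R2F_42
import Crest.Agent.T156.R2B_85
import Crest.Agent.T156.AltFam_88
import Crest.Agent.T156.AltReg_29

/-!
# Row 156, R2 (helper30, numbers of helper58): the END model and the leaves of `FlwS (7/20)`

Cut at the time `t1 = r n^{1/60}`; unit `un = n^{-5/6} s⁵`; gains `gn i = n^{-1/i}`.
LOW = profile nodes `k < jc`; cascade node `k + 1` = profile node `k`.
-/

set_option autoImplicit false

noncomputable section

namespace Crest.Agent.T156.Alt.R2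

open Real Finset
open Crest.Agent.T156.Cas Crest.Agent.T156.Cas.C40

variable (p : Pm) (P : Pl)

/-- the END model -/
abbrev Me : Md := p.tst P p.ye
/-- the cut -/
def t1 : ℝ := p.r * (p.n : ℝ) ^ ((1 : ℝ) / 60)
def jc : ℕ := ⌈t1 p / p.v⌉₊
/-- the unit, the gains, the loss -/
def un : ℝ := (p.n : ℝ) ^ (-(5 : ℝ) / 6) * p.s ^ 5
def gn (i : ℝ) : ℝ := (p.n : ℝ) ^ (-1 / i)
def kk : ℝ := (p.κ ^ 20)⁻¹
/-- mesh parameter of `E42.Hm` -/
def ηH : ℝ := (p.n : ℝ) ^ (-(9 : ℝ) / 10)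

/-- size and root tilt -/
structure In (m : ℕ) (a : ℝ) : Prop where
  m1 : p.n ≤ m
  m2 : m ≤ 2 * p.n
  a1 : (p.n : ℝ) ^ (-(1 : ℝ) / 6) / 2 ≤ a
  a2 : a ≤ p.am

/-- the fixed envelopes -/
structure Env (E : CIn12.Ev) : Prop where
  X : E.X = t1 p / p.κ
  e : ∀ k, E.e k = max (t1 p) ((Me p P).z k) / p.κ
  tl : E.tl = (p.n : ℝ) ^ (-(2 * (p.A : ℝ) + 5))

variable (m : ℕ) (a : ℝ)

/-- **the datum** (value direction) -/
abbrev D (E : CIn12.Ev) : CD := CIn12.cd (Me p P) m a (Me p P).q (jc p) none E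
/-- the constant `τ` -/
def τ : ℝ := Md67.tp (Me p P) m 0
/-- `∫_low q² dx` for the uncut reference -/
def Sq : ℝ := ∑ k ∈ range (jc p), (Me p P).dz m a k * (Me p P).q k ^ 2
/-- the low terms of `E42.Mn` -/
def LowT (X : CD) (τ : ℝ) : ℝ :=
  τ / 2 * E42.Aq X τ * R85.s2 X + (E42.Jh X - 3 * (τ * X.lam ^ 2) * R85.sh X) / 2

/-- an admissible value record -/
structure Ad (E : CIn12.Ev) : Prop where
  sp : p.SpOk (7 / 20) P
  inn : In p m a
  env : Env p P E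
  ok : (D p P m a E).Ok (p.β ^ 2)

/-- prefix of the leaves -/
def EvA (β : ℝ) (Q : Pm → Pl → ℕ → ℝ → CIn12.Ev → Prop) : Prop :=
  Sml β fun _ p => ∀ P m a E, Ad p P m a E → Q p P m a E

/-! ### leaves -/

/-- round 1: the value record -/
def ValS (β : ℝ) : Prop := Sml β fun _ p => ∀ P m a, p.SpOk (7 / 20) P → In p m a →
  ∃ E, Ad p P m a E ∧ (D p P m a E).Err ≤ gn p 200 * un p ∧
    (D p P m a E).N1 ≤ p.s ^ 2 * (p.n : ℝ) ^ (-(3 : ℝ) / 10)

/-- the low source -/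
def JS (β : ℝ) : Prop := EvA β fun p P m a E =>
  (R85.s2 (D p P m a E) - Sq p P m a) ^ 2 ≤ gn p 200 * un p * t1 p

/-- mesh and entropy -/
def HmS (β : ℝ) : Prop := EvA β fun p P m a E => E42.Hm (D p P m a E) (ηH p)

/-- the thick low level -/
def ThS (β : ℝ) : Prop := EvA β fun p P m a E =>
  E42.Th (D p P m a E) ≤ p.κ ^ ((1 : ℝ) / 100) * un p

/-- the site numbers of `EB`; `μ` at the first node of tilt one -/
def PzS (β : ℝ) : Prop := EvA β fun p P m a E =>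
  R85.Pz (D p P m a E) (p.J + 1) (kk p) (kk p)⁻¹ (kk p * E.X ^ 3) (1 / p.n) (kk p) (kk p) ∧
    (kk p)⁻¹ ≤ R85.mu (D p P m a E) (τ p P m) (p.Jp P + 1)

/-- (TWIN), (B) -/
def TwS (β : ℝ) : Prop := EvA β fun p P m a E => ∃ S0 : ℝ,
  R85.TW (D p P m a E) (τ p P m) S0 (E.X ^ 5) ∧
    |E42.Bq (D p P m a E) (τ p P m) S0| ≤ p.r ^ 3 ∧ |S0 - Sq p P m a| ≤ p.r ^ 3

/-- (MV) on the plateau and the reveal -/
def MvS (β : ℝ) : Prop := EvA β fun p P m a E => (D p P m a E).Err ≤ gn p 200 * un p →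
  R85.muU (D p P m a E) (τ p P m) ≤ gn p 250 * un p →
  R85.Rv (D p P m a E) (p.J + 1) ((D p P m a E).u 2) ≤ gn p 300 * un p

/-- round 2: the test head in the direction `ω*` -/
def TeS (β : ℝ) : Prop := EvA β fun p P m a E =>
  R85.muU (D p P m a E) (τ p P m) ≤ gn p 250 * un p → R85.ell2 (D p P m a E) ≤ gn p 250 * un p →
  R85.Rv (D p P m a E) (p.J + 1) ((D p P m a E).u 2) ≤ gn p 300 * un p →
  |E42.dT (D p P m a E) (E42.omS (D p P m a E))| ≤ gn p 700 * un p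

/-- the low zone: a constant that does not depend on the root tilt -/
def LwS (β : ℝ) : Prop := Sml β fun _ p => ∀ P m, ∃ c : ℝ, ∀ a E, Ad p P m a E →
  |LowT (D p P m a E) (τ p P m) - c| ≤ p.κ ^ ((1 : ℝ) / 100) * un p

end Crest.Agent.T156.Alt.R2

end
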