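import Crest.Agent.T156.R2EDef_42
import Crest.Agent.T156.CErr_54
import Crest.Agent.T156.Kid_68

/-!
# Row 156, R2: the two Euler identities in the names of `CDef_40` (helper42)
-/

set_option autoImplicit false
set_option linter.all false

noncomputable section

namespace Crest.Agent.T156.Cas.C40.E42

open MeasureTheory Real Set Filter Topology
open Crest.Agent.T157.E Crest.Agent.T157.Casc Crest.Agent.T157.SL
open Crest.Agent.T157.G1 (ov)
open Crest.ProbabilityR.SpinGlassDynamics (spin)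
open Eul43 Kid68

variable {D : CD} {τ0 η : ℝ}

/-- the part of `E_a Φ₀ / n` that is read on the site cascade -/
def C1 (D : CD) : ℝ := Crest.Agent.T157.Casc.X (fun _ => 1) D.S 0 - oC D.n D.β D.M D.q +
  ∑ j ∈ D.lo, D.dx j * (fAcc D.M j * D.Gam j) +
  (∑ j ∈ Finset.range D.J, ex D.B j * (fAcc D.M (j + 1) - fAcc D.M j) *
    ins (fun _ => 1) D.S j (fun a b => spin a * spin b) 0) / 2 +
  x1 D / 2 * (D.sig (D.J + 1) - D.sig D.J) * ins (fun _ => 1) D.S D.J (fun a b => spin a * spin b) 0 -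
  τ D / 4 * (x1 D * D.q (D.J + 1) ^ 2)

theorem sum_succ_split {J K : ℕ} (h : J < K) (f : ℕ → ℝ) :
    ∑ j ∈ Finset.range K, f (j + 1) =
      ∑ j ∈ Finset.Icc 1 J, f j + ∑ j ∈ Finset.Ioo J K, f j + f K := by
  induction K, h using Nat.le_induction with
  | base =>
    rw [Finset.sum_range_succ, show Finset.Ioo J (J + 1) = ∅ by
      ext; simp only [Finset.mem_Ioo, Finset.notMem_empty, iff_false]; omega, Finset.sum_empty, add_zero,
      Finset.range_eq_Ico, Finset.sum_Ico_add' f 0 J 1]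
    rfl
  | succ K hK ih =>
    rw [Finset.sum_range_succ, ih, show Finset.Ioo J (K + 1) = insert K (Finset.Ioo J K) by
      ext; simp only [Finset.mem_Ioo, Finset.mem_insert]; omega, Finset.sum_insert (by simp)]
    ring

theorem Hm.tau (H : Hm D η) {j : ℕ} (hj : 1 ≤ j) (hK : 1 ≤ D.K) : D.τ j = τ D := by
  obtain ⟨a, d, M', e, h0⟩ := H.root
  obtain ⟨j, rfl⟩ : ∃ k, j = k + 1 := ⟨j - 1, by omega⟩
  obtain ⟨k, hk⟩ : ∃ k, D.K = k + 1 := ⟨D.K - 1, by omega⟩
  rw [τ, hk]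
  simp only [CD.τ, oTau, e, dAcc_root h0]

theorem La1 (h : D.Ok τ0) : 1 ≤ La D := le_add_of_nonneg_right (h.sig0 le_rfl)

theorem η8 (H : Hm D η) : η ^ 8 ≤ η := pow_le_of_le_one H.η0 H.η1 (by norm_num)

theorem small (h : D.Ok τ0) (H : Hm D η) {x : ℝ} (hx : 0 ≤ x) (e : x * La D ^ 2 ≤ η ^ 8) :
    x ≤ η ^ 8 := le_trans (le_mul_of_one_le_right hx (one_le_pow₀ (La1 h))) e

theorem ent_bd {N : ℕ} (hN : 0 < N) {x : ℝ} (hx : 0 ≤ x) (h : N * x ≤ 1) :
    2 * ((1 + x) ^ N - 1) / N + 2 * x ≤ 6 * x := by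
  have hn : (0 : ℝ) < N := by exact_mod_cast hN
  have h1 : (1 + x) ^ N ≤ exp (N * x) := by
    rw [exp_nat_mul]
    exact pow_le_pow_left₀ (by linarith) (by linarith [add_one_le_exp x]) N
  have h2 := abs_exp_sub_one_le (x := N * x) (by rw [abs_of_nonneg (by positivity)]; exact h)
  rw [abs_of_nonneg (by positivity : 0 ≤ (N : ℝ) * x)] at h2
  have h3 := le_abs_self (exp (N * x) - 1)
  have : 2 * ((1 + x) ^ N - 1) / N ≤ 4 * x := by
    rw [div_le_iff₀ hn]; nlinarith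
  linarith

/-- **the two Euler identities** -/
theorem kid (h : D.Ok τ0) (H : Hm D η) :
    |EP D / D.n - C1 D - (-∑ j ∈ D.up, omS D j * (D.rb j - D.Gam j) +
      τ D / 2 * ∑ t ∈ D.up, D.del t * mv D D.q t - D.Su / 2 - D.S1 / 2 - Shu D - Jh D / 2)| ≤
      11 * η + τ0 / D.n + Th D := by
  have hK : 1 ≤ D.K := by have := h.cut; omega
  have hτ := fun j (hj : 1 ≤ j) => H.tau hj hK
  have hτ0 : 0 ≤ τ D ∧ τ D ≤ τ0 := h.tau_mem D.K
  have hn : (0 : ℝ) < D.n := by exact_mod_cast h.pos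
  have hn1 : (1 : ℝ) ≤ D.n := by exact_mod_cast h.pos
  have hsl : ∀ j < D.K, 0 ≤ D.sig (j + 1) - D.sig j := fun j hj =>
    sub_nonneg.2 (h.sig_le (Nat.le_succ j) hj)
  have hsg : ∀ j, 1 ≤ j → D.sig (j + 1) - D.sig j =
      fM D.M j + τ D * (D.q (j + 1) - D.q j) := fun j hj => by
    simp only [CD.sig, hτ j hj, hτ (j + 1) (by omega), fAcc_succ]; ring
  have hf0 : ∀ j, 0 ≤ fM D.M j := fun j => by
    have := h.fAcc_mono (Nat.le_succ j); rw [Nat.succ_eq_add_one, fAcc_succ] at this; linarith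
  have hq0 : ∀ j < D.K, 0 ≤ D.q (j + 1) - D.q j := fun j hj => sub_nonneg.2 (h.ook.mono j hj)
  have hin : ∀ j < D.K, 0 ≤ D.rb j ∧ D.rb j ≤ ins (fun _ => 1) D.B j ov 0 ∧
      ins (fun _ => 1) D.B j ov 0 ≤ D.rb (j + 1) := fun j hj => by
    have e : (T157.G1.fl D.n 1 (0, 1 / D.n)).cov = ov := funext fun x => funext fun y => by
      rw [Link33.cov_fl D.n 1 _ x y h.pos (by positivity)]; field_simp
    have := ins_mem wt_one90 (T157.G1.fl D.n 1 (0, 1 / D.n)) D.B (j := j)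
      (by rw [D.B_len]; exact hj) 0
    have h1 := pi2_cov_nonneg wt_one90 (T157.G1.fl D.n 1 (0, 1 / D.n)) D.B j 0
    rw [e] at this h1
    exact ⟨h1, this⟩
  have hins : 0 ≤ ins (fun _ => 1) D.B D.J ov 0 ∧ ins (fun _ => 1) D.B D.J ov 0 ≤ 1 :=
    ⟨(hin _ h.cut).1.trans (hin _ h.cut).2.1, (hin _ h.cut).2.2.trans (pi2_le_one wt_one90
      (fun x y => (le_abs_self _).trans (Cas.abs_ov_le x y)) _ _ _)⟩
  have hth : 0 ≤ Jh D - ∑ j ∈ Finset.range D.J, ex D.B j * (fAcc D.M (j + 1) - fAcc D.M j) *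
      ins (fun _ => 1) D.B j ov 0 ∧ Jh D - ∑ j ∈ Finset.range D.J,
      ex D.B j * (fAcc D.M (j + 1) - fAcc D.M j) * ins (fun _ => 1) D.B j ov 0 ≤ Th D := by
    rw [Jh, Th, ← Finset.sum_sub_distrib]
    have k := fun j => mul_nonneg (h.ex0 j) (sub_nonneg.2 (h.fAcc_mono (Nat.le_succ j)))
    have k' := fun j (hj : j ∈ Finset.range D.J) => hin j ((Finset.mem_range.1 hj).trans h.cut)
    exact ⟨Finset.sum_nonneg fun j hj => sub_nonneg.2
      (mul_le_mul_of_nonneg_left (k' j hj).2.2 (k j)), Finset.sum_le_sum fun j hj => by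
        rw [← mul_sub]
        exact mul_le_mul_of_nonneg_left (sub_le_sub_left (k' j hj).2.1 _) (k j)⟩
  obtain ⟨i, U, i1, i2, i3, i4, i5, i6⟩ := H.ent
  obtain ⟨a, d, M', e, h0⟩ := H.root
  have eK : D.K = M'.length + 1 := by simp [CD.K, e]
  have eτ : bb D.n D.β ^ 2 * d = τ D := by
    rw [τ, eK]; simp only [CD.τ, oTau, e, dAcc_root h0]
  have eβ : D.β ^ 2 * d = τ D * (D.n + 1) / D.n := by rw [← eτ, bb_sq]; field_simp
  have hβ : D.β ^ 2 * d ≤ 2 * τ D := by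
    rw [eβ, div_le_iff₀ hn]; nlinarith [hτ0.1]
  have q0 := h.qlo 0 (Nat.zero_le _)
  have hm : ∀ j ∈ D.up, fM D.M j ≤ η ^ 8 ∧ τ D * (D.q (j + 1) - D.q j) ≤ η ^ 8 := fun j hj => by
    have u := CD.mem_up.1 hj
    have := small h H (hsl j u.2) (H.mesh j u.2 u.1)
    rw [hsg j (by omega)] at this
    have := mul_nonneg hτ0.1 (hq0 j u.2)
    exact ⟨by linarith, by linarith [hf0 j]⟩
  have k := kid_op (N := D.n) (β := D.β) (a := a) (d := d) (M' := M') (q := D.q) h.pos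
    (e ▸ h.ook) h0 q0 (e ▸ h.mono) (J := D.up)
    (fun j hj => Finset.mem_range.2 (eK ▸ (CD.mem_up.1 hj).2)) (p := fun j => j)
    (fun j _ => .inl rfl) (ε := 2 * η ^ 8) (by have := H.η0; positivity)
    (fun j hj => by have := (hm j hj).1; rw [e] at this; linarith [pow_nonneg H.η0 8])
    (fun j hj => by
      linarith [(hm j hj).2, mul_le_mul_of_nonneg_right hβ (hq0 j (CD.mem_up.1 hj).2)])
    (i := i) (by omega) (eK ▸ i2) (e ▸ i3) (U := U) (by rw [← eK, ← e]; exact i4)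
  have eE : EE (fun _ => 1) (mxL D.n D.β (a, d, 0)) (M'.map (mxL D.n D.β)) 0 a = EP D := by
    rw [EE_eq, EP]; simp only [CD.B, e]; rfl
  have esg : ∀ j, Kid68.sg (τ D) (fM D.M) D.q j = D.sig j := fun j => by
    have := sg_op (N := D.n) (β := D.β) (a := a) (d := d) h0 q0 j
    rw [eτ, ← e] at this
    exact this
  have esl : ∀ j, 1 ≤ j → Kid68.sl (τ D) (fM D.M) D.q j = D.sig (j + 1) - D.sig j := fun j hj =>
    (hsg j hj).symm
  rw [eE, ← e, eτ] at k
  have eM : Km (fun _ => 1) (fun _ => 1) D.B D.S ov (fun e e' => spin e * spin e') (τ D) (fM D.M)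
      D.q D.up (fun j => j) =
      C1 D - (Crest.Agent.T157.Casc.X (fun _ => 1) D.S 0 - oC D.n D.β D.M D.q) +
      (-∑ j ∈ D.up, omS D j * (D.rb j - D.Gam j) + τ D / 2 * ∑ t ∈ D.up, D.del t * mv D D.q t -
        D.Su / 2 - D.S1 / 2 - Shu D - (∑ j ∈ Finset.range D.J,
          ex D.B j * (fAcc D.M (j + 1) - fAcc D.M j) * ins (fun _ => 1) D.B j ov 0) / 2) -
      x1 D / 2 * (fM D.M D.J * ins (fun _ => 1) D.B D.J ov 0) := by
    have a0 : Finset.range D.K \ D.up = Finset.range (D.J + 1) := by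
      have := h.cut
      ext j
      simp only [Finset.mem_sdiff, Finset.mem_range, Finset.mem_Ioo]
      omega
    have a1 := sum_succ_split h.cut fun j => D.dx j * D.sig j * (D.rb j - D.Gam j)
    have a2 := sum_succ_split h.cut fun j => D.dx j *
      pi2 (fun _ => 1) D.B j (fun x y => (ov x y - D.q j) ^ 2) 0
    rw [h.top, zero_mul] at a2
    rw [h.top, zero_mul, zero_mul] at a1
    have b1 : ∑ j ∈ Finset.Icc 1 D.J, D.dx j * D.sig j * (D.rb j - D.Gam j) =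
        Shu D - ∑ j ∈ D.lo, D.dx j * (fAcc D.M j * D.Gam j) := by
      rw [Shu, ← Finset.sum_sub_distrib]
      refine Finset.sum_congr rfl fun j hj => ?_
      rw [CD.sig, h.qlo j (CD.mem_lo.1 hj).2]; ring
    have b2 : τ D * ∑ j ∈ Finset.Icc 1 D.J, D.dx j *
        pi2 (fun _ => 1) D.B j (fun x y => (ov x y - D.q j) ^ 2) 0 = D.S1 := by
      rw [CD.S1, Finset.mul_sum]
      refine Finset.sum_congr rfl fun j hj => ?_
      rw [hτ j (CD.mem_lo.1 hj).1, h.qlo j (CD.mem_lo.1 hj).2]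
      simp only [sub_zero, CD.E2]; ring
    have b3 : τ D * ∑ j ∈ Finset.Ioo D.J D.K, D.dx j *
        pi2 (fun _ => 1) D.B j (fun x y => (ov x y - D.q j) ^ 2) 0 = D.Su := by
      rw [CD.Su, Finset.mul_sum]
      refine Finset.sum_congr rfl fun j hj => ?_
      rw [hτ j (by have := (CD.mem_up.1 hj).1; omega)]
      simp only [CD.u, uM, sq_abs, oU]; ring
    have b4 : ∑ j ∈ Finset.range D.J, (ex D.B j / 2 * (fM D.M j * ins (fun _ => 1) D.B j ov 0 -
        Kid68.sl (τ D) (fM D.M) D.q j * ins (fun _ => 1) D.S j (fun e e' => spin e * spin e') 0) +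
        τ D / 4 * (ex D.B j * (D.q (j + 1) ^ 2 - D.q j ^ 2))) =
        (∑ j ∈ Finset.range D.J,
          ex D.B j * (fAcc D.M (j + 1) - fAcc D.M j) * ins (fun _ => 1) D.B j ov 0) / 2 -
        (∑ j ∈ Finset.range D.J, ex D.B j * (fAcc D.M (j + 1) - fAcc D.M j) *
          ins (fun _ => 1) D.S j (fun a b => spin a * spin b) 0) / 2 := by
      rw [← sub_div, ← Finset.sum_sub_distrib, Finset.sum_div]
      refine Finset.sum_congr rfl fun j hj => ?_
      have := Finset.mem_range.1 hj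
      rw [Kid68.sl, h.qlo j this.le, h.qlo (j + 1) this, fAcc_succ]
      ring
    have b6 : ∑ j ∈ Finset.Ioo D.J D.K, D.dx j * D.sig j * (D.rb j - D.Gam j) +
        ∑ j ∈ Finset.Ioo D.J D.K, ex D.B j / 2 * Kid68.sl (τ D) (fM D.M) D.q j *
        (pi2 (fun _ => 1) D.B j ov 0 - pi2 (fun _ => 1) D.S j (fun e e' => spin e * spin e') 0) =
        ∑ j ∈ D.up, omS D j * (D.rb j - D.Gam j) := by
      rw [← Finset.sum_add_distrib]
      refine Finset.sum_congr rfl fun j hj => ?_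
      have := (CD.mem_up.1 hj).1
      rw [esl j (by omega), omS, mv]
      simp only [CD.rb, CD.E2, CD.Gam]; ring
    have b7 : ∑ j ∈ Finset.Ioo D.J D.K, ex D.B j * (D.q (j + 1) - D.q j) *
        (pi2 (fun _ => 1) D.B j ov 0 - D.q j) = ∑ t ∈ D.up, D.del t * mv D D.q t := by
      refine Finset.sum_congr rfl fun j hj => ?_
      rw [mv]
      simp only [CD.del, CD.rb, CD.E2]; ring
    simp only [Km, D.B_len, esg, a0, Finset.sum_range_succ _ D.J, b4, b7,
      esl D.J H.J1, h.qlo D.J le_rfl]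
    simp only [CD.rb, CD.E2, CD.Gam, CD.dx] at a1 a2 b1 b2 b3 b6 ⊢
    rw [a1, a2, b1, C1, x1]
    simp only [CD.rb, CD.E2, CD.Gam, CD.dx]
    linear_combination (-1 : ℝ) * b6 - (1 / 2 : ℝ) * b2 - (1 / 2 : ℝ) * b3
  rw [eM] at k
  have c1 : 0 ≤ x1 D / 2 * (fM D.M D.J * ins (fun _ => 1) D.B D.J ov 0) ∧
      x1 D / 2 * (fM D.M D.J * ins (fun _ => 1) D.B D.J ov 0) ≤ η := by
    have x0 : 0 ≤ x1 D := h.ex0 _
    have x2 : x1 D ≤ 1 := h.x1.trans h.X1
    have f1 : fM D.M D.J ≤ η := by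
      have := H.fJ; rw [fAcc_succ] at this; linarith [η8 H]
    refine ⟨mul_nonneg (by linarith) (mul_nonneg (hf0 _) hins.1), ?_⟩
    nlinarith [mul_le_mul f1 hins.2 hins.1 H.η0, mul_nonneg (hf0 D.J) hins.1, H.η0]
  have c2 := ent_bd h.pos (exp_pos (-U / 2)).le i5
  have c3 : exp (-U / 2) ≤ η := by
    have u1 := small h H (exp_pos _).le i6
    have u2 : exp (-U / 2) = exp (-U / 4) * exp (-U / 4) := by rw [← exp_add]; ring_nf
    have u3 := (u1.trans (η8 H))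
    rw [u2]; nlinarith [exp_pos (-U / 4), H.η1]
  have c4 : D.β ^ 2 * d / (2 * (D.n + 1)) ≤ τ0 / D.n := by
    rw [div_le_div_iff₀ (by positivity) hn]
    nlinarith [hτ0.1, hτ0.2, mul_le_mul_of_nonneg_right hβ hn.le]
  have k' := abs_le.1 k
  have := η8 H
  refine abs_le.2 ⟨?_, ?_⟩ <;> linarith [k'.1, k'.2, c1.1, c1.2, hth.1, hth.2]

end Crest.Agent.T156.Cas.C40.E42

end
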