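import Crest.Agent.T156.R2EDef_42
import Crest.Agent.T156.CErr_54
import Crest.Agent.T156.CHd_50
import Crest.Agent.T156.R1S_95

/-!
# Row 156, R2: the letter `Sd` is the sum of the letters `lev t` (helper42)
-/

set_option autoImplicit false
set_option linter.all false

noncomputable section

namespace Crest.Agent.T156.Cas.C40.E42

open MeasureTheory Real Set Filter Topology
open Crest.Agent.T157.E Crest.Agent.T157.Casc Crest.Agent.T157.SL
open Crest.ProbabilityR.SpinGlassDynamics (spin)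
open Hd50
open R1J (sk W ind)

theorem cd_TE {Ω : Type} [Fintype Ω] {w : Ω → ℝ} (hw : Wt w) (L : List (Lv Ω)) (h f : Ω → ℝ) :
    ∀ (n : ℕ) (s : Sh) (F : (s.Lf → Ω) → ℝ), ContDiff ℝ n fun e : ℝ => TE w s L (h + e • f) F
  | 0, s, F => contDiff_zero.2 (continuous_iff_continuousAt.2 fun e =>
      (One15.hasDerivAt_TE hw s L h f F e).continuousAt)
  | n + 1, s, F => by
    rw [Nat.cast_succ, contDiff_succ_iff_deriv]
    refine ⟨fun e => (One15.hasDerivAt_TE hw s L h f F e).differentiableAt, by simp, ?_⟩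
    rw [show deriv (fun e : ℝ => TE w s L (h + e • f) F) = fun e => One15.dS w s L (h + e • f) f F
      from funext fun e => (One15.hasDerivAt_TE hw s L h f F e).deriv]
    exact (ContDiff.sum fun a _ => cd_TE hw L h f n _ _).sub
      (ContDiff.sum fun a _ => ContDiff.sum fun j _ => contDiff_const.mul (cd_TE hw L h f n _ _))

theorem lin_cd (n : ℕ) : Tay38.Lin fun f _ => ContDiff ℝ n f :=
  ⟨contDiff_const, fun a b => a.add b, fun _ _ _ a => contDiff_const.mul a⟩

/-- words are smooth in the field -/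
theorem cd_Wh (T : List (Lv Bool)) (k : ℕ) (fs : List (ℕ → ℝ)) (n : ℕ) :
    ContDiff ℝ n fun y : ℝ => Wh T (fun b => y * spin b) k fs :=
  FL.wdO T (fs.map sk) (FL.ev (Sh.two k) _) _ (lin_cd n)
    (fun y => TEf (fun _ => 1) T fun b => y * spin b) (fun _ _ => 0) fun s F => by
      have := cd_TE One15.w1 T 0 spin n s F
      simp only [zero_add] at this
      exact this

theorem abs_spin2 (a b : Bool) : |spin a * spin b| = 1 := by
  cases a <;> cases b <;> simp [spin]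

section top
variable {T : List (Lv Bool)} (hM : Mono 0 T) (top : dm T 0 T.length = 0) {k : ℕ}
  (hk : k < T.length)
include hM top hk

theorem Wh_top (h : Bool → ℝ) : Wh T h k [ind T.length] = 0 := by
  have i0 : ∀ y, 0 ≤ ind T.length y := fun y => by unfold ind; split_ifs <;> norm_num
  rw [Wh, twoF, List.map_singleton, WdO_cons, WdO_nil, Dop_eq_sg, ← abs_nonpos_iff]
  refine (Ws38.W1 hM hk.le i0 fun τ _ => One15.abs_TE_le One15.w1 _ _ _ fun x => ?_).trans_eq ?_
  · simp only [GT.ev, sk, abs_mul, abs_spin2]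
    rw [← abs_mul, ← abs_mul, abs_spin2, abs_spin2, abs_div, abs_of_nonneg (i0 _), abs_two]
    linarith [i0 τ.j]
  · simp [Ws38.I, ind, hk.ne, top]

theorem W_top (g : ℕ → ℝ) : W T k [ind T.length, g] = 0 := by
  rw [R1S95.W_eq, ← abs_nonpos_iff]
  refine (R1S95.w2_crude (q := 0) hM (by simp) hk.le (R1S95.sk_eq _) (R1S95.sk_eq _)).trans_eq ?_
  have e : ∀ u : ℕ → ℝ, R1S95.Nm T (fun y => ind T.length y / 2 * u y) = 0 := fun u =>
    Finset.sum_eq_zero fun y _ => by
      by_cases h : y = T.length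
      · rw [h, top, zero_mul]
      · simp [ind, h]
  have e1 := e fun _ => 1
  simp only [mul_one] at e1
  rw [e, e1]
  simp [ind, hk.ne]

end top

variable {D : CD} {τ0 : ℝ}

theorem T_up (D : CD) (hc : D.J < D.K) (i : ℕ) (hi : i ≤ D.J) (y : ℝ) (j : ℕ) {f : ℕ → ℝ}
    (hf : ∀ t ≤ D.J, f t = 0) (fs : List (ℕ → ℝ)) (z : T D i y j (ind D.K :: fs) = 0) :
    T D i y j (f :: fs) = ∑ t ∈ D.up, f t * T D i y j (ind t :: fs) := by
  have lS : D.S.length = D.K := opS_length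
  have : T D i y j (f :: fs) = ∑ t ∈ insert D.K D.up, f t * T D i y j (ind t :: fs) := by
    simp only [T, List.map_cons, ← Wh_smul, ← Wh_sum]
    refine Wh_congr _ _ _ (fun k hk => ?_) _
    rw [List.length_drop, lS] at hk
    simp only [ind, mul_ite, mul_one, mul_zero, Finset.sum_ite_eq, Finset.mem_insert, Finset.mem_Ioo]
    split_ifs with h
    · rfl
    · exact hf _ (by omega)
  rw [this, Finset.sum_insert (by simp), z, mul_zero, zero_add]

theorem monoS (h : D.Ok τ0) : Mono 0 D.S := Cav22.mono_tilt tilt_opS.symm h.mono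

theorem T_top (h : D.Ok τ0) {i : ℕ} (hi : i ≤ D.J) (y : ℝ) {j : ℕ} (hj : j ∈ D.up) :
    T D i y j [ind D.K] = 0 := by
  have lS : D.S.length = D.K := opS_length
  have m := CD.mem_up.1 hj
  have l : (D.S.drop i).length = D.K - i := by rw [List.length_drop, lS]
  have e : (fun k => ind D.K (k + i)) = ind (D.S.drop i).length := funext fun k => by
    rw [l, ind, ind]
    exact if_congr (by omega) rfl rfl
  rw [T, List.map_singleton, e]
  refine Wh_top (One15.mono_drop i (monoS h)) ?_ (by omega) _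
  obtain ⟨r, hr⟩ : ∃ r, D.K - i = r + 1 := ⟨D.K - i - 1, by omega⟩
  have hex : ∀ k, ex (D.S.drop i) k = ex D.S (k + i) := fun k => by
    simp only [T157.Casc.ex, List.getElem?_drop, add_comm i]
  have t : dm D.S 0 (r + i + 1) = 0 := by
    rw [← show D.K = r + i + 1 by omega]; exact (Cav22.dm_tilt tilt_opS 0 D.K).trans h.top
  rw [dm, exP] at t
  rw [l, hr, dm, exP, hex, hex, show r + 1 + i = r + i + 1 by omega]
  exact t

theorem W_topD (h : D.Ok τ0) {j : ℕ} (hj : j ∈ D.up) (g : ℕ → ℝ) : T D 0 0 j [ind D.K, g] = 0 := by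
  have lS : D.S.length = D.K := opS_length
  rw [T_zero, ← lS]
  exact W_top (monoS h) (lS ▸ (Cav22.dm_tilt tilt_opS 0 D.K).trans h.top)
    (lS ▸ (CD.mem_up.1 hj).2) g

/-- the coefficient of `lev t` in `Sd` -/
def cf (D : CD) (t : ℕ) : ℝ := D.τ t / 2 * D.del t

theorem sH_Sd_test (h : D.Ok τ0) (a : ℕ → ℝ) {i : ℕ} (hi : i ≤ D.J) (y : ℝ) :
    (wi D a).sH i y [D.Sd] = ∑ t ∈ D.up, cf D t * (wi D a).sH i y [D.lev t] := by
  have k := fun (f : ℕ → ℝ) (hf : f i = 0) =>
    sH_test (D := wi D a) rfl i y (fs := [f]) (by simpa using hf)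
  simp only [List.map_singleton, Tc_cons] at k
  rw [Sd_eq]
  refine (k _ (ω_lo D hi)).trans ?_
  rw [Finset.sum_congr rfl fun t ht => congrArg (cf D t * ·) ((congrArg (fun u => (wi D a).sH i y [u])
    (lev_eq D t)).trans (k _ (i2_lo D ht hi)))]
  simp only [Finset.mul_sum]
  rw [Finset.sum_comm]
  refine Finset.sum_congr rfl fun j hj => ?_
  refine (congrArg (a j * ·) (T_up D h.cut i hi y j (fun _ => ω_lo D) [] (T_top h hi y hj))).trans ?_
  rw [Finset.mul_sum]
  refine Finset.sum_congr rfl fun t ht => ?_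
  have := T_smul (D := D) i y j 2 (ind t) []
  rw [ω_up D ht, cf]
  change _ = _ * (a j * T D i y j [fun k => 2 * ind t k])
  rw [this]; ring

theorem sH_Sd_val (h : D.Ok τ0) (hW : D.W = none) {i : ℕ} (hi : i ≤ D.J) (y : ℝ) :
    D.sH i y [D.Sd] = ∑ t ∈ D.up, cf D t * D.sH i y [D.lev t] := by
  have := sH_val hW h.top h.cut hi y (fun _ => ω_lo D) (fs := []) (by simp)
  rw [Sd_eq]
  refine this.trans (Finset.sum_congr rfl fun t ht => ?_)
  have k := lev_val hW h.top h.cut ht hi y (fs := []) (by simp)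
  rw [List.map_nil] at k
  rw [k, ω_up D ht, cf]; ring

theorem cd_T (D : CD) (i j : ℕ) (fs : List (ℕ → ℝ)) (n : ℕ) :
    ContDiff ℝ n fun y => Tc D i y j fs := (cd_Wh _ _ _ n).sub contDiff_const

theorem cd_two (T : List (Lv Bool)) (k : ℕ) (Q : Bool → Bool → ℝ) (V : List SK) (n : ℕ) :
    ContDiff ℝ n fun y : ℝ => twoF k Q (WdO T V (TEf (fun _ => 1) T fun b => y * spin b)) :=
  FL.wdO T V (FL.ev (Sh.two k) _) _ (lin_cd n)
    (fun y => TEf (fun _ => 1) T fun b => y * spin b) (fun _ _ => 0) fun s F => by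
      have := cd_TE One15.w1 T 0 spin n s F
      simp only [zero_add] at this
      exact this

theorem cd_sH (D : CD) (a : ℕ → ℝ) (i : ℕ) (V : List SK) (n : ℕ) :
    ContDiff ℝ n fun y => (wi D a).sH i y V := by
  simp only [CD.sH, CD.dd, CD.om, wi]
  exact ContDiff.sum fun j _ => contDiff_const.mul (cd_two _ _ _ _ n)

theorem cd_val (h : D.Ok τ0) (hW : D.W = none) {t : ℕ} (ht : t ∈ D.up) (n : ℕ) :
    ContDiff ℝ n fun y => D.sH D.J y [D.lev t] := by
  have k := fun y => lev_val hW h.top h.cut ht le_rfl y (fs := []) (by simp)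
  simp only [List.map_nil] at k
  rw [funext k]
  exact contDiff_const.mul (cd_T _ _ _ _ n)

theorem iter_sum {A : Finset ℕ} {c : ℕ → ℝ} {F : ℕ → ℝ → ℝ} {r : ℕ}
    (hF : ∀ t ∈ A, ContDiff ℝ r (F t)) : -iteratedDeriv r (fun y => ∑ t ∈ A, c t * F t y) 0 =
      ∑ t ∈ A, c t * -iteratedDeriv r (F t) 0 := by
  rw [iteratedDeriv_fun_sum fun t ht => (contDiff_const.mul (hF t ht)).contDiffAt,
    ← Finset.sum_neg_distrib]
  exact Finset.sum_congr rfl fun t _ => by rw [iteratedDeriv_const_mul_field, mul_neg]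

theorem f1_lin (h : D.Ok τ0) (a : ℕ → ℝ) :
    (wi D a).f1' = ∑ t ∈ D.up, cf D t * (wi D a).sL [D.lev t] := sH_Sd_test h a (Nat.zero_le _) 0

theorem dP_lin (h : D.Ok τ0) (a : ℕ → ℝ) (r : ℕ) :
    (wi D a).dP r [D.Sd] = ∑ t ∈ D.up, cf D t * (wi D a).dP r [D.lev t] := by
  change -iteratedDeriv r (fun y => (wi D a).sH D.J y [D.Sd]) 0 = _
  rw [funext (sH_Sd_test h a le_rfl), iter_sum fun t _ => cd_sH D a _ _ r]
  rfl

theorem dP_lin_val (h : D.Ok τ0) (hW : D.W = none) (r : ℕ) :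
    D.dP r [D.Sd] = ∑ t ∈ D.up, cf D t * D.dP r [D.lev t] := by
  rw [CD.dP, funext (sH_Sd_val h hW le_rfl), iter_sum fun t ht => cd_val h hW ht r]
  rfl

theorem QM_lin (h : D.Ok τ0) (a : ℕ → ℝ) : (wi D a).QM =
    ∑ t ∈ D.up, ∑ t' ∈ D.up, cf D t * cf D t' * (wi D a).sL [D.lev t, D.lev t'] := by
  have k : ∀ t ∈ D.up, ∀ t' ∈ D.up, (wi D a).sL [D.lev t, D.lev t'] =
      4 * ∑ j ∈ D.up, a j * W D.S j [ind t, ind t'] := fun t ht t' ht' =>
    lev2_test (D := wi D a) rfl (up0 ht) (up0 ht')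
  have e : ∀ j ∈ D.up, W D.S j [ω D, ω D] =
      ∑ t ∈ D.up, ∑ t' ∈ D.up, ω D t * (ω D t' * W D.S j [ind t, ind t']) := fun j hj => by
    rw [← T_zero, T_up D h.cut 0 (Nat.zero_le _) 0 j (fun _ => ω_lo D) _ (W_topD h hj _)]
    refine Finset.sum_congr rfl fun t ht => ?_
    rw [T_perm 0 0 j (List.Perm.swap (ω D) (ind t) []) (by simp [ω_lo, ind0 (up0 ht)]),
      T_up D h.cut 0 (Nat.zero_le _) 0 j (fun _ => ω_lo D) _ (W_topD h hj _), Finset.mul_sum]
    refine Finset.sum_congr rfl fun t' ht' => ?_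
    rw [T_perm 0 0 j (List.Perm.swap (ind t) (ind t') []) (by simp [ind0 (up0 ht), ind0 (up0 ht')]),
      T_zero]
  refine (QM_test (D := wi D a) rfl).trans ?_
  rw [Finset.sum_congr rfl fun t ht => Finset.sum_congr rfl fun t' ht' => by rw [k t ht t' ht']]
  refine (Finset.sum_congr rfl fun j hj => congrArg (a j * ·) (e j hj)).trans ?_
  simp only [Finset.mul_sum]
  rw [Finset.sum_comm]
  refine Finset.sum_congr rfl fun t ht => ?_
  rw [Finset.sum_comm]
  refine Finset.sum_congr rfl fun t' ht' => Finset.sum_congr rfl fun j _ => ?_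
  rw [ω_up D ht, ω_up D ht', cf, cf]; ring

/-! ### the test head is additive in the measure -/

theorem sH_add (D : CD) (a b : ℕ → ℝ) (i : ℕ) (y : ℝ) (V : List SK) :
    (wi D fun j => a j + b j).sH i y V = (wi D a).sH i y V + (wi D b).sH i y V := by
  simp only [CD.sH, CD.dd, CD.om, wi, add_mul, Finset.sum_add_distrib]

theorem dP_add (D : CD) (a b : ℕ → ℝ) (r : ℕ) (V : List SK) :
    (wi D fun j => a j + b j).dP r V = (wi D a).dP r V + (wi D b).dP r V := by
  change -iteratedDeriv r (fun y => (wi D fun j => a j + b j).sH D.J y V) 0 =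
    -iteratedDeriv r (fun y => (wi D a).sH D.J y V) 0 + -iteratedDeriv r (fun y => (wi D b).sH D.J y V) 0
  rw [funext fun y => sH_add D a b D.J y V, iteratedDeriv_fun_add (cd_sH D a _ V r).contDiffAt
    (cd_sH D b _ V r).contDiffAt, neg_add]

/-- the main terms in a test direction -/
theorem main_wi (D : CD) (a : ℕ → ℝ) : (wi D a).main =
    D.lam * (wi D a).dP 2 [] * D.Sh' + D.lam * (wi D a).dP 2 [] * D.S2 / 2 -
      D.lam ^ 2 * (wi D a).dP 2 [] * D.S3 / 2 + D.k4 * (wi D a).dP 4 [] * D.S4 / 24 + (wi D a).f1' +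
      D.S2 * ((wi D a).dP 2 [] * D.val.dP 2 [D.Sd] + D.lam * (wi D a).dP 2 [D.Sd]) / 2 +
      ((wi D a).QM + ∑ t ∈ D.up, D.τ t ^ 2 / 4 * (D.u 2 t - D.del t ^ 2) *
        (wi D a).sL [D.lev t, D.lev t]) / 2 +
      (∑ t ∈ D.up, D.τ t ^ 3 / 8 * D.u3 t * (wi D a).sL [D.lev t, D.lev t, D.lev t]) / 6 := by
  change 2 * D.lam * (wi D a).dP 2 [] * D.Sh' / 2 +
    (-(0 * D.S1) / 4 + 2 * D.lam * (wi D a).dP 2 [] * D.S2 / 4) +
    -(3 * D.lam ^ 2 * (wi D a).dP 2 [] * D.S3) / 6 + 2 * D.k4 * (wi D a).dP 4 [] * D.S4 / 48 +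
    (wi D a).f1' +
    D.S2 * ((wi D a).dP 2 [] * D.val.dP 2 [D.Sd] + D.lam * (wi D a).dP 2 [D.Sd]) / 2 +
    (-(0 * D.Su) / 4 + ((wi D a).QM + ∑ t ∈ D.up, D.τ t ^ 2 / 4 * (D.u 2 t - D.del t ^ 2) *
        (wi D a).sL [D.lev t, D.lev t]) / 2) +
    (∑ t ∈ D.up, D.τ t ^ 3 / 8 * D.u3 t * (wi D a).sL [D.lev t, D.lev t, D.lev t]) / 6 = _
  ring

theorem dT_add (D : CD) (a b : ℕ → ℝ) : dT D (fun j => a j + b j) = dT D a + dT D b := by
  have s : ∀ V, (wi D fun j => a j + b j).sL V = (wi D a).sL V + (wi D b).sL V := sH_add D a b 0 0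
  have f : (wi D fun j => a j + b j).f1' = (wi D a).f1' + (wi D b).f1' := s _
  have q : (wi D fun j => a j + b j).QM = (wi D a).QM + (wi D b).QM := s _
  simp only [dT, main_wi, dP_add, s, f, q, add_mul, mul_add, Finset.sum_add_distrib]
  ring

/-- the test head, for any envelopes of the test direction -/
theorem dT_le (H : HT) (τ0 : ℝ) : ∃ C : ℝ, 0 ≤ C ∧ ∀ (D : CD) (a F f : ℕ → ℝ) (Z : ℝ),
    CD.Ok { D with W := some a, F1 := F, f1 := f, Z := Z } τ0 →
      |dT D a| ≤ C * CD.Err { D with W := some a, F1 := F, f1 := f, Z := Z } := by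
  obtain ⟨C, h0, h⟩ := H τ0
  exact ⟨C, h0, fun D a F f Z ok => h _ ok rfl⟩

end Crest.Agent.T156.Cas.C40.E42

end
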