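import Crest.Agent.T156.R2EA_42
import Crest.Agent.T156.R2EB_42
import Crest.Agent.T156.R2c_85

/-!
# Row 156, R2: the head (EE) from the site inputs `H0 … H7` (helper42)
-/

set_option autoImplicit false
set_option linter.all false

noncomputable section

namespace Crest.Agent.T156.Cas.C40.E42

open MeasureTheory Real Set Filter Topology
open Crest.Agent.T157.E Crest.Agent.T157.Casc Crest.Agent.T157.SL
open Crest.Agent.T157.G1 (ov)
open Crest.ProbabilityR.SpinGlassDynamics (spin)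

variable {D : CD} {τ0 η m : ℝ}

/-! ### crude sizes -/

theorem E2_mem (D : CD) (j : ℕ) {G : Cube D.n → Cube D.n → ℝ} {b : ℝ} (h0 : ∀ x y, 0 ≤ G x y)
    (h1 : ∀ x y, G x y ≤ b) : 0 ≤ D.E2 j G ∧ D.E2 j G ≤ b :=
  ⟨T157.Casc.pi2_nonneg wt_one90 _ _ h0 _,
    (T157.Casc.pi2_mono wt_one90 _ j h1 0).trans (pi2_const wt_one90 _ j b 0).le⟩

theorem rb_mem (h : D.Ok τ0) (j : ℕ) : 0 ≤ D.rb j ∧ D.rb j ≤ 1 := by
  have hn : (0 : ℝ) < D.n := by exact_mod_cast h.pos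
  have e : (T157.G1.fl D.n 1 (0, 1 / D.n)).cov = ov := funext fun x => funext fun y => by
    rw [Link33.cov_fl D.n 1 _ x y h.pos (by positivity)]; field_simp
  have h1 := Kid68.pi2_cov_nonneg wt_one90 (T157.G1.fl D.n 1 (0, 1 / D.n)) D.B j 0
  rw [e] at h1
  exact ⟨h1, Kid68.pi2_le_one wt_one90 (fun x y => (le_abs_self _).trans (Cas.abs_ov_le x y)) _ _ _⟩

theorem abs_del (h : D.Ok τ0) {t : ℕ} (ht : t ∈ D.up) : |D.del t| ≤ 1 := by
  have h1 := rb_mem h t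
  have h2 := h.ook.mem (CD.mem_up.1 ht).2.le
  exact abs_le.2 ⟨by rw [CD.del]; linarith [h2.2], by rw [CD.del]; linarith [h2.1]⟩

theorem u2_le (h : D.Ok τ0) {t : ℕ} (ht : t ∈ D.up) : D.u 2 t ≤ 4 :=
  (E2_mem D t (G := fun x y => |oU D.q t x y| ^ 2) (fun _ _ => sq_nonneg _) fun x y => by
    have := abs_oU_le h.ook (CD.mem_up.1 ht).2.le x y
    nlinarith [abs_nonneg (oU D.q t x y)]).2

theorem abs_u3 (D : CD) (t : ℕ) : |D.u3 t| ≤ D.u 3 t := by
  have h1 := T157.Casc.pi2_mono wt_one90 D.B t (K := fun x y => oU D.q t x y ^ 3)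
    (fun x y => (le_abs_self _).trans_eq (abs_pow _ _)) 0
  have h2 := T157.Casc.pi2_mono wt_one90 D.B t (K := fun x y => -1 * oU D.q t x y ^ 3)
    (fun x y => (neg_one_mul _).trans_le ((neg_le_abs _).trans_eq (abs_pow _ _))) 0
  rw [pi2_const_mul, neg_one_mul] at h2
  exact abs_le.2 ⟨neg_le.1 h2, h1⟩

theorem ck0 (h : D.Ok τ0) {t : ℕ} (ht : t ∈ D.up) : 0 ≤ ck D t :=
  add_nonneg (h.dx0 t) (sub_nonneg.2 (h.sig_le t.le_succ (CD.mem_up.1 ht).2))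

theorem sum_ck (h : D.Ok τ0) : ∑ t ∈ D.up, ck D t ≤ La D := by
  have h1 := h.sum_dx_one (A := D.up) fun i hi => (CD.mem_up.1 hi).2.le
  have h2 : ∑ j ∈ D.up, (D.sig (j + 1) - D.sig j) ≤ D.sig D.K := by
    refine (Finset.sum_le_sum_of_subset_of_nonneg (t := Finset.range D.K) (fun j hj =>
      Finset.mem_range.2 (CD.mem_up.1 hj).2) fun j hj _ =>
        sub_nonneg.2 (h.sig_le j.le_succ (Finset.mem_range.1 hj))).trans ?_
    rw [Finset.sum_range_sub]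
    linarith [h.sig0 (Nat.zero_le D.K)]
  simp only [ck, Finset.sum_add_distrib, La]
  linarith

theorem Ck0 (h : D.Ok τ0) {a : ℕ → ℝ} (ha : ∀ t, 0 ≤ a t) : 0 ≤ Ck D a :=
  Finset.sum_nonneg fun t ht => mul_nonneg (ck0 h ht) (ha t)

theorem lo_mem (h : D.Ok τ0) {a : ℕ → ℝ} {b : ℝ} (hb : 0 ≤ b) (ha : ∀ j ∈ D.lo, |a j| ≤ b) :
    |∑ j ∈ D.lo, D.dx j * a j| ≤ b := by
  refine (Finset.abs_sum_le_sum_abs _ _).trans ((Finset.sum_le_sum (g := fun j => D.dx j * b)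
    fun j hj => ?_).trans ?_)
  · rw [abs_mul, abs_of_nonneg (h.dx0 j)]
    exact mul_le_mul_of_nonneg_left (ha j hj) (h.dx0 j)
  · rw [← Finset.sum_mul]
    exact mul_le_of_le_one_left hb (h.sum_lo.trans h.X1)

theorem ov_pow (D : CD) (j p : ℕ) : 0 ≤ D.E2 j (fun x y => ov x y ^ (2 * p)) ∧
    D.E2 j (fun x y => ov x y ^ (2 * p)) ≤ 1 :=
  E2_mem D j (fun _ _ => by rw [pow_mul]; positivity) fun x y =>
    (le_abs_self _).trans ((abs_pow _ _).trans_le (pow_le_one₀ (abs_nonneg _) (Cas.abs_ov_le x y)))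

theorem Sp_mem (h : D.Ok τ0) (p : ℕ) :
    0 ≤ ∑ j ∈ D.lo, D.dx j * (D.τ j ^ (2 * p) * D.E2 j fun x y => ov x y ^ (2 * p)) ∧
    ∑ j ∈ D.lo, D.dx j * (D.τ j ^ (2 * p) * D.E2 j fun x y => ov x y ^ (2 * p)) ≤ τ0 ^ (2 * p) := by
  have k := fun j => mul_nonneg (pow_nonneg (h.tau_mem j).1 (2 * p)) (ov_pow D j p).1
  refine ⟨Finset.sum_nonneg fun j _ => mul_nonneg (h.dx0 j) (k j), (le_abs_self _).trans
    (lo_mem h (pow_nonneg h.tau0 _) fun j _ => ?_)⟩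
  rw [abs_of_nonneg (k j)]
  exact (mul_le_of_le_one_right (pow_nonneg (h.tau_mem j).1 _) (ov_pow D j p).2).trans
    (pow_le_pow_left₀ (h.tau_mem j).1 (h.tau_mem j).2 _)

theorem S2_mem (h : D.Ok τ0) : 0 ≤ D.S2 ∧ D.S2 ≤ τ0 ^ 2 := Sp_mem h 1

theorem S4_mem (h : D.Ok τ0) : 0 ≤ D.S4 ∧ D.S4 ≤ τ0 ^ 4 := Sp_mem h 2

theorem Shu_mem (h : D.Ok τ0) : 0 ≤ Shu D ∧ Shu D ≤ 1 := by
  have k := fun j => mul_nonneg (h.fAcc0 j) (rb_mem h j).1
  refine ⟨Finset.sum_nonneg fun j _ => mul_nonneg (h.dx0 j) (k j), (le_abs_self _).trans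
    (lo_mem h zero_le_one fun j hj => ?_)⟩
  rw [abs_of_nonneg (k j)]
  exact mul_le_one₀ ((h.fAcc_mono (CD.mem_lo.1 hj).2).trans (h.h1.trans (pow_le_one₀ h.X0 h.X1)))
    (rb_mem h j).1 (rb_mem h j).2

theorem abs_KR (h : D.Ok τ0) (j : ℕ) (x y : Cube D.n) : |D.KR j x y| ≤ τ0 := by
  unfold CD.KR
  split_ifs
  · rw [abs_mul, abs_of_nonneg (h.tau_mem j).1]
    exact (mul_le_of_le_one_right (h.tau_mem j).1 (Cas.abs_ov_le x y)).trans (h.tau_mem j).2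
  · rw [abs_zero]; exact h.tau0

theorem abs_S3 (h : D.Ok τ0) : |D.S3| ≤ 2 * τ0 ^ 3 := by
  have t0 := h.tau0
  refine lo_mem h (by positivity) fun j _ => (Finset.abs_sum_le_sum_abs _ _).trans
    ((Finset.sum_le_sum (g := fun a => ∑ i ∈ Finset.range (D.B.length + 1),
      cw (Sh.two j) D.B a i * τ0 ^ 3) fun a _ => (Finset.abs_sum_le_sum_abs _ _).trans ?_).trans_eq ?_)
  · refine (Finset.sum_le_sum fun i _ => ?_).trans (Finset.sum_le_sum_of_subset_of_nonneg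
      (Finset.range_mono (by rw [D.B_len]; have := h.cut; omega))
      fun i _ _ => mul_nonneg (cw_nonneg _ h.mono _ _) (by positivity))
    rw [abs_mul, abs_of_nonneg (cw_nonneg _ h.mono _ _)]
    refine mul_le_mul_of_nonneg_left (One15.abs_TE_le wt_one90 _ _ _ fun x => ?_)
      (cw_nonneg _ h.mono _ _)
    rw [abs_mul, abs_mul, pow_succ', sq]
    exact mul_le_mul (abs_KR h _ _ _) (mul_le_mul (abs_KR h _ _ _) (abs_KR h _ _ _) (abs_nonneg _) t0)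
      (by positivity) t0
  · simp only [← Finset.sum_mul, sum_cw, Wt87.card_two]
    norm_num

/-! ### the package -/

/-- all the inputs with one constant -/
structure Pk (D : CD) (η m : ℝ) : Prop where
  m1 : 1 ≤ m
  tau : τ D ≤ m
  la : La D ≤ m
  s2 : D.S2 ≤ m
  s3 : |D.S3| ≤ m
  s4 : D.S4 ≤ m
  h0 : |D.lam| ≤ m ∧ |D.k4| ≤ m ∧ ∀ t ∈ D.up, |D.dP 2 [D.lev t]| ≤ m * D.dx t
  h1 : |(star D).dP 2 [] + D.lam - x1 D * s1 D * D.lam ^ 2| ≤ m * (D.X ^ 3 + η)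
  h2 : |(star D).dP 4 [] + 3 * D.k4| ≤ m * (D.X + η)
  h3 : ∀ t ∈ D.up, |(star D).sL [D.lev t] - mv D D.Gam t +
    x1 D * D.lam * s1 D ^ 2 * D.dP 2 [D.lev t] / 2| ≤ m * (η * ck D t + D.X ^ 4 * D.dx t)
  h4 : ∀ t ∈ D.up, |(star D).dP 2 [D.lev t] + 2 * D.dP 2 [D.lev t]| ≤ m * ((D.e t + η) * ck D t)
  h5 : ∀ t ∈ D.up, |(star D).sL [D.lev t, D.lev t] - 2 * mv D (G D) t + 4 * D.dx t * G D t| ≤
    m * ((η + D.X ^ 3) * ck D t)
  h6 : ∀ t ∈ D.up, ∀ t' ∈ D.up, t ≠ t' →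
    |(star D).sL [D.lev t, D.lev t']| ≤ m * (min (D.e t) (D.e t') * (ck D t * ck D t'))
  h7 : ∀ t ∈ D.up, |(star D).sL [D.lev t, D.lev t, D.lev t]| ≤ m * (D.e t * ck D t)

theorem ab {x y a b : ℝ} (h : |x| ≤ a) (h' : |y| ≤ b) : |x * y| ≤ a * b := by
  rw [abs_mul]; exact mul_le_mul h h' (abs_nonneg _) ((abs_nonneg _).trans h)

theorem sum_bd {A : Finset ℕ} {f g : ℕ → ℝ} (h : ∀ t ∈ A, |f t| ≤ g t) :
    |∑ t ∈ A, f t| ≤ ∑ t ∈ A, g t := (Finset.abs_sum_le_sum_abs _ _).trans (Finset.sum_le_sum h)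

section terms
variable (h : D.Ok τ0) (H : Hm D η) (P : Pk D η m)
include h H

theorem tau_up {t : ℕ} (ht : t ∈ D.up) : D.τ t = τ D :=
  H.tau (by have := CD.mem_up.1 ht; omega) (by have := h.cut; omega)

theorem cf_eq {t : ℕ} (ht : t ∈ D.up) : cf D t = τ D / 2 * D.del t := by rw [cf, tau_up h H ht]

include P

theorem abs_tau : |τ D| ≤ m := (abs_of_nonneg (h.tau_mem D.K).1).trans_le P.tau

theorem abs_cf {t : ℕ} (ht : t ∈ D.up) : |cf D t| ≤ m * |D.del t| := by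
  rw [cf_eq h H ht]
  refine ab ?_ le_rfl
  rw [abs_div, abs_two]
  linarith [abs_tau h H P, P.m1]

theorem eta_ck : ∑ t ∈ D.up, η * ck D t ≤ η * m := by
  rw [← Finset.mul_sum]
  exact mul_le_mul_of_nonneg_left ((sum_ck h).trans P.la) H.η0

theorem Op_le : |Op D| ≤ m ^ 2 * D.I fun t => |D.del t| := by
  rw [Op, dP_lin_val h H.val, CD.I, Finset.mul_sum]
  exact sum_bd fun t ht => (ab (abs_cf h H P ht) (P.h0.2.2 t ht)).trans_eq (by ring)

theorem b5 : |(star D).f1' - τ D / 2 * ∑ t ∈ D.up, D.del t * mv D D.Gam t +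
    x1 D * D.lam * s1 D ^ 2 / 2 * Op D| ≤ m ^ 2 * (η * m + D.X ^ 4 * D.I fun t => |D.del t|) := by
  have m0 : 0 ≤ m := zero_le_one.trans P.m1
  rw [star, f1_lin h, Op, dP_lin_val h H.val, Finset.mul_sum, Finset.mul_sum,
    ← Finset.sum_sub_distrib, ← Finset.sum_add_distrib]
  refine (sum_bd (g := fun t => m ^ 2 * (η * ck D t + D.X ^ 4 * (D.dx t * |D.del t|)))
    fun t ht => ?_).trans ?_
  · have k := ab (abs_cf h H P ht) (P.h3 t ht)
    have k1 := mul_le_of_le_one_left (mul_nonneg H.η0 (ck0 h ht)) (abs_del h ht)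
    refine le_trans (le_of_eq ?_) (k.trans ?_)
    · rw [cf_eq h H ht, star]; congr 1; ring
    · nlinarith [mul_le_mul_of_nonneg_left k1 (sq_nonneg m)]
  · rw [← Finset.mul_sum, Finset.sum_add_distrib, ← Finset.mul_sum (a := D.X ^ 4)]
    exact mul_le_mul_of_nonneg_left (add_le_add (eta_ck h H P) le_rfl) (sq_nonneg m)

theorem b6 : |(star D).dP 2 [D.Sd] + 2 * Op D| ≤
    m ^ 2 * (Ck D (fun t => D.e t * |D.del t|) + η * m) := by
  rw [star, dP_lin h, Op, dP_lin_val h H.val, Finset.mul_sum, ← Finset.sum_add_distrib]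
  refine (sum_bd (g := fun t => m ^ 2 * (ck D t * (D.e t * |D.del t|) + η * ck D t))
    fun t ht => ?_).trans ?_
  · have k := ab (abs_cf h H P ht) (P.h4 t ht)
    have k1 := mul_le_of_le_one_left (mul_nonneg H.η0 (ck0 h ht)) (abs_del h ht)
    refine le_trans (le_of_eq ?_) (k.trans ?_)
    · rw [star]; congr 1; ring
    · nlinarith [mul_le_mul_of_nonneg_left k1 (sq_nonneg m)]
  · rw [← Finset.mul_sum, Finset.sum_add_distrib]
    exact mul_le_mul_of_nonneg_left (add_le_add le_rfl (eta_ck h H P)) (sq_nonneg m)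

theorem b8 : |∑ t ∈ D.up, D.τ t ^ 3 / 8 * D.u3 t * (star D).sL [D.lev t, D.lev t, D.lev t]| ≤
    m ^ 4 * Ck D fun t => D.e t * D.u 3 t := by
  rw [Ck, Finset.mul_sum]
  refine sum_bd fun t ht => (ab (ab (a := m ^ 3) ?_ (abs_u3 D t)) (P.h7 t ht)).trans_eq (by ring)
  rw [tau_up h H ht, abs_div, abs_pow]
  have := pow_le_pow_left₀ (abs_nonneg _) (abs_tau h H P) 3
  norm_num
  linarith [pow_nonneg (abs_nonneg (τ D)) 3]

theorem b7off : |(star D).QM - ∑ t ∈ D.up, cf D t ^ 2 * (star D).sL [D.lev t, D.lev t]| ≤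
    m ^ 3 * Ck D (fun t => √(D.e t) * |D.del t|) ^ 2 := by
  have m0 : 0 ≤ m := zero_le_one.trans P.m1
  rw [star, QM_lin h, ← Finset.sum_sub_distrib, sq (Ck _ _), Ck, Finset.sum_mul_sum, Finset.mul_sum]
  refine sum_bd fun t ht => ?_
  rw [← Finset.add_sum_erase _ _ ht, sq, add_sub_cancel_left, Finset.mul_sum]
  refine (sum_bd fun t' ht' => ?_).trans (Finset.sum_le_sum_of_subset_of_nonneg
    (Finset.erase_subset _ _) fun t' ht' _ => ?_)
  · have u := Finset.mem_erase.1 ht'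
    refine (ab (ab (abs_cf h H P ht) (abs_cf h H P u.2)) (P.h6 t ht t' u.2 u.1.symm)).trans ?_
    have k : min (D.e t) (D.e t') ≤ √(D.e t) * √(D.e t') := by
      rw [← mul_self_sqrt (le_min (h.e0 t) (h.e0 t'))]
      exact mul_le_mul (sqrt_le_sqrt (min_le_left _ _)) (sqrt_le_sqrt (min_le_right _ _))
        (sqrt_nonneg _) (sqrt_nonneg _)
    have c1 := ck0 h ht
    have c2 := ck0 h u.2
    refine le_trans (le_of_eq ?_) ((mul_le_mul_of_nonneg_left k (a := m ^ 3 * (ck D t * |D.del t| *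
      (ck D t' * |D.del t'|))) (by positivity)).trans_eq ?_) <;> ring
  · have c1 := ck0 h ht
    have c2 := ck0 h ht'
    positivity

theorem b7 : |∑ t ∈ D.up, cf D t ^ 2 * (star D).sL [D.lev t, D.lev t] +
    ∑ t ∈ D.up, D.τ t ^ 2 / 4 * (D.u 2 t - D.del t ^ 2) * (star D).sL [D.lev t, D.lev t] + D.Su| ≤
    m ^ 3 * (Eloc D + η * m + D.X ^ 3 * Ck D (D.u 2)) := by
  have m0 : 0 ≤ m := zero_le_one.trans P.m1
  have t1 := abs_tau h H P
  have t2 : |τ D ^ 2 / 4| ≤ m ^ 2 / 4 := by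
    have := pow_le_pow_left₀ (abs_nonneg _) t1 2
    rw [sq_abs] at this
    rw [abs_of_nonneg (by positivity)]
    linarith
  have p2 : m ^ 2 ≤ m ^ 3 := pow_le_pow_right₀ P.m1 (by norm_num)
  have p1 : m ≤ m ^ 3 := le_self_pow₀ P.m1 (by norm_num)
  rw [CD.Su, ← Finset.sum_add_distrib, ← Finset.sum_add_distrib]
  refine (sum_bd (g := fun t => m ^ 3 * ((D.dx t * |1 - τ D * G D t| + |mv D (G D) t|) * D.u 2 t +
    η * ck D t + D.X ^ 3 * (ck D t * D.u 2 t))) fun t ht => ?_).trans ?_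
  · have u0 := D.u0 2 t
    have a0 : |D.u 2 t| ≤ D.u 2 t := (abs_of_nonneg u0).le
    have k1 := ab (ab t2 a0) (P.h5 t ht)
    have k2 := ab (ab t2 a0) (le_refl |mv D (G D) t|)
    have k3 := ab (ab t1 a0) (ab (abs_of_nonneg (h.dx0 t)).le (le_refl |1 - τ D * G D t|))
    have k4 := mul_le_mul_of_nonneg_left (u2_le h ht) (mul_nonneg (pow_nonneg m0 3)
      (mul_nonneg H.η0 (ck0 h ht)))
    have k5 := mul_le_mul_of_nonneg_right p2 (mul_nonneg u0 (abs_nonneg (mv D (G D) t)))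
    have k6 := mul_le_mul_of_nonneg_right p1 (mul_nonneg u0 (mul_nonneg (h.dx0 t)
      (abs_nonneg (1 - τ D * G D t))))
    have k7 := mul_nonneg (pow_nonneg m0 3) (mul_nonneg (pow_nonneg h.X0 3) (mul_nonneg (ck0 h ht) u0))
    have k8 := mul_nonneg (pow_nonneg m0 3) (mul_nonneg u0 (abs_nonneg (mv D (G D) t)))
    rw [cf_eq h H ht, tau_up h H ht]
    rw [abs_le] at k1 k2 k3 ⊢
    constructor <;> linarith [k1.1, k1.2, k2.1, k2.2, k3.1, k3.2]
  · rw [← Finset.mul_sum, Finset.sum_add_distrib, Finset.sum_add_distrib,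
      ← Finset.mul_sum (a := D.X ^ 3)]
    exact mul_le_mul_of_nonneg_left (add_le_add (add_le_add le_rfl (eta_ck h H P)) le_rfl)
      (pow_nonneg m0 3)

/-- **(EE)** with one constant -/
theorem ee_pk (hτ : τ0 ≤ m) :
    |EP D / D.n - C1 D - EM D| ≤ |dT D (omS D)| + Th D + 20 * m ^ 5 * EB D η := by
  have m0 : 0 ≤ m := zero_le_one.trans P.m1
  have X0 := h.X0
  have η0 := H.η0
  have u : ∀ {k : ℕ} {y z : ℝ}, k ≤ 5 → 0 ≤ y → y ≤ z → m ^ k * y ≤ m ^ 5 * z := fun hk hy hz =>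
    mul_le_mul (pow_le_pow_right₀ P.m1 hk) hz hy (pow_nonneg m0 5)
  have u' : ∀ {k : ℕ} {y : ℝ}, k ≤ 4 → 0 ≤ y → y ≤ m → m ^ k * (η * y) ≤ m ^ 5 * η :=
    fun {k y} hk hy hz => (mul_le_mul (pow_le_pow_right₀ P.m1 hk)
      (mul_le_mul_of_nonneg_left hz η0) (mul_nonneg η0 hy) (pow_nonneg m0 4)).trans_eq (by ring)
  have sh := Shu_mem h
  have s2 := (S2_mem h).1
  have s4 := (S4_mem h).1
  have i0 : 0 ≤ D.I fun t => |D.del t| := h.I0 fun _ _ => abs_nonneg _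
  have i1 : D.I (fun t => |D.del t|) ≤ 1 := h.I_le zero_le_one fun t ht => abs_del h ht
  have c8 := Ck0 h (a := fun t => D.e t * |D.del t|) fun t => mul_nonneg (h.e0 t) (abs_nonneg _)
  have cu := Ck0 h (D.u0 2)
  have c3 := Ck0 h (a := fun t => D.e t * D.u 3 t) fun t => mul_nonneg (h.e0 t) (D.u0 3 t)
  have el : 0 ≤ Eloc D := Finset.sum_nonneg fun t _ => mul_nonneg (add_nonneg
    (mul_nonneg (h.dx0 t) (abs_nonneg _)) (abs_nonneg _)) (D.u0 2 t)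
  have n0 : 0 ≤ 1 / (D.n : ℝ) := by positivity
  have t1 := abs_tau h H P
  have l1 := P.h0.1
  have r : |(star D).dP 2 [] + D.lam| ≤ m ^ 2 * (2 * D.X ^ 2 + η) := by
    have a := ab (ab ((abs_of_nonneg (h.ex0 D.J)).trans_le h.x1)
      ((abs_of_nonneg (h.sig0 h.cut)).trans_le H.sX)) (ab l1 l1)
    have b := P.h1
    have c : m * (D.X ^ 3 + η) ≤ m ^ 2 * (D.X ^ 2 + η) :=
      mul_le_mul (le_self_pow₀ P.m1 two_ne_zero) (add_le_add (pow_le_pow_of_le_one X0 h.X1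
        (by norm_num)) le_rfl) (by positivity) (by positivity)
    rw [abs_le] at a b ⊢
    simp only [x1, s1] at b
    constructor <;> linarith [a.1, a.2, b.1, b.2]
  have r1 := abs_le.1 (ab (le_refl |1 - τ D * D.lam ^ 2|) (abs_of_nonneg sh.1).le)
  have r1' := abs_le.1 (ab (ab (ab t1 l1) r) (abs_of_nonneg sh.1).le)
  have r2 := abs_le.1 (ab (ab l1 P.h1) (abs_of_nonneg s2).le)
  have r3 := abs_le.1 (ab (ab (ab l1 l1) r) (le_refl |D.S3|))
  have r4 := abs_le.1 (ab (ab P.h0.2.1 P.h2) (abs_of_nonneg s4).le)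
  have r5 := abs_le.1 (ab t1 (le_refl |TS D|))
  have r5' := abs_le.1 (b5 h H P)
  have r6 := abs_le.1 (ab (ab (abs_of_nonneg s2).le r) (Op_le h H P))
  have r6' := abs_le.1 (ab (ab (abs_of_nonneg s2).le l1) (b6 h H P))
  have r7 := abs_le.1 (b7off h H P)
  have r7' := abs_le.1 (b7 h H P)
  have r8 := abs_le.1 (b8 h H P)
  have k := abs_le.1 (kid h H)
  have d := abs_le.1 (le_refl |dT D (omS D)|)
  have e1 : dT D (omS D) = ∑ j ∈ D.up, omS D j * (D.rb j - D.Gam j) - (star D).main := rfl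
  have e2 := main_wi D (omS D)
  have e3 : TS D = ∑ t ∈ D.up, D.del t * mv D D.Gam t - ∑ t ∈ D.up, D.del t * mv D D.q t := by
    rw [TS, ← Finset.sum_sub_distrib]
    exact Finset.sum_congr rfl fun t _ => by simp only [mv]; ring
  have e4 : D.Sh' = τ D * Shu D := by
    rw [CD.Sh', Shu, Finset.mul_sum]
    exact Finset.sum_congr rfl fun j hj => by
      rw [H.tau (CD.mem_lo.1 hj).1 (by have := h.cut; omega)]; ring
  have e5 : D.val.dP 2 [D.Sd] = Op D := by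
    have := H.val
    cases D
    cases this
    rfl
  rw [e4, e5, ← star] at e2
  have e6 : τ D * TS D = τ D * _ := congrArg (τ D * ·) e3
  have a1 := fun {y : ℝ} (hy : 0 ≤ y) (k : ℕ) (hk : k ≤ 5) => u hk hy le_rfl
  have p2 := a1 (mul_nonneg (abs_nonneg (1 - τ D * D.lam ^ 2)) sh.1)
  have p2' := a1 (mul_nonneg (sq_nonneg D.X) sh.1)
  have p3 := a1 (mul_nonneg (pow_nonneg X0 3) s2)
  have p4 := a1 (mul_nonneg (sq_nonneg D.X) (abs_nonneg D.S3))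
  have p5 := a1 (mul_nonneg X0 s4)
  have p6 := a1 (abs_nonneg (TS D))
  have p7 := a1 (mul_nonneg (pow_nonneg X0 4) i0)
  have p7' := a1 (mul_nonneg (mul_nonneg (sq_nonneg D.X) s2) i0)
  have p8 := a1 (mul_nonneg s2 c8)
  have p9 := a1 el
  have p10 := a1 (mul_nonneg (pow_nonneg X0 3) cu)
  have p11 := a1 (sq_nonneg (Ck D fun t => √(D.e t) * |D.del t|))
  have p12 := a1 c3
  have p0 := a1 η0
  have p1 : τ0 / D.n ≤ m ^ 5 * (1 / D.n) := by
    rw [div_eq_mul_one_div]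
    exact mul_le_mul_of_nonneg_right (hτ.trans (le_self_pow₀ P.m1 (by norm_num))) n0
  have tot : |EP D / D.n - C1 D - EM D| ≤ |dT D (omS D)| + Th D + m ^ 5 * (20 * η + 1 / D.n +
      2 * ((|1 - τ D * D.lam ^ 2| + D.X ^ 2) * Shu D) + D.X ^ 3 * D.S2 + D.X ^ 2 * |D.S3| +
      D.X * D.S4 + |TS D| + (D.X ^ 4 + D.X ^ 2 * D.S2) * D.I (fun t => |D.del t|) +
      D.S2 * Ck D (fun t => D.e t * |D.del t|) + Eloc D + D.X ^ 3 * Ck D (D.u 2) +
      Ck D (fun t => √(D.e t) * |D.del t|) ^ 2 + Ck D fun t => D.e t * D.u 3 t) := by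
    have z := fun {y : ℝ} (hy : 0 ≤ y) => mul_nonneg (pow_nonneg m0 5) hy
    have f := And.intro (And.intro (And.intro (p2 0 (by norm_num)) (p2' 4 (by norm_num)))
      (And.intro (p3 2 (by norm_num)) (p4 4 (by norm_num))))
      (And.intro (And.intro (p5 2 (by norm_num)) (p6 1 (by norm_num)))
        (And.intro (p7 2 (by norm_num)) (p7' 4 (by norm_num))))
    have f' := And.intro (And.intro (And.intro (p8 3 (by norm_num)) (p9 3 (by norm_num)))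
      (And.intro (p10 3 (by norm_num)) (p11 3 (by norm_num))))
      (And.intro (And.intro (p12 4 (by norm_num)) (p0 0 (by norm_num)))
        (And.intro (p0 3 (by norm_num)) (p0 4 (by norm_num))))
    have g1 := u' (k := 4) le_rfl sh.1 (sh.2.trans P.m1)
    have g2 := u' (k := 2) (by norm_num) s2 P.s2
    have g3 := u' (k := 4) le_rfl (abs_nonneg _) P.s3
    have g4 := u' (k := 2) (by norm_num) s4 P.s4
    have g5 := u' (k := 4) le_rfl (mul_nonneg s2 i0) ((mul_le_of_le_one_right s2 i1).trans P.s2)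
    have g6 := u' (k := 4) le_rfl s2 P.s2
    have z2 := z (mul_nonneg (abs_nonneg (1 - τ D * D.lam ^ 2)) sh.1)
    have z3 := z (mul_nonneg (pow_nonneg X0 3) s2)
    have z5 := z (mul_nonneg X0 s4)
    have z6 := z (abs_nonneg (TS D))
    have z8 := z (mul_nonneg s2 c8)
    have z9 := z el
    have z10 := z (mul_nonneg (pow_nonneg X0 3) cu)
    have z11 := z (sq_nonneg (Ck D fun t => √(D.e t) * |D.del t|))
    have z12 := z c3
    have z0 := z η0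
    rw [EM, abs_le]
    constructor <;> linarith
  refine tot.trans (add_le_add le_rfl ?_)
  rw [mul_comm 20 (m ^ 5), mul_assoc, EB]
  refine mul_le_mul_of_nonneg_left ?_ (pow_nonneg m0 5)
  linarith [mul_nonneg (add_nonneg (abs_nonneg (1 - τ D * D.lam ^ 2)) (sq_nonneg D.X)) sh.1,
    mul_nonneg (pow_nonneg X0 3) s2, mul_nonneg (sq_nonneg D.X) (abs_nonneg D.S3), mul_nonneg X0 s4,
    abs_nonneg (TS D), mul_nonneg (add_nonneg (pow_nonneg X0 4) (mul_nonneg (sq_nonneg D.X) s2)) i0,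
    mul_nonneg s2 c8, mul_nonneg (pow_nonneg X0 3) cu,
    sq_nonneg (Ck D fun t => √(D.e t) * |D.del t|)]

end terms

/-- **the head (EE)** -/
def HE : Prop := ∀ τ0 : ℝ, ∃ C : ℝ, 0 ≤ C ∧ ∀ (D : CD) (η : ℝ), D.Ok τ0 → Hm D η →
  |EP D / D.n - C1 D - EM D| ≤ |dT D (omS D)| + Th D + C * La D ^ 5 * EB D η

theorem he_of (h0 : H0) (h1 : H1) (h2 : H2) (h3 : H3) (h4 : H4) (h5 : H5) (h6 : H6) (h7 : H7) :
    HE := fun τ0 => by
  obtain ⟨c0, p0, h0⟩ := h0 τ0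
  obtain ⟨c1, p1, h1⟩ := h1 τ0
  obtain ⟨c2, p2, h2⟩ := h2 τ0
  obtain ⟨c3, p3, h3⟩ := h3 τ0
  obtain ⟨c4, p4, h4⟩ := h4 τ0
  obtain ⟨c5, p5, h5⟩ := h5 τ0
  obtain ⟨c6, p6, h6⟩ := h6 τ0
  obtain ⟨c7, p7, h7⟩ := h7 τ0
  obtain ⟨c, hc⟩ : ∃ c, c = 1 + c0 + c1 + c2 + c3 + c4 + c5 + c6 + c7 + |τ0| + τ0 ^ 2 +
    2 * |τ0| ^ 3 + τ0 ^ 4 := ⟨_, rfl⟩
  have a1 := abs_nonneg τ0
  have a2 := sq_nonneg τ0
  have a3 := pow_nonneg a1 3
  have a4 : 0 ≤ τ0 ^ 4 := by positivity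
  refine ⟨20 * c ^ 5, by rw [hc]; positivity, fun D η h H => ?_⟩
  have l1 := La1 h
  have k : ∀ {x : ℝ}, x ≤ c → x ≤ c * La D := fun hx =>
    hx.trans (le_mul_of_one_le_right (by linarith) l1)
  have k' : ∀ {x y z : ℝ}, x ≤ c → 0 ≤ y → z ≤ x * La D * y → z ≤ c * La D * y := fun hx hy hz =>
    hz.trans (mul_le_mul_of_nonneg_right (mul_le_mul_of_nonneg_right hx (by linarith)) hy)
  have k0 : c0 * La D ≤ c * La D := mul_le_mul_of_nonneg_right (by linarith) (by linarith)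
  have X0 := h.X0
  have η0 := H.η0
  have t0 := abs_of_nonneg h.tau0
  rw [t0] at hc a3
  have q0 := h0 D η h H
  refine (ee_pk h H (m := c * La D) ⟨k (by linarith), k (h.tau.trans (by linarith)),
    le_mul_of_one_le_left (by linarith) (by linarith), k ((S2_mem h).2.trans (by linarith)),
    k ((abs_S3 h).trans (by linarith)), k ((S4_mem h).2.trans (by linarith)),
    ⟨q0.1.trans k0, q0.2.1.trans k0, fun t ht => k' (by linarith) (h.dx0 t) (q0.2.2 t ht)⟩,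
    k' (by linarith) (by positivity) (h1 D η h H), k' (by linarith) (by positivity) (h2 D η h H),
    fun t ht => k' (by linarith) ?_ (h3 D η h H t ht),
    fun t ht => k' (by linarith) ?_ (h4 D η h H t ht),
    fun t ht => k' (by linarith) ?_ (h5 D η h H t ht),
    fun t ht t' ht' e => k' (by linarith) ?_ (h6 D η h H t ht t' ht' e),
    fun t ht => k' (by linarith) ?_ (h7 D η h H t ht)⟩ (k (by linarith))).trans_eq (by ring)
  · exact add_nonneg (mul_nonneg η0 (ck0 h ht)) (mul_nonneg (by positivity) (h.dx0 t))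
  · exact mul_nonneg (add_nonneg (h.e0 t) η0) (ck0 h ht)
  · exact mul_nonneg (by positivity) (ck0 h ht)
  · exact mul_nonneg (le_min (h.e0 t) (h.e0 t')) (mul_nonneg (ck0 h ht) (ck0 h ht'))
  · exact mul_nonneg (h.e0 t) (ck0 h ht)

theorem Hm.ct (H : Hm D η) (h : D.Ok τ0) : R85.CT D (τ D) := fun j hj _ =>
  H.tau hj (by have := h.cut; omega)

/-- (EE) in the form of the hypothesis `hE` of `R2a58.alg`; `Op D = τ O` is `R85.St.dP_eq` -/
theorem EM_alg (h : D.Ok τ0) (H : Hm D η) (ht : τ D ≠ 0) {O : ℝ} (hO : Op D = τ D * O) (E : ℝ) :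
    E - EM D = E + 2 * (τ D / 4 * (1 - τ D * D.lam ^ 2) * R85.s2 D) +
      3 * (τ D ^ 3 * D.lam ^ 3 / 6 * R85.s3 D (τ D)) - 6 * (R85.kap D (τ D) / 4 * R85.s4 D) +
      τ D ^ 2 * D.lam / 2 * x1 D * (D.lam ^ 2 * s1 D) * R85.s2 D + Jh D / 2 -
      τ D ^ 3 * D.lam / 2 * (x1 D * (s1 D / τ D) ^ 2 + 3 * R85.s2 D) * O := by
  rw [EM, hO, R85.S1_eq (H.ct h) h.cut, R85.S2_eq (H.ct h) h.cut, R85.S4_eq (H.ct h) h.cut,
    R85.s3, R85.kap]
  field_simp
  ring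

/-- **(EE)**, the hypothesis `hE` of `R2a58.alg` -/
theorem headE (he : HE) (τ0 : ℝ) : ∃ C : ℝ, 0 ≤ C ∧ ∀ (D : CD) (η τ' T : ℝ) (P : ℕ), D.Ok τ0 →
    Hm D η → R85.St D τ' T P →
    |EP D / D.n - C1 D + 2 * (τ' / 4 * (1 - τ' * D.lam ^ 2) * R85.s2 D) +
      3 * (τ' ^ 3 * D.lam ^ 3 / 6 * R85.s3 D τ') - 6 * (R85.kap D τ' / 4 * R85.s4 D) +
      τ' ^ 2 * D.lam / 2 * x1 D * (D.lam ^ 2 * s1 D) * R85.s2 D + Jh D / 2 -
      τ' ^ 3 * D.lam / 2 * (x1 D * (s1 D / τ') ^ 2 + 3 * R85.s2 D) * R85.O D| ≤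
      |dT D (omS D)| + Th D + C * La D ^ 5 * EB D η := by
  obtain ⟨C, h0, hC⟩ := he τ0
  refine ⟨C, h0, fun D η τ' T P h H s => ?_⟩
  obtain rfl : τ D = τ' := s.ct D.K (by have := h.cut; omega) le_rfl
  rw [← EM_alg h H s.pos.ne' (s.dP_eq h (by rw [H.val]; rfl))]
  exact hC D η h H

end Crest.Agent.T156.Cas.C40.E42

end
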