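import Crest.Agent.T156.R2E_42
import Crest.Agent.T156.R2a_58
import Crest.Agent.T156.CIn_12

/-!
# Row 156, R2: the flow defect on the data `CD` (helper42)

`Kc` does not depend on the root tilt; `r2cd` = `R2a58.alg` on the heads (P), (W), (EE).
-/

set_option autoImplicit false
set_option linter.all false

noncomputable section

namespace Crest.Agent.T156.Cas.C40.E42

open MeasureTheory Real Set Filter Topology
open Crest.Agent.T157.E Crest.Agent.T157.Casc Crest.Agent.T157.SL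
open Crest.Agent.T157.G1 (ov)
open Crest.ProbabilityR.SpinGlassDynamics (spin)
open Eul43

section null
variable {Ω : Type} [Fintype Ω] {w : Ω → ℝ} {l : Lv Ω} (hl : ∀ g, l.fld g = 0)
include hl

theorem tE_null (F Φ : (Ω → ℝ) → ℝ) (h : Ω → ℝ) : tE l F Φ h = Φ h := by
  simp only [tE, hl, add_zero, integral_const, probReal_univ, one_smul]
  exact mul_div_cancel_left₀ _ (exp_pos _).ne'

theorem X_null (L : List (Lv Ω)) (h : Ω → ℝ) :
    Crest.Agent.T157.Casc.X w (l :: L) h = Crest.Agent.T157.Casc.X w L h := by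
  simp only [Crest.Agent.T157.Casc.X, step, hl, add_zero, integral_const, probReal_univ, one_smul,
    log_exp]
  split_ifs with h0
  · rfl
  · exact inv_mul_cancel_left₀ h0 _

theorem pi2_null (L : List (Lv Ω)) (j : ℕ) (K : Ω → Ω → ℝ) (h : Ω → ℝ) :
    pi2 w (l :: L) (j + 1) K h = pi2 w L j K h := tE_null hl _ _ h

theorem ins_null (L : List (Lv Ω)) (j : ℕ) (K : Ω → Ω → ℝ) (h : Ω → ℝ) :
    ins w (l :: L) (j + 1) K h = ins w L j K h := by
  simp only [ins, List.getElem?_cons_succ]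
  cases L[j]? with
  | none => rfl
  | some l' =>
    exact congrArg (fun f : ℝ → ℝ => ∫ ρ in (0 : ℝ)..1, f ρ)
      (funext fun ρ => pi2_null hl (Gir68.spl L j l' ρ) (j + 1) K h)

end null

/-- the constant of the flow defect -/
def Kc (D : CD) : ℝ :=
  6 * (Crest.Agent.T157.Casc.X (fun _ => 1) D.S 0 - oC D.n D.β D.M D.q) - C1 D

/-- **`Kc` does not see the root tilt** -/
theorem Kc_root {D D' : CD} {a a' d : ℝ} {M' : List (ℝ × ℝ × ℝ)} (e : D.M = (a, d, 0) :: M')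
    (e' : D'.M = (a', d, 0) :: M') (en : D'.n = D.n) (eβ : D'.β = D.β) (eq : D'.q = D.q)
    (eJ : D'.J = D.J) (J1 : 1 ≤ D.J) (q0 : D.q 0 = 0) (q1 : D.q 1 = 0) : Kc D' = Kc D := by
  obtain ⟨n, β, M, q, J, W, _⟩ := D
  obtain ⟨n', β', M'', q', J', W', _⟩ := D'
  simp only at e e' en eβ eq eJ J1 q0 q1
  subst e e' en eβ eq eJ
  obtain ⟨J, rfl⟩ : ∃ k, J' = k + 1 := ⟨J' - 1, by omega⟩
  obtain ⟨S', hS⟩ : ∃ S', ∀ a, ∃ l : Lv Bool, (∀ g, l.fld g = 0) ∧
      opS n' β' ((a, d, 0) :: M') q' = l :: S' :=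
    ⟨(opS n' β' ((0, d, 0) :: M') q').tail, fun a =>
      ⟨C.sl spin (a, 0 + ((0 + bb n' β' ^ 2 * d) * q' 1 - 0 * q' 0)),
        fun g => funext fun x => by simp [Lv.fld, q0, q1], rfl⟩⟩
  obtain ⟨l, hl, eS⟩ := hS a
  obtain ⟨l', hl', eS'⟩ := hS a'
  have tau : ∀ j, oTau n' β' ((a', d, 0) :: M') j = oTau n' β' ((a, d, 0) :: M') j := fun j => by
    cases j <;> rfl
  have fa : ∀ j, fAcc ((a', d, 0) :: M') j = fAcc ((a, d, 0) :: M') j := fun j => by
    cases j <;> rfl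
  have f1 : fAcc ((a, d, 0) :: M') 1 = 0 := by simp [fAcc]
  have f0 : fAcc ((a, d, 0) :: M') 0 = 0 := rfl
  have ga : ∀ j, pi2 (fun _ => 1) (l' :: S') (j + 1) (fun a b => spin a * spin b) 0 =
      pi2 (fun _ => 1) (l :: S') (j + 1) (fun a b => spin a * spin b) 0 := fun j => by
    rw [pi2_null hl, pi2_null hl']
  have c : oC n' β' ((a', d, 0) :: M') q' = oC n' β' ((a, d, 0) :: M') q' := by
    simp only [oC, tau, List.length_cons]
    congr 2
    refine Finset.sum_congr rfl fun j _ => ?_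
    rcases j with _ | _ | j
    · simp [q0]
    · simp [q1]
    · rfl
  simp only [Kc, C1, CD.S, CD.Gam, x1, τ, CD.τ, CD.sig, CD.K, CD.lo, CD.dx, CD.B, eS, eS', c, tau, fa,
    ga, X_null hl, X_null hl', ins_null hl, ins_null hl', List.length_cons]
  congr 4
  · congr 1
    refine Finset.sum_congr rfl fun j hj => ?_
    rcases j with _ | _ | j
    · simp at hj
    · simp [f1]
    · rw [ga]; rfl
  · congr 1
    refine Finset.sum_congr rfl fun j _ => ?_
    rcases j with _ | j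
    · simp [f1, f0]
    · rw [ins_null hl, ins_null hl']; rfl

variable {D : CD} {τ0 η : ℝ}

theorem oN_le (h : D.Ok τ0) (H : Hm D η) : |oN D.n D.β D.M| ≤ τ0 / D.n := by
  obtain ⟨a, d, M', e, h0⟩ := H.root
  have hn : (0 : ℝ) < D.n := by exact_mod_cast h.pos
  have eK : D.K = M'.length + 1 := by simp [CD.K, e]
  have eτ : bb D.n D.β ^ 2 * d = τ D := by
    rw [τ, eK]; simp only [CD.τ, oTau, e, Kid68.dAcc_root h0]
  have ea : ex D.B 0 = a := by simp only [CD.B, e]; rfl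
  have a0 : 0 ≤ a := ea ▸ h.ex0 0
  have a1 : a ≤ 1 := ea ▸ Tay38.ex_le_one h.mono 0
  have t := h.tau_mem D.K
  have s : (M'.map fun p => p.1 * p.2.1).sum = 0 := List.sum_eq_zero fun x hx => by
    obtain ⟨p, hp, rfl⟩ := List.mem_map.1 hx
    rw [h0 p hp, mul_zero]
  have k : oN D.n D.β D.M = a / 4 * τ D / D.n := by
    rw [oN, e, List.map_cons, List.sum_cons, s, ← eτ, bb_sq]
    field_simp
    ring
  have t0 : 0 ≤ τ D := t.1
  rw [k, abs_of_nonneg (by positivity)]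
  exact div_le_div_of_nonneg_right ((mul_le_of_le_one_left t0 (by linarith)).trans t.2) hn.le

theorem EB0 (h : D.Ok τ0) (H : Hm D η) : 0 ≤ EB D η := by
  have X0 := h.X0
  have η0 := H.η0
  have sh := (Shu_mem h).1
  have s2 := (S2_mem h).1
  have s4 := (S4_mem h).1
  have i0 : 0 ≤ D.I fun t => |D.del t| := h.I0 fun _ _ => abs_nonneg _
  have c8 := Ck0 h (a := fun t => D.e t * |D.del t|) fun t => mul_nonneg (h.e0 t) (abs_nonneg _)
  have cu := Ck0 h (D.u0 2)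
  have c3 := Ck0 h (a := fun t => D.e t * D.u 3 t) fun t => mul_nonneg (h.e0 t) (D.u0 3 t)
  have el : 0 ≤ Eloc D := Finset.sum_nonneg fun t _ => mul_nonneg (add_nonneg
    (mul_nonneg (h.dx0 t) (abs_nonneg _)) (abs_nonneg _)) (D.u0 2 t)
  unfold EB
  positivity

/-- `6 ×` the flow defect -/
def T6 (D : CD) : ℝ := 6 * (Crest.Agent.T157.Casc.X (fun _ => 1) (D.M.map (mxL (D.n + 1) D.β)) 0 -
  Crest.Agent.T157.Casc.X (fun _ => 1) D.B 0) - EP D / D.n
/-- the coefficient (A) -/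
def Aq (D : CD) (τ' : ℝ) : ℝ := 1 - τ' * D.lam ^ 2 + τ' * D.lam * x1 D * (D.lam ^ 2 * s1 D)
/-- the coefficient (B) -/
def Bq (D : CD) (τ' S0 : ℝ) : ℝ := x1 D * (s1 D / τ') ^ 2 - 3 * S0
/-- the main terms of the flow defect -/
def Mn (D : CD) (τ' S0 : ℝ) : ℝ := τ' / 2 * Aq D τ' * R85.s2 D +
  (Jh D - 3 * (τ' * D.lam ^ 2) * R85.sh D) / 2 - τ' ^ 3 * D.lam / 2 * Bq D τ' S0 * R85.O D

/-- **the flow defect on `CD`** -/
theorem r2cd (hV : HV) (hL : HL) (hU : HU) (he : HE) (τ0 : ℝ) : ∃ C : ℝ, 0 ≤ C ∧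
    ∀ (D : CD) (η τ' T S0 tw : ℝ) (P : ℕ), D.Ok τ0 → Hm D η → R85.St D τ' T P → R85.TW D τ' S0 tw →
      |T6 D - Kc D - Mn D τ' S0| ≤
        C * D.Err + 3 / 2 * τ' * (tw * D.N1) + |dT D (omS D)| + Th D + C * La D ^ 5 * EB D η := by
  obtain ⟨c1, p1, h1⟩ := R85.headP hV hU τ0
  obtain ⟨c2, p2, h2⟩ := R85.headW hL τ0
  obtain ⟨c3, p3, h3⟩ := headE he τ0
  refine ⟨6 * c1 + 3 * c2 + c3 + 6 * |τ0|, by positivity, fun D η τ' T S0 tw P h H s w => ?_⟩
  have hW : D.W.isSome = false := by rw [H.val]; rfl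
  have a := h1 D τ' T S0 tw P h hW s w
  rw [← sub_zero D.dP0] at a
  have k := abs_le.1 (R2a58.alg a (h2 D τ' T P h hW s) (h3 D η τ' T P h H s))
  have o := abs_le.1 (oN_le h H)
  have e0 := h.Err0
  have e1 : τ0 / D.n ≤ |τ0| * D.Err := by
    rw [div_eq_mul_one_div, abs_of_nonneg h.tau0]
    exact mul_le_mul_of_nonneg_left (h.n_le.trans (h.E0_le hW)) h.tau0
  have e2 : 0 ≤ La D ^ 5 * EB D η :=
    mul_nonneg (pow_nonneg (zero_le_one.trans (La1 h)) 5) (EB0 h H)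
  have e3 := mul_nonneg p3 e0
  have e4 := mul_nonneg (show 0 ≤ 6 * c1 + 3 * c2 + 6 * |τ0| by positivity) e2
  simp only [CD.dP0] at k
  simp only [T6, Kc, Mn, Aq, Bq]
  exact abs_le.2 ⟨by linarith [k.1, o.1], by linarith [k.2, o.2]⟩

/-! ### on the models `Md` -/

open Alt Alt.CIn12

variable (M : Md) (m : ℕ) (a : ℝ) (ρ : ℕ → ℝ) (J : ℕ) (W : Option (ℕ → ℝ)) (E : Ev)

theorem EP_cd : EP (cd M m a ρ J W E) = M.EP m a :=
  (EE_eq (w := fun _ => 1) (M.root m 0) (M.up m) 0 a).symm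

theorem T6_cd : T6 (cd M m a ρ J W E) = 6 * M.T m a := by
  rw [T6, EP_cd, Md.T, mul_sub 6 (_ - _), mul_comm 6 (_ / _), div_mul_eq_mul_div,
    mul_comm _ (6 : ℝ), mul_div_mul_left _ _ (by norm_num)]
  rfl

theorem Kc_cd (hJ : 1 ≤ J) (hN : 0 < M.N) (a' : ℝ) (W' : Option (ℕ → ℝ)) (E' : Ev) :
    Kc (cd M m a' ρ J W' E') = Kc (cd M m a ρ J W E) :=
  Kc_root (D := cd M m a ρ J W E) (D' := cd M m a' ρ J W' E') rfl rfl rfl rfl rfl rfl hJ
    rfl ((Md67.qx_succ hN).trans (cq_lt hJ))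

end Crest.Agent.T156.Cas.C40.E42

end
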