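import Crest.Agent.T156.R2VD_23
import Crest.Agent.T156.MvC_30

/-!
# Row 156, R2 (helper78): the top zone of the END model, statements

Pass 1 (`GhX`, block Q from the location) and pass 2 (`TopL`, top labels by MVtop and the sandwich).
-/

set_option autoImplicit false

noncomputable section

namespace Crest.Agent.T156.Alt.R2

open Real Finset
open Crest.Agent.T156.Cas Crest.Agent.T156.Cas.C40

variable (p : Pm) (P : Pl) (m : ℕ) (a : ℝ)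

/-- distance of the labels of the node `k` to the top -/
def duE (k : ℕ) : ℝ := 1 - (Me p P).z (k - 1)
/-- the top labels -/
def uc : ℝ := p.s * (p.n : ℝ) ^ (-(1 : ℝ) / 5)
/-- cubic budget -/
def cb (x : ℝ) : ℝ := p.s ^ 5 * (p.n : ℝ) ^ (-x)
/-- `E |R - q k|³` -/
def U3 (k : ℕ) : ℝ := (Me p P).E2 m a (fun R => |R - (Me p P).q k| ^ 3) k

/-- the envelope of the top zone -/
structure GA (G : ℕ → ℝ) : Prop where
  pos : ∀ k ∈ Thi p P, 0 < G k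
  mom : ∀ k ∈ Thi p P, (Me p P).E2 m a (fun R => (R - (Me p P).q k) ^ (2 * 4)) k ≤ G k ^ (2 * 4)
  env : ∀ k ∈ Thi p P, (Me p P).E2 m a (fun R => max (|R - (Me p P).q k| - G k) 0) k ≤
    (p.n : ℝ) ^ (-(2 * (p.A : ℝ) + 5))
  s1 : ∑ k ∈ Thi p P, (Me p P).dz m a k * G k ≤ kk p ^ 5 * (p.s ^ 2 * (p.n : ℝ) ^ (-(13 : ℝ) / 40))
  s2 : ∑ k ∈ Thi p P, (Me p P).dz m a k * G k ^ 2 ≤
    kk p ^ 5 * (p.s ^ 4 * (p.n : ℝ) ^ (-(13 : ℝ) / 20))

/-- pass 1, what the value record reads -/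
def GhA (β : ℝ) : Prop := Sml β fun _ p => ∀ P m a, p.SpOk (7 / 20) P → In p m a →
  ∃ G, GA p P m a G

/-- pass 1, with the cubic sums below the top labels -/
def GhX (β : ℝ) : Prop := Sml β fun _ p => ∀ P m a, p.SpOk (7 / 20) P → In p m a →
  (∃ G, GA p P m a G) ∧ ∃ i, p.J ≤ i ∧ i < p.Jp P ∧ duE p P i ≤ 2 * uc p ∧
    duE p P i * U3 p P m a i ≤ cb p (848 / 1000) ∧
    ∑ k ∈ (Thi p P).filter (· < i), (Me p P).dz m a k * U3 p P m a k ≤ cb p (848 / 1000)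

/-- pass 2, the top labels -/
def TopL (β : ℝ) : Prop := EvA β fun p P m a E =>
  Mv30.IU (D p P m a E) ≤ kk p ^ 8 * (p.s ^ 4 * (p.n : ℝ) ^ (-(13 : ℝ) / 20)) →
  Ex23.R0 (D p P m a E) ≤ kk p ^ 8 * (p.s ^ 4 * (p.n : ℝ) ^ (-(13 : ℝ) / 20)) →
  ∀ i, p.J ≤ i → i < p.Jp P → duE p P i ≤ 2 * uc p →
    ∑ k ∈ Ico i (Me p P).N, (Me p P).dz m a k * U3 p P m a k ≤
      1000 * (duE p P i * U3 p P m a i) + cb p (847 / 1000)

/-- pass 2, what the error table reads -/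
def GhB (β : ℝ) : Prop := EvA β fun p P m a E =>
  Mv30.IU (D p P m a E) ≤ kk p ^ 8 * (p.s ^ 4 * (p.n : ℝ) ^ (-(13 : ℝ) / 20)) →
  Ex23.R0 (D p P m a E) ≤ kk p ^ 8 * (p.s ^ 4 * (p.n : ℝ) ^ (-(13 : ℝ) / 20)) →
  ∑ k ∈ Thi p P, (Me p P).dz m a k * U3 p P m a k ≤ cb p (169 / 200)

theorem GhX.ghA {β : ℝ} (h : GhX β) : GhA β := h.mono fun _ _ H P m a h1 h2 => (H P m a h1 h2).1

end Crest.Agent.T156.Alt.R2

end
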