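import Crest.Agent.T156.EnQ_78
import Crest.Agent.T156.R2GD_78
import Crest.Agent.T156.R2K_30

/-!
# Row 156, R2 (helper90): the body of `GhX` from the envelope of the top zone
-/

set_option autoImplicit false
set_option linter.unusedSectionVars false

noncomputable section

namespace Crest.Agent.T156.Alt.R2.J90

open Real Finset
open Crest.Agent.T156.Alt.Md67 Crest.Agent.T156.Alt.R62

variable {β c0 C0 c η K0 x : ℝ} {A : ℕ} {p : Pm} {P : Pl} {m : ℕ} {a : ℝ} {S : Sc} {G : ℕ → ℝ}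

/-- a plateau node at distance `≍ u` from the top -/
theorem ex_i {M : Md} (cl : Cl S M) {u d : ℝ}
    (mesh : ∀ k, S.J ≤ k → k < S.Jp → M.z k - M.z (k - 1) ≤ d) (ue : S.ue ≤ d) (du' : d ≤ u)
    (hu : 2 * u < 1 / S.C) :
    ∃ i, S.J ≤ i ∧ i < S.Jp ∧ u ≤ 1 - M.z (i - 1) ∧ 1 - M.z (i - 1) ≤ 2 * u := by
  classical
  have i2 := cl.i2
  have i3 := cl.i3
  have at' := cl.atom.2
  have la := cl.last
  have d0 : 0 ≤ d := le_trans (by linarith [cl.leg.z1 (S.Jp - 1)]) ue
  have j1 : S.J < S.Jp := lt_of_le_of_ne i3 fun e => by rw [← e] at la; linarith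
  have hex : ∃ i, 1 - M.z (i - 1) ≤ 2 * u :=
    ⟨S.Jp - 1, by linarith [mesh (S.Jp - 1) (by omega) (by omega)]⟩
  have h1 := Nat.find_spec hex
  have h2 : Nat.find hex ≤ S.Jp - 1 :=
    Nat.find_min' hex (by linarith [mesh (S.Jp - 1) (by omega) (by omega)])
  have h3 : S.J < Nat.find hex := by
    by_contra hc
    linarith [cl.leg.zm (show Nat.find hex - 1 ≤ S.J - 1 by omega)]
  have h4 := Nat.find_min hex (show Nat.find hex - 1 < Nat.find hex by omega)
  exact ⟨_, h3.le, by omega, by linarith [mesh (Nat.find hex - 1) (by omega) (by omega)], h1⟩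

theorem gx_out (H : Reg β c0 C0 A c η K0 p) (hc : c ≤ 1 / 10 ^ 5) (hη : 100 * η ≤ c)
    (cl : Cl S (Me p P)) (hC : S.C ≤ (p.n : ℝ) ^ η) (eJ : S.J = p.J) (eP : S.Jp = p.Jp P)
    (en : S.n = p.n) (eA : S.A = p.A) (Gl : Lg (Me p P) m a)
    (mesh : ∀ k, S.J ≤ k → k < S.Jp → (Me p P).z k - (Me p P).z (k - 1) ≤ (p.n : ℝ) ^ (-(2 : ℝ)))
    (ue : S.ue ≤ (p.n : ℝ) ^ (-(2 : ℝ))) (x0 : 0 < x)
    (hx : x ^ 3 = p.s ^ 4 * (p.n : ℝ) ^ (22 * p.c - 13 / 20))
    (O : Eq78.EO ((p.n : ℝ) ^ η) S (Me p P) m a x G) :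
    (∃ G, GA p P m a G) ∧ ∃ i, p.J ≤ i ∧ i < p.Jp P ∧ duE p P i ≤ 2 * uc p ∧
      duE p P i * U3 p P m a i ≤ cb p (848 / 1000) ∧
      ∑ k ∈ (Thi p P).filter (· < i), (Me p P).dz m a k * U3 p P m a k ≤ cb p (848 / 1000) := by
  have s0 := H.s0
  have N0 := H.N0
  have c0' := H.c_pos
  have η0 := H.η_pos
  have K0' := kk0 H
  have C0' := cl.C0
  have ls := H.lg_s
  have n2 := H.lg_two
  have ln := H.lg_n
  have lk := lg_kk H
  have lC := H.lg_cst cl.C1 hC
  have A2 : (2 : ℝ) ≤ A := by exact_mod_cast H.A2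
  have i2 := cl.i2
  have i3 := cl.i3
  have lx : 3 * logb p.n x = 4 * logb p.n p.s + 22 * c - 13 / 20 := by
    have := congrArg (logb p.n) hx
    rw [logb_pow, logb_mul (by positivity) (by positivity), logb_pow, H.lg_rp, H.hc] at this
    push_cast at this
    linarith
  set Λ := (p.n : ℝ) ^ η with hΛ
  have Λ0 : 0 < Λ := H.Λ0
  have lΛ : logb p.n Λ = η := H.lg_rp η
  have zn : ∀ k ∈ Thi p P, k < S.Jp → k ∈ Eq78.zn S (Me p P) := fun k hk h1 =>
    mem_filter.2 ⟨mem_range.2 h1, by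
      have := not_lt.1 (mem_filter.1 hk).2
      rwa [← eJ] at this⟩
  have d0 := Gl.dz_nonneg
  have u0 : 0 < uc p := mul_pos s0 (H.rp0 _)
  have lu : logb p.n (uc p) = logb p.n p.s - 1 / 5 := by
    rw [uc, logb_mul s0.ne' (H.rp0 _).ne', H.lg_rp]; ring
  have b0 : 0 < cb p (848 / 1000) := mul_pos (pow_pos s0 5) (H.rp0 _)
  have lb : logb p.n (cb p (848 / 1000)) = 5 * logb p.n p.s - 848 / 1000 := by
    rw [cb, logb_mul (pow_pos s0 5).ne' (H.rp0 _).ne', H.lg_rp, logb_pow]; push_cast; ring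
  have half : ∀ {y Z : ℝ}, 0 < y → 0 < Z → logb p.n y + η ≤ logb p.n Z → y ≤ Z / 2 :=
    fun y0 Z0 h => H.le_of_lg y0 (half_pos Z0) (by rw [logb_div Z0.ne' two_ne_zero]; linarith)
  refine ⟨⟨fun k => if k < S.Jp then G k else 2, ?_⟩, ?_⟩
  · have s2 : ∑ k ∈ Thi p P, (Me p P).dz m a k * (if k < S.Jp then G k else 2) ^ 2 ≤
        2 * (Λ * x ^ 3) := by
      rw [← sum_filter_add_sum_filter_not (Thi p P) (· < S.Jp)]
      have a1 : ∑ k ∈ (Thi p P).filter (· < S.Jp), (Me p P).dz m a k *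
          (if k < S.Jp then G k else 2) ^ 2 ≤ Λ * x ^ 3 := by
        rw [sum_congr rfl fun k hk => by rw [if_pos (mem_filter.1 hk).2]]
        exact (sum_le_sum_of_subset_of_nonneg
          (fun k hk => zn k (mem_filter.1 hk).1 (mem_filter.1 hk).2)
          fun k _ _ => mul_nonneg (d0 k) (sq_nonneg _)).trans O.s2
      have a2 : ∑ k ∈ (Thi p P).filter (¬ · < S.Jp), (Me p P).dz m a k *
          (if k < S.Jp then G k else 2) ^ 2 ≤ (p.n : ℝ) ^ (-(2 : ℝ)) * 2 ^ 2 := by
        rw [sum_congr rfl fun k hk => by rw [if_neg (mem_filter.1 hk).2], ← sum_mul]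
        refine mul_le_mul_of_nonneg_right ((sum_le_sum_of_subset_of_nonneg
          (t := Ioc (S.Jp - 1) (Me p P).N) (fun k hk => ?_) fun k _ _ => d0 k).trans ?_)
          (sq_nonneg _)
        · have b1 := (mem_filter.1 hk).2
          have b2 := (mem_Ico.1 (mem_filter.1 (mem_filter.1 hk).1).1).2
          exact mem_Ioc.2 ⟨by omega, b2.le⟩
        · rw [sum_dz cl.leg (by have := cl.i4; omega), cl.leg.zN]
          exact cl.last.trans ue
      have a3 : (p.n : ℝ) ^ (-(2 : ℝ)) * 2 ^ 2 ≤ Λ * x ^ 3 :=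
        H.le_of_lg (by positivity) (by positivity) (by lg_norm; linarith)
      linarith
    have qq : ∀ k, |(Me p P).q k| ≤ 1 := fun k =>
      (abs_of_nonneg (q_nonneg k)).trans_le (q_le_one k)
    refine ⟨fun k hk => ?_, fun k hk => ?_, fun k hk => ?_, ?_, s2.trans
      (H.le_of_lg (by positivity) (by positivity) (by lg_norm; linarith))⟩
    · split_ifs with h1
      exacts [O.pos k (zn k hk h1), two_pos]
    · split_ifs with h1
      · exact O.mom k (zn k hk h1)
      · refine E2_le (fun r hr => ?_) k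
        rw [← (even_two_mul 4).pow_abs]
        exact pow_le_pow_left₀ (abs_nonneg _) (by linarith [abs_sub r ((Me p P).q k), qq k]) _
    · split_ifs with h1
      · refine (O.env k (zn k hk h1)).trans ?_
        rw [CIn12.tlD, en, eA, ← rpow_natCast, ← rpow_neg N0.le, H.hA]
        exact rpow_le_rpow_of_exponent_le H.N1.le (by push_cast; linarith)
      · exact (CIn12.env_triv (by linarith [qq k])).trans (by positivity)
    · have a1 := sum_sq_le_sum_mul_sum_of_sq_le_mul (Thi p P)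
        (r := fun k => (Me p P).dz m a k * (if k < S.Jp then G k else 2))
        (f := (Me p P).dz m a) (g := fun k => (Me p P).dz m a k * (if k < S.Jp then G k else 2) ^ 2)
        (fun k _ => d0 k) (fun k _ => mul_nonneg (d0 k) (sq_nonneg _)) fun k _ => le_of_eq (by ring)
      have a2 : ∑ k ∈ Thi p P, (Me p P).dz m a k ≤ 1 := by
        refine (sum_le_sum_of_subset_of_nonneg (fun k hk => mem_range.2
          (Nat.lt_succ_of_lt (mem_Ico.1 (mem_filter.1 hk).1).2)) fun k _ _ => d0 k).trans ?_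
        rw [sum_dz_all]; linarith [Gl.a0]
      have a3 := mul_le_mul a2 s2 (sum_nonneg fun k _ => mul_nonneg (d0 k) (sq_nonneg _)) zero_le_one
      refine abs_le_of_sq_le_sq' (a1.trans (a3.trans (H.le_of_lg (by positivity) (by positivity)
        ?_))) (by positivity) |>.2
      lg_norm; linarith
  · obtain ⟨i, b1, b2, b3, b4⟩ := ex_i cl (u := uc p) mesh ue
      (H.le_of_lg (H.rp0 _) u0 (by linarith [H.lg_rp (-2)]))
      (((H.le_of_lg (x := 2 * 2 * uc p) (y := 1 / S.C) (by positivity) (by positivity)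
        (by lg_norm; linarith)).trans_lt' (by linarith)))
    set y := √(x ^ 3 / uc p) with hy
    have y0 : 0 < y := by positivity
    have ly : logb p.n y = (3 * logb p.n x - logb p.n (uc p)) / 2 := by rw [hy]; lg_norm
    have iT : i ∈ Thi p P := mem_filter.2 ⟨mem_Ico.2 ⟨by have := jc_lt H; omega,
      b2.trans cl.i4⟩, not_lt.2 (by linarith [cl.sm (eJ ▸ b1), cl.s_nn p.J])⟩
    have pt : ∀ k ∈ Thi p P, k ≤ i → 0 < G k ∧ G k ≤ Λ * (x + y) ∧
        U3 p P m a k ≤ 16 * G k ^ 3 := fun k hk h1 => by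
      have z := zn k hk (h1.trans_lt b2)
      refine ⟨O.pos k z, O.pt k z _ u0 (b3.trans (sub_le_sub_left (cl.leg.zm (by omega)) 1)), ?_⟩
      have := CIn12.mom_pair (q := (Me p P).q k) (i := 3) (O.pos k z) (by norm_num) (O.mom k z)
      rw [sub_self, abs_zero, add_zero] at this
      exact this.trans_eq (by norm_num)
    refine ⟨i, eJ ▸ b1, eP ▸ b2, b4, ?_, ?_⟩
    · obtain ⟨g0, g1, g2⟩ := pt i iT le_rfl
      have a1 : G i ^ 3 ≤ Λ ^ 3 * (4 * (x ^ 3 + y ^ 3)) := by
        refine (pow_le_pow_left₀ g0.le g1 3).trans ?_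
        rw [mul_pow]
        exact mul_le_mul_of_nonneg_left ((add_pow_le x0.le y0.le 3).trans_eq (by norm_num))
          (by positivity)
      have a2 := mul_le_mul b4 (g2.trans (mul_le_mul_of_nonneg_left a1 (by norm_num)))
        (E2_nonneg (fun _ _ => by positivity) i) (by positivity)
      have a3 := half (y := 2 ^ 7 * uc p * Λ ^ 3 * x ^ 3) (by positivity) b0 (by lg_norm; linarith)
      have a4 := half (y := 2 ^ 7 * uc p * Λ ^ 3 * y ^ 3) (by positivity) b0 (by lg_norm; linarith)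
      refine a2.trans ?_
      norm_num at a3 a4 ⊢
      linarith
    · have a1 : ∑ k ∈ (Thi p P).filter (· < i), (Me p P).dz m a k * U3 p P m a k ≤
          16 * (Λ * (x + y)) * ∑ k ∈ (Thi p P).filter (· < i), (Me p P).dz m a k * G k ^ 2 := by
        rw [mul_sum]
        refine sum_le_sum fun k hk => ?_
        obtain ⟨g0, g1, g2⟩ := pt k (mem_filter.1 hk).1 (mem_filter.1 hk).2.le
        have := mul_le_mul_of_nonneg_right g1 (sq_nonneg (G k))
        exact (mul_le_mul_of_nonneg_left (g2.trans (show _ ≤ 16 * (Λ * (x + y) * G k ^ 2) by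
          linarith)) (d0 k)).trans_eq (by ring)
      have a2 := (sum_le_sum_of_subset_of_nonneg (s := (Thi p P).filter (· < i))
        (fun k hk => zn k (mem_filter.1 hk).1 ((mem_filter.1 hk).2.trans b2))
        fun k _ _ => mul_nonneg (d0 k) (sq_nonneg _)).trans O.s2
      have a3 := half (y := 2 ^ 4 * Λ ^ 2 * x ^ 4) (by positivity) b0 (by lg_norm; linarith)
      have a4 := half (y := 2 ^ 4 * Λ ^ 2 * (y * x ^ 3)) (by positivity) b0 (by lg_norm; linarith)
      refine a1.trans ((mul_le_mul_of_nonneg_left a2 (by positivity)).trans ?_)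
      norm_num at a3 a4 ⊢
      linarith

end Crest.Agent.T156.Alt.R2.J90

end
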