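import Crest.Agent.T156.R2GD_78
import Crest.Agent.T156.R2Tp_85
import Crest.Agent.T156.EnQ_78
import Crest.Agent.T156.EnFe_13

/-!
# Row 156, R2 (helper55): the leaf `GhX` from the location and the class statement `EqS`
-/

set_option autoImplicit false
set_option linter.all false

noncomputable section

namespace Crest.Agent.T156.Alt.R2

open Real Finset
open Crest.Agent.T156.Alt.Md67 Crest.Agent.T156.Alt.R62 Crest.Agent.T156.Alt.R62.Eq78

namespace GX55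

section cls
variable {S : Sc} {M : Md} {m : ℕ} {a Λ x : ℝ} {G : ℕ → ℝ}

/-- the envelope extended to the reveal nodes -/
def ext (S : Sc) (G : ℕ → ℝ) (k : ℕ) : ℝ := if k < S.Jp then G k else 2

theorem top_dz (h : Cl S M) (L : Lg M m a) {T : Finset ℕ} (hT : ∀ k ∈ T, k ≤ M.N) :
    ∑ k ∈ T.filter (fun k => ¬ k < S.Jp), M.dz m a k ≤ S.ue := by
  have i2 := h.i2
  have i3 := h.i3
  have i4 := h.i4
  refine (sum_le_sum_of_subset_of_nonneg (t := Ioc (S.Jp - 1) M.N) (fun k hk => ?_)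
    fun k _ _ => L.dz_nonneg k).trans ?_
  · obtain ⟨b, c⟩ := mem_filter.1 hk
    exact mem_Ioc.2 ⟨by omega, hT k b⟩
  · rw [Md67.sum_dz h.leg (by omega), h.leg.zN]
    exact h.last

theorem mem_zn {k : ℕ} (h1 : k < S.Jp) (h2 : T0 S M ≤ M.s k) : k ∈ zn S M :=
  mem_filter.2 ⟨mem_range.2 h1, h2⟩

theorem s2 (h : Cl S M) (L : Lg M m a) (O : EO Λ S M m a x G) {T : Finset ℕ}
    (hT : ∀ k ∈ T, k ≤ M.N ∧ T0 S M ≤ M.s k) :
    ∑ k ∈ T, M.dz m a k * ext S G k ^ 2 ≤ Λ * x ^ 3 + 4 * S.ue := by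
  rw [← sum_filter_add_sum_filter_not T (· < S.Jp)]
  refine add_le_add (le_trans ?_ O.s2) ?_
  · rw [sum_congr rfl (g := fun k => M.dz m a k * G k ^ 2) fun k hk => by
      rw [ext, if_pos (mem_filter.1 hk).2]]
    exact sum_le_sum_of_subset_of_nonneg (fun k hk => mem_zn (mem_filter.1 hk).2
      (hT k (mem_filter.1 hk).1).2) fun k _ _ => mul_nonneg (L.dz_nonneg k) (sq_nonneg _)
  · rw [sum_congr rfl (g := fun k => 4 * M.dz m a k) fun k hk => by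
      rw [ext, if_neg (mem_filter.1 hk).2]; ring, ← mul_sum]
    linarith [top_dz h L fun k hk => (hT k hk).1]

theorem s1 (L : Lg M m a) {T : Finset ℕ} {g : ℕ → ℝ} {y B : ℝ} (y0 : 0 < y) (B1 : 1 ≤ B)
    (h : ∑ k ∈ T, M.dz m a k * g k ^ 2 ≤ B * y ^ 2) : ∑ k ∈ T, M.dz m a k * g k ≤ B * y := by
  refine le_of_mul_le_mul_left (a := 2 * y) ?_ (by positivity)
  have a1 : ∑ k ∈ T, M.dz m a k ≤ 1 := (L.sum_dz_le T).trans (by linarith [L.a0])
  have a2 : 2 * y * ∑ k ∈ T, M.dz m a k * g k ≤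
      ∑ k ∈ T, M.dz m a k * g k ^ 2 + y ^ 2 * ∑ k ∈ T, M.dz m a k := by
    rw [mul_sum, mul_sum, ← sum_add_distrib]
    refine sum_le_sum fun k _ => ?_
    nlinarith [mul_nonneg (L.dz_nonneg k) (sq_nonneg (g k - y))]
  have a3 := mul_le_mul_of_nonneg_left a1 (sq_nonneg y)
  have a4 := mul_le_mul_of_nonneg_right B1 (sq_nonneg y)
  nlinarith

theorem pick (h : Cl S M) {u : ℝ} (h1 : S.ue < u) (h2 : u ≤ 1 / S.C) :
    ∃ i, S.J ≤ i ∧ i < S.Jp ∧ u ≤ du M i ∧ du M (i + 1) < u := by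
  classical
  have ex : ∃ j, S.J ≤ j ∧ du M j < u := ⟨S.Jp, h.i3, h.last.trans_lt h1⟩
  have a1 := Nat.find_spec ex
  have a2 : Nat.find ex ≤ S.Jp := Nat.find_min' ex ⟨h.i3, h.last.trans_lt h1⟩
  have a3 : Nat.find ex ≠ S.J := fun e => by
    have := a1.2
    rw [e, du] at this
    linarith [h.atom.2]
  obtain ⟨i, hi⟩ : ∃ i, Nat.find ex = i + 1 := ⟨Nat.find ex - 1, by have := a1.1; omega⟩
  have a4 := Nat.find_min ex (show i < Nat.find ex by omega)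
  rw [hi] at a1 a2 a3
  have a5 : S.J ≤ i := by have := a1.1; omega
  exact ⟨i, a5, a2, not_lt.1 fun c => a4 ⟨a5, c⟩, a1.2⟩

theorem cub (O : EO Λ S M m a x G) {k : ℕ} (hk : k ∈ zn S M) :
    M.E2 m a (fun R => |R - M.q k| ^ 3) k ≤ 16 * G k ^ 3 := by
  have := CIn12.mom_pair (q := M.q k) (i := 3) (O.pos k hk) (by norm_num) (O.mom k hk)
  rw [sub_self, abs_zero, add_zero] at this
  exact this.trans_eq (by norm_num)

theorem ptw (h : Cl S M) (O : EO Λ S M m a x G) (Λ0 : 0 ≤ Λ) {u w : ℝ} {i k : ℕ} (u0 : 0 < u)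
    (hu : u ≤ du M i) (h1 : x ≤ w) (h2 : √(x ^ 3 / u) ≤ w) (hk : k ∈ zn S M) (ki : k ≤ i) :
    G k ≤ 2 * (Λ * w) := by
  have a1 : du M i ≤ du M k := sub_le_sub_left (h.leg.zm (Nat.sub_le_sub_right ki 1)) 1
  have a2 := mul_le_mul_of_nonneg_left (add_le_add h1 h2) Λ0
  linarith [O.pt k hk u u0 (hu.trans a1)]

theorem cub_sum (h : Cl S M) (L : Lg M m a) (O : EO Λ S M m a x G) (Λ0 : 0 ≤ Λ) {u w : ℝ} {i : ℕ}
    (u0 : 0 < u) (hu : u ≤ du M i) (h1 : x ≤ w) (h2 : √(x ^ 3 / u) ≤ w) {T : Finset ℕ}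
    (hT : ∀ k ∈ T, k ∈ zn S M ∧ k ≤ i) :
    ∑ k ∈ T, M.dz m a k * M.E2 m a (fun R => |R - M.q k| ^ 3) k ≤ 32 * (Λ * w * (Λ * x ^ 3)) := by
  have w0 : 0 ≤ Λ * w := mul_nonneg Λ0 ((sqrt_nonneg _).trans h2)
  refine (sum_le_sum (g := fun k => 32 * (Λ * w * (M.dz m a k * G k ^ 2))) fun k hk => ?_).trans ?_
  · have a1 := mul_le_mul_of_nonneg_left (cub O (hT k hk).1) (L.dz_nonneg k)
    have a2 := mul_le_mul_of_nonneg_right (ptw h O Λ0 u0 hu h1 h2 (hT k hk).1 (hT k hk).2)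
      (mul_nonneg (L.dz_nonneg k) (sq_nonneg (G k)))
    nlinarith
  · rw [← mul_sum, ← mul_sum]
    have := (sum_le_sum_of_subset_of_nonneg (fun k hk => (hT k hk).1) fun k _ _ =>
      mul_nonneg (L.dz_nonneg k) (sq_nonneg (G k))).trans O.s2
    linarith [mul_le_mul_of_nonneg_left this w0]

end cls

variable {β c0 C0 c η K K' : ℝ} {A : ℕ} {p : Pm} {P : Pl} {S : Sc} {m : ℕ} {a x : ℝ}

theorem z_end (h : p.jf < p.J) (hI : p.J < p.Jp P) : (Me p P).z (p.Jp P - 1) = P.x P.I := by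
  show p.zP P (max (p.Jp P - 1) p.jf) = _
  rw [max_eq_left (by omega), Pm.zP, if_neg (by omega), if_pos (by omega)]
  congr 1
  unfold Pm.Jp at *
  omega

variable (H : Reg β c0 C0 A c η K' p) (f : Fe0 K p P S (Me p P))
include H f

theorem sJ : c0 / S.C ≤ (Me p P).s S.J := by
  refine le_trans ?_ (f.cl.s_bds le_rfl).1
  rw [← mul_div_assoc, f.eJ, f.ev]
  exact div_le_div_of_nonneg_right H.ok.base.lo f.cl.C0.le

theorem w3_eq : S.w3 1 = 1 / (p.n * p.κ ^ 7) := by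
  rw [Sc.w3, f.eF, f.en, f.em, Pm.ms, min_eq_right H.ye1, max_eq_right H.r_le_ye, Pm.ye]
  ring

theorem ei (hc : c ≤ 1 / 100000) (hη : 100 * η ≤ c) (hC : S.C ≤ (p.n : ℝ) ^ η)
    (sp : p.SpOk (7 / 20) P) (x0 : 0 < x)
    (lx : 3 * logb p.n x = 4 * logb p.n p.s + 22 * c - 13 / 20)
    (loc : ∑ k ∈ (Ioc p.jf (p.Jp P)).filter fun k => p.ye ≤ (Me p P).s k,
      ((Me p P).z k - (Me p P).z (k - 1)) * (Me p P).del m a k ^ 2 ≤ x ^ 3) :
    EI ((p.n : ℝ) ^ p.c) S (Me p P) m a x ((p.n : ℝ) ^ (-(7 / 20 : ℝ)) / (2 * p.lL))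
      (11 * (p.n : ℝ) ^ (-(7 / 20 : ℝ))) := by
  have h := f.cl
  have N0 := H.N0
  have v0 := H.v0
  have s0 := H.s0
  have k0 := H.κ0
  have y0 := H.ye0
  have L0 := p.lL_pos
  have L6 := p.lL_ge
  have c00 := H.c00
  have C0' := h.C0
  have c0' := H.c_pos
  have η0 := H.η_pos
  have A2 : (2 : ℝ) ≤ A := by exact_mod_cast H.A2
  have ln := H.lg_n
  have lC := H.lg_cst h.C1 hC
  have lv := H.lg_v_le
  have ls := H.lg_s
  have lk := H.lg_κ
  have ly := H.lg_ye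
  have lc : -η ≤ logb p.n c0 := by
    have b := H.lg_le (by positivity) H.c0_le
    rw [one_div, logb_inv] at b; linarith
  have lL : logb p.n p.lL ≤ 2 * η := by
    have := H.lg_mono L0 (p.lL_le (by linarith [H.N3]))
    have l1 := H.log1
    rw [logb_mul (by norm_num) (by positivity)] at this
    linarith [H.lg_log.2, (H.lg_num (x := 18) (by norm_num) (by norm_num)).2]
  have nm : ∀ x : ℝ, 1 ≤ x → x ≤ 1000 → 0 ≤ logb p.n x ∧ logb p.n x ≤ η := fun x => H.lg_num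
  have n2 := nm 2 (by norm_num) (by norm_num)
  have n4 := nm 4 (by norm_num) (by norm_num)
  have n11 := nm 11 (by norm_num) (by norm_num)
  have n64 := nm 64 (by norm_num) (by norm_num)
  have n129 := nm 129 (by norm_num) (by norm_num)
  have mo : ∀ {x y : ℝ}, 0 < x → 0 < y → logb p.n x ≤ logb p.n y → x ≤ y := H.le_of_lg
  have sJ := sJ H f
  have i2 := h.i2
  have i3 := h.i3
  have eu := f.u0
  have d1 := f.d1
  have spr := f.spr
  have lE : logb p.n ((p.n : ℝ) ^ p.c) = c := by rw [H.lg_rp, H.hc]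
  have E0 := H.rp0 p.c
  have lg := H.lg_rp (-(7 / 20 : ℝ))
  have g0 := H.rp0 (-(7 / 20 : ℝ))
  generalize (p.n : ℝ) ^ p.c = E at *
  generalize (p.n : ℝ) ^ (-(7 / 20 : ℝ)) = g at *
  have u0 : 0 < S.u0 := by rw [eu]; positivity
  have y1 : 64 * p.ye ≤ c0 / S.C := mo (by positivity) (by positivity) (by lg_norm; linarith)
  refine ⟨x0, mo (by positivity) one_pos (by lg_norm; linarith), ?_, ?_, ?_, u0, ?_,
    mo (by positivity) (by positivity) (by lg_norm; linarith), by linarith, fun k h1 h2 => ?_,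
    fun k h1 h2 => ?_, ?_, f.dj.2, f.rev, ?_, ?_, le_trans ?_ loc⟩
  · rw [f.ev]; exact mo v0 (by positivity) (by lg_norm; linarith)
  · rw [f.ue]; exact mo (by positivity) (by positivity) (by lg_norm; rw [ln]; linarith)
  · have b0 : 0 < p.s * (p.n : ℝ) ^ (p.c / 13 - 1 / 6) := by positivity
    have b1 : 129 * (p.s * (p.n : ℝ) ^ (p.c / 13 - 1 / 6)) ≤ c0 / S.C :=
      mo (by positivity) (by positivity) (by lg_norm; rw [ln, H.hc]; linarith)
    linarith [f.sj]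
  · rw [eu, div_le_iff₀ L0]
    nlinarith
  · have b := (h.ckm k (h.j0_lt.le.trans h1) h2).2
    have e : ∀ j, (Me p P).ck j = (Me p P).q j := fun j => by
      show p.qP P 1 p.ye j + P.rs _ = p.qP P 1 p.ye j
      rw [sp.rs]; simp
    rwa [e, e] at b
  · have b1 : p.xs ≤ (Me p P).z (k - 1) := f.ex ▸ h.leg.zm (Nat.sub_le_sub_right h1 1)
    have b2 : (Me p P).z (k - 1) ≤ (Me p P).z (p.Jp P - 1) :=
      h.leg.zm (Nat.sub_le_sub_right (f.eP ▸ h2.le) 1)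
    rw [z_end (by rw [← f.el, ← f.eJ]; omega) (by rw [← f.eP, ← f.eJ]; omega)] at b2
    have b3 := d1 _ b1 (by linarith [sp.e1])
    rw [R62.ls, R62.dl, R62.du, f.ex]
    exact ⟨b3.1, by linarith [b3.2]⟩
  · rw [f.ev]; exact mo (by positivity) (by positivity) (by lg_norm; linarith)
  · rw [w3_eq H f, eu]; exact mo (by positivity) (by positivity) (by lg_norm; linarith)
  · rw [w3_eq H f]; exact mo (by positivity) (by positivity) (by lg_norm; linarith)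
  · refine sum_le_sum_of_subset_of_nonneg (fun k hk => ?_) fun k _ _ =>
      mul_nonneg (sub_nonneg.2 (h.leg.zm (Nat.sub_le _ _))) (sq_nonneg _)
    rw [← f.el, ← f.eP]
    rcases mem_union.1 hk with b | b
    · obtain ⟨b1, b2, -⟩ := mem_filter.1 b
      have := mem_Ioo.1 b1
      rw [T0] at b2
      exact mem_filter.2 ⟨mem_Ioc.2 ⟨this.1, by omega⟩, by linarith⟩
    · have := mem_Icc.1 b
      exact mem_filter.2 ⟨mem_Ioc.2 ⟨by omega, this.2⟩, by linarith [h.sm this.1]⟩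

theorem out (hc : c ≤ 1 / 100000) (hη : 100 * η ≤ c) (hC : S.C ≤ (p.n : ℝ) ^ η) (hi : In p m a)
    (x0 : 0 < x) (lx : 3 * logb p.n x = 4 * logb p.n p.s + 22 * c - 13 / 20) {G : ℕ → ℝ}
    (O : EO ((p.n : ℝ) ^ η) S (Me p P) m a x G) :
    (∃ G, GA p P m a G) ∧ ∃ i, p.J ≤ i ∧ i < p.Jp P ∧ duE p P i ≤ 2 * uc p ∧
      duE p P i * U3 p P m a i ≤ cb p (848 / 1000) ∧
      ∑ k ∈ (Thi p P).filter (· < i), (Me p P).dz m a k * U3 p P m a k ≤ cb p (848 / 1000) := by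
  have h := f.cl
  have L : Lg (Me p P) m a := lg_cl h h.n1
    ⟨f.en ▸ hi.m1, f.en ▸ hi.m2, f.en ▸ hi.a1, f.ea ▸ hi.a2⟩
  have N0 := H.N0
  have s0 := H.s0
  have K0 := kk0 H
  have C0' := h.C0
  have c0' := H.c_pos
  have η0 := H.η_pos
  have Λ0 := H.Λ0
  have ln := H.lg_n
  have lC := H.lg_cst h.C1 hC
  have ls := H.lg_s
  have lK := lg_kk H
  have lΛ := H.lg_rp η
  have nm : ∀ x : ℝ, 1 ≤ x → x ≤ 1000 → 0 ≤ logb p.n x ∧ logb p.n x ≤ η := fun x => H.lg_num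
  have n2 := nm 2 (by norm_num) (by norm_num)
  have n8 := nm 8 (by norm_num) (by norm_num)
  have n32 := nm 32 (by norm_num) (by norm_num)
  have n256 := nm 256 (by norm_num) (by norm_num)
  have mo : ∀ {x y : ℝ}, 0 < x → 0 < y → logb p.n x ≤ logb p.n y → x ≤ y := H.le_of_lg
  have u0 : 0 < uc p := mul_pos s0 (H.rp0 _)
  have b0 : 0 < cb p (848 / 1000) := mul_pos (pow_pos s0 _) (H.rp0 _)
  have lu : logb p.n (uc p) = logb p.n p.s - 1 / 5 := by
    rw [uc, logb_mul s0.ne' (H.rp0 _).ne', H.lg_rp]; ring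
  have lb : logb p.n (cb p (848 / 1000)) = 5 * logb p.n p.s - 848 / 1000 := by
    rw [cb, logb_mul (pow_pos s0 _).ne' (H.rp0 _).ne', H.lg_rp, logb_pow]; push_cast; ring
  have e0 : 0 < S.ue := f.ue ▸ H.rp0 _
  have le : logb p.n S.ue = -2 := by rw [f.ue, H.lg_rp]
  obtain ⟨w, lw, w0⟩ : ∃ w, logb p.n w = 4 / 3 * logb p.n p.s + 11 * c - 2162 / 10000 ∧ 0 < w :=
    ⟨_, H.lg_rp _, H.rp0 _⟩
  have xw : x ≤ w := mo x0 w0 (by linarith)
  have yw : √(x ^ 3 / uc p) ≤ w := mo (by positivity) w0 (by lg_norm; linarith)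
  have hT : ∀ k ∈ Thi p P, k ≤ (Me p P).N ∧ T0 S (Me p P) ≤ (Me p P).s k := fun k hk => by
    obtain ⟨b1, b2⟩ := mem_filter.1 hk
    rw [T0, f.eJ]
    exact ⟨(mem_Ico.1 b1).2.le, not_lt.1 b2⟩
  have q1 : ∀ k, |(Me p P).q k| ≤ 1 := fun k =>
    abs_le.2 ⟨by linarith [q_nonneg (M := Me p P) k], q_le_one k⟩
  constructor
  · have y0 : 0 < p.s ^ 2 * (p.n : ℝ) ^ (-(13 : ℝ) / 40) := by positivity
    have ey : p.s ^ 4 * (p.n : ℝ) ^ (-(13 : ℝ) / 20) =
        (p.s ^ 2 * (p.n : ℝ) ^ (-(13 : ℝ) / 40)) ^ 2 := by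
      rw [mul_pow, Pre29.rp_pow, ← pow_mul]; norm_num
    have a1 : 2 * ((p.n : ℝ) ^ η * x ^ 3) ≤ kk p ^ 5 * (p.s ^ 4 * (p.n : ℝ) ^ (-(13 : ℝ) / 20)) :=
      mo (by positivity) (by positivity) (by lg_norm; rw [ln]; linarith)
    have a2 : 8 * S.ue ≤ kk p ^ 5 * (p.s ^ 4 * (p.n : ℝ) ^ (-(13 : ℝ) / 20)) :=
      mo (by positivity) (by positivity) (by lg_norm; rw [ln]; linarith)
    have a3 : ∑ k ∈ Thi p P, (Me p P).dz m a k * ext S G k ^ 2 ≤
        kk p ^ 5 * (p.s ^ 4 * (p.n : ℝ) ^ (-(13 : ℝ) / 20)) := by linarith [s2 h L O hT]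
    have a4 : 1 ≤ kk p ^ 5 := mo one_pos (by positivity) (by lg_norm; linarith)
    refine ⟨ext S G, fun k hk => ?_, fun k hk => ?_, fun k hk => ?_, s1 L y0 a4 (ey ▸ a3), a3⟩ <;>
      unfold ext <;> split_ifs with b
    · exact O.pos k (mem_zn b (hT k hk).2)
    · norm_num
    · exact O.mom k (mem_zn b (hT k hk).2)
    · refine E2_le (fun r hr => ?_) k
      rw [← (even_two_mul 4).pow_abs]
      exact pow_le_pow_left₀ (abs_nonneg _) (by linarith [abs_sub r ((Me p P).q k), q1 k]) _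
    · refine (O.env k (mem_zn b (hT k hk).2)).trans ?_
      have A2 : (2 : ℝ) ≤ p.A := by rw [H.hA]; exact_mod_cast H.A2
      rw [CIn12.tlD, f.en, f.eA, ← rpow_natCast, ← rpow_neg N0.le]
      refine rpow_le_rpow_of_exponent_le H.N1.le ?_
      push_cast
      linarith
    · exact (CIn12.env_triv (by linarith [q1 k])).trans (H.rp0 _).le
  · have a1 : 2 * S.ue ≤ uc p := mo (by positivity) u0 (by lg_norm; linarith)
    obtain ⟨i, i1, i2, i3, i4⟩ := pick h (u := uc p) (by linarith)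
      (mo u0 (by positivity) (by lg_norm; linarith))
    have a2 : duE p P i ≤ 2 * uc p := by
      have := f.mesh i i1 i2
      rw [← f.ue] at this
      rw [du, Nat.add_sub_cancel] at i4
      rw [duE]
      linarith
    have a3 : i ∈ zn S (Me p P) := mem_zn i2 (by
      rw [T0]; linarith [h.sm i1, h.s_nn S.J])
    refine ⟨i, f.eJ ▸ i1, f.eP ▸ i2, a2, ?_, ?_⟩
    · have a4 := pow_le_pow_left₀ (O.pos i a3).le (ptw h O Λ0.le u0 i3 xw yw a3 le_rfl) 3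
      have a5 : U3 p P m a i ≤ 16 * (2 * ((p.n : ℝ) ^ η * w)) ^ 3 :=
        (cub O a3).trans (by linarith)
      have a6 : 256 * (uc p * ((p.n : ℝ) ^ η * w) ^ 3) ≤ cb p (848 / 1000) :=
        mo (by positivity) b0 (by lg_norm; rw [ln]; linarith)
      have a7 := mul_le_mul a2 a5 (E2_nonneg (fun _ _ => by positivity) i) (by positivity)
      linarith
    · refine (cub_sum h L O Λ0.le u0 i3 xw yw fun k hk => ?_).trans
        (mo (by positivity) b0 (by lg_norm; rw [ln]; linarith))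
      obtain ⟨b1, b2⟩ := mem_filter.1 hk
      exact ⟨mem_zn (b2.trans i2) (hT k b1).2, b2.le⟩

end GX55

/-- **`GhX`** -/
theorem ghX_of {β : ℝ} (hβ : 1 < β) (hL : LocT β) (hE : EqS) : GhX β := by
  refine Sml.glueCL hβ (feE hβ) hL hE (fun K => 8 * K ^ 2) (fun c => c) (fun c hc => hc)
    fun K hK c0 C0 _ _ => ⟨5, fun A hA => ⟨1 / 100000, by norm_num, fun c hc c0' =>
      ⟨c / 100, by positivity, fun η hη _ => ⟨8 * K ^ 2, fun p H hf hs L P m a sp hi => ?_⟩⟩⟩⟩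
  have f := hf (H.hA ▸ hA) P sp
  have hη' : 100 * η ≤ c := by linarith
  have hC := f.eC.trans_le H.K_le
  have s0 := H.s0
  have N0 := H.N0
  have Y0 : 0 < p.s ^ 4 * (p.n : ℝ) ^ (22 * p.c - 13 / 20) := by positivity
  obtain ⟨x, x0, hx⟩ : ∃ x : ℝ, 0 < x ∧ x ^ 3 = p.s ^ 4 * (p.n : ℝ) ^ (22 * p.c - 13 / 20) :=
    ⟨_, rpow_pos_of_pos Y0 _, rpow_inv_natCast_pow Y0.le (by norm_num)⟩
  have lx : 3 * logb p.n x = 4 * logb p.n p.s + 22 * c - 13 / 20 := by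
    have : logb p.n (x ^ 3) = 4 * logb p.n p.s + 22 * c - 13 / 20 := by
      rw [hx]; lg_norm; rw [H.lg_n, H.hc]; ring
    rw [logb_pow] at this
    exact_mod_cast this
  obtain ⟨G, O⟩ := L _ _ f.eC f.eA f.en f.cl m a ⟨hi.m1, hi.m2, hi.a1, hi.a2⟩ x _ _
    (GX55.ei H f hc hη' hC sp x0 lx (hx ▸ hs P m a sp hi))
  exact GX55.out H f hc hη' hC hi x0 lx O

end Crest.Agent.T156.Alt.R2

end
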