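import Crest.Agent.T156.R2GD_78
import Crest.Agent.T156.EnQ_78
import Crest.Agent.T156.EnFe_13
import Crest.Agent.T156.R2K_30

/-!
# Row 156, R2 (helper30): from the envelope of the top zone to `GhX`
-/

set_option autoImplicit false
set_option linter.unusedSectionVars false

noncomputable section

namespace Crest.Agent.T156.Alt.R2.Gy30

open Real Finset
open Crest.Agent.T156.Cas Crest.Agent.T156.Cas.C40 Md67 CIn12
open Crest.Agent.T156.Alt.R62 Crest.Agent.T156.Alt.R62.Eq78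

section cls

variable {S : Sc} {M : Md} {m : ℕ} {a x Λ : ℝ} {G : ℕ → ℝ} (h : Cl S M) (L : Lg M m a)
  (O : EO Λ S M m a x G) {T : Finset ℕ} (hT : ∀ k ∈ T, k < M.N ∧ T0 S M ≤ M.s k)
include h L O hT

/-- the envelope, crude above the plateau -/
def Gt (S : Sc) (G : ℕ → ℝ) (k : ℕ) : ℝ := if k < S.Jp then G k else 2

theorem zn_of {k : ℕ} (hk : k ∈ T) (h1 : k < S.Jp) : k ∈ zn S M :=
  mem_filter.2 ⟨mem_range.2 h1, (hT k hk).2⟩

theorem pos {k : ℕ} (hk : k ∈ T) : 0 < Gt S G k := by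
  unfold Gt; split_ifs with c
  exacts [O.pos k (zn_of h L O hT hk c), two_pos]

theorem mom {k : ℕ} (hk : k ∈ T) :
    M.E2 m a (fun R => (R - M.q k) ^ (2 * 4)) k ≤ Gt S G k ^ (2 * 4) := by
  unfold Gt; split_ifs with c
  · exact O.mom k (zn_of h L O hT hk c)
  · refine E2_le (fun r hr => (le_abs_self _).trans ?_) k
    rw [abs_pow]
    refine pow_le_pow_left₀ (abs_nonneg _) (abs_le.2 ⟨?_, ?_⟩) _
    · linarith [(abs_le.1 hr).1, Cl.q_le_one (M := M) k]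
    · linarith [(abs_le.1 hr).2, h.q_nn (hT k hk).1.le]

theorem env {k : ℕ} (hk : k ∈ T) :
    M.E2 m a (fun R => max (|R - M.q k| - Gt S G k) 0) k ≤ tlD S 3 := by
  unfold Gt; split_ifs with c
  · exact O.env k (zn_of h L O hT hk c)
  · refine (env_triv ?_).trans (tlD_nn S 3)
    rw [abs_of_nonneg (h.q_nn (hT k hk).1.le)]; linarith [Cl.q_le_one (M := M) k]

theorem top : ∑ k ∈ T.filter (fun k => ¬ k < S.Jp), M.dz m a k ≤ S.ue := by
  have j := h.jl_lt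
  have i3 := h.i3
  have i4 := h.i4
  refine (sum_le_sum_of_subset_of_nonneg (t := Ioc (S.Jp - 1) M.N) (fun k hk => ?_)
    fun k _ _ => L.dz_nonneg k).trans ?_
  · have a1 := (hT k (mem_filter.1 hk).1).1
    have a2 := (mem_filter.1 hk).2
    exact mem_Ioc.2 ⟨by omega, by omega⟩
  · rw [sum_dz h.leg (by omega), h.leg.zN]; exact h.last

theorem lo2 {U : Finset ℕ} (hU : ∀ k ∈ U, k ∈ T ∧ k < S.Jp) :
    ∑ k ∈ U, M.dz m a k * G k ^ 2 ≤ Λ * x ^ 3 :=
  (sum_le_sum_of_subset_of_nonneg (fun k hk => zn_of h L O hT (hU k hk).1 (hU k hk).2)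
    fun k _ _ => mul_nonneg (L.dz_nonneg k) (sq_nonneg _)).trans O.s2

theorem s2 : ∑ k ∈ T, M.dz m a k * Gt S G k ^ 2 ≤ Λ * x ^ 3 + 4 * S.ue := by
  rw [← sum_filter_add_sum_filter_not T (· < S.Jp)]
  refine add_le_add (le_trans (le_of_eq (sum_congr rfl fun k hk => ?_))
    (lo2 h L O hT (U := T.filter (· < S.Jp)) fun k hk => mem_filter.1 hk))
    (le_trans (le_of_eq ?_) (mul_le_mul_of_nonneg_left (top h L O hT) (by norm_num)))
  · rw [Gt, if_pos (mem_filter.1 hk).2]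
  · rw [mul_sum]
    exact sum_congr rfl fun k hk => by rw [Gt, if_neg (mem_filter.1 hk).2]; ring

theorem s1 (a0 : 0 ≤ a) {y : ℝ} (y0 : 0 < y) (hy : Λ * x ^ 3 + 4 * S.ue ≤ y ^ 2) :
    ∑ k ∈ T, M.dz m a k * Gt S G k ≤ y := by
  have b1 := (s2 h L O hT).trans hy
  have b2 := L.sum_dz_le T
  refine le_of_mul_le_mul_left ?_ (show 0 < 2 * y by positivity)
  calc _ ≤ ∑ k ∈ T, (M.dz m a k * Gt S G k ^ 2 + y ^ 2 * M.dz m a k) := by
        rw [mul_sum]
        exact sum_le_sum fun k _ => by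
          nlinarith [mul_nonneg (L.dz_nonneg k) (sq_nonneg (Gt S G k - y))]
    _ ≤ _ := by
        rw [sum_add_distrib, ← mul_sum]
        nlinarith [mul_le_mul_of_nonneg_left (b2.trans (sub_le_self 1 a0)) (sq_nonneg y)]

omit hT in
theorem u3 {k : ℕ} (hk : k ∈ zn S M) :
    M.E2 m a (fun R => |R - M.q k| ^ 3) k ≤ 16 * G k ^ 3 := by
  have := mom_pair (q := M.q k) (i := 3) (O.pos k hk) (by norm_num) (O.mom k hk)
  rw [sub_self, abs_zero, add_zero] at this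
  exact this.trans_eq (by norm_num)

/-- the cubic sums below the top labels -/
theorem cub {u : ℝ} (u0 : 0 < u) (hu : u ≤ 1 / S.C) (ue : S.ue < u)
    (mesh : ∀ k, S.J ≤ k → k < S.Jp → M.z k - M.z (k - 1) ≤ u) :
    ∃ i, S.J ≤ i ∧ i < S.Jp ∧ du M i ≤ 2 * u ∧
      du M i * M.E2 m a (fun R => |R - M.q i| ^ 3) i ≤ 32 * (u * (Λ * (x + √(x ^ 3 / u))) ^ 3) ∧
      ∑ k ∈ T.filter (· < i), M.dz m a k * M.E2 m a (fun R => |R - M.q k| ^ 3) k ≤
        16 * (Λ * (x + √(x ^ 3 / u)) * (Λ * x ^ 3)) := by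
  have j := h.jl_lt
  have i3 := h.i3
  have dJ : u ≤ du M S.J := by rw [du]; linarith [h.atom.2]
  have dP : du M S.Jp < u := lt_of_le_of_lt h.last ue
  have JJ : S.J < S.Jp := lt_of_le_of_ne i3 fun e => by rw [e] at dJ; linarith
  have ex : ∃ i, S.J ≤ i ∧ du M (i + 1) < u :=
    ⟨S.Jp - 1, by omega, by rwa [show S.Jp - 1 + 1 = S.Jp by omega]⟩
  obtain ⟨iJ, i1⟩ := Nat.find_spec ex
  have iP : Nat.find ex ≤ S.Jp - 1 :=
    Nat.find_min' ex ⟨by omega, by rwa [show S.Jp - 1 + 1 = S.Jp by omega]⟩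
  have i2 : u ≤ du M (Nat.find ex) := by
    rcases iJ.eq_or_lt with e | e
    · rwa [← e]
    · have := Nat.find_min ex (m := Nat.find ex - 1) (by omega)
      rw [show Nat.find ex - 1 + 1 = Nat.find ex by omega] at this
      exact not_lt.1 fun c => this ⟨by omega, c⟩
  generalize Nat.find ex = i at iJ i1 iP i2
  have ip : i < S.Jp := by omega
  have d2 : du M i ≤ 2 * u := by
    have := mesh i iJ ip
    rw [du] at i1 ⊢
    rw [Nat.add_sub_cancel] at i1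
    linarith
  have iz : i ∈ zn S M := mem_filter.2 ⟨mem_range.2 ip, by
    have := h.sm iJ
    have := h.s_nn S.J
    rw [T0]; linarith⟩
  have g : ∀ k ∈ zn S M, k ≤ i → G k ≤ Λ * (x + √(x ^ 3 / u)) := fun k hk ki =>
    O.pt k hk u u0 (i2.trans (by
      rw [du, du]; linarith [h.leg.zm (show k - 1 ≤ i - 1 by omega)]))
  have g0 := (O.pos i iz).le
  refine ⟨i, iJ, ip, d2, ?_, ?_⟩
  · have b := (u3 h L O iz).trans (mul_le_mul_of_nonneg_left
      (pow_le_pow_left₀ g0 (g i iz le_rfl) 3) (by norm_num))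
    have c0 := g0.trans (g i iz le_rfl)
    calc _ ≤ du M i * (16 * (Λ * (x + √(x ^ 3 / u))) ^ 3) :=
          mul_le_mul_of_nonneg_left b (u0.le.trans i2)
      _ ≤ 2 * u * (16 * (Λ * (x + √(x ^ 3 / u))) ^ 3) :=
          mul_le_mul_of_nonneg_right d2 (by positivity)
      _ = _ := by ring
  · have c0 := g0.trans (g i iz le_rfl)
    have hU : ∀ k ∈ T.filter (· < i), k ∈ T ∧ k < S.Jp := fun k hk =>
      ⟨(mem_filter.1 hk).1, (mem_filter.1 hk).2.trans ip⟩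
    refine le_trans ?_ (mul_le_mul_of_nonneg_left
      (mul_le_mul_of_nonneg_left (lo2 h L O hT hU) c0) (by norm_num))
    rw [mul_sum, mul_sum]
    refine sum_le_sum fun k hk => ?_
    have kz := zn_of h L O hT (hU k hk).1 (hU k hk).2
    have b1 := mul_le_mul_of_nonneg_left (u3 h L O kz) (L.dz_nonneg k)
    have b2 := mul_le_mul_of_nonneg_right (g k kz (mem_filter.1 hk).2.le)
      (mul_nonneg (L.dz_nonneg k) (sq_nonneg (G k)))
    nlinarith

end cls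

variable {β c0 C0 c η K₀ K : ℝ} {A : ℕ} {p : Pm} {P : Pl} {m : ℕ} {a x : ℝ} {S : Sc} {G : ℕ → ℝ}
  (H : Reg β c0 C0 A c η K₀ p)
include H

theorem k1 {a b : ℝ} (ha : 0 < a) (hb : 0 < b) (h : η + logb p.n a ≤ logb p.n b) :
    1000 * a ≤ b := by
  have L := H.Λ0
  refine (mul_le_mul_of_nonneg_right H.num_le ha.le).trans (H.le_of_lg (by positivity) hb ?_)
  rwa [logb_mul L.ne' ha.ne', H.lg_rp]

/-- **output half of `ghX_of`** -/
theorem out' (hc : c ≤ 1 / 10 ^ 5) (hη : 1000 * η ≤ c) (h : Cl S (Me p P))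
    (hC : S.C ≤ (p.n : ℝ) ^ η) (eJ : S.J = p.J) (eP : S.Jp = p.Jp P) (en : S.n = p.n)
    (eA : S.A = p.A) (ea : S.amax = p.am) (hi : In p m a)
    (mesh : ∀ k, S.J ≤ k → k < S.Jp →
      (Me p P).z k - (Me p P).z (k - 1) ≤ (p.n : ℝ) ^ (-(2 : ℝ)))
    (ue : S.ue ≤ (p.n : ℝ) ^ (-(2 : ℝ))) (x0 : 0 < x)
    (hx : x ^ 3 = p.s ^ 4 * (p.n : ℝ) ^ (22 * p.c - 13 / 20))
    (O : EO ((p.n : ℝ) ^ η) S (Me p P) m a x G) :
    (∃ G, GA p P m a G) ∧ ∃ i, p.J ≤ i ∧ i < p.Jp P ∧ duE p P i ≤ 2 * uc p ∧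
      duE p P i * U3 p P m a i ≤ cb p (848 / 1000) ∧
      ∑ k ∈ (Thi p P).filter (· < i), (Me p P).dz m a k * U3 p P m a k ≤ cb p (848 / 1000) := by
  have L : Lg (Me p P) m a := lg_cl h (en ▸ H.n0) ⟨en ▸ hi.m1, en ▸ hi.m2, en ▸ hi.a1, ea ▸ hi.a2⟩
  have hT : ∀ k ∈ Thi p P, k < (Me p P).N ∧ T0 S (Me p P) ≤ (Me p P).s k := fun k hk =>
    ⟨(mem_Ico.1 (mem_filter.1 hk).1).2, by rw [T0, eJ]; exact not_lt.1 (mem_filter.1 hk).2⟩
  have n0 := H.N0
  have s0 := H.s0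
  have k0 := kk0 H
  have Λ0 := H.Λ0
  have C0' := h.C0
  have ln := H.lg_n
  have lk := lg_kk H
  have cp := H.c_pos
  have ηp := H.η_pos
  obtain ⟨σ0, σ1⟩ := H.lg_s
  have lC := H.lg_le C0' hC
  have lx : 3 * logb p.n x = 4 * logb p.n p.s + (22 * c - 13 / 20) := by
    have := congrArg (logb p.n) hx
    rw [logb_mul (by positivity) (by positivity), logb_pow, logb_pow, H.lg_rp, H.hc] at this
    exact_mod_cast this
  have u0 : 0 < uc p := by unfold uc; positivity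
  have lu : logb p.n (uc p) = logb p.n p.s - 1 / 5 := by
    rw [uc, logb_mul (by positivity) (by positivity), H.lg_rp]; ring
  have b0 : 0 < cb p (848 / 1000) := by unfold cb; positivity
  have lb : logb p.n (cb p (848 / 1000)) = 5 * logb p.n p.s - 848 / 1000 := by
    rw [cb, logb_mul (by positivity) (by positivity), logb_pow, H.lg_rp]; push_cast; ring
  have lΛ := H.lg_rp η
  have h0 : 0 < (p.n : ℝ) ^ (-(2 : ℝ)) := by positivity
  have lh := H.lg_rp (-(2 : ℝ))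
  have y1 : 0 < (p.n : ℝ) ^ (-(13 : ℝ) / 40) := by positivity
  have l1 := H.lg_rp (-(13 : ℝ) / 40)
  have y2 : 0 < (p.n : ℝ) ^ (-(13 : ℝ) / 20) := by positivity
  have l2 := H.lg_rp (-(13 : ℝ) / 20)
  have tl : tlD S 3 ≤ (p.n : ℝ) ^ (-(2 * (p.A : ℝ) + 5)) := by
    have A2 : (2 : ℝ) ≤ p.A := by exact_mod_cast H.hA ▸ H.A2
    rw [tlD, en, eA]
    refine H.le_of_lg (by positivity) (by positivity) ?_
    rw [logb_inv, logb_pow, ln, H.lg_rp]
    push_cast; linarith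
  have e1 := fun y y0 hy => s1 h L O hT (hi.a0 H).le (y := y) y0 hy
  have e2 := s2 h L O hT
  have e3 := fun (u0 : 0 < uc p) hu ue' mesh' => cub h L O hT (u := uc p) u0 hu ue' mesh'
  have e4 := fun k (hk : k ∈ Thi p P) => (env h L O hT hk).trans tl
  have e5 := fun k (hk : k ∈ Thi p P) => mom h L O hT hk
  have e6 := fun k (hk : k ∈ Thi p P) => pos h L O hT hk
  have hu : 1000 * (p.n : ℝ) ^ (-(2 : ℝ)) ≤ uc p := k1 H h0 u0 (by linarith)
  obtain ⟨i, i1, i2, i3, i4, i5⟩ := e3 u0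
    (H.le_of_lg u0 (by positivity) (by lg_norm; linarith)) (by linarith)
    fun k a b => by linarith [mesh k a b]
  generalize (p.n : ℝ) ^ η = Λ at *
  generalize (p.n : ℝ) ^ (-(2 : ℝ)) = hh at *
  refine ⟨⟨Gt S G, e6, e5, e4, ?_, ?_⟩, i, eJ ▸ i1, eP ▸ i2, i3, i4.trans ?_, i5.trans ?_⟩
  · generalize (p.n : ℝ) ^ (-(13 : ℝ) / 40) = y at *
    have a1 : 1000 * (Λ * x ^ 3) ≤ (kk p ^ 5 * (p.s ^ 2 * y)) ^ 2 :=
      k1 H (by positivity) (by positivity) (by lg_norm; linarith)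
    have a2 : 1000 * hh ≤ (kk p ^ 5 * (p.s ^ 2 * y)) ^ 2 :=
      k1 H (by positivity) (by positivity) (by lg_norm; linarith)
    exact e1 _ (by positivity) (by nlinarith [sq_nonneg (kk p ^ 5 * (p.s ^ 2 * y))])
  · generalize (p.n : ℝ) ^ (-(13 : ℝ) / 20) = y at *
    have a1 : 1000 * (Λ * x ^ 3) ≤ kk p ^ 5 * (p.s ^ 4 * y) :=
      k1 H (by positivity) (by positivity) (by lg_norm; linarith)
    have a2 : 1000 * hh ≤ kk p ^ 5 * (p.s ^ 4 * y) :=
      k1 H (by positivity) (by positivity) (by lg_norm; linarith)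
    linarith
  · have a1 : 1000 * (uc p * Λ ^ 3 * x ^ 3) ≤ cb p (848 / 1000) :=
      k1 H (by positivity) b0 (by lg_norm; linarith)
    have a2 : 1000 * (uc p * Λ ^ 3 * √(x ^ 3 / uc p) ^ 3) ≤ cb p (848 / 1000) :=
      k1 H (by positivity) b0 (by lg_norm; linarith)
    have a3 := mul_le_mul_of_nonneg_left (add_pow_le x0.le (sqrt_nonneg (x ^ 3 / uc p)) 3)
      (show 0 ≤ uc p * Λ ^ 3 by positivity)
    norm_num at a3
    rw [mul_pow]
    linarith
  · have a1 : 1000 * (Λ * x * (Λ * x ^ 3)) ≤ cb p (848 / 1000) :=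
      k1 H (by positivity) b0 (by lg_norm; linarith)
    have a2 : 1000 * (Λ * √(x ^ 3 / uc p) * (Λ * x ^ 3)) ≤ cb p (848 / 1000) :=
      k1 H (by positivity) b0 (by lg_norm; linarith)
    linarith

theorem out (hc : c ≤ 1 / 10 ^ 5) (hη : 1000 * η ≤ c) (F : Fe0 K p P S (Me p P))
    (hK : 8 * K ^ 2 ≤ (p.n : ℝ) ^ η) (hi : In p m a) (x0 : 0 < x)
    (hx : x ^ 3 = p.s ^ 4 * (p.n : ℝ) ^ (22 * p.c - 13 / 20))
    (O : EO ((p.n : ℝ) ^ η) S (Me p P) m a x G) :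
    (∃ G, GA p P m a G) ∧ ∃ i, p.J ≤ i ∧ i < p.Jp P ∧ duE p P i ≤ 2 * uc p ∧
      duE p P i * U3 p P m a i ≤ cb p (848 / 1000) ∧
      ∑ k ∈ (Thi p P).filter (· < i), (Me p P).dz m a k * U3 p P m a k ≤ cb p (848 / 1000) :=
  out' H hc hη F.cl (F.eC ▸ hK) F.eJ F.eP F.en F.eA F.ea hi F.mesh F.ue.le x0 hx O

end Crest.Agent.T156.Alt.R2.Gy30

end
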