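import Crest.Agent.T156.R2HC_26
import Crest.Agent.T156.R2H0_6
import Crest.Agent.T156.R2H7_76

/-!
# Row 156, R2 (helper26): the site input `H4` from `H1`
-/

set_option autoImplicit false
set_option linter.unusedSectionVars false
set_option linter.unusedVariables false

noncomputable section

namespace Crest.Agent.T156.Cas.C40.E42

open MeasureTheory Real Set Filter Topology
open Crest.Agent.T157.E Crest.Agent.T157.Casc Crest.Agent.T157.SL
open Crest.ProbabilityR.SpinGlassDynamics (spin)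
open Ker15 H26 H06

namespace H426

variable {D : CD} {τ0 : ℝ}

theorem lenJ (D : CD) : (D.S.drop D.J).length = D.K - D.J := by rw [List.length_drop, len_S]

theorem rk (H : D.Ok τ0) : List.Forall₂ (C.Rk1 spin) D.S (opV D.n D.β D.M D.q) :=
  C.forall₂_sl spin (opV_nn H.ook)

theorem r1J (H : D.Ok τ0) : R1 (D.S.drop D.J) := fun l hl =>
  r1_of (rk H) l (List.mem_of_mem_drop hl)

theorem tmJ (H : D.Ok τ0) {t : ℕ} (ht : t ∈ D.up) : min 1 (tm (D.S.drop D.J) (t - D.J)) ≤ D.e t := by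
  obtain ⟨h1, h2⟩ := CD.mem_up.1 ht
  have e1 : ∀ j ≤ D.K, tm D.S j = D.sig j := fun j hj => (tm_eq (rk H) j).trans (opV_acc hj)
  have e2 : tm D.S (D.J + (t - D.J)) = tm D.S D.J + tm (D.S.drop D.J) (t - D.J) := by
    simp only [tm, cacc, List.take_add, List.map_append, List.sum_append]
  rw [Nat.add_sub_cancel' h1.le, e1 t h2.le, e1 _ H.cut.le] at e2
  refine (min_le_min_left _ ?_).trans (H.esc t ht)
  linarith [H.sig0 H.cut.le, H.ex0 t]

theorem lev_sgl (D : CD) {t : ℕ} (h : D.J < t) :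
    (fun i => D.lev t (i + D.J)) = Hom68.sgl (t - D.J) (oE D.q t) := by
  funext i a b
  unfold CD.lev Hom68.sgl
  by_cases e : i = t - D.J
  · rw [if_pos (by omega), if_pos e, e, Nat.sub_add_cancel h.le]
  · rw [if_neg (by omega), if_neg e]; rfl

theorem dP_star_lev (D : CD) {t : ℕ} (ht : t ∈ D.up) : (star D).dP 2 [D.lev t] =
    -∑ j ∈ D.up, omS D j * wg (D.S.drop D.J) (t - D.J) (oE D.q t) (j - D.J) (oE D.q j) 2 0 := by
  obtain ⟨h1, h2⟩ := CD.mem_up.1 ht
  rw [CD.dP, ← (Ld.sum D.up (omS D) fun j _ => ld_wg (D.S.drop D.J) (t - D.J) (oE D.q t) (j - D.J)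
    (oE D.q j)).iter2]
  congr 2
  funext y
  change ∑ j ∈ D.up, omS D j * twoF (j - D.J) (oE D.q j) (WdO (D.S.drop D.J)
    [fun i => D.lev t (i + D.J)] (TEf (fun _ => 1) (D.S.drop D.J) (y • spin))) = _
  refine Finset.sum_congr rfl fun j hj => congrArg _ ?_
  have := two_dM One15.w1 (D.S.drop D.J) (y • spin) (i := j - D.J) (n := t - D.J)
    (by rw [lenJ]; have := (CD.mem_up.1 hj).2; omega) (by omega) (by rw [lenJ]; omega)
    (oE D.q j) (oE D.q t)
  rw [← lev_sgl D h1] at this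
  rw [wg, ← lev_sgl D h1]
  exact this

theorem dP_star_nil (D : CD) : (star D).dP 2 [] =
    -∑ j ∈ D.up, omS D j * pg (D.S.drop D.J) (j - D.J) (oE D.q j) 2 0 := by
  rw [CD.dP, ← (Ld.sum D.up (omS D) fun j _ => ld_pg (D.S.drop D.J) (j - D.J) (oE D.q j)).iter2]
  congr 2
  funext y
  change ∑ j ∈ D.up, omS D j * twoF (j - D.J) (oE D.q j)
    (TEf (fun _ => 1) (D.S.drop D.J) (y • spin)) = _
  refine Finset.sum_congr rfl fun j hj => congrArg _ ?_
  exact two_TM One15.w1 (D.S.drop D.J) (y • spin) (i := j - D.J)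
    (by rw [lenJ]; have := (CD.mem_up.1 hj).2; omega) (oE D.q j)

theorem dP_val_lev (H : D.Ok τ0) (hW : D.W = none) {t : ℕ} (ht : t ∈ D.up) : D.dP 2 [D.lev t] =
    -(D.dx t * pg (D.S.drop D.J) (t - D.J) (oE D.q t) 2 0) := by
  obtain ⟨h1, h2⟩ := CD.mem_up.1 ht
  rw [CD.dP, ← ((ld_pg (D.S.drop D.J) (t - D.J) (oE D.q t)).cmul (D.dx t)).iter2]
  congr 2
  funext y
  have e : D.sH D.J y [D.lev t] = pairF (D.S.drop D.J) (fun j => D.lev t (j + D.J))
      (DY (D.S.drop D.J) 0 y) := by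
    simp only [CD.sH, CD.dd, hW]
    rfl
  rw [e, pair_lev D h1 h2.le _ (bnd_DY (monoJ H D.J) 0 y zero_le_two)]
  exact congrArg _ (two_TM One15.w1 (D.S.drop D.J) (y • spin) (i := t - D.J)
    (by rw [lenJ]; omega) (oE D.q t))

theorem sum_low (H : D.Ok τ0) {t : ℕ} (ht : t ∈ D.up) :
    ∑ j ∈ D.up, (if j < t then omS D j else 0) ≤ 2 * (La D * D.e t) := by
  have hL : D.sig D.K ≤ La D := le_add_of_nonneg_left zero_le_one
  have a1 : ∑ j ∈ D.up.filter (· < t), D.dx j ≤ D.e t :=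
    (H.sum_dx_le fun i hi => (Finset.mem_filter.1 hi).2.le).trans (H76.ex_le H ht)
  have a2 : ∑ j ∈ D.up.filter (· < t), (D.sig (j + 1) - D.sig j) ≤ La D :=
    ((Finset.sum_le_sum_of_subset_of_nonneg (Finset.filter_subset _ _) fun j hj _ =>
      H76.dsig0 H (CD.mem_up.1 hj).2).trans (H76.sum_dsig H)).trans hL
  have e0 := H.e0 t
  have l1 := H76.La1 H
  rw [← Finset.sum_filter]
  refine (Finset.sum_le_sum (g := fun j => La D * D.dx j + D.e t * (D.sig (j + 1) - D.sig j))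
    fun j hj => ?_).trans ?_
  · obtain ⟨hj, hjt⟩ := Finset.mem_filter.1 hj
    have hK := (CD.mem_up.1 hj).2
    have b1 := mul_le_mul_of_nonneg_left ((H.sig_le hK.le le_rfl).trans hL) (H.dx0 j)
    have b2 := mul_le_mul_of_nonneg_right ((H76.ex_le H hj).trans (H.e_mono hjt.le))
      (H76.dsig0 H hK)
    have b3 := mul_nonneg e0 (H76.dsig0 H hK)
    rw [omS, mv]
    linarith
  · rw [Finset.sum_add_distrib, ← Finset.mul_sum, ← Finset.mul_sum]
    nlinarith [mul_le_mul_of_nonneg_left a1 (zero_le_one.trans l1), mul_le_mul_of_nonneg_left a2 e0]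

theorem node (H : D.Ok τ0) {t j : ℕ} (ht : t ∈ D.up) (hj : j ∈ D.up) :
    |wg (D.S.drop D.J) (t - D.J) (oE D.q t) (j - D.J) (oE D.q j) 2 0 +
      4 * D.dx t * (mg (D.S.drop D.J) 1 0 * pg (D.S.drop D.J) (j - D.J) (oE D.q j) 2 0)| ≤
      (if j = t then 12160 else 0) + D.dx t * (if j < t then 12160 else 0) +
        1300000 * (D.dx t * D.e t) := by
  obtain ⟨h1, h2⟩ := CD.mem_up.1 ht
  obtain ⟨j1, j2⟩ := CD.mem_up.1 hj
  have hM := monoJ H D.J
  have kt := abs_oE_le H.ook h2.le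
  have kj := abs_oE_le H.ook j2.le
  have d0 := H.dx0 t
  have d1 := H.dx1 h2.le
  have e0 := H.e0 t
  have de := mul_nonneg d0 e0
  have hn : t - D.J < (D.S.drop D.J).length := by rw [lenJ]; omega
  have m := mul_le_mul (abs_mg hM) (abs_pg hM kj (j - D.J)) (abs_nonneg _) (by norm_num)
  rw [← abs_mul] at m
  have m' := abs_le.1 m
  rcases lt_trichotomy j t with h | h | h
  · have a := abs_le.1 (abs_ag hM kj kt (t - D.J) (j - D.J))
    rw [wg_eq (by omega) hn (by rw [lenJ]; omega) (by omega), dm_J D h1, if_neg h.ne, if_pos h]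
    exact abs_le.2 ⟨by nlinarith [a.1, m'.1], by nlinarith [a.2, m'.2]⟩
  · have a := abs_le.1 (abs_wg hM kj kt (t - D.J) (j - D.J))
    rw [if_pos h, if_neg (by omega)]
    exact abs_le.2 ⟨by nlinarith [a.1, m'.1], by nlinarith [a.2, m'.2]⟩
  · have a := abs_le.1 (ag_main (r1J H) hM hn e0 (tmJ H ht) (by omega) (i := j - D.J) (by omega)
      (q := D.q t) kt kj fun a b => by simp only [oE, One15.spin_not, neg_mul_neg])
    rw [wg_eq (by omega) hn (by rw [lenJ]; omega) (by omega), dm_J D h1, if_neg h.ne',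
      if_neg (by omega)]
    have b1 := mul_le_mul_of_nonneg_left a.1 d0
    have b2 := mul_le_mul_of_nonneg_left a.2 d0
    change D.dx t * _ ≤ D.dx t * (ag _ _ (oE D.q t) _ _ 2 0 + _) at b1
    change D.dx t * (ag _ _ (oE D.q t) _ _ 2 0 + _) ≤ _ at b2
    exact abs_le.2 ⟨by linarith, by linarith⟩

/-- the marked response factorises -/
theorem star_lev (H : D.Ok τ0) {t : ℕ} (ht : t ∈ D.up) :
    |(star D).dP 2 [D.lev t] + 4 * D.dx t * (D.lam * (star D).dP 2 [])| ≤
      2700000 * (La D * (D.e t * ck D t)) := by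
  have hK := (CD.mem_up.1 ht).2
  have e0 := H.e0 t
  have d0 := H.dx0 t
  have l0 := zero_le_one.trans (H76.La1 H)
  have dc := mul_le_mul_of_nonneg_left (mul_le_mul_of_nonneg_left (H76.dx_le_ck H hK) e0) l0
  have e : (star D).dP 2 [D.lev t] + 4 * D.dx t * (D.lam * (star D).dP 2 []) =
      -∑ j ∈ D.up, omS D j * (wg (D.S.drop D.J) (t - D.J) (oE D.q t) (j - D.J) (oE D.q j) 2 0 +
      4 * D.dx t * (mg (D.S.drop D.J) 1 0 * pg (D.S.drop D.J) (j - D.J) (oE D.q j) 2 0)) := by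
    rw [dP_star_lev D ht, dP_star_nil, show D.lam = mg (D.S.drop D.J) 1 0 from iter_X _]
    simp only [mul_add, Finset.sum_add_distrib, mul_neg, Finset.mul_sum, neg_add]
    congr 2
    exact Finset.sum_congr rfl fun _ _ => by ring
  rw [e, abs_neg]
  refine (Finset.abs_sum_le_sum_abs _ _).trans ((Finset.sum_le_sum
    (g := fun j => (if j = t then 12160 * omS D t else 0) +
      12160 * D.dx t * (if j < t then omS D j else 0) + 1300000 * (D.dx t * D.e t) * |omS D j|)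
    fun j hj => ?_).trans ?_)
  · have o := H76.omS0 H (CD.mem_up.1 hj).2
    rw [abs_mul, abs_of_nonneg o]
    refine (mul_le_mul_of_nonneg_left (node H ht hj) o).trans_eq ?_
    split_ifs with h1 h2 h2
    · omega
    · rw [h1]; ring
    · ring
    · ring
  · rw [Finset.sum_add_distrib, Finset.sum_add_distrib, Finset.sum_ite_eq', if_pos ht,
      ← Finset.mul_sum, ← Finset.mul_sum]
    have a1 := H76.omS_le H ht
    have a2 := mul_le_mul_of_nonneg_left (sum_low H ht) d0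
    have a3 := mul_le_mul_of_nonneg_left (H76.sum_omS H) (mul_nonneg d0 e0)
    have a4 := mul_nonneg l0 (mul_nonneg e0 d0)
    nlinarith

theorem val_lev (H : D.Ok τ0) (hW : D.W = none) {t : ℕ} (ht : t ∈ D.up) :
    |D.dP 2 [D.lev t] + 2 * D.dx t * D.lam ^ 2| ≤ 30000 * (D.dx t * D.e t) := by
  obtain ⟨h1, h2⟩ := CD.mem_up.1 ht
  have a := mul_le_mul_of_nonneg_left (pg_main (r1J H) (monoJ H D.J) (n := t - D.J)
    (by rw [lenJ]; omega) (H.e0 t) (tmJ H ht) (q := D.q t) (abs_oE_le H.ook h2.le)) (H.dx0 t)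
  rw [← abs_of_nonneg (H.dx0 t), ← abs_mul, abs_of_nonneg (H.dx0 t), ← abs_neg] at a
  rw [dP_val_lev H hW ht, show D.lam = mg (D.S.drop D.J) 1 0 from iter_X _]
  refine le_of_eq_of_le (congrArg _ ?_) (a.trans_eq (by ring))
  change _ = -(D.dx t * (pg _ _ (oE D.q t) 2 0 - _))
  ring

end H426

open H426

/-- `d ψ = -ψ + O (e)` -/
theorem h4_of (h1 : H1) : H4 := fun τ0 => by
  obtain ⟨C, hC, h1⟩ := h1 τ0
  refine ⟨2800000 + 16 * C, by positivity, fun D η H hm t ht => ?_⟩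
  have hK := (CD.mem_up.1 ht).2
  have a1 := abs_le.1 (star_lev H ht)
  have a2 := abs_le.1 (val_lev H hm.val ht)
  have a3 := h1 D η H hm
  have e0 := H.e0 t
  have d0 := H.dx0 t
  have dc := H76.dx_le_ck H hK
  have l1 := H76.La1 H
  have η0 := hm.η0
  have X0 := H.X0
  have lam := abs_lam H
  have x3 : D.X ^ 3 ≤ D.e t := (pow_le_of_le_one X0 H.X1 (by norm_num)).trans (H.eX t)
  have xs : |x1 D * s1 D| ≤ D.e t := by
    have s0 : 0 ≤ s1 D := H.sig0 H.cut
    rw [abs_of_nonneg (mul_nonneg (show 0 ≤ x1 D from H.ex0 _) s0)]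
    exact (mul_le_mul (H.x1.trans H.X1) hm.sX s0 zero_le_one).trans (by rw [one_mul]; exact H.eX t)
  have b1 : |D.lam * ((star D).dP 2 [] + D.lam - x1 D * s1 D * D.lam ^ 2)| ≤
      4 * (C * La D * (D.e t + η)) := by
    rw [abs_mul]
    exact mul_le_mul lam (a3.trans (by gcongr)) (abs_nonneg _) (by norm_num)
  have b2 : |x1 D * s1 D * D.lam ^ 3| ≤ D.e t * 4 ^ 3 := by
    rw [abs_mul, abs_pow]
    gcongr
  have c1 := mul_le_mul (le_refl _) dc d0 (by positivity : 0 ≤ C * La D * (D.e t + η))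
  have c2 : D.dx t * D.e t ≤ La D * (D.e t * ck D t) := by
    calc _ = 1 * (D.e t * D.dx t) := by ring
      _ ≤ _ := by gcongr
  have c3 : La D * (D.e t * ck D t) ≤ La D * ((D.e t + η) * ck D t) := by
    have := d0.trans dc
    gcongr
    linarith
  have c4 := mul_nonneg d0 e0
  have f1 := mul_le_mul_of_nonneg_left (abs_le.1 b1).1 d0
  have f2 := mul_le_mul_of_nonneg_left (abs_le.1 b1).2 d0
  have f3 := mul_le_mul_of_nonneg_left (abs_le.1 b2).1 d0
  have f4 := mul_le_mul_of_nonneg_left (abs_le.1 b2).2 d0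
  exact abs_le.2 ⟨by nlinarith [a1.1, a2.1], by nlinarith [a1.2, a2.2]⟩

end Crest.Agent.T156.Cas.C40.E42

end
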