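import Crest.Agent.T156.Hom_68

/-!
# Row 156 (helper26): derivatives in the incoming field, free low levels

`Tk` = iterated leg sums; `at_free` = the exact response at a node below which nothing is shared.
-/

set_option autoImplicit false
set_option linter.unusedSectionVars false
set_option linter.unusedVariables false

noncomputable section

namespace Crest.Agent.T156.Cas.H26

open MeasureTheory Real Set Filter Topology
open Crest.Agent.T157.E Crest.Agent.T157.Casc Crest.Agent.T157.SL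
open Nu87 Ker15 Hom68

variable {Ω : Type} [Fintype Ω] {w : Ω → ℝ} {r : ℕ}

/-! ### ladders -/

/-- all derivatives -/
def Ld (V : ℕ → ℝ → ℝ) : Prop := ∀ k y, HasDerivAt (V k) (V (k + 1) y) y

theorem Ld.iter2 {V : ℕ → ℝ → ℝ} (h : Ld V) : iteratedDeriv 2 (V 0) 0 = V 2 0 := by
  have e : deriv (V 0) = V 1 := funext fun y => (h 0 y).deriv
  rw [iteratedDeriv_succ, iteratedDeriv_one, e, (h 1 0).deriv]

theorem Ld.sum {α : Type} (A : Finset α) (c : α → ℝ) {V : α → ℕ → ℝ → ℝ} (h : ∀ a ∈ A, Ld (V a)) :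
    Ld fun k y => ∑ a ∈ A, c a * V a k y :=
  fun k y => HasDerivAt.fun_sum fun a ha => (h a ha k y).const_mul (c a)

theorem Ld.cmul (c : ℝ) {V : ℕ → ℝ → ℝ} (h : Ld V) : Ld fun k y => c * V k y :=
  fun k y => (h k y).const_mul c

theorem Ld.succ {V : ℕ → ℝ → ℝ} (h : Ld V) : Ld fun k => V (k + 1) := fun k y => h (k + 1) y

theorem Ld.prod {a b c : ℕ → ℝ → ℝ} (ha : Ld a) (hb : Ld b) (hc : Ld c) {κ q : ℝ}
    (e : ∀ y, a 0 y = κ * (b 0 y * c 0 y) - q) :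
    a 2 0 = κ * (b 2 0 * c 0 0 + 2 * (b 1 0 * c 1 0) + b 0 0 * c 2 0) := by
  have e1 : a 1 = fun y => κ * (b 1 y * c 0 y + b 0 y * c 1 y) := funext fun y => by
    have h1 := ha 0 y
    rw [funext e] at h1
    exact h1.unique ((((hb 0 y).fun_mul (hc 0 y)).const_mul κ).sub_const q)
  have h1 := ha 1 0
  rw [e1] at h1
  rw [h1.unique ((((hb 1 0).fun_mul (hc 0 0)).fun_add ((hb 0 0).fun_mul (hc 1 0))).const_mul κ)]
  ring

/-! ### functionals on split matrices -/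

/-- families of functionals -/
abbrev FM (Ω : Type) : Type := ∀ r : ℕ, SM r → ((Fin r → Ω) → ℝ) → ℝ

/-- the tree law -/
def TF (w : Ω → ℝ) (R : List (Lv Ω)) (h : Ω → ℝ) : FM Ω := fun _ σ F => TM w R h σ F

/-- one more leg -/
def dF (R : List (Lv Ω)) (f : Ω → ℝ) (Φ : FM Ω) : FM Ω := fun r σ F =>
  ∑ a, Φ r σ (fun x => F x * f (x a)) -
    Ws R σ fun a k => Φ (r + 1) (gr R.length σ a k) fun x => F (fun c => x c.succ) * f (x 0)

/-- `k` legs -/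
def Tk (w : Ω → ℝ) (R : List (Lv Ω)) (f : Ω → ℝ) (y : ℝ) : ℕ → FM Ω
  | 0 => TF w R (y • f)
  | k + 1 => dF R f (Tk w R f y k)

def q1 (S : ℕ → Ω → Ω → ℝ) (F : (Fin r → Ω) → ℝ) (τ : SM (r + 1)) (x : Fin (r + 1) → Ω) : ℝ :=
  F (fun c => x c.succ) * (∑ b : Fin r, (ed S b.succ 0 x τ + ed S 0 b.succ x τ) + ed S 0 0 x τ)

def q2 (S : ℕ → Ω → Ω → ℝ) (F : (Fin r → Ω) → ℝ) (τ : SM (r + 2)) (x : Fin (r + 2) → Ω) : ℝ :=
  F (fun b => x b.succ.succ) * ed S 0 1 x τ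

/-- the atom operator on a functional -/
def AtF (R : List (Lv Ω)) (Φ : FM Ω) (n : ℕ) (K : Ω → Ω → ℝ) (σ : SM r) (F : (Fin r → Ω) → ℝ) : ℝ :=
  AtW R n σ (fun τ => Φ _ τ (q1 (sgl n K) F τ)) fun τ => Φ _ τ (q2 (sgl n K) F τ)

/-- a letter on a functional -/
def dMF (R : List (Lv Ω)) (Φ : FM Ω) (S : ℕ → Ω → Ω → ℝ) (σ : SM r) (F : (Fin r → Ω) → ℝ) : ℝ :=
  Φ _ σ (fun x => F x * ∑ a, ∑ b, ed S a b x σ) -
    Ws R σ (fun a j => Φ _ (gr R.length σ a j) (q1 S F (gr R.length σ a j))) +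
    Ws R σ fun a j => Ws R (gr R.length σ a j) fun c k =>
      Φ _ (gr R.length (gr R.length σ a j) c k) (q2 S F (gr R.length (gr R.length σ a j) c k))

theorem At_eq (R : List (Lv Ω)) (h : Ω → ℝ) (n : ℕ) (K : Ω → Ω → ℝ) (σ : SM r)
    (F : (Fin r → Ω) → ℝ) : At w R h n K σ F = AtF R (TF w R h) n K σ F := rfl

theorem dM_eqF (R : List (Lv Ω)) (h : Ω → ℝ) (S : ℕ → Ω → Ω → ℝ) (σ : SM r)
    (F : (Fin r → Ω) → ℝ) : dM w R h S σ F = dMF R (TF w R h) S σ F := rfl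

/-- derivative of a family -/
def DF (K : ℕ) (Φ : ℝ → FM Ω) (Φ' : FM Ω) (u : ℝ) : Prop :=
  ∀ (r : ℕ) (σ : SM r), Rz K σ → ∀ F, HasDerivAt (fun y => Φ y r σ F) (Φ' r σ F) u

section der
variable {R : List (Lv Ω)} {Φ : ℝ → FM Ω} {Φ' : FM Ω} {u : ℝ}

theorem DF.dF (H : DF R.length Φ Φ' u) (f : Ω → ℝ) :
    DF R.length (fun y => dF R f (Φ y)) (dF R f Φ') u := fun r σ hσ F =>
  (HasDerivAt.fun_sum fun a _ => H r σ hσ _).fun_sub
    (hasDerivAt_Ws R σ fun a k => H _ _ (hσ.gr a k) _)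

theorem der_Br (σ : SM r) (n : ℕ) {G : ℝ → Fin r → ℝ} {G' : Fin r → ℝ}
    (h : ∀ a, HasDerivAt (fun y => G y a) (G' a) u) :
    HasDerivAt (fun y => Br σ n (G y)) (Br σ n G') u :=
  HasDerivAt.fun_sum fun a _ => (h a).div_const _

theorem der_ite {p : Prop} [Decidable p] {g : ℝ → ℝ} {g' : ℝ} (h : HasDerivAt g g' u) :
    HasDerivAt (fun y => if p then 0 else g y) (if p then 0 else g') u := by
  split_ifs
  · exact hasDerivAt_const _ _
  · exact h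

theorem DF.atF (H : DF R.length Φ Φ' u) (n : ℕ) (K : Ω → Ω → ℝ) {σ : SM r} (hσ : Rz R.length σ)
    (F : (Fin r → Ω) → ℝ) : HasDerivAt (fun y => AtF R (Φ y) n K σ F) (AtF R Φ' n K σ F) u :=
  ((der_Br σ n fun a => H _ _ (hσ.gr a n) _).fun_neg.fun_add
    (hasDerivAt_Ws R σ fun a j => der_ite (der_Br _ n fun c => H _ _ ((hσ.gr a j).gr c n) _))).fun_add
    (der_Br σ n fun a => hasDerivAt_Ws R _ fun c k => H _ _ ((hσ.gr a n).gr c k) _)

theorem DF.dMF (H : DF R.length Φ Φ' u) (S : ℕ → Ω → Ω → ℝ) {σ : SM r} (hσ : Rz R.length σ)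
    (F : (Fin r → Ω) → ℝ) : HasDerivAt (fun y => dMF R (Φ y) S σ F) (dMF R Φ' S σ F) u :=
  ((H _ _ hσ _).fun_sub (hasDerivAt_Ws R σ fun a j => H _ _ (hσ.gr a j) _)).fun_add
    (hasDerivAt_Ws R σ fun a j => hasDerivAt_Ws R _ fun c k => H _ _ ((hσ.gr a j).gr c k) _)

theorem df_Tk (hw : Wt w) (R : List (Lv Ω)) (f : Ω → ℝ) (u : ℝ) : ∀ k,
    DF R.length (fun y => Tk w R f y k) (Tk w R f u (k + 1)) u
  | 0 => fun r σ hσ F => by
    have := hasDerivAt_dL hw R 0 hσ f F u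
    simp only [zero_add] at this
    exact this
  | k + 1 => (df_Tk hw R f u k).dF f

end der

theorem ld_Tk (hw : Wt w) (R : List (Lv Ω)) (f : Ω → ℝ) {σ : SM r} (hσ : Rz R.length σ)
    (F : (Fin r → Ω) → ℝ) : Ld fun k y => Tk w R f y k r σ F :=
  fun k y => df_Tk hw R f y k r σ hσ F

theorem ld_At (hw : Wt w) (R : List (Lv Ω)) (f : Ω → ℝ) (n : ℕ) (K : Ω → Ω → ℝ) {σ : SM r}
    (hσ : Rz R.length σ) (F : (Fin r → Ω) → ℝ) : Ld fun k y => AtF R (Tk w R f y k) n K σ F :=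
  fun k y => (df_Tk hw R f y k).atF n K hσ F

theorem ld_dM (hw : Wt w) (R : List (Lv Ω)) (f : Ω → ℝ) (S : ℕ → Ω → Ω → ℝ) {σ : SM r}
    (hσ : Rz R.length σ) (F : (Fin r → Ω) → ℝ) : Ld fun k y => dMF R (Tk w R f y k) S σ F :=
  fun k y => (df_Tk hw R f y k).dMF S hσ F

/-! ### bounds -/

/-- norm of a family on at most `N` replicas -/
def BF (K N : ℕ) (c : ℝ) (Φ : FM Ω) : Prop :=
  ∀ (r : ℕ) (σ : SM r), r ≤ N → Rz K σ → ∀ (F : (Fin r → Ω) → ℝ) (b : ℝ), 0 ≤ b →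
    (∀ x, |F x| ≤ b) → |Φ r σ F| ≤ c * b

section bd
variable {R : List (Lv Ω)} {Φ Φ' : FM Ω} {N : ℕ} {c : ℝ}

theorem BF.dF (hR : Mono 0 R) (hc : 0 ≤ c) (H : BF R.length (N + 1) c Φ) {f : Ω → ℝ}
    (hf : ∀ y, |f y| ≤ 1) : BF R.length N (2 * N * c) (dF R f Φ) := fun r σ hr hσ F b hb hF => by
  have e : ∀ x y, |F x * f y| ≤ b := fun x y => by
    rw [abs_mul]
    exact (mul_le_mul (hF x) (hf y) (abs_nonneg _) hb).trans_eq (mul_one b)
  have a1 : |∑ a, Φ r σ fun x => F x * f (x a)| ≤ r * (c * b) :=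
    (Finset.abs_sum_le_sum_abs _ _).trans ((Finset.sum_le_card_nsmul _ _ _
      fun a _ => H _ σ (by omega) hσ _ _ hb fun x => e x _).trans_eq (by simp))
  have a2 := abs_Ws hR hσ (hσ.ncm fun τ => Φ (r + 1) τ fun x => F (fun c => x c.succ) * f (x 0))
    fun a j => H _ _ (by omega) (hσ.gr a j) _ _ hb fun x => e _ _
  have : (r : ℝ) ≤ N := by exact_mod_cast hr
  have h3 : (r : ℝ) * (c * b) ≤ N * (c * b) := by gcongr
  refine (abs_sub _ _).trans ?_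
  linarith

theorem dF_sub (R : List (Lv Ω)) (f : Ω → ℝ) (Φ Φ' : FM Ω) :
    dF R f (fun r σ F => Φ r σ F - Φ' r σ F) = fun r σ F => dF R f Φ r σ F - dF R f Φ' r σ F := by
  funext r σ F
  simp only [dF, Ws_sub, Finset.sum_sub_distrib]
  ring

theorem Ws_st {R R' : List (Lv Ω)} (H : ST R R') {κ : Type} [Fintype κ] (σ : κ → κ → ℕ)
    (G : κ → ℕ → ℝ) : Ws R' σ G = Ws R σ G := by
  simp only [Ws, H.len, Cav22.ex_tilt H]

theorem dF_st {R R' : List (Lv Ω)} (H : ST R R') (f : Ω → ℝ) : dF R' f = dF R f := by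
  funext Φ r σ F
  simp only [dF, Ws_st H, H.len]

theorem AtF_st {R R' : List (Lv Ω)} (H : ST R R') (Φ : FM Ω) (n : ℕ) (K : Ω → Ω → ℝ) (σ : SM r)
    (F : (Fin r → Ω) → ℝ) : AtF R' Φ n K σ F = AtF R Φ n K σ F := by
  simp only [AtF, AtW, Ws_st H, H.len]

/-- the constant of `k` legs on at most `N` replicas -/
def cT (N : ℕ) : ℕ → ℝ
  | 0 => 1
  | k + 1 => 2 * N * cT (N + 1) k

theorem cT_nn : ∀ (k N : ℕ), 0 ≤ cT N k
  | 0, _ => zero_le_one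
  | k + 1, N => mul_nonneg (by positivity) (cT_nn k _)

theorem bf_Tk (hw : Wt w) (hR : Mono 0 R) {f : Ω → ℝ} (hf : ∀ y, |f y| ≤ 1) (y : ℝ) :
    ∀ k N, BF R.length N (cT N k) (Tk w R f y k)
  | 0, _ => fun r σ _ hσ F b _ hF => (abs_TM hw _ hσ hF).trans_eq (one_mul b).symm
  | k + 1, N => (bf_Tk hw hR hf y k (N + 1)).dF hR (cT_nn _ _) hf

theorem bf_sub {R' : List (Lv Ω)} (hR : Mono 0 R) (H : ST R R') {f : Ω → ℝ} (hf : ∀ y, |f y| ≤ 1)
    (y : ℝ) {δ : ℝ} (hδ : 0 ≤ δ) {M : ℕ} (hC : Hom68.Cl w M R (y • f) R' (y • f) δ) :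
    ∀ k N, N + k ≤ M → BF R.length N (cT N k * δ)
      fun r σ F => Tk w R' f y k r σ F - Tk w R f y k r σ F
  | 0, N, e => fun r σ hr hσ F b _ hF =>
    (hC.2 r σ (by omega) hσ F b hF).trans_eq (by rw [cT, one_mul])
  | k + 1, N, e => by
    have := (bf_sub hR H hf y hδ hC k (N + 1) (by omega)).dF hR (mul_nonneg (cT_nn _ _) hδ) hf
    rw [dF_sub] at this
    simp only [Tk, dF_st H, cT]
    rwa [← mul_assoc] at this

theorem BF.atF (hR : Mono 0 R) (H : BF R.length (r + 2) c Φ) (n : ℕ) {σ : SM r}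
    (hσ : Rz R.length σ) {K : Ω → Ω → ℝ} {g b : ℝ} (hg : 0 ≤ g) (hb : 0 ≤ b)
    (hK : ∀ x y, |K x y| ≤ g) {F : (Fin r → Ω) → ℝ} (hF : ∀ x, |F x| ≤ b) :
    |AtF R Φ n K σ F| ≤ cA r * (c * (b * g)) :=
  (abs_AtW hR n hσ (fun τ hτ => H _ τ (by omega) hτ _ _ (by positivity) (abs_q1 hK hF τ))
    fun τ hτ => H _ τ le_rfl hτ _ _ (by positivity) (abs_q2 hK hF τ)).trans_eq
      (by unfold cA; push_cast; ring)

theorem AtF_sub (R : List (Lv Ω)) (Φ Φ' : FM Ω) (n : ℕ) (K : Ω → Ω → ℝ) (σ : SM r)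
    (F : (Fin r → Ω) → ℝ) : AtF R (fun r σ F => Φ r σ F - Φ' r σ F) n K σ F =
      AtF R Φ n K σ F - AtF R Φ' n K σ F := AtW_sub R n σ _ _ _ _

theorem BF.dMF (hR : Mono 0 R) (H : BF R.length (r + 2) c Φ) (n : ℕ) {σ : SM r}
    (hσ : Rz R.length σ) {K : Ω → Ω → ℝ} {g b : ℝ} (hg : 0 ≤ g) (hb : 0 ≤ b)
    (hK : ∀ x y, |K x y| ≤ g) {F : (Fin r → Ω) → ℝ} (hF : ∀ x, |F x| ≤ b) :
    |dMF R Φ (sgl n K) σ F| ≤ r * (4 * r + 2) * (c * (b * g)) := by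
  have a0 := H _ σ (by omega) hσ (fun x => F x * ∑ a, ∑ b, ed (sgl n K) a b x σ)
    (b * (r * (r * g))) (by positivity) fun x => by
      rw [abs_mul]
      refine mul_le_mul (hF x) ?_ (abs_nonneg _) hb
      refine (Finset.abs_sum_le_sum_abs _ _).trans ((Finset.sum_le_card_nsmul _ _ (r * g)
        fun a _ => ?_).trans_eq (by simp))
      exact (Finset.abs_sum_le_sum_abs _ _).trans ((Finset.sum_le_card_nsmul _ _ g
        fun b _ => abs_ed hK a b x σ).trans_eq (by simp))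
  have a1 := abs_Ws hR hσ (hσ.ncm fun τ => Φ _ τ (q1 (sgl n K) F τ))
    fun a j => H _ _ (by omega) (hσ.gr a j) _ _ (by positivity) (abs_q1 hK hF _)
  have a2 := abs_Ws hR hσ (hσ.ncm fun τ' => Ws R τ' fun c k =>
      Φ _ (gr R.length τ' c k) (q2 (sgl n K) F (gr R.length τ' c k)))
    fun a j => abs_Ws hR (hσ.gr a j) ((hσ.gr a j).ncm fun τ => Φ _ τ (q2 (sgl n K) F τ))
      fun c k => H _ _ le_rfl ((hσ.gr a j).gr c k) _ _ (by positivity) (abs_q2 hK hF _)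
  push_cast at a2
  refine (abs_add_le _ _).trans ((add_le_add ((abs_sub _ _).trans (add_le_add a0 a1)) a2).trans_eq ?_)
  ring

end bd

end Crest.Agent.T156.Cas.H26

end
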