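import Crest.Agent.T156.R2HA_26

/-!
# Row 156 (helper26): the exact response at a node below which all levels are free
-/

set_option autoImplicit false
set_option linter.unusedSectionVars false
set_option linter.unusedVariables false

noncomputable section

namespace Crest.Agent.T156.Cas.H26

open MeasureTheory Real Set Filter Topology
open Crest.Agent.T157.E Crest.Agent.T157.Casc Crest.Agent.T157.SL
open Nu87 Ker15 Hom68

variable {Ω : Type} [Fintype Ω] {w : Ω → ℝ} {r : ℕ}

/-- a replica split off at the root is independent -/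
theorem ind0 (hw : Wt w) (L : List (Lv Ω)) (h : Ω → ℝ) {ρ : SM (r + 2)} (hρ : Rz L.length ρ)
    (h0 : ∀ b : Fin (r + 1), ρ 0 b.succ = 0) (G : Ω → (Fin (r + 1) → Ω) → ℝ) :
    TM w L h ρ (fun x => G (x 0) fun c => x c.succ) =
      TM w L h (fun a b => ρ a.succ b.succ) fun x => Pf w L h fun z => G z x := by
  obtain ⟨s, e, he⟩ := hρ.re (Fin.succ : Fin (r + 1) → Fin (r + 2))
  let e2 : Fin (r + 2) → (Sh.split .one s).Lf := Fin.cons (.inl ()) fun c => .inr (e c)
  have hi : Function.Injective e2 := by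
    intro a b
    refine Fin.cases ?_ (fun a => ?_) a <;> refine Fin.cases ?_ (fun b => ?_) b
    · exact fun _ => rfl
    · exact fun h => absurd h Sum.inl_ne_inr
    · exact fun h => absurd h Sum.inr_ne_inl
    · exact fun h => congrArg _ (e.injective (Sum.inr_injective h))
  have e1 : ρ = sm (Sh.split .one s) e2 L.length := by
    funext a b
    refine Fin.cases ?_ (fun a => ?_) a <;> refine Fin.cases ?_ (fun b => ?_) b
    · exact hρ.self 0
    · exact h0 b
    · exact (hρ.comm _ _).trans (h0 a)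
    · exact congrFun₂ he a b
  rw [he]
  conv_lhs => rw [e1]
  rw [TM_sm hw _ L h hi, Law.TE_split hw, Law.TE_one hw]
  simp only [Pf, TM_sum, TM_mul]
  refine Finset.sum_congr rfl fun z _ => ?_
  rw [TM_sm hw s L h e.injective]
  rfl

/-- the first `n` levels lose their variance -/
def zp : List (Lv Ω) → ℕ → List (Lv Ω)
  | L, 0 => L
  | [], _ + 1 => []
  | l :: L, n + 1 => z0 Ω l.m :: zp L n

theorem st_zp : ∀ (L : List (Lv Ω)) (n : ℕ), ST L (zp L n)
  | _, 0 => by cases ‹List (Lv Ω)› <;> rfl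
  | [], _ + 1 => rfl
  | l :: L, n + 1 => congrArg (l.m :: ·) (st_zp L n)

theorem zp_zero (L : List (Lv Ω)) : zp L 0 = L := by cases L <;> rfl

theorem cacc_zp (x y : Ω) : ∀ (L : List (Lv Ω)) (n j : ℕ),
    cacc (zp L n) j x y = cacc L j x y - cacc L (min j n) x y
  | L, 0, j => by rw [zp_zero]; simp [cacc]
  | [], _ + 1, _ => by simp [cacc, zp]
  | _ :: _, _ + 1, 0 => by simp [cacc]
  | l :: L, n + 1, j + 1 => by
    rw [zp, Nat.succ_min_succ, Sd.cacc_cons, Sd.cacc_cons, Sd.cacc_cons, cacc_zp x y L n j, z0_cov]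
    ring

theorem mem_zp : ∀ {L : List (Lv Ω)} {n : ℕ} {l : Lv Ω}, l ∈ zp L n → l ∈ L ∨ ∃ m, l = z0 Ω m
  | L, 0, _, h => Or.inl (zp_zero L ▸ h)
  | [], _ + 1, _, h => Or.inl h
  | l :: L, n + 1, _, h => by
    rcases List.mem_cons.1 h with rfl | h
    · exact Or.inr ⟨_, rfl⟩
    · exact (mem_zp h).imp_left (List.mem_cons_of_mem _)

theorem TM_zp (hw : Wt w) (h : Ω → ℝ) (F : (Fin r → Ω) → ℝ) : ∀ (L : List (Lv Ω)) (n : ℕ)
    (τ : SM r), n ≤ L.length → Rz L.length τ →
    TM w (zp L n) h τ F = TM w (L.drop n) h (fun a b => τ a b - n) F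
  | L, 0, τ, _, _ => by rw [zp_zero]; rfl
  | [], _ + 1, _, hn, _ => absurd hn (by simp)
  | l :: L, n + 1, τ, hn, hτ => by
    have hl : (zp L n).length = L.length := (st_zp L n).len.symm
    have e := TM_del hw [] (zp L n) l.m (τ := τ) (by simpa [hl] using hτ) h F
    have e1 : (fun a b => dn ([] : List (Lv Ω)).length (τ a b)) = fun a b => τ a b - 1 := by
      funext a b; unfold dn; simp only [List.length_nil]; split_ifs <;> omega
    rw [e1] at e
    have r1 : Rz L.length fun a b => τ a b - 1 :=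
      rz_map hτ (f := fun i => i - 1) (fun _ _ h => Nat.sub_le_sub_right h 1) rfl
    refine e.trans ((TM_zp hw h F L n _ (Nat.le_of_succ_le_succ hn) r1).trans ?_)
    simp only [List.drop_succ_cons, Nat.sub_sub, add_comm 1 n]

/-- replicas split off below depth `n` are independent, with the one-leaf average `P` -/
def Fr (w : Ω → ℝ) (R : List (Lv Ω)) (h : Ω → ℝ) (n : ℕ) (P : (Ω → ℝ) → ℝ) : Prop :=
  ∀ (r : ℕ) (ρ : SM (r + 2)), Rz R.length ρ → (∀ b : Fin (r + 1), ρ 0 b.succ ≤ n) →
    ∀ G : Ω → (Fin (r + 1) → Ω) → ℝ, TM w R h ρ (fun x => G (x 0) fun c => x c.succ) =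
      TM w R h (fun a b => ρ a.succ b.succ) fun x => P fun z => G z x

theorem fr_zp (hw : Wt w) (L : List (Lv Ω)) (h : Ω → ℝ) {n : ℕ} (hn : n ≤ L.length) :
    Fr w (zp L n) h n (Pf w (L.drop n) h) := fun r ρ hρ h0 G => by
  rw [← (st_zp L n).len] at hρ
  rw [TM_zp hw h _ L n ρ hn hρ, TM_zp hw h _ L n _ hn (hρ.re Fin.succ)]
  exact ind0 hw (L.drop n) h (ρ := fun a b => ρ a b - n)
    (rz_map hρ (f := fun i => i - n) (fun _ _ h => Nat.sub_le_sub_right h n)
      (List.length_drop ..).symm) (fun b => Nat.sub_eq_zero_of_le (h0 b)) G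

theorem Pf_zp (hw : Wt w) (L : List (Lv Ω)) (h : Ω → ℝ) {n : ℕ} (hn : n ≤ L.length) (f : Ω → ℝ) :
    Pf w (zp L n) h f = Pf w (L.drop n) h f := by
  have h1 := rz_one L.length
  have h2 : Rz (L.drop n).length fun a b : Fin 1 => L.length - n := by
    rw [List.length_drop]; exact rz_one _
  have h3 : Rz (zp L n).length fun a b : Fin 1 => L.length := by
    rw [← (st_zp L n).len]; exact h1
  rw [← TM_single hw h3 0 f, TM_zp hw h _ L n _ hn h1, TM_single hw h2]

/-! ### weights -/

theorem cls_all {σ : SM r} {j : ℕ} (h : ∀ a b, j ≤ σ a b) (a : Fin r) : cls σ a j = r := by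
  rw [cls, Finset.filter_true_of_mem fun b _ => h a b, Finset.card_univ, Fintype.card_fin]

theorem Br_const {σ : SM (r + 1)} {n : ℕ} (h : ∀ a b, n < σ a b) {G : Fin (r + 1) → ℝ} {u : ℝ}
    (hG : ∀ a, G a = u) : Br σ n G = u := by
  simp only [Br, hG, cls_all (j := n + 1) h, Finset.sum_const, Finset.card_univ, Fintype.card_fin,
    nsmul_eq_mul]
  field_simp

theorem Br_cls {K n : ℕ} {τ : SM (r + 1)} (hτ : Rz K τ) (hn : n < K) {G : Fin (r + 1) → ℝ} {u : ℝ}
    (hG : ∀ c, G c = if n < τ 0 c then u else 0) : Br τ n G = u := by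
  have hc : ∀ c, n < τ 0 c → cls τ c (n + 1) = cls τ 0 (n + 1) := fun c hc =>
    congrArg Finset.card (Finset.filter_congr fun b _ => by
      have h1 := hτ.ultra 0 c b
      have h2 := hτ.ultra c 0 b
      rw [hτ.comm c 0] at h2
      omega)
  have h0 : (cls τ 0 (n + 1) : ℝ) ≠ 0 := by
    have : 0 < cls τ 0 (n + 1) := Finset.card_pos.2 ⟨0, by simp [hτ.self]; omega⟩
    exact_mod_cast this.ne'
  have : ∀ c, G c / cls τ c (n + 1) = if n + 1 ≤ τ 0 c then u / cls τ 0 (n + 1) else 0 := fun c => by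
    rw [hG]
    by_cases h : n < τ 0 c
    · rw [if_pos h, if_pos (Nat.succ_le_of_lt h), hc c h]
    · rw [if_neg h, if_neg (by omega), zero_div]
  simp only [Br, this]
  rw [← Finset.sum_filter, Finset.sum_const, nsmul_eq_mul]
  exact mul_div_cancel₀ _ h0

theorem Ws_lt (R : List (Lv Ω)) {σ : SM (r + 1)} {n : ℕ} (hn : n + 1 < R.length)
    (h : ∀ a b, n + 1 < σ a b) (u : ℝ) :
    Ws R σ (fun _ k => if k < n + 1 then u else 0) = ex R n * u := by
  rw [Ws, Finset.sum_eq_single n (fun j _ hj => by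
      rcases lt_or_gt_of_ne hj with h' | h'
      · simp [show j < n + 1 by omega, h']
      · simp [show ¬j < n + 1 by omega, show ¬j < n by omega])
    fun h' => absurd (Finset.mem_range.2 (by omega)) h']
  have := Br_const (n := n) (σ := σ) (fun a b => by have := h a b; omega) (G := fun _ => u)
    fun _ => rfl
  simp only [show ¬R.length < n + 1 by omega, if_false, Finset.sum_const_zero, zero_add,
    Nat.lt_succ_self, if_true, lt_irrefl, sub_zero]
  exact congrArg _ this

/-- **the exact response** -/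
theorem at_free (hw : Wt w) {R : List (Lv Ω)} {h : Ω → ℝ} {n : ℕ} {P : (Ω → ℝ) → ℝ}
    (H : Fr w R h n P) (hP : ∀ c f, P (fun z => c * f z) = c * P f) (h0 : 0 < n)
    (hn : n < R.length) {σ : SM (r + 1)} (hσ : Rz R.length σ) (hs : ∀ a b, n < σ a b)
    {K : Ω → Ω → ℝ} (hK : ∀ x y, K x y = K y x) (F : (Fin (r + 1) → Ω) → ℝ) :
    At w R h n K σ F = -2 * dL w R h σ (fun y => P fun z => K z y) F := by
  set k : Ω → ℝ := fun y => P fun z => K z y with hk
  set u : Fin (r + 1) → ℕ → ℝ := fun a j =>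
    TM w R h (gr R.length σ a j) fun x => F (fun c => x c.succ) * k (x 0) with hu
  have es : ∀ {m : ℕ} {τ : SM m} {a b : Fin m}, τ a b = n → ∀ x,
      ed (sgl n K) a b x τ = K (x a) (x b) := fun e x => by simp [ed, sgl, e]
  -- one new leaf
  have t1 : ∀ a, Q1 w R h (sgl n K) F (gr R.length σ a n) =
      2 * ∑ b, TM w R h σ fun x => F x * k (x b) := fun a => by
    have e1 : ∀ b : Fin (r + 1), gr R.length σ a n 0 b.succ = n := fun b =>
      min_eq_left (hs b a).le
    have e2 : ∀ b : Fin (r + 1), gr R.length σ a n b.succ 0 = n := fun b =>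
      min_eq_left (hs b a).le
    have e3 : gr R.length σ a n 0 0 ≠ n := hn.ne'
    simp only [Q1, es (e1 _), es (e2 _), ed_sgl K e3, add_zero, hK _ (_ : Ω), Finset.mul_sum, TM_sum]
    refine Finset.sum_congr rfl fun b _ => ?_
    have := H r _ (hσ.gr a n) (fun b => (e1 b).le) fun z x => 2 * (F x * K z (x b))
    simp only [hP] at this
    rw [← TM_mul]
    refine Eq.trans ?_ this
    congr 1
    funext x
    rw [hK (x b.succ)]
    ring
  -- the newest leaf is free
  have t2 : ∀ a j (c : Fin (r + 2)), n ≤ gr R.length σ a j 0 c →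
      Q2 w R h (sgl n K) F (gr R.length (gr R.length σ a j) c n) = u a j := fun a j c hc => by
    have e1 : gr R.length (gr R.length σ a j) c n 0 1 = n := min_eq_left hc
    have := H (r + 1) _ ((hσ.gr a j).gr c n) (fun b => min_le_left _ _)
      fun z x => F (fun c => x c.succ) * K z (x 0)
    simp only [hP] at this
    simp only [Q2, es e1]
    exact this
  have t0 : ∀ a j, j ≤ n → u a j = u 0 n := fun a j hj => by
    have h1 := H r _ (hσ.gr a j) (fun b => (min_le_left _ _).trans hj) fun z x => F x * k z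
    have h2 := H r _ (hσ.gr 0 n) (fun b => min_le_left _ _) fun z x => F x * k z
    exact h1.trans h2.symm
  have t3 : ∀ a j, j ≠ n → (Br (gr R.length σ a j) n fun c =>
      Q2 w R h (sgl n K) F (gr R.length (gr R.length σ a j) c n)) = u a j := fun a j hj =>
    Br_cls (hσ.gr a j) hn fun c => by
      have hne := gr_ne hn.ne' (fun a b => (hs a b).ne') a hj 0 c
      split_ifs with hc
      · exact t2 a j c hc.le
      · have e1 : gr R.length (gr R.length σ a j) c n 0 1 ≠ n := by
          show min n (gr R.length σ a j 0 c) ≠ n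
          omega
        simp only [Q2, ed_sgl K e1, mul_zero, TM_zero]
  -- the older new leaf is free
  have t4 : ∀ a (b : Fin (r + 1)) j, Q2 w R h (sgl n K) F
      (gr R.length (gr R.length σ a n) b.succ j) = u b j - if j < n then u 0 n else 0 := fun a b j => by
    have e0 : gr R.length (gr R.length σ a n) b.succ j 0 1 = min j n := by
      show min j (min n (σ b a)) = _
      rw [min_eq_left (hs b a).le]
    split_ifs with hj
    · rw [t0 b j hj.le, sub_self]
      have e1 : gr R.length (gr R.length σ a n) b.succ j 0 1 ≠ n := by rw [e0]; omega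
      simp only [Q2, ed_sgl K e1, mul_zero, TM_zero]
    · have hτ := (hσ.gr a n).gr b.succ j
      have e1 := TM_inj (h := h) hw hτ (Equiv.swap (0 : Fin (r + 3)) 1).injective
        fun y => F (fun c => y c.succ.succ) * K (y 0) (y (Fin.succ 0))
      have e2 := H (r + 1) _ (hτ.perm (Equiv.swap 0 1)) (fun c => by
        refine Fin.cases ?_ (fun c => ?_) c
        · rw [swap_0, swap_1]
          exact (min_le_right _ _).trans (min_le_left _ _)
        · rw [swap_0, swap_2]
          exact min_le_left _ _) fun z x => F (fun c => x c.succ) * K z (x 0)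
      have e3 : (fun c d : Fin (r + 2) => gr R.length (gr R.length σ a n) b.succ j
          (Equiv.swap 0 1 c.succ) (Equiv.swap 0 1 d.succ)) = gr R.length σ b j := by
        funext c d
        refine Fin.cases ?_ (fun c => ?_) c <;> refine Fin.cases ?_ (fun d => ?_) d <;>
          simp only [swap_1, swap_2] <;> rfl
      simp only [hP, e3] at e2
      simp only [swap_0, swap_1, swap_2] at e1
      rw [sub_zero]
      simp only [Q2, es (e0.trans (min_eq_right (not_lt.1 hj)))]
      refine Eq.trans ?_ (e1.trans e2)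
      congr 1
      funext x
      rw [hK]
      rfl
  obtain ⟨n, rfl⟩ := Nat.exists_eq_succ_of_ne_zero h0.ne'
  have t5 : ∀ a, (Ws R (gr R.length σ a (n + 1)) fun c j => Q2 w R h (sgl (n + 1) K) F
      (gr R.length (gr R.length σ a (n + 1)) c j)) = Ws R σ u + dm R 0 (n + 1) * u 0 (n + 1) :=
    fun a => by
      rw [Ws_gr R hσ a hn.le ((hσ.gr a _).ncm _), Finset.sum_eq_single 0 (fun i hi h0 => by
        have e1 : gr R.length (gr R.length σ a (n + 1)) 0 (i + (n + 1)) 0 1 ≠ n + 1 := by
          show min (i + (n + 1)) R.length ≠ n + 1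
          omega
        simp only [Q2, ed_sgl K e1, mul_zero, TM_zero]) (by simp), zero_add,
        t2 a _ 0 hn.le, t0 a _ le_rfl]
      simp only [t4, Ws_sub, Ws_lt R hn hs, dm, exP, ex_drop22, zero_add]
      ring
  have t6 : (Ws R σ fun a j => if j = n + 1 then 0 else Br (gr R.length σ a j) (n + 1) fun c =>
      Q2 w R h (sgl (n + 1) K) F (gr R.length (gr R.length σ a j) c (n + 1))) =
      Ws R σ u - dm R 0 (n + 1) * u 0 (n + 1) := by
    rw [← Br_const hs (G := fun a => if n + 1 = n + 1 then u 0 (n + 1) else 0) fun _ => if_pos rfl,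
      ← Ws_single R h0 hn (fun a b => (hs a b).ne')
        (G := fun a j => if j = n + 1 then u 0 (n + 1) else 0) fun _ _ _ hj => if_neg hj, ← Ws_sub]
    refine Ws_congr R σ fun a j _ => ?_
    split_ifs with hj
    · rw [hj, t0 a _ le_rfl, sub_self]
    · rw [t3 a j hj, sub_zero]
  rw [At, AtW, Br_const hs t1, t6, Br_const hs t5, dL]
  ring

end Crest.Agent.T156.Cas.H26

end
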