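import Crest.Agent.T156.R2HB_26

/-!
# Row 156 (helper26): second derivatives in the field near the bottom of a site cascade
-/

set_option autoImplicit false
set_option linter.unusedSectionVars false
set_option linter.unusedVariables false

noncomputable section

namespace Crest.Agent.T156.Cas.H26

open MeasureTheory Real Set Filter Topology
open Crest.Agent.T157.E Crest.Agent.T157.Casc Crest.Agent.T157.SL
open Crest.ProbabilityR.SpinGlassDynamics (spin)
open Nu87 Ker15 Hom68 One15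

section gen
variable {Ω : Type} [Fintype Ω] {w : Ω → ℝ} {r : ℕ}

theorem dL_aff (hw : Wt w) {R : List (Lv Ω)} (h : Ω → ℝ) {σ : SM r} (hσ : Rz R.length σ)
    (f : Ω → ℝ) (m q : ℝ) (F : (Fin r → Ω) → ℝ) :
    dL w R h σ (fun b => m * f b - q) F = m * dL w R h σ f F := by
  have e : ∀ a b : ℝ, a * (m * b - q) = m * (a * b) - q * a := fun a b => by ring
  have e2 : ∀ a k, TM w R h (gr R.length σ a k) (fun x => F fun c => x c.succ) = TM w R h σ F :=
    fun a k => TM_inj hw (hσ.gr a k) (Fin.succ_injective r) F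
  simp only [dL, e, TM_sub, TM_mul, e2, Ws_sub, Ws_mul, Ws_const, Finset.sum_sub_distrib,
    ← Finset.mul_sum, Finset.sum_const, Finset.card_univ, nsmul_eq_mul]
  ring

theorem Pf_aff (hw : Wt w) (L : List (Lv Ω)) (h f : Ω → ℝ) (c q : ℝ) :
    Pf w L h (fun z => f z * c - q) = Pf w L h f * c - q := by
  simp only [Pf, mul_sub, Finset.sum_sub_distrib, ← Finset.sum_mul, sum_P hw, one_mul, ← mul_assoc]

theorem Pf_cmul (L : List (Lv Ω)) (h : Ω → ℝ) (c : ℝ) (f : Ω → ℝ) :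
    Pf w L h (fun z => c * f z) = c * Pf w L h f := by
  simp only [Pf, Finset.mul_sum, mul_left_comm c]

/-- a kernel on the marked pair -/
def Fp (K : Ω → Ω → ℝ) (x : Fin 2 → Ω) : ℝ := K (x 0) (x 1)

theorem two_TM (hw : Wt w) (L : List (Lv Ω)) (h : Ω → ℝ) {i : ℕ} (hi : i ≤ L.length)
    (K : Ω → Ω → ℝ) : twoF i K (TEf w L h) = TM w L h (tw L.length i) (Fp K) := by
  have := TM_pair (h := h) hw (rz_tw L.length i) (a := 0) (b := 1) (by decide) K
  rw [tw_01 hi] at this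
  rw [twoF_TEf hw, ← this]
  rfl

theorem two_dM (hw : Wt w) (L : List (Lv Ω)) (h : Ω → ℝ) {i n : ℕ} (hi : i ≤ L.length)
    (h0 : 0 < n) (hn : n < L.length) (K K' : Ω → Ω → ℝ) :
    twoF i K (WdO L [sgl n K'] (TEf w L h)) = dM w L h (sgl n K') (tw L.length i) (Fp K) := by
  have hc : ∀ y, sgl n K' L.length y y = 0 := fun y => by simp [sgl, hn.ne']
  have := twoF_eq_nW (h := h) hw (U := [sgl n K']) (fun S hS => by
    rw [List.mem_singleton.1 hS]
    exact ⟨by simp [sgl, h0.ne], 0, hc⟩) hi fun _ => K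
  rw [this]
  exact (dM_eq hw (rz_tw L.length i) hc (ed (fun _ => K) 0 1)).symm

end gen

variable {r : ℕ} {L : List (Lv Bool)}

theorem TM_odd (hL : Fl L) {σ : SM r} (hσ : Rz L.length σ) {G : (Fin r → Bool) → ℝ}
    (hG : ∀ x, G (fun a => !x a) = -G x) : TM (fun _ => 1) L ((0 : ℝ) • spin) σ G = 0 := by
  obtain ⟨s, e, rfl⟩ := hσ
  have h1 := TE_flip hL s (fun x => G fun a => x (e a)) 0
  have h2 := Law.TE_const_mul w1 s L ((0 : ℝ) • spin) (-1) fun x => G fun a => x (e a)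
  simp only [neg_zero, fun y : s.Lf → Bool => hG fun a => y (e a)] at h1
  simp only [neg_one_mul] at h2
  rw [TM_sm w1 s L _ e.injective]
  linarith

theorem r1_zp (H : R1 L) (n : ℕ) : R1 (zp L n) := fun l hl => by
  rcases mem_zp hl with h | ⟨m, rfl⟩
  · exact H l h
  · exact ⟨0, le_rfl, fun a b => by rw [z0_cov, zero_mul]⟩

theorem cl_zp (H : R1 L) (hM : Mono 0 L) {n : ℕ} (hn : n ≤ L.length) {e : ℝ}
    (he : min 1 (tm L n) ≤ e) (h : Bool → ℝ) : Hom68.Cl (fun _ => 1) 6 L h (zp L n) h (72 * e) := by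
  have t0 : ∀ j, 0 ≤ tm L j := fun j => by
    have := H.tm_mono (Nat.zero_le j)
    rwa [show tm L 0 = 0 by simp [tm, cacc]] at this
  have et : ∀ j, tm (zp L n) j - tm L j = -tm L (min j n) := fun j => by
    rw [tm, cacc_zp, tm, tm]; ring
  rcases min_le_iff.1 he with h1 | h1
  · refine ⟨(st_zp L n).len.symm, fun r τ _ hτ G b hG => ?_⟩
    have a1 := abs_TM w1 h hτ hG
    have a2 := abs_TM w1 h ((st_zp L n).len ▸ hτ : Rz (zp L n).length τ) hG
    have b0 := (abs_nonneg _).trans a1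
    refine (abs_sub _ _).trans ?_
    nlinarith
  · refine (cl_cov w1 hM (st_zp L n) (fun y => H.diag (r1_zp H n) _ y) (g := e) (fun j _ x y => ?_)
      6 h).mono w1 (by norm_num)
    rw [H.abs_dC (r1_zp H n), et, abs_neg, abs_of_nonneg (t0 _)]
    exact (H.tm_mono (min_le_right _ _)).trans h1

/-- derivatives of the magnetisation -/
def mg (L : List (Lv Bool)) (k : ℕ) (y : ℝ) : ℝ :=
  Tk (fun _ => 1) L spin y k 1 (fun _ _ => L.length) fun x => spin (x 0)

/-- derivatives of a pair expectation -/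
def pg (L : List (Lv Bool)) (i : ℕ) (K : Bool → Bool → ℝ) (k : ℕ) (y : ℝ) : ℝ :=
  Tk (fun _ => 1) L spin y k 2 (tw L.length i) (Fp K)

/-- derivatives of the response at the node `n` -/
def ag (L : List (Lv Bool)) (n : ℕ) (K' : Bool → Bool → ℝ) (i : ℕ) (K : Bool → Bool → ℝ) (k : ℕ)
    (y : ℝ) : ℝ := AtF L (Tk (fun _ => 1) L spin y k) n K' (tw L.length i) (Fp K)

/-- derivatives of a word with one letter -/
def wg (L : List (Lv Bool)) (n : ℕ) (K' : Bool → Bool → ℝ) (i : ℕ) (K : Bool → Bool → ℝ) (k : ℕ)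
    (y : ℝ) : ℝ := dMF L (Tk (fun _ => 1) L spin y k) (sgl n K') (tw L.length i) (Fp K)

theorem ld_mg (L : List (Lv Bool)) : Ld (mg L) := ld_Tk w1 L spin (rz_one _) _
theorem ld_pg (L : List (Lv Bool)) (i : ℕ) (K : Bool → Bool → ℝ) : Ld (pg L i K) :=
  ld_Tk w1 L spin (rz_tw _ i) _
theorem ld_ag (L : List (Lv Bool)) (n : ℕ) (K' : Bool → Bool → ℝ) (i : ℕ) (K : Bool → Bool → ℝ) :
    Ld (ag L n K' i K) := ld_At w1 L spin n K' (rz_tw _ i) _
theorem ld_wg (L : List (Lv Bool)) (n : ℕ) (K' : Bool → Bool → ℝ) (i : ℕ) (K : Bool → Bool → ℝ) :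
    Ld (wg L n K' i K) := ld_dM w1 L spin _ (rz_tw _ i) _

theorem mg_zero (L : List (Lv Bool)) (y : ℝ) : mg L 0 y = Pf (fun _ => 1) L (y • spin) spin :=
  TM_single w1 (rz_one _) 0 spin

theorem iter_X (L : List (Lv Bool)) :
    iteratedDeriv 2 (fun y : ℝ => X (fun _ => 1) L fun b => y * spin b) 0 = mg L 1 0 := by
  have e : deriv (fun y : ℝ => X (fun _ => 1) L fun b => y * spin b) = mg L 0 := by
    funext y
    have h1 := (gr_X w1 L).line 0 spin y
    simp only [zero_add] at h1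
    exact h1.deriv.trans (mg_zero L y).symm
  rw [iteratedDeriv_succ, iteratedDeriv_one, e, (ld_mg L 0 0).deriv]

theorem tw_ne {K i n : ℕ} (hi : i ≤ K) (hn : n < K) (h : i ≠ n) : ∀ a b, tw K i a b ≠ n :=
  gr_ne hn.ne' (fun _ _ => hn.ne') 0 h

theorem tw_gt {K i n : ℕ} (hn : n < K) (h : n < i) : ∀ a b, n < tw K i a b := fun a b => by
  refine Fin.cases ?_ (fun a => ?_) a <;> refine Fin.cases ?_ (fun b => ?_) b
  exacts [hn, lt_min h hn, lt_min h hn, hn]

theorem wg_eq {n i : ℕ} (h0 : 0 < n) (hn : n < L.length) (hi : i ≤ L.length) (h : i ≠ n)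
    (K' K : Bool → Bool → ℝ) : wg L n K' i K 2 0 = dm L 0 n * ag L n K' i K 2 0 := by
  rw [← (ld_wg L n K' i K).iter2, ← ((ld_ag L n K' i K).cmul (dm L 0 n)).iter2]
  congr 1
  funext y
  exact dM_single L _ h0 hn (tw_ne hi hn h) K' _

theorem as1 (b : Bool) : |spin b| ≤ 1 := (One15.abs_spin b).le

section bd
variable (hM : Mono 0 L) {K K' : Bool → Bool → ℝ} (hK : ∀ a b, |K a b| ≤ 2)
  (hK' : ∀ a b, |K' a b| ≤ 2) (n i : ℕ)
include hM

theorem abs_mg : |mg L 1 0| ≤ 8 :=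
  (bf_Tk w1 hM as1 0 1 4 1 _ (by norm_num) (rz_one _) _ 1 zero_le_one fun _ => as1 _).trans
    (by norm_num [cT])

include hK

theorem abs_pg : |pg L i K 2 0| ≤ 160 :=
  (bf_Tk w1 hM as1 0 2 4 2 _ (by norm_num) (rz_tw _ i) _ 2 zero_le_two fun _ => hK _ _).trans
    (by norm_num [cT])

include hK'

theorem abs_ag : |ag L n K' i K 2 0| ≤ 7040 :=
  ((bf_Tk w1 hM as1 0 2 4).atF (r := 2) hM n (rz_tw _ i) zero_le_two zero_le_two hK'
    fun _ => hK _ _).trans (by norm_num [cT, cA])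

theorem abs_wg : |wg L n K' i K 2 0| ≤ 7040 :=
  ((bf_Tk w1 hM as1 0 2 4).dMF (r := 2) hM n (rz_tw _ i) zero_le_two zero_le_two hK'
    fun _ => hK _ _).trans (by norm_num [cT])

end bd

theorem mg_odd (H : R1 L) : mg L 0 0 = 0 :=
  TM_odd (G := fun x => spin (x 0)) (fl_of H.rk) (rz_one _) fun _ => One15.spin_not _

theorem pg_odd (H : R1 L) (i : ℕ) {K : Bool → Bool → ℝ} (hK : ∀ a b, K (!a) (!b) = K a b) :
    pg L i K 1 0 = 0 := by
  have e1 : ∀ a, TF (fun _ => 1) L ((0 : ℝ) • spin) 2 (tw L.length i)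
      (fun x => Fp K x * spin (x a)) = 0 := fun a =>
    TM_odd (fl_of H.rk) (rz_tw _ i) fun x => by simp only [Fp, hK, One15.spin_not, mul_neg]
  have e2 : ∀ a k, TF (fun _ => 1) L ((0 : ℝ) • spin) (2 + 1) (gr L.length (tw L.length i) a k)
      (fun x => Fp K (fun c => x c.succ) * spin (x 0)) = 0 := fun a k =>
    TM_odd (fl_of H.rk) ((rz_tw _ i).gr a k) fun x => by simp only [Fp, hK, One15.spin_not, mul_neg]
  simp only [pg, Tk, dF, e1, e2, Ws_const, Finset.sum_const_zero, mul_zero, sub_zero]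

/-- `η` -/
def et (q : ℝ) (a b : Bool) : ℝ := spin a * spin b - q

theorem ag_zp (H : R1 L) {n i : ℕ} (h0 : 0 < n) (hn : n < L.length) (hi : n < i) (q : ℝ)
    {K : Bool → Bool → ℝ} (hK : ∀ a b, K (!a) (!b) = K a b) :
    ag (zp L n) n (et q) i K 2 0 = -4 * (mg (zp L n) 1 0 * pg (zp L n) i K 2 0) := by
  have hl := (st_zp L n).len
  have := (ld_ag (zp L n) n (et q) i K).prod (ld_mg (zp L n)) (ld_pg (zp L n) i K).succ
    (κ := -2) (q := 0) fun y => by
      have h1 := at_free w1 (fr_zp w1 L (y • spin) hn.le) (Pf_cmul _ _) h0 (hl ▸ hn)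
        (rz_tw (zp L n).length i) (tw_gt (hl ▸ hn) hi) (K := et q)
        (fun a b => by rw [et, et, mul_comm]) (Fp K)
      simp only [et, Pf_aff w1] at h1
      rw [dL_aff w1 _ (rz_tw _ i), ← Pf_zp w1 L _ hn.le, ← mg_zero] at h1
      rw [sub_zero]
      exact h1
  rw [this, mg_odd (r1_zp H n), pg_odd (r1_zp H n) i hK]
  ring

theorem pg_zp (H : R1 L) {n : ℕ} (hn : n ≤ L.length) (q : ℝ) :
    pg (zp L n) n (et q) 2 0 = 2 * mg (zp L n) 1 0 ^ 2 := by
  have := (ld_pg (zp L n) n (et q)).prod (ld_mg (zp L n)) (ld_mg (zp L n)) (κ := 1) (q := q)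
    fun y => by
      have h1 := fr_zp w1 L (y • spin) hn 0 _ (rz_tw (zp L n).length n) (fun b => min_le_left _ _)
        fun z x => spin z * spin (x 0) - q
      simp only [Pf_aff w1] at h1
      rw [← Pf_zp w1 L _ hn, ← mg_zero] at h1
      rw [one_mul]
      refine h1.trans ?_
      rw [TM_sub, TM_mul, show (fun a b : Fin (0 + 1) => tw (zp L n).length n a.succ b.succ) =
        fun _ _ => (zp L n).length from rfl, TM_const w1 (rz_one _)]
      rfl
  rw [this, mg_odd (r1_zp H n)]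
  ring

section cl
variable (H : R1 L) (hM : Mono 0 L) {n : ℕ} (hn : n < L.length) {e : ℝ} (he0 : 0 ≤ e)
  (he : min 1 (tm L n) ≤ e)
include H hM hn he0 he

theorem bf_zp (k : ℕ) (hk : k ≤ 2) : BF L.length 4 (cT 4 k * (72 * e)) fun r σ F =>
    Tk (fun _ => 1) (zp L n) spin 0 k r σ F - Tk (fun _ => 1) L spin 0 k r σ F :=
  bf_sub hM (st_zp L n) as1 0 (by positivity) (cl_zp H hM hn.le he _) k 4 (by omega)

theorem mg_sub : |mg (zp L n) 1 0 - mg L 1 0| ≤ 576 * e := by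
  have := bf_zp H hM hn he0 he 1 one_le_two 1 _ (by norm_num) (rz_one _) (fun x => spin (x 0)) 1
    zero_le_one fun _ => as1 _
  rw [mg, mg, ← (st_zp L n).len]
  exact this.trans_eq (by norm_num [cT]; ring)

theorem pg_sub (i : ℕ) {K : Bool → Bool → ℝ} (hK : ∀ a b, |K a b| ≤ 2) :
    |pg (zp L n) i K 2 0 - pg L i K 2 0| ≤ 11520 * e := by
  have := bf_zp H hM hn he0 he 2 le_rfl 2 _ (by norm_num) (rz_tw _ i) (Fp K) 2 zero_le_two
    fun _ => hK _ _
  rw [pg, pg, ← (st_zp L n).len]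
  exact this.trans_eq (by norm_num [cT]; ring)

theorem ag_sub (i : ℕ) {K K' : Bool → Bool → ℝ} (hK : ∀ a b, |K a b| ≤ 2)
    (hK' : ∀ a b, |K' a b| ≤ 2) : |ag (zp L n) n K' i K 2 0 - ag L n K' i K 2 0| ≤ 506880 * e := by
  have := (bf_zp H hM hn he0 he 2 le_rfl).atF (r := 2) hM n (rz_tw _ i) zero_le_two zero_le_two hK'
    (F := Fp K) fun _ => hK _ _
  rw [AtF_sub] at this
  rw [ag, ag, AtF_st (st_zp L n), ← (st_zp L n).len]
  exact this.trans_eq (by norm_num [cT, cA]; ring)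

/-- **the response at a low node factorises** -/
theorem ag_main (h0 : 0 < n) {i : ℕ} (hi : n < i) {q : ℝ} (hq : ∀ a b, |et q a b| ≤ 2)
    {K : Bool → Bool → ℝ} (hK : ∀ a b, |K a b| ≤ 2) (hK' : ∀ a b, K (!a) (!b) = K a b) :
    |ag L n (et q) i K 2 0 + 4 * (mg L 1 0 * pg L i K 2 0)| ≤ 1300000 * e := by
  have hM' := Cav22.mono_tilt (st_zp L n) hM
  have a1 := ag_sub H hM hn he0 he i hK hq
  rw [ag_zp H h0 hn hi q hK'] at a1
  have a2 := mul_le_mul (mg_sub H hM hn he0 he) (abs_pg hM hK i) (abs_nonneg _) (by positivity)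
  have a3 := mul_le_mul (abs_mg hM') (pg_sub H hM hn he0 he i hK) (abs_nonneg _) (by positivity)
  rw [← abs_mul] at a2 a3
  have b1 := abs_le.1 a1
  have b2 := abs_le.1 a2
  have b3 := abs_le.1 a3
  exact abs_le.2 ⟨by nlinarith [b1.2, b2.2, b3.2], by nlinarith [b1.1, b2.1, b3.1]⟩

theorem pg_main {q : ℝ} (hq : ∀ a b, |et q a b| ≤ 2) :
    |pg L n (et q) 2 0 - 2 * mg L 1 0 ^ 2| ≤ 30000 * e := by
  have hM' := Cav22.mono_tilt (st_zp L n) hM
  have a1 := pg_sub H hM hn he0 he n hq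
  rw [pg_zp H hn.le] at a1
  have a2 := mul_le_mul (mg_sub H hM hn he0 he) (abs_mg hM) (abs_nonneg _) (by positivity)
  have a3 := mul_le_mul (mg_sub H hM hn he0 he) (abs_mg hM') (abs_nonneg _) (by positivity)
  rw [← abs_mul] at a2 a3
  have b1 := abs_le.1 a1
  have b2 := abs_le.1 a2
  have b3 := abs_le.1 a3
  exact abs_le.2 ⟨by nlinarith [b1.2, b2.1, b3.1], by nlinarith [b1.1, b2.2, b3.2]⟩

end cl

end Crest.Agent.T156.Cas.H26

end
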