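import Crest.Agent.T156.R2K_30
import Crest.Agent.T156.ClReg_29

/-!
# Row 156, R2 (helper90): the low source `JS`
-/

set_option autoImplicit false

noncomputable section

namespace Crest.Agent.T156.Alt.R2.J90

open Real Finset
open Crest.Agent.T156.Cas Crest.Agent.T156.Cas.C40 Crest.Agent.T156.Alt.Md67

variable {S : Sc} {M : Md} {m : ℕ} {a : ℝ}

theorem dz_nn (G : Lg M m a) (k : ℕ) : 0 ≤ M.dz m a k := by
  rcases k with _ | k
  · rw [dz_zero G.toLeg]; exact sub_nonneg.2 G.z0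
  · rw [dz_succ G.toLeg]; exact sub_nonneg.2 (G.zm (Nat.le_succ k))

theorem dz_le (h : Cl S M) {k : ℕ} (h0 : S.j0 < k) (hk : k < S.J) :
    M.dz m a k ≤ S.C ^ 2 * (M.s (k + 1) - M.s k) := by
  obtain ⟨j, rfl⟩ : ∃ j, k = j + 1 := ⟨k - 1, by omega⟩
  have z := (h.zs j (by omega) hk).2
  have s := (h.ss (j + 1) hk).1
  have C0 := h.C0
  rw [div_le_iff₀ C0] at s
  rw [dz_succ h.leg]
  nlinarith

theorem log_step {x y : ℝ} (hx : 0 < x) (hxy : x ≤ y) (h2 : y ≤ 2 * x) :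
    (y - x) / x ≤ 2 * (log y - log x) := by
  have hy : 0 < y := hx.trans_le hxy
  have h1 := one_sub_inv_le_log_of_pos (div_pos hy hx)
  rw [log_div hy.ne' hx.ne', inv_div] at h1
  have e : 1 - x / y = (y - x) / y := by field_simp
  rw [e] at h1
  have : (y - x) / x ≤ 2 * ((y - x) / y) := by
    rw [← mul_div_assoc, div_le_div_iff₀ hx hy]
    nlinarith
  linarith

/-- **the low source on the class** -/
theorem core (h : Cl S M) (G : Lg M m a) {i : ℕ} (hi : i ≤ S.J) {A t0 T a1 a2 a3 : ℝ}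
    (ht0 : M.s S.j0 < t0) (hJ : t0 < M.s S.J) (hv : S.C * S.v ≤ t0) (hT : M.s i ≤ T)
    (h0T : t0 ≤ T) (p1 : 0 ≤ a1) (p2 : 0 ≤ a2) (p3 : 0 ≤ a3)
    (hA : ∑ k ∈ range i, M.dz m a k * M.E2 m a (fun R => (R - M.q k) ^ 2) k ≤ A)
    (hV : ∀ k < i, t0 ≤ M.s k → |M.del m a k| ≤ a1 / M.s k ^ 2 + a2 / M.s k + a3) :
    |∑ k ∈ range i, M.dz m a k * M.E2 m a (fun R => R ^ 2) k -
      ∑ k ∈ range i, M.dz m a k * M.q k ^ 2| ≤
      2 * A + 3 * S.C * t0 ^ 3 + 2 * S.C ^ 2 * (2 * a1 * log (T / t0) + (a2 + a3 * T) * T) := by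
  have C0 := h.C0
  have C1 := h.C1
  have v0 := h.v0
  have t0p : 0 < t0 := (h.s_nn _).trans_lt ht0
  have iN : S.J ≤ M.N := h.i3.trans h.i4.le
  obtain ⟨k1, hk1, b1, b2, -⟩ := h.exists_node t0p.le hJ
  set U : ℕ → ℝ := fun k => M.E2 m a (fun R => (R - M.q k) ^ 2) k with hU
  set φ : ℕ → ℝ := fun k => log (max (M.s k) t0) with hφ
  have φm : ∀ k, φ k ≤ φ (k + 1) := fun k =>
    log_le_log (lt_max_of_lt_right t0p) (max_le_max_right _ (h.sm (Nat.le_succ k)))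
  have a23 : 0 ≤ a2 + a3 * T := by have := t0p.le.trans h0T; positivity
  have key : ∀ k ∈ range i, |M.dz m a k * M.E2 m a (fun R => R ^ 2) k - M.dz m a k * M.q k ^ 2| ≤
      2 * (M.dz m a k * U k) + (if k ∈ range (k1 + 1) then M.dz m a k * t0 ^ 2 else 0) +
      2 * S.C ^ 2 * (2 * a1 * (φ (k + 1) - φ k) + (a2 + a3 * T) * (M.s (k + 1) - M.s k)) := by
    intro k hk
    rw [mem_range] at hk
    have d0 := dz_nn G k
    have q0 := h.q_nn (k := k) (by omega)
    have q1 := h.q_le_s (k := k) (by omega)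
    have U0 : M.del m a k ^ 2 ≤ U k := sq_le_E2 _ k
    have e : M.dz m a k * M.E2 m a (fun R => R ^ 2) k - M.dz m a k * M.q k ^ 2 =
        M.dz m a k * (U k + 2 * (M.q k * M.del m a k)) := by
      simp only [hU, E2_sq_expand, Md.del]; ring
    have U1 : 0 ≤ U k := (sq_nonneg _).trans U0
    have e2 : |U k + 2 * (M.q k * M.del m a k)| ≤ U k + 2 * (M.q k * |M.del m a k|) := by
      refine (abs_add_le _ _).trans_eq ?_
      rw [abs_of_nonneg U1, abs_mul, abs_mul, abs_two, abs_of_nonneg q0]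
    have sm := sub_nonneg.2 (h.sm (Nat.le_succ k))
    simp only [Nat.succ_eq_add_one] at sm
    have fm := sub_nonneg.2 (φm k)
    rw [e, abs_mul, abs_of_nonneg d0]
    refine (mul_le_mul_of_nonneg_left e2 d0).trans ?_
    have dU := mul_nonneg d0 U1
    rcases lt_or_ge (M.s k) t0 with c | c
    · have kk : k ∈ range (k1 + 1) := by
        rw [mem_range]
        by_contra hc
        linarith [h.sm (show k1 + 1 ≤ k by omega)]
      rw [if_pos kk]
      have f1 : 2 * (M.q k * |M.del m a k|) ≤ U k + t0 ^ 2 := by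
        have := sq_abs (M.del m a k)
        nlinarith [sq_nonneg (M.q k - |M.del m a k|), pow_le_pow_left₀ q0 (q1.trans c.le) 2]
      have f2 := mul_le_mul_of_nonneg_left f1 d0
      have f3 : 0 ≤ 2 * S.C ^ 2 *
          (2 * a1 * (φ (k + 1) - φ k) + (a2 + a3 * T) * (M.s (k + 1) - M.s k)) := by positivity
      nlinarith
    · have s0 : 0 < M.s k := t0p.trans_le c
      have j0 : S.j0 < k := by
        by_contra hc
        linarith [h.sm (show k ≤ S.j0 by omega)]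
      have d1 : M.dz m a k ≤ _ := dz_le h j0 (by omega)
      have sT : M.s k ≤ T := (h.sm hk.le).trans hT
      have f1 : M.q k * |M.del m a k| ≤ a1 / M.s k + (a2 + a3 * T) := by
        refine (mul_le_mul q1 (hV k hk c) (abs_nonneg _) s0.le).trans ?_
        have : M.s k * (a1 / M.s k ^ 2 + a2 / M.s k + a3) = a1 / M.s k + (a2 + a3 * M.s k) := by
          field_simp; ring
        rw [this]
        linarith [mul_le_mul_of_nonneg_left sT p3]
      have f2 := mul_le_mul d1 f1 (by positivity) (by positivity)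
      have f3 : (M.s (k + 1) - M.s k) / M.s k ≤ 2 * (φ (k + 1) - φ k) := by
        simp only [hφ]
        rw [max_eq_left c, max_eq_left (by linarith)]
        exact log_step s0 (by linarith) (by linarith [(h.ss k (by omega)).2])
      have f4 := mul_le_mul_of_nonneg_left f3 (show 0 ≤ S.C ^ 2 * a1 by positivity)
      have f5 : S.C ^ 2 * (M.s (k + 1) - M.s k) * (a1 / M.s k + (a2 + a3 * T)) =
          S.C ^ 2 * a1 * ((M.s (k + 1) - M.s k) / M.s k) +
            S.C ^ 2 * ((a2 + a3 * T) * (M.s (k + 1) - M.s k)) := by ring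
      have f6 : 0 ≤ (if k ∈ range (k1 + 1) then M.dz m a k * t0 ^ 2 else 0) := by
        split_ifs <;> positivity
      nlinarith
  rw [← sum_sub_distrib]
  refine ((abs_sum_le_sum_abs _ _).trans (sum_le_sum key)).trans ?_
  rw [sum_add_distrib, sum_add_distrib, ← mul_sum, ← mul_sum, sum_add_distrib, ← mul_sum, ← mul_sum,
    sum_range_sub, sum_range_sub, sum_ite_mem, h.s0, sub_zero]
  have g1 : ∑ k ∈ range i ∩ range (k1 + 1), M.dz m a k * t0 ^ 2 ≤ 3 * S.C * t0 ^ 3 := by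
    refine (sum_le_sum_of_subset_of_nonneg inter_subset_right fun k _ _ =>
      mul_nonneg (dz_nn G k) (sq_nonneg _)).trans ?_
    rw [← sum_mul, sum_dz_range h.leg]
    have z1 := (h.z_s (le_max_right k1 S.j0) (max_lt hk1 h.j0_lt)).2
    have z2 := h.leg.zm (le_max_left k1 S.j0)
    have z3 : M.s (max k1 S.j0) ≤ t0 := by
      rcases le_total k1 S.j0 with c | c
      · rw [max_eq_right c]; exact ht0.le
      · rw [max_eq_left c]; exact b1
    have z4 : S.v ≤ t0 := (le_mul_of_one_le_left v0.le C1).trans hv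
    have z5 : M.z k1 - a ≤ 3 * S.C * t0 := by nlinarith [G.a0]
    nlinarith [mul_le_mul_of_nonneg_right z5 (sq_nonneg t0)]
  have g2 : φ i - φ 0 ≤ log (T / t0) := by
    simp only [hφ]
    rw [h.s0, max_eq_right t0p.le, log_div (t0p.trans_le h0T).ne' t0p.ne']
    exact sub_le_sub_right (log_le_log (lt_max_of_lt_right t0p) (max_le hT h0T)) _
  have g3 := mul_le_mul_of_nonneg_left g2 (show 0 ≤ 2 * a1 by positivity)
  have g4 := mul_le_mul_of_nonneg_left hT a23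
  have g5 := mul_le_mul_of_nonneg_left (add_le_add g3 g4) (show 0 ≤ 2 * S.C ^ 2 by positivity)
  linarith

/-- **what `JS` reads**, with the loss `κ^{-K}` -/
structure JI (K : ℕ) (p : Pm) (P : Pl) (m : ℕ) (a : ℝ) : Prop where
  sq : ∑ k ∈ range (jc p), (Me p P).dz m a k *
    (Me p P).E2 m a (fun R => (R - (Me p P).q k) ^ 2) k ≤
      (p.κ ^ K)⁻¹ * (p.s ^ 3 * (p.n : ℝ) ^ (-(1 : ℝ) / 2))
  sup : ∀ k < jc p, (p.κ ^ K)⁻¹ * (p.s * (p.n : ℝ) ^ (-(1 : ℝ) / 6)) ≤ (Me p P).s k →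
    |(Me p P).del m a k| ≤ (p.κ ^ K)⁻¹ * (p.s ^ 3 * (p.n : ℝ) ^ (-(1 : ℝ) / 2) / (Me p P).s k ^ 2 +
      p.s ^ 2 * (p.n : ℝ) ^ (-(13 : ℝ) / 40))

theorem s2_eq (p : Pm) (P : Pl) (m : ℕ) (a : ℝ) (E : CIn12.Ev) : R85.s2 (D p P m a E) =
    ∑ k ∈ range (jc p), (Me p P).dz m a k * (Me p P).E2 m a (fun R => R ^ 2) k := by
  rw [R85.s2, CIn12.sum_lo]; rfl

section reg
variable {β c0 C0 c η K0 C : ℝ} {A K : ℕ} {p : Pm} {P : Pl} {E : CIn12.Ev}

/-- the size of the low source -/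
theorem abs_le (H : Reg β c0 C0 A c η K0 p) (hC : C ≤ (p.n : ℝ) ^ η) (e : En C p P)
    (h : In p m a) (K1 : 1 ≤ K) (hc : (K + 2) * c ≤ 1 / 600) (hη : 4 * η ≤ c) (I : JI K p P m a) :
    |R85.s2 (D p P m a E) - Sq p P m a| ≤
      ((p.n : ℝ) ^ η) ^ 4 * ((p.κ ^ K)⁻¹ ^ 3 * (p.s ^ 3 * (p.n : ℝ) ^ (-(1 : ℝ) / 2))) := by
  have k0 := H.κ0
  have s0 := H.s0
  have N0 := H.N0
  have v0 := H.v0
  have t0 := t10 H
  have L0 := H.Λ0
  have L3 := H.num_le
  have C1 : 1 ≤ C := e.cl.C1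
  have K1' : (1 : ℝ) ≤ K := by exact_mod_cast K1
  have c0' := H.c_pos
  have Kc : c ≤ K * c := le_mul_of_one_le_left c0'.le K1'
  have A2 : (2 : ℝ) ≤ A := by exact_mod_cast H.A2
  have j1 := jc_lt H
  have j2 := jf_lt H
  have n2 := H.lg_num (x := 2) (by norm_num) (by norm_num)
  have n3 := H.lg_num (x := 3) (by norm_num) (by norm_num)
  set L := (p.κ ^ K)⁻¹ with hL
  set Y := p.s ^ 3 * (p.n : ℝ) ^ (-(1 : ℝ) / 2) with hY
  set x0 := L * (p.s * (p.n : ℝ) ^ (-(1 : ℝ) / 6)) with hx0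
  have L1 : 1 ≤ L := one_le_inv₀ (by positivity) |>.2 (pow_le_one₀ k0.le H.κ1)
  have Y0 : 0 < Y := by positivity
  have x00 : 0 < x0 := by positivity
  have lL : logb p.n L = K * c := by rw [hL, logb_inv, logb_pow, H.lg_κ]; ring
  have lY : logb p.n Y = 3 * logb p.n p.s - 1 / 2 := by
    rw [hY]; lg_norm; rw [H.lg_n]; ring
  have lx : logb p.n x0 = K * c + logb p.n p.s - 1 / 6 := by
    rw [hx0, logb_mul (by positivity) (by positivity), lL]; lg_norm; rw [H.lg_n]; ring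
  have a1 : 2 * (p.jf * p.v) ≤ x0 := by
    have := H.jfv0
    refine H.le_of_lg (by positivity) x00 ?_
    rw [logb_mul two_ne_zero this.ne']
    linarith [H.lg_jf.2, n2.2]
  have a2 : x0 ≤ t1 p := H.le_of_lg x00 t0 (by linarith [lg_t1 H])
  have a3 : C * p.v ≤ x0 := by
    refine H.le_of_lg (by positivity) x00 ?_
    rw [logb_mul (by positivity) v0.ne']
    linarith [H.lg_v_le, H.lg_le (by positivity) hC, H.lg_s.1, H.η_pos]
  have a4 : (Me p P).s (jc p) ≤ 3 * t1 p := by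
    linarith [(e.s_lo H (k := jc p) (by omega)).2, (jc_bds H).2, H.v_le_r, r_le_t1 H]
  have a5 : x0 < (Me p P).s p.J := by
    have : (4 : ℝ) * jc p ≤ p.J := by exact_mod_cast j1
    rw [e.sJ]
    nlinarith [(jc_bds H).1]
  have a6 : log (3 * t1 p / x0) ≤ (p.n : ℝ) ^ η := by
    refine (log_le_log (by positivity) (H.le_of_lg (by positivity) N0 ?_)).trans H.log_le
    rw [logb_div (by positivity) x00.ne', logb_mul (by norm_num) t0.ne', H.lg_n]
    linarith [lg_t1 H, n3.2]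
  have a7 : (0 + L * (p.s ^ 2 * (p.n : ℝ) ^ (-(13 : ℝ) / 40)) * (3 * t1 p)) * (3 * t1 p) ≤ Y := by
    rw [zero_add]
    refine H.le_of_lg (by positivity) Y0 ?_
    rw [lY]
    lg_norm
    rw [H.lg_n]
    linarith [lg_t1 H, n3.2, H.lg_s.2]
  have a8 : x0 ^ 3 = L ^ 3 * Y := by
    rw [hx0, hY, mul_pow, mul_pow, ← rpow_mul_natCast N0.le]; norm_num
  have b := core (i := jc p) (A := L * Y) (t0 := x0) (T := 3 * t1 p) (a1 := L * Y) (a2 := 0)
    (a3 := L * (p.s ^ 2 * (p.n : ℝ) ^ (-(13 : ℝ) / 40))) e.cl (e.lg H h)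
    (show jc p ≤ p.J by omega)
    (show (Me p P).s p.jf < x0 by linarith [(e.s_lo H (k := p.jf) (by omega)).2, H.jfv0])
    a5 a3 a4 (by linarith) (by positivity) le_rfl (by positivity) I.sq
    fun k hk hs => (I.sup k hk hs).trans_eq (by ring)
  rw [s2_eq, Sq]
  refine b.trans ?_
  change 2 * (L * Y) + 3 * C * x0 ^ 3 + 2 * C ^ 2 * _ ≤ _
  rw [a8]
  set Λ := (p.n : ℝ) ^ η
  set Z := L ^ 3 * Y with hZ
  have z1 : L * Y ≤ Z := mul_le_mul_of_nonneg_right (le_self_pow₀ L1 (by norm_num)) Y0.le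
  have z2 : Y ≤ Z := (le_mul_of_one_le_left Y0.le L1).trans z1
  have Z0 : 0 < Z := Y0.trans_le z2
  have z3 : 2 * (L * Y) * log (3 * t1 p / x0) ≤ 2 * Z * Λ :=
    (mul_le_mul_of_nonneg_left a6 (by positivity)).trans (by gcongr)
  have z4 : 2 * C ^ 2 * (2 * (L * Y) * log (3 * t1 p / x0) +
      (0 + L * (p.s ^ 2 * (p.n : ℝ) ^ (-(13 : ℝ) / 40)) * (3 * t1 p)) * (3 * t1 p)) ≤
      2 * Λ ^ 2 * (2 * Z * Λ + Z) :=
    (mul_le_mul_of_nonneg_left (add_le_add z3 (a7.trans z2)) (by positivity)).trans (by gcongr)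
  have z5 : C * Z ≤ Λ * Z := mul_le_mul_of_nonneg_right hC Z0.le
  have z6 : 2 + 3 * Λ + 2 * Λ ^ 2 * (2 * Λ + 1) ≤ Λ ^ 4 := by
    have w1 : Λ ≤ Λ ^ 2 := le_self_pow₀ (by linarith) (by norm_num)
    have w2 : Λ ^ 2 ≤ Λ ^ 3 := pow_le_pow_right₀ (by linarith) (by norm_num)
    nlinarith [mul_le_mul_of_nonneg_right L3 (pow_pos L0 3).le]
  nlinarith [mul_le_mul_of_nonneg_right z6 Z0.le]

end reg

/-- **the low source** -/
theorem jS_of {β : ℝ} (hβ : 1 < β) (K : ℕ) (K1 : 1 ≤ K)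
    (h : EvA β fun p P m a _ => JI K p P m a) : JS β := by
  unfold JS EvA at *
  exact Sml.glueC hβ (enS hβ) h fun C _ c0 C0 _ _ => ⟨0, fun A _ => ⟨1 / 600 / (K + 2), by positivity,
    fun c hc c0' => ⟨c / 4, by positivity, fun η hη _ => ⟨C, fun p H e I P m a E ad => by
      rw [le_div_iff₀' (by positivity)] at hc hη
      have b := abs_le (E := E) H H.K_le (e H.r_le_ye P ad.sp) ad.inn K1 hc hη (I P m a E ad)
      have k0 := H.κ0
      have s0 := H.s0
      have N0 := H.N0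
      have t0 := t10 H
      have u0 := un0 H
      have g0 := gn0 H 200
      refine ((sq_abs _).symm.trans_le (pow_le_pow_left₀ (abs_nonneg _) b 2)).trans
        (H.le_of_lg (by positivity) (by positivity) ?_)
      lg_norm
      rw [H.lg_n, H.lg_κ, lg_gn H, lg_un H, lg_t1 H]
      linarith⟩⟩⟩⟩

end Crest.Agent.T156.Alt.R2.J90

end
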