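import Crest.Agent.T156.PLinB_81
import Crest.Agent.T156.Twin_20
import Crest.Agent.T156.PMer_97

/-!
Row 156, R2 (helper81): a list `V` that is merged below a time `s` and follows the reference list
`l` above `s` up to a clock error: (TWIN) against the full reference, (A), (B).
-/

set_option autoImplicit false

noncomputable section

namespace Crest.Agent.T156.Pr.Ref81

open MeasureTheory Set Filter
open Crest.Agent.R164.GC Crest.Agent.R339.B Crest.Agent.R339.Var Crest.Agent.T157.Pf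
open Exp50 (Iz Z1 M1 eps0 ev hv Aq)
open Ker (Nf Wf Tp)

variable {l V : List (ℝ × ℝ)} {x s h d : ℝ}

theorem adm_glue {R : List (ℝ × ℝ)} {m : ℝ} (hR : Adm 1 R) (hm : m ≤ headLv 1 R) :
    ∀ {M : List (ℝ × ℝ)}, Adm 1 M → (∀ p ∈ M, p.1 ≤ m) → Adm 1 (M ++ R)
  | [], _, _ => hR
  | [p], a, k => ⟨a.1, (k p List.mem_cons_self).trans hm, a.2.2.1, hR⟩
  | _ :: _ :: _, a, k =>
    ⟨a.1, a.2.1, a.2.2.1, adm_glue hR hm a.2.2.2 fun q hq => k q (List.mem_cons_of_mem _ hq)⟩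

theorem lvr_glue (R : List (ℝ × ℝ)) : ∀ {M : List (ℝ × ℝ)}, Adm 1 M → ∀ r, 0 ≤ r →
    (r < TT M → lvr 1 (M ++ R) r = lvr 1 M r) ∧ (TT M ≤ r → lvr 1 (M ++ R) r = lvr 1 R (r - TT M))
  | [], _, r, r0 => ⟨fun a => absurd a (not_lt.2 r0), fun _ => by simp [TT]⟩
  | p :: M, a, r, r0 => by
    have t0 : 0 ≤ TT M := TT_nonneg (Ker.nn_of_adm a.2.2.2)
    rw [TT_cons]
    simp only [List.cons_append, lvr]
    split_ifs with c
    · exact ⟨fun _ => rfl, fun e => absurd c (by linarith)⟩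
    · obtain ⟨i1, i2⟩ := lvr_glue R a.2.2.2 (r - p.2) (by linarith)
      exact ⟨fun e => i1 (by linarith), fun e => by rw [i2 (by linarith), sub_sub]⟩

/-- `l` below `s`, `V` above `s` -/
theorem splice (a : Adm 1 l) (c : Adm 1 V) (s0 : 0 < s) (s1 : s ≤ TT l) (s2 : s ≤ TT V)
    (hl : ∀ r, 0 ≤ r → r < s → lvr 1 l r ≤ x) (hx : x ≤ lvr 1 V s) : ∃ W, Adm 1 W ∧ TT W = TT V ∧
    (∀ r, 0 ≤ r → r < s → lvr 1 W r = lvr 1 l r) ∧ ∀ r, s ≤ r → lvr 1 W r = lvr 1 V r := by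
  obtain ⟨u, o, e, -⟩ := Spl27.exists_ok c
  obtain ⟨r1, r2, r3, r4⟩ := Mer97.rs_spec o s0.le
  have tc := Twin20.tt_cut a ⟨s0.le, s1⟩
  have ac := Ker.adm_pre _ (Ker.adm_cut a s0.le).1
  refine ⟨cut l s ++ Mer97.rs u s, adm_glue r1.1 (by rw [r2, ← e.lv s s0.le]; exact hx) ac
    fun p hp => (Twin20.lo_cut a s0 hl p hp).2.1, ?_, fun r r0 rs => ?_, fun r rs => ?_⟩
  · rw [Ker.TT_append, tc, r3 (e.tt ▸ s2), e.tt]; ring
  · rw [(lvr_glue _ ac r r0).1 (tc.symm ▸ rs), Ker.lvr_cut l rs]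
  · rw [(lvr_glue _ ac r (s0.le.trans rs)).2 (tc.symm ▸ rs), tc, r4 _ (sub_nonneg.2 rs),
      sub_add_cancel, e.lv r (s0.le.trans rs)]

theorem nf_sw (a : Adm 1 l) {b : ℝ} (sb : s ≤ b) (d0 : 0 ≤ d)
    (w : ∀ r, s ≤ r → lvr 1 l r ≤ lvr 1 V r ∧ lvr 1 V r ≤ lvr 1 l (r + d)) : Nf l V s b ≤ d := by
  have ii := Ker.lvr_ii l
  have i2 : IntervalIntegrable (fun r => lvr 1 l (r + d)) volume s b :=
    ((Pp.Ode3.lvr_mono a).comp fun _ _ e => add_le_add e le_rfl : Monotone fun r => lvr 1 l (r + d)).intervalIntegrable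
  have k := intervalIntegral.integral_mono_on sb (Ker.et_ii l V s b) (i2.sub (ii s b)) fun r hr => by
    obtain ⟨w1, w2⟩ := w r hr.1
    change |lvr 1 V r - lvr 1 l r| ≤ _
    rw [abs_of_nonneg (sub_nonneg.2 w1)]
    linarith
  rw [intervalIntegral.integral_sub i2 (ii s b), intervalIntegral.integral_comp_add_right (lvr 1 l)] at k
  have e1 := intervalIntegral.integral_add_adjacent_intervals (ii s (s + d)) (ii (s + d) (b + d))
  have e2 := intervalIntegral.integral_add_adjacent_intervals (ii s b) (ii b (b + d))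
  have b1 : 0 ≤ ∫ r in s..s + d, lvr 1 l r :=
    intervalIntegral.integral_nonneg (by linarith) fun r _ => (Pp.Ode3.lvr_pos a r).le
  have b2 := intervalIntegral.integral_mono_on (by linarith : b ≤ b + d) (ii b (b + d))
    (intervalIntegrable_const (c := (1:ℝ))) fun r _ => Pp.Ode3.lvr_le_one a r
  rw [intervalIntegral.integral_const, smul_eq_mul] at b2
  refine le_trans k ?_
  linarith

theorem cx_lip (o : Ok l) {a b E : ℝ} (a0 : 0 ≤ a) (ab : a ≤ b) (bT : b ≤ TT l)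
    (hE : ∀ r, a ≤ r → r < b → |x - lvr 1 l r| ≤ E) :
    |Exp50.cx l x b - Exp50.cx l x a| ≤ E * (b - a) := by
  have ap := Pp.Ode3.AP.of_ok o
  have := mvt_cmp (f := fun u => Pp.Ode3.X2 l u + x * Pp.Ode3.Gam l u) (g := fun _ => 0)
    (g' := fun _ => 0) (E := E) ab (((Pp.Ode3.X2_cont ap).add (continuousOn_const.mul
      (Pp.Ode3.Gam_cont ap))).mono (Icc_subset_Icc a0 bT))
    (fun u hu => (Pp.Ode3.X2_rder ap (a0.trans hu.1) (hu.2.trans_le bT)).add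
      ((Pp.Ode3.Gam_rder ap (a0.trans hu.1) (hu.2.trans_le bT)).const_mul x))
    (fun s => hasDerivAt_const s 0) (fun u hu => by
      have := amul (hE u hu.1 hu.2) ((abs_of_nonneg (Pp.Ode3.Gp_nonneg l u)).le.trans
        (Pp.Ode3.Gp_le_one o.1 u))
      rw [mul_one] at this
      refine le_trans (le_of_eq ?_) this
      congr 1; ring)
  rw [sub_self, sub_zero] at this
  exact this

theorem m1_cmp (o : Ok l) {a b E c e : ℝ} (a0 : 0 ≤ a) (ab : a ≤ b) (bT : b ≤ TT l)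
    (hE : ∀ r, a ≤ r → r < b → |lvr 1 l r - (c + e * r)| ≤ E) :
    |M1 l b - M1 l a - (c * (b ^ 2 - a ^ 2) / 2 + e * (b ^ 3 - a ^ 3) / 3)| ≤ E * b * (b - a) := by
  have ap := Pp.Ode3.AP.of_ok o
  have hg : ∀ r : ℝ, HasDerivAt (fun r => c * r ^ 2 / 2 + e * r ^ 3 / 3) (c * r + e * r ^ 2) r :=
    fun r => by
      have := (((hasDerivAt_pow 2 r).const_mul c).div_const 2).add
        (((hasDerivAt_pow 3 r).const_mul e).div_const 3)
      refine HasDerivAt.congr_deriv this ?_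
      norm_num
      ring
  have := mvt_cmp (E := E * b) ab ((Exp50.Iz_cont ap continuousOn_id).mono (Icc_subset_Icc a0 bT))
    (fun u hu => Exp50.Iz_rder ap continuousOn_id (a0.trans hu.1) (hu.2.trans_le bT)) hg
    (fun u hu => by
      refine le_trans (le_of_eq ?_) (amul (hE u hu.1 hu.2)
        ((abs_of_nonneg (a0.trans hu.1)).le.trans hu.2.le))
      congr 1; simp only [id]; ring)
  refine le_trans (le_of_eq ?_) this
  congr 1
  change _ = M1 l b - M1 l a - _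
  ring

theorem Mf_eq (l V : List (ℝ × ℝ)) (s : ℝ) : Twin20.Mf l V s = M1 l s - M1 V s := by
  unfold Twin20.Mf M1 Iz
  rw [← intervalIntegral.integral_sub ((Ker.lvr_ii l 0 s).mul_continuousOn (continuousOn_id' _))
    ((Ker.lvr_ii V 0 s).mul_continuousOn (continuousOn_id' _))]
  exact intervalIntegral.integral_congr fun r _ => by ring

/-- `V` has the tilt `x` on `[h, s)` and follows `l` above `s` up to the area `d` -/
structure Lk (l V : List (ℝ × ℝ)) (T1 x s h d : ℝ) : Prop where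
  tp : Tp T1 l
  tpV : Tp T1 V
  h0 : 0 ≤ h
  hs : h ≤ s
  s0 : 0 < s
  sT : s ≤ T1
  le : ∀ r, 0 ≤ r → r < s → lvr 1 l r ≤ x
  leV : ∀ r, 0 ≤ r → r < s → lvr 1 V r ≤ x
  eqV : ∀ r, h ≤ r → r < s → lvr 1 V r = x
  ge : x ≤ lvr 1 V s
  nf : Nf l V s T1 ≤ d

variable {T1 : ℝ}

theorem Lk.x0 (k : Lk l V T1 x s h d) : 0 < x := (Pp.Ode3.lvr_pos k.tp.adm 0).trans_le (k.le 0 le_rfl k.s0)

theorem Lk.x1 (k : Lk l V T1 x s h d) : x ≤ 1 := k.ge.trans (Pp.Ode3.lvr_le_one k.tpV.adm s)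

theorem Lk.d0 (k : Lk l V T1 x s h d) : 0 ≤ d := (Ker.Nf_nonneg l V k.sT).trans k.nf

theorem Lk.wf (k : Lk l V T1 x s h d) : Wf l V s ≤ x * s ^ 2 := by
  refine (le_abs_self _).trans ((Pp.Ode3.int_le_const (K := s * x) k.s0.le fun r a b => ?_).trans_eq
    (by ring))
  refine amul ((abs_of_pos a).le.trans b.le) ?_
  rw [abs_abs, abs_le]
  constructor <;> linarith [k.le r a.le b, k.leV r a.le b, Pp.Ode3.lvr_pos k.tp.adm r,
    Pp.Ode3.lvr_pos k.tpV.adm r]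

/-- the second moment of the merged part -/
theorem Lk.m1 (k : Lk l V T1 x s h d) : |M1 V s - x * s ^ 2 / 2| ≤ x * h ^ 2 := by
  obtain ⟨u, o, tu, su, lu⟩ := red' k.tpV
  have sT : s ≤ TT u := tu.symm ▸ k.sT
  have a := m1_cmp o (c := x) (e := 0) (E := x) le_rfl k.h0 (k.hs.trans sT) fun r r0 r1 => by
    rw [← lu r r0, abs_le]
    constructor <;> linarith [k.leV r r0 (r1.trans_le k.hs), Pp.Ode3.lvr_pos k.tpV.adm r, k.x0]
  have c := m1_cmp o (c := x) (e := 0) (E := 0) k.h0 k.hs sT fun r r0 r1 => by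
    rw [← lu r (k.h0.trans r0), k.eqV r r0 r1]; simp
  rw [show M1 u 0 = 0 from Exp50.Iz_zero _ _] at a
  rw [(same50 su lu ⟨k.s0.le, k.sT⟩ 0 0 0).2.1]
  have a' := abs_le.1 a
  have c' := abs_le.1 c
  rw [abs_le]; constructor <;> linarith [a'.1, a'.2, c'.1, c'.2]

/-- **`λ` is the susceptibility `χ_x` of the reference** -/
theorem lk_lam (T : ℝ) : ∃ C : ℝ, 1 ≤ C ∧ ∀ (l V : List (ℝ × ℝ)) (T1 x s h d : ℝ),
    Lk l V T1 x s h d → T1 ≤ T → |Dk 1 V h 0 - Exp50.cx l x s| ≤ C * (h + x * s ^ 2 + d) := by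
  obtain ⟨C1, c1, H1⟩ := Twin20.shift T 1
  obtain ⟨C2, c2, H2⟩ := Ker.Pd_lip T [1] (by decide)
  obtain ⟨C3, c3, H3⟩ := Ker.fun_lip T
  refine ⟨C1 + 1 + C2 + C3 * (1 + |T|), by nlinarith [abs_nonneg T], fun l V T1 x s h d k hT => ?_⟩
  obtain ⟨u, o, tu, su, lu⟩ := red' k.tpV
  obtain ⟨w, ow, tw, sw, lw⟩ := red' k.tp
  have sm : s ∈ Icc 0 T1 := ⟨k.s0.le, k.sT⟩
  have sT : s ≤ TT u := tu.symm ▸ k.sT
  have h0 := k.h0
  have d0 := k.d0
  have x0 := k.x0.le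
  have s0 := k.s0.le
  have a1 := abs_le.1 (H1 u o.1 (tu ▸ hT) h ⟨h0, k.hs.trans sT⟩ 1 le_rfl 0).1
  have a2 := abs_le.1 (cx_lip (x := x) (E := 1) o le_rfl h0 (k.hs.trans sT) fun r _ _ => by
    rw [abs_le]
    constructor <;> linarith [Pp.Ode3.lvr_pos o.1 r, Pp.Ode3.lvr_le_one o.1 r, k.x1])
  have a3 := abs_le.1 (cx_lip (x := x) (E := 0) o h0 k.hs sT fun r r0 r1 => by
    rw [← lu r (h0.trans r0), k.eqV r r0 r1]; simp)
  have a4 : Exp50.cx u x 0 = Dk 1 u 0 0 := by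
    have ap := Pp.Ode3.AP.of_ok o
    change Pp.Ode3.X2 u 0 + x * Pp.Ode3.Gam u 0 = chi u
    rw [Pp.Ode3.X2_zero ap, Pp.Ode3.Gam_zero ap, Pp.Ode3.chi_eq ap, mul_zero, add_zero]
  have eW : Wf w u s = Wf l V s := intervalIntegral.integral_congr fun r hr => by
    rw [uIcc_of_le s0] at hr
    simp only [lu r hr.1, lw r hr.1]
  have eN : Nf w u s T1 = Nf l V s T1 := intervalIntegral.integral_congr fun r hr => by
    rw [uIcc_of_le k.sT] at hr
    simp only [lu r (s0.trans hr.1), lw r (s0.trans hr.1)]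
  have b1 := (H2 w u ow.1 o.1 (tu.trans tw.symm) (tw ▸ hT) s (tw ▸ sm)).2.1
  have b2 := (H3 w u ow.1 o.1 (tu.trans tw.symm) (tw ▸ hT) s (tw ▸ sm)).1
  rw [tw, eW, eN] at b1 b2
  have p : ∀ Φ : ℝ → ℝ, Ker.Pd [1] Φ = Pp.Dn 1 Φ := fun Φ => by funext y; simp [Ker.Pd]
  rw [p, p] at b1
  have b3 : |Exp50.XX u s - Exp50.XX w s| ≤ C2 * (x * s ^ 2 + d) :=
    le_trans b1 (mul_le_mul_of_nonneg_left (add_le_add k.wf k.nf) (by linarith))
  have sa : s ≤ |T| := (k.sT.trans hT).trans (le_abs_self T)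
  have b4 : |x * (Gam u s - Gam w s)| ≤ 1 * (C3 * (x * s ^ 2 + |T| * d)) :=
    amul ((abs_of_nonneg x0).le.trans k.x1) (b2.trans (mul_le_mul_of_nonneg_left (add_le_add k.wf
      (mul_le_mul sa k.nf (Ker.Nf_nonneg l V k.sT) (abs_nonneg T))) (by linarith)))
  rw [su.dk 1 h h0, (same50 sw lw sm 0 x 0).2.2.2.1]
  have e1 : Exp50.cx u x s = Exp50.XX u s + x * Gam u s := rfl
  have e2 : Exp50.cx w x s = Exp50.XX w s + x * Gam w s := rfl
  have b3' := abs_le.1 b3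
  have b4' := abs_le.1 b4
  have q0 : 0 ≤ x * s ^ 2 := by positivity
  have T0 := abs_nonneg T
  have f1 : 0 ≤ (C1 + 1) * (x * s ^ 2 + d) := by positivity
  have f2 : 0 ≤ C2 * h := by positivity
  have f3 : 0 ≤ C3 * (h + d + |T| * (h + x * s ^ 2)) := by positivity
  rw [abs_le]
  constructor <;> linarith [a1.1, a1.2, a2.1, a2.2, a3.1, a3.2, b3'.1, b3'.2, b4'.1, b4'.2]

/-- **(TWIN) against the full reference** -/
theorem lk_tw (T : ℝ) : ∃ C : ℝ, 1 ≤ C ∧ ∀ (l V : List (ℝ × ℝ)) (T1 x s h d : ℝ),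
    Lk l V T1 x s h d → T1 ≤ T → ∀ t, s ≤ t → t ≤ TT l → t ≤ TT V →
    |Gam l t - Gam V t + 2 * (Dk 1 V h 0 * Twin20.psi V h t) * Twin20.Mf l V s| ≤
      C * (x * s ^ 2 * (s * (x + s) + h) + d) := by
  obtain ⟨C1, c1, H1⟩ := Twin20.twin_fun T
  obtain ⟨C2, c2, H2⟩ := Ker.fun_lip' T
  refine ⟨C1 + C2 * (2 * |T|), by nlinarith [abs_nonneg T], fun l V T1 x s h d k hT t st tl tV => ?_⟩
  obtain ⟨W, aW, tW, w1, w2⟩ := splice k.tp.adm k.tpV.adm k.s0 (k.sT.trans k.tp.mem.2)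
    (k.sT.trans k.tpV.mem.2) k.le k.ge
  have s0 := k.s0.le
  have t0 := s0.trans st
  have pW : Tp T1 W := ⟨aW, tW.symm ▸ k.tpV.mem, fun r hr => by
    rw [w2 r (k.sT.trans hr), k.tpV.top r hr]⟩
  have a := (H1 T1 W V x s t h pW k.tpV hT ⟨k.s0, fun r r0 r1 => w1 r r0 r1 ▸ k.le r r0 r1, k.leV,
    fun r hr => (w2 r hr.le).symm⟩ k.sT st (tW.symm ▸ tV) tV k.h0 (k.hs.trans st)
    (k.hs.trans k.sT)).1
  have eM : Twin20.Mf W V s = Twin20.Mf l V s :=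
    intervalIntegral.integral_congr_Ioo_of_le s0 fun r hr => by simp only [w1 r hr.1.le hr.2]
  have n1 : Nf l W 0 T1 ≤ d := by
    rw [← Ker.Nf_add l W 0 s T1, Ker.Nf_zero s0 fun r a b => w1 r a.le b, zero_add]
    refine le_trans (le_of_eq (intervalIntegral.integral_congr fun r hr => ?_)) k.nf
    rw [uIcc_of_le k.sT] at hr
    simp only [w2 r hr.1]
  have u0 : 0 ≤ min t T1 := le_min t0 k.tp.mem.1
  have uT : min t T1 ≤ |T| := ((min_le_right _ _).trans hT).trans (le_abs_self T)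
  have n2 := Ker.Nf_add l W 0 (min t T1) T1
  have n3 := Ker.Nf_nonneg l W u0
  have n4 := Ker.Nf_nonneg l W (min_le_right t T1)
  have n5 : Wf l W (min t T1) ≤ |T| * d := by
    have := intervalIntegral.integral_mono_on u0 (Ker.wet_ii l W 0 _)
      ((Ker.et_ii l W 0 (min t T1)).const_mul |T|) fun r hr =>
        mul_le_mul_of_nonneg_right (hr.2.trans uT) (abs_nonneg _)
    rw [intervalIntegral.integral_const_mul] at this
    exact le_trans this (mul_le_mul_of_nonneg_left (show Nf l W 0 (min t T1) ≤ d by linarith)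
      (abs_nonneg T))
  have n6 : t * Nf l W (min t T1) T1 ≤ |T| * d := by
    rcases le_total t T1 with e | e
    · exact mul_le_mul (min_eq_left e ▸ uT) (by linarith) n4 (abs_nonneg T)
    · rw [min_eq_right e, show Nf l W T1 T1 = 0 by simp [Nf], mul_zero]
      exact mul_nonneg (abs_nonneg T) k.d0
  have b := abs_le.1 ((H2 T1 l W k.tp pW hT t t0 tl (tW.symm ▸ tV) _ _ rfl rfl).1.trans
    (mul_le_mul_of_nonneg_left (add_le_add n5 n6) (by linarith)))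
  rw [eM] at a
  have a' := abs_le.1 a
  have x0 := k.x0.le
  have h0 := k.h0
  have d0 := k.d0
  have T0 := abs_nonneg T
  have f1 : 0 ≤ C1 * d := by positivity
  have f2 : 0 ≤ C2 * (2 * |T|) * (x * s ^ 2 * (s * (x + s) + h)) := by positivity
  rw [abs_le]
  constructor <;> linarith [a'.1, a'.2, b.1, b.2]

/-- **(A)** -/
theorem A_link {b α K δ t τ lam B e X : ℝ} (r : LinRef l b α K δ t x) (o : Ok l) (K0 : 0 ≤ K)
    (b0 : 0 ≤ b) (b1 : b ≤ B) (B1 : 1 ≤ B) (hτ : |b - τ| ≤ d) (l0 : 0 ≤ lam) (l1 : lam ≤ 1)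
    (he : |lam - Exp50.cx l x t| ≤ e) (x0 : 0 ≤ x) (x1 : x ≤ X) (s0 : 0 ≤ s) (st : s ≤ t)
    (ts : t ≤ s + d) (tX : t ≤ X) (X1 : X ≤ 1) (δ0 : 0 ≤ δ) :
    |1 - τ * lam ^ 2 + τ * lam * x * (lam ^ 2 * s) - eps0 b l| ≤
      6 * B * (K + 1) * (|eps0 b l| * X ^ 2 + X ^ 3 + δ + d + e) := by
  have ap := Pp.Ode3.AP.of_ok o
  have t0 := s0.trans st
  have X0 := x0.trans x1
  have e0 := (abs_nonneg _).trans he
  have d0 := (abs_nonneg _).trans hτ
  have B0 := b0.trans b1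
  have c0 : 0 < chi l := by rw [Pp.Ode3.chi_eq ap]; exact Pp.Ode3.chi_pos ap
  have c1 : chi l ≤ 1 := by rw [Pp.Ode3.chi_eq ap]; exact Pp.Ode3.chi_le ap
  have ab : ∀ {y Y : ℝ}, 0 ≤ y → y ≤ Y → |y| ≤ Y := fun a c => (abs_of_nonneg a).le.trans c
  have y0 : 0 ≤ Exp50.cx l x t :=
    add_nonneg (Pp.Ode3.X2_nonneg o.1 t) (mul_nonneg x0 (Pp.Ode3.Gam_nonneg l t))
  have y1 : Exp50.cx l x t ≤ 2 := by
    have a : Exp50.XX l t ≤ 1 := Pp.Ode3.X2_le_one o.1 t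
    have c : x * Gam l t ≤ 1 :=
      mul_le_one₀ (x1.trans X1) (Pp.Ode3.Gam_nonneg l t) (Pp.Ode3.Gam_le_one l t)
    unfold Exp50.cx; linarith
  have p2 : t ^ 2 ≤ X ^ 2 := pow_le_pow_left₀ t0 tX 2
  have p3 : t ^ 3 ≤ X ^ 3 := pow_le_pow_left₀ t0 tX 3
  have ee := abs_nonneg (eps0 b l)
  have hA : |Aq b l x t - eps0 b l| ≤ K * (|eps0 b l| * X ^ 2 + X ^ 3 + δ) := r.A.trans (by gcongr)
  have hq : |chi l ^ 2 * t - Gam l t| ≤ K * (X ^ 3 + δ) := by
    rw [abs_sub_comm]; exact r.q.trans (by gcongr)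
  have hc : |t * (lam - chi l)| ≤ e + K * (X ^ 3 + δ) := by
    have a := amul (ab t0 tX) ((abs_sub_le _ _ _).trans (add_le_add he
      (r.cx.trans (show _ ≤ K * (X ^ 2 + δ) by gcongr))))
    have c := mul_le_of_le_one_left (show 0 ≤ e + K * δ by positivity) X1
    linarith
  have sb : √b ≤ B := Real.sqrt_le_iff.2 ⟨B0, by nlinarith only [b1, B1]⟩
  have sq : √b * √b = b := Real.mul_self_sqrt b0
  have r0 := Real.sqrt_nonneg b
  have hs : |√b * chi l - 1| ≤ |eps0 b l| := by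
    have : eps0 b l = -((√b * chi l - 1) * (√b * chi l + 1)) := by
      unfold eps0; linear_combination (chi l ^ 2) * sq
    rw [this, abs_neg, abs_mul]
    refine le_mul_of_one_le_right (abs_nonneg _) (le_trans ?_ (le_abs_self _))
    linarith [mul_nonneg r0 c0.le]
  have m2 : |lam ^ 2| ≤ 1 := ab (by positivity) (pow_le_one₀ l0 l1)
  have m3 : |lam ^ 3| ≤ 1 := ab (by positivity) (pow_le_one₀ l0 l1)
  have hx : |x| ≤ 1 := ab x0 (x1.trans X1)
  have hb : |b| ≤ B := ab b0 b1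
  have u1 := abs_le.1 (amul hτ m2)
  have u2 := abs_le.1 (amul hb (amul he (ab (y := Exp50.cx l x t + lam) (Y := 3) (by positivity)
    (by linarith))))
  have u3 := abs_le.1 (amul hx (amul hτ (amul m3 (ab s0 ((st.trans tX).trans X1)))))
  have u4 := abs_le.1 (amul hx (amul hb (amul m3 (ab (y := t - s) (Y := d) (by linarith)
    (by linarith)))))
  have u5 := abs_le.1 (amul hx (amul hb (amul hc (ab (y := lam ^ 2 + lam * chi l + chi l ^ 2) (Y := 3)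
    (by positivity) (by
      linarith [pow_le_one₀ (n := 2) l0 l1, pow_le_one₀ (n := 2) c0.le c1,
        mul_le_one₀ l1 c0.le c1])))))
  have u6 := abs_le.1 (amul (amul (amul (ab x0 x1) (ab t0 tX)) (amul (ab (y := chi l ^ 2) (Y := 1)
    (by positivity) (pow_le_one₀ c0.le c1)) (ab r0 sb))) hs)
  have u7 := abs_le.1 (amul (amul (ab r0 sb) hx) hq)
  have u0 := abs_le.1 hA
  have id : 1 - τ * lam ^ 2 + τ * lam * x * (lam ^ 2 * s) - eps0 b l =
      (Aq b l x t - eps0 b l) + (b - τ) * lam ^ 2 -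
      b * ((lam - Exp50.cx l x t) * (Exp50.cx l x t + lam)) - x * ((b - τ) * (lam ^ 3 * s)) -
      x * (b * (lam ^ 3 * (t - s))) +
      x * (b * (t * (lam - chi l) * (lam ^ 2 + lam * chi l + chi l ^ 2))) +
      x * t * (chi l ^ 2 * √b) * (√b * chi l - 1) + √b * x * (chi l ^ 2 * t - Gam l t) := by
    unfold Aq Exp50.mu
    linear_combination (-(x * t * chi l ^ 3)) * sq
  obtain ⟨E, hE⟩ : ∃ E, E = |eps0 b l| * X ^ 2 := ⟨_, rfl⟩
  obtain ⟨Y, hY⟩ : ∃ Y, Y = X ^ 3 + δ := ⟨_, rfl⟩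
  have E0 : 0 ≤ E := by rw [hE]; positivity
  have Y0 : 0 ≤ Y := by rw [hY]; positivity
  have g : K * (E + Y) + d + B * (e * 3) + d + B * d + B * ((e + K * Y) * 3) + B * E + B * (K * Y) ≤
      6 * B * (K + 1) * (E + Y + d + e) := by
    have i1 := mul_le_mul_of_nonneg_right B1 (mul_nonneg K0 E0)
    have i2 := mul_le_mul_of_nonneg_right B1 (mul_nonneg K0 Y0)
    have i3 := mul_le_mul_of_nonneg_right B1 d0
    have i4 : 0 ≤ B * (K * E) := by positivity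
    have i5 : 0 ≤ B * (K * Y) := by positivity
    have i6 : 0 ≤ B * (K * (d + e)) := by positivity
    linarith only [i1, i2, i3, i4, i5, i6, mul_nonneg B0 E0, mul_nonneg B0 Y0, d0]
  rw [hE, hY] at g
  rw [id, abs_le]
  constructor <;> linarith only [g, u0.1, u0.2, u1.1, u1.2, u2.1, u2.2, u3.1, u3.2, u4.1, u4.2, u5.1,
    u5.2, u6.1, u6.2, u7.1, u7.2]

/-- `-2 ∫_0^s r (ζ_l - ζ_V)` against the reference value `∫_0^x σ² dx` at the time `t` -/
theorem Lk.S0 (k : Lk l V T1 x s h d) (o : Ok l) {t : ℝ} (st : s ≤ t) (tT : t ≤ TT l)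
    (hl : ∀ r, s ≤ r → r < t → lvr 1 l r ≤ x) :
    |-2 * Twin20.Mf l V s - (x * t ^ 2 - 2 * M1 l t)| ≤ 2 * x * (h ^ 2 + t * (t - s)) := by
  have a := abs_le.1 k.m1
  have c := abs_le.1 (m1_cmp o (c := x) (e := 0) (E := x) k.s0.le st tT fun r r0 r1 => by
    rw [abs_le]
    constructor <;> linarith [hl r r0 r1, Pp.Ode3.lvr_pos o.1 r, k.x0])
  rw [Mf_eq, abs_le]
  constructor <;> linarith [a.1, a.2, c.1, c.2]

/-- **(B)** -/
theorem B_lin (o : Ok l) {α E t : ℝ} (t0 : 0 ≤ t) (tT : t ≤ TT l)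
    (hl : ∀ r, 0 ≤ r → r < t → |lvr 1 l r - α * r| ≤ E) (hx : |x - α * t| ≤ E) :
    |x * t ^ 2 - 3 * (x * t ^ 2 - 2 * M1 l t)| ≤ 8 * (E * t ^ 2) := by
  have a := m1_cmp o (c := 0) (e := α) (E := E) le_rfl t0 tT fun r r0 r1 => by
    rw [zero_add]; exact hl r r0 r1
  rw [show M1 l 0 = 0 from Exp50.Iz_zero _ _] at a
  have a' := abs_le.1 a
  have c := abs_le.1 (amul hx (abs_of_nonneg (sq_nonneg t)).le)
  rw [abs_le]
  constructor <;> linarith [a'.1, a'.2, c.1, c.2]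

end Crest.Agent.T156.Pr.Ref81

end
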