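import Crest.Agent.T156.CVl_21
import Crest.Agent.T156.CLfC_24
import Crest.Agent.T156.QBig_12

/-!
# Row 156, R2: the low variance `vL` with a level-wise envelope (helper21)
-/

set_option autoImplicit false
set_option linter.unusedSectionVars false

noncomputable section

namespace Crest.Agent.T156.Cas.Vl21

open MeasureTheory Real Finset
open Crest.Agent.T157.E Crest.Agent.T157.Casc Crest.Agent.T157.SL
open Crest.Agent.T156.Cas.Sy41 Crest.Agent.T156.Cas.Lp12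
open Crest.Agent.T157.G1 (ov)

variable {Ω : Type} [Fintype Ω] {w : Ω → ℝ}

/-- `var_Q` with an envelope that depends on the node -/
theorem var_Q' (hw : Wt w) {L : List (Lv Ω)} (hL : Mono 0 L) (h : Ω → ℝ)
    {T : Set (Equiv.Perm Ω)} (hT : ∀ τ ∈ T, Sym w L h τ)
    (htr : ∀ x y, w x ≠ 0 → w y ≠ 0 → ∃ τ ∈ T, τ x = y) {l₀ : Lv Ω}
    (h₀ : ∀ τ ∈ T, ∀ x y, l₀.cov (τ x) (τ y) = l₀.cov x y) {S : Finset ℕ}
    (hS : ∀ j ∈ S, 1 ≤ j ∧ j ≤ L.length)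
    (hR : ∀ x y, |l₀.cov x y| ≤ 1) {S₀ : Finset ℕ} {t : ℕ} (h0 : ∀ y ∈ S₀, y ≤ t)
    (h1 : ∀ y ∈ S, y ≤ t) {φ : ℕ → ℝ} (hφ : ∀ y, 0 ≤ φ y) (X : ℕ → ℝ) {F : Pth Ω → ℝ}
    (hF : ∀ p, F p = ∑ y ∈ S₀, dm L 0 y * φ y * Qn w L l₀.cov y t p +
      ∑ y ∈ S, dm L 0 y * φ y * Qn w L l₀.cov y t p) :
    EE w L h (fun p => (F p - EE w L h F) ^ 2) ≤
      3 * ((∑ y ∈ S₀, dm L 0 y * φ y) *
        ∑ y ∈ S₀, dm L 0 y * φ y * pi2 w L y (fun x x' => l₀.cov x x' ^ 4) h) +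
      48 * ∑ y ∈ S, dm L 0 y * φ y ^ 2 *
        node w L y (fun z => rr w (L.drop y) l₀ z ^ 2 * mAm w (L.drop y) l₀ z) h +
      3 * ((∑ y ∈ S, dm L 0 y * φ y) * ∑ y ∈ S, dm L 0 y * φ y *
        (4 * X y ^ 2 * (Q33.tc w L l₀ h y + 2 * Q33.vv w L l₀ h y) +
          32 * pi2 w L y (fun x x' => en (X y) (l₀.cov x x')) h)) := by
  have eQ := fun y => ep_Qn hw L l₀.cov y t
  have er := fun y => (EP.state (eg_rr hw (L.drop y) l₀) y).pow 2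
  have c0 : ∀ y, 0 ≤ dm L 0 y * φ y := fun y => mul_nonneg (dm_nonneg hL y) (hφ y)
  have eA := EP.sum S₀ fun y _ => (eQ y).const_mul (dm L 0 y * φ y)
  have eF : EP F := by
    rw [funext hF]
    exact eA.add (EP.sum S fun y _ => (eQ y).const_mul _)
  have a1 := var3 hw L h eF eA (EP.sum S fun y _ => (er y).const_mul (dm L 0 y * φ y))
    (EP.sum S fun y _ => ((eQ y).sub (er y)).const_mul (dm L 0 y * φ y)) fun p => by
      simp only [hF, mul_sub, sum_sub_distrib]; ring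
  have a2 := EE_wsum hw L h S₀ c0 eQ fun y hy => Qn_crude hw L h l₀.cov (h0 y hy)
  have a3 := var_sq hw hL h hT htr h₀ hS φ
  have a4 := EE_wsum hw L h S c0 (fun y => (eQ y).sub (er y)) fun y hy =>
    Qn_fine hw L h hR (h1 y hy) (X y)
  linarith

open C40

theorem vL_le' (D : CD) (hn : 0 < D.n) (nn : ∀ p ∈ D.M, 0 ≤ p.2.1 ∧ 0 ≤ p.2.2) (hL : Mono 0 D.B)
    (hJ : D.J ≤ D.K) {J0 : ℕ} (h0 : J0 ≤ D.J) (X : ℕ → ℝ) :
    D.vL ≤ 3 * ((∑ y ∈ Icc 1 J0, D.dx y * D.τ y ^ 2) *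
        ∑ y ∈ Icc 1 J0, D.dx y * D.τ y ^ 2 * D.E2 y fun x x' => ov x x' ^ 4) +
      48 * ∑ y ∈ Ioc J0 D.J, D.dx y * (D.τ y ^ 2) ^ 2 * ra D y +
      3 * ((∑ y ∈ Ioc J0 D.J, D.dx y * D.τ y ^ 2) * ∑ y ∈ Ioc J0 D.J, D.dx y * D.τ y ^ 2 *
        (4 * X y ^ 2 * VV D y + 32 * D.E2 y fun x x' => max (|ov x x'| - X y) 0)) := by
  have hw := Link33.wt1 (n := D.n)
  have ho : ∀ l ∈ D.B, OvLv l := fun l hl => by
    obtain ⟨p, hp, rfl⟩ := List.mem_map.1 hl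
    exact ⟨fun r => p.2.1 * (D.β ^ 2 * D.n / 2 * r ^ 2) + p.2.2 * D.n * r,
      mxL_cov hn D.β (nn p hp).1 (nn p hp).2⟩
  have eF : EP fun p => ∑ y ∈ D.lo, D.dx y * (D.τ y ^ 2 * Qn (fun _ => 1) D.B ov y (D.J + 1) p) :=
    EP.sum _ fun y _ => ((ep_Qn hw _ _ _ _).const_mul _).const_mul _
  have key := var_Q' hw hL 0 (sym_act₀ ho) Q33.ts_trans (Q33.ts_cov (Q33.sl_cov hn))
    (S := Ioc J0 D.J) (fun j hj => by
      have := mem_Ioc.1 hj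
      rw [List.length_map]
      exact ⟨by omega, this.2.trans hJ⟩)
    (fun x y => by rw [Q33.sl_cov hn]; exact abs_ov_le x y) (S₀ := Icc 1 J0) (t := D.J + 1)
    (fun y hy => by have := mem_Icc.1 hy; omega) (fun y hy => by have := mem_Ioc.1 hy; omega)
    (φ := fun y => D.τ y ^ 2) (fun y => sq_nonneg _) X
    (F := fun p => ∑ y ∈ D.lo, D.dx y * (D.τ y ^ 2 * Qn (fun _ => 1) D.B ov y (D.J + 1) p))
    fun p => by
      rw [sl_ov hn, show Icc 1 J0 = Ioc 0 J0 from rfl, sum_Ioc_consecutive _ (Nat.zero_le _) h0]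
      exact sum_congr rfl fun _ _ => (mul_assoc _ _ _).symm
  rw [EE_eq hw _ _ ((eF.sub (EP.const _)).pow 2), EE_eq hw _ _ eF, sl_ov hn] at key
  exact key

/-- **`vL` with a level-wise envelope** -/
theorem vL_lw {D : CD} {τ0 : ℝ} (H : D.Ok τ0) {J0 : ℕ} (h0 : J0 ≤ D.J) {x0 x1 R4 tl SA SV : ℝ}
    {X : ℕ → ℝ} (s0 : ∑ y ∈ Icc 1 J0, D.dx y ≤ x0) (s1 : ∑ y ∈ Ioc J0 D.J, D.dx y ≤ x1)
    (R0 : 0 ≤ R4) (h4 : ∀ y ∈ Icc 1 J0, (D.E2 y fun x x' => ov x x' ^ 4) ≤ R4) (tl0 : 0 ≤ tl)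
    (env : ∀ y ∈ Ioc J0 D.J, (D.E2 y fun x x' => max (|ov x x'| - X y) 0) ≤ tl)
    (hA : ∑ y ∈ Ioc J0 D.J, D.dx y * (X y ^ 2 * aa D y) ≤ SA)
    (hV : ∑ y ∈ Ioc J0 D.J, D.dx y * (X y ^ 2 * VV D y) ≤ SV) :
    D.vL ≤ τ0 ^ 4 * (3 * (x0 ^ 2 * R4) + 48 * SA + 12 * (x1 * SV) + 192 * tl) := by
  have hw := Link33.wt1 (n := D.n)
  have key := vL_le' D H.pos H.ook.nn H.mono H.cut.le h0 X
  have d0 : ∀ y, 0 ≤ D.dx y := dm_nonneg H.mono
  have t2 : ∀ y, D.τ y ^ 2 ≤ τ0 ^ 2 := fun y =>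
    pow_le_pow_left₀ (H.ook.oTau_le D.n D.β y).1 ((H.ook.oTau_le D.n D.β y).2.trans H.tau) 2
  have t4 : ∀ y, (D.τ y ^ 2) ^ 2 ≤ (τ0 ^ 2) ^ 2 := fun y => pow_le_pow_left₀ (sq_nonneg _) (t2 y) 2
  have s1' : ∑ y ∈ Ioc J0 D.J, D.dx y ≤ 1 :=
    ((sum_dx_le H.mono fun y hy => (mem_Ioc.1 hy).2).trans H.x1).trans H.X1
  have x00 : 0 ≤ x0 := (sum_nonneg fun y _ => d0 y).trans s0
  have p0 : 0 ≤ ∑ y ∈ Ioc J0 D.J, D.dx y := sum_nonneg fun y _ => d0 y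
  have T0 := sq_nonneg τ0
  have a0 : ∀ y, 0 ≤ aa D y := fun y => Q33.aa_nonneg hw H.mono _ _ y
  have v0 : ∀ y, 0 ≤ VV D y := fun y =>
    add_nonneg (Q33.tc_nonneg _ _ _ y) (mul_nonneg zero_le_two (Q33.vv_nonneg hw _ _ _ y))
  have V0 : 0 ≤ SV := (sum_nonneg fun y _ => by have := d0 y; have := v0 y; positivity).trans hV
  have m0 : ∀ (S : Finset ℕ) (x : ℝ), ∑ y ∈ S, D.dx y ≤ x →
      ∑ y ∈ S, D.dx y * D.τ y ^ 2 ≤ τ0 ^ 2 * x := fun S x hS => by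
    refine le_trans ?_ (mul_le_mul_of_nonneg_left hS T0)
    rw [mul_sum]
    exact sum_le_sum fun y _ => (mul_le_mul_of_nonneg_left (t2 y) (d0 y)).trans_eq (mul_comm _ _)
  have b1 := wsum_le d0 (fun y => sq_nonneg _) t2 (g := fun _ => R4) (fun _ _ => R0) h4
  have b2 := wsum_le (S := Ioc J0 D.J) d0 (fun y => sq_nonneg _) t4 (f := ra D)
    (g := fun y => 1 * (X y ^ 2 * aa D y) + 2 * tl) (fun y _ => by have := a0 y; positivity)
    fun y hy => by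
      have := rr_mAm hw H.mono 0 (l₀ := Q33.sl D.n)
        (fun x y => by rw [Q33.sl_cov H.pos]; exact abs_ov_le x y) y (X y)
      rw [sl_ov H.pos] at this
      rw [one_mul]
      exact this.trans (add_le_add le_rfl (mul_le_mul_of_nonneg_left (env y hy) zero_le_two))
  have b3 := wsum_le (S := Ioc J0 D.J) d0 (fun y => sq_nonneg _) t2
    (f := fun y => 4 * X y ^ 2 * VV D y + 32 * D.E2 y fun x x' => max (|ov x x'| - X y) 0)
    (g := fun y => 4 * (X y ^ 2 * VV D y) + 32 * tl) (fun y _ => by have := v0 y; positivity)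
    fun y hy => add_le_add (mul_assoc _ _ _).le
      (mul_le_mul_of_nonneg_left (env y hy) (by norm_num))
  have sp : ∀ (A c : ℝ) (f : ℕ → ℝ), ∑ y ∈ Ioc J0 D.J, D.dx y * (A * f y + c) =
      A * ∑ y ∈ Ioc J0 D.J, D.dx y * f y + c * ∑ y ∈ Ioc J0 D.J, D.dx y := fun A c f => by
    rw [mul_sum, mul_sum, ← sum_add_distrib]
    exact sum_congr rfl fun _ _ => by ring
  rw [sp] at b2 b3
  rw [← sum_mul] at b1
  have s2 := mul_le_mul_of_nonneg_left s1' tl0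
  have c1 := mul_le_mul (m0 _ _ s0) (b1.trans (mul_le_mul_of_nonneg_left
    (mul_le_mul_of_nonneg_right s0 R0) T0)) (sum_nonneg fun y _ => mul_nonneg
      (mul_nonneg (d0 y) (sq_nonneg _)) (node_nonneg _ (fun z => sum_nonneg fun x _ =>
        sum_nonneg fun x' _ => mul_nonneg (mul_nonneg (P_nonneg hw _ z x) (P_nonneg hw _ z x'))
          (by positivity)) _ _ _)) (by positivity)
  have c2 := b2.trans (mul_le_mul_of_nonneg_left (show _ ≤ SA + 2 * tl by linarith) (by positivity))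
  have c3 := mul_le_mul (m0 _ _ le_rfl) (b3.trans (mul_le_mul_of_nonneg_left
    (show _ ≤ 4 * SV + 32 * tl by linarith) T0))
    (sum_nonneg fun y _ => mul_nonneg (mul_nonneg (d0 y) (sq_nonneg _)) (add_nonneg
      (mul_nonneg (by positivity) (v0 y)) (mul_nonneg (by norm_num) (node_nonneg _ (fun z =>
        sum_nonneg fun x _ => sum_nonneg fun x' _ => mul_nonneg (mul_nonneg (P_nonneg hw _ z x)
          (P_nonneg hw _ z x')) (le_max_right _ _)) _ _ _)))) (by positivity)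
  have c4 : τ0 ^ 4 * ((∑ y ∈ Ioc J0 D.J, D.dx y) * SV) ≤ τ0 ^ 4 * (x1 * SV) := by gcongr
  have c5 := mul_le_mul_of_nonneg_left s2 (show 0 ≤ τ0 ^ 4 by positivity)
  generalize ∑ y ∈ Ioc J0 D.J, D.dx y = Z at *
  nlinarith

end Crest.Agent.T156.Cas.Vl21

namespace Crest.Agent.T156.Alt.Lv21

open MeasureTheory Real Finset Filter
open Crest.Agent.T157.E Crest.Agent.T157.Casc Crest.Agent.T157.SL
open Crest.Agent.T156.Cas Crest.Agent.T156.Cas.Sy41 Crest.Agent.T156.Cas.Q33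
open Crest.Agent.T156.Cas.Lp12 Crest.Agent.T156.Cas.C40
open Crest.Agent.T156.Alt.Md67 Crest.Agent.T156.Alt.Cost41 Crest.Agent.T156.Alt.CIn12
open Crest.Agent.T156.Alt.C33 Crest.Agent.T156.Alt.Lb24

variable {S : Sc} {M : Md} {m : ℕ} {a lam l Λ : ℝ} {D J b : ℕ}

/-- a sum over `[J, b)` from the sums over dyadic blocks -/
theorem sum_blk (K : Kc lam l Λ D S M m a) (hJ : 4 * S.jl ≤ J) (hb : b < S.J) {f : ℕ → ℝ}
    (f0 : ∀ k, 0 ≤ f k) {Y : ℝ} (Y0 : 0 ≤ Y)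
    (h : ∀ β β', J ≤ β → β < β' → β' ≤ 2 * β → β' ≤ b → ∑ k ∈ Ico β β', f k ≤ Y) :
    ∑ k ∈ Ico J b, f k ≤ lam ^ 2 * Y := by
  have J0 := K.J0 hJ hb
  have i3 := K.fn.i3
  have i4 := K.fn.i4
  rw [← sum_fiberwise_of_maps_to (t := range (nI J b)) (g := lv J b)
    fun k hk => mem_range.2 (lv_lt (mem_Ico.1 hk).2)]
  refine (sum_le_card_nsmul _ _ Y fun i hi => ?_).trans ?_
  · have hi := mem_range.1 hi
    have sb : (Ico J b).filter (lv J b · = i) ⊆ Ico (2 ^ i * J) (min (2 * (2 ^ i * J)) b) :=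
      fun k hk => bk_sub (M := M) J0 hi (mem_filter.2 ⟨by
        have := mem_Ico.1 (mem_filter.1 hk).1
        exact mem_Ico.2 ⟨this.1, by omega⟩, (mem_filter.1 hk).2⟩)
    refine (sum_le_sum_of_subset_of_nonneg sb fun k _ _ => f0 k).trans ?_
    rcases lt_or_ge (2 ^ i * J) (min (2 * (2 ^ i * J)) b) with c | c
    · exact h _ _ (Nat.le_mul_of_pos_left J (by positivity)) c (min_le_left _ _) (min_le_right _ _)
    · rw [Ico_eq_empty (not_lt.2 c), sum_empty]; exact Y0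
  · rw [card_range, nsmul_eq_mul]
    refine mul_le_mul_of_nonneg_right (le_trans ?_ (K.nI_le hJ hb)) Y0
    exact_mod_cast Nat.le_succ _

/-- the weighted Riccati sums of the low zone -/
theorem sums (K : Kc lam l Λ D S M m a) (hb : b < S.J) {L U : ℝ} (L0 : 0 ≤ L) (U0 : 0 ≤ U)
    (hU : ∀ t, 4 * S.jl * S.v ≤ t → t ≤ S.C * (b * S.v) → S.w3 t * max t l ^ 3 ≤ U) :
    ∑ k ∈ Ico (4 * S.jl) b, M.dz m a k * ((L * max (M.z k) l) ^ 2 * aM M m a k) ≤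
      lam ^ 21 * (L ^ 2 * Λ * U) ∧
    S.jl * S.v * ∑ k ∈ Ico (4 * S.jl) b, M.dz m a k *
      ((L * max (M.z k) l) ^ 2 * (tcM M m a k + 2 * vvM M m a k)) ≤ lam ^ 24 * (L ^ 2 * Λ * U) := by
  have F := K.fn
  have G := K.lg
  have C1 := F.C1
  have C0 := F.C0
  have Cl := K.Cl
  have l0 := K.l0
  have L1 := K.L1
  have v0 := F.v0
  have key : ∀ β β', 4 * S.jl ≤ β → β < β' → β' ≤ 2 * β → β' ≤ b → ∀ (g : ℕ → ℝ) (x c : ℝ),
      0 ≤ x → 0 ≤ c → (∀ k, 0 ≤ g k) → x * ∑ k ∈ Ioc (β / 2) (β' - 1), M.dz m a k * g k ≤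
        c * (lam ^ 16 * Λ * (S.w3 (S.C * (β * S.v)) * max (S.C * (β * S.v)) l)) →
      x * ∑ k ∈ Ico β β', M.dz m a k * ((L * max (M.z k) l) ^ 2 * g k) ≤
        c * (lam ^ 19 * (L ^ 2 * Λ * U)) := by
    intro β β' h0 h1 h2 h3 g x c x0 c0 g0 hg
    have h4 := h3.trans_lt hb
    have t0 := K.t0 rfl h0 h1 h2 h4
    have u := hU (S.C * (β * S.v)) (by
      have e : (4 * S.jl : ℝ) ≤ β := by exact_mod_cast h0
      exact (mul_le_mul_of_nonneg_right e v0.le).trans (le_mul_of_one_le_left (by positivity) C1))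
      (by
        have e : (β : ℝ) ≤ b := by exact_mod_cast (by omega : β ≤ b)
        gcongr)
    have zl := fun k (hk : k ≤ β') => K.z_le rfl h0 h1 h2 h4 hk
    have w0 := F.w3_pos t0
    generalize S.C * (β * S.v) = t at *
    have m0 : 0 < max t l := lt_max_of_lt_left t0
    have sub : Ico β β' ⊆ Ioc (β / 2) (β' - 1) := fun k hk => by
      have := F.i0; have := F.i1
      rw [mem_Ico] at hk; rw [mem_Ioc]; omega
    have e1 : ∑ k ∈ Ico β β', M.dz m a k * ((L * max (M.z k) l) ^ 2 * g k) ≤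
        (L * (6 * S.C * max t l)) ^ 2 * ∑ k ∈ Ioc (β / 2) (β' - 1), M.dz m a k * g k := by
      refine le_trans ?_ (mul_le_mul_of_nonneg_left (sum_le_sum_of_subset_of_nonneg sub
        fun k _ _ => mul_nonneg (G.dz_nonneg k) (g0 k)) (sq_nonneg _))
      rw [mul_sum]
      refine sum_le_sum fun k hk => ?_
      have a1 : max (M.z k) l ≤ 6 * S.C * max t l := max_le ((zl k (mem_Ico.1 hk).2.le).trans
        (mul_le_mul_of_nonneg_left (le_max_left _ _) (by positivity)))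
        ((le_max_right _ _).trans (le_mul_of_one_le_left m0.le (by linarith)))
      have a2 : 0 ≤ max (M.z k) l := le_max_of_le_left (G.z_nonneg k)
      have := G.dz_nonneg k
      have := g0 k
      rw [mul_left_comm]
      gcongr
    have c2 : 36 * S.C ^ 2 ≤ lam ^ 3 := by
      rw [pow_succ' lam 2]; gcongr; linarith
    calc _ ≤ x * ((L * (6 * S.C * max t l)) ^ 2 *
          ∑ k ∈ Ioc (β / 2) (β' - 1), M.dz m a k * g k) := mul_le_mul_of_nonneg_left e1 x0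
      _ = (L * (6 * S.C * max t l)) ^ 2 *
          (x * ∑ k ∈ Ioc (β / 2) (β' - 1), M.dz m a k * g k) := by ring
      _ ≤ (L * (6 * S.C * max t l)) ^ 2 * (c * (lam ^ 16 * Λ * (S.w3 t * max t l))) :=
          mul_le_mul_of_nonneg_left hg (sq_nonneg _)
      _ = c * (36 * S.C ^ 2 * lam ^ 16 * (L ^ 2 * Λ * (S.w3 t * max t l ^ 3))) := by ring
      _ ≤ c * (lam ^ 3 * lam ^ 16 * (L ^ 2 * Λ * U)) := by gcongr
      _ = _ := by ring
  have Y0 : 0 ≤ lam ^ 19 * (L ^ 2 * Λ * U) := by positivity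
  constructor
  · refine (sum_blk K le_rfl hb (fun k => mul_nonneg (G.dz_nonneg k)
      (mul_nonneg (sq_nonneg _) (aM_nonneg G k))) Y0 fun β β' h0 h1 h2 h3 => ?_).trans_eq (by ring)
    obtain ⟨W, σ, cm, R, H, hY⟩ := K.mjd rfl h0 h1 h2 (h3.trans_lt hb)
    simpa only [one_mul] using key β β' h0 h1 h2 h3 _ 1 1 zero_le_one zero_le_one (aM_nonneg G)
      (by simpa only [one_mul] using (H.aa G).trans hY)
  · have j0 : 0 ≤ (S.jl : ℝ) * S.v := by positivity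
    have g0 : ∀ k, 0 ≤ tcM M m a k + 2 * vvM M m a k := fun k =>
      add_nonneg (tcM_nn k) (mul_nonneg zero_le_two (vvM_nn k))
    rw [mul_sum]
    refine (sum_blk K le_rfl hb (fun k => mul_nonneg j0 (mul_nonneg (G.dz_nonneg k)
      (mul_nonneg (sq_nonneg _) (g0 k)))) (Y := lam ^ 3 * (lam ^ 19 * (L ^ 2 * Λ * U)))
      (by positivity) fun β β' h0 h1 h2 h3 => ?_).trans_eq (by ring)
    obtain ⟨W, σ, cm, R, H, hY⟩ := K.mjd rfl h0 h1 h2 (h3.trans_lt hb)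
    rw [← mul_sum]
    refine key β β' h0 h1 h2 h3 _ _ _ j0 (by positivity) g0 ?_
    have a1 := (H.tc G).trans hY
    have a2 := (H.vv G).trans hY
    have p1 : 0 ≤ ∑ k ∈ Ioc (β / 2) (β' - 1), M.dz m a k * tcM M m a k :=
      sum_nonneg fun k _ => mul_nonneg (G.dz_nonneg k) (tcM_nn k)
    have p2 : 0 ≤ ∑ k ∈ Ioc (β / 2) (β' - 1), M.dz m a k * vvM M m a k :=
      sum_nonneg fun k _ => mul_nonneg (G.dz_nonneg k) (vvM_nn k)
    have e : (S.jl : ℝ) * S.v ≤ 2 * S.C ^ 2 * (S.C * (β * S.v) / (6 * S.C ^ 3)) := by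
      have e : (4 * S.jl : ℝ) ≤ β := by exact_mod_cast h0
      have := mul_le_mul_of_nonneg_right e v0.le
      rw [show 2 * S.C ^ 2 * (S.C * (β * S.v) / (6 * S.C ^ 3)) = β * S.v / 3 by field_simp; ring]
      linarith
    have Z0 : 0 ≤ lam ^ 16 * Λ * (S.w3 (S.C * (β * S.v)) * max (S.C * (β * S.v)) l) :=
      (H.bb_nn G).trans hY
    have c2 : 6 * S.C ^ 2 ≤ lam ^ 3 := by
      rw [pow_succ' lam 2]; gcongr; linarith
    simp only [mul_add, sum_add_distrib, mul_left_comm _ (2 : ℝ), ← mul_sum]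
    generalize lam ^ 16 * Λ * (S.w3 (S.C * (β * S.v)) * max (S.C * (β * S.v)) l) = Z at *
    generalize S.C * (β * S.v) / (6 * S.C ^ 3) = x at *
    have b1 := mul_le_mul_of_nonneg_right e p1
    have b2 := mul_le_mul_of_nonneg_right e p2
    have b3 := mul_le_mul_of_nonneg_left a1 (show 0 ≤ 2 * S.C ^ 2 by positivity)
    have b4 := mul_le_mul_of_nonneg_left a2 (show 0 ≤ 2 * S.C ^ 2 by positivity)
    nlinarith [mul_le_mul_of_nonneg_right c2 Z0]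

theorem sum_sh (f : ℕ → ℝ) (u v : ℕ) : ∑ y ∈ Ioc u v, f y = ∑ k ∈ Ico u v, f (k + 1) := by
  rw [sum_Ico_add' f u v 1, Ico_add_one_add_one_eq_Ioc]

/-- **the low variance on the class** -/
def LvC : Prop := CL fun _ Λ S M m a => S.F ≤ S.n → ∀ Λ₀ l, 0 < l → M.s S.jl ≤ l →
  S.w3 l ≤ l ^ 3 → Crude Λ₀ S M m a l S.jl → ∀ (b : ℕ) (ρ : ℕ → ℝ) (W : Option (ℕ → ℝ))
    (E : CIn12.Ev) (τ0 U : ℝ), 4 * S.jl ≤ b → b < S.J → (cd M m a ρ b W E).Ok τ0 → 0 ≤ U →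
    (∀ t, 4 * S.jl * S.v ≤ t → t ≤ S.C * (b * S.v) → S.w3 t * max t l ^ 3 ≤ U) →
    (cd M m a ρ b W E).vL ≤ τ0 ^ 4 * (Λ ^ 5 * Λ₀ ^ 4 * (max (S.jl * S.v) l ^ 6 + U +
      b * S.v / (S.jl * S.v) * U) + 192 * tlD S 1)

theorem lvC : LvC := ((kc_ev.and (QS98.qLowS 2)).and (env_cl 1)).mono
    fun _ Λ S M m a _ Λ1 _ _ ⟨⟨k1, k2⟩, k3⟩ hF Λ₀ l l0 l1 l2 Cr b ρ W E τ0 U b0 b1 H U0 hU => by
  obtain ⟨lam, D, K, hl⟩ := k1 hF Λ₀ l l0 l1 l2 Cr
  have F := K.fn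
  have G := K.lg
  have C1 := F.C1
  have C0 := F.C0
  have Cl := K.Cl
  have m0 := K.l0
  have v0 := F.v0
  have L1 := Cr.1
  have i0 := F.i0
  have i1 := F.i1
  have i3 := F.i3
  have i4 := F.i4
  have j0 : 0 < (S.jl : ℝ) * S.v := mul_pos (by exact_mod_cast (by omega : 0 < S.jl)) v0
  obtain ⟨a1, a2⟩ := sums K b1 (L := Λ * Λ₀) (by positivity) U0 hU
  rw [← le_div_iff₀' j0] at a2
  obtain ⟨μ, hμ⟩ : ∃ μ, μ = max (S.jl * S.v) l := ⟨_, rfl⟩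
  have μ0 : 0 < μ := hμ ▸ lt_max_of_lt_right l0
  have z0 : M.z (4 * S.jl) ≤ 12 * S.C ^ 2 * μ := by
    have := F.z_hi (k := 4 * S.jl) (by omega) (by omega)
    have e := mul_le_mul_of_nonneg_left (hμ ▸ le_max_left (S.jl * S.v) l)
      (show 0 ≤ 12 * S.C ^ 2 by positivity)
    push_cast at this
    linarith
  have key := Vl21.vL_lw H (J0 := 4 * S.jl) b0 (x0 := 12 * S.C ^ 2 * μ)
    (x1 := 3 * S.C ^ 2 * (b * S.v)) (R4 := (Λ * Λ₀ * (12 * S.C ^ 2 * μ)) ^ 4) (tl := tlD S 1)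
    (X := fun y => Λ * Λ₀ * max (M.z (y - 1)) l)
    (by
      rw [show Icc 1 (4 * S.jl) = Ioc 0 (4 * S.jl) from rfl, sum_sh, ← range_eq_Ico]
      exact (sum_range_dz G _).trans z0)
    (by
      rw [sum_sh]
      refine (sum_le_sum_of_subset_of_nonneg (t := range b) (fun k hk => mem_range.2
        (mem_Ico.1 hk).2) fun k _ _ => G.dz_nonneg k).trans ((sum_range_dz G _).trans ?_)
      exact F.z_hi (by omega) b1)
    (by positivity)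
    (fun y hy => by
      obtain ⟨k, rfl⟩ : ∃ k, y = k + 1 := ⟨y - 1, by have := mem_Icc.1 hy; omega⟩
      have hk := mem_Icc.1 hy
      refine (k2 Λ₀ l l0 l1 l2 Cr k (by omega)).2.trans ?_
      have e : max (M.z k) l ≤ 12 * S.C ^ 2 * μ := max_le ((G.zm (by omega)).trans z0)
        ((hμ ▸ le_max_right _ _).trans (le_mul_of_one_le_left μ0.le (by nlinarith)))
      have : 0 ≤ max (M.z k) l := le_max_of_le_right l0.le
      gcongr)
    (tlD_nn S 1)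
    (fun y hy => by
      obtain ⟨k, rfl⟩ : ∃ k, y = k + 1 := ⟨y - 1, by have := mem_Ioc.1 hy; omega⟩
      have := k3 Λ₀ l l0 l1 l2 Cr k 0 (Λ * Λ₀ * max (M.z k) l) (by rw [abs_zero, zero_add])
      simp only [sub_zero] at this
      exact this)
    (SA := lam ^ 21 * ((Λ * Λ₀) ^ 2 * (lam * Λ₀) * U)) (by rw [sum_sh]; exact a1)
    (SV := lam ^ 24 * ((Λ * Λ₀) ^ 2 * (lam * Λ₀) * U) / (S.jl * S.v)) (by rw [sum_sh]; exact a2)
  refine key.trans (mul_le_mul_of_nonneg_left (add_le_add ?_ le_rfl) (by positivity))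
  rw [← hμ, mul_add, mul_add]
  have l1' : 1 ≤ lam := by linarith
  have q : ∀ {i : ℕ}, i ≤ 60 → lam ^ i ≤ Λ := fun h => (pow_le_pow_right₀ l1' h).trans hl
  have L3 : Λ ^ 3 * Λ₀ ^ 3 ≤ Λ ^ 5 * Λ₀ ^ 4 := by gcongr <;> first | assumption | norm_num
  refine add_le_add (add_le_add ?_ ?_) ?_
  · calc _ = 3 * 12 ^ 6 * S.C ^ 12 * (Λ ^ 4 * Λ₀ ^ 4 * μ ^ 6) := by ring
      _ ≤ lam ^ 3 * lam ^ 12 * (Λ ^ 4 * Λ₀ ^ 4 * μ ^ 6) := by
          gcongr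
          exact le_trans (by norm_num) (pow_le_pow_left₀ (by norm_num) m0 3)
      _ = lam ^ 15 * (Λ ^ 4 * Λ₀ ^ 4 * μ ^ 6) := by ring
      _ ≤ Λ * (Λ ^ 4 * Λ₀ ^ 4 * μ ^ 6) := by gcongr; exact q (by norm_num)
      _ = _ := by ring
  · calc _ = 48 * lam ^ 22 * (Λ ^ 2 * Λ₀ ^ 3 * U) := by ring
      _ ≤ lam * lam ^ 22 * (Λ ^ 2 * Λ₀ ^ 3 * U) := by gcongr; linarith
      _ = lam ^ 23 * (Λ ^ 2 * Λ₀ ^ 3 * U) := by ring
      _ ≤ Λ * (Λ ^ 2 * Λ₀ ^ 3 * U) := by gcongr; exact q (by norm_num)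
      _ = Λ ^ 3 * Λ₀ ^ 3 * U := by ring
      _ ≤ _ := by gcongr
  · calc _ = 36 * S.C ^ 2 * lam ^ 25 * (Λ ^ 2 * Λ₀ ^ 3 * (b * S.v / (S.jl * S.v) * U)) := by ring
      _ ≤ lam * lam ^ 2 * lam ^ 25 * (Λ ^ 2 * Λ₀ ^ 3 * (b * S.v / (S.jl * S.v) * U)) := by
          gcongr; linarith
      _ = lam ^ 28 * (Λ ^ 2 * Λ₀ ^ 3 * (b * S.v / (S.jl * S.v) * U)) := by ring
      _ ≤ Λ * (Λ ^ 2 * Λ₀ ^ 3 * (b * S.v / (S.jl * S.v) * U)) := by gcongr; exact q (by norm_num)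
      _ = Λ ^ 3 * Λ₀ ^ 3 * (b * S.v / (S.jl * S.v) * U) := by ring
      _ ≤ _ := by gcongr

end Crest.Agent.T156.Alt.Lv21

end
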