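import Crest.Agent.T156.LPb_78
import Crest.Agent.T156.LPmE_17
import Crest.Agent.T156.CInM_12

/-!
# Row 156 (helper39): moments on the sloped part, plateau not flat
-/

set_option autoImplicit false

noncomputable section

namespace Crest.Agent.T156.Alt.R62.S39

open Real Finset Filter
open Crest.Agent.T156.Cas Crest.Agent.T156.Alt.Md67 Crest.Agent.T156.Alt.QS98 B78

variable {S : Sc} {M : Md}

/-- sup location from the total energy -/
theorem sup_del (h : Cl S M) {m : ℕ} {a l : ℝ} (hm : 0 < m) (l1 : M.s S.jl ≤ l) (l2 : S.v ≤ l)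
    (fl : M.s S.Jp - M.s S.J ≤ l)
    (hE : ∑ k ∈ Ioc S.jl S.Jp, lw M k * M.del m a k ^ 2 ≤ l ^ 3) {k : ℕ} (k0 : S.jl ≤ k)
    (k1 : k ≤ S.J) : |M.del m a k| ≤ 5 * S.C * l := by
  have v0 := h.v0
  have C1 := h.C1
  have C0 := h.C0
  have l0 : 0 < l := v0.trans_le l2
  have i1 := h.i1
  have i2 := h.i2
  have i3 := h.i3
  have i4 := h.i4
  obtain ⟨n, n1, n2⟩ : ∃ n : ℕ, l ≤ n * S.v ∧ n * S.v ≤ 2 * l :=
    ⟨⌈l / S.v⌉₊, (div_le_iff₀ v0).1 (Nat.le_ceil _), by
      have := (lt_div_iff₀ v0).1 (sub_lt_iff_lt_add.2 (Nat.ceil_lt_add_one (div_pos l0 v0).le))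
      linarith⟩
  have hE' : ∑ y ∈ Ioc S.jl S.Jp, (M.z y - M.z (y - 1)) * |M.del m a y| ^ 2 ≤ l ^ 3 := by
    simpa only [sq_abs, lw] using hE
  have ds : ∀ i j, i ≤ j → j ≤ S.J → j ≤ i + n → M.s j - M.s i ≤ 2 * S.C * l := fun i j a b c => by
    have e1 := (h.s_tel a b).2
    have e2 : (j : ℝ) - i ≤ n := by
      have : (j : ℝ) ≤ i + n := by exact_mod_cast c
      linarith
    have e3 := mul_le_mul_of_nonneg_right e2 (mul_pos C0 v0).le
    have e4 := mul_le_mul_of_nonneg_left n2 C0.le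
    linarith
  have dq : ∀ i j, i ≤ j → j ≤ S.J → j ≤ i + n → M.q j - M.q i ≤ 2 * S.C * l := fun i j a b c =>
    (dq_le h a (b.trans i3)).trans (ds i j a b c)
  have dz : ∀ i, S.jl ≤ i → i + n < S.J → 2 * l / S.C / 2 ≤ M.z (i + n) - M.z i := fun i a b => by
    refine le_trans ?_ (h.z_tel (i1.trans a) (Nat.le_add_right i n) b).1
    rw [Nat.cast_add, add_sub_cancel_left, ← mul_div_assoc, div_right_comm,
      mul_div_cancel_left₀ _ two_ne_zero]
    exact div_le_div_of_nonneg_right n1 C0.le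
  have W0 : 0 < 2 * l / S.C := by positivity
  have Cl0 : 0 ≤ S.C * l := by positivity
  have lC : l ≤ S.C * l := le_mul_of_one_le_left l0.le C1
  have hV : l ^ 3 ≤ (S.C * l) ^ 2 * (2 * l / S.C) := by
    rw [show (S.C * l) ^ 2 * (2 * l / S.C) = 2 * S.C * l ^ 3 by field_simp]
    exact le_mul_of_one_le_left (by positivity) (by linarith)
  have rm := Md67.rb_mono (M := M) (a := a) hm
  have r0 := Md67.rb_nonneg (M := M) (a := a) hm k
  have r1 := Md67.rb_le_one (M := M) (a := a) hm k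
  refine abs_le.2 ⟨?_, ?_⟩
  · by_cases c : S.jl + n + 1 ≤ k
    · obtain ⟨i, rfl⟩ : ∃ i, k = i + n + 1 := ⟨k - n - 1, by omega⟩
      have := Pl57.persist (F := -M.del m a (i + n + 1) - 2 * S.C * l) h.leg.zm
        (a := i) (b := i + n + 1) (by omega) (Ioc_subset_Ioc (by omega) (by omega)) two_ne_zero hE'
        W0 ((dz i (by omega) (by omega)).trans (sub_le_sub_right (h.leg.zm (Nat.le_succ _)) _)) Cl0
        hV fun y a b => by
          have e1 := dq y (i + n + 1) b k1 (by omega)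
          have e2 := rm b
          refine le_trans ?_ (neg_le_abs _)
          unfold Md.del
          linarith
      linarith
    · have e1 := ds S.jl k k0 k1 (by omega)
      have e2 := h.q_le_s (k := k) (by omega)
      unfold Md.del
      linarith
  · by_cases c : k + n < S.J
    · have := Pl57.persist (F := M.del m a k - 2 * S.C * l) h.leg.zm
        (a := k) (b := k + n) (by omega) (Ioc_subset_Ioc k0 (by omega)) two_ne_zero hE'
        W0 (dz k k0 c) Cl0 hV fun y a b => by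
          have e1 := dq k y a.le (by omega) b
          have e2 := rm a.le
          refine le_trans ?_ (le_abs_self _)
          unfold Md.del
          linarith
      linarith
    · have q0 := h.q_nn (k := k) (by omega)
      rcases le_total 1 l with c1 | c1
      · unfold Md.del
        linarith
      · have := Pl57.persist (F := M.del m a k - 3 * S.C * l) (W := 2 / S.C) h.leg.zm
          (a := S.J - 1) (b := S.Jp) (by omega) (Ioc_subset_Ioc (by omega) le_rfl) two_ne_zero hE'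
          (by positivity) (by
            rw [h.top _ le_rfl, div_right_comm, div_self two_ne_zero]; linarith [h.atom.2]) Cl0 (by
            rw [show (S.C * l) ^ 2 * (2 / S.C) = 2 * S.C * l ^ 2 by field_simp, pow_succ, mul_comm]
            exact mul_le_mul_of_nonneg_right (by linarith) (by positivity)) fun y a b => by
            have e1 := dq k S.J k1 le_rfl (by omega)
            have e2 := rm (show k ≤ y by omega)
            have e3 := dq_le h (show S.J ≤ y by omega) b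
            have e4 := h.sm b
            refine le_trans ?_ (le_abs_self _)
            unfold Md.del
            linarith
        linarith

theorem cru (h : Cl S M) {m : ℕ} {a l : ℝ} (hI : S.In m a) (l1 : M.s S.jl ≤ l) (l2 : S.v ≤ l)
    (fl : M.s S.Jp - M.s S.J ≤ l)
    (hE : ∑ k ∈ Ioc S.jl S.Jp, lw M k * M.del m a k ^ 2 ≤ l ^ 3) :
    Crude (1 + 6 * S.C ^ 2) S M m a l S.jl ∧
      ∀ k, S.jl ≤ k → k ≤ S.J → |M.del m a k| ≤ (1 + 6 * S.C ^ 2) * l := by
  have hm : 0 < m := lt_of_lt_of_le h.n1 hI.m1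
  have C1 := h.C1
  have C0 := h.C0
  have l0 : 0 < l := h.v0.trans_le l2
  have C2 : S.C ≤ S.C ^ 2 := le_self_pow₀ C1 two_ne_zero
  refine ⟨⟨by nlinarith, fun k k0 k1 => ?_⟩, fun k k0 k1 =>
    (sup_del h hm l1 l2 fl hE k0 k1).trans (mul_le_mul_of_nonneg_right (by linarith) l0.le)⟩
  have m1 := le_max_left (M.z k) l
  have m2 := le_max_right (M.z k) l
  have m0 := l0.le.trans m2
  have a1 := mul_le_mul_of_nonneg_left m1 C0.le
  have a2 := mul_le_mul_of_nonneg_left m2 C0.le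
  have a3 := mul_le_mul_of_nonneg_right C2 m0
  rcases lt_or_ge k S.J with c | c
  · have e1 := (le_abs_self _).trans (sup_del h hm l1 l2 fl hE k0 c.le)
    have e2 := h.q_le_s (k := k) (k1.trans h.i4.le)
    have e3 := (h.z_s (h.i1.trans k0) c).1
    rw [sub_le_iff_le_add, div_le_iff₀ C0] at e3
    have e4 := mul_le_mul_of_nonneg_left (l2.trans m2) (sq_nonneg S.C)
    unfold Md.del at e1
    nlinarith
  · have e1 := h.atom.1.trans (h.leg.zm (show S.J - 1 ≤ k by omega))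
    rw [div_le_iff₀ C0] at e1
    have e2 := Md67.rb_le_one (M := M) (a := a) hm k
    nlinarith


variable {m p : ℕ} {a : ℝ}

/-- weight of the nodes with label at most `Z` -/
theorem wt_le (G : Lg M m a) {T : Finset ℕ} {Z : ℝ} (hZ : 0 ≤ Z) (h : ∀ k ∈ T, M.z k ≤ Z) :
    ∑ k ∈ T, M.dz m a k ≤ Z := by
  rcases T.eq_empty_or_nonempty with rfl | hT
  · simpa using hZ
  refine (sum_le_sum_of_subset_of_nonneg (t := range (T.max' hT + 1)) (fun k hk =>
    mem_range.2 (Nat.lt_succ_of_le (T.le_max' k hk))) fun k _ _ => G.dz_nonneg k).trans ?_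
  rw [sum_dz_range G.toLeg]
  linarith [h _ (T.max'_mem hT), G.a0]

/-- moments and envelope at the node `k` -/
def Qk (S : Sc) (M : Md) (m : ℕ) (a : ℝ) (p k : ℕ) (g : ℝ) : Prop :=
  M17.Ok M m a p k g ∧ Env S M m a k g

theorem Qk.mono {k : ℕ} {g g' : ℝ} (h : Qk S M m a p k g) (e : g ≤ g') : Qk S M m a p k g' :=
  ⟨h.1.mono e, h.2.mono e⟩

/-- **the canonical envelope** -/
abbrev Γ (S : Sc) (M : Md) (m : ℕ) (a : ℝ) (p : ℕ) : ℕ → ℝ := M17.GE S M m a p

theorem Γ_pos (h : Cl S M) (k : ℕ) : 0 < Γ S M m a p k :=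
  lt_min two_pos ((M17.GG_pos h k).trans_le (le_max_left _ _))

theorem Γ_two (k : ℕ) : Γ S M m a p k ≤ 2 := min_le_left _ _

theorem Γ_ok (h : Cl S M) (hm : 0 < m) (hp : p ≠ 0) {k : ℕ} (hk : k ≤ M.N) :
    Qk S M m a p k (Γ S M m a p k) :=
  ⟨(M17.GG_ok h hm hp hk).mono (le_min (min_le_left _ _) (le_max_left _ _)),
    (M17.env_ee h hk).mono (le_min (M17.ee_le zero_le_two (M17.env_two h hk)) (le_max_right _ _))⟩

theorem Qk.le (hp : p ≠ 0) {k : ℕ} {g : ℝ} (H : Qk S M m a p k g) : Γ S M m a p k ≤ max S.v g :=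
  (min_le_right _ _).trans (max_le (M17.GG_le hp H.1)
    ((M17.ee_le H.1.2.nn H.2).trans (le_max_right _ _)))

theorem Γ_ge (h : Cl S M) (hm : 0 < m) (hp : p ≠ 0) (J : ℕ) :
    CIn12.GE S M m a J p (Γ S M m a p) :=
  ⟨fun k _ _ => Γ_pos h k, fun _ _ hk => (Γ_ok h hm hp hk.le).1.1,
    fun _ _ hk => (Γ_ok h hm hp hk.le).2⟩

/-- the second moment -/
theorem sq_le (h : Cl S M) (hm : 0 < m) (hp : p ≠ 0) {k : ℕ} (hk : k < M.N) :
    M.E2 m a (fun R => (R - M.q k) ^ 2) k ≤ 9 * Γ S M m a p k ^ 2 :=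
  ((Γ_ge h hm hp 0).sq_le (Nat.pos_of_ne_zero hp) (Nat.zero_le k) hk).trans_eq (by ring)

/-- **input**: total energy `l³` -/
structure SI (E : ℝ) (S : Sc) (M : Md) (m : ℕ) (a l : ℝ) : Prop where
  jl : 8 * M.s S.jl ≤ l
  l1 : E * l ≤ 1
  spr : M.s S.Jp - M.s S.J ≤ l
  w0 : ∀ t, l ≤ t → t ≤ S.C → S.w3 t ≤ t ^ 3
  w1 : ∀ t, l ≤ t → t ≤ S.C → t ^ 3 * S.w3 t ^ 2 ≤ (l ^ 3) ^ 3
  v3 : S.v ≤ l ^ 3
  en : ∑ k ∈ Ioc S.jl S.Jp, lw M k * M.del m a k ^ 2 ≤ l ^ 3

/-- **output** -/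
structure SO (p : ℕ) (Λ : ℝ) (S : Sc) (M : Md) (m : ℕ) (a l : ℝ) : Prop where
  fn : C33.Fn S M m a
  l0 : 0 < l
  cr : Crude Λ S M m a l S.jl
  low : CIn12.LowE S M m a Λ l
  sup : ∀ k, S.jl ≤ k → k ≤ S.J → |M.del m a k| ≤ Λ * l
  all : ∀ k ≤ M.N, Qk S M m a p k (Λ * max (M.z k) l)
  out : ∀ t, l ≤ t → t ≤ T0 S M → Out p Λ S M m a l (l ^ 3) t
  sl : ∀ k < S.J, M.s k ≤ T0 S M → Γ S M m a p k ≤ Λ * l
  tot : ∑ k ∈ (range S.J).filter fun k => M.s k ≤ T0 S M, M.dz m a k * Γ S M m a p k ^ 2 ≤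
    Λ * l ^ 3
  blk : ∀ t V, l ≤ t → t ≤ T0 S M → 0 < V → V ≤ t → S.w3 t ≤ V ^ 3 →
    (∀ k, S.jl < k → k < S.J → t / 2 ≤ M.s k → M.s k ≤ 3 * t → |M.del m a k| ≤ V) →
    (∀ k ∈ sb S M t (2 * t), Qk S M m a p k (Λ * V)) ∧ ∀ i ≤ p,
      ∑ k ∈ sb S M t (2 * t), M.dz m a k * ja M m a i k ≤ Λ ^ (i + 1) * S.w3 t * (t * V ^ i)

def SlM : Prop := ∀ p : ℕ, 4 ≤ p → CL fun E Λ S M m a => ∀ l, SI E S M m a l → SO p Λ S M m a l

theorem w3_pos (h : Cl S M) {t : ℝ} (ht : 0 < t) : 0 < S.w3 t :=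
  div_pos (by linarith [h.F1]) (mul_pos (mul_pos h.N0 ht) (h.ms_pos ht.le))

theorem q_z (F : C33.Fn S M m a) {k : ℕ} (hk : k ≤ M.N) : M.q k ≤ 2 * S.C ^ 2 * M.z k := by
  have h := F.toCl
  have j0 := (h.j0_lt.le.trans h.i3)
  rcases le_total k S.j0 with e | e
  · rw [h.low k e]
    exact (h.q_mono e (j0.trans h.i4.le)).trans
      ((h.q_le_s (j0.trans h.i4.le)).trans (F.s_le_z' le_rfl j0))
  rcases le_total k S.Jp with e' | e'
  · exact (h.q_le_s hk).trans (F.s_le_z' e e')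
  · rw [h.top k e']
    linarith [q_le_one (M := M) k, one_le_pow₀ (n := 2) h.C1]

/-- at a fixed size -/
theorem so_of {L Λ E l : ℝ} (F : C33.Fn S M m a) (hθ : S.C * S.θ ≤ 1 / 2) (hp : 4 ≤ p)
    (hL : 600 * S.C ^ 2 * (1 + 6 * S.C ^ 2) ≤ L) (l1 : 1000 ≤ L) (LE : L ≤ E) (Ln : L ≤ S.n)
    (vn : S.v * S.n ^ 2 ≤ S.C) (cnt : ∀ i : ℕ, 2 ^ i ≤ S.C ^ 2 * M.N → (i : ℝ) ≤ L ^ 3)
    (hΛ : L ^ 20 ≤ Λ)
    (Q : ∀ Λ₀ t k0 k1 c ρ, QH' (32 * S.C) Λ₀ S M m a t k0 k1 c ρ →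
      QO (32 * S.C) (L * Λ₀) p S M m a t k0 k1 c ρ ∧ EO (32 * S.C) (L * Λ₀) S M m a t k0 k1 c ρ)
    (q : ∀ Λ₀ t, 0 < t → M.s S.jl ≤ t → S.w3 t ≤ t ^ 3 → Crude Λ₀ S M m a t S.jl → ∀ k ≤ M.N,
      M.Mo m a p (M.rP m a k) (L * Λ₀ * max (M.z k) t) ∧
      M.E2 m a (fun R => R ^ (2 * p)) k ≤ (L * Λ₀ * max (M.z k) t) ^ (2 * p))
    (e : ∀ Λ₀ t, 0 < t → M.s S.jl ≤ t → S.w3 t ≤ t ^ 3 → Crude Λ₀ S M m a t S.jl → ∀ k q e,
      |q| + L * Λ₀ * max (M.z k) t ≤ e → M.E2 m a (fun R => max (|R - q| - e) 0) k ≤ CIn12.tlD S 3)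
    (N : SI E S M m a l) : SO p Λ S M m a l := by
  have h := F.toCl
  have I := F.toIn
  have G : Lg M m a := lg_cl h h.n1 I
  have p0 : p ≠ 0 := by omega
  have C1 := h.C1
  have C0 := h.C0
  have v0 := h.v0
  have i1 := h.i1
  have i2 := h.i2
  have i3 := h.i3
  have i4 := h.i4
  have C2 : 1 ≤ S.C ^ 2 := one_le_pow₀ C1
  have CC : S.C ≤ S.C ^ 2 := le_self_pow₀ C1 two_ne_zero
  set K := 1 + 6 * S.C ^ 2 with hK
  have K1 : 1 ≤ K := by linarith
  have KL : K ≤ L := by nlinarith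
  have CL' : 600 * S.C ^ 2 ≤ L := by nlinarith
  have L1 : 1 ≤ L := by linarith
  have L0 : 0 < L := by linarith
  have lp : ∀ {i : ℕ}, i ≤ 20 → L ^ i ≤ Λ := fun e => (pow_le_pow_right₀ L1 e).trans hΛ
  have KΛ : K ≤ Λ := KL.trans ((pow_one L).ge.trans (lp (by norm_num)))
  have s0 : 0 < M.s S.jl := h.s_pos (h.i0.trans i1)
  have sl : M.s S.jl ≤ l := by linarith [N.jl]
  have l0 : 0 < l := s0.trans_le sl
  have ll1 : l ≤ 1 := (le_mul_of_one_le_left l0.le (L1.trans LE)).trans N.l1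
  have vl : S.v ≤ l := N.v3.trans (pow_le_of_le_one l0.le ll1 (by norm_num))
  have wl := N.w0 l le_rfl (ll1.trans C1)
  obtain ⟨c1, c2⟩ := cru h I sl vl N.spr N.en
  have mx : ∀ k, 0 ≤ max (M.z k) l := fun k => l0.le.trans (le_max_right _ _)
  have LK : L * K ≤ L ^ 2 := by rw [sq]; gcongr
  have TC : T0 S M ≤ S.C := by
    linarith [h.s_le_C i3, h.s_nn S.J, show T0 S M = M.s S.J / 16 from rfl]
  have all : ∀ k ≤ M.N, Qk S M m a p k (2 * (L ^ 2 * max (M.z k) l)) := fun k hk => by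
    obtain ⟨b2, b3⟩ := q _ l l0 sl wl c1 k hk
    have d2 := mul_le_mul_of_nonneg_right LK (mx k)
    have d1 : M.q k ≤ L ^ 2 * max (M.z k) l := (q_z F hk).trans
      (mul_le_mul (by nlinarith) (le_max_left _ _) (h.z_pos k).le (by positivity))
    exact ⟨M17.ok_of p0 (h.q_nn hk) d1 (b2.mono d2) (b3.trans (pow_le_pow_left₀ b2.nn d2 _)),
      e _ l l0 sl wl c1 k _ _ (by rw [abs_of_nonneg (h.q_nn hk)]; linarith)⟩
  have geo' : ∀ t, l ≤ t → t ≤ T0 S M → ∃ b0 b1 D, B78.Cx p L K S M m a l t b0 b1 D :=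
    fun t h0 h1 => by
    have t0 := l0.trans_le h0
    have hw := N.w0 t h0 (h1.trans TC)
    have vt : 32 * S.C * S.v ≤ t := by
      have a1 := n_t h hθ t0 hw
      have N0 := h.N0
      have a2 : S.v * S.n * (600 * S.C ^ 2) ≤ S.C := by
        calc _ ≤ S.v * S.n * S.n := by gcongr; linarith
          _ ≤ _ := by rw [mul_assoc, ← sq]; exact vn
      have a3 : 600 * S.C * (S.v * S.n) ≤ 1 :=
        le_of_mul_le_mul_left (a := S.C) (by linarith) C0
      calc _ ≤ 32 * S.C * S.v * (S.n * t) := le_mul_of_one_le_right (by positivity) a1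
        _ = 32 * S.C * (S.v * S.n) * t := by ring
        _ ≤ 1 * t := by gcongr; nlinarith [mul_pos (mul_pos C0 v0) N0]
        _ = t := one_mul _
    obtain ⟨b0, b1, D, Ge⟩ := geo h t0 (N.jl.trans h0) h1 vt
    exact ⟨b0, b1, D, h, I, Ge, hθ, K1, hL, hp, Q, l0, hw, c1, c2⟩
  have out : ∀ t, l ≤ t → t ≤ T0 S M → Out p (L ^ 16) S M m a l (l ^ 3) t := fun t h0 h1 => by
    obtain ⟨b0, b1, D, X⟩ := geo' t h0 h1
    rcases le_total t (L * l) with ht | ht
    · exact X.low ht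
    · refine X.high ht (h1.trans TC) (le_trans (by gcongr) vn) le_rfl (N.w1 t h0 (h1.trans TC)) N.v3
        ((sum_le_sum_of_subset_of_nonneg (fun k hk => ?_) fun k _ _ => mul_nonneg
          (sub_nonneg.2 (h.leg.zm (Nat.sub_le _ _))) (sq_nonneg _)).trans N.en)
      have := mem_Ioo.1 (mem_filter.1 hk).1
      exact mem_Ioc.2 ⟨this.1, by omega⟩
  have zl : ∀ k < S.J, M.s k < l → M.z k ≤ L * l := fun k k2 k3 => by
    have : M.z k ≤ S.C * (l + 2 * S.v) := by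
      rcases le_total S.j0 k with e | e
      · exact (h.z_s e k2).2.trans (mul_le_mul_of_nonneg_left (by linarith) C0.le)
      · rw [h.low k e]
        exact (h.z_s le_rfl h.j0_lt).2.trans
          (mul_le_mul_of_nonneg_left (by linarith [h.sm i1]) C0.le)
    nlinarith [mul_le_mul_of_nonneg_left vl C0.le,
      mul_le_mul_of_nonneg_right (show 3 * S.C ≤ L by linarith) l0.le]
  have ml : ∀ {x : ℝ} {i : ℕ}, x ≤ L ^ i * l → max S.v x ≤ L ^ i * l := fun hx =>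
    max_le (vl.trans (le_mul_of_one_le_left l0.le (one_le_pow₀ L1))) hx
  have s1 : ∀ k < S.J, M.s k < l → Γ S M m a p k ≤ L ^ 4 * l := fun k k2 k3 => by
    refine ((all k (by omega)).le p0).trans (ml ?_)
    have := mul_le_mul_of_nonneg_left (max_le (zl k k2 k3) (le_mul_of_one_le_left l0.le L1))
      (sq_nonneg L)
    nlinarith [mul_pos (pow_pos L0 3) l0]
  have kj : ∀ k, l ≤ M.s k → S.jl < k := fun k hk => by
    by_contra hc
    linarith [h.sm (not_lt.1 hc), N.jl]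
  have g0 : ∀ k, 0 ≤ M.dz m a k * Γ S M m a p k ^ 2 := fun k =>
    mul_nonneg (G.dz_nonneg k) (sq_nonneg _)
  have l3 : 0 < l ^ 3 := pow_pos l0 3
  refine ⟨F, l0, ⟨K1.trans KΛ, fun k a b => (c1.2 k a b).trans (by have := mx k; gcongr)⟩,
    fun k x y hy => e _ l l0 sl wl c1 k x y (le_trans (add_le_add_right
      (mul_le_mul_of_nonneg_right (LK.trans (lp (by norm_num))) (mx k)) _) hy),
    fun k a b => (c2 k a b).trans (by gcongr), fun k hk => (all k hk).mono ?_,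
    fun t a b => (out t a b).mono (lp (by norm_num)) l0.le l3.le (w3_pos h (l0.trans_le a)).le,
    fun k k2 k3 => ?_, ?_, fun t V h0 h1 V0 Vt wV loc => ?_⟩
  · rw [← mul_assoc]
    exact mul_le_mul_of_nonneg_right (le_trans (by nlinarith) (lp (show 3 ≤ 20 by norm_num))) (mx k)
  · rcases lt_or_ge (M.s k) l with e | e
    · exact (s1 k k2 e).trans (mul_le_mul_of_nonneg_right (lp (by norm_num)) l0.le)
    · obtain ⟨g, b1, b2, -⟩ := out _ e k3
      exact ((Qk.le p0 (b2 k (mem_filter.2 ⟨mem_Ioo.2 ⟨kj k e, k2⟩, le_rfl, by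
        linarith [h.s_nn k]⟩))).trans (ml (b1 k).2)).trans
        (mul_le_mul_of_nonneg_right (lp (by norm_num)) l0.le)
  · set A := (range S.J).filter fun k => M.s k < l
    set B := (Ioo S.jl S.J).filter fun k => l ≤ M.s k ∧ M.s k ≤ T0 S M
    have a1 : ∑ k ∈ A, M.dz m a k * Γ S M m a p k ^ 2 ≤ L * l * (L ^ 4 * l) ^ 2 :=
      M17.sum_le_of G (by positivity) (fun k hk => pow_le_pow_left₀ (Γ_pos h k).le
        (s1 k (mem_range.1 (mem_filter.1 hk).1) (mem_filter.1 hk).2) 2)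
        (wt_le G (by positivity) fun k hk =>
          zl k (mem_range.1 (mem_filter.1 hk).1) (mem_filter.1 hk).2)
    have a2 := M17.sum_cover (T := B)
      (I := (range (⌊L ^ 3⌋₊ + 1)).filter fun i => 2 ^ i * l ≤ T0 S M)
      (B := fun i => sb S M (2 ^ i * l) (2 * (2 ^ i * l))) (c := 2 * L ^ 16 * l ^ 3) g0
      (fun k hk => by
        obtain ⟨k1, k2, k3⟩ := mem_filter.1 hk
        obtain ⟨i, e1, e2⟩ := exists_nat_pow_near ((one_le_div l0).2 k2) one_lt_two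
        rw [le_div_iff₀ l0] at e1
        rw [div_lt_iff₀ l0, pow_succ'] at e2
        refine ⟨i, mem_filter.2 ⟨mem_range.2 (Nat.lt_succ_of_le (Nat.le_floor (cnt i ?_))),
          e1.trans k3⟩, mem_filter.2 ⟨k1, e1, by linarith⟩⟩
        have k4 := (mem_Ioo.1 k1).2
        have c1 := (h.s_bds k4.le).2
        have c4 : (k : ℝ) ≤ M.N := by exact_mod_cast (by omega : k ≤ M.N)
        have c5 : 0 < S.v / S.C := by positivity
        have c6 : S.v / S.C ≤ l := (div_le_self v0.le C1).trans vl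
        refine le_of_mul_le_mul_right ?_ c5
        calc _ ≤ 2 ^ i * l := by gcongr
          _ ≤ M.N * (S.C * S.v) := e1.trans (c1.trans (by gcongr))
          _ = _ := by field_simp)
      fun i hi => by
        obtain ⟨g, -, b2, b3, -⟩ := out _ (le_mul_of_one_le_left l0.le (one_le_pow₀ one_le_two))
          (mem_filter.1 hi).2
        have : ∑ k ∈ sb S M (2 ^ i * l) (2 * (2 ^ i * l)), M.dz m a k * Γ S M m a p k ^ 2 ≤
            S.v ^ 2 + ∑ k ∈ sb S M (2 ^ i * l) (2 * (2 ^ i * l)), M.dz m a k * g k ^ 2 :=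
          M17.GG_sum h G (Γ_pos (m := m) (a := a) (p := p) h) 2 fun k hk =>
            ⟨Nat.zero_lt_of_lt (mem_Ioo.1 (mem_filter.1 hk).1).1, (b2 k hk).1.2.nn,
              Qk.le p0 (b2 k hk)⟩
        have v2 : S.v ^ 2 ≤ S.v := pow_le_of_le_one v0.le (vl.trans ll1) two_ne_zero
        linarith [N.v3, le_mul_of_one_le_left l3.le (one_le_pow₀ (n := 16) L1)]
    have a3 : (((range (⌊L ^ 3⌋₊ + 1)).filter fun i => 2 ^ i * l ≤ T0 S M).card : ℝ) ≤
        2 * L ^ 3 := by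
      have := card_filter_le (range (⌊L ^ 3⌋₊ + 1)) fun i => 2 ^ i * l ≤ T0 S M
      rw [card_range] at this
      have b : ((⌊L ^ 3⌋₊ + 1 : ℕ) : ℝ) ≤ 2 * L ^ 3 := by
        push_cast; linarith [Nat.floor_le (show 0 ≤ L ^ 3 by positivity), one_le_pow₀ (n := 3) L1]
      exact le_trans (by exact_mod_cast this) b
    have a4 := a2.trans (mul_le_mul_of_nonneg_right a3 (by positivity))
    have a6 := M17.sum_sub2 (T := (range S.J).filter fun k => M.s k ≤ T0 S M) (A := A) (B := B) g0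
      fun k hk => by
        obtain ⟨k1, k2⟩ := mem_filter.1 hk
        rcases lt_or_ge (M.s k) l with e | e
        · exact mem_union_left _ (mem_filter.2 ⟨k1, e⟩)
        · exact mem_union_right _ (mem_filter.2 ⟨mem_Ioo.2 ⟨kj k e, mem_range.1 k1⟩, e, k2⟩)
    have e2 : L ^ 9 * l ^ 3 ≤ L ^ 19 * l ^ 3 :=
      mul_le_mul_of_nonneg_right (pow_le_pow_right₀ L1 (by norm_num)) l3.le
    have e4 : 5 * (L ^ 19 * l ^ 3) ≤ L * (L ^ 19 * l ^ 3) :=
      mul_le_mul_of_nonneg_right (by linarith) (by positivity)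
    linarith [mul_le_mul_of_nonneg_right hΛ l3.le]
  · obtain ⟨b0, b1, D, X⟩ := geo' t h0 h1
    have Ge := X.geo
    have t0 := Ge.t0
    have := Ge.b0l
    have := Ge.b01
    have := Ge.b1J
    have := Ge.D1
    have cr : Crude K S M m a t (b0 - D) := ⟨K1, fun k a b => (c1.2 k (by omega) b).trans
      (mul_le_mul_of_nonneg_left (max_le_max le_rfl h0) (by linarith))⟩
    have O := Q _ _ _ _ _ _ (Ge.qh h hθ X.hw (ρ := fun _ => V) cr
      (fun _ => by rw [sub_self, abs_zero]; positivity) (fun _ => ⟨wV, Vt⟩) fun k a b => by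
        obtain ⟨r1, r2⟩ := Ge.rg k (by omega) (by omega)
        rw [cq_eq (by omega)]
        exact (loc k (by omega) (by omega) r1 r2).trans (le_mul_of_one_le_left V0.le K1))
    obtain ⟨o1, -, o3⟩ := Ge.out h I (by positivity) (fun _ => ⟨V0, Vt⟩) O.1 O.2
    have w0 := w3_pos h t0
    refine ⟨fun k hk => Qk.mono (o1 k hk) (mul_le_mul_of_nonneg_right
      (LK.trans (lp (by norm_num))) V0.le), fun i hi =>
      (o3 i hi _ (Ge.sum_c h (pow_nonneg V0.le i))).trans ?_⟩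
    have b1 : (L * K) ^ (i + 1) * (8 * S.C ^ 2) ≤ Λ ^ (i + 1) := by
      calc _ ≤ (L ^ 2) ^ (i + 1) * L ^ (i + 1) := mul_le_mul (by gcongr)
            (le_trans (by linarith) (le_self_pow₀ L1 i.succ_ne_zero)) (by positivity) (by positivity)
        _ = (L ^ 3) ^ (i + 1) := by ring
        _ ≤ _ := pow_le_pow_left₀ (by positivity) (lp (by norm_num)) _
    calc _ = (L * K) ^ (i + 1) * (8 * S.C ^ 2) * S.w3 t * (t * V ^ i) := by ring
      _ ≤ _ := by gcongr

/-- **moments on the sloped part** -/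
theorem slM : SlM := fun p hp => by
  refine ((((diag fun C => (qSyncS' (32 * max C 1) p (by linarith [le_max_right C 1])).and
    (CIn12.env_syn 3 (32 * max C 1) (by linarith [le_max_right C 1]))).and (qLowS p)).and
    (CIn12.env_cl 3)).and CIn12.cl_fn).glue fun C => ⟨0, fun A _ ε η hε hη => ?_⟩
  refine ⟨ε, min (η / 20) (min ε 1), 600 * C ^ 2 * (1 + 6 * C ^ 2), hε, by positivity,
    fun S M m a R h I ⟨⟨⟨Q, q⟩, e⟩, F⟩ l N => ?_⟩
  set η' := min (η / 20) (min ε 1) with hη'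
  have n1 := R.N1.le
  have n0 := R.N0
  have C1 := h.C1
  have hL := R.K_le
  rw [← R.hC] at hL
  rw [max_eq_left C1] at Q
  refine so_of F (R.Cθ h) hp hL R.num_le (rpow_le_rpow_of_exponent_le n1
    ((min_le_right _ _).trans (min_le_left _ _))) ((rpow_le_rpow_of_exponent_le n1
    ((min_le_right _ _).trans (min_le_right _ _))).trans_eq (rpow_one _))
    (le_trans (mul_le_mul_of_nonneg_left (pow_le_pow_right₀ n1 (R.hA ▸ R.A2)) h.v0.le) h.v2)
    (fun i hi => ?_) ?_ (fun _ _ _ _ _ _ H => ⟨Q.1 _ _ _ _ _ _ H, Q.2 _ _ _ _ _ _ H⟩) q e N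
  · set lam := (S.n : ℝ) ^ η'
    have cn : S.C ≤ S.n := by
      linarith [R.hC, R.C_log, h.C0, log_le_sub_one_of_pos n0]
    have a1 : (2 : ℝ) ^ i ≤ (S.n : ℝ) ^ (S.A + 3) := by
      calc _ ≤ S.C ^ 2 * M.N := hi
        _ ≤ (S.n : ℝ) ^ 2 * (S.n : ℝ) ^ (S.A + 1) := by have := h.C0; have := h.card; gcongr
        _ = _ := by ring
    have a2 := log_le_log (by positivity) a1
    rw [log_pow, log_pow, R.hA] at a2
    push_cast at a2
    have a5 : 1000 ≤ lam := R.num_le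
    have a3 : ((A : ℝ) + 3) * log S.n ≤ (lam + 3) * lam :=
      mul_le_mul (by linarith [R.A_le]) R.log_le (by linarith [R.log1]) (by linarith)
    have a4 : (i : ℝ) * (1 / 2) ≤ i * log 2 :=
      mul_le_mul_of_nonneg_left (by linarith [log_two_gt_d9]) (Nat.cast_nonneg i)
    nlinarith [mul_le_mul_of_nonneg_right a5 (sq_nonneg lam)]
  · rw [Pre29.rp_pow]
    exact rpow_le_rpow_of_exponent_le n1 (by push_cast; linarith [min_le_left (η / 20) (min ε 1)])

end Crest.Agent.T156.Alt.R62.S39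

end
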