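import Crest.Agent.T156.R2MG_90
import Crest.Agent.T156.R2MS_39
import Crest.Agent.T156.SprL_11

/-!
# Row 156, R2 (helper90): the sloped moment kit on the END model
-/

set_option autoImplicit false
set_option linter.unusedSectionVars false

noncomputable section

namespace Crest.Agent.T156.Alt.R2.J90

open Real Finset
open Crest.Agent.T156.Alt.Md67 Crest.Agent.T156.Alt.R62 Crest.Agent.T156.Alt.R62.S39

/-- the crude level -/
def lE (p : Pm) : ℝ := p.s * (p.n : ℝ) ^ (2 / 9 * p.c - 1 / 6)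

/-- output of SR (`= Sml β Sp41.SrE`) -/
def SrF (β : ℝ) : Prop := Sml β fun _ p => ∀ P, p.SpOk (7 / 20) P → ∀ m a, p.InW m a →
  p.ph2 P (p.tst P p.ye) m a ≤ p.s ^ 3 * (p.n : ℝ) ^ (2 / 3 * p.c - 1 / 2)

/-- **the sloped kit on END** -/
def SoE (β : ℝ) : Prop := Sml β fun Λ p => ∀ P m a, p.SpOk (7 / 20) P → In p m a →
  ∃ C, C ≤ Λ ∧ En C p P ∧ SO 4 Λ (Se p C P) (Me p P) m a (lE p)

variable {β c0 C0 c η K0 C : ℝ} {A : ℕ} {p : Pm} {P : Pl} {m : ℕ} {a : ℝ}

theorem inW (h : In p m a) : p.InW m a := ⟨h.m1, h.m2, h.a1, h.a2⟩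

section reg
variable (H : Reg β c0 C0 A c η K0 p)
include H

theorem lE0 : 0 < lE p := mul_pos H.s0 (H.rp0 _)

theorem lg_lE : logb p.n (lE p) = logb p.n p.s + 2 / 9 * c - 1 / 6 := by
  rw [lE, logb_mul H.s0.ne' (H.rp0 _).ne', H.lg_rp, H.hc]; ring

theorem lE3 : p.s ^ 3 * (p.n : ℝ) ^ (2 / 3 * p.c - 1 / 2) = lE p ^ 3 := by
  rw [lE, mul_pow, Pre29.rp_pow]; congr 2; push_cast; ring

theorem w3_le {t x : ℝ} (x0 : 0 < x) (xt : x ≤ t) (xy : x ≤ p.ye) :
    (Se p C P).w3 t ≤ 1 / (p.n * t * (p.κ * x ^ 2)) := by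
  have k0 := H.κ0
  have N0 := H.N0
  have t0 := x0.trans_le xt
  change 1 / (p.n * t * (1 * p.κ * max p.r (min t p.ye) ^ 2)) ≤ _
  rw [one_mul]
  refine one_div_le_one_div_of_le (by positivity) ?_
  gcongr
  exact (le_min xt xy).trans (le_max_right _ _)

theorem le_sJ (e : En C p P) {x : ℝ} (x0 : 0 < x) (h : logb p.n x ≤ -η) :
    x ≤ (Me p P).s p.J := by
  have b := H.lg_le (by have := H.c00; positivity) H.c0_le
  rw [one_div, logb_inv] at b
  rw [e.sJ]
  exact (H.le_of_lg x0 H.c00 (by linarith)).trans H.ok.base.lo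

theorem si_end (hC : C ≤ (p.n : ℝ) ^ η) (hη : 60 * η ≤ c) (e : En C p P) (sp : p.SpOk (7 / 20) P)
    (hE : p.ph2 P (p.tst P p.ye) m a ≤ p.s ^ 3 * (p.n : ℝ) ^ (2 / 3 * p.c - 1 / 2)) :
    SI ((p.n : ℝ) ^ p.c) (Se p C P) (Me p P) m a (lE p) := by
  have l0 := lE0 H
  have ll := lg_lE H
  have k0 := H.κ0
  have N0 := H.N0
  have y0 := H.ye0
  have j0 := H.jfv0
  have C1 : 1 ≤ C := e.cl.C1
  have lC := H.lg_cst C1 hC
  have s1 := H.lg_s
  have cc := H.c_le
  have c0' := H.c_pos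
  have A2 : (2 : ℝ) ≤ A := by exact_mod_cast H.A2
  have ly : lE p ≤ p.ye := H.le_of_lg l0 y0 (by linarith [H.lg_ye])
  have jl : p.jf < p.J := e.cl.jl_lt
  have a0 : 1 / (p.n * lE p * (p.κ * lE p ^ 2)) ≤ lE p ^ 3 := by
    refine H.le_of_lg (by positivity) (by positivity) ?_
    lg_norm
    linarith [H.lg_n, H.lg_κ]
  refine ⟨?_, H.le_of_lg (by positivity) one_pos ?_, e.gam.trans (sp.g'.trans_le
    (H.le_of_lg (H.rp0 _) l0 (by linarith [H.lg_rp (-(7 / 20))]))), fun t h1 _ => ?_,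
    fun t h1 h2 => ?_, H.le_of_lg H.v0 (by positivity) ?_, hE.trans_eq (lE3 H)⟩
  · have : 12 * (p.jf * p.v) ≤ lE p := H.le_of_lg (by positivity) l0 (by
      rw [logb_mul (by norm_num) j0.ne']
      linarith [H.lg_jf.2, (H.lg_num (x := 12) (by norm_num) (by norm_num)).2])
    exact le_trans (by linarith [(e.s_lo H jl.le).2] : 8 * (Me p P).s p.jf ≤ _) this
  · rw [logb_mul (H.rp0 _).ne' l0.ne', H.lg_rp, logb_one, H.hc]; linarith
  · refine (w3_le H l0 h1 ly).trans (le_trans ?_ (a0.trans (pow_le_pow_left₀ l0.le h1 3)))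
    exact one_div_le_one_div_of_le (by positivity) (by gcongr)
  · have t0 := l0.trans_le h1
    have w0 := (w3_pos e.cl t0).le
    rcases le_total t p.ye with h3 | h3
    · have b := pow_le_pow_left₀ w0 (w3_le (C := C) (P := P) H t0 le_rfl h3) 2
      refine (mul_le_mul_of_nonneg_left b (by positivity)).trans
        (H.le_of_lg (by positivity) (by positivity) ?_)
      lg_norm
      linarith [H.lg_n, H.lg_κ, H.lg_mono l0 h1]
    · have b := pow_le_pow_left₀ w0 (w3_le (C := C) (P := P) H y0 h3 le_rfl) 2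
      refine (mul_le_mul_of_nonneg_left b (by positivity)).trans
        (H.le_of_lg (by positivity) (by positivity) ?_)
      lg_norm
      linarith [H.lg_n, H.lg_κ, H.lg_ye, H.lg_mono t0 (show t ≤ C from h2)]
  · change logb _ p.v ≤ _
    rw [logb_pow]; push_cast; linarith [H.lg_v_le]

theorem s_jc (e : En C p P) {k : ℕ} (hk : k ≤ jc p) : (Me p P).s k ≤ 3 * t1 p := by
  have := jc_lt H
  linarith [(e.s_lo H (k := jc p) (by omega)).2, (jc_bds H).2, H.v_le_r, r_le_t1 H, e.cl.sm hk]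

theorem t1_sJ (e : En C p P) : 48 * t1 p ≤ (Me p P).s p.J := by
  have := t10 H
  refine le_sJ H e (by positivity) ?_
  rw [logb_mul (by norm_num) this.ne']
  linarith [lg_t1 H, (H.lg_num (x := 48) (by norm_num) (by norm_num)).2, H.c_le, H.η_le, H.lg_s.2]

/-- the second moments below the cut -/
theorem sq_end (hη : 60 * η ≤ c) (e : En C p P) (h : In p m a)
    (O : SO 4 ((p.n : ℝ) ^ η) (Se p C P) (Me p P) m a (lE p)) :
    ∑ k ∈ range (jc p), (Me p P).dz m a k * (Me p P).E2 m a (fun R => (R - (Me p P).q k) ^ 2) k ≤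
      p.κ ^ (-(7 : ℝ) / 10) * (p.s ^ 3 * (p.n : ℝ) ^ (-(1 : ℝ) / 2)) := by
  have j1 := jc_lt H
  have iN : p.J < (Me p P).N := e.cl.J_lt
  have G := e.lg H h
  have l0 := lE0 H
  have k0 := H.κ0
  have N0 := H.N0
  have s0 := H.s0
  have a1 : ∑ k ∈ range (jc p), (Me p P).dz m a k *
      (Me p P).E2 m a (fun R => (R - (Me p P).q k) ^ 2) k ≤
      9 * ∑ k ∈ range (jc p), (Me p P).dz m a k * Γ (Se p C P) (Me p P) m a 4 k ^ 2 := by
    rw [mul_sum]
    exact sum_le_sum fun k hk => (mul_le_mul_of_nonneg_left (sq_le (p := 4) e.cl G.m0 (by norm_num)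
      (by have := mem_range.1 hk; omega)) (dz_nn G k)).trans_eq (by ring)
  have a2 := (sum_le_sum_of_subset_of_nonneg (s := range (jc p)) (fun k hk => by
    have := mem_range.1 hk
    exact mem_filter.2 ⟨mem_range.2 (show k < p.J by omega), show _ ≤ (Me p P).s p.J / 16 by
      linarith [s_jc H e this.le, t1_sJ H e]⟩)
    fun k _ _ => mul_nonneg (dz_nn G k) (sq_nonneg _)).trans O.tot
  refine a1.trans ((mul_le_mul_of_nonneg_left a2 (by norm_num)).trans
    (H.le_of_lg (by positivity) (by positivity) ?_))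
  lg_norm
  linarith [H.lg_n, H.lg_κ, lg_lE H, (H.lg_num (x := 9) (by norm_num) (by norm_num)).2,
    mul_one η ▸ congrArg (η * ·) H.lg_n]

end reg

theorem soE_of (hβ : 1 < β) (hM : SlM) (h : SrF β) : SoE β := by
  unfold SoE
  exact Sml.glueCL hβ (enS hβ) h (hM 4 le_rfl) id id (fun _ hc => hc) fun C _ c0 C0 _ _ =>
    ⟨0, fun A _ => ⟨1, one_pos, fun c _ c0' => ⟨c / 60, by positivity, fun η hη _ =>
      ⟨C, fun p H e I L P m a sp h => by
        rw [le_div_iff₀' (by positivity)] at hη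
        have e := e H.r_le_ye P sp
        exact ⟨C, H.K_le, e, L _ _ rfl rfl rfl e.cl m a h.sc _
          (si_end H H.K_le hη e sp (I P sp m a (inW h)))⟩⟩⟩⟩⟩

/-- the input of `LwS` -/
theorem lw_of (hβ : 1 < β) (h : SoE β) : Sml β fun _ p => ∀ P m a, p.SpOk (7 / 20) P → In p m a →
    ∑ k ∈ range (jc p), (Me p P).dz m a k * (Me p P).E2 m a (fun R => (R - (Me p P).q k) ^ 2) k ≤
      p.κ ^ (-(7 : ℝ) / 10) * (p.s ^ 3 * (p.n : ℝ) ^ (-(1 : ℝ) / 2)) :=
  Sml.glue' hβ h 0 one_pos 60 fun _ _ _ _ _ _ _ _ _ => ⟨0, fun p H _ _ hη I P m a sp h => by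
    obtain ⟨C, -, e, O⟩ := I P m a sp h
    exact sq_end H (by exact_mod_cast hη) e h O⟩

end Crest.Agent.T156.Alt.R2.J90

end
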