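import Crest.Agent.T156.R2J_90

/-!
# Row 156, R2 (helper90): sums of the sloped envelope of the END model
-/

set_option autoImplicit false

noncomputable section

namespace Crest.Agent.T156.Alt.R2.J90

open Real Finset
open Crest.Agent.T156.Cas Crest.Agent.T156.Cas.C40 Crest.Agent.T156.Alt.Md67

variable {S : Sc} {M : Md} {m : ℕ} {a t0 : ℝ} {T : Finset ℕ}

theorem tel (h : Cl S M) (hv : S.C * S.v ≤ t0)
    (hT : ∀ k ∈ T, S.j0 < k ∧ k < S.J ∧ t0 ≤ M.s k) {f φ : ℝ → ℝ} (f0 : ∀ x, t0 ≤ x → 0 ≤ f x)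
    (hf : ∀ x y, t0 ≤ x → x ≤ y → y ≤ 2 * x → (y - x) * f x ≤ φ y - φ x)
    (φm : ∀ x y, t0 ≤ x → x ≤ y → φ x ≤ φ y) :
    ∑ k ∈ T, M.dz m a k * f (M.s k) ≤ S.C ^ 2 * (φ (max (M.s S.J) t0) - φ t0) := by
  have t0p : 0 < t0 := (mul_pos h.C0 h.v0).trans_le hv
  set ψ : ℕ → ℝ := fun k => φ (max (M.s k) t0) with hψ
  have a1 : ∀ k ∈ T, M.dz m a k * f (M.s k) ≤ S.C ^ 2 * (ψ (k + 1) - ψ k) := fun k hk => by
    obtain ⟨b1, b2, b3⟩ := hT k hk
    have sm := h.sm (Nat.le_succ k)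
    simp only [Nat.succ_eq_add_one] at sm
    simp only [hψ]
    rw [max_eq_left b3, max_eq_left (b3.trans sm)]
    refine (mul_le_mul_of_nonneg_right (dz_le h b1 b2) (f0 _ b3)).trans ?_
    rw [mul_assoc]
    exact mul_le_mul_of_nonneg_left (hf _ _ b3 sm (by linarith [(h.ss k b2).2])) (sq_nonneg _)
  refine (sum_le_sum a1).trans ((sum_le_sum_of_subset_of_nonneg
    (f := fun k => S.C ^ 2 * (ψ (k + 1) - ψ k))
    (fun k hk => mem_range.2 (hT k hk).2.1) fun k _ _ => mul_nonneg (sq_nonneg _) (sub_nonneg.2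
      (φm _ _ (le_max_right _ _) (max_le_max_right _ (h.sm (Nat.le_succ k)))))).trans_eq ?_)
  rw [← mul_sum, sum_range_sub]
  simp only [hψ]
  rw [h.s0, max_eq_right t0p.le]

/-- sums of `α / t² + β / t + γ` over sloped nodes above `t0` -/
theorem sum3 (h : Cl S M) (G : Lg M m a) (hv : S.C * S.v ≤ t0) (hC : t0 ≤ S.C)
    (hT : ∀ k ∈ T, S.j0 < k ∧ k < S.J ∧ t0 ≤ M.s k) {F : ℕ → ℝ} {α β γ : ℝ} (α0 : 0 ≤ α)
    (β0 : 0 ≤ β) (γ0 : 0 ≤ γ) (hF : ∀ k ∈ T, F k ≤ α / M.s k ^ 2 + β / M.s k + γ) :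
    ∑ k ∈ T, M.dz m a k * F k ≤ 2 * S.C ^ 2 * (α / t0 + β * log (S.C / t0)) + γ := by
  have t0p : 0 < t0 := (mul_pos h.C0 h.v0).trans_le hv
  have mx : max (M.s S.J) t0 ≤ S.C := max_le ((h.sm h.i3).trans h.sT) hC
  have m0 : 0 < max (M.s S.J) t0 := lt_max_of_lt_right t0p
  have a1 := tel (m := m) (a := a) h hv hT (f := fun x => 1 / x ^ 2) (φ := fun x => -(2 / x))
    (fun x _ => by positivity) (fun x y h1 h2 h3 => by
      have x0 := t0p.trans_le h1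
      have y0 := x0.trans_le h2
      rw [show -(2 / y) - -(2 / x) = (y - x) * (2 / (x * y)) by field_simp; ring]
      refine mul_le_mul_of_nonneg_left ?_ (sub_nonneg.2 h2)
      rw [div_le_div_iff₀ (by positivity) (by positivity)]
      nlinarith)
    fun x y h1 h2 => neg_le_neg (div_le_div_of_nonneg_left zero_le_two (t0p.trans_le h1) h2)
  have a2 := tel (m := m) (a := a) h hv hT (f := fun x => 1 / x) (φ := fun x => 2 * log x)
    (fun x h1 => (one_div_pos.2 (t0p.trans_le h1)).le) (fun x y h1 h2 h3 => by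
      linarith [log_step (t0p.trans_le h1) h2 h3, mul_one_div (y - x) x])
    fun x y h1 h2 => by linarith [log_le_log (t0p.trans_le h1) h2]
  have a3 : ∑ k ∈ T, M.dz m a k ≤ 1 := by
    refine (sum_le_sum_of_subset_of_nonneg (fun k hk => mem_range.2 (show k < M.N + 1 by
      have := (hT k hk).2.1; have := h.J_lt; omega)) fun k _ _ => dz_nn G k).trans ?_
    rw [sum_dz_all]; linarith [G.a0]
  have a4 : ∑ k ∈ T, M.dz m a k * F k ≤ α * ∑ k ∈ T, M.dz m a k * (1 / M.s k ^ 2) +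
      β * ∑ k ∈ T, M.dz m a k * (1 / M.s k) + γ * ∑ k ∈ T, M.dz m a k := by
    rw [mul_sum, mul_sum, mul_sum, ← sum_add_distrib, ← sum_add_distrib]
    exact sum_le_sum fun k hk => (mul_le_mul_of_nonneg_left (hF k hk) (dz_nn G k)).trans_eq
      (by ring)
  have b1 : ∑ k ∈ T, M.dz m a k * (1 / M.s k ^ 2) ≤ S.C ^ 2 * (2 / t0) :=
    a1.trans (mul_le_mul_of_nonneg_left (by linarith [div_pos two_pos m0]) (sq_nonneg _))
  have b2 : ∑ k ∈ T, M.dz m a k * (1 / M.s k) ≤ S.C ^ 2 * (2 * log (S.C / t0)) :=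
    a2.trans (mul_le_mul_of_nonneg_left (by
      rw [log_div h.C0.ne' t0p.ne']; linarith [log_le_log m0 mx]) (sq_nonneg _))
  have := mul_le_mul_of_nonneg_left b1 α0
  have := mul_le_mul_of_nonneg_left b2 β0
  have := mul_le_mul_of_nonneg_left a3 γ0
  have e : 2 * S.C ^ 2 * (α / t0 + β * log (S.C / t0)) =
    α * (S.C ^ 2 * (2 / t0)) + β * (S.C ^ 2 * (2 * log (S.C / t0))) := by ring
  linarith

end Crest.Agent.T156.Alt.R2.J90

end
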