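import Crest.Agent.T156.R2MS_39
import Crest.Agent.T156.R2K_30

/-!
# Row 156, R2 (helper39): the sloped moment kit on the END model
-/

set_option autoImplicit false

noncomputable section

namespace Crest.Agent.T156.Alt.R2

open Real Finset
open Crest.Agent.T156.Alt.Md67 Crest.Agent.T156.Alt.R62 Crest.Agent.T156.Alt.R62.S39

/-- the level of the energy `s³ n^{y c - 1/2}` -/
def lE (p : Pm) (y : ℝ) : ℝ := p.s * (p.n : ℝ) ^ (y / 3 * p.c - 1 / 6)

/-- the output of SR on the END model (`Sp41.SrE` for `y = 2 / 3`, `En91.SrE` for `y = 2`) -/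
def EnE (y : ℝ) (p : Pm) : Prop := ∀ P m a, p.SpOk (7 / 20) P → In p m a →
  ∑ k ∈ Ioc p.jf (p.Jp P), ((Me p P).z k - (Me p P).z (k - 1)) * (Me p P).del m a k ^ 2 ≤
    p.s ^ 3 * (p.n : ℝ) ^ (y * p.c - 1 / 2)

section reg
variable {β c0 C0 c η K C y : ℝ} {A : ℕ} {p : Pm} {P : Pl} (H : Reg β c0 C0 A c η K p)
include H

theorem lE0 : 0 < lE p y := mul_pos H.s0 (H.rp0 _)

theorem lg_lE : logb p.n (lE p y) = logb p.n p.s + y / 3 * c - 1 / 6 := by
  rw [lE, logb_mul H.s0.ne' (H.rp0 _).ne', H.lg_rp, H.hc]; ring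

omit H in
theorem lE_cube : lE p y ^ 3 = p.s ^ 3 * (p.n : ℝ) ^ (y * p.c - 1 / 2) := by
  rw [lE, mul_pow, Pre29.rp_pow]
  congr 2
  push_cast
  ring

/-- the width on the END model -/
theorem w3_le {t x : ℝ} (x0 : 0 < x) (h1 : x ≤ t) (h2 : x ≤ p.ye) :
    (Se p C P).w3 t ≤ 1 / (p.n * t * (p.κ * x ^ 2)) := by
  have := H.N0
  have := H.κ0
  have := x0.trans_le h1
  change 1 / (p.n * t * (1 * p.κ * max p.r (min t p.ye) ^ 2)) ≤ _
  rw [one_mul]
  gcongr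
  exact le_max_of_le_right (le_min h1 h2)

/-- the nodes below the cut lie below the top zone -/
theorem En.low_T0 (e : En C p P) (hC : C ≤ (p.n : ℝ) ^ η) {k : ℕ} (hk : k ≤ jc p) :
    k < p.J ∧ (Me p P).s k ≤ 3 * t1 p ∧ 3 * t1 p ≤ T0 (Se p C P) (Me p P) := by
  have h := e.cl
  have C1 : 1 ≤ C := h.C1
  have C0' : 0 < C := by linarith
  have j1 := jc_lt H
  have j2 := jf_lt H
  have t0 := t10 H
  have v0 := H.v0
  have vt := H.v_le_r.trans (r_le_t1 H)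
  have a0 : (k : ℝ) * p.v ≤ jc p * p.v := mul_le_mul_of_nonneg_right (Nat.cast_le.2 hk) v0.le
  have a1 : 50 * C ^ 2 * t1 p ≤ 1 := H.le_of_lg (by positivity) one_pos (by
    lg_norm
    linarith [lg_t1 H, (H.lg_cst C1 hC).2, (H.lg_num (x := 50) (by norm_num) (by norm_num)).2,
      H.lg_s.2, H.c_le, H.η_le])
  have a2 : (Me p P).z (p.J - 1) ≤ C * ((Me p P).s (p.J - 1) + 2 * p.v) :=
    (h.z_s (k := p.J - 1) (show p.jf ≤ _ by omega) (show _ < p.J by omega)).2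
  have a3 : 1 ≤ (Me p P).z (p.J - 1) * C := (div_le_iff₀ C0').1 h.atom.1
  have a4 := h.sm (Nat.sub_le p.J 1)
  refine ⟨by omega, by linarith [(e.s_lo H (k := k) (by omega)).2, (jc_bds H).2], ?_⟩
  change _ ≤ (Me p P).s p.J / 16
  refine le_of_mul_le_mul_left (a := C ^ 2) ?_ (by positivity)
  nlinarith [mul_le_mul_of_nonneg_right a2 C0'.le, mul_le_mul_of_nonneg_left a4 (sq_nonneg C),
    mul_le_mul_of_nonneg_left vt (sq_nonneg C)]

end reg

/-- the sloped kit on the END model -/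
def SoE (q : ℕ) (y Λ : ℝ) (p : Pm) : Prop := ∃ C, 1 ≤ C ∧ C ≤ Λ ∧ ∀ P, p.SpOk (7 / 20) P →
  En C p P ∧ ∀ m a, In p m a → SO q Λ (Se p C P) (Me p P) m a (lE p y)

theorem soE {β : ℝ} (hβ : 1 < β) {q : ℕ} (hq : 4 ≤ q) {y : ℝ} (y1 : 2 / 3 ≤ y) (y2 : y ≤ 6)
    (h : Sml β fun _ p => EnE y p) : Sml β (SoE q y) := by
  refine Sml.glueCL hβ (enS hβ) h (slM q hq) id id (fun _ h => h) fun C C1 c0 C0 _ _ =>
    ⟨0, fun A _ => ⟨1, one_pos, fun c _ hc => ⟨c / 20, by positivity, fun η hη _ =>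
      ⟨C, fun p H G R L => ⟨C, C1, H.K_le, fun P sp => ?_⟩⟩⟩⟩⟩
  have e := G H.r_le_ye P sp
  refine ⟨e, fun m a x => L _ _ rfl rfl rfl e.cl m a x.sc _ ?_⟩
  have l0 : 0 < lE p y := lE0 H
  have ll := lg_lE (y := y) H
  have N0 := H.N0
  have κ0 := H.κ0
  have ye0 := H.ye0
  have C0' : 0 < C := by linarith
  obtain ⟨σ0, σ1⟩ := H.lg_s
  have lκ := H.lg_κ
  have ly := H.lg_ye
  have ln := H.lg_n
  have c2 := H.c_le
  have b1 := mul_le_mul_of_nonneg_right y1 hc.le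
  have b2 := mul_le_mul_of_nonneg_right y2 hc.le
  have lye : lE p y ≤ p.ye := H.le_of_lg l0 ye0 (by linarith)
  have a1 : 1 ≤ p.n * p.κ * lE p y ^ 6 := H.le_of_lg one_pos (by positivity) (by lg_norm; linarith)
  have a2 : C ≤ (lE p y ^ 3) ^ 3 * (p.n * (p.κ * p.ye ^ 2)) ^ 2 :=
    H.le_of_lg C0' (by positivity) (by lg_norm; linarith [(H.lg_cst C1 H.K_le).2])
  have j2 := jf_lt H
  have j1 := jc_lt H
  refine ⟨?_, ?_, e.gam.trans ?_, fun t h1 h2 => (w3_le H l0 h1 lye).trans ?_, fun t h1 h2 => ?_,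
    ?_, (R P m a sp x).trans_eq lE_cube.symm⟩
  · have := H.jfv0
    have b : 12 * (p.jf * p.v) ≤ lE p y := H.le_of_lg (by positivity) l0 (by
      rw [logb_mul (by norm_num) this.ne']
      linarith [H.lg_jf.2, (H.lg_num (x := 12) (by norm_num) (by norm_num)).2])
    change 8 * (Me p P).s p.jf ≤ _
    linarith [(e.s_lo H (k := p.jf) (by omega)).2]
  · refine H.le_of_lg (mul_pos (H.rp0 _) l0) one_pos ?_
    rw [logb_mul (H.rp0 _).ne' l0.ne', H.lg_rp, logb_one, id, H.hc]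
    linarith
  · rw [sp.g']
    exact H.le_of_lg (H.rp0 _) l0 (by rw [H.lg_rp]; linarith)
  · have t0 := l0.trans_le h1
    rw [div_le_iff₀ (by positivity)]
    calc _ ≤ _ := a1
      _ = lE p y ^ 3 * (p.n * lE p y * (p.κ * lE p y ^ 2)) := by ring
      _ ≤ _ := by gcongr
  · have t0 := l0.trans_le h1
    have w0 := (w3_pos e.cl t0).le
    have key : ∀ u, 0 < u → u ≤ t → u ≤ p.ye → t ≤ (lE p y ^ 3) ^ 3 * (p.n * (p.κ * u ^ 2)) ^ 2 →
        t ^ 3 * (Se p C P).w3 t ^ 2 ≤ (lE p y ^ 3) ^ 3 := fun u u0 u1 u2 u3 => by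
      calc _ ≤ t ^ 3 * (1 / (p.n * t * (p.κ * u ^ 2))) ^ 2 := by gcongr; exact w3_le H u0 u1 u2
        _ = t / (p.n * (p.κ * u ^ 2)) ^ 2 := by field_simp
        _ ≤ _ := (div_le_iff₀ (by positivity)).2 u3
    rcases le_total t p.ye with d | d
    · refine key t t0 le_rfl d ?_
      calc t = t * 1 ^ 2 := by ring
        _ ≤ t * (p.n * p.κ * lE p y ^ 6) ^ 2 := by gcongr
        _ = (lE p y ^ 3) ^ 3 * (p.n * p.κ) ^ 2 * t * lE p y ^ 3 := by ring
        _ ≤ (lE p y ^ 3) ^ 3 * (p.n * p.κ) ^ 2 * t * t ^ 3 := by gcongr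
        _ = _ := by ring
    · exact key _ ye0 d le_rfl (h2.trans a2)
  · have A2 : (2 : ℝ) ≤ A := by exact_mod_cast H.A2
    exact H.le_of_lg (x := p.v) H.v0 (pow_pos l0 3) (by
      rw [logb_pow]; push_cast; linarith [H.lg_v_le])

/-- **second moments below the cut**, sharp power -/
theorem lowM {β : ℝ} (hβ : 1 < β) (h : Sml β fun _ p => EnE (2 / 3) p) :
    Sml β fun _ p => ∀ P m a, p.SpOk (7 / 20) P → In p m a →
      ∑ k ∈ range (jc p), (Me p P).dz m a k * (Me p P).E2 m a (fun R => (R - (Me p P).q k) ^ 2) k ≤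
        p.s ^ 3 * (p.n : ℝ) ^ (7 / 10 * p.c - 1 / 2) := by
  refine (soE hβ le_rfl le_rfl (by norm_num) h).glue' hβ 0 one_pos 60
    fun c0 C0 A c η _ _ _ _ => ⟨0, fun p H _ _ hη ⟨C, C1, hC, G⟩ P m a sp x => ?_⟩
  obtain ⟨e, O⟩ := G P sp
  have O := O m a x
  have g := e.lg H x
  have l0 := O.l0
  have Λ0 := H.Λ0
  have s0 := H.s0
  have hη' : 60 * η ≤ c := by exact_mod_cast hη
  calc _ ≤ ∑ k ∈ range (jc p), 9 * ((Me p P).dz m a k * Γ (Se p C P) (Me p P) m a 4 k ^ 2) :=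
        sum_le_sum fun k hk => (mul_le_mul_of_nonneg_left (sq_le (p := 4) e.cl g.m0 (by norm_num)
          ((e.low_T0 H hC (mem_range.1 hk).le).1.trans e.cl.J_lt)) (g.dz_nonneg k)).trans_eq (by ring)
    _ ≤ 9 * ((p.n : ℝ) ^ η * lE p (2 / 3) ^ 3) := by
        rw [← mul_sum]
        refine mul_le_mul_of_nonneg_left ((sum_le_sum_of_subset_of_nonneg (fun k hk => ?_)
          fun k _ _ => mul_nonneg (g.dz_nonneg k) (sq_nonneg _)).trans O.tot) (by norm_num)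
        obtain ⟨a1, a2, a3⟩ := e.low_T0 H hC (mem_range.1 hk).le
        exact mem_filter.2 ⟨mem_range.2 a1, a2.trans a3⟩
    _ ≤ _ := H.le_of_lg (by positivity) (mul_pos (pow_pos s0 3) (H.rp0 _)) (by
        rw [logb_mul (by norm_num) (by positivity), logb_mul Λ0.ne' (by positivity),
          logb_mul (by positivity) (H.rp0 _).ne', logb_pow, logb_pow, lg_lE H, H.lg_rp, H.lg_rp, H.hc]
        push_cast
        linarith [(H.lg_num (x := 9) (by norm_num) (by norm_num)).2])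

end Crest.Agent.T156.Alt.R2

end
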