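import Crest.Agent.T156.R2ME_90
import Crest.Agent.T156.R2VD_23
import Crest.Agent.T156.EnD_91

/-!
# Row 156, R2 (helper90): `JS` and `GlS` from SR and the location of the END model
-/

set_option autoImplicit false
set_option linter.unusedSectionVars false

noncomputable section

namespace Crest.Agent.T156.Alt.R2.J90

open Real Finset
open Crest.Agent.T156.Alt.Md67 Crest.Agent.T156.Alt.R62 Crest.Agent.T156.Alt.R62.S39

/-- the three sizes and the envelope at the time `t` -/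
def eU (p : Pm) : ℝ := p.s ^ 3 * (p.n : ℝ) ^ (-(1 / 2 : ℝ))
def eX (p : Pm) : ℝ := (p.n : ℝ) ^ (-(1 / 3 : ℝ))
def eB (p : Pm) : ℝ := p.s ^ 2 * (p.n : ℝ) ^ (-(13 / 40 : ℝ))
def Av (p : Pm) (t : ℝ) : ℝ := eU p / t ^ 2 + eX p / t + eB p

theorem pow3 {x y z : ℝ} (hx : 0 ≤ x) (hy : 0 ≤ y) (hz : 0 ≤ z) (i : ℕ) :
    (x + y + z) ^ i ≤ 3 ^ i * (x ^ i + y ^ i + z ^ i) := by
  have a := pow_nonneg hx i
  have b := pow_nonneg hy i
  have c := pow_nonneg hz i
  have key : ∀ w, 0 ≤ w → x ≤ w → y ≤ w → z ≤ w → w ^ i ≤ x ^ i + y ^ i + z ^ i →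
      (x + y + z) ^ i ≤ 3 ^ i * (x ^ i + y ^ i + z ^ i) := fun w _ h1 h2 h3 h4 =>
    (pow_le_pow_left₀ (by positivity) (by linarith : _ ≤ 3 * w) i).trans
      (by rw [mul_pow]; gcongr)
  rcases le_total x y with h1 | h1 <;> rcases le_total y z with h2 | h2
  · exact key z hz (h1.trans h2) h2 le_rfl (by linarith)
  · exact key y hy h1 le_rfl h2 (by linarith)
  · rcases le_total x z with h3 | h3
    · exact key z hz h3 h2 le_rfl (by linarith)
    · exact key x hx le_rfl h1 h3 (by linarith)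
  · exact key x hx le_rfl h1 (h2.trans h1) (by linarith)

/-- `y ^ i / t ^ (j + 2) ≤ y ^ i / t0 ^ j / t ^ 2` -/
theorem dv {y t t0 : ℝ} (hy : 0 ≤ y) (h0 : 0 < t0) (h : t0 ≤ t) (j : ℕ) :
    y / t ^ (j + 2) ≤ y / t0 ^ j / t ^ 2 := by
  have := h0.trans_le h
  rw [div_div, pow_add]
  gcongr

variable {β c0 C0 c η K0 C : ℝ} {A : ℕ} {p : Pm} {P : Pl} {m : ℕ} {a : ℝ}

section reg
variable (H : Reg β c0 C0 A c η K0 p)
include H

theorem eU0 : 0 < eU p := mul_pos (pow_pos H.s0 3) (H.rp0 _)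
theorem eX0 : 0 < eX p := H.rp0 _
theorem eB0 : 0 < eB p := mul_pos (pow_pos H.s0 2) (H.rp0 _)
theorem lg_eU : logb p.n (eU p) = 3 * logb p.n p.s - 1 / 2 := by
  rw [eU, logb_mul (pow_pos H.s0 3).ne' (H.rp0 _).ne', H.lg_rp, logb_pow]; push_cast; ring
theorem lg_eX : logb p.n (eX p) = -(1 / 3) := H.lg_rp _
theorem lg_eB : logb p.n (eB p) = 2 * logb p.n p.s - 13 / 40 := by
  rw [eB, logb_mul (pow_pos H.s0 2).ne' (H.rp0 _).ne', H.lg_rp, logb_pow]; push_cast; ring
theorem Av0 {t : ℝ} (ht : 0 < t) : 0 < Av p t := by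
  have := eU0 H; have := eX0 H; have := eB0 H; unfold Av; positivity

theorem third {x Z : ℝ} (x0 : 0 < x) (Z0 : 0 < Z) (h : logb p.n x + η ≤ logb p.n Z) :
    x ≤ Z / 3 := H.le_of_lg x0 (by positivity) (by
  rw [logb_div Z0.ne' (by norm_num)]
  linarith [(H.lg_num (x := 3) (by norm_num) (by norm_num)).2])

theorem ye_sJ (hη : 60 * η ≤ c) (e : En C p P) : 2 * p.ye ≤ (Me p P).s p.J := by
  have := H.ye0
  refine le_sJ H e (by positivity) ?_
  rw [logb_mul (by norm_num) this.ne']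
  linarith [H.lg_ye, H.lg_two.2, H.η_pos]

theorem ji_end (hη : 60 * η ≤ c) (e : En C p P) (h : In p m a)
    (O : SO 4 ((p.n : ℝ) ^ η) (Se p C P) (Me p P) m a (lE p))
    (L : En91.LocE p P (Me p P) m a) : JI 13 p P m a := by
  have k0 := H.κ0
  have s0 := H.s0
  have N0 := H.N0
  have c0' := H.c_pos
  refine ⟨(sq_end H hη e h O).trans (H.le_of_lg (by positivity) (by positivity) ?_),
    fun k hk hs => (L.sup k (le_trans (H.le_of_lg (by positivity) (by positivity) ?_) hs)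
      (by linarith [s_jc H e hk.le, t1_sJ H e, ye_sJ H hη e, t10 H])).trans_eq ?_⟩
  · lg_norm
    linarith [H.lg_κ]
  · lg_norm
    rw [H.lg_n, H.lg_κ, H.hc]
    linarith [H.lg_two.2]
  · rw [neg_div, neg_div, Pm.κ, Pre29.rp_pow, ← rpow_neg N0.le]
    congr 2
    push_cast; ring

theorem mem_Tlo (e : En C p P) {k : ℕ} (hk : k ∈ Tlo p P) :
    p.jf < k ∧ k < p.J ∧ t1 p / 2 ≤ (Me p P).s k ∧ (Me p P).s k < (Me p P).s p.J / 16 := by
  obtain ⟨h1, h2⟩ := mem_filter.1 hk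
  have h3 := (mem_Ico.1 h1).1
  have j1 := jc_lt H
  have j2 := jf_lt H
  refine ⟨by omega, lt_of_not_ge fun hc => ?_, ?_, h2⟩
  · linarith [e.cl.sm hc, e.cl.s_nn p.J]
  · linarith [(e.s_lo H (k := jc p) (by omega)).1, (jc_bds H).1, e.cl.sm h3]

/-- **the pointwise envelope** -/
theorem pw_end (hC : C ≤ (p.n : ℝ) ^ η) (hc : c ≤ 1 / 1000) (hη : 60 * η ≤ c) (e : En C p P)
    (O : SO 4 ((p.n : ℝ) ^ η) (Se p C P) (Me p P) m a (lE p))
    (L : En91.LocE p P (Me p P) m a) {k : ℕ} (h1 : p.jf < k) (h2 : k < p.J)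
    (h3 : t1 p / 2 ≤ (Me p P).s k) (h4 : (Me p P).s k ≤ (Me p P).s p.J / 16) :
    Qk (Se p C P) (Me p P) m a 4 k ((p.n : ℝ) ^ (14 * c) * Av p ((Me p P).s k)) := by
  have k0 := H.κ0
  have s0 := H.s0
  have N0 := H.N0
  have y0 := H.ye0
  have c0' := H.c_pos
  have u0 := eU0 H
  have x0 := eX0 H
  have b0 := eB0 H
  have t0 := t10 H
  have C1 : 1 ≤ C := e.cl.C1
  have lC := H.lg_cst C1 hC
  have ls := H.lg_s
  have n2 := H.lg_two
  have n4 := H.lg_num (x := 4) (by norm_num) (by norm_num)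
  set t := (Me p P).s k with ht
  have tp : 0 < t := by linarith
  have A0 := Av0 H tp
  have lt : logb p.n p.s + c / 7 - 3 / 20 - η ≤ logb p.n t := by
    have := H.lg_mono (by positivity) h3
    rw [logb_div t0.ne' two_ne_zero] at this
    linarith [lg_t1 H]
  have tC : t ≤ C := (e.cl.sm (h2.le.trans e.cl.i3)).trans e.cl.sT
  set Q := 4 * (p.n : ℝ) ^ (13 * p.c) with hQ
  have Q0 : 0 < Q := by positivity
  have lQ : logb p.n Q = logb p.n 4 + 13 * c := by
    rw [hQ, logb_mul (by norm_num) (by positivity), H.lg_rp, H.hc]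
  have a1 : Q * Av p t ≤ t := by
    have b1 : Q * (eU p / t ^ 2) ≤ t / 3 := third H (by positivity) tp (by
      lg_norm; linarith [lg_eU H])
    have b2 : Q * (eX p / t) ≤ t / 3 := third H (by positivity) tp (by
      lg_norm; linarith [lg_eX H])
    have b3 : Q * eB p ≤ t / 3 := third H (by positivity) tp (by
      lg_norm; linarith [lg_eB H])
    rw [Av]; linarith
  have a2 : (Se p C P).w3 t ≤ (Q * Av p t) ^ 3 := by
    refine (w3_le (x := t * p.ye / C) H (by positivity) ?_ ?_).trans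
      ((H.le_of_lg (y := (Q * (eX p / t)) ^ 3) (by positivity) (by positivity) ?_).trans ?_)
    · rw [div_le_iff₀ (by positivity)]; gcongr; exact H.ye1.trans C1
    · rw [div_le_iff₀ (by positivity), mul_comm]; gcongr
    · lg_norm
      linarith [lg_eX H, H.lg_n, H.lg_κ, H.lg_ye]
    · gcongr
      rw [Av]; linarith [div_pos u0 (pow_pos tp 2)]
  have a3 := (O.blk t (Q * Av p t) (H.le_of_lg (lE0 H) tp (by linarith [lg_lE H])) h4
    (by positivity) a1 a2 fun j _ _ j1 j2 => (L.sup j (le_trans (H.le_of_lg (y := t / 2)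
      (by positivity) (by positivity) (by lg_norm; rw [H.lg_n, H.hc]; linarith)) j1)
      (by linarith [ye_sJ H hη e])).trans ?_).1 k
    (mem_filter.2 ⟨mem_Ioo.2 ⟨h1, h2⟩, le_rfl, by linarith⟩)
  · refine a3.mono ?_
    rw [← mul_assoc]
    refine mul_le_mul_of_nonneg_right (H.le_of_lg (by positivity) (by positivity) ?_) A0.le
    rw [logb_mul (by positivity) Q0.ne', H.lg_rp, H.lg_rp]
    linarith
  · rw [hQ, mul_comm 4, mul_assoc]
    refine mul_le_mul_of_nonneg_left ?_ (by positivity)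
    have : eU p / (Me p P).s j ^ 2 ≤ eU p / (t / 2) ^ 2 := by gcongr
    have e1 : eU p / (t / 2) ^ 2 = 4 * (eU p / t ^ 2) := by field_simp; norm_num
    change eU p / _ + eB p ≤ _
    rw [Av]
    linarith [div_pos x0 tp]

/-- **the table on the sloped nodes** -/
theorem gz_end (hC : C ≤ (p.n : ℝ) ^ η) (hc : c ≤ 1 / 1000) (hη : 60 * η ≤ c) (e : En C p P)
    (h : In p m a) (W : ∀ k ∈ Tlo p P,
      Qk (Se p C P) (Me p P) m a 4 k ((p.n : ℝ) ^ (14 * c) * Av p ((Me p P).s k))) :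
    GZ p P m a (Tlo p P) (fun k => 3 * ((p.n : ℝ) ^ (14 * c) * Av p ((Me p P).s k)))
      (fun k => 3 * ((p.n : ℝ) ^ (14 * c) * Av p ((Me p P).s k))) ∧
    ∑ k ∈ Tlo p P, (Me p P).dz m a k * (max (t1 p) ((Me p P).z k) ^ 2 *
      (Me p P).E2 m a (fun R => (R - (Me p P).q k) ^ 2) k) ≤
      kk p ^ 5 * (p.s ^ 4 * (p.n : ℝ) ^ (-(13 : ℝ) / 20)) := by
  have s0 := H.s0
  have N0 := H.N0
  have v0 := H.v0
  have c0' := H.c_pos
  have u0 := eU0 H
  have x0 := eX0 H
  have b0 := eB0 H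
  have K0' := kk0 H
  have C1 : 1 ≤ C := e.cl.C1
  have lC := H.lg_cst C1 hC
  have ls := H.lg_s
  have n2 := H.lg_two
  have n3 := H.lg_num (x := 3) (by norm_num) (by norm_num)
  have A2 : (2 : ℝ) ≤ A := by exact_mod_cast H.A2
  have G := e.lg H h
  have lu := lg_eU H
  have lx := lg_eX H
  have lb := lg_eB H
  have lk := lg_kk H
  have ln := H.lg_n
  have Λ0 := H.Λ0
  have lΛ := H.lg_rp η
  set L := (p.n : ℝ) ^ (14 * c) with hL
  have L0 : 0 < L := H.rp0 _
  have lL : logb p.n L = 14 * c := H.lg_rp _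
  set t0 := t1 p / 2 with ht0
  have t0p : 0 < t0 := half_pos (t10 H)
  have lt : logb p.n t0 = logb p.n p.s + c / 7 - 3 / 20 - logb p.n 2 := by
    rw [ht0, logb_div (t10 H).ne' two_ne_zero, lg_t1 H]
  have hv : C * p.v ≤ t0 := H.le_of_lg (by positivity) t0p (by
    rw [logb_mul (by positivity) v0.ne']; linarith [H.lg_v_le])
  have hC' : t0 ≤ C := H.le_of_lg t0p (by positivity) (by linarith)
  have lg : log (C / t0) ≤ (p.n : ℝ) ^ η := by
    refine (log_le_log (by positivity) (H.le_of_lg (by positivity) N0 ?_)).trans H.log_le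
    rw [logb_div (by positivity) t0p.ne']
    linarith
  have hT := fun k (hk : k ∈ Tlo p P) => mem_Tlo H e hk
  have S3 := fun (F : ℕ → ℝ) (α β γ : ℝ) => sum3 (T := Tlo p P) (F := F) (α := α) (β := β) (γ := γ)
    e.cl G hv hC' fun k hk => ⟨(hT k hk).1, (hT k hk).2.1, (hT k hk).2.2.1⟩
  have tp : ∀ k ∈ Tlo p P, 0 < (Me p P).s k := fun k hk => t0p.trans_le (hT k hk).2.2.1
  have g0 : ∀ k ∈ Tlo p P, 0 < L * Av p ((Me p P).s k) := fun k hk => mul_pos L0 (Av0 H (tp k hk))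
  have ab : ∀ k ∈ Tlo p P, ∀ i ≤ 4, 2 ≤ i → (Me p P).E2 m a (fun R => |R - (Me p P).q k| ^ i) k ≤
      (3 * (L * Av p ((Me p P).s k))) ^ i := fun k hk i hi h2 => by
    have := CIn12.mom_pair (q := (Me p P).q k) (g0 k hk) (by omega : i ≤ 2 * 4) (W k hk).1.1
    rw [sub_self, abs_zero, add_zero] at this
    rw [mul_pow 3]
    refine this.trans (mul_le_mul_of_nonneg_right ?_ (pow_pos (g0 k hk) i).le)
    interval_cases i <;> norm_num
  have pw : ∀ k ∈ Tlo p P, ∀ i : ℕ, (3 * (L * Av p ((Me p P).s k))) ^ i ≤ (3 * L * 3) ^ i *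
      (eU p ^ i / (Me p P).s k ^ (2 * i) + eX p ^ i / (Me p P).s k ^ i + eB p ^ i) :=
    fun k hk i => by
    have := tp k hk
    rw [← mul_assoc, mul_pow, mul_pow _ 3, mul_assoc, pow_mul, ← div_pow, ← div_pow]
    exact mul_le_mul_of_nonneg_left (pow3 (by positivity) (by positivity) b0.le i) (by positivity)
  have s1 : ∑ k ∈ Tlo p P, (Me p P).dz m a k * (3 * (L * Av p ((Me p P).s k))) ≤
      kk p ^ 5 * (p.s ^ 2 * (p.n : ℝ) ^ (-(13 : ℝ) / 40)) := by
    refine (S3 _ (3 * L * eU p) (3 * L * eX p) (3 * L * eB p) (by positivity) (by positivity)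
      (by positivity) fun k _ => le_of_eq (by rw [Av]; ring)).trans ?_
    change 2 * C ^ 2 * (_ + _ * log (C / t0)) + _ ≤ _
    have d0 : 2 * C ^ 2 * (3 * L * eX p * log (C / t0)) ≤
      2 * C ^ 2 * (3 * L * eX p * (p.n : ℝ) ^ η) := by gcongr
    have d1 := third H (x := 2 * C ^ 2 * (3 * L * eU p / t0))
      (Z := kk p ^ 5 * (p.s ^ 2 * (p.n : ℝ) ^ (-(13 : ℝ) / 40))) (by positivity) (by positivity)
      (by lg_norm; linarith)
    have d2 := third H (x := 2 * C ^ 2 * (3 * L * eX p * (p.n : ℝ) ^ η))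
      (Z := kk p ^ 5 * (p.s ^ 2 * (p.n : ℝ) ^ (-(13 : ℝ) / 40))) (by positivity) (by positivity)
      (by lg_norm; rw [ln]; linarith)
    have d3 := third H (x := 3 * L * eB p)
      (Z := kk p ^ 5 * (p.s ^ 2 * (p.n : ℝ) ^ (-(13 : ℝ) / 40))) (by positivity) (by positivity)
      (by lg_norm; linarith)
    linarith
  have fin : ∀ {F : ℕ → ℝ} {α α' γ Z : ℝ}, 0 < α → 0 < α' → 0 < γ → 0 < Z →
      (∀ k ∈ Tlo p P, F k ≤ (α + α') / (Me p P).s k ^ 2 + γ) →
      logb p.n α + 4 * η - logb p.n t0 ≤ logb p.n Z →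
      logb p.n α' + 4 * η - logb p.n t0 ≤ logb p.n Z → logb p.n γ + η ≤ logb p.n Z →
      ∑ k ∈ Tlo p P, (Me p P).dz m a k * F k ≤ Z := fun {F α α' γ Z} p1 p2 p3 p4 hF q1 q2 q3 => by
    refine (S3 F (α + α') 0 γ (by positivity) le_rfl p3.le fun k hk => by
      simpa using hF k hk).trans ?_
    change 2 * C ^ 2 * (_ + _ * log (C / t0)) + _ ≤ _
    have d1 := third H (x := 2 * C ^ 2 * (α / t0)) (by positivity) p4 (by lg_norm; linarith)
    have d2 := third H (x := 2 * C ^ 2 * (α' / t0)) (by positivity) p4 (by lg_norm; linarith)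
    have d3 := third H p3 p4 q3
    rw [add_div]
    linarith
  set B := 3 * L * 3 with hB
  have B0 : 0 < B := by positivity
  have lB : logb p.n B ≤ 14 * c + 2 * η := by rw [hB]; lg_norm; linarith
  have sq : ∀ k ∈ Tlo p P, (Me p P).E2 m a (fun R => (R - (Me p P).q k) ^ 2) k ≤
      (3 * (L * Av p ((Me p P).s k))) ^ 2 := fun k hk => by
    simpa only [sq_abs] using ab k hk 2 (by norm_num) le_rfl
  have tC : ∀ k ∈ Tlo p P, (Me p P).s k ≤ C := fun k hk =>
    (e.cl.sm ((hT k hk).2.1.le.trans e.cl.i3)).trans e.cl.sT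
  have z3 : ∀ k ∈ Tlo p P, max (t1 p) ((Me p P).z k) ≤ 3 * C * (Me p P).s k := fun k hk => by
    obtain ⟨f1, f2, f3, -⟩ := hT k hk
    have t0' := tp k hk
    have z1 : (Me p P).z k ≤ C * ((Me p P).s k + 2 * p.v) := (e.cl.z_s f1.le f2).2
    have z2 : p.v ≤ (Me p P).s k := (le_mul_of_one_le_left v0.le C1).trans (hv.trans f3)
    exact max_le (by nlinarith) (by nlinarith)
  refine ⟨⟨fun k hk => by linarith [g0 k hk], sq, fun k hk => ?_,
    fun k hk => by linarith [g0 k hk], fun k hk => ?_, s1, s1, ?_, ?_, ?_⟩, ?_⟩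
  · refine ((W k hk).2.mono (by linarith [g0 k hk])).trans ?_
    change ((p.n : ℝ) ^ (3 * (p.A + 1)))⁻¹ ≤ _
    rw [← rpow_natCast, ← rpow_neg N0.le, H.hA]
    exact rpow_le_rpow_of_exponent_le H.N1.le (by push_cast; linarith)
  · exact ab k hk 3 (by norm_num) (by norm_num)
  · refine fin (α := B ^ 2 * (eU p ^ 2 / t0 ^ 2)) (α' := B ^ 2 * eX p ^ 2) (γ := B ^ 2 * eB p ^ 2)
      (by positivity) (by positivity) (by positivity) (by positivity) (fun k hk => ?_)
      (by lg_norm; linarith) (by lg_norm; linarith) (by lg_norm; linarith)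
    have d1 := dv (pow_pos u0 2).le t0p (hT k hk).2.2.1 2
    refine (pw k hk 2).trans ((mul_le_mul_of_nonneg_left
      (add_le_add_left (add_le_add_left d1 _) _) (by positivity)).trans_eq (by ring))
  · refine fin (α := 3 * C * B ^ 3 * (eU p ^ 3 / t0 ^ 3)) (α' := 3 * C * B ^ 3 * eX p ^ 3)
      (γ := 3 * C * B ^ 3 * (eB p ^ 3 * C))
      (by positivity) (by positivity) (by positivity) (by positivity) (fun k hk => ?_)
      (by lg_norm; linarith) (by lg_norm; linarith) (by lg_norm; linarith)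
    have t0' := tp k hk
    have d1 := dv (pow_pos u0 3).le t0p (hT k hk).2.2.1 3
    refine (mul_le_mul (z3 k hk) (pw k hk 3) (pow_pos (by linarith [g0 k hk]) 3).le
      (by positivity)).trans ?_
    have e1 : 3 * C * (Me p P).s k * (B ^ 3 * (eU p ^ 3 / (Me p P).s k ^ (2 * 3) +
        eX p ^ 3 / (Me p P).s k ^ 3 + eB p ^ 3)) = 3 * C * B ^ 3 * (eU p ^ 3 / (Me p P).s k ^ (3 + 2) +
        eX p ^ 3 / (Me p P).s k ^ 2 + eB p ^ 3 * (Me p P).s k) := by field_simp; ring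
    rw [e1]
    refine (mul_le_mul_of_nonneg_left (add_le_add (add_le_add_left d1 _)
      (mul_le_mul_of_nonneg_left (tC k hk) (by positivity))) (by positivity)).trans_eq (by ring)
  · refine fin (α := B ^ 4 * (eU p ^ 4 / t0 ^ 6)) (α' := B ^ 4 * (eX p ^ 4 / t0 ^ 2))
      (γ := B ^ 4 * eB p ^ 4)
      (by positivity) (by positivity) (by positivity) (by positivity) (fun k hk => ?_)
      (by lg_norm; linarith) (by lg_norm; linarith) (by lg_norm; linarith)
    have d1 := dv (pow_pos u0 4).le t0p (hT k hk).2.2.1 6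
    have d2 := dv (pow_pos x0 4).le t0p (hT k hk).2.2.1 2
    refine (ab k hk 4 le_rfl (by norm_num)).trans ((pw k hk 4).trans ((mul_le_mul_of_nonneg_left
      (add_le_add_left (add_le_add d1 d2) _) (by positivity)).trans_eq (by ring)))
  · refine fin (α := (3 * C) ^ 2 * B ^ 2 * eU p ^ 2) (α' := (3 * C) ^ 2 * B ^ 2 * eU p ^ 2)
      (γ := (3 * C) ^ 2 * B ^ 2 * (2 * (eB p * C) ^ 2))
      (by positivity) (by positivity) (by positivity) (by positivity) (fun k hk => ?_)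
      (by lg_norm; linarith) (by lg_norm; linarith) (by lg_norm; linarith)
    have t0' := tp k hk
    refine (mul_le_mul (pow_le_pow_left₀ ((t10 H).le.trans (le_max_left _ _)) (z3 k hk) 2)
      ((sq k hk).trans (pw k hk 2)) (E2_nonneg (fun _ _ => sq_nonneg _) k) (sq_nonneg _)).trans ?_
    have e1 : (3 * C * (Me p P).s k) ^ 2 * (B ^ 2 * (eU p ^ 2 / (Me p P).s k ^ (2 * 2) +
        eX p ^ 2 / (Me p P).s k ^ 2 + eB p ^ 2)) = (3 * C) ^ 2 * B ^ 2 * (eU p ^ 2 / (Me p P).s k ^ 2 +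
        eX p ^ 2 + (eB p * (Me p P).s k) ^ 2) := by field_simp; ring
    have d1 : eX p ^ 2 ≤ (eB p * C) ^ 2 := H.le_of_lg (by positivity) (by positivity) (by
      lg_norm; linarith)
    have d2 : (eB p * (Me p P).s k) ^ 2 ≤ (eB p * C) ^ 2 := by have := tC k hk; gcongr
    have d3 : 0 ≤ eU p ^ 2 / (Me p P).s k ^ 2 := by positivity
    rw [e1]
    exact (mul_le_mul_of_nonneg_left (show _ ≤ 2 * (eU p ^ 2 / (Me p P).s k ^ 2) +
      2 * (eB p * C) ^ 2 by linarith) (by positivity)).trans_eq (by ring)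

end reg

/-- **`JS` from SR and the location** -/
theorem jS_loc (hβ : 1 < β) (h : SoE β) (L : En91.LocS β) : JS β := by
  refine jS_of hβ 13 (by norm_num) ?_
  unfold EvA
  exact Sml.glue' hβ (h.and L) 0 one_pos 60 fun _ _ _ _ _ _ _ _ _ =>
    ⟨0, fun p H _ _ hη I P m a E ad => by
      obtain ⟨C, -, e, O⟩ := I.1 P m a ad.sp ad.inn
      exact ji_end H (by exact_mod_cast hη) e ad.inn O (I.2 P ad.sp m a (inW ad.inn))⟩

theorem gl_both (hβ : 1 < β) (h : SoE β) (L : En91.LocS β) :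
    Sml β fun _ p => ∀ P m a, p.SpOk (7 / 20) P → In p m a → (∃ G g, GZ p P m a (Tlo p P) G g) ∧
      ∑ k ∈ Tlo p P, (Me p P).dz m a k * (max (t1 p) ((Me p P).z k) ^ 2 *
        (Me p P).E2 m a (fun R => (R - (Me p P).q k) ^ 2) k) ≤
        kk p ^ 5 * (p.s ^ 4 * (p.n : ℝ) ^ (-(13 : ℝ) / 20)) :=
  Sml.glue' hβ (h.and L) 0 (by norm_num : (0 : ℝ) < 1 / 1000) 60 fun _ _ _ _ _ _ _ _ _ =>
    ⟨0, fun p H _ hc hη I P m a sp h => by
      obtain ⟨C, hC, e, O⟩ := I.1 P m a sp h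
      have hη' := (mul_le_mul_of_nonneg_right (by norm_num : (60 : ℝ) ≤ (60 : ℕ)) H.η_pos.le).trans hη
      exact (gz_end H hC hc hη' e h fun k hk =>
        have T := mem_Tlo H e hk
        pw_end H hC hc hη' e O (I.2 P sp m a (inW h)) T.1 T.2.1 T.2.2.1 T.2.2.2.le).imp_left
          fun g => ⟨_, _, g⟩⟩

/-- **`GlS` from SR and the location** -/
theorem glS_of (hβ : 1 < β) (h : SoE β) (L : En91.LocS β) : GlS β :=
  (gl_both hβ h L).mono fun _ _ g P m a sp h => (g P m a sp h).1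

end Crest.Agent.T156.Alt.R2.J90

end
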