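import Crest.Agent.T156.R2c_85

/-!
# Row 156, R2 (helper85): (TWIN) on the data `CD`, regularity of `ψ`, the closed second-order bound
-/

set_option autoImplicit false

noncomputable section

namespace Crest.Agent.T156.Cas.C40.R85

open MeasureTheory Real Set Filter Topology
open Crest.Agent.T157.E Crest.Agent.T157.Casc Crest.Agent.T157.SL Crest.Agent.T157.Casc.C
open Crest.Agent.R339.B Crest.Agent.R339.Var Crest.Agent.T157.Pf
open Crest.Agent.T157.G1 (ov)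
open Crest.ProbabilityR.SpinGlassDynamics (spin)
open Mul55 Hess65 Crest.Agent.T156.Pp

/-! ### one-site lists -/

theorem rest_rest {u : ℝ} (hu : 0 ≤ u) : ∀ (l : List (ℝ × ℝ)) (t : ℝ),
    rest (rest l t) u = rest l (t + u)
  | [], _ => rfl
  | p :: l, t => by
    by_cases h : t ≤ p.2
    · rw [rest, if_pos h, rest, rest]
      by_cases h' : t + u ≤ p.2
      · rw [if_pos h', if_pos (by linarith), sub_sub]
      · rw [if_neg h', if_neg (by linarith), show u - (p.2 - t) = t + u - p.2 by ring]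
    · rw [rest, if_neg h, rest, if_neg (by linarith), rest_rest hu,
        show t - p.2 + u = t + u - p.2 by ring]

theorem iter_sub {F G : ℝ → ℝ} (hF : BD F) (hG : BD G) (j : ℕ) (x : ℝ) :
    iteratedDeriv j (fun y => F y - G y) x = iteratedDeriv j F x - iteratedDeriv j G x :=
  iteratedDeriv_sub (hF.contDiff j).contDiffAt (hG.contDiff j).contDiffAt

/-- `Γ (t | X_0 = y)` -/
def GA (A : List (ℝ × ℝ)) (t : ℝ) : ℝ → ℝ := EX 1 A t fun y => Pr.Dk 0 A t y ^ 2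

theorem GA_reg (T : ℝ) : ∃ C : ℝ, 1 ≤ C ∧ ∀ A : List (ℝ × ℝ), Adm 1 A → R339.Var.TT A ≤ T →
    ∀ t t', 0 ≤ t → t ≤ t' → t' ≤ R339.Var.TT A → ∀ j, 1 ≤ j → j ≤ 4 → ∀ x,
      |iteratedDeriv j (GA A t) x| ≤ C ∧
      |iteratedDeriv j (GA A t') x - iteratedDeriv j (GA A t) x| ≤ C * (t' - t) := by
  obtain ⟨C1, h1, hE⟩ := Ker.EX_der T 4
  obtain ⟨C2, h2, hS⟩ := Twin20.shift T 4
  obtain ⟨D, h3, hD⟩ := Twin20.bk_Dk T 6
  have p1 : 0 ≤ C1 := by linarith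
  have p2 : 0 ≤ C2 := by linarith
  have p3 : 0 ≤ D := by linarith
  have k1 : 1 ≤ C1 * (2 ^ 6 * (D * D)) := one_le_mul_of_one_le_of_one_le h1 (by nlinarith)
  have k2 : 0 ≤ C1 * (C2 * (2 ^ 6 * (D * D)) + 2 ^ 4 * (C2 * (D + D))) := by positivity
  refine ⟨C1 * (2 ^ 6 * (D * D)) + C1 * (C2 * (2 ^ 6 * (D * D)) + 2 ^ 4 * (C2 * (D + D))),
    by linarith, fun A hA hT t t' t0 tt t1 j j1 j4 x => ?_⟩
  have tp : Ker.Tp (R339.Var.TT A) A :=
    ⟨hA, ⟨t0.trans (tt.trans t1), le_rfl⟩, fun s hs => Ker.lvr_end' (Ker.nn_of_adm hA) hs⟩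
  have b := fun r => Ker.Dk_bd 0 A r
  have q : ∀ r, 0 ≤ r → Ker.Bk 6 (fun y => Pr.Dk 0 A r y ^ 2) (2 ^ 6 * (D * D)) := fun r hr => by
    simp only [pow_two (Pr.Dk 0 A r _)]
    exact Ker.Bk.mul (b r) (b r) (hD _ A tp hT r hr 0 (by omega)) (hD _ A tp hT r hr 0 (by omega))
  have d0 := sub_nonneg.2 tt
  constructor
  · refine (hE A hA hT t t0 _ _ ((b t).pow 2)
      (fun i _ hi => Ker.bk_iff.1 (q t t0) i (by omega)) j j1 j4 x).trans (by linarith)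
  obtain ⟨r1, r2, -⟩ := Min62.rest_adm hA t t0 (tt.trans t1)
  have um : t' - t ∈ Icc 0 (R339.Var.TT (rest A t)) := ⟨d0, by rw [r2]; linarith⟩
  have S := hS (rest A t) r1 (by rw [r2]; linarith) (t' - t) um
  have dk : Ker.Bk 4 (fun y => Pr.Dk 0 A t' y - Pr.Dk 0 A t y) (C2 * (t' - t)) :=
    Ker.bk_iff.2 fun i hi y => by
      have k := (S i hi y).1
      unfold Pr.Dk at k
      rw [PhiT_zero (Ker.nn_of_adm r1), Lip62.PhiT_eq_rest _ _ (t' - t), rest_rest d0,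
        add_sub_cancel, ← Lip62.PhiT_eq_rest, ← Lip62.PhiT_eq_rest] at k
      rw [iter_sub (b t') (b t), Twin20.iter_Dk, Twin20.iter_Dk, abs_sub_comm]
      exact k
  have sm : Ker.Bk 4 (fun y => Pr.Dk 0 A t' y + 1 * Pr.Dk 0 A t y) (D + D) :=
    Ker.Bk.lin 1 (by simp) (b t') (b t) (hD _ A tp hT t' (t0.trans tt) 0 (by omega)).low.low
      (hD _ A tp hT t t0 0 (by omega)).low.low
  have pr := Ker.Bk.mul ((b t').sub (b t)) ((b t').add ((b t).const_mul 1)) dk sm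
  have e : (fun y => (Pr.Dk 0 A t' y - Pr.Dk 0 A t y) * (Pr.Dk 0 A t' y + 1 * Pr.Dk 0 A t y)) =
      fun y => Pr.Dk 0 A t' y ^ 2 - Pr.Dk 0 A t y ^ 2 := by funext y; ring
  rw [e] at pr
  have bH := Twin20.EX_bd ((b t').pow 2) r1 d0
  have hK : ∀ i, 1 ≤ i → i ≤ 4 → ∀ y, |iteratedDeriv i (fun y => EX 1 (rest A t) (t' - t)
      (fun y => Pr.Dk 0 A t' y ^ 2) y - Pr.Dk 0 A t y ^ 2) y| ≤
      (C2 * (2 ^ 6 * (D * D)) + 2 ^ 4 * (C2 * (D + D))) * (t' - t) := fun i _ hi y => by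
    have a1 := (S i hi y).2 _ _ (t' - t) le_rfl ((b t').pow 2)
      fun i _ hi => Ker.bk_iff.1 (q t' (t0.trans tt)) i hi
    rw [sub_self, One15.EX_zero _ (Ker.nn_of_adm (Min62.rest_adm r1 _ um.1 um.2).1)] at a1
    have a2 := Ker.bk_iff.1 pr i hi y
    rw [iter_sub ((b t').pow 2) ((b t).pow 2)] at a2
    rw [iter_sub bH ((b t).pow 2)]
    refine (abs_sub_le _ _ _).trans ((add_le_add a1 a2).trans_eq ?_)
    ring
  have k := hE A hA hT t t0 _ _ (bH.sub ((b t).pow 2)) hK j j1 j4 x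
  rw [funext (Ker.EX_sub A t ((b t).pow 2) bH), iter_sub (Twin20.EX_bd bH hA t0)
    (Twin20.EX_bd ((b t).pow 2) hA t0), ← Twin20.tower ((b t').pow 2) hA t0 tt] at k
  refine k.trans ?_
  rw [← mul_assoc]
  exact mul_le_mul_of_nonneg_right (by linarith) d0

variable {D : CD} {τ τ0 T : ℝ} {P : ℕ}

theorem St.tp (s : St D τ T P) (ok : D.Ok τ0) : Hess65.Tp (ex D.S) P D.S.length :=
  ⟨lb_ex (rkS ok) (s.adm ok), lenS D ▸ s.PK, (exS D P).trans s.one⟩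

theorem St.dx_top (s : St D τ T P) (ok : D.Ok τ0) {j : ℕ} (h1 : P ≤ j) (h2 : j < D.K) :
    D.dx (j + 1) = 0 := by
  rw [← dmS]
  change ex D.S (j + 1) - ex D.S j = 0
  rw [(s.tp ok).eq (by omega) (by rw [lenS]; omega), (s.tp ok).eq h1 (by rw [lenS]; omega),
    sub_self]

theorem St.Gy_cut (s : St D τ T P) (ok : D.Ok τ0) : ∃ A : List (ℝ × ℝ), Adm 1 A ∧
    R339.Var.TT A = D.sig P - D.sig D.J ∧
    ∀ j, D.J ≤ j → j ≤ P → Gy D j = GA A (D.sig j - D.sig D.J) := by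
  obtain ⟨l', e, h1, -, h3⟩ := (s.tp ok).split (nd_tm (rkS ok)).up
  rw [← eq_lsg (rkS ok)] at e
  set A0 := Area50.lsg (ex D.S) (Hess65.tm (V D)) P with hA0
  have l0 : A0.length = P := by simp [hA0, Area50.lsg]
  have t0 : R339.Var.TT A0 = D.sig P := by
    rw [hA0, Area50.TT_lsg, (nd_tm (rkS ok)).zero, sub_zero, tmV D s.PK]
  have JP : D.J ≤ A0.length := l0 ▸ s.JP.le
  have e1 : (V D).drop D.J = A0.drop D.J ++ l' := by rw [e, List.drop_append_of_le_length JP]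
  have e2 : R339.Var.TT (A0.take D.J) = D.sig D.J := by
    rw [← List.take_append_of_le_length (l₂ := l') JP, ← e]
    exact TT_opV ok.cut.le
  have e3 : R339.Var.TT (A0.drop D.J) = D.sig P - D.sig D.J := by
    rw [← t0, ← e2, eq_sub_iff_add_eq', ← TT_app, List.take_append_drop]
  have p : ∀ r ∈ A0.drop D.J, 0 < r.1 := fun r hr => h3 r (List.mem_of_mem_drop hr)
  refine ⟨A0.drop D.J, adm_drop (Ker.adm_pre l' (e ▸ s.adm ok)) _, e3, fun j j1 j2 => ?_⟩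
  funext y
  have jK := j2.trans s.PK
  have k := One15.pi2_spin (List.forall₂_drop D.J (rkS ok)) (j := j - D.J)
    (by rw [List.length_drop, lenV]; omega) y
  rw [TT_drop_take _ j1, TT_opV jK, TT_opV ok.cut.le, e1] at k
  obtain ⟨c, hc⟩ := PhiT_append one_pos h1 p (D.sig j - D.sig D.J)
  rw [hc, EX_append one_pos h1 p (by rw [e3]; linarith [sig_mono ok j2 s.PK]),
    deriv_add_const'] at k
  simp only [GA, Pr.Dk, Dn_zero]
  exact k

theorem sig_zero (ok : D.Ok τ0) : D.sig 0 = 0 :=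
  (tmV D (Nat.zero_le _)).symm.trans (nd_tm (rkS ok)).zero

theorem sig_nonneg (ok : D.Ok τ0) {j : ℕ} (h : j ≤ D.K) : 0 ≤ D.sig j :=
  sig_zero ok ▸ sig_mono ok (Nat.zero_le j) h

/-- `ψ` is bounded and Lipschitz in the clock of the site cascade -/
theorem psi_reg (T : ℝ) : ∃ C : ℝ, 1 ≤ C ∧ ∀ (D : CD) (τ τ0 : ℝ) (P : ℕ), D.Ok τ0 → St D τ T P →
    ∀ i j, D.J ≤ i → i ≤ j → j ≤ P →
      |psi D i| ≤ C ∧ |psi D j - psi D i| ≤ C * (D.sig j - D.sig i) := by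
  obtain ⟨C, h1, hC⟩ := GA_reg T
  refine ⟨C, h1, fun D τ τ0 P ok s i j h2 h3 h4 => ?_⟩
  obtain ⟨A, a1, a2, a3⟩ := s.Gy_cut ok
  have m1 := sig_mono ok h2 (h3.trans (h4.trans s.PK))
  have m2 := sig_mono ok h3 (h4.trans s.PK)
  have m3 := sig_mono ok h4 s.PK
  obtain ⟨b1, b2⟩ := hC A a1 (by rw [a2]; linarith [s.time, sig_nonneg ok ok.cut.le])
    (D.sig i - D.sig D.J) (D.sig j - D.sig D.J) (by linarith) (by linarith) (by rw [a2]; linarith)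
    2 (by omega) (by omega) 0
  rw [← a3 i h2 (h3.trans h4)] at b1 b2
  rw [← a3 j (h2.trans h3) h4, sub_sub_sub_cancel_right] at b2
  have := mul_nonneg (zero_le_one.trans h1) (sub_nonneg.2 m2)
  unfold psi
  rw [← mul_sub, abs_mul, abs_mul, abs_neg, abs_of_pos (by norm_num : (0 : ℝ) < 1 / 2)]
  constructor <;> linarith

/-- the tails of `δ dx` -/
def tl (D : CD) (k : ℕ) : ℝ := ∑ i ∈ Finset.Ico k D.K, D.dx (i + 1) * dU D (i + 1)

theorem ell2_eq (D : CD) :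
    ell2 D = ∑ k ∈ Finset.range D.K, (D.sig (k + 1) - D.sig k) * tl D k ^ 2 := by
  rw [ell2, Hc, lenS]
  refine Finset.sum_congr rfl fun k hk => ?_
  have := Finset.mem_range.1 hk
  rw [tmV D this, tmV D this.le, tl]
  simp only [dmS]

theorem ell2_nonneg (ok : D.Ok τ0) : 0 ≤ ell2 D := Hc_nonneg (rkS ok) _

theorem abel_tail (ψ a : ℕ → ℝ) (K : ℕ) : ∀ d J : ℕ, J + d = K →
    ∑ i ∈ Finset.Ico J K, ψ (i + 1) * a i = ψ (J + 1) * ∑ i ∈ Finset.Ico J K, a i +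
      ∑ k ∈ Finset.Ico (J + 1) K, (ψ (k + 1) - ψ k) * ∑ i ∈ Finset.Ico k K, a i
  | 0, J, h => by simp [← h]
  | d + 1, J, h => by
    have h1 : J < K := by omega
    rw [Finset.sum_eq_sum_Ico_succ_bot h1, Finset.sum_eq_sum_Ico_succ_bot h1 a,
      abel_tail ψ a K d (J + 1) (by omega)]
    rcases (show J + 1 ≤ K from h1).eq_or_lt with h2 | h2
    · simp [← h2]
    · rw [Finset.sum_eq_sum_Ico_succ_bot h2 fun k => (ψ (k + 1) - ψ k) * _]
      ring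

theorem sum_up_succ (top : D.dx D.K = 0) (cut : D.J < D.K) (g : ℕ → ℝ) :
    ∑ j ∈ D.up, D.dx j * g j = ∑ i ∈ Finset.Ico D.J D.K, D.dx (i + 1) * g (i + 1) := by
  rw [Finset.sum_Ico_add' (fun j => D.dx j * g j), Finset.sum_Ico_succ_top cut, top, zero_mul,
    add_zero]
  rfl

/-- summation by parts -/
theorem O_abel (ok : D.Ok τ0) : O D = psi D (D.J + 1) * tl D D.J +
    ∑ k ∈ Finset.Ico (D.J + 1) D.K, (psi D (k + 1) - psi D k) * tl D k := by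
  rw [O, sum_up_succ ok.top ok.cut]
  refine Eq.trans (Finset.sum_congr rfl fun i hi => ?_) (abel_tail (psi D)
    (fun i => D.dx (i + 1) * dU D (i + 1)) D.K (D.K - D.J) D.J (by have := ok.cut; omega))
  rw [dU, if_pos (Nat.lt_succ_of_le (Finset.mem_Ico.1 hi).1)]
  ring

theorem St.tl_top (s : St D τ T P) (ok : D.Ok τ0) {k : ℕ} (h : P ≤ k) : tl D k = 0 :=
  Finset.sum_eq_zero fun i hi => by
    rw [s.dx_top ok (h.trans (Finset.mem_Ico.1 hi).1) (Finset.mem_Ico.1 hi).2, zero_mul]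

/-- `O` against the tails -/
theorem O_le (T : ℝ) : ∃ C : ℝ, 1 ≤ C ∧ ∀ (D : CD) (τ τ0 : ℝ) (P : ℕ), D.Ok τ0 → St D τ T P →
    |O D| ≤ C * (|tl D D.J| + ∑ k ∈ Finset.Ico (D.J + 1) P, (D.sig (k + 1) - D.sig k) * |tl D k|) ∧
    (D.sig (D.J + 1) - D.sig D.J) * O D ^ 2 ≤
      2 * C ^ 2 * (1 + (D.sig (D.J + 1) - D.sig D.J) * T) * ell2 D := by
  obtain ⟨C, h1, hC⟩ := psi_reg T
  have C0 : 0 ≤ C := zero_le_one.trans h1
  refine ⟨C, h1, fun D τ τ0 P ok s => ?_⟩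
  have JP : D.J + 1 ≤ P := s.JP
  have ds : ∀ k < D.K, 0 ≤ D.sig (k + 1) - D.sig k := fun k hk =>
    sub_nonneg.2 (sig_mono ok (Nat.le_succ k) hk)
  have a : |O D| ≤ C * (|tl D D.J| +
      ∑ k ∈ Finset.Ico (D.J + 1) P, (D.sig (k + 1) - D.sig k) * |tl D k|) := by
    rw [O_abel ok, ← Finset.sum_Ico_consecutive _ JP s.PK, Finset.sum_eq_zero (s := Finset.Ico P D.K)
      fun k hk => by rw [s.tl_top ok (Finset.mem_Ico.1 hk).1, mul_zero], add_zero, mul_add,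
      Finset.mul_sum]
    refine (abs_add_le _ _).trans (add_le_add ?_ ((Finset.abs_sum_le_sum_abs _ _).trans
      (Finset.sum_le_sum fun k hk => ?_)))
    · rw [abs_mul]
      exact mul_le_mul_of_nonneg_right (hC D τ τ0 P ok s _ _ (Nat.le_succ _) le_rfl JP).1
        (abs_nonneg _)
    · rw [Finset.mem_Ico] at hk
      rw [abs_mul, ← mul_assoc]
      exact mul_le_mul_of_nonneg_right
        (hC D τ τ0 P ok s k (k + 1) (by omega) (Nat.le_succ _) hk.2).2 (abs_nonneg _)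
  refine ⟨a, ?_⟩
  have sub : ∀ A : Finset ℕ, A ⊆ Finset.range D.K →
      ∑ k ∈ A, (D.sig (k + 1) - D.sig k) * tl D k ^ 2 ≤ ell2 D := fun A hA => by
    rw [ell2_eq]
    exact Finset.sum_le_sum_of_subset_of_nonneg hA fun k hk _ =>
      mul_nonneg (ds k (Finset.mem_range.1 hk)) (sq_nonneg _)
  have b1 : (D.sig (D.J + 1) - D.sig D.J) * tl D D.J ^ 2 ≤ ell2 D := by
    simpa using sub {D.J} (by simpa using ok.cut)
  have lt : ∀ k ∈ Finset.Ico (D.J + 1) P, k < D.K := fun k hk =>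
    (Finset.mem_Ico.1 hk).2.trans_le s.PK
  have b2 := Finset.sum_sq_le_sum_mul_sum_of_sq_le_mul (Finset.Ico (D.J + 1) P)
    (r := fun k => (D.sig (k + 1) - D.sig k) * |tl D k|) (f := fun k => D.sig (k + 1) - D.sig k)
    (g := fun k => (D.sig (k + 1) - D.sig k) * tl D k ^ 2) (fun k hk => ds k (lt k hk))
    (fun k hk => mul_nonneg (ds k (lt k hk)) (sq_nonneg _)) fun k _ => le_of_eq (by
      rw [mul_pow, sq_abs]; ring)
  rw [Finset.sum_Ico_sub _ JP] at b2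
  have b3 := sub (Finset.Ico (D.J + 1) P) fun k hk => Finset.mem_range.2 (lt k hk)
  have m0 := sig_nonneg ok (show D.J + 1 ≤ D.K from ok.cut)
  have m1 := sig_mono ok JP s.PK
  have b4 := b2.trans (mul_le_mul (show _ ≤ T by linarith [s.time]) b3
    (Finset.sum_nonneg fun k hk => mul_nonneg (ds k (lt k hk)) (sq_nonneg _))
    (by linarith [s.time]))
  set Y := ∑ k ∈ Finset.Ico (D.J + 1) P, (D.sig (k + 1) - D.sig k) * |tl D k|
  have a2 : O D ^ 2 ≤ 2 * C ^ 2 * (tl D D.J ^ 2 + T * ell2 D) := by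
    have := pow_le_pow_left₀ (abs_nonneg _) a 2
    rw [sq_abs, mul_pow] at this
    refine this.trans ?_
    rw [mul_comm 2, mul_assoc]
    refine mul_le_mul_of_nonneg_left ?_ (sq_nonneg C)
    rw [← sq_abs (tl D D.J)]
    linarith [sq_nonneg (|tl D D.J| - Y)]
  have d0 := ds D.J ok.cut
  refine (mul_le_mul_of_nonneg_left a2 d0).trans ?_
  have := mul_le_mul_of_nonneg_left b1 (by positivity : 0 ≤ 2 * C ^ 2)
  linarith

/-- **(E2), closed form**: `a = σ_{J+1} - σ_J` -/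
theorem headE2' (hU : HU) (τ0 T : ℝ) : ∃ c C C' : ℝ, 0 < c ∧ 0 ≤ C ∧ 0 ≤ C' ∧
    ∀ (D : CD) (τ S0 tw a : ℝ) (P : ℕ), D.Ok τ0 → D.W.isSome = false → St D τ T P → TW D τ S0 tw →
    0 < a → a ≤ D.sig (D.J + 1) - D.sig D.J →
    τ / 2 * muU D τ + c * τ ^ 2 * ell2 D ≤
      C * (τ ^ 4 * D.lam ^ 2 * (s2 D - S0) ^ 2 * (1 / a + T)) + τ / 2 * (tw * D.N1) + C' * D.Err ∧
    O D ^ 2 ≤ C * (1 / a + T) * ell2 D := by
  obtain ⟨C1, h1, hE⟩ := headE2 hU τ0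
  obtain ⟨C2, h2, hO⟩ := O_le T
  obtain ⟨c, hc⟩ : ∃ c, c = Real.exp (-14 * T) / 16 := ⟨_, rfl⟩
  have c0 : 0 < c := by rw [hc]; positivity
  have C0 : 0 < C2 := zero_lt_one.trans_le h2
  refine ⟨c, 2 * C2 ^ 2 + C2 ^ 2 / (8 * c), C1, c0, by positivity, h1,
    fun D τ S0 tw a P ok h s w a0 a1 => ?_⟩
  have e := hE D τ T S0 tw P ok h s w
  have o := (hO D τ τ0 P ok s).2
  have l0 := ell2_nonneg ok
  have T0 : 0 ≤ T := by linarith [s.time, sig_nonneg ok s.PK]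
  have b0 := a0.trans_le a1
  generalize D.sig (D.J + 1) - D.sig D.J = b at o a1 b0
  have i1 : 1 / b ≤ 1 / a := one_div_le_one_div_of_le a0 a1
  have o1 : O D ^ 2 ≤ 2 * C2 ^ 2 * (1 / b + T) * ell2 D := by
    refine le_of_mul_le_mul_left (o.trans_eq ?_) b0
    field_simp
  have i0 : 0 < 1 / a + T := by positivity
  have o2 := o1.trans (mul_le_mul_of_nonneg_right (mul_le_mul_of_nonneg_left
    (show 1 / b + T ≤ 1 / a + T by linarith) (by positivity)) l0)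
  generalize 1 / a + T = B at o2 i0 ⊢
  have p0 : 0 ≤ C2 ^ 2 / (8 * c) * B * ell2 D := by positivity
  refine ⟨?_, by linarith⟩
  have am : ∀ x y : ℝ, x * y ≤ c / (2 * C2 ^ 2 * B) * y ^ 2 + C2 ^ 2 / (8 * c) * (4 * x ^ 2 * B) :=
    fun x y => by
    have k : 0 ≤ c / (2 * C2 ^ 2 * B) * (y - C2 ^ 2 * B / c * x) ^ 2 := by positivity
    have : c / (2 * C2 ^ 2 * B) * (y - C2 ^ 2 * B / c * x) ^ 2 =
        c / (2 * C2 ^ 2 * B) * y ^ 2 + C2 ^ 2 / (8 * c) * (4 * x ^ 2 * B) - x * y := by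
      field_simp
      ring
    linarith
  have k1 := am (τ ^ 2 * D.lam / 2 * (s2 D - S0)) (τ * O D)
  have k2 : c / (2 * C2 ^ 2 * B) * (τ * O D) ^ 2 ≤ c * τ ^ 2 * ell2 D := by
    have := mul_le_mul_of_nonneg_left o2 (by positivity : 0 ≤ c / (2 * C2 ^ 2 * B) * τ ^ 2)
    refine le_trans (le_of_eq (by ring)) (this.trans_eq ?_)
    field_simp
  have p1 : 0 ≤ 2 * C2 ^ 2 * (τ ^ 4 * D.lam ^ 2 * (s2 D - S0) ^ 2 * B) := by positivity
  rw [show Real.exp (-14 * T) = 16 * c by rw [hc]; ring] at e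
  linarith

/-! ### (TWIN) -/

/-- `Γ_j` of the site cascade with the reference `qf` -/
def GamF (D : CD) (qf : ℕ → ℝ) (j : ℕ) : ℝ :=
  pi2 (fun _ => 1) (opS D.n D.β D.M qf) j (fun a b => spin a * spin b) 0

/-- `∫_low (σ² - h²) dx / τ²` for the reference `qf` -/
def S0f (D : CD) (τ : ℝ) (qf : ℕ → ℝ) : ℝ :=
  (∑ j ∈ D.lo, D.dx j * ((τ * qf j + fAcc D.M j) ^ 2 - fAcc D.M j ^ 2)) / τ ^ 2

theorem tw_of (T : ℝ) : ∃ C : ℝ, 1 ≤ C ∧ ∀ (D : CD) (τ τ0 η : ℝ) (P : ℕ) (qf : ℕ → ℝ), D.Ok τ0 →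
    St D τ T P → OOk D.M qf → (∀ j, D.J < j → j ≤ D.K → qf j = D.q j) → 0 < D.sig (D.J + 1) →
    (∀ j ∈ D.up, |GamF D qf j - D.q j| ≤ η) →
    TW D τ (S0f D τ qf) (η + C * (D.X * D.sig (D.J + 1) ^ 2 *
      (D.sig (D.J + 1) * (D.X + D.sig (D.J + 1)) + D.X ^ 3))) := by
  obtain ⟨C, h1, hC⟩ := Twin20.twin_node T
  refine ⟨C, h1, fun D τ τ0 η P qf ok s of he s0 hη j hj => ?_⟩
  obtain ⟨j1, j2⟩ := Finset.mem_Ioo.1 hj
  have R := rkS ok
  have R' := rk_opS (n := D.n) (β := D.β) of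
  have l' : (opS D.n D.β D.M qf).length = D.K := opS_length
  have ez : ex (opS D.n D.β D.M qf) = ex D.S :=
    funext fun i => (Cav22.ex_tilt tilt_opS i).trans (exS D i).symm
  have e1 := eq_lsg R
  have e2 := eq_lsg R'
  rw [lenS] at e1
  rw [l', ez] at e2
  have lb := lb_ex R (s.adm ok)
  have n1 := nd_tm R
  have n2 := nd_tm R'
  rw [lenS] at lb n1
  rw [l'] at n2
  have t' : ∀ i ≤ D.K, Hess65.tm (opV D.n D.β D.M qf) i = D.τ i * qf i + fAcc D.M i :=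
    fun i hi => TT_opV hi
  have tu : ∀ i, D.J < i → i ≤ D.K → Hess65.tm (opV D.n D.β D.M qf) i = D.sig i :=
    fun i h1 h2 => by rw [t' i h2, he i h1 h2]
  have J1 : D.J + 1 ≤ D.K := ok.cut
  have u1 := tu _ (Nat.lt_succ_self _) J1
  have k := hC (ex D.S) (Hess65.tm (opV D.n D.β D.M qf)) (Hess65.tm (V D)) D.K P D.J (D.sig j)
    (D.sig D.J) s.JP s.PK lb.pos lb.up ((exS D P).trans s.one) lb.top n2.up n1.up n2.zero n1.zero
    (fun i h1 h2 => by rw [tu i h1 h2, tmV D h2]) (u1 ▸ s0)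
    (by rw [tu P s.JP s.PK]; linarith [s.time]) (u1 ▸ sig_mono ok j1 j2.le)
    (by rw [tu _ ok.cut le_rfl]; exact sig_mono ok j2.le le_rfl) (sig_nonneg ok ok.cut.le)
    (u1 ▸ sig_mono ok (Nat.le_succ _) J1)
  change |Pr.Gam (Area50.lsg _ _ _) _ - Pr.Gam (Area50.lsg _ _ _) _ - Pr.Dk 1 (Area50.lsg _ _ _) _ _ *
    Twin20.psi (Area50.lsg _ _ _) _ _ * _| ≤ _ at k
  have sJ : D.sig D.J = fAcc D.M D.J := by rw [CD.sig, ok.qlo _ le_rfl, mul_zero, zero_add]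
  have es : ∑ i ∈ Finset.range D.J, Pr.dm (ex D.S) i * (Hess65.tm (opV D.n D.β D.M qf) (i + 1) ^ 2 -
      Hess65.tm (V D) (i + 1) ^ 2) = τ ^ 2 * S0f D τ qf := by
    rw [S0f, mul_div_cancel₀ _ (pow_pos s.pos 2).ne', Finset.range_eq_Ico,
      show D.lo = Finset.Ico (0 + 1) (D.J + 1) from by
        ext i; simp only [Finset.mem_Icc, Finset.mem_Ico]; omega, ← Finset.sum_Ico_add']
    refine Finset.sum_congr rfl fun i hi => ?_
    have i1 : i + 1 ≤ D.J := (Finset.mem_Ico.1 hi).2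
    have i2 := i1.trans ok.cut.le
    rw [t' _ i2, tmV D i2, CD.sig, ok.qlo _ i1, mul_zero, zero_add, s.ct _ (by omega) i2, ← dmS]
    rfl
  have g1 : Pr.Gam (V D) (D.sig j) = D.Gam j := (pi2_opS ok.ook j2.le).symm
  have g2 : Pr.Gam (opV D.n D.β D.M qf) (D.sig j) = GamF D qf j := by
    rw [GamF, pi2_opS of j2.le, he j j1 j2.le]
  rw [← e1, ← e2, es, g1, g2, ← lam_eq ok, ← psi_eq ok j1.le j2.le, u1, exS] at k
  have x0 : 0 ≤ ex D.B D.J := exS D D.J ▸ lb.pos.le.trans (lb.up.le (Nat.zero_le _) ok.cut.le)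
  have X0 := x0.trans ok.x1
  have b : ex D.B D.J * D.sig (D.J + 1) ^ 2 * (D.sig (D.J + 1) * (ex D.B D.J + D.sig (D.J + 1)) +
      D.sig D.J) ≤ D.X * D.sig (D.J + 1) ^ 2 *
      (D.sig (D.J + 1) * (D.X + D.sig (D.J + 1)) + D.X ^ 3) := by
    have := sig_nonneg ok ok.cut.le
    have := ok.x1
    have h3 : D.sig D.J ≤ D.X ^ 3 := sJ ▸ ok.h1
    gcongr
  have k2 := abs_le.1 (k.trans (mul_le_mul_of_nonneg_left b (zero_le_one.trans h1)))
  have k3 := abs_le.1 (hη j hj)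
  exact abs_le.2 ⟨by linarith [k2.1, k2.2, k3.1, k3.2], by linarith [k2.1, k2.2, k3.1, k3.2]⟩

end Crest.Agent.T156.Cas.C40.R85

end
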