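import Crest.Agent.T156.R2L_81
import Crest.Agent.T156.R2cT_85

/-!
Row 156, R2 (helper81): the site list of the data `CD` against the full reference list.
-/

set_option autoImplicit false

noncomputable section

namespace Crest.Agent.T156.Pr.Ref81

open MeasureTheory Set Filter
open Crest.Agent.R164.GC Crest.Agent.R339.B Crest.Agent.R339.Var Crest.Agent.T157.Pf
open Exp50 (Iz Z1 M1 eps0 ev hv Aq)
open Ker (Nf Wf Tp)
open Pp.Ode3 (AP)

variable {l V : List (ℝ × ℝ)} {x s h d T1 : ℝ}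

theorem okV (a : Adm 1 V) : ∃ u, Ok u ∧ TT u = TT V ∧ Ker.Same u V (TT V) ∧
    ∀ r, 0 ≤ r → lvr 1 V r = lvr 1 u r := by
  obtain ⟨u, o, e, -⟩ := Spl27.exists_ok a
  exact ⟨u, o, e.tt.symm, e.tt ▸ Ker.same_le o.1 a e.tt.ge fun r hr _ => e.lv r hr.le, e.lv⟩

theorem NN_lip (T : ℝ) : ∃ C : ℝ, 12 ≤ C ∧ ∀ (l : List (ℝ × ℝ)) (T1 : ℝ), Ok l → Tp T1 l → T1 ≤ T →
    ∀ s ∈ Icc 0 (TT l), ∀ t ∈ Icc 0 (TT l), |NN l t - NN l s| ≤ C * |t - s| := by
  obtain ⟨K, k1, hK⟩ := Ker.Dn_bound' T 3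
  refine ⟨K ^ 2 + 24, by nlinarith, fun l T1 o tp hT s hs t ht => ?_⟩
  have ap := AP.of_ok o
  refine abs_sub_le_of_rder (Pp.Ode3.Nm_cont ap) (fun _ hr => Pp.Ode3.Nm_rder ap hr.1 hr.2)
    hs ht fun r hr => ?_
  have a : Pp.Ode3.N4 l r ≤ K ^ 2 := Pp.Ode3.Et_le Pp.bfn_W3 fun y => by
    have := pow_le_pow_left₀ (abs_nonneg _) (hK T1 l tp hT r ((le_min hs.1 ht.1).trans hr.1) 3 le_rfl y) 2
    rwa [sq_abs] at this
  have c := mul_le_mul (Pp.Ode3.lvr_le_one o.1 r) ((Pp.Ode3.Bm_le_Nm o.1 r).trans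
    (Pp.Ode3.Nm_le_four o.1 r)) (Pp.Ode3.Bm_nonneg o.1 r) zero_le_one
  have e := mul_nonneg (Pp.Ode3.lvr_pos o.1 r).le (Pp.Ode3.Bm_nonneg o.1 r)
  rw [abs_le]
  constructor <;> linarith [Pp.Ode3.N4_nonneg l r, sq_nonneg K]

/-- **values and increments above the cut** -/
theorem lk_inc (T : ℝ) : ∃ C : ℝ, 1 ≤ C ∧ ∀ (l V : List (ℝ × ℝ)) (T1 x s h d ρ : ℝ),
    Lk l V T1 x s h d → Ok l → T1 ≤ T → C * (x * s ^ 2 + d) ≤ ρ →
    (∀ u c, s ≤ u → u ≤ TT V → 0 ≤ c → c ≤ d → u + c ≤ TT l → |Gam V u - Gam l (u + c)| ≤ ρ ∧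
      |GG V u - GG l (u + c)| ≤ ρ ∧ |AA V u - AA l (u + c)| ≤ ρ ∧ |NN V u - NN l (u + c)| ≤ ρ) ∧
    ∀ a a' c c', s ≤ a → a ≤ a' → a' ≤ TT V → 0 ≤ c → c ≤ c' → c' ≤ d → a' + c' ≤ TT l →
      |Gam V a' - Gam V a - (Gam l (a' + c') - Gam l (a + c))| ≤ ρ * (a' - a) + (c' - c) ∧
      ∀ z E, (∀ u, a ≤ u → u < a' → lvr 1 V u = z) →
        (∀ u, a + c ≤ u → u < a' + c → |NN l u - 2 * z * AA l u| ≤ E) →
        |GG V a' - GG V a| ≤ (E + 3 * ρ) * (a' - a) := by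
  obtain ⟨C1, c1, H1⟩ := Ker.fun_lip' T
  obtain ⟨C2, c2, H2⟩ := NN_lip T
  refine ⟨C1 * (1 + 2 * |T|) + C2, by nlinarith [abs_nonneg T], fun l V T1 x s h d ρ k o hT hρ => ?_⟩
  have ap := AP.of_ok o
  have s0 := k.s0.le
  have d0 := k.d0
  have x0 := k.x0.le
  have T0 := abs_nonneg T
  have val : ∀ u c, s ≤ u → u ≤ TT V → 0 ≤ c → c ≤ d → u + c ≤ TT l →
      |Gam V u - Gam l (u + c)| ≤ ρ ∧ |GG V u - GG l (u + c)| ≤ ρ ∧ |AA V u - AA l (u + c)| ≤ ρ ∧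
      |NN V u - NN l (u + c)| ≤ ρ := fun u c su uV c0 cd ul => by
    have u0 := s0.trans su
    have m1 : u ∈ Icc 0 (TT l) := ⟨u0, by linarith⟩
    have m2 : u + c ∈ Icc 0 (TT l) := ⟨by linarith, ul⟩
    have sm : s ≤ min u T1 := le_min su k.sT
    have uT : min u T1 ≤ |T| := ((min_le_right _ _).trans hT).trans (le_abs_self T)
    have n2 := Ker.Nf_add l V s (min u T1) T1
    have n3 := Ker.Nf_nonneg l V sm
    have n4 := Ker.Nf_nonneg l V (min_le_right u T1)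
    have n1 := k.nf
    have n5 : Wf l V (min u T1) ≤ x * s ^ 2 + |T| * d := by
      have := intervalIntegral.integral_mono_on sm (Ker.wet_ii l V s _)
        ((Ker.et_ii l V s (min u T1)).const_mul |T|) fun r hr =>
          mul_le_mul_of_nonneg_right (hr.2.trans uT) (abs_nonneg _)
      rw [intervalIntegral.integral_const_mul] at this
      refine le_trans (intervalIntegral.integral_add_adjacent_intervals (Ker.wet_ii l V 0 s)
        (Ker.wet_ii l V s _)).ge (add_le_add k.wf (le_trans this (mul_le_mul_of_nonneg_left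
          (show Nf l V s (min u T1) ≤ d by linarith) T0)))
    have n6 : u * Nf l V (min u T1) T1 ≤ |T| * d := by
      rcases le_total u T1 with e | e
      · exact mul_le_mul (min_eq_left e ▸ uT) (by linarith) n4 T0
      · rw [min_eq_right e, show Nf l V T1 T1 = 0 by simp [Nf], mul_zero]
        exact mul_nonneg T0 d0
    obtain ⟨b1, b2, b3, b4, -⟩ := H1 T1 l V k.tp k.tpV hT u u0 m1.2 uV _ _ rfl rfl
    have q0 : 0 ≤ x * s ^ 2 := by positivity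
    have f1 : 0 ≤ |T| * (x * s ^ 2) := by positivity
    have f2 : 0 ≤ |T| * d := by positivity
    have w1 := mul_le_mul_of_nonneg_left (show Wf l V (min u T1) + u * Nf l V (min u T1) T1 ≤
      (1 + 2 * |T|) * (x * s ^ 2 + d) by linarith) (zero_le_one.trans c1)
    have w2 := mul_le_mul_of_nonneg_left (show Wf l V (min u T1) + Nf l V (min u T1) T1 ≤
      (1 + 2 * |T|) * (x * s ^ 2 + d) by linarith) (zero_le_one.trans c1)
    have e : |u - (u + c)| ≤ x * s ^ 2 + d := by rw [abs_le]; constructor <;> linarith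
    have fin : ∀ {p q r B L : ℝ}, |p - q| ≤ B → B ≤ C1 * ((1 + 2 * |T|) * (x * s ^ 2 + d)) →
        |q - r| ≤ L * |u - (u + c)| → L ≤ C2 → |p - r| ≤ ρ := fun a1 a2 a3 a4 =>
      (abs_sub_le _ _ _).trans ((add_le_add (a1.trans a2) (a3.trans (mul_le_mul a4 e (abs_nonneg _)
        (by linarith)))).trans (le_trans (le_of_eq (by ring)) hρ))
    exact ⟨fin b1 w1 ((Pp.Ode3.Gam_lip ap m2 m1).trans_eq (one_mul _).symm) (by linarith),
      fin b2 w2 (Pp.Ode3.Gp_lip ap m2 m1) (by linarith), fin b3 w2 (Pp.Ode3.Am_lip ap m2 m1) c2,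
      fin b4 w1 (H2 l T1 o k.tp hT _ m2 _ m1) le_rfl⟩
  refine ⟨val, fun a a' c c' sa aa aV c0 cc cd al => ?_⟩
  obtain ⟨w, ow, tw, sw, lw⟩ := okV k.tpV.adm
  have aw := AP.of_ok ow
  have a0 := s0.trans sa
  have ma : a ∈ Icc 0 (TT V) := ⟨a0, aa.trans aV⟩
  have ma' : a' ∈ Icc 0 (TT V) := ⟨a0.trans aa, aV⟩
  have sub : Icc a a' ⊆ Icc 0 (TT w) := Icc_subset_Icc a0 (tw.symm ▸ aV)
  have vu : ∀ u ∈ Ico a a', _ := fun u hu => val u c (sa.trans hu.1) (hu.2.le.trans aV) c0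
    (cc.trans cd) (by linarith [hu.2])
  have mu : ∀ u ∈ Ico a a', u ∈ Icc 0 (TT V) := fun u hu => ⟨a0.trans hu.1, hu.2.le.trans aV⟩
  constructor
  · have k1 := mvt_cmp (f := fun u => Pp.Ode3.Gam w u - Pp.Ode3.Gam l (u + c)) (g := fun _ => 0)
      (g' := fun _ => 0) (E := ρ) aa (((Pp.Ode3.Gam_cont aw).mono sub).sub
        ((Pp.Ode3.Gam_cont ap).comp (continuousOn_id.add continuousOn_const) fun u hu =>
          ⟨add_nonneg (a0.trans hu.1) c0, by have := hu.2; change u + c ≤ _; linarith⟩))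
      (fun u hu => (Pp.Ode3.Gam_rder aw (a0.trans hu.1) (hu.2.trans_le (tw.symm ▸ aV))).sub
        ((Pp.Ode3.Gam_rder ap (add_nonneg (a0.trans hu.1) c0) (by linarith [hu.2])).comp u
          ((hasDerivWithinAt_id u _).add_const c) fun r hr => add_le_add (show u ≤ r from hr) le_rfl))
      (fun s => hasDerivAt_const s 0) (fun u hu => by
        have := (vu u hu).2.1
        rw [sw.gg u (mu u hu)] at this
        rw [mul_one, sub_zero]
        exact this)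
    have k2 := Pp.Ode3.Gam_lip ap (s := a' + c) (t := a' + c') ⟨by linarith [ma'.1], by linarith⟩
      ⟨by linarith [ma'.1], al⟩
    rw [add_sub_add_left_eq_sub, abs_of_nonneg (sub_nonneg.2 cc)] at k2
    rw [sw.gam a ma, sw.gam a' ma', Pp.Ode3.Gam_eq]
    have j1 := abs_le.1 k1
    have j2 := abs_le.1 k2
    rw [abs_le]; constructor <;> linarith [j1.1, j1.2, j2.1, j2.2]
  · intro z E hz hE
    have k1 := mvt_cmp (f := Pp.Ode3.Gp w) (g := fun _ => 0) (g' := fun _ => 0) (E := E + 3 * ρ) aa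
      ((Pp.Ode3.Gp_cont aw).mono sub)
      (fun u hu => Pp.Ode3.Gp_rder aw (a0.trans hu.1) (hu.2.trans_le (tw.symm ▸ aV)))
      (fun s => hasDerivAt_const s 0) (fun u hu => by
        obtain ⟨-, -, j1, j2⟩ := vu u hu
        rw [sw.aa u (mu u hu)] at j1
        rw [sw.nn u (mu u hu)] at j2
        have z1 : |z| ≤ 1 := by
          rw [← hz u hu.1 hu.2, abs_of_pos (Pp.Ode3.lvr_pos k.tpV.adm u)]
          exact Pp.Ode3.lvr_le_one k.tpV.adm u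
        have j3 := abs_le.1 (amul z1 j1)
        have j4 := abs_le.1 j2
        have j5 := abs_le.1 (hE (u + c) (by linarith [hu.1]) (by linarith [hu.2]))
        rw [← lw u (a0.trans hu.1), hz u hu.1 hu.2, ← Pp.Ode3.NN_eq, ← Pp.Ode3.AA_eq, abs_le]
        constructor <;> linarith [j3.1, j3.2, j4.1, j4.2, j5.1, j5.2])
    rw [sub_self, sub_zero] at k1
    rw [sw.gg a ma, sw.gg a' ma']
    exact k1

theorem cell {f : ℕ → ℝ} {i : ℕ} {r : ℝ} (h : f i ≤ r) : ∀ K, i ≤ K →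
    ∃ j, i ≤ j ∧ j ≤ K ∧ f j ≤ r ∧ (j < K → r < f (j + 1)) := by
  intro K hK
  induction K, hK using Nat.le_induction with
  | base => exact ⟨i, le_rfl, le_rfl, h, fun a => absurd a (lt_irrefl _)⟩
  | succ K hK ih =>
    obtain ⟨j, a, b, c, e⟩ := ih
    by_cases g : f (K + 1) ≤ r
    · exact ⟨K + 1, by omega, le_rfl, g, fun a => absurd a (lt_irrefl _)⟩
    · refine ⟨j, a, by omega, c, fun _ => ?_⟩
      rcases b.eq_or_lt with b | b
      · rw [b]; exact not_le.1 g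
      · exact e b

end Crest.Agent.T156.Pr.Ref81

namespace Crest.Agent.T156.Cas.C40.R81

open MeasureTheory Real Set Filter Topology
open Crest.Agent.T157.E Crest.Agent.T157.Casc Crest.Agent.T157.SL Crest.Agent.T157.Casc.C
open Crest.Agent.R339.B Crest.Agent.R339.Var Crest.Agent.T157.Pf
open Hess65 Crest.Agent.T156.Pp R85 Pr.Ref81 Pr.Exp50

/-- the site list of `D` follows the reference `l` with node times `t` above the cut -/
structure LkD (D : CD) (l : List (ℝ × ℝ)) (t : ℕ → ℝ) (P : ℕ) (d : ℝ) : Prop where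
  ok : Pr.Ok l
  s0 : 0 < D.sig (D.J + 1)
  PK : P < D.K
  d0 : 0 ≤ d
  d1 : d ≤ 1 / 2
  clk : ∀ j, D.J < j → j < D.K → t j = D.sig j + d * D.q j
  tT : ∀ j, D.J < j → j < D.K → t j ≤ R339.Var.TT l
  qq : ∀ j, D.J < j → j < D.K → D.q j = Pr.Gam l (t j)
  top : t P ≤ D.sig D.K
  ge : ∀ j, D.J < j → j ≤ P → ∀ u, t j ≤ u → ex D.B j ≤ lvr 1 l u
  le : ∀ j, D.J ≤ j → j < P → ∀ u, u < t (j + 1) → lvr 1 l u ≤ ex D.B j

/-- the low reference value of (TWIN) -/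
def S0l (D : CD) (l : List (ℝ × ℝ)) (τ : ℝ) : ℝ :=
  -2 * Twin20.Mf l (V D) (D.sig (D.J + 1)) / τ ^ 2

variable {D : CD} {l : List (ℝ × ℝ)} {t : ℕ → ℝ} {P : ℕ} {d τ τ0 T : ℝ}

theorem up_ex (ok : D.Ok τ0) (s : St D τ T P) : Area50.Up (ex D.B) D.K ∧ ex D.B D.K = 1 := by
  have lb := lb_ex (rkS ok) (s.adm ok)
  rw [lenS, funext (exS D)] at lb
  exact ⟨lb.up, lb.top⟩

theorem lvr_V (ok : D.Ok τ0) (s : St D τ T P) {j : ℕ} {r : ℝ} (hj : j ≤ D.K) (h1 : D.sig j ≤ r)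
    (h2 : j < D.K → r < D.sig (j + 1)) : lvr 1 (V D) r = ex D.B j := by
  have R := rkS ok
  have n := nd_tm R
  rw [eq_lsg R, Area50.lvr_lsg (lb_ex R (s.adm ok)).top n.up n.zero, ← exS]
  rw [lenS] at n ⊢
  exact Area50.stp_eq n.up hj (fun _ => (tmV D hj).symm ▸ h1) fun h => (tmV D h).symm ▸ h2 h

theorem TT_V (ok : D.Ok τ0) : R339.Var.TT (V D) = D.sig D.K := by
  rw [← (nd_tm (rkS ok)).top, lenS, tmV D le_rfl]

theorem LkD.mem (k : LkD D l t P d) (ok : D.Ok τ0) {j : ℕ} (h1 : D.J < j) (h2 : j < D.K) :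
    (0 ≤ d * D.q j ∧ d * D.q j ≤ d) ∧ D.sig j ≤ t j ∧ t j ≤ D.sig j + d := by
  have m := ok.ook.mem h2.le
  have a := mul_nonneg k.d0 m.1
  have b := mul_le_of_le_one_right k.d0 m.2
  rw [k.clk j h1 h2]
  exact ⟨⟨a, b⟩, by linarith, by linarith⟩

theorem LkD.lk (k : LkD D l t P d) (ok : D.Ok τ0) (s : St D τ T P) :
    Lk l (V D) (t P) (ex D.B D.J) (D.sig (D.J + 1)) (D.sig D.J) d ∧ t P ≤ T := by
  obtain ⟨u, u1⟩ := up_ex ok s
  have a := s.adm ok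
  have JP : D.J + 1 ≤ P := s.JP
  have JK : D.J + 1 < D.K := JP.trans_lt k.PK
  have mP := (k.mem ok s.JP k.PK).2
  have m1 := (k.mem ok (Nat.lt_succ_self _) JK).2
  have sP := (sig_mono ok JP s.PK).trans mP.1
  have p0 := k.s0.le.trans sP
  have one : ∀ j, P ≤ j → j ≤ D.K → 1 ≤ ex D.B j := fun j h1 h2 => s.one ▸ u.le h1 h2
  have tl : ∀ r, t P ≤ r → lvr 1 l r = 1 := fun r hr =>
    le_antisymm (Ode3.lvr_le_one k.ok.1 r) (s.one ▸ k.ge P s.JP le_rfl r hr)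
  refine ⟨⟨⟨k.ok.1, ⟨p0, k.tT P s.JP k.PK⟩, tl⟩, ⟨a, ⟨p0, (TT_V ok).symm ▸ k.top⟩, fun r hr => ?_⟩,
    sig_nonneg ok ok.cut.le, sig_mono ok (Nat.le_succ _) JK.le, k.s0, sP,
    fun r _ r1 => k.le _ le_rfl s.JP r (r1.trans_le m1.1), fun r r0 r1 => ?_,
    fun r r0 r1 => lvr_V ok s ok.cut.le r0 fun _ => r1, ?_,
    nf_sw k.ok.1 sP k.d0 fun r hr => ?_⟩, by linarith [s.time, k.d1, mP.2]⟩
  · obtain ⟨j, j1, j2, j3, j4⟩ := cell (f := D.sig) (mP.1.trans hr) D.K s.PK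
    exact le_antisymm (Ode3.lvr_le_one a r) (lvr_V ok s j2 j3 j4 ▸ one j j1 j2)
  · obtain ⟨j, -, j2, j3, j4⟩ := cell (f := D.sig) (i := 0) ((sig_zero ok).trans_le r0) D.K
      (Nat.zero_le _)
    rw [lvr_V ok s j2 j3 j4]
    refine u.le (not_lt.1 fun h => ?_) ok.cut.le
    linarith [sig_mono ok (show D.J + 1 ≤ j from h) j2]
  · obtain ⟨j, j1, j2, j3, j4⟩ := cell (f := D.sig) (i := D.J + 1) le_rfl D.K JK.le
    rw [lvr_V ok s j2 j3 j4]
    exact u.le (by omega) j2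
  · obtain ⟨j, j1, j2, j3, j4⟩ := cell (f := D.sig) hr D.K JK.le
    rw [lvr_V ok s j2 j3 j4]
    rcases le_or_gt P j with h | h
    · refine ⟨(Ode3.lvr_le_one k.ok.1 r).trans (one j h j2), ?_⟩
      rw [tl _ (by linarith [sig_mono ok h j2, mP.2])]
      exact (u.le j2 le_rfl).trans_eq u1
    · have jK := h.trans k.PK
      exact ⟨k.le j (by omega) h r ((j4 jK).trans_le (k.mem ok (by omega) (by have := k.PK; omega)).2.1),
        k.ge j j1 h.le _ (by linarith [(k.mem ok j1 jK).2.2])⟩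

theorem Gam_V (ok : D.Ok τ0) {j : ℕ} (hj : j ≤ D.K) : D.Gam j = Pr.Gam (V D) (D.sig j) :=
  pi2_opS ok.ook hj

theorem Gn_V (ok : D.Ok τ0) {j : ℕ} (hj : j ≤ D.K) : Hess65.Gn D.S j = Pr.GG (V D) (D.sig j) := by
  rw [Gn_eq (rkS ok) ((lenS D).symm ▸ hj), tmV D hj]; rfl

/-- **the link**: (TWIN), `λ`, `S0`, values and increments on UP -/
theorem link (T : ℝ) : ∃ C : ℝ, 1 ≤ C ∧ ∀ (D : CD) (τ τ0 d ρ : ℝ) (P : ℕ) (l : List (ℝ × ℝ))
    (t : ℕ → ℝ), D.Ok τ0 → St D τ T P → LkD D l t P d →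
    C * (D.X * D.sig (D.J + 1) ^ 2 + d) ≤ ρ →
    TW D τ (S0l D l τ) (C * (D.X * D.sig (D.J + 1) ^ 2 *
      (D.sig (D.J + 1) * (D.X + D.sig (D.J + 1)) + D.X ^ 3) + d)) ∧
    |D.lam - Pr.Exp50.cx l (ex D.B D.J) (t (D.J + 1))| ≤ C * D.X ^ 3 + ρ ∧
    |τ ^ 2 * S0l D l τ - (ex D.B D.J * t (D.J + 1) ^ 2 - 2 * M1 l (t (D.J + 1)))| ≤
      2 * D.X * (D.X ^ 6 + t (D.J + 1) * d) ∧
    (∀ j ∈ D.up, |D.Gam j - D.q j| ≤ ρ ∧ |Hess65.Gn D.S j - Pr.GG l (t j)| ≤ ρ) ∧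
    ∀ j ∈ D.up, j + 1 < D.K →
      |ex D.B j * (D.Gam (j + 1) - D.q (j + 1) - (D.Gam j - D.q j))| ≤
        2 * ρ * (D.e j * (D.sig (j + 1) - D.sig j)) ∧
      D.sig (j + 1) - D.sig j ≤ t (j + 1) - t j ∧ t (j + 1) - t j ≤ 2 * (D.sig (j + 1) - D.sig j) ∧
      ∀ E, (∀ u, t j ≤ u → u < t (j + 1) → |Pr.NN l u - 2 * ex D.B j * Pr.AA l u| ≤ E) →
        |Hess65.Gn D.S (j + 1) - Hess65.Gn D.S j| ≤ (E + 3 * ρ) * (D.sig (j + 1) - D.sig j) := by
  obtain ⟨C1, c1, H1⟩ := lk_tw T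
  obtain ⟨C2, c2, H2⟩ := lk_lam T
  obtain ⟨C3, c3, H3⟩ := lk_inc T
  refine ⟨C1 + C2 + C3 + 1, by linarith, fun D τ τ0 d ρ P l t ok s k hρ => ?_⟩
  obtain ⟨L, hT⟩ := k.lk ok s
  obtain ⟨u, u1⟩ := up_ex ok s
  have ap := Ode3.AP.of_ok k.ok
  have JK : D.J + 1 < D.K := lt_of_le_of_lt s.JP k.PK
  have m1 := (k.mem ok (Nat.lt_succ_self _) JK).2
  have t1 := k.tT _ (Nat.lt_succ_self _) JK
  have d0 := k.d0
  have s0 := k.s0.le
  have h0 := L.h0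
  have x0 := L.x0.le
  have x1 := ok.x1
  have X0 := x0.trans x1
  have h3 : D.sig D.J ≤ D.X ^ 3 := by
    rw [CD.sig, ok.qlo _ le_rfl, mul_zero, zero_add]; exact ok.h1
  have q1 : ex D.B D.J * D.sig (D.J + 1) ^ 2 ≤ D.X * D.sig (D.J + 1) ^ 2 := by gcongr
  have q0 : 0 ≤ D.X * D.sig (D.J + 1) ^ 2 := by positivity
  have r1 : (C2 + 1) * (D.X * D.sig (D.J + 1) ^ 2 + d) ≤ ρ :=
    (mul_le_mul_of_nonneg_right (by linarith) (by positivity)).trans hρ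
  have r2 : 2 * d ≤ ρ := by nlinarith only [r1, c2, q0, d0]
  obtain ⟨val, inc⟩ := H3 _ _ _ _ _ _ _ ρ L k.ok hT
    ((mul_le_mul (by linarith) (add_le_add q1 le_rfl) (by positivity) (by linarith)).trans hρ)
  refine ⟨fun j hj => ?_, ?_, ?_, fun j hj => ?_, fun j hj jK => ?_⟩
  · obtain ⟨j1, j2⟩ := Finset.mem_Ioo.1 hj
    have m := (k.mem ok j1 j2).2
    have tj := k.tT j j1 j2
    have sj := sig_nonneg ok j2.le
    have a := H1 _ _ _ _ _ _ _ L hT (D.sig j) (sig_mono ok j1 j2.le) (m.1.trans tj)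
      ((TT_V ok).symm ▸ sig_mono ok j2.le le_rfl)
    have b := Ode3.Gam_lip ap ⟨sj, m.1.trans tj⟩ ⟨sj.trans m.1, tj⟩
    rw [abs_of_nonneg (sub_nonneg.2 m.1), ← Ode3.Gam_eq, ← k.qq j j1 j2] at b
    rw [← Gam_V ok j2.le, ← lam_eq ok, ← psi_eq ok j1.le j2.le] at a
    have e : τ ^ 2 * D.lam * psi D j * S0l D l τ =
        -(2 * (D.lam * psi D j) * Twin20.Mf l (V D) (D.sig (D.J + 1))) := by
      have := s.pos.ne'
      unfold S0l; field_simp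
    have c : ex D.B D.J * D.sig (D.J + 1) ^ 2 * (D.sig (D.J + 1) * (ex D.B D.J + D.sig (D.J + 1)) +
        D.sig D.J) ≤ D.X * D.sig (D.J + 1) ^ 2 *
        (D.sig (D.J + 1) * (D.X + D.sig (D.J + 1)) + D.X ^ 3) := by gcongr
    have a' := abs_le.1 (a.trans (mul_le_mul_of_nonneg_left (add_le_add c le_rfl) (by linarith)))
    have b' := abs_le.1 b
    generalize D.X * D.sig (D.J + 1) ^ 2 * (D.sig (D.J + 1) * (D.X + D.sig (D.J + 1)) + D.X ^ 3) = Y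
      at a' c ⊢
    have Y0 : 0 ≤ Y := le_trans (by positivity) c
    have f : 0 ≤ (C2 + C3) * (Y + d) := by positivity
    rw [e, abs_le]
    constructor <;> linarith [a'.1, a'.2, b'.1, b'.2, m.2]
  · have a := abs_le.1 ((H2 _ _ _ _ _ _ _ L hT).trans (mul_le_mul_of_nonneg_left
      (add_le_add (add_le_add h3 q1) le_rfl) (by linarith)))
    have b := abs_le.1 (cx_lip (x := ex D.B D.J) (E := 1) k.ok s0 m1.1 t1 fun r _ _ => by
      rw [abs_le]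
      constructor <;> linarith [Ode3.lvr_pos k.ok.1 r, Ode3.lvr_le_one k.ok.1 r, L.x1])
    have f : 0 ≤ (C1 + C3 + 1) * D.X ^ 3 := by positivity
    rw [lam_eq ok, abs_le]
    constructor <;> linarith [a.1, a.2, b.1, b.2, m1.2]
  · have a := L.S0 k.ok m1.1 t1 fun r _ r1 => k.le _ le_rfl s.JP r r1
    rw [S0l, mul_div_cancel₀ _ (pow_pos s.pos 2).ne']
    refine a.trans ?_
    have t0 := s0.trans m1.1
    have h6 : D.sig D.J ^ 2 ≤ D.X ^ 6 := (pow_le_pow_left₀ h0 h3 2).trans_eq (by ring)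
    have h7 : t (D.J + 1) - D.sig (D.J + 1) ≤ d := by linarith [m1.2]
    have h8 := sub_nonneg.2 m1.1
    gcongr
  · obtain ⟨j1, j2⟩ := Finset.mem_Ioo.1 hj
    have m := (k.mem ok j1 j2).1
    obtain ⟨a, b, -⟩ := val (D.sig j) (d * D.q j) (sig_mono ok j1 j2.le)
      ((TT_V ok).symm ▸ sig_mono ok j2.le le_rfl) m.1 m.2 (k.clk j j1 j2 ▸ k.tT j j1 j2)
    rw [← k.clk j j1 j2] at a b
    rw [Gam_V ok j2.le, Gn_V ok j2.le, k.qq j j1 j2]
    exact ⟨a, b⟩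
  · obtain ⟨j1, j2⟩ := Finset.mem_Ioo.1 hj
    have j3 : D.J < j + 1 := by omega
    have m := k.mem ok j1 j2
    have m' := k.mem ok j3 jK
    have qm := ok.ook.mono j j2
    have sm := sig_mono ok (Nat.le_succ j) jK.le
    have sj := sig_nonneg ok j2.le
    have cc := mul_le_mul_of_nonneg_left qm d0
    have e1 := k.clk j j1 j2
    have e2 := k.clk _ j3 jK
    obtain ⟨a, b⟩ := inc (D.sig j) (D.sig (j + 1)) (d * D.q j) (d * D.q (j + 1))
      (sig_mono ok j1 j2.le) sm ((TT_V ok).symm ▸ sig_mono ok jK.le le_rfl) m.1.1 cc m'.1.2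
      (e2 ▸ k.tT _ j3 jK)
    rw [← e1, ← e2, ← k.qq j j1 j2, ← k.qq _ j3 jK, ← Gam_V ok j2.le, ← Gam_V ok jK.le] at a
    have g := (le_abs_self _).trans (Ode3.Gam_lip ap ⟨sj.trans m.2.1, k.tT j j1 j2⟩
      ⟨(sj.trans sm).trans m'.2.1, k.tT _ j3 jK⟩)
    rw [abs_of_nonneg (by linarith), ← Ode3.Gam_eq, ← k.qq j j1 j2, ← k.qq _ j3 jK] at g
    have g1 := mul_le_mul_of_nonneg_right k.d1 (sub_nonneg.2 qm)
    have g2 : D.q (j + 1) - D.q j ≤ 2 * (D.sig (j + 1) - D.sig j) := by linarith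
    have g3 := mul_le_mul_of_nonneg_left g2 d0
    have g4 := mul_le_mul_of_nonneg_right r2 (sub_nonneg.2 sm)
    refine ⟨?_, by linarith, by linarith, fun E hE => ?_⟩
    · have z0 : 0 ≤ ex D.B j := x0.trans (u.le j1.le j2.le)
      have z1 : |ex D.B j| ≤ D.e j := (abs_of_nonneg z0).le.trans
        ((le_min ((u.le j2.le le_rfl).trans_eq u1) (by linarith)).trans (ok.esc j hj))
      have a' := abs_le.1 a
      refine (amul z1 (B := 2 * ρ * (D.sig (j + 1) - D.sig j)) (abs_le.2 ⟨?_, ?_⟩)).trans_eq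
        (by ring) <;> linarith [a'.1, a'.2]
    · rw [Gn_V ok j2.le, Gn_V ok jK.le]
      exact b _ E (fun r r0 r1 => lvr_V ok s j2.le r0 fun _ => r1) fun r r0 r1 =>
        hE r (e1 ▸ r0) (by linarith)

end Crest.Agent.T156.Cas.C40.R81

end
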