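import Crest.Agent.T156.R2VG_23
import Crest.Agent.T156.R2K_30

/-!
# Row 156, R2: the moment numbers of the value record (helper21)
-/

set_option autoImplicit false

noncomputable section

namespace Crest.Agent.T156.Alt.R2

open Real Finset
open Crest.Agent.T156.Cas Crest.Agent.T156.Cas.C40 Md67 CIn12

namespace M21

variable {β c0 C0 c η K C : ℝ} {A : ℕ} {p : Pm} {P : Pl} {m : ℕ} {a : ℝ} {E : CIn12.Ev}

/-- UP = slope + top -/
theorem I_split (f : ℕ → ℝ) : (D p P m a E).I f =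
    ∑ k ∈ Tlo p P, (Me p P).dz m a k * f (k + 1) + ∑ k ∈ Thi p P, (Me p P).dz m a k * f (k + 1) := by
  rw [cd_I, Tlo, Thi, sum_filter_add_sum_filter_not]

theorem mem_lo {k : ℕ} (h : k ∈ Tlo p P) : jc p ≤ k ∧ k < (Me p P).N := mem_Ico.1 (mem_filter.1 h).1
theorem mem_hi {k : ℕ} (h : k ∈ Thi p P) : jc p ≤ k ∧ k < (Me p P).N := mem_Ico.1 (mem_filter.1 h).1

theorem U3_nn (k : ℕ) : 0 ≤ U3 p P m a k := E2_nonneg (fun _ _ => by positivity) k

theorem g_eq {k : ℕ} (h : jc p ≤ k ∧ k < (Me p P).N) :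
    (D p P m a E).g (k + 1) = U3 p P m a k ^ (1 / 3 : ℝ) := by
  rw [CD.g, cd_u m a _ _ E 3 h.1 h.2, U3]

theorem g_cube {k : ℕ} (h : jc p ≤ k ∧ k < (Me p P).N) :
    (D p P m a E).g (k + 1) ^ 3 = U3 p P m a k := by
  rw [g_eq h, ← rpow_natCast, ← rpow_mul (U3_nn k)]
  norm_num

theorem g_nn {k : ℕ} (h : jc p ≤ k ∧ k < (Me p P).N) : 0 ≤ (D p P m a E).g (k + 1) :=
  g_eq (E := E) h ▸ rpow_nonneg (U3_nn k) _

theorem g_le {k : ℕ} (h : jc p ≤ k ∧ k < (Me p P).N) {y : ℝ} (y0 : 0 ≤ y)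
    (hy : U3 p P m a k ≤ y ^ 3) : (D p P m a E).g (k + 1) ≤ y :=
  le_of_pow_le_pow_left₀ three_ne_zero y0 ((g_cube h).trans_le hy)

/-- one power less -/
theorem u_succ (i k : ℕ) : (Me p P).E2 m a (fun R => |R - (Me p P).q k| ^ (i + 1)) k ≤
    2 * (Me p P).E2 m a (fun R => |R - (Me p P).q k| ^ i) k := by
  rw [← E2_mul]
  refine E2_mono (fun r hr => ?_) k
  have h := abs_le.1 hr
  have : |r - (Me p P).q k| ≤ 2 :=
    abs_le.2 ⟨by linarith [q_le_one (M := Me p P) k], by linarith [q_nonneg (M := Me p P) k]⟩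
  rw [pow_succ']
  gcongr

theorem mn (H : Reg β c0 C0 A c η K p) (hη : η ≤ c) (e : En C p P) (x : Ad p P m a E) {G g G' : ℕ → ℝ}
    (Z : GZ p P m a (Tlo p P) G g) (Y : GA p P m a G')
    (hB : ∑ k ∈ Thi p P, (Me p P).dz m a k * U3 p P m a k ≤ cb p (169 / 200)) :
    MnV p (D p P m a E) := by
  have d0 : ∀ k, 0 ≤ (Me p P).dz m a k := (e.lg H x.inn).dz_nonneg
  have k0 := kk0 H
  have κ0 := H.κ0
  have s0 := H.s0
  have N0 := H.N0
  have cp := H.c_pos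
  have l4 := H.lg_num (x := 10) (by norm_num) (by norm_num)
  have k1 : 10 / p.κ ≤ kk p := H.le_of_lg (by positivity) k0 (by
    lg_norm; linarith [lg_kk H, H.lg_κ])
  have k2 : 1 ≤ 1 / p.κ := one_le_one_div κ0 H.κ1
  have k3 : 10 ≤ kk p := by rw [← mul_one_div] at k1; linarith
  have k5 : 1 ≤ kk p ^ 5 := one_le_pow₀ (by linarith)
  have k6 : ∀ {y : ℝ}, 0 ≤ y → 10 * (1 / p.κ) * (kk p ^ 5 * y) ≤ kk p ^ 6 * y := fun {y} hy => by
    rw [mul_one_div, pow_succ' (kk p) 5, mul_assoc]; gcongr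
  have k7 : ∀ {y : ℝ}, 0 ≤ y → 10 * (kk p ^ 5 * y) ≤ kk p ^ 6 * y := fun {y} hy => by
    rw [pow_succ' (kk p) 5, mul_assoc]; gcongr
  have gl : ∀ k ∈ Tlo p P, (D p P m a E).g (k + 1) ≤ g k := fun k hk =>
    g_le (mem_lo hk) (Z.g0 k hk) (Z.u3 k hk)
  have gh : ∀ k ∈ Thi p P, (D p P m a E).g (k + 1) ≤ 3 * G' k := fun k hk => by
    have := Y.pos k hk
    refine g_le (mem_hi hk) (by positivity) ((mom_pair (q := (Me p P).q k) (i := 3) this
      (by norm_num) (Y.mom k hk)).trans ?_)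
    rw [sub_self, abs_zero, add_zero, mul_pow]
    exact mul_le_mul_of_nonneg_right (by norm_num) (pow_pos this 3).le
  have c0 : 0 < cb p (169 / 200) := mul_pos (pow_pos s0 5) (H.rp0 _)
  have c1 : p.s ^ 5 * (p.n : ℝ) ^ (-(17 : ℝ) / 20) ≤ cb p (169 / 200) :=
    mul_le_mul_of_nonneg_left (Pre29.rp_le H.n1 (by norm_num)) (pow_pos s0 5).le
  have c2 := mul_le_mul_of_nonneg_left c1 (pow_pos k0 5).le
  have c3 := le_mul_of_one_le_left c0.le k5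
  refine ⟨?_, ?_, ?_, ?_⟩
  · have a1 := (sum_le_sum fun k hk => mul_le_mul_of_nonneg_left (gl k hk) (d0 k)).trans Z.n1
    have a2 := sum_le_sum fun k hk => mul_le_mul_of_nonneg_left (gh k hk) (d0 k)
    simp only [mul_left_comm _ (3 : ℝ), ← mul_sum] at a2
    have y0 : 0 ≤ p.s ^ 2 * (p.n : ℝ) ^ (-(13 : ℝ) / 40) := by positivity
    rw [CD.N1, I_split, nV]
    linarith [Y.s1, k7 y0, mul_nonneg (pow_pos k0 5).le y0]
  · have a1 := (sum_le_sum fun k hk => mul_le_mul_of_nonneg_left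
      (pow_le_pow_left₀ (g_nn (mem_lo hk)) (gl k hk) 2) (d0 k)).trans Z.n2
    have a2 := sum_le_sum fun k hk => mul_le_mul_of_nonneg_left
      (pow_le_pow_left₀ (g_nn (mem_hi hk)) (gh k hk) 2) (d0 k)
    simp only [mul_pow, mul_left_comm _ ((3 : ℝ) ^ 2), ← mul_sum] at a2
    have y0 : 0 ≤ p.s ^ 3 * (p.n : ℝ) ^ (-(31 : ℝ) / 60) := by positivity
    have a3 : p.s ^ 4 * (p.n : ℝ) ^ (-(13 : ℝ) / 20) ≤ p.s ^ 3 * (p.n : ℝ) ^ (-(31 : ℝ) / 60) :=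
      H.le_of_lg (by positivity) (by positivity) (by
        lg_norm; rw [H.lg_n]; linarith [H.lg_s.2])
    have a4 := mul_le_mul_of_nonneg_left a3 (pow_pos k0 5).le
    rw [CD.N2, I_split]
    linarith [Y.s2, k7 y0]
  · have a1 : ∑ k ∈ Tlo p P, (Me p P).dz m a k * (D p P m a E).u 4 (k + 1) ≤ _ :=
      (sum_congr rfl fun k hk => by
        rw [cd_u m a _ _ E 4 (mem_lo hk).1 (mem_lo hk).2]).trans_le Z.n4
    have a2 : ∑ k ∈ Thi p P, (Me p P).dz m a k * (D p P m a E).u 4 (k + 1) ≤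
        ∑ k ∈ Thi p P, 2 * ((Me p P).dz m a k * U3 p P m a k) := sum_le_sum fun k hk => by
      rw [cd_u m a _ _ E 4 (mem_hi hk).1 (mem_hi hk).2, mul_left_comm]
      exact mul_le_mul_of_nonneg_left (u_succ 3 k) (d0 k)
    rw [← mul_sum] at a2
    rw [I_split]
    linarith [k7 c0.le]
  · have t0 := t10 H
    have t1' : t1 p ≤ 1 := H.le_of_lg t0 one_pos (by
      rw [lg_t1 H, logb_one]; linarith [H.lg_s.2, H.c_le])
    have a1 : ∑ k ∈ Tlo p P, (Me p P).dz m a k *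
        ((D p P m a E).e (k + 1) * (D p P m a E).g (k + 1) ^ 3) ≤ ∑ k ∈ Tlo p P, 1 / p.κ *
          ((Me p P).dz m a k * (max (t1 p) ((Me p P).z k) * g k ^ 3)) := sum_le_sum fun k hk => by
      have := d0 k
      have := g_nn (m := m) (a := a) (E := E) (mem_lo hk)
      have := gl k hk
      have : 0 ≤ max (t1 p) ((Me p P).z k) := le_max_of_le_left t0.le
      rw [cd_e, x.env.e]
      calc _ ≤ (Me p P).dz m a k * (max (t1 p) ((Me p P).z k) / p.κ * g k ^ 3) := by gcongr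
        _ = _ := by ring
    have a2 : ∑ k ∈ Thi p P, (Me p P).dz m a k *
        ((D p P m a E).e (k + 1) * (D p P m a E).g (k + 1) ^ 3) ≤ ∑ k ∈ Thi p P, 1 / p.κ *
          ((Me p P).dz m a k * U3 p P m a k) := sum_le_sum fun k hk => by
      have := d0 k
      have := U3_nn (p := p) (P := P) (m := m) (a := a) k
      have : max (t1 p) ((Me p P).z k) ≤ 1 := max_le t1' ((e.lg H x.inn).z1 k)
      rw [cd_e, x.env.e, g_cube (mem_hi hk), mul_left_comm (1 / p.κ)]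
      gcongr
    rw [← mul_sum] at a1 a2
    have a3 := mul_le_mul_of_nonneg_left (Z.n3.trans c2) (one_div_pos.2 κ0).le
    have a4 := mul_le_mul_of_nonneg_left (hB.trans c3) (one_div_pos.2 κ0).le
    have a5 : 0 ≤ 1 / p.κ * (kk p ^ 5 * cb p (169 / 200)) := by positivity
    rw [I_split]
    linarith [k6 c0.le]

theorem iu (H : Reg β c0 C0 A c η K p) (hη : η ≤ c) (e : En C p P) (x : Ad p P m a E)
    {G g G' : ℕ → ℝ} (Z : GZ p P m a (Tlo p P) G g) (Y : GA p P m a G')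
    (W : ∑ k ∈ Tlo p P, (Me p P).dz m a k * (max (t1 p) ((Me p P).z k) ^ 2 *
      (Me p P).E2 m a (fun R => (R - (Me p P).q k) ^ 2) k) ≤
      kk p ^ 5 * (p.s ^ 4 * (p.n : ℝ) ^ (-(13 : ℝ) / 20))) :
    Mv30.IU (D p P m a E) ≤ kk p ^ 8 * (p.s ^ 4 * (p.n : ℝ) ^ (-(13 : ℝ) / 20)) ∧
    Ex23.R0 (D p P m a E) ≤ kk p ^ 8 * (p.s ^ 4 * (p.n : ℝ) ^ (-(13 : ℝ) / 20)) := by
  have d0 : ∀ k, 0 ≤ (Me p P).dz m a k := (e.lg H x.inn).dz_nonneg
  have k0 := kk0 H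
  have κ0 := H.κ0
  have s0 := H.s0
  have N0 := H.N0
  have cp := H.c_pos
  have cl := H.c_le
  have ls := H.lg_s
  have ln := H.lg_n
  have t0 := t10 H
  have l4 := H.lg_num (x := 100) (by norm_num) (by norm_num)
  have l9 := H.lg_num (x := 9) (by norm_num) (by norm_num)
  have k1 : 100 * (1 / p.κ) ^ 2 ≤ kk p ^ 3 := H.le_of_lg (by positivity) (by positivity) (by
    lg_norm; linarith [lg_kk H, H.lg_κ])
  have k2 : 1 ≤ (1 / p.κ) ^ 2 := one_le_pow₀ (one_le_one_div κ0 H.κ1)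
  have k5 : 1 ≤ kk p ^ 5 := one_le_pow₀ (H.le_of_lg one_pos k0 (by
    rw [logb_one, lg_kk H]; linarith))
  have t1' : t1 p ≤ 1 := H.le_of_lg t0 one_pos (by rw [lg_t1 H, logb_one]; linarith)
  have c1 : p.s ^ 5 * (p.n : ℝ) ^ (-(17 : ℝ) / 20) ≤ p.s ^ 4 * (p.n : ℝ) ^ (-(13 : ℝ) / 20) :=
    H.le_of_lg (by positivity) (by positivity) (by lg_norm; rw [ln]; linarith)
  have c2 : E.X ^ 6 ≤ p.s ^ 4 * (p.n : ℝ) ^ (-(13 : ℝ) / 20) := by
    rw [x.env.X]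
    exact H.le_of_lg (by positivity) (by positivity) (by
      lg_norm; rw [ln]; linarith [lg_t1 H, H.lg_κ])
  have c3 : 1 / (m : ℝ) ≤ p.s ^ 4 * (p.n : ℝ) ^ (-(13 : ℝ) / 20) :=
    (one_div_le_one_div_of_le N0 (by exact_mod_cast x.inn.m1)).trans
      (H.le_of_lg (by positivity) (by positivity) (by lg_norm; rw [ln]; linarith))
  have c4 : ((((Me p P).N + 1 : ℕ) : ℝ) + 1) ^ 2 * E.tl ≤
      p.s ^ 4 * (p.n : ℝ) ^ (-(13 : ℝ) / 20) := by
    have a1 : ((Me p P).N : ℝ) ≤ (p.n : ℝ) ^ (p.A + 1) := e.cl.card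
    have a2 : 1 ≤ (p.n : ℝ) ^ (p.A + 1) := one_le_pow₀ H.N1.le
    rw [x.env.tl]
    calc _ ≤ (3 * (p.n : ℝ) ^ (p.A + 1)) ^ 2 * (p.n : ℝ) ^ (-(2 * (p.A : ℝ) + 5)) := by
          gcongr; push_cast; linarith
      _ = 9 * (((p.n : ℝ) ^ (p.A + 1)) ^ 2 * (p.n : ℝ) ^ (-(2 * (p.A : ℝ) + 5))) := by ring
      _ ≤ _ := H.le_of_lg (by positivity) (by positivity) (by
          lg_norm; push_cast; rw [ln]; linarith [H.η_le])
  have n4 := Z.n4.trans (mul_le_mul_of_nonneg_left c1 (pow_pos k0 5).le)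
  have s2 := Y.s2
  have y0 : 0 < p.s ^ 4 * (p.n : ℝ) ^ (-(13 : ℝ) / 20) := by positivity
  generalize p.s ^ 4 * (p.n : ℝ) ^ (-(13 : ℝ) / 20) = y at *
  have y1 := le_mul_of_one_le_left y0.le k5
  have y2 := mul_le_mul_of_nonneg_right k1 (y0.le.trans y1)
  have y3 := mul_le_mul_of_nonneg_right k2 (y0.le.trans y1)
  have y4 : kk p ^ 3 * (kk p ^ 5 * y) = kk p ^ 8 * y := by ring
  have u2 : ∀ k ∈ Thi p P, (Me p P).E2 m a (fun R => |R - (Me p P).q k| ^ 2) k ≤ 8 * G' k ^ 2 :=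
    fun k hk => (mom_pair (q := (Me p P).q k) (i := 2) (Y.pos k hk) (by norm_num)
      (Y.mom k hk)).trans_eq (by rw [sub_self, abs_zero, add_zero]; norm_num)
  have hi : ∀ (f : ℕ → ℝ) (c : ℝ), 0 ≤ c → (∀ k ∈ Thi p P, f k ≤ c * G' k ^ 2) →
      ∑ k ∈ Thi p P, (Me p P).dz m a k * f k ≤ c * (kk p ^ 5 * y) := fun f c c0 hf => by
    refine le_trans ?_ (mul_le_mul_of_nonneg_left s2 c0)
    rw [mul_sum]
    exact sum_le_sum fun k hk =>
      (mul_le_mul_of_nonneg_left (hf k hk) (d0 k)).trans_eq (mul_left_comm _ _ _)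
  have h4 : ∀ k ∈ Thi p P, (D p P m a E).u 4 (k + 1) ≤ 32 * G' k ^ 2 := fun k hk => by
    rw [cd_u m a _ _ E 4 (mem_hi hk).1 (mem_hi hk).2]
    linarith [u_succ (p := p) (P := P) (m := m) (a := a) 3 k,
      u_succ (p := p) (P := P) (m := m) (a := a) 2 k, u2 k hk]
  have h5 : ∀ k, jc p ≤ k ∧ k < (Me p P).N →
      (D p P m a E).u 5 (k + 1) ≤ 2 * (D p P m a E).u 4 (k + 1) := fun k hk => by
    rw [cd_u m a _ _ E 4 hk.1 hk.2, cd_u m a _ _ E 5 hk.1 hk.2]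
    exact u_succ 4 k
  have a1 : ∑ k ∈ Tlo p P, (Me p P).dz m a k * (D p P m a E).u 4 (k + 1) ≤ _ :=
    (sum_congr rfl fun k hk => by
      rw [cd_u m a _ _ E 4 (mem_lo hk).1 (mem_lo hk).2]).trans_le n4
  have a2 := hi _ 32 (by norm_num) h4
  constructor
  · have a3 : ∑ k ∈ Tlo p P, (Me p P).dz m a k *
        ((D p P m a E).e (k + 1) ^ 2 * (D p P m a E).u 2 (k + 1)) ≤
        (1 / p.κ) ^ 2 * (kk p ^ 5 * y) := by
      refine le_trans (le_of_eq ?_) (mul_le_mul_of_nonneg_left W (by positivity))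
      rw [mul_sum]
      refine sum_congr rfl fun k hk => ?_
      rw [cd_e, x.env.e, cd_u m a _ _ E 2 (mem_lo hk).1 (mem_lo hk).2]
      simp only [sq_abs]
      ring
    have a4 := hi (fun k => (D p P m a E).e (k + 1) ^ 2 * (D p P m a E).u 2 (k + 1))
      ((1 / p.κ) ^ 2 * 8) (by positivity) fun k hk => by
        have : max (t1 p) ((Me p P).z k) ≤ 1 := max_le t1' ((e.lg H x.inn).z1 k)
        have : 0 ≤ max (t1 p) ((Me p P).z k) := le_max_of_le_left t0.le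
        rw [cd_e, x.env.e, cd_u m a _ _ E 2 (mem_hi hk).1 (mem_hi hk).2, mul_assoc]
        exact mul_le_mul (by gcongr) (u2 k hk) (E2_nonneg (fun _ _ => by positivity) k)
          (by positivity)
    rw [Mv30.IU, I_split, I_split]
    linarith
  · have a3 : ∑ k ∈ Tlo p P, (Me p P).dz m a k * (D p P m a E).u 5 (k + 1) ≤
        2 * ∑ k ∈ Tlo p P, (Me p P).dz m a k * (D p P m a E).u 4 (k + 1) := by
      rw [mul_sum]
      exact sum_le_sum fun k hk =>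
        (mul_le_mul_of_nonneg_left (h5 k (mem_lo hk)) (d0 k)).trans_eq (mul_left_comm _ _ _)
    have a4 := hi (fun k => (D p P m a E).u 5 (k + 1)) 64 (by norm_num) fun k hk => by
      linarith [h5 k (mem_hi hk), h4 k hk]
    rw [Ex23.R0, I_split, cd_K, cd_X, cd_n, cd_tl]
    linarith

end M21

/-- the two inputs of the second pass -/
def IuS (β : ℝ) : Prop := EvA β fun p P m a E =>
  Mv30.IU (D p P m a E) ≤ kk p ^ 8 * (p.s ^ 4 * (p.n : ℝ) ^ (-(13 : ℝ) / 20)) ∧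
  Ex23.R0 (D p P m a E) ≤ kk p ^ 8 * (p.s ^ 4 * (p.n : ℝ) ^ (-(13 : ℝ) / 20))

theorem mnS_iu {β : ℝ} (hβ : 1 < β) (l : GlS β) (g : GhA β) (b : GhB β) (u : IuS β) : MnS β := by
  unfold MnS EvA
  unfold GhB EvA at b
  unfold IuS EvA at u
  refine Sml.glueC hβ (enS hβ) (l.and (g.and (b.and u))) fun C _ c0 C0 _ _ =>
    ⟨0, fun A _ => ⟨1, one_pos, fun c _ hc => ⟨c, hc, fun η hη _ =>
      ⟨0, fun p H G R P m a E x => ?_⟩⟩⟩⟩
  obtain ⟨l, g, b, u⟩ := R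
  obtain ⟨_, _, Z⟩ := l P m a x.sp x.inn
  obtain ⟨_, Y⟩ := g P m a x.sp x.inn
  exact M21.mn H hη (G H.r_le_ye P x.sp) x Z Y
    (b P m a E x (u P m a E x).1 (u P m a E x).2)

theorem iuS_21 {β : ℝ} (hβ : 1 < β) (l : GlS β) (w : GlE β) (g : GhA β) : IuS β := by
  unfold IuS EvA
  refine Sml.glueC hβ (enS hβ) (l.and (g.and w)) fun C _ c0 C0 _ _ =>
    ⟨0, fun A _ => ⟨1, one_pos, fun c _ hc => ⟨c, hc, fun η hη _ =>
      ⟨0, fun p H G R P m a E x => ?_⟩⟩⟩⟩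
  obtain ⟨l, g, w⟩ := R
  obtain ⟨_, _, Z⟩ := l P m a x.sp x.inn
  obtain ⟨_, Y⟩ := g P m a x.sp x.inn
  exact M21.iu H hη (G H.r_le_ye P x.sp) x Z Y (w P m a x.sp x.inn)

/-- **the moment numbers** -/
theorem mnS_21 {β : ℝ} (hβ : 1 < β) (l : GlS β) (w : GlE β) (g : GhA β) (b : GhB β) : MnS β :=
  mnS_iu hβ l g b (iuS_21 hβ l w g)

end Crest.Agent.T156.Alt.R2

end
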