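import Crest.Agent.T156.R2K_30
import Crest.Agent.T156.MvC_30

/-!
# Row 156, R2 (helper55): (MV) on the reveal nodes of the END model, numbers
-/

set_option autoImplicit false
set_option linter.all false

noncomputable section

namespace Crest.Agent.T156.Alt.R2.Mv55

open Real Finset Filter
open Crest.Agent.T157.E Crest.Agent.T157.Casc Crest.Agent.T157.SL
open Crest.Agent.T156.Cas Crest.Agent.T156.Cas.C40 Md67 CIn12

variable {β c0 C0 c η K C : ℝ} {A : ℕ} {p : Pm} {P : Pl} {m : ℕ} {a : ℝ} {E : CIn12.Ev}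

/-- the statement of `mv_cl` for the constant `Cm` -/
def MC (τ0 C : ℝ) : Prop := ∀ (S : Sc) (M : Md) (m : ℕ) (a : ℝ) (J : ℕ) (E : CIn12.Ev) (K : ℕ)
    (θ : ℝ), Cl S M → 0 < S.n → S.In m a → (cd M m a M.q J none E).Ok τ0 → J ≤ S.J →
    (∀ k, S.Jp ≤ k → k < M.N → S.v / S.C ≤ M.s (k + 1) - M.s k) → S.C * S.v * m ≤ 1 →
    S.C * S.A * log S.n ≤ 2 ^ K * (S.ms (M.s S.Jp) * S.v / S.C ^ 2) → 0 < θ →
    θ ≤ 1 - tp M m S.Jp * Hess65.Gn (cd M m a M.q J none E).S (S.Jp + 1) →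
    E.X ^ 3 ≤ θ ^ 2 / C → M.s S.Jp - M.s S.J ≤ θ ^ 2 / C →
    R85.Rv (cd M m a M.q J none E) (S.Jp + 1) ((cd M m a M.q J none E).u 2) ≤
      8 * S.C * (S.v + (1 - M.q (M.N - 1))) +
        C * ((S.C + S.C * S.A * log S.n) * Mv30.mvA (cd M m a M.q J none E) θ (1 / S.C) +
          4 * (K + 2) ^ 2 * S.C ^ 4 / (S.ms (M.s S.Jp) * m * θ ^ 11))

theorem mc (τ0 : ℝ) : ∃ C, 1 ≤ C ∧ MC τ0 C := by
  obtain ⟨C, C1, H⟩ := Mv30.mv_cl τ0
  exact ⟨C, C1, fun S M m a J E K θ a1 a2 a3 a4 a5 a6 a7 a8 a9 a10 a11 a12 =>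
    (H S M m a J E K θ a1 a2 a3 a4 a5 a6 a7 a8 a9 a10 a11 a12).2⟩

section reg
variable (H : Reg β c0 C0 A c η K p)
include H

theorem lgΛ : logb p.n ((p.n : ℝ) ^ η) = η := H.lg_rp η

theorem exK : ∃ k : ℕ, (p.n : ℝ) ^ (A + 2) ≤ 2 ^ k ∧ (k : ℝ) + 2 ≤ ((p.n : ℝ) ^ η) ^ 3 := by
  refine ⟨(Nat.log 2 p.n + 1) * (A + 2), ?_, ?_⟩
  · rw [pow_mul]
    refine pow_le_pow_left₀ H.N0.le ?_ _
    exact_mod_cast (Nat.lt_pow_succ_log_self one_lt_two p.n).le
  · have h : ((2 : ℝ)) ^ Nat.log 2 p.n ≤ p.n := by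
      exact_mod_cast Nat.pow_log_le_self 2 H.n0.ne'
    have h2 := log_le_log (by positivity) h
    rw [log_pow] at h2
    have h3 : (Nat.log 2 p.n : ℝ) ≤ 2 * (p.n : ℝ) ^ η := by
      nlinarith [log_two_gt_d9, (Nat.cast_nonneg (Nat.log 2 p.n) : (0 : ℝ) ≤ _), H.log_le]
    have h4 := H.A_le
    have h5 := H.num_le
    generalize (p.n : ℝ) ^ η = L at *
    have h6 : ((Nat.log 2 p.n : ℝ) + 1) * ((A : ℝ) + 2) ≤ (3 * L) * (2 * L) :=
      mul_le_mul (by linarith) (by linarith) (by positivity) (by linarith)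
    have h7 : 1000 * (L * L) ≤ L * (L * L) := mul_le_mul_of_nonneg_right h5 (by positivity)
    push_cast
    nlinarith

theorem ye_le : p.ye ≤ p.J * p.v := by
  refine le_trans (H.le_of_lg H.ye0 H.c00 ?_) H.ok.base.lo
  have a0 := H.c00
  have b := H.lg_le (by positivity) H.c0_le
  rw [one_div, logb_inv] at b
  linarith [H.lg_ye, H.η_le, H.c_pos]

theorem ms_hi (e : En C p P) {k : ℕ} (hk : p.J ≤ k) :
    (Se p C P).ms ((Me p P).s k) = p.κ ^ 7 := by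
  have : p.ye ≤ (Me p P).s k := (ye_le H).trans (e.sJ.ge.trans (e.cl.sm hk))
  refine (H.ms_top H.mem_end this).trans ?_
  rw [Pm.μ, Pm.ye]; ring

theorem kk_inv : (kk p)⁻¹ = p.κ ^ 20 := inv_inv _

/-- `I (e² u 2)` -/
theorem Ie_le (h : Ad p P m a E) {L ρ ε B Lg : ℝ}
    (z : R85.Pz (D p P m a E) (p.J + 1) L (kk p)⁻¹ ρ ε B Lg)
    (h2 : R85.muU (D p P m a E) (τ p P m) ≤ gn p 250 * un p) :
    (D p P m a E).I (fun t => (D p P m a E).e t ^ 2 * (D p P m a E).u 2 t) ≤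
      kk p * (gn p 250 * un p) := by
  refine (z.Ie2 h.ok).trans ?_
  rw [τ_D, one_div, inv_inv]
  exact mul_le_mul_of_nonneg_left h2 (kk0 H).le

theorem kk1 : 1 ≤ kk p := H.le_of_lg one_pos (kk0 H) (by
  rw [logb_one, lg_kk H]; linarith [H.c_pos])

theorem gn_le {i j : ℝ} (hi : 0 < i) (h : i ≤ j) : gn p i ≤ gn p j :=
  H.le_of_lg (gn0 H _) (gn0 H _) (by
    rw [lg_gn H, lg_gn H, neg_div, neg_div]
    exact neg_le_neg (one_div_le_one_div_of_le hi h))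

/-- the mean value constant -/
theorem mvA_le (h : Ad p P m a E) (C1 : 1 ≤ C) {L ρ ε B Lg : ℝ}
    (z : R85.Pz (D p P m a E) (p.J + 1) L (kk p)⁻¹ ρ ε B Lg)
    (h1 : (D p P m a E).Err ≤ gn p 200 * un p)
    (h2 : R85.muU (D p P m a E) (τ p P m) ≤ gn p 250 * un p) :
    Mv30.mvA (D p P m a E) (kk p)⁻¹ (1 / C) ≤ 3 * C * (kk p ^ 11 * (gn p 250 * un p)) := by
  have a1 := Ie_le H h z h2
  have a2 : (D p P m a E).I ((D p P m a E).u 4) ≤ (D p P m a E).Err :=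
    h.ok.Iu4_le.trans (h.ok.E0_le rfl)
  have a3 : Ex23.R0 (D p P m a E) ≤ (D p P m a E).Err := (Ex23.ek _ _ h.ok).1 rfl
  have a4 := h1.trans (mul_le_mul_of_nonneg_right (gn_le H (by norm_num)
    (show (200 : ℝ) ≤ 250 by norm_num)) (un0 H).le)
  have k1 := kk1 H
  have g0 := mul_pos (gn0 H 250) (un0 H)
  rw [Mv30.mvA, Mv30.IU]
  generalize gn p 250 * un p = g at *
  generalize kk p = k at *
  have e1 : ∀ x : ℝ, x / k⁻¹ ^ 2 = k ^ 2 * x := fun x => by field_simp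
  have e2 : ∀ x : ℝ, x / (1 / C * k⁻¹ ^ 11) = C * (k ^ 11 * x) := fun x => by field_simp
  rw [e1, e2]
  have p3 : k ^ 2 * (k * g) ≤ k ^ 11 * g := by
    rw [← mul_assoc, ← pow_succ]
    exact mul_le_mul_of_nonneg_right (pow_le_pow_right₀ k1 (by norm_num)) g0.le
  have p2 : k ^ 2 * g ≤ k ^ 11 * g :=
    mul_le_mul_of_nonneg_right (pow_le_pow_right₀ k1 (by norm_num)) g0.le
  have q0 : 0 ≤ k ^ 11 * g := by positivity
  have b1 := mul_le_mul_of_nonneg_left (add_le_add a1 (a2.trans a4)) (show 0 ≤ k ^ 2 by positivity)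
  have b2 := mul_le_mul_of_nonneg_left (mul_le_mul_of_nonneg_left (a3.trans a4)
    (show 0 ≤ k ^ 11 by positivity)) (zero_le_one.trans C1)
  have b3 := mul_le_mul_of_nonneg_right C1 q0
  nlinarith

/-- **the reveal part** -/
theorem rv_top {Cm : ℝ} (hm : MC (β ^ 2) Cm) (Cm1 : 1 ≤ Cm) (hCm : Cm ≤ (p.n : ℝ) ^ η)
    (e : En C p P) (hC : C ≤ (p.n : ℝ) ^ η) (hA : 8 ≤ A) (hc : c ≤ 1 / 10 ^ 6)
    (h : Ad p P m a E) {L ρ ε B Lg : ℝ}
    (z : R85.Pz (D p P m a E) (p.J + 1) L (kk p)⁻¹ ρ ε B Lg)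
    (zm : (kk p)⁻¹ ≤ R85.mu (D p P m a E) (τ p P m) (p.Jp P + 1))
    (h1 : (D p P m a E).Err ≤ gn p 200 * un p)
    (h2 : R85.muU (D p P m a E) (τ p P m) ≤ gn p 250 * un p) :
    R85.Rv (D p P m a E) (p.Jp P + 1) ((D p P m a E).u 2) ≤ gn p 270 * un p := by
  obtain ⟨k, k1, k2⟩ := exK H
  have C1 : 1 ≤ C := e.cl.C1
  have C0 : 0 < C := by linarith
  have Cm0 : 0 < Cm := by linarith
  have v0 := H.v0
  have κ0 := H.κ0
  have N0 := H.N0
  have t0 := t10 H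
  have u0 := un0 H
  have K0 := kk0 H
  have g1 := gn0 H 250
  have g2 := gn0 H 270
  have L0 := H.Λ0
  have l0 : 0 < log (p.n : ℝ) := by linarith [H.log1]
  have A8 : (8 : ℝ) ≤ A := by exact_mod_cast hA
  have A0 : (0 : ℝ) < A := by linarith
  have m0 : (0 : ℝ) < m := by exact_mod_cast h.inn.m0 H
  obtain ⟨lC1, lC2⟩ := H.lg_cst C1 hC
  obtain ⟨lCm1, lCm2⟩ := H.lg_cst Cm1 hCm
  obtain ⟨lA1, lA2⟩ := H.lg_cst (show (1 : ℝ) ≤ A by linarith) H.A_le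
  obtain ⟨lm1, lm2⟩ := H.lg_m h.inn.m1 h.inn.m2
  obtain ⟨ll1, ll2⟩ := H.lg_log
  have lv := H.lg_v
  obtain ⟨lb1, lb2⟩ := H.lg_β
  obtain ⟨ls1, ls2⟩ := H.lg_s
  have lk := H.lg_κ
  have lt := lg_t1 H
  have lu := lg_un H
  have lkk := lg_kk H
  have lg1 := lg_gn H 250
  have lg2 := lg_gn H 270
  have ln := H.lg_n
  have hη := H.η_le
  have η0 := H.η_pos
  have lL := lgΛ H
  have ms := ms_hi H e (show p.J ≤ p.Jp P from e.cl.i3)
  have γ0 : 0 < P.γ := h.sp.g' ▸ H.rp0 _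
  have lγ : logb p.n P.γ = -(7 / 20) := by rw [h.sp.g', H.lg_rp]
  have R := hm (Se p C P) (Me p P) m a (jc p) E k (kk p)⁻¹ e.cl H.n0 h.inn.sc (H.hβ ▸ h.ok)
    (Nat.lt_succ_iff.1 z.JP) (fun j a _ => (div_le_self v0.le C1).trans (e.hi j a).ge)
    (show C * p.v * m ≤ 1 from H.le_of_lg (by positivity) one_pos (by lg_norm; linarith))
    (by
      rw [show (Se p C P).Jp = p.Jp P from rfl, ms]
      refine le_trans ?_ (mul_le_mul_of_nonneg_right k1 (by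
        show 0 ≤ p.κ ^ 7 * p.v / C ^ 2; positivity))
      show C * p.A * log p.n ≤ (p.n : ℝ) ^ (A + 2) * (p.κ ^ 7 * p.v / C ^ 2)
      rw [H.hA]
      refine H.le_of_lg (by positivity) (by positivity) ?_
      lg_norm
      push_cast
      rw [ln]
      linarith)
    (inv_pos.2 K0) (zm.trans_eq (by rw [R85.mu, ← tp_eq (p.Jp P)]; rfl))
    (by
      rw [h.env.X]
      refine H.le_of_lg (by positivity) (by positivity) ?_
      lg_norm
      linarith)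
    (e.gam.trans (H.le_of_lg γ0 (by positivity) (by lg_norm; linarith)))
  rw [show (Se p C P).Jp = p.Jp P from rfl, ms] at R
  have mv := mvA_le H h C1 z h1 h2
  have qt := e.q_top H hA
  refine R.trans ?_
  show 8 * C * (p.v + (1 - (Me p P).q ((Me p P).N - 1))) + Cm * ((C + C * p.A * log p.n) *
    Mv30.mvA (D p P m a E) (kk p)⁻¹ (1 / C) + 4 * (k + 2) ^ 2 * C ^ 4 /
      (p.κ ^ 7 * m * (kk p)⁻¹ ^ 11)) ≤ _
  rw [H.hA]
  have n8 := H.lg_num (x := 40) (by norm_num) (by norm_num)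
  have b1 : 40 * (C * p.v) ≤ gn p 270 * un p :=
    H.le_of_lg (by positivity) (by positivity) (by lg_norm; linarith)
  have b2 : 40 * (C * (1 / (p.n : ℝ) ^ 2)) ≤ gn p 270 * un p :=
    H.le_of_lg (by positivity) (by positivity) (by lg_norm; linarith)
  have b3 : 40 * (Cm * (C * A * log p.n * (C * (kk p ^ 11 * (gn p 250 * un p))))) ≤
      gn p 270 * un p := H.le_of_lg (by positivity) (by positivity) (by lg_norm; linarith)
  have b4 : 40 * (Cm * ((((p.n : ℝ) ^ η) ^ 3) ^ 2 * C ^ 4 / (p.κ ^ 7 * m * (kk p)⁻¹ ^ 11))) ≤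
      gn p 270 * un p := H.le_of_lg (by positivity) (by positivity) (by
        generalize (p.n : ℝ) ^ η = Λ at *
        lg_norm; linarith)
  have c1 : C ≤ C * A * log p.n := by
    rw [mul_assoc]
    exact le_mul_of_one_le_right C0.le (one_le_mul_of_one_le_of_one_le (by linarith) H.log1)
  have c2 : (C + C * A * log p.n) * Mv30.mvA (D p P m a E) (kk p)⁻¹ (1 / C) ≤
      (2 * (C * A * log p.n)) * (3 * C * (kk p ^ 11 * (gn p 250 * un p))) :=
    (mul_le_mul_of_nonneg_left mv (by positivity)).trans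
      (mul_le_mul_of_nonneg_right (by linarith) (by positivity))
  have c3 : 4 * ((k : ℝ) + 2) ^ 2 * C ^ 4 / (p.κ ^ 7 * m * (kk p)⁻¹ ^ 11) ≤
      4 * ((((p.n : ℝ) ^ η) ^ 3) ^ 2 * C ^ 4 / (p.κ ^ 7 * m * (kk p)⁻¹ ^ 11)) := by
    rw [mul_assoc, mul_div_assoc]
    gcongr
  have c4 := mul_le_mul_of_nonneg_left (add_le_add c2 c3) Cm0.le
  have c5 := mul_le_mul_of_nonneg_left qt C0.le
  have c6 := mul_pos g2 u0
  linarith

/-- the closing numbers -/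
theorem fin_num (hc : c ≤ 1 / 10 ^ 6) : kk p * (gn p 270 * un p + kk p * (gn p 250 * un p) + ηH p) ≤
    gn p 300 * un p := by
  have u0 := un0 H
  have K0 := kk0 H
  have g1 := gn0 H 250
  have g2 := gn0 H 270
  have g3 := gn0 H 300
  have h0 := ηH0 H
  obtain ⟨ls1, ls2⟩ := H.lg_s
  obtain ⟨n1, n2⟩ := H.lg_num (x := 3) (by norm_num) (by norm_num)
  have lu := lg_un H
  have lkk := lg_kk H
  have lg1 := lg_gn H 250
  have lg2 := lg_gn H 270
  have lg3 := lg_gn H 300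
  have lh := lg_ηH H
  have hη := H.η_le
  have η0 := H.η_pos
  have b1 : 3 * (kk p * (gn p 270 * un p)) ≤ gn p 300 * un p :=
    H.le_of_lg (by positivity) (by positivity) (by lg_norm; linarith)
  have b2 : 3 * (kk p * (kk p * (gn p 250 * un p))) ≤ gn p 300 * un p :=
    H.le_of_lg (by positivity) (by positivity) (by lg_norm; linarith)
  have b3 : 3 * (kk p * ηH p) ≤ gn p 300 * un p :=
    H.le_of_lg (by positivity) (by positivity) (by lg_norm; linarith)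
  linarith

end reg

/-- **the plateau part** (sandwich): the only input besides `PzS` -/
def RvE (β : ℝ) : Prop := EvA β fun p P m a E =>
  R85.Rv (D p P m a E) (p.J + 1) ((D p P m a E).u 2) ≤ kk p *
    (R85.Rv (D p P m a E) (p.Jp P + 1) ((D p P m a E).u 2) +
      (D p P m a E).I (fun t => (D p P m a E).e t ^ 2 * (D p P m a E).u 2 t) + ηH p)

/-- the reveal part alone -/
theorem rvT (hβ : 1 < β) (hP : PzS β) : EvA β fun p P m a E =>
    (D p P m a E).Err ≤ gn p 200 * un p → R85.muU (D p P m a E) (τ p P m) ≤ gn p 250 * un p →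
    R85.Rv (D p P m a E) (p.Jp P + 1) ((D p P m a E).u 2) ≤ gn p 270 * un p ∧
    (D p P m a E).I (fun t => (D p P m a E).e t ^ 2 * (D p P m a E).u 2 t) ≤
      kk p * (gn p 250 * un p) := by
  obtain ⟨Cm, Cm1, hm⟩ := mc (β ^ 2)
  unfold PzS EvA at hP
  refine Sml.glueC hβ (enS hβ) hP fun C _ c0 C0 _ _ => ⟨8, fun A hA => ⟨1 / 10 ^ 6, by norm_num,
    fun c hc _ => ⟨1, one_pos, fun η _ _ => ⟨max C Cm, fun p H e z P m a E h h1 h2 => ?_⟩⟩⟩⟩
  obtain ⟨z1, z2⟩ := z P m a E h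
  exact ⟨rv_top H hm Cm1 ((le_max_right _ _).trans H.K_le) (e H.r_le_ye P h.sp)
    ((le_max_left _ _).trans H.K_le) hA hc h z1 z2 h1 h2, Ie_le H h z1 h2⟩

end Mv55

open Mv55 in
/-- **(MV)** -/
theorem mvS_of {β : ℝ} (hβ : 1 < β) (hP : PzS β) (hR : RvE β) : MvS β := by
  have hT := rvT hβ hP
  unfold RvE at hR
  unfold EvA at hT hR
  unfold MvS EvA
  refine Sml.glue' hβ (Sml.and hT hR) 0 (c1 := 1 / 10 ^ 6) (by norm_num) 0
    fun c0 C0 A c η _ _ _ _ => ⟨1, fun p H _ hc _ z P m a E h h1 h2 => ?_⟩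
  obtain ⟨a1, a2⟩ := z.1 P m a E h h1 h2
  refine (z.2 P m a E h).trans (le_trans ?_ (fin_num H hc))
  exact mul_le_mul_of_nonneg_left (by linarith) (kk0 H).le

end Crest.Agent.T156.Alt.R2

end
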