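import Crest.Agent.T156.R2GD_78
import Crest.Agent.T156.R2Pz_68
import Crest.Agent.T156.R2Mv_55
import Crest.Agent.T156.Swm_78

/-!
# Row 156, R2 (helper68): the top labels, leaf `TopL` of `R2GD_78`
-/

set_option autoImplicit false
set_option linter.unusedSectionVars false

noncomputable section

namespace Crest.Agent.T156.Cas.TL68

open Real Set
open Crest.Agent.T157.E Crest.Agent.T157.Casc Crest.Agent.T157.SL
open Crest.Agent.T157.G1 (ov fl FL)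
open Crest.Agent.T156.Cas.Q33 Crest.Agent.T156.Cas.Sy41 Crest.Agent.T156.Alt
open Crest.Agent.T156.Alt.Md67 Crest.Agent.T156.Alt.Cost41 Apt7 Mv30

variable {M : Md} {m : ℕ} {a : ℝ}

/-- **legs**: tilt at least `x` from `j0` on, field steps in `[σ, 1 / m]` -/
theorem legsX (G : Lg M m a) {j0 K : ℕ} {σ cm x : ℝ} {c : ℕ → ℝ} (σ0 : 0 < σ) (h : j0 < M.N)
    (x0 : 0 < x) (top : x ≤ M.z j0) (lo : ∀ i, j0 ≤ i → i < M.N → σ ≤ M.H (i + 1) - M.H i)
    (hi : ∀ i, j0 ≤ i → i < M.N → (M.H (i + 1) - M.H i) * m ≤ 1)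
    (hK : M.H M.N - M.H j0 ≤ 2 ^ K * (x * σ)) (cm0 : 0 ≤ cm)
    (hc : ∀ k ∈ Finset.Ioo j0 M.N, 0 ≤ c k ∧ c k ≤ cm) :
    ∑ k ∈ Finset.Ioo j0 M.N, c k * pM M m a k ≤ 4 * (K + 2) ^ 2 * (cm / (σ * m) / x ^ 2) := by
  have m0 : (0 : ℝ) < m := Nat.cast_pos.2 G.m0
  have z1 : ∀ i, j0 ≤ i → x ≤ M.z i := fun i hi => top.trans (G.zm hi)
  have x1 : x ≤ 1 := top.trans (G.z1 _)
  have eov : (sl m).cov = ov := funext fun x => funext (sl_cov G.m0 x)
  have sm : σ * m ≤ 1 := (mul_le_mul_of_nonneg_right (lo j0 le_rfl h) m0.le).trans (hi j0 le_rfl h)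
  set κ := cm / (σ * m) with hκ
  have κ0 : 0 ≤ κ := by positivity
  have eκ : cm = κ * (σ * m) := by rw [hκ]; field_simp
  have cκ : cm ≤ κ / x := (eκ.trans_le (mul_le_of_le_one_right κ0 sm)).trans
    (le_div_self κ0 x0 x1)
  have lo' : ∀ i, j0 ≤ i → i < M.N → x * σ ≤ M.z i * (M.H (i + 1) - M.H i) := fun i a b =>
    mul_le_mul (z1 i a) (lo i a b) σ0.le (G.z_nonneg i)
  have h1 := G.dt.tc_win 0 (lo := j0 + 2) (hi := M.N + 1) (by omega) len_L.ge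
    (c := fun j => c (j - 1)) (κ := κ) (t := 1) (x := x) κ0 (fun j hj => ?_) (fun j hj => ?_)
    x0 fun j hj => ?_
  rotate_left
  · obtain ⟨k, rfl⟩ : ∃ k, j = k + 1 := ⟨j - 1, by have := Finset.mem_Ico.1 hj; omega⟩
    have := Finset.mem_Ico.1 hj
    rw [dh_succ (by omega), Nat.add_sub_cancel]
    refine ((hc k (Finset.mem_Ioo.2 ⟨by omega, by omega⟩)).2.trans_eq eκ).trans ?_
    exact mul_le_mul_of_nonneg_left (mul_le_mul_of_nonneg_right (lo k (by omega) (by omega)) m0.le) κ0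
  · obtain ⟨k, rfl⟩ : ∃ k, j = k + 1 := ⟨j - 1, by have := Finset.mem_Ico.1 hj; omega⟩
    have := Finset.mem_Ico.1 hj
    rw [dh_succ (by omega), mul_one]
    exact hi k (by omega) (by omega)
  · obtain ⟨k, rfl⟩ : ∃ k, j = k + 1 := ⟨j - 1, by have := Finset.mem_Ico.1 hj; omega⟩
    have := Finset.mem_Ico.1 hj
    rw [ex_succ G.toLeg]
    exact z1 k (by omega)
  have r1 : rho (fun _ => 1) (M.L m a) (sl m) 0 (M.N + 1) ≤ 1 := by
    rw [← rb_eq (sl_cov G.m0)]; exact rb_le_one G.m0 _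
  have r0 := rho_nonneg (w := fun _ => 1) (sl m) 0 (M.L m a) (j0 + 2)
  have e1 : ∑ j ∈ Finset.Ico (j0 + 2) (M.N + 1), c (j - 1) * tc (fun _ => 1) (M.L m a) (sl m) 0 j =
      ∑ k ∈ Finset.Ioo j0 M.N, c k * tc (fun _ => 1) (M.L m a) (sl m) 0 (k + 1) := by
    rw [← Finset.sum_Ico_add' _ (j0 + 1) M.N 1]; rfl
  have h2 := cost G (c := fun k => if k < M.N then c k else 0) (W := fun _ => κ / x * m) (cm := cm)
    (K := K) (mul_pos x0 σ0) h.le le_rfl lo' (by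
      rw [Phi_sub M h.le]
      refine le_trans ?_ hK
      rw [← Finset.sum_Ico_sub M.H h.le]
      exact Finset.sum_le_sum fun j _ =>
        mul_le_of_le_one_left (sub_nonneg.2 (G.Hm j.le_succ)) (G.z1 j)) (fun k a _ => by
      split_ifs with e; exacts [(hc k (Finset.mem_Ioo.2 ⟨a, e⟩)).1, le_rfl]) cm0 (fun k a _ => by
      split_ifs with e; exacts [(hc k (Finset.mem_Ioo.2 ⟨a, e⟩)).2, cm0]) (fun _ _ _ => by positivity)
    fun j k a b d => by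
      rw [Phi_sub M b.le, Finset.mul_sum,
        ← Finset.Ico_add_one_add_one_eq_Ioc, ← Finset.sum_Ico_add' _ j k 1]
      refine Finset.sum_le_sum fun i hi => ?_
      have := Finset.mem_Ico.1 hi
      have h3 := mul_le_mul_of_nonneg_left (lo' i (by omega) (by omega))
        (show 0 ≤ κ / x * m by positivity)
      refine le_trans ?_ h3
      rw [show κ / x * m * (x * σ) = cm by rw [eκ]; field_simp]
      split_ifs with e; exacts [(hc _ (Finset.mem_Ioo.2 ⟨by omega, e⟩)).2, cm0]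
  have h3 := RW_const (ρ := M.rb m a) (W := fun _ => κ / x * m) (j0 := j0) (N := M.N)
    (B := κ / x * m) (rb_mono G.m0) (rb_nonneg G.m0 _) h.le (rb_le_one G.m0 _) (by positivity)
    fun _ _ _ => le_rfl
  have h4 : x * ∑ k ∈ Finset.Ioo j0 M.N, c k * vv (fun _ => 1) (M.L m a) (sl m) 0 (k + 1) ≤
      ∑ k ∈ Finset.Ioc j0 M.N, (if k < M.N then c k else 0) * aM M m a k := by
    rw [← Finset.Ioo_insert_right h, Finset.sum_insert (by simp), if_neg (lt_irrefl _), zero_mul,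
      zero_add, Finset.mul_sum]
    refine Finset.sum_le_sum fun k hk => ?_
    have := Finset.mem_Ioo.1 hk
    rw [if_pos this.2, mul_left_comm]
    exact mul_le_mul_of_nonneg_left (vv_le Link33.wt1 G.monoL (sl m) 0 (x := x) (j := k + 1) (by
      rw [ex_succ G.toLeg]; exact z1 k this.1.le)) (hc k hk).1
  have h5 : 2 / (m : ℝ) * ((1 + K) * RW (M.rb m a) (fun _ => κ / x * m) j0 M.N) ≤
      2 * (1 + K) * (κ / x) := (mul_le_mul_of_nonneg_left (mul_le_mul_of_nonneg_left h3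
        (by positivity)) (by positivity)).trans_eq (by field_simp)
  have h6 := mul_le_mul_of_nonneg_left (add_le_add h5 cκ) (show (0 : ℝ) ≤ K + 2 by positivity)
  have h7 := h1.trans (div_le_div_of_nonneg_right (mul_le_of_le_one_right (by positivity)
    (show _ ≤ (1 : ℝ) by linarith)) (sq_nonneg x))
  have h8 := (le_div_iff₀' x0).2 (h4.trans (h2.trans h6))
  rw [show (K + 2 : ℝ) * (2 * (1 + K) * (κ / x) + κ / x) / x =
    (K + 2) * (2 * K + 3) * (κ / x ^ 2) by field_simp; ring] at h8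
  simp only [pM, ← eov, pv_eq Link33.wt1, mul_add, Finset.sum_add_distrib, mul_left_comm _ (2 : ℝ),
    ← Finset.mul_sum]
  rw [e1, show κ * (2 + 2 * 1) / x ^ 2 = 4 * (κ / x ^ 2) by ring] at h7
  have k0 : 0 ≤ K * (κ / x ^ 2) := by positivity
  linarith

theorem cube_le (x y : ℝ) : |x + y| ^ 3 ≤ 4 * |x| ^ 3 + 4 * |y| ^ 3 := by
  have h := pow_le_pow_left₀ (abs_nonneg _) (abs_add_le x y) 3
  nlinarith [mul_nonneg (add_nonneg (abs_nonneg x) (abs_nonneg y)) (sq_nonneg (|x| - |y|))]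

variable {S : Sc}

/-- **sandwich** of a plateau node -/
theorem sand (h : Cl S M) {i k s : ℕ} (h1 : i ≤ k) (h2 : k ≤ s) (h3 : s ≤ M.N) {u d : ℝ}
    (hu : M.E2 m a (fun R => |R - M.q s| ^ 2) s ≤ u) (hd : M.s s - M.s i ≤ d) (d1 : d ≤ 1) :
    M.E2 m a (fun R => |R - M.q k| ^ 3) k ≤ 864 * pM M m a k +
      (864 * M.E2 m a (fun R => |R - M.q i| ^ 3) i + (3456 * u + 3460 * d ^ 2)) := by
  have w : M.E2 m a (fun R => |R - M.q i| ^ 3) k ≤ 6 ^ 3 * (pM M m a k +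
      M.E2 m a (fun R => |R - M.q i| ^ 3) i + M.E2 m a (fun R => |R - M.q i| ^ 3) s) :=
    Swm78.swm_ov 1 (M.Mx a) (Nat.succ_le_succ h1) (Nat.succ_le_succ h2) (M.q i) 1
  have q1 := q_mono h h1 (h2.trans h3)
  have q2 := q_mono h h2 h3
  have q3 := (q_lip h (h1.trans h2) h3).trans hd
  have d0 : 0 ≤ d := by linarith
  have a1 : M.E2 m a (fun R => |R - M.q k| ^ 3) k ≤
      M.E2 m a (fun R => 4 * |R - M.q i| ^ 3 + 4 * d ^ 2) k := E2_mono (fun r _ => by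
    have := cube_le (r - M.q i) (M.q i - M.q k)
    have b := pow_le_pow_left₀ (abs_nonneg _) (show |M.q i - M.q k| ≤ d from
      abs_le.2 ⟨by linarith, by linarith⟩) 3
    have b' := pow_le_pow_of_le_one d0 d1 (show 2 ≤ 3 by norm_num)
    rw [sub_add_sub_cancel] at this
    linarith) k
  have a2 : M.E2 m a (fun R => |R - M.q i| ^ 3) s ≤
      M.E2 m a (fun R => 4 * |R - M.q s| ^ 2 + 4 * d ^ 2) s := E2_mono (fun r hr => by
    have b : |r - M.q i| ≤ 2 := abs_le.2 ⟨by linarith [(abs_le.1 hr).1, q_le_one (M := M) i],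
      by linarith [(abs_le.1 hr).2, q_nonneg (M := M) i]⟩
    have b1 := mul_le_mul_of_nonneg_left b (sq_nonneg |r - M.q i|)
    have b2 := pow_le_pow_left₀ (by linarith) q3 2
    rw [sq_abs] at b1 ⊢
    rw [pow_succ, sq_abs]
    nlinarith [sq_nonneg (r - M.q s - (M.q s - M.q i))]) s
  rw [E2_add, E2_mul, E2_const] at a1 a2
  linarith

/-- **the top labels** on the class -/
theorem top_cl (h : Cl S M) (G : Lg M m a) {i s : ℕ} (i1 : 1 ≤ i) (h1 : i < S.Jp) (h2 : S.Jp ≤ s)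
    (h3 : s ≤ M.N) {u d Y : ℝ} (hu : M.E2 m a (fun R => |R - M.q s| ^ 2) s ≤ u)
    (hd : M.s s - M.s i ≤ d) (d1 : d ≤ 1) (hY : ∑ k ∈ Finset.Ioo i M.N,
      (if k < S.Jp then M.dz m a k else 0) * pM M m a k ≤ Y) :
    ∑ k ∈ Finset.Ico i M.N, M.dz m a k * M.E2 m a (fun R => |R - M.q k| ^ 3) k ≤
      864 * ((1 - M.z (i - 1)) * M.E2 m a (fun R => |R - M.q i| ^ 3) i) +
        (864 * Y + 8 * S.ue + (1 - M.z (i - 1)) * (3456 * u + 3460 * d ^ 2)) := by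
  have i4 := h.i4
  have u0 : 0 ≤ u := (E2_nonneg (fun _ _ => by positivity) s).trans hu
  have U0 : 0 ≤ M.E2 m a (fun R => |R - M.q i| ^ 3) i := E2_nonneg (fun _ _ => by positivity) i
  set B := 864 * M.E2 m a (fun R => |R - M.q i| ^ 3) i + (3456 * u + 3460 * d ^ 2) with hB
  have B0 : 0 ≤ B := by positivity
  have e : ∑ k ∈ Finset.Ico i M.N, M.dz m a k ≤ 1 - M.z (i - 1) := by
    have := sum_dz (m := m) (a := a) h.leg (show i - 1 ≤ M.N - 1 by omega)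
    rw [← Finset.Ico_add_one_add_one_eq_Ioc, Nat.sub_add_cancel i1,
      Nat.sub_add_cancel (by omega)] at this
    linarith [G.z1 (M.N - 1)]
  have t : ∑ k ∈ Finset.Ioo i M.N, M.dz m a k * M.E2 m a (fun R => |R - M.q k| ^ 3) k ≤
      ∑ k ∈ Finset.Ioo i M.N, (864 * ((if k < S.Jp then M.dz m a k else 0) * pM M m a k) +
        M.dz m a k * B + if k = S.Jp then 8 * S.ue else 0) := Finset.sum_le_sum fun k hk => by
    have hk := Finset.mem_Ioo.1 hk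
    have z0 := G.dz_nonneg k
    rcases lt_trichotomy k S.Jp with b | b | b
    · rw [if_pos b, if_neg b.ne]
      linarith [mul_le_mul_of_nonneg_left (sand h hk.1.le (b.le.trans h2) h3 hu hd d1) z0]
    · have a1 : M.dz m a k ≤ S.ue := by
        rw [dz_up h.leg (by omega), h.top k b.ge, b]; exact h.last
      have a2 : M.E2 m a (fun R => |R - M.q k| ^ 3) k ≤ 2 ^ 3 := E2_le (fun r hr =>
        pow_le_pow_left₀ (abs_nonneg _) (abs_le.2 ⟨by
          linarith [(abs_le.1 hr).1, q_le_one (M := M) k],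
          by linarith [(abs_le.1 hr).2, q_nonneg (M := M) k]⟩) 3) k
      rw [if_neg b.not_lt, if_pos b]
      linarith [mul_le_mul_of_nonneg_left a2 z0, mul_nonneg z0 B0]
    · rw [if_neg b.not_gt, if_neg b.ne', dz_up h.leg (by omega), h.top k b.le,
        h.top _ (by omega), sub_self]
      simp
  rw [Finset.sum_add_distrib, Finset.sum_add_distrib, ← Finset.mul_sum, ← Finset.sum_mul,
    Finset.sum_ite_eq', if_pos (Finset.mem_Ioo.2 ⟨h1, i4⟩)] at t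
  rw [← Finset.Ioo_insert_left (h1.trans i4), Finset.sum_insert (by simp)] at e ⊢
  have a3 := mul_le_mul_of_nonneg_left (show M.E2 m a (fun R => |R - M.q i| ^ 3) i ≤ B by
    rw [hB]; nlinarith [sq_nonneg d]) (G.dz_nonneg i)
  have a4 := mul_le_mul_of_nonneg_right e B0
  rw [hB] at a4
  linarith

/-- a good reveal node -/
theorem pick {C θ μ σ : ℝ} {D : C40.CD} {ρ : ℕ → ℝ} {j0 K U : ℕ}
    (V : C40.Mv30.MVt C D M m a ρ j0 K σ θ μ) (hK : D.K = M.N + 1) (U0 : 0 < U)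
    (hU : j0 + U < M.N) : ∃ s, j0 < s ∧ s ≤ j0 + U ∧ D.u 2 (s + 1) ≤
      C * (C40.Mv30.mvA D θ μ + 4 * (K + 2) ^ 2 * (1 / (σ * m)) / (μ * θ ^ 11) / U) := by
  have e : ∀ f : ℕ → ℝ, ∑ t ∈ Finset.Ioo (j0 + 1) D.K, (if t ≤ j0 + 1 + U then (1 : ℝ) else 0) * f t =
      ∑ t ∈ Finset.Ioc (j0 + 1) (j0 + 1 + U), f t := fun f => by
    simp only [ite_mul, one_mul, zero_mul]
    rw [← Finset.sum_filter]
    refine Finset.sum_congr (Finset.ext fun t => ?_) fun _ _ => rfl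
    simp only [Finset.mem_filter, Finset.mem_Ioo, Finset.mem_Ioc]
    omega
  have h := V.sum (fun t => if t ≤ j0 + 1 + U then (1 : ℝ) else 0) 1 zero_le_one fun t _ => by
    split_ifs <;> norm_num
  have e1 := e fun _ => 1
  simp only [mul_one, Finset.sum_const, Nat.card_Ioc, Nat.add_sub_cancel_left, nsmul_eq_mul] at e1
  rw [e, e1] at h
  have u0 : (0 : ℝ) < U := Nat.cast_pos.2 U0
  obtain ⟨t, ht, h2⟩ := Finset.exists_le_of_sum_le (s := Finset.Ioc (j0 + 1) (j0 + 1 + U))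
    (f := D.u 2) (g := fun _ => C * (C40.Mv30.mvA D θ μ +
      4 * (K + 2) ^ 2 * (1 / (σ * m)) / (μ * θ ^ 11) / U)) ⟨j0 + 2, by simp; omega⟩ (by
    rw [Finset.sum_const, Nat.card_Ioc, Nat.add_sub_cancel_left, nsmul_eq_mul]
    refine h.trans_eq ?_
    generalize 4 * ((K : ℝ) + 2) ^ 2 * (1 / (σ * m)) / (μ * θ ^ 11) = T
    field_simp)
  have := Finset.mem_Ioc.1 ht
  obtain ⟨s, rfl⟩ : ∃ s, t = s + 1 := ⟨t - 1, by omega⟩
  exact ⟨s, by omega, by omega, h2⟩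

end Crest.Agent.T156.Cas.TL68

namespace Crest.Agent.T156.Alt.R2

open Real Finset Filter
open Crest.Agent.T156.Cas Crest.Agent.T156.Cas.C40 Md67 CIn12

namespace TL68

variable {β c0 C0 c η K C : ℝ} {A : ℕ} {p : Pm} {P : Pl} {m : ℕ} {a : ℝ} {E : CIn12.Ev}

theorem xs_eq (h : p.jf < p.J) : (Me p P).z (p.J - 1) = p.xs := by
  show p.zP P (max (p.J - 1) p.jf) = _
  rw [max_eq_left (by omega), Pm.zP, if_pos (by omega)]
  rfl

variable (H : Reg β c0 C0 A c η K p)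
include H

theorem uc0 : 0 < uc p := mul_pos H.s0 (H.rp0 _)
theorem cb0 (x : ℝ) : 0 < cb p x := mul_pos (pow_pos H.s0 _) (H.rp0 _)
theorem lg_uc : logb p.n (uc p) = logb p.n p.s - 1 / 5 := by
  rw [uc, logb_mul H.s0.ne' (H.rp0 _).ne', H.lg_rp]; ring
theorem lg_cb (x : ℝ) : logb p.n (cb p x) = 5 * logb p.n p.s - x := by
  rw [cb, logb_mul (pow_pos H.s0 _).ne' (H.rp0 _).ne', H.lg_rp, logb_pow]; push_cast; ring

theorem nums {C' γ X w W Λ : ℝ} (C1 : 1 ≤ C) (hC : C ≤ (p.n : ℝ) ^ η) (C1' : 1 ≤ C')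
    (hC' : C' ≤ (p.n : ℝ) ^ η) (hA : 8 ≤ A) (hc : c ≤ 1 / 10 ^ 6) (h : In p m a)
    (hγ : γ = (p.n : ℝ) ^ (-(7 / 20 : ℝ))) (hX : X = t1 p / p.κ) (hw : w = (p.n : ℝ) ^ (-(1 / 3 : ℝ)))
    (hW : W = p.s ^ 4 * (p.n : ℝ) ^ (-(13 : ℝ) / 20)) (hΛ : Λ = (p.n : ℝ) ^ η) :
    C * A * log p.n ≤ (p.n : ℝ) ^ (A + 2) * (1 / C * (p.κ ^ 7 * p.v / C ^ 2)) ∧
    C * p.v * m ≤ 1 ∧ X ^ 3 ≤ (kk p)⁻¹ ^ 2 / C' ∧ γ ≤ (kk p)⁻¹ ^ 2 / C' ∧ γ ≤ w ∧ p.v ≤ w ∧
    3 * w ≤ 1 ∧ (p.n : ℝ) ^ (-(3 : ℝ)) ≤ uc p ∧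
    10 ^ 6 * ((Λ ^ 3) ^ 2 * (C * p.v * log p.n * uc p / γ / (p.κ ^ 7 * p.v / C ^ 2 * m) /
      (1 / C) ^ 2)) ≤ cb p (847 / 1000) ∧
    10 ^ 2 * (p.n : ℝ) ^ (-(2 : ℝ)) ≤ cb p (847 / 1000) ∧
    10 ^ 5 * (uc p * (C' * (C * (kk p ^ 19 * W)))) ≤ cb p (847 / 1000) ∧
    10 ^ 6 * (uc p * (C' * ((Λ ^ 3) ^ 2 * (1 / (p.κ ^ 7 * p.v / C ^ 2 * m)) /
      (1 / C * (kk p)⁻¹ ^ 11) / (w / p.v)))) ≤ cb p (847 / 1000) ∧
    10 ^ 6 * (uc p * w ^ 2) ≤ cb p (847 / 1000) := by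
  have C0 : 0 < C := by linarith
  have C0' : 0 < C' := by linarith
  have v0 := H.v0
  have κ0 := H.κ0
  have N0 := H.N0
  have t0 := t10 H
  have K0 := kk0 H
  have s0 := H.s0
  have u0 := uc0 H
  have b0 := cb0 H (847 / 1000)
  have l0 : 0 < log (p.n : ℝ) := by linarith [H.log1]
  have A8 : (8 : ℝ) ≤ A := by exact_mod_cast hA
  have A0 : (0 : ℝ) < A := by linarith
  have m0 : (0 : ℝ) < m := by exact_mod_cast h.m0 H
  obtain ⟨lC1, lC2⟩ := H.lg_cst C1 hC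
  obtain ⟨lD1, lD2⟩ := H.lg_cst C1' hC'
  obtain ⟨lA1, lA2⟩ := H.lg_cst (show (1 : ℝ) ≤ A by linarith) H.A_le
  obtain ⟨lm1, lm2⟩ := H.lg_m h.m1 h.m2
  obtain ⟨ll1, ll2⟩ := H.lg_log
  obtain ⟨lb1, lb2⟩ := H.lg_β
  obtain ⟨ls1, ls2⟩ := H.lg_s
  have l10 := (H.lg_num (x := 10) (by norm_num) (by norm_num)).2
  have l3 := (H.lg_num (x := 3) (by norm_num) (by norm_num)).2
  have lv := H.lg_v
  have lk := H.lg_κ
  have lt := lg_t1 H
  have lkk := lg_kk H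
  have lu := lg_uc H
  have lb := lg_cb H (847 / 1000)
  have ln := H.lg_n
  have hη := H.η_le
  have η0 := H.η_pos
  have L0 : 0 < Λ := hΛ ▸ H.Λ0
  have lL : logb p.n Λ = η := hΛ ▸ H.lg_rp η
  have γ0 : 0 < γ := hγ ▸ H.rp0 _
  have lγ : logb p.n γ = -(7 / 20) := by rw [hγ, H.lg_rp]
  have w0 : 0 < w := hw ▸ H.rp0 _
  have lw : logb p.n w = -(1 / 3) := by rw [hw, H.lg_rp]
  have W0 : 0 < W := hW ▸ mul_pos (pow_pos s0 _) (H.rp0 _)
  have lW : logb p.n W = 4 * logb p.n p.s - 13 / 20 := by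
    rw [hW, logb_mul (pow_pos s0 _).ne' (H.rp0 _).ne', H.lg_rp, logb_pow]; push_cast; ring
  have X0 : 0 < X := hX ▸ div_pos t0 κ0
  have lX : logb p.n X = logb p.n p.s + 8 / 7 * c - 3 / 20 := by
    rw [hX, logb_div t0.ne' κ0.ne', lt, lk]; ring
  clear hγ hX hw hW hΛ hC hC'
  refine ⟨H.le_of_lg (by positivity) (by positivity) (by lg_norm; push_cast; rw [ln]; linarith),
    ?_, ?_, ?_, ?_, ?_, ?_, ?_, ?_, ?_, ?_, ?_, ?_⟩ <;>
    refine H.le_of_lg (by positivity) (by positivity) ?_ <;> (try lg_norm) <;> linarith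

theorem mvA_le (C1 : 1 ≤ C) {X : CD} {W : ℝ} (W0 : 0 ≤ W) (h1 : Mv30.IU X ≤ kk p ^ 8 * W)
    (h2 : Ex23.R0 X ≤ kk p ^ 8 * W) :
    Mv30.mvA X (kk p)⁻¹ (1 / C) ≤ 2 * (C * (kk p ^ 19 * W)) := by
  have k1 := Mv55.kk1 H
  rw [Mv30.mvA]
  generalize kk p = k at *
  have e1 : ∀ x : ℝ, x / k⁻¹ ^ 2 = k ^ 2 * x := fun x => by field_simp
  have e2 : ∀ x : ℝ, x / (1 / C * k⁻¹ ^ 11) = C * (k ^ 11 * x) := fun x => by field_simp
  rw [e1, e2]
  have p1 : k ^ 10 * W ≤ k ^ 19 * W :=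
    mul_le_mul_of_nonneg_right (pow_le_pow_right₀ k1 (by norm_num)) W0
  have b1 := mul_le_mul_of_nonneg_left h1 (show 0 ≤ k ^ 2 by positivity)
  have b2 := mul_le_mul_of_nonneg_left (mul_le_mul_of_nonneg_left h2
    (show 0 ≤ k ^ 11 by positivity)) (zero_le_one.trans C1)
  have b3 := mul_le_mul_of_nonneg_right C1 (show 0 ≤ k ^ 19 * W by positivity)
  linarith

variable (e : En C p P)
include e

theorem s_rev (j : ℕ) : (Me p P).s (p.Jp P + j) = (Me p P).s (p.Jp P) + j * p.v := by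
  induction j with
  | zero => simp
  | succ j ih =>
    have := e.hi (p.Jp P + j) (Nat.le_add_right _ _)
    rw [← add_assoc]
    push_cast
    linarith

/-- label weights near the top -/
theorem dz_le (sp : p.SpOk (7 / 20) P) (hl : (p.n : ℝ) ^ (-(3 : ℝ)) ≤ uc p) {i k : ℕ} (h1 : p.J ≤ i)
    (h2 : i < k) (h3 : k < p.Jp P) (hd : duE p P i ≤ 2 * uc p) :
    (Me p P).dz m a k ≤ 54 * (C * p.v * log p.n * uc p / P.γ) := by
  have γ0 : 0 < P.γ := sp.g' ▸ H.rp0 _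
  have i2 : p.jf + 1 < p.J := e.cl.i2
  have a1 : _ * (P.γ * p.ld P.γ ((Me p P).z (k - 1))) ≤ C * p.v :=
    (e.cl.plat k (show p.J ≤ k by omega) h3).2
  have a2 : p.xs ≤ (Me p P).z (k - 1) :=
    (xs_eq (by omega)).ge.trans (e.cl.leg.zm (show p.J - 1 ≤ k - 1 by omega))
  have a3 := e.cl.leg.z1 (k - 1)
  have a4 := e.cl.leg.zm (show i - 1 ≤ k - 1 by omega)
  have a5 := (p.l1'_le3 H.n1).trans hl
  have a6 := p.lL_le (by linarith [H.N3])
  have u0 := uc0 H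
  have l0 : 0 < log (p.n : ℝ) := by linarith [H.log1]
  have z0 := sub_nonneg.2 (e.cl.leg.zm (show k - 1 ≤ k by omega))
  rw [duE] at hd
  have b1 : 1 / (3 * uc p) ≤ 1 / (1 - (Me p P).z (k - 1) + p.l1') :=
    one_div_le_one_div_of_le (by linarith [p.l1'_pos]) (by linarith)
  have b2 : 0 ≤ 1 / ((Me p P).z (k - 1) - p.xs + p.l0' P.γ) :=
    (one_div_pos.2 (by linarith [p.l0'_pos P.γ])).le
  have b3 : 1 / (3 * uc p) / (18 * log p.n) ≤ p.ld P.γ ((Me p P).z (k - 1)) := by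
    rw [p.ld_eq _ a2 a3]
    exact div_le_div₀ (by linarith [show 0 ≤ 1 / (3 * uc p) by positivity]) (by linarith)
      p.lL_pos a6
  have b4 := (mul_le_mul_of_nonneg_left (mul_le_mul_of_nonneg_left b3 γ0.le) z0).trans a1
  rw [dz_up e.cl.leg (by omega)]
  rw [← le_div_iff₀ (by positivity)] at b4
  exact b4.trans_eq (by field_simp; ring)

end TL68

open TL68 Cas.TL68 in
/-- **`TopL`** -/
theorem topL_of {β : ℝ} (hβ : 1 < β) (hP : PzS β) : TopL β := by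
  obtain ⟨C', C1', G⟩ := Mv30.mv_cl (β ^ 2)
  unfold PzS EvA at hP
  unfold TopL EvA
  refine Sml.glueC hβ (enS hβ) hP fun C C1 c0 C0 _ _ => ⟨8, fun A hA => ⟨1 / 10 ^ 6, by norm_num,
    fun c hc _ => ⟨1, one_pos, fun η _ _ => ⟨max C C', fun p H en z P m a E h h1 h2 i i1 i2 hd => ?_⟩⟩⟩⟩
  obtain ⟨z1, z2⟩ := z P m a E h
  have e := en H.r_le_ye P h.sp
  obtain ⟨k, k1, k2⟩ := Mv55.exK H
  obtain ⟨n1, n2, n3, n4, n5, n6, n7, n8, n9, n10, n11, n12, n13⟩ := nums H C1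
    ((le_max_left _ _).trans H.K_le) C1' ((le_max_right _ _).trans H.K_le) hA hc h.inn h.sp.g'
    h.env.X rfl rfl rfl
  have mv := mvA_le H C1 (mul_pos (pow_pos H.s0 _) (H.rp0 _)).le h1 h2
  have w0 := H.rp0 (-(1 / 3 : ℝ))
  have L0 := H.Λ0
  generalize (p.n : ℝ) ^ (-(1 / 3 : ℝ)) = w at *
  generalize p.s ^ 4 * (p.n : ℝ) ^ (-(13 : ℝ) / 20) = W at *
  have C0' : 0 < C := by linarith
  have v0 := H.v0
  have κ0 := H.κ0
  have κ1 := H.κ1
  have K0 := kk0 H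
  have u0 := uc0 H
  have l1 := H.log1
  have m0 : (0 : ℝ) < m := by exact_mod_cast h.inn.m0 H
  have γ0 : 0 < P.γ := h.sp.g' ▸ H.rp0 _
  have j2 : p.jf + 1 < p.J := e.cl.i2
  have j4 : p.Jp P < (Me p P).N := e.cl.i4
  have Lg := e.lg H h.inn
  have ms := fun j => Mv55.ms_hi H e (k := j)
  have σ0 : 0 < p.κ ^ 7 * p.v / C ^ 2 := by positivity
  have hK : C * A * log p.n ≤ 2 ^ k * (1 / C * (p.κ ^ 7 * p.v / C ^ 2)) :=
    n1.trans (mul_le_mul_of_nonneg_right k1 (by positivity))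
  have hv : ∀ j, (Se p C P).Jp ≤ j → j < (Me p P).N →
      (Se p C P).v / (Se p C P).C ≤ (Me p P).s (j + 1) - (Me p P).s j :=
    fun j a _ => (div_le_self v0.le C1).trans (e.hi j a).ge
  have hK' : (Se p C P).C * (Se p C P).A * log (Se p C P).n ≤
      2 ^ k * ((Se p C P).ms ((Me p P).s (Se p C P).Jp) * (Se p C P).v / (Se p C P).C ^ 2) := by
    rw [show (Se p C P).Jp = p.Jp P from rfl, ms (p.Jp P) e.cl.i3]
    show C * p.A * log p.n ≤ 2 ^ k * (p.κ ^ 7 * p.v / C ^ 2)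
    rw [H.hA]
    exact hK.trans (mul_le_mul_of_nonneg_left (mul_le_of_le_one_left σ0.le
      ((div_le_one C0').2 C1)) (by positivity))
  have lw := Mv30.lw_cl e.cl H.n0 hv n2 hK'
  have V := (G (Se p C P) (Me p P) m a (jc p) E k (kk p)⁻¹ e.cl H.n0 h.inn.sc (H.hβ ▸ h.ok)
    (Nat.lt_succ_iff.1 z1.JP) hv n2 hK' (inv_pos.2 K0)
    (z2.trans_eq (by rw [R85.mu, ← tp_eq (p.Jp P)]; rfl)) n3 (e.gam.trans n4)).1
  rw [show (Se p C P).Jp = p.Jp P from rfl, ms (p.Jp P) e.cl.i3] at V lw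
  -- the window
  have U1 := Nat.le_ceil (w / p.v)
  have U2 := (Nat.ceil_lt_add_one (div_pos w0 v0).le).le
  have U0 : 0 < ⌈w / p.v⌉₊ := Nat.ceil_pos.2 (div_pos w0 v0)
  generalize ⌈w / p.v⌉₊ = U at *
  rw [div_add_one v0.ne', le_div_iff₀ v0] at U2
  have U3' : U < p.Nr := by
    have A8 : (8 : ℝ) ≤ A := by exact_mod_cast hA
    have := mul_le_mul A8 l1 zero_le_one (by linarith)
    exact_mod_cast lt_of_mul_lt_mul_right (show (U : ℝ) * p.v < p.Nr * p.v by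
      linarith only [H.Nr_bds.1, this, U2, n6, n7, w0]) v0.le
  have eN : (Me p P).N = p.Jp P + p.Nr := rfl
  obtain ⟨s, s1, s2, hu⟩ := pick V (cd_K _ _ _ _ _ _ _) U0 (by omega)
  have jcl := jc_lt H
  rw [cd_u m a _ _ E 2 (show jc p ≤ s by omega) (by omega)] at hu
  have ds : (Me p P).s s - (Me p P).s i ≤ 3 * w := by
    have a1 := e.cl.sm s2
    have a2 := e.cl.sm i1
    rw [s_rev H e] at a1
    linarith only [a1, a2, e.gam, U2, n5, n6]
  have Y := legsX Lg (j0 := i) (K := k) (x := 1 / C) (c := fun j => if j < p.Jp P then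
    (Me p P).dz m a j else 0) (cm := 54 * (C * p.v * log p.n * uc p / P.γ)) σ0 (by omega)
    (by positivity) (e.cl.atom.1.trans (Lg.zm (show p.J - 1 ≤ i by omega))) (fun j a b => by
      rcases lt_or_ge j (p.Jp P) with d | d
      · have := e.cl.flr j (show p.jf ≤ j by omega) d
        rw [ms j (by omega)] at this
        refine le_trans ?_ this
        show _ ≤ p.κ ^ 7 * p.v / (C * 1)
        exact div_le_div_of_nonneg_left (by positivity) (by positivity) (by nlinarith only [C1])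
      · exact lw.lo j d b) (fun j a b => by
      rcases lt_or_ge j (p.Jp P) with d | d
      · have := e.cei.up j (show p.jf + 1 ≤ j by omega) d
        rw [ms j (by omega)] at this
        refine le_trans (mul_le_mul_of_nonneg_right (this.trans ?_) m0.le) n2
        show C * 1 * p.κ ^ 7 * p.v ≤ C * p.v
        rw [mul_one]
        exact mul_le_mul_of_nonneg_right (mul_le_of_le_one_right C0'.le
          (pow_le_one₀ κ0.le κ1)) v0.le
      · exact lw.hi j d b) (by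
      have a1 : (Me p P).H (Me p P).N ≤ C * p.A * log p.n := e.cl.HN
      rw [H.hA] at a1
      linarith only [a1, hK, H_nonneg e.cl.leg i]) (by positivity) fun j hj => by
    split_ifs with b
    · exact ⟨Lg.dz_nonneg j, dz_le H e h.sp n8 i1 (mem_Ioo.1 hj).1 b hd⟩
    · exact ⟨le_rfl, by positivity⟩
  have T := top_cl e.cl Lg (i := i) (s := s) (by omega) i2 s1.le (by omega) hu ds n7 Y
  have d0 : 0 ≤ duE p P i := sub_nonneg.2 (Lg.z1 _)
  have t0 : 0 ≤ duE p P i * U3 p P m a i :=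
    mul_nonneg d0 (E2_nonneg (fun _ _ => by positivity) i)
  have k3 : ((k : ℝ) + 2) ^ 2 ≤ (((p.n : ℝ) ^ η) ^ 3) ^ 2 := pow_le_pow_left₀ (by positivity) k2 2
  generalize (((p.n : ℝ) ^ η) ^ 3) ^ 2 = L at *
  have L1 : 0 ≤ L := le_trans (by positivity) k3
  refine T.trans ?_
  show 864 * (duE p P i * U3 p P m a i) + (864 * (4 * ((k : ℝ) + 2) ^ 2 *
    (54 * (C * p.v * log p.n * uc p / P.γ) / (p.κ ^ 7 * p.v / C ^ 2 * m) / (1 / C) ^ 2)) +
    8 * (p.n : ℝ) ^ (-(2 : ℝ)) + duE p P i * (3456 * (C' * (Mv30.mvA (D p P m a E) (kk p)⁻¹ (1 / C) +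
      4 * ((k : ℝ) + 2) ^ 2 * (1 / (p.κ ^ 7 * p.v / C ^ 2 * m)) / (1 / C * (kk p)⁻¹ ^ 11) / U)) +
      3460 * (3 * w) ^ 2)) ≤ _
  have f1 : 4 * ((k : ℝ) + 2) ^ 2 * (54 * (C * p.v * log p.n * uc p / P.γ) /
      (p.κ ^ 7 * p.v / C ^ 2 * m) / (1 / C) ^ 2) ≤ 216 * (L * (C * p.v * log p.n * uc p / P.γ /
      (p.κ ^ 7 * p.v / C ^ 2 * m) / (1 / C) ^ 2)) := by
    rw [mul_div_assoc, mul_div_assoc]
    have := mul_le_mul_of_nonneg_right k3 (show 0 ≤ C * p.v * log p.n * uc p / P.γ /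
      (p.κ ^ 7 * p.v / C ^ 2 * m) / (1 / C) ^ 2 by positivity)
    linarith only [this]
  have f2 : 4 * ((k : ℝ) + 2) ^ 2 * (1 / (p.κ ^ 7 * p.v / C ^ 2 * m)) / (1 / C * (kk p)⁻¹ ^ 11) / U ≤
      4 * (L * (1 / (p.κ ^ 7 * p.v / C ^ 2 * m)) / (1 / C * (kk p)⁻¹ ^ 11) / (w / p.v)) := by
    rw [mul_assoc, mul_div_assoc 4, mul_div_assoc 4]
    gcongr
  have W0 : 0 ≤ C * (kk p ^ 19 * W) := by
    have := (Mv30.IU_nonneg h.ok).trans h1
    have := nonneg_of_mul_nonneg_right this (pow_pos K0 8)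
    positivity
  have R0 : 0 ≤ L * (1 / (p.κ ^ 7 * p.v / C ^ 2 * m)) / (1 / C * (kk p)⁻¹ ^ 11) / (w / p.v) := by
    positivity
  have Q0 : 0 ≤ L * (C * p.v * log p.n * uc p / P.γ /
      (p.κ ^ 7 * p.v / C ^ 2 * m) / (1 / C) ^ 2) := by positivity
  have f3 := mul_le_mul_of_nonneg_left (add_le_add mv f2) (zero_le_one.trans C1')
  generalize L * (1 / (p.κ ^ 7 * p.v / C ^ 2 * m)) / (1 / C * (kk p)⁻¹ ^ 11) / (w / p.v) = R at *
  generalize C * (kk p ^ 19 * W) = Q at *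
  generalize C' * (Mv30.mvA (D p P m a E) (kk p)⁻¹ (1 / C) + 4 * ((k : ℝ) + 2) ^ 2 *
    (1 / (p.κ ^ 7 * p.v / C ^ 2 * m)) / (1 / C * (kk p)⁻¹ ^ 11) / U) = u at *
  have f4 : duE p P i * (3456 * u + 3460 * (3 * w) ^ 2) ≤
      2 * uc p * (3456 * (C' * (2 * Q + 4 * R)) + 3460 * (3 * w) ^ 2) :=
    (mul_le_mul_of_nonneg_left (by linarith only [f3]) d0).trans
      (mul_le_mul_of_nonneg_right hd (by positivity))
  have g1 : 0 ≤ uc p * (C' * Q) := by positivity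
  have g2 : 0 ≤ uc p * (C' * R) := by positivity
  have g3 : 0 ≤ uc p * w ^ 2 := by positivity
  have g4 := H.rp0 (-(2 : ℝ))
  linarith only [f1, f4, t0, n9, n10, n11, n12, n13, g1, g2, g3, g4, Q0]

/-- **`TopL`** -/
theorem topL {β : ℝ} (hβ : 1 < β) : TopL β := topL_of hβ (pzS hβ)

end Crest.Agent.T156.Alt.R2

end
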