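import Crest.Agent.T156.R2K_30
import Crest.Agent.T156.R2cT_85

/-!
# Row 156, R2 (helper30): the flow at the END model from the leaves of `R2Def_30`
-/

set_option autoImplicit false
set_option linter.unusedSectionVars false

noncomputable section

namespace Crest.Agent.T156.Alt.R2

open Real Finset Filter
open Crest.Agent.T157.E Crest.Agent.T157.Casc Crest.Agent.T157.SL
open Crest.Agent.T156.Cas Crest.Agent.T156.Cas.C40 Md67 CIn12

theorem e2_num {τ c C C' l2 Q x y mU el g Λ : ℝ} (h : τ / 2 * mU + c * τ ^ 2 * el ≤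
    C * (τ ^ 4 * l2 * Q) + τ / 2 * x + C' * y) (t0 : 1 / 2 ≤ τ) (t1 : τ ≤ Λ) (l0 : 0 ≤ l2)
    (l1 : l2 ≤ 1) (Q0 : 0 ≤ Q) (hQ : Q ≤ 20 * g) (hx : x ≤ g) (y0 : 0 ≤ y) (hy : y ≤ g)
    (C1 : C ≤ Λ) (C2 : C' ≤ Λ) (c0 : 0 < c) (c1 : 1 / c ≤ Λ) (m0 : 0 ≤ mU) (e0 : 0 ≤ el)
    (L : 1000 ≤ Λ) : mU ≤ Λ ^ 7 * g ∧ el ≤ Λ ^ 7 * g := by
  have g0 := y0.trans hy
  have L0 : 0 < Λ := by linarith
  have τ0 : 0 < τ := by linarith
  have p : ∀ i j : ℕ, i ≤ j → Λ ^ i * g ≤ Λ ^ j * g := fun i j e =>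
    mul_le_mul_of_nonneg_right (pow_le_pow_right₀ (by linarith) e) g0
  have a1 : C * (τ ^ 4 * l2 * Q) ≤ Λ * (Λ ^ 4 * 1 * (20 * g)) := by gcongr
  have a2 : τ / 2 * x ≤ Λ * g :=
    (mul_le_mul_of_nonneg_left hx (by linarith)).trans (mul_le_mul_of_nonneg_right (by linarith) g0)
  have a3 : C' * y ≤ Λ * g := mul_le_mul C2 hy y0 L0.le
  have a4 : τ / 2 * mU + c * τ ^ 2 * el ≤ 22 * (Λ ^ 5 * g) := by linarith [p 1 5 (by norm_num)]
  have b1 : 1 / 4 * mU ≤ τ / 2 * mU := mul_le_mul_of_nonneg_right (by linarith) m0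
  have b2 : c * (1 / 2) ^ 2 * el ≤ c * τ ^ 2 * el := by gcongr
  have b3 : 0 ≤ c * el := by positivity
  have q5 : 0 ≤ Λ ^ 5 * g := by positivity
  have q6 : 0 ≤ Λ ^ 6 * g := by positivity
  have r5 := mul_le_mul_of_nonneg_right L q5
  have r6 := mul_le_mul_of_nonneg_right L q6
  have b4 : el ≤ Λ * (88 * (Λ ^ 5 * g)) :=
    (show el = 1 / c * (c * el) by field_simp).trans_le
      (mul_le_mul c1 (by linarith) b3 L0.le)
  constructor <;> linarith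

theorem eb_num {D : CD} {τ0 k η ε g Λ : ℝ} {P : ℕ} (h : D.Ok τ0) (hW : D.W.isSome = false)
    (z : R85.Pz D P k k⁻¹ (k * D.X ^ 3) ε k k) (t1 : τ0 ≤ Λ) (L : 1000 ≤ Λ) (g1 : g ≤ 1)
    (h1 : D.Err ≤ g) (h2 : R85.muU D (E42.τ D) ≤ g) (h3 : R85.Rv D P (D.u 2) ≤ g) (h4 : η ≤ g)
    (h5 : ε ≤ g) : E42.EB D η ≤ Λ ^ 6 * (k ^ 5 * g) := by
  have e := (h.E0_le hW).trans h1
  have g0 := h.Err0.trans h1
  have k1 := z.L1
  have k0 : 0 < k := by linarith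
  have t0 := h.tau0
  have X0 := h.X0
  have l0 := h.tl0
  have a1 := h.X6_le.trans e
  have a2 := h.tl_le.trans e
  have a3 := h.XN1_le.trans e
  have a4 : D.X ^ 3 * D.N2 ≤ g :=
    (mul_le_mul_of_nonneg_left (le_add_of_nonneg_right (sq_nonneg _)) (by positivity)).trans
      (h.XN2_le.trans e)
  have a5 := (h.Ig3_le hW).trans h1
  have a6 := h.n_le.trans e
  have p : ∀ i j : ℕ, i ≤ j → k ^ i * g ≤ k ^ j * g := fun i j e =>
    mul_le_mul_of_nonneg_right (pow_le_pow_right₀ k1 e) g0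
  have w : R85.W2 D P k k⁻¹ k ≤ 3 * (k ^ 2 * g) := by
    have b1 := mul_le_mul_of_nonneg_left h2 (sq_nonneg k)
    have b2 := mul_le_mul_of_nonneg_left h3 (sq_nonneg k)
    rw [R85.W2, div_inv_eq_mul]
    linarith
  have w0 : 0 ≤ R85.W2 D P k k⁻¹ k := add_nonneg (mul_nonneg (by positivity) (z.muU0 h))
    (mul_nonneg (sq_nonneg _) (R85.Rv0 h (D.u0 2)))
  have E := z.EB_le h η
  generalize R85.W2 D P k k⁻¹ k = W at *
  have w1 := mul_le_mul_of_nonneg_left w k0.le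
  have w2 := mul_le_mul_of_nonneg_left w1 k0.le
  have s1 : (D.X ^ 3 + D.tl + k * D.X ^ 3) * √(k * (k * W)) ≤ 6 * (k ^ 4 * g) := by
    have b1 := sq_sqrt (show 0 ≤ k * (k * W) by positivity)
    have b2 := mul_le_mul_of_nonneg_left a1 (sq_nonneg k)
    have b3 := mul_le_of_le_one_right l0 (a2.trans g1)
    nlinarith [sq_nonneg (D.X ^ 3 + D.tl + k * D.X ^ 3 - √(k * (k * W))), p 0 4 (by norm_num),
      p 2 4 (by norm_num), sq_nonneg (D.X ^ 3 - D.tl), sq_nonneg (D.X ^ 3 - k * D.X ^ 3),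
      sq_nonneg (D.tl - k * D.X ^ 3)]
  have s2 := mul_le_mul_of_nonneg_left a4 k0.le
  have s3 := mul_le_mul_of_nonneg_left h3 k0.le
  have c1 : 20 * k * (1 + τ0) ^ 4 ≤ 20 * k * (2 * Λ) ^ 4 := by gcongr; linarith
  have s4 := mul_le_mul c1 (show D.X ^ 6 + D.tl + D.X ^ 4 * D.N1 + (D.X ^ 3 + k * D.X ^ 3) * D.N2 +
      D.I (fun t => D.e t * D.g t ^ 3) + R85.muU D (E42.τ D) + (1 + k) * R85.Rv D P (D.u 2) +
      (D.X ^ 3 + D.tl + k * D.X ^ 3) * √(k * (k * W)) ≤ 15 * (k ^ 4 * g) by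
    linarith [p 0 4 (by norm_num), p 1 4 (by norm_num)]) (by
      have := h.N10; have := h.N20; have := h.Ig30; have := z.muU0 h
      have := R85.Rv0 (P := P) h (D.u0 2)
      positivity) (by positivity)
  have q0 : 0 ≤ k ^ 5 * g := by positivity
  have q1 := mul_le_mul_of_nonneg_right (one_le_pow₀ (n := 4) (show 1 ≤ Λ by linarith)) q0
  have q2 := mul_le_mul_of_nonneg_right (pow_le_pow_left₀ (by norm_num) L 2)
    (show 0 ≤ Λ ^ 4 * (k ^ 5 * g) by positivity)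
  linarith [p 0 5 (by norm_num), p 3 5 (by norm_num)]

variable {β c0 C0 c η K C : ℝ} {A : ℕ} {p : Pm} {P : Pl} {m : ℕ} {a : ℝ} {E : CIn12.Ev}

section reg
variable (H : Reg β c0 C0 A c η K p) (hc : c ≤ 1 / 10 ^ 6) (hη : 1000 * η ≤ c)
include H hc hη

theorem gn_le {i j : ℝ} (hi : 0 < i) (h : i ≤ j) : gn p i * un p ≤ gn p j * un p :=
  mul_le_mul_of_nonneg_right (Pre29.rp_le H.n1 (by
    rw [neg_div, neg_div]; exact neg_le_neg (one_div_le_one_div_of_le hi h))) (un0 H).le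

/-- the numbers of the glue -/
theorem nums : p.r ^ 6 ≤ gn p 200 * un p * t1 p ∧ (p.n : ℝ) ^ η * t1 p ≤ 1 ∧
    (t1 p / p.κ) ^ 5 * (p.s ^ 2 * (p.n : ℝ) ^ (-(3 : ℝ) / 10)) ≤ gn p 200 * un p ∧
    ((p.n : ℝ) ^ η) ^ 7 * (gn p 200 * un p) ≤ gn p 250 * un p ∧ gn p 300 * un p ≤ 1 ∧
    ηH p ≤ gn p 300 * un p ∧ 1 / (p.n : ℝ) ≤ gn p 300 * un p ∧
    ((p.n : ℝ) ^ η) ^ 30 * (kk p ^ 5 * (gn p 300 * un p)) ≤ p.κ ^ ((1 : ℝ) / 100) * un p ∧
    ((p.n : ℝ) ^ η) ^ 8 * p.r ^ 6 * (1 / t1 p * (gn p 250 * un p)) ≤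
      (p.κ ^ ((1 : ℝ) / 100) * un p) ^ 2 ∧ gn p 700 * un p ≤ p.κ ^ ((1 : ℝ) / 100) * un p ∧
    ((p.n : ℝ) ^ η) ^ 2 * (p.κ ^ ((1 : ℝ) / 100) * un p) ≤ un p ∧
    ((p.n : ℝ) ^ η) ^ 4 ≤ (p.n : ℝ) ^ ((1 : ℝ) / 12) := by
  have := H.Λ0
  have := H.r0
  have := H.κ0
  have := H.N0
  have := H.s0
  have := t10 H
  have := un0 H
  have := kk0 H
  have := ηH0 H
  have := gn0 H 200
  have := gn0 H 250
  have := gn0 H 300
  have := gn0 H 700
  refine ⟨?_, ?_, ?_, ?_, ?_, ?_, ?_, ?_, ?_, ?_, ?_, ?_⟩ <;>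
    refine H.le_of_lg (by positivity) (by positivity) ?_ <;> lg_norm <;>
    simp only [H.lg_n, lg_t1 H, lg_un H, lg_gn H, lg_kk H, lg_ηH H, H.lg_r, H.lg_κ] <;>
    linarith [H.lg_s.1, H.lg_s.2, H.c_pos, H.η_pos]

end reg

set_option maxHeartbeats 800000 in
/-- **one root tilt** -/
theorem pt (hV : HV) (hL : HL) (hU : HU) (he : E42.HE) (β : ℝ) {C : ℝ} (hC : 1 ≤ C) :
    ∃ K : ℝ, C ≤ K ∧ ∀ {c0 C0 c η : ℝ} {A : ℕ} {p : Pm} {P : Pl} {m : ℕ} {a : ℝ} {E : CIn12.Ev},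
    Reg β c0 C0 A c η K p → c ≤ 1 / 10 ^ 6 → 1000 * η ≤ c → En C p P → Ad p P m a E →
    (D p P m a E).Err ≤ gn p 200 * un p →
    (D p P m a E).N1 ≤ p.s ^ 2 * (p.n : ℝ) ^ (-(3 : ℝ) / 10) →
    (R85.s2 (D p P m a E) - Sq p P m a) ^ 2 ≤ gn p 200 * un p * t1 p →
    E42.Hm (D p P m a E) (ηH p) → E42.Th (D p P m a E) ≤ p.κ ^ ((1 : ℝ) / 100) * un p →
    R85.Pz (D p P m a E) (p.J + 1) (kk p) (kk p)⁻¹ (kk p * E.X ^ 3) (1 / p.n) (kk p) (kk p) →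
    (∃ S0 : ℝ, R85.TW (D p P m a E) (τ p P m) S0 (E.X ^ 5) ∧
      |E42.Bq (D p P m a E) (τ p P m) S0| ≤ p.r ^ 3 ∧ |S0 - Sq p P m a| ≤ p.r ^ 3) →
    (R85.muU (D p P m a E) (τ p P m) ≤ gn p 250 * un p →
      R85.Rv (D p P m a E) (p.J + 1) ((D p P m a E).u 2) ≤ gn p 300 * un p) →
    (R85.muU (D p P m a E) (τ p P m) ≤ gn p 250 * un p → R85.ell2 (D p P m a E) ≤ gn p 250 * un p →
      R85.Rv (D p P m a E) (p.J + 1) ((D p P m a E).u 2) ≤ gn p 300 * un p →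
      |E42.dT (D p P m a E) (E42.omS (D p P m a E))| ≤ gn p 700 * un p) →
    |E42.T6 (D p P m a E) - E42.Kc (D p P m a E) - LowT (D p P m a E) (τ p P m)| ≤
      7 * (p.κ ^ ((1 : ℝ) / 100) * un p) := by
  obtain ⟨cE, CE, CE', p0, p1, p2, hE⟩ := R85.headE2' hU (β ^ 2) (C + 1)
  obtain ⟨CR, p3, hR⟩ := E42.r2cd hV hL hU he (β ^ 2)
  have p4 := one_div_pos.2 p0
  refine ⟨1 + C + CE + CE' + CR + 1 / cE, by linarith, ?_⟩
  intro c0 C0 c η A p P m a E H hc hη e h h1 h2 h3 h4 h5 z ⟨S0, tw, hB, hS⟩ h7 h8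
  obtain ⟨n1, n2, n3, n4, n5, n6, n7, n8, n9, n10, -, -⟩ := nums H hc hη
  have g1 := gn_le H hc hη (i := 200) (j := 300) (by norm_num) (by norm_num)
  have g2 := gn_le H hc hη (i := 250) (j := 300) (by norm_num) (by norm_num)
  have g3 := gn_le H hc hη (i := 250) (j := 700) (by norm_num) (by norm_num)
  have hK := H.K_le
  have L := H.num_le
  have ok : (D p P m a E).Ok (β ^ 2) := H.hβ ▸ h.ok
  have st := e.st (E := E) H h.sp h.inn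
  have sJ := e.sJ_ge H (by linarith) h
  have la := e.La_le (E := E) H h.inn
  obtain ⟨τ0, τ1⟩ := e.τ_mem H h.inn
  have eτ := τ_D (p := p) (P := P) (m := m) (a := a) (E := E)
  have eX : (D p P m a E).X = E.X := rfl
  have hW : (D p P m a E).W.isSome = false := rfl
  have b1 := H.β_le
  have b2 := H.A_le
  have b3 := H.log_le
  have b4 := H.log1
  have t0 := t10 H
  have r0 := H.r0
  have w0 : 0 < p.κ ^ ((1 : ℝ) / 100) * un p := mul_pos (rpow_pos_of_pos H.κ0 _) (un0 H)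
  rw [← h.env.X] at n3
  rw [← eX] at z tw n3
  generalize D p P m a E = X at *
  generalize τ p P m = τ at *
  generalize (p.n : ℝ) ^ η = Λ at *
  generalize p.κ ^ ((1 : ℝ) / 100) * un p = w at *
  generalize gn p 200 * un p = g at *
  have L0 : 0 < Λ := by linarith
  have L1 : 1 ≤ Λ := by linarith
  have e0 := ok.Err0
  have g0 := e0.trans h1
  obtain ⟨E1, O1⟩ := hE X τ S0 _ _ _ ok hW st tw (by positivity) sJ
  have l0 : 0 < X.lam := by rw [R85.lam_eq ok]; exact Pp.Ode3.D1_pos (st.adm ok) _ _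
  have l1 : X.lam ≤ 1 := by rw [R85.lam_eq ok]; exact Pp.Ode3.D1_le (st.adm ok) _ _
  have B1 : 1 / (t1 p / 4) + (C + 1) ≤ 5 * (1 / t1 p) := by
    have : Λ ≤ 1 / t1 p := (le_div_iff₀ t0).2 n2
    rw [one_div_div, div_eq_mul_one_div 4]
    linarith
  have B0 : 0 ≤ 1 / (t1 p / 4) + (C + 1) := by positivity
  generalize 1 / (t1 p / 4) + (C + 1) = B at *
  have q1 : (S0 - Sq p P m a) ^ 2 ≤ p.r ^ 6 :=
    (sq_le_sq' (abs_le.1 hS).1 (abs_le.1 hS).2).trans_eq (by ring)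
  have q2 : (R85.s2 X - S0) ^ 2 * B ≤ 20 * g :=
    (mul_le_mul (show _ ≤ 4 * (g * t1 p) by
      linarith [sq_nonneg (R85.s2 X + S0 - 2 * Sq p P m a)]) B1 B0 (by positivity)).trans_eq
      (by field_simp; ring)
  have x1 : X.X ^ 5 * X.N1 ≤ g :=
    (mul_le_mul_of_nonneg_left h2 (pow_nonneg ok.X0 5)).trans n3
  have el0 := R85.ell2_nonneg ok
  rw [mul_assoc (τ ^ 4 * X.lam ^ 2)] at E1
  obtain ⟨m1, m2⟩ := e2_num E1 τ0 (by linarith) (sq_nonneg _) (pow_le_one₀ l0.le l1)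
    (by positivity) q2 x1 e0 h1 (by linarith) (by linarith) p0 (by linarith) (eτ ▸ z.muU0 ok) el0 L
  replace m1 := m1.trans n4
  replace m2 := m2.trans n4
  have rv := h7 m1
  have dt := h8 m1 m2 rv
  have eb := eb_num (η := ηH p) ok hW z b1 L n5 (h1.trans g1) (eτ ▸ m1.trans g2) rv n6 n7
  have R := abs_le.1 (hR X _ τ _ S0 _ _ ok h4 st tw)
  have c1 : Λ * g ≤ w := by
    have := mul_le_mul_of_nonneg_right (pow_le_pow_right₀ L1 (show 1 ≤ 7 by norm_num)) g0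
    linarith
  have c2 : CR * X.Err ≤ Λ * g := mul_le_mul (by linarith) h1 e0 L0.le
  have c3 : τ * (X.X ^ 5 * X.N1) ≤ Λ * g :=
    mul_le_mul (by linarith) x1 (mul_nonneg (pow_nonneg ok.X0 5) ok.N10) L0.le
  have c4 : CR * E42.La X ^ 5 * E42.EB X (ηH p) ≤ w := by
    have d1 : C * A * log p.n ≤ Λ * Λ * Λ := by gcongr; linarith
    have d2 : E42.La X ≤ Λ ^ 4 := by
      have := mul_le_mul_of_nonneg_right L (show 0 ≤ Λ ^ 3 by positivity)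
      have := pow_le_pow_right₀ L1 (show 1 ≤ 3 by norm_num)
      linarith
    have d3 := zero_le_one.trans (E42.La1 ok)
    have d4 := E42.EB0 ok h4
    have d5 := d4.trans eb
    calc _ ≤ Λ * (Λ ^ 4) ^ 5 * (Λ ^ 6 * (kk p ^ 5 * (gn p 300 * un p))) := by gcongr; linarith
      _ = Λ ^ 27 * (kk p ^ 5 * (gn p 300 * un p)) := by ring
      _ ≤ _ := (mul_le_mul_of_nonneg_right (pow_le_pow_right₀ L1 (by norm_num))
        (nonneg_of_mul_nonneg_right d5 (by positivity))).trans n8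
  have c5 : |τ ^ 3 * X.lam / 2 * E42.Bq X τ S0 * R85.O X| ≤ w := by
    refine abs_le.2 (abs_le_of_sq_le_sq' (le_trans ?_ n9) w0.le)
    have d1 : E42.Bq X τ S0 ^ 2 ≤ p.r ^ 6 :=
      (sq_le_sq' (abs_le.1 hB).1 (abs_le.1 hB).2).trans_eq (by ring)
    have d2 : R85.O X ^ 2 ≤ Λ * (5 * (1 / t1 p)) * (gn p 250 * un p) :=
      O1.trans (by gcongr; linarith)
    have d3 : τ ^ 3 * X.lam / 2 ≤ Λ ^ 3 * 1 / 2 := by gcongr; linarith
    have d4 := el0.trans m2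
    have d6 : 0 ≤ Λ ^ 7 * p.r ^ 6 * (1 / t1 p * (gn p 250 * un p)) := by positivity
    have d5 := mul_le_mul_of_nonneg_right L d6
    have τp : 0 < τ := by linarith
    rw [mul_pow, mul_pow]
    calc _ ≤ (Λ ^ 3 * 1 / 2) ^ 2 * p.r ^ 6 * (Λ * (5 * (1 / t1 p)) * (gn p 250 * un p)) := by gcongr
      _ ≤ _ := by linarith only [d5, d6]
  have c6 := abs_le.1 c5
  simp only [E42.Mn] at R
  simp only [LowT]
  exact abs_le.2 ⟨by linarith [R.1, c6.2], by linarith [R.2, c6.1]⟩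

/-- **the flow at the END model** -/
theorem flwS_of (hβ : 1 < β) (hV : HV) (hL : HL) (hU : HU) (he : E42.HE) (h1 : ValS β)
    (h2 : JS β) (h3 : HmS β) (h4 : ThS β) (h5 : PzS β) (h6 : TwS β) (h7 : MvS β) (h8 : TeS β)
    (h9 : LwS β) : Gain β (FlwS (7 / 20)) := by
  unfold ValS JS HmS ThS PzS TwS MvS TeS LwS EvA at *
  refine Sml.gain (Sml.glueC hβ (enS hβ) ((((((((h1.and h2).and h3).and h4).and h5).and h6).and
    h7).and h8).and h9) fun C hC => ?_)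
  obtain ⟨K, CK, hp⟩ := pt hV hL hU he β hC
  refine fun c0 C0 _ _ => ⟨0, fun A _ => ⟨1 / 10 ^ 6, by positivity, fun c hc c0 =>
    ⟨c / 1000, by positivity, fun η hη _ => ⟨K, ?_⟩⟩⟩⟩
  intro p H e ⟨⟨⟨⟨⟨⟨⟨⟨g1, g2⟩, g3⟩, g4⟩, g5⟩, g6⟩, g7⟩, g8⟩, g9⟩ P sp
  replace e := e H.r_le_ye P sp
  replace hη : 1000 * η ≤ c := by linarith
  obtain ⟨-, -, -, -, -, -, -, -, -, -, n1, n2⟩ := nums H hc hη
  have L := H.num_le
  have hK := CK.trans H.K_le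
  refine ⟨(e.tot H).trans (le_trans ?_ n2), fun a a' Q w Q0 _ m m1 m2 => ?_⟩
  · have b2 := H.A_le
    have b3 := H.log_le
    have b4 := H.log1
    generalize (p.n : ℝ) ^ η = Λ at *
    have L0 : 0 < Λ := by linarith
    have d1 : C * A * log p.n ≤ Λ * Λ * Λ := by gcongr
    have := mul_le_mul_of_nonneg_right L (show 0 ≤ Λ ^ 3 by positivity)
    have := pow_le_pow_right₀ (show 1 ≤ Λ by linarith) (show 1 ≤ 3 by norm_num)
    linarith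
  obtain ⟨c', hl⟩ := g9 P m
  have one : ∀ x, In p m x → ∃ E, |6 * (Me p P).T m x - E42.Kc (D p P m x E) - c'| ≤
      8 * (p.κ ^ ((1 : ℝ) / 100) * un p) := fun x i => by
    obtain ⟨E, h, e1, e2⟩ := g1 P m x sp i
    have k1 := abs_le.1 (hp H hc hη e h e1 e2 (g2 _ _ _ _ h) (g3 _ _ _ _ h) (g4 _ _ _ _ h)
      (g5 _ _ _ _ h).1 (g6 _ _ _ _ h) (g7 _ _ _ _ h e1) (g8 _ _ _ _ h))
    have k2 := abs_le.1 (hl x E h)
    rw [E42.T6_cd] at k1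
    exact ⟨E, abs_le.2 ⟨by linarith [k1.1, k2.1], by linarith [k1.2, k2.2]⟩⟩
  obtain ⟨E, k1⟩ := one a ⟨m1, m2.le, w.lo, w.le.trans w.hi⟩
  obtain ⟨E', k2⟩ := one a' ⟨m1, m2.le, w.lo.trans w.le, w.hi⟩
  have i4 : p.Jp P < (Me p P).N := e.cl.i4
  rw [E42.Kc_cd _ m a _ _ none E (by have := jf_lt H; omega) (by omega) a' none E'] at k2
  have s0 := H.s0
  have u1 : un p ≤ (p.n : ℝ) ^ (-(5 : ℝ) / 6) * (Q * p.s ^ 2 + p.s ^ 5) :=
    mul_le_mul_of_nonneg_left (le_add_of_nonneg_left (by positivity)) (H.rp0 _).le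
  have w0 : 0 < p.κ ^ ((1 : ℝ) / 100) * un p := mul_pos (rpow_pos_of_pos H.κ0 _) (un0 H)
  rw [mul_assoc, le_inv_mul_iff₀ H.Λ0]
  refine le_trans ?_ (n1.trans u1)
  rw [sq, mul_assoc]
  refine mul_le_mul_of_nonneg_left ?_ H.Λ0.le
  have := mul_le_mul_of_nonneg_right L w0.le
  have k1 := abs_le.1 k1
  have k2 := abs_le.1 k2
  exact abs_le.2 ⟨by linarith [k1.2, k2.1], by linarith [k1.1, k2.2]⟩

end Crest.Agent.T156.Alt.R2

end
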