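import Crest.Agent.T156.CLfC_24

/-!
# Row 156, R2 (helper85): the top block on a spread plateau
-/

set_option autoImplicit false
set_option linter.unusedSectionVars false

noncomputable section

namespace Crest.Agent.T156.Alt.Tp85

open Real Finset
open Crest.Agent.T156.Alt.Md67 Crest.Agent.T156.Alt.Cost41 Crest.Agent.T156.Alt.Lb24

theorem abel (ρ z : ℕ → ℝ) {j K : ℕ} (h : j ≤ K) :
    ∑ i ∈ Ioc j K, (ρ i - ρ (i - 1)) * (1 - z (i - 1)) =
      ∑ i ∈ Ioc j K, (z i - z (i - 1)) * (ρ i - ρ j) + (1 - z K) * (ρ K - ρ j) := by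
  induction K, h using Nat.le_induction with
  | base => simp
  | succ b hb ih => rw [sum_Ioc_succ_top hb, sum_Ioc_succ_top hb, ih, Nat.add_sub_cancel]; ring

theorem exists_D {Y : ℝ} (h : 1 ≤ Y) : ∃ D : ℕ, Y ≤ 2 ^ D ∧ (D : ℝ) ≤ 2 * log Y + 1 := by
  have l0 := log_nonneg h
  refine ⟨⌈2 * log Y⌉₊, ?_, (Nat.ceil_lt_add_one (by positivity)).le⟩
  rw [← log_le_log_iff (by positivity) (by positivity), log_pow]
  nlinarith [Nat.le_ceil (2 * log Y), log_two_gt_d9]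

/-- the data -/
structure TI (S : Sc) (M : Md) (m : ℕ) (a : ℝ) (j0 n1 n2 D : ℕ) (σ x μ lm p γ u : ℝ) : Prop where
  cl : Cl S M
  lg : Lg M m a
  v0 : 0 < S.v
  jl : S.jl ≤ j0
  jn : j0 + n1 + n2 ≤ S.J
  n2a : 2 ≤ n2
  n2b : n2 ≤ n1
  n1a : S.C * (n1 * S.v) ≤ 1
  σ0 : 0 < σ
  σ1 : σ ≤ x * (S.ms (M.s j0) * S.v / (S.C * S.F))
  x0 : 0 < x
  x1 : x ≤ M.z j0
  μ0 : 0 < μ
  μ1 : μ ≤ M.z (S.J - 2) - M.z j0
  lm1 : S.C * lm ≤ 1
  lm2 : 2 * S.C * S.v ≤ lm
  den : ∀ k, S.J ≤ k → k < S.Jp → u ≤ 1 - M.z (k - 1) →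
    lm ≤ S.den (M.z (k - 1)) * (1 - M.z (k - 1))
  ue : S.ue ≤ u
  p0 : 0 < p
  loc : S.C * ∑ k ∈ Ioc j0 S.Jp, M.dz m a k * M.del m a k ^ 2 ≤ p ^ 2 * (n2 * S.v)
  γ1 : M.s S.Jp - M.s S.J ≤ γ
  hD : M.H M.N ≤ 2 ^ D * σ

/-- the rises against the majorant -/
def RR (S : Sc) (n1 n2 : ℕ) (σ lm p γ : ℝ) : ℝ :=
  (1 / n1 + (2 * p + γ + 2 * S.C * (n1 * S.v)) / n2 +
    2 * S.C * S.v / lm * (2 * p + γ + 2 * S.C * (n2 * S.v))) / σ

namespace TI

variable {S : Sc} {M : Md} {m : ℕ} {a : ℝ} {j0 n1 n2 D : ℕ} {σ x μ lm p γ u : ℝ}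
  (H : TI S M m a j0 n1 n2 D σ x μ lm p γ u)
include H

theorem C0 : 0 < S.C := by linarith [H.cl.C1]

theorem lm0 : 0 < lm := lt_of_lt_of_le (by have := H.C0; have := H.v0; positivity) H.lm2

theorem hΦ {i : ℕ} (h1 : j0 ≤ i) (h2 : i < S.Jp) : σ ≤ M.z i * (M.H (i + 1) - M.H i) := by
  have C0 := H.C0
  have v0 := H.v0
  have F0 : 0 < S.F := by linarith [H.cl.F1]
  have a1 := H.σ0.trans_le H.σ1
  refine H.σ1.trans (mul_le_mul (H.x1.trans (H.lg.zm h1)) (le_trans ?_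
    (H.cl.flr i (H.jl.trans h1) h2)) (pos_of_mul_pos_left' a1 H.x0).le (H.lg.z_nonneg i))
  have := H.cl.msm (H.cl.sm h1)
  gcongr
where pos_of_mul_pos_left' {a b : ℝ} (h : 0 < a * b) (ha : 0 < a) : 0 < b :=
  (mul_pos_iff_of_pos_left ha).1 h

theorem dz_sl {k : ℕ} (h1 : j0 < k) (h2 : k < S.J) :
    S.v / S.C ≤ M.dz m a k ∧ M.dz m a k ≤ S.C * S.v := by
  have := H.cl.zs (k - 1) (by have := H.jl; have := H.cl.i1; omega) (by omega)
  rwa [Nat.sub_add_cancel (by omega), ← dz_up (m := m) (a := a) H.lg.toLeg (by omega)] at this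

theorem dz_pl {k : ℕ} (h1 : S.J ≤ k) (h2 : k < S.Jp) (h3 : u ≤ 1 - M.z (k - 1)) :
    M.dz m a k ≤ S.C * S.v / lm * (1 - M.z (k - 1)) := by
  have a1 := (H.cl.plat k h1 h2).2
  rw [← dz_up (m := m) (a := a) H.lg.toLeg (by have := H.cl.i2; omega)] at a1
  have a2 := mul_le_mul_of_nonneg_left (H.den k h1 h2 h3) (H.lg.dz_nonneg k)
  have a3 := mul_le_mul_of_nonneg_right a1 (sub_nonneg.2 (H.lg.z1 (k - 1)))
  rw [div_mul_eq_mul_div, le_div_iff₀ H.lm0]
  linarith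

theorem part {T : Finset ℕ} (h : T ⊆ Ioc j0 S.Jp) :
    S.C * ∑ k ∈ T, M.dz m a k * M.del m a k ^ 2 ≤ p ^ 2 * (n2 * S.v) :=
  (mul_le_mul_of_nonneg_left (sum_le_sum_of_subset_of_nonneg h fun k _ _ =>
    mul_nonneg (H.lg.dz_nonneg k) (sq_nonneg _)) H.C0.le).trans H.loc

theorem n2v : (n2 : ℝ) * S.v ≤ 1 := by
  have : (n2 : ℝ) ≤ n1 := by exact_mod_cast H.n2b
  have v0 := H.v0
  have : (n2 : ℝ) * S.v ≤ n1 * S.v := by gcongr
  have := mul_le_mul_of_nonneg_right H.cl.C1 (show 0 ≤ (n1 : ℝ) * S.v by positivity)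
  linarith [H.n1a]

/-- upper location below the corner -/
theorem rb_hi {j : ℕ} (hj : j ≤ S.J) : M.rb m a j ≤ M.q S.Jp + p := by
  have i2 := H.cl.i2
  have i3 := H.cl.i3
  have jn := H.jn
  have n2 := H.n2a
  refine le_of_not_gt fun h => ?_
  have a1 : ∑ k ∈ Ioc (S.J - 1) S.Jp, M.dz m a k * (M.rb m a j - M.q S.Jp) ^ 2 ≤
      ∑ k ∈ Ioc (S.J - 1) S.Jp, M.dz m a k * M.del m a k ^ 2 := sum_le_sum fun k hk => by
    obtain ⟨k1, k2⟩ := mem_Ioc.1 hk
    refine mul_le_mul_of_nonneg_left (pow_le_pow_left₀ (by linarith [H.p0]) ?_ 2) (H.lg.dz_nonneg k)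
    exact sub_le_sub (rb_mono H.lg.m0 (by omega)) (q_mono H.cl k2 H.cl.i4.le)
  rw [← sum_mul, sum_dz H.lg.toLeg (by omega), H.cl.top _ le_rfl] at a1
  have a2 := (mul_le_mul_of_nonneg_left a1 H.C0.le).trans (H.part (Ioc_subset_Ioc_left (by omega)))
  have a3 : 1 ≤ S.C * (1 - M.z (S.J - 1)) := by
    rw [← div_le_iff₀' H.C0]; linarith [H.cl.atom.2]
  have a4 : p ^ 2 < (M.rb m a j - M.q S.Jp) ^ 2 := pow_lt_pow_left₀ (by linarith) H.p0.le two_ne_zero
  have a5 := mul_le_mul_of_nonneg_right a3 (sq_nonneg (M.rb m a j - M.q S.Jp))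
  have a6 := mul_le_of_le_one_right (sq_nonneg p) H.n2v
  linarith

/-- lower location at the distance `n` from the corner -/
theorem rb_lo {n : ℕ} (h0 : n2 ≤ n) (h1 : n ≤ n1) :
    M.q S.Jp - (γ + 2 * S.C * (n * S.v)) - p ≤ M.rb m a (S.J - n) := by
  have i3 := H.cl.i3
  have i4 := H.cl.i4
  have jn := H.jn
  have n2' := H.n2a
  have C0 := H.C0
  have v0 := H.v0
  have b1 : M.q (S.J - n - n2) - p ≤ M.rb m a (S.J - n) := by
    refine le_of_not_gt fun h => ?_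
    have a1 : ∑ k ∈ Ioc (S.J - n - n2) (S.J - n), S.v / S.C *
        (M.q (S.J - n - n2) - M.rb m a (S.J - n)) ^ 2 ≤
        ∑ k ∈ Ioc (S.J - n - n2) (S.J - n), M.dz m a k * M.del m a k ^ 2 := sum_le_sum fun k hk => by
      obtain ⟨k1, k2⟩ := mem_Ioc.1 hk
      refine mul_le_mul (H.dz_sl (by omega) (by omega)).1 ?_ (sq_nonneg _) (H.lg.dz_nonneg k)
      rw [← neg_sq (M.del m a k), Md.del, neg_sub]
      exact pow_le_pow_left₀ (by linarith [H.p0])
        (sub_le_sub (q_mono H.cl k1.le (by omega)) (rb_mono H.lg.m0 k2)) 2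
    rw [sum_const, Nat.card_Ioc, show S.J - n - (S.J - n - n2) = n2 by omega, nsmul_eq_mul] at a1
    have a2 := (mul_le_mul_of_nonneg_left a1 C0.le).trans
      (H.part (Ioc_subset_Ioc (by omega) (by omega)))
    have a4 : p ^ 2 < (M.q (S.J - n - n2) - M.rb m a (S.J - n)) ^ 2 :=
      pow_lt_pow_left₀ (by linarith) H.p0.le two_ne_zero
    have n0 : (0 : ℝ) < n2 := by exact_mod_cast (by omega : 0 < n2)
    have a5 := mul_lt_mul_of_pos_right a4 (mul_pos n0 v0)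
    rw [show S.C * (n2 * (S.v / S.C * (M.q (S.J - n - n2) - M.rb m a (S.J - n)) ^ 2)) =
      (M.q (S.J - n - n2) - M.rb m a (S.J - n)) ^ 2 * (n2 * S.v) by field_simp] at a2
    linarith
  have b2 := q_lip H.cl (show S.J - n - n2 ≤ S.Jp by omega) i4.le
  have b3 := tel_ge (f := fun k => -M.s k) (c := -(S.C * S.v)) (show S.J - n - n2 ≤ S.J by omega)
    fun k _ hk => by linarith [(H.cl.ss k hk).2]
  rw [← Nat.cast_sub (by omega), show S.J - (S.J - n - n2) = n + n2 by omega] at b3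
  push_cast at b3
  have b4 : (n2 : ℝ) ≤ n := by exact_mod_cast h0
  have b5 := mul_le_mul_of_nonneg_right b4 (mul_pos C0 v0).le
  linarith [H.γ1]

theorem γ0 : 0 ≤ γ := (sub_nonneg.2 (H.cl.sm H.cl.i3)).trans H.γ1

/-- the rise against the weight above -/
theorem rise : ∑ i ∈ Ioc (S.J - n2) S.Jp, (M.rb m a i - M.rb m a (i - 1)) * (1 - M.z (i - 1)) ≤
    2 * p + γ + 2 * S.C * (n2 * S.v) := by
  have i3 := H.cl.i3
  have jn := H.jn
  have n2' := H.n2b
  have n2a := H.n2a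
  have p0 := H.p0
  have C0 := H.C0
  have v0 := H.v0
  have γ0 := H.γ0
  rw [abel _ _ (by omega), H.cl.top _ le_rfl, sub_self, zero_mul, add_zero]
  have a1 := H.rb_lo le_rfl n2'
  refine (sum_le_sum (g := fun k => M.dz m a k * (p / 2 + (p + γ + 2 * S.C * (n2 * S.v))) +
    1 / (2 * p) * (M.dz m a k * M.del m a k ^ 2)) fun k hk => ?_).trans ?_
  · obtain ⟨k1, k2⟩ := mem_Ioc.1 hk
    rw [← dz_up (m := m) (a := a) H.lg.toLeg (by omega), mul_left_comm (1 / (2 * p)), ← mul_add]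
    refine mul_le_mul_of_nonneg_left ?_ (H.lg.dz_nonneg k)
    have b1 := q_mono H.cl k2 H.cl.i4.le
    have b2 : M.del m a k ≤ p / 2 + 1 / (2 * p) * M.del m a k ^ 2 := by
      have : p / 2 + 1 / (2 * p) * M.del m a k ^ 2 - M.del m a k =
        1 / (2 * p) * (M.del m a k - p) ^ 2 := by field_simp; ring
      have : 0 ≤ 1 / (2 * p) * (M.del m a k - p) ^ 2 := by positivity
      linarith
    rw [Md.del] at b2 ⊢
    linarith
  · rw [sum_add_distrib, ← sum_mul, ← mul_sum]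
    have b1 := mul_le_of_le_one_left (show 0 ≤ p / 2 + (p + γ + 2 * S.C * (n2 * S.v)) by positivity)
      ((H.lg.sum_dz_le (Ioc (S.J - n2) S.Jp)).trans (sub_le_self 1 H.lg.a0))
    have b2 := H.part (T := Ioc (S.J - n2) S.Jp) (Ioc_subset_Ioc_left (by omega))
    have b3 := mul_le_of_le_one_right (sq_nonneg p) H.n2v
    have b4 := mul_le_mul_of_nonneg_right H.cl.C1 (sum_nonneg (s := Ioc (S.J - n2) S.Jp)
      fun k _ => mul_nonneg (H.lg.dz_nonneg k) (sq_nonneg (M.del m a k)))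
    have b5 := mul_le_mul_of_nonneg_left (show ∑ k ∈ Ioc (S.J - n2) S.Jp,
      M.dz m a k * M.del m a k ^ 2 ≤ p ^ 2 by linarith) (show 0 ≤ 1 / (2 * p) by positivity)
    rw [show 1 / (2 * p) * p ^ 2 = p / 2 by field_simp] at b5
    linarith

/-- **the top block** -/
theorem top : ∃ N, Top M m a (S.J - 1) N
    (1 / (x * (n1 * σ * m)) + (2 + 1 / μ) *
      (bb D m (RR S n1 n2 σ lm p γ) (S.C * S.v / lm) x / x)) u := by
  classical
  have i3 := H.cl.i3
  have i4 := H.cl.i4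
  have jn := H.jn
  have n2b := H.n2b
  have n2a := H.n2a
  have C0 := H.C0
  have v0 := H.v0
  have σ0 := H.σ0
  have l0 := H.lm0
  have p0 := H.p0
  have γ0 := H.γ0
  have G := H.lg
  have ex : ∃ N, S.J - 1 ≤ N ∧ 1 - M.z N ≤ u := ⟨S.Jp - 1, by omega, H.cl.last.trans H.ue⟩
  obtain ⟨N, ⟨N1, N2⟩, N3, N4⟩ : ∃ N, (S.J - 1 ≤ N ∧ 1 - M.z N ≤ u) ∧ N ≤ S.Jp - 1 ∧
      ∀ k < N, ¬(S.J - 1 ≤ k ∧ 1 - M.z k ≤ u) := ⟨Nat.find ex, Nat.find_spec ex,
    Nat.find_min' ex ⟨by omega, H.cl.last.trans H.ue⟩, fun k hk => Nat.find_min ex hk⟩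
  have pl : ∀ k, S.J ≤ k → k ≤ N → M.dz m a k ≤ S.C * S.v / lm * (1 - M.z (k - 1)) :=
    fun k h1 h2 => H.dz_pl h1 (by omega)
      (le_of_not_ge fun h => N4 (k - 1) (by omega) ⟨by omega, h⟩)
  have Φ1 : ∀ i, j0 ≤ i → i ≤ N → σ ≤ M.z i * (M.H (i + 1) - M.H i) := fun i h1 h2 =>
    H.hΦ h1 (by omega)
  have n10 : (0 : ℝ) < n1 := by exact_mod_cast (by omega : 0 < n1)
  have n20 : (0 : ℝ) < n2 := by exact_mod_cast (by omega : 0 < n2)
  have n21 : (n2 : ℝ) ≤ n1 := by exact_mod_cast n2b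
  obtain ⟨c, hc⟩ : ∃ c, c = S.C * S.v / lm := ⟨_, rfl⟩
  have c0 : 0 < c := by rw [hc]; positivity
  have c1 : S.C * (S.C * S.v) ≤ c := by
    rw [hc, le_div_iff₀ l0]
    nlinarith [mul_le_mul_of_nonneg_left H.lm1 (mul_pos C0 v0).le]
  have c2 : 2 * c ≤ 1 := by rw [hc, ← mul_div_assoc, div_le_one l0]; linarith [H.lm2]
  have c3 : S.C * S.v ≤ c := le_trans (le_mul_of_one_le_left (by positivity) H.cl.C1) c1
  have w1 : S.C * S.v ≤ 1 / n1 := by rw [le_div_iff₀ n10]; linarith [H.n1a]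
  have w2 : 1 / (n1 : ℝ) ≤ 1 / n2 := one_div_le_one_div_of_le n20 n21
  have z1 : ∀ k, 0 ≤ 1 - M.z k := fun k => sub_nonneg.2 (G.z1 k)
  -- one node against the weight above
  have nd : ∀ j k, j0 < k → k ≤ N → j ≤ k → M.dz m a k ≤ c * (1 - M.z (j - 1)) := fun j k a b e => by
    rcases lt_or_ge k S.J with h | h
    · have a3 : 1 ≤ S.C * (1 - M.z (j - 1)) := by
        rw [← div_le_iff₀' C0]; linarith [H.cl.atom.2, G.zm (show j - 1 ≤ S.J - 1 by omega)]
      have := mul_le_mul_of_nonneg_right a3 (mul_pos C0 v0).le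
      have := mul_le_mul_of_nonneg_right c1 (z1 (j - 1))
      linarith [(H.dz_sl a h).2]
    · exact (hc ▸ pl k h b).trans (mul_le_mul_of_nonneg_left
        (by linarith [G.zm (show j - 1 ≤ k - 1 by omega)]) c0.le)
  obtain ⟨w, hw⟩ : ∃ w : ℕ → ℝ, w = fun j => if j ≤ S.J - n1 then 1 / (n1 : ℝ) else
    if j ≤ S.J - n2 then 1 / (n2 : ℝ) else 2 * c * (1 - M.z (j - 1)) := ⟨_, rfl⟩
  have w0 : ∀ j, 0 ≤ w j := fun j => by
    have := z1 (j - 1)
    rw [hw]; dsimp only; split_ifs <;> positivity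
  have wa : ∀ j ≤ S.J - n2, S.C * S.v ≤ w j ∧ 1 ≤ w j * ((S.J : ℝ) - j) := fun j hj => by
    rw [hw]; dsimp only
    split_ifs with h
    · have : (n1 : ℝ) + j ≤ S.J := by exact_mod_cast (by omega : n1 + j ≤ S.J)
      exact ⟨w1, by rw [one_div, inv_mul_eq_div, one_le_div n10]; linarith⟩
    · have : (n2 : ℝ) + j ≤ S.J := by exact_mod_cast (by omega : n2 + j ≤ S.J)
      exact ⟨w1.trans w2, by rw [one_div, inv_mul_eq_div, one_le_div n20]; linarith⟩
  have wb : ∀ j, S.J - n2 < j → w j = 2 * c * (1 - M.z (j - 1)) := fun j hj => by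
    rw [hw]; dsimp only; rw [if_neg (by omega), if_neg (by omega)]
  have fin : ∀ {y t F : ℝ} {j : ℕ}, y ≤ w j * t → t * σ ≤ F → y ≤ w j / σ * F := fun {y t F j} a b =>
    a.trans (le_trans (le_of_eq (by field_simp))
      (mul_le_mul_of_nonneg_left b (div_nonneg (w0 j) σ0.le)))
  have J : Mj M m a (M.dz m a) (fun j => w j / σ) σ c x (RR S n1 n2 σ lm p γ) j0 N D := by
    refine ⟨σ0, by omega, by omega, Φ1, (Phi_le G (by omega) (by omega)).trans H.hD,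
      fun k _ _ => G.dz_nonneg k, c0.le, fun k a b => (nd k k a b le_rfl).trans
        (mul_le_of_le_one_right c0.le (sub_le_self _ (G.z_nonneg _))),
      fun j _ _ => div_nonneg (w0 j) σ0.le, fun j k h1 h2 h3 => ?_, fun k h1 h2 => ?_, H.x0, H.x1, ?_⟩
    · refine fin (t := (k : ℝ) - j) ?_ (Phi_ge h2.le fun i a b => Φ1 i (h1.trans a) (by omega))
      have cd : ∀ y, (∀ i ∈ Ioc j k, M.dz m a i ≤ y) → ∑ i ∈ Ioc j k, M.dz m a i ≤
          y * ((k : ℝ) - j) := fun y hy => by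
        have := sum_le_card_nsmul _ _ y hy
        rwa [Nat.card_Ioc, nsmul_eq_mul, Nat.cast_sub h2.le, mul_comm] at this
      rcases le_or_gt j (S.J - n2) with h | h
      · rcases lt_or_ge k S.J with e | e
        · exact cd _ fun i hi => (H.dz_sl (h1.trans_lt (mem_Ioc.1 hi).1)
            ((mem_Ioc.1 hi).2.trans_lt e)).2.trans (wa j h).1
        · have : (S.J : ℝ) ≤ k := by exact_mod_cast e
          exact ((G.sum_dz_le _).trans (sub_le_self 1 G.a0)).trans ((wa j h).2.trans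
            (mul_le_mul_of_nonneg_left (by linarith) (w0 j)))
      · refine cd _ fun i hi => (nd j i (h1.trans_lt (mem_Ioc.1 hi).1) ((mem_Ioc.1 hi).2.trans h3)
          (mem_Ioc.1 hi).1.le).trans ?_
        rw [wb j h]
        linarith [mul_nonneg c0.le (z1 (j - 1))]
    · refine fin (t := 1) ?_ ((one_mul σ).trans_le (Φ1 k h1.le h2))
      rw [mul_one]
      rcases le_or_gt (k + 1) (S.J - n2) with h | h
      · exact (H.dz_sl h1 (by omega)).2.trans (wa _ h).1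
      · have a1 := nd k k h1 h2 le_rfl
        have a2 := dz_up (m := m) (a := a) G.toLeg (show 0 < k by omega)
        have a3 := mul_le_mul_of_nonneg_right c2 (G.dz_nonneg k)
        rw [wb _ h, Nat.add_sub_cancel]
        nlinarith
    · have r0 : ∀ j, 0 ≤ M.rb m a j - M.rb m a (j - 1) := fun j =>
        sub_nonneg.2 (rb_mono G.m0 (Nat.sub_le _ _))
      rw [RW_split _ _ (j1 := S.J - n2) (by omega) (by omega),
        RW_split _ _ (j1 := S.J - n1) (by omega) (by omega), RW,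
        sum_congr rfl (g := fun j => (M.rb m a j - M.rb m a (j - 1)) * (1 / n1 / σ)) fun j hj => by
          rw [hw]; dsimp only; rw [if_pos (mem_Ioc.1 hj).2],
        sum_congr (s₁ := Ioc (S.J - n1) (S.J - n2)) rfl
          (g := fun j => (M.rb m a j - M.rb m a (j - 1)) * (1 / n2 / σ)) fun j hj => by
          rw [hw]; dsimp only; rw [if_neg (mem_Ioc.1 hj).1.not_ge, if_pos (mem_Ioc.1 hj).2],
        sum_congr (s₁ := Ioc (S.J - n2) (N + 1)) rfl (g := fun j => 2 * c / σ *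
          ((M.rb m a j - M.rb m a (j - 1)) * (1 - M.z (j - 1)))) fun j hj => by
          rw [wb j (mem_Ioc.1 hj).1]; ring,
        ← sum_mul, ← sum_mul, ← mul_sum, tele _ (by omega), tele _ (by omega),
        show w j0 = 1 / n1 by rw [hw]; exact if_pos (by omega)]
      have a1 := mul_le_mul_of_nonneg_left ((sum_le_sum_of_subset_of_nonneg
        (Ioc_subset_Ioc_right (show N + 1 ≤ S.Jp by omega)) fun j _ _ =>
          mul_nonneg (r0 j) (z1 _)).trans H.rise) (show 0 ≤ 2 * c / σ by positivity)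
      have a2 := mul_le_mul_of_nonneg_right (rb_le_one (M := M) (a := a) G.m0 (S.J - n1))
        (show 0 ≤ 1 / n1 / σ by positivity)
      have a3 := mul_le_mul_of_nonneg_right (show M.rb m a (S.J - n2) - M.rb m a (S.J - n1) ≤
        2 * p + γ + 2 * S.C * (n1 * S.v) by
          linarith [H.rb_hi (Nat.sub_le S.J n2), H.rb_lo n2b le_rfl])
        (show 0 ≤ 1 / n2 / σ by positivity)
      refine le_trans (by linarith) ((add_le_add (add_le_add a2 a3) a1).trans_eq ?_)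
      rw [RR, hc]; ring
  refine ⟨N, (J.top G (b := S.J - 1) (by omega) (by omega) H.μ0 H.μ1 (s := n1 * σ) (by positivity)
    (le_trans (mul_le_mul_of_nonneg_right ?_ σ0.le) (Phi_ge (by omega) fun i a b =>
      Φ1 i (by omega) (by omega)))).mono (hc ▸ le_rfl) N2⟩
  rw [← Nat.cast_sub (by omega)]
  exact_mod_cast (by omega)

end TI

end Crest.Agent.T156.Alt.Tp85

end
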