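import Crest.Agent.T156.R2W_40
import Crest.Agent.T156.R2EB_42

/-!
# Row 156, R2 (helper40): numbers of a value record and the test record built on it
-/

set_option autoImplicit false
set_option linter.unusedSectionVars false

noncomputable section

namespace Crest.Agent.T156.Cas.C40.R40

open Real Finset
open Crest.Agent.T157.E Crest.Agent.T157.Casc Crest.Agent.T157.SL
open CD Et5

/-- the numbers: losses `≤ Λ`, errors `≤ ε` -/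
structure Nm (D : CD) (τ0 : ℝ) (P : ℕ) (A : ℕ → ℝ) (Λ ε : ℝ) : Prop where
  val : D.W = none
  X0 : 0 < D.X
  JP : D.J < P
  PK : P ≤ D.K
  t2 : τ0 ^ 2 ≤ Λ
  la : E42.La D ≤ Λ
  eB : ∀ j ∈ D.up, D.e j ≤ Λ
  V : 1 + D.sv (fun _ => 1) D.J ≤ Λ
  F : D.F0 (D.J + 1) ≤ Λ
  ck : ∀ t ∈ D.up, t < P → R85.ds D t ≤ Λ * D.dx t
  lg : D.sv (fun j => 1 / D.e j) D.J ≤ Λ
  lK : log ((D.K : ℝ) + 2) ≤ Λ
  w1 : Λ * D.X ≤ 1
  w2 : 2 ≤ Λ * ex D.B (P - 1)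
  add : D.Add A
  ε1 : ε ≤ 1
  err : D.Err ≤ ε
  nn : D.N1 * D.N2 ≤ ε
  eA : D.I (fun t => D.e t * A t) ≤ ε
  eu : D.I (fun t => D.e t ^ 2 * D.u 2 t) ≤ ε
  mv : R85.Rv D P (D.u 2) ≤ ε
  tl : √D.tl ≤ ε
  dx : ∀ t ∈ D.up, P ≤ t → D.dx t ≤ ε

/-- sums against `|ω|` -/
def Jw (D : CD) (ω a : ℕ → ℝ) : ℝ := ∑ j ∈ D.up, |ω j| * a j

theorem Jw_mono {D : CD} (ω : ℕ → ℝ) {a b : ℕ → ℝ} (h : ∀ j ∈ D.up, a j ≤ b j) :
    Jw D ω a ≤ Jw D ω b := (E42.wi D ω).Iw_mono h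
theorem Jw_add (D : CD) (ω a b : ℕ → ℝ) : Jw D ω (fun j => a j + b j) = Jw D ω a + Jw D ω b :=
  (E42.wi D ω).Iw_add a b
theorem Jw_const (D : CD) (ω : ℕ → ℝ) (c : ℝ) : Jw D ω (fun _ => c) = c * Jw D ω fun _ => 1 :=
  (E42.wi D ω).Iw_const c
theorem Jw0 {D : CD} (ω : ℕ → ℝ) {a : ℕ → ℝ} (h : ∀ j ∈ D.up, 0 ≤ a j) : 0 ≤ Jw D ω a :=
  (E42.wi D ω).Iw0 h

theorem am (a b : ℝ) : a * b ≤ (a ^ 2 + b ^ 2) / 2 := by nlinarith [sq_nonneg (a - b)]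

section ok
variable {D : CD} {τ0 : ℝ} (h : D.Ok τ0)
include h

theorem ex_e {j : ℕ} (hj : j ∈ D.up) : ex D.B j ≤ D.e j := by
  refine le_trans (le_min ?_ (le_add_of_nonneg_right (h.sig0 (mem_up.1 hj).2.le))) (h.esc j hj)
  rw [← h.sum_dx]
  exact h.sum_dx_one fun i hi => by have := mem_range.1 hi; have := mem_up.1 hj; omega

theorem dx_dv {j : ℕ} (hj : j ∈ D.up) : D.dx j ≤ D.dv j := by
  unfold CD.dv
  split_ifs
  · exact le_trans (by simpa using h.sum_dx_le (A := {j}) (j := j) (by simp)) (ex_e h hj)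
  · linarith [h.sig_le (Nat.sub_le j 1) (mem_up.1 hj).2.le, h.tau_mono (Nat.sub_le j 1),
      h.dx0 (j - 1)]

theorem I_sv {F : ℕ → ℝ} (hF : ∀ j, 0 ≤ F j) : D.I F ≤ D.sv F D.J :=
  sum_le_sum fun j hj => mul_le_mul_of_nonneg_right (dx_dv h hj) (hF j)

theorem sub_I {s : Finset ℕ} (hs : s ⊆ D.up) {a : ℕ → ℝ} (ha : ∀ j ∈ D.up, 0 ≤ a j) :
    ∑ j ∈ s, D.dx j * a j ≤ D.I a :=
  sum_le_sum_of_subset_of_nonneg hs fun t ht _ => mul_nonneg (h.dx0 t) (ha t ht)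

theorem I_sq (a : ℕ → ℝ) : D.I a ^ 2 ≤ D.I fun j => a j ^ 2 := by
  have := I_cs h a fun _ => 1
  simp only [mul_one, one_pow] at this
  exact this.trans (mul_le_of_le_one_right (h.I0 fun _ _ => sq_nonneg _) (I_one h))

theorem ev0 (t : ℕ) : 0 ≤ D.e t * √(D.v t t) := mul_nonneg (h.e0 t) (sqrt_nonneg _)

theorem ev_sq (t : ℕ) : (D.e t * √(D.v t t)) ^ 2 = D.e t ^ 2 * D.v t t := by
  rw [mul_pow, sq_sqrt (D.v0 t t)]

theorem v_anti {y i j : ℕ} (hi : y ≤ i) (hj : i ≤ j) : D.v y j ≤ D.v y i := by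
  rw [Vl21.v_eq D h.pos, Vl21.v_eq D h.pos]
  exact node_mono wt_one90 (Eg33.eg_vz wt_one90 _ _ y j) (Eg33.eg_vz wt_one90 _ _ y i)
    (Eg33.vz_anti wt_one90 _ _ hi hj) _ y 0

end ok

namespace Nm

variable {D : CD} {τ0 : ℝ} {P : ℕ} {A : ℕ → ℝ} {Λ ε : ℝ} (N : Nm D τ0 P A Λ ε) (h : D.Ok τ0)
include N h

theorem L1 : 1 ≤ Λ := le_trans (le_add_of_nonneg_right (h.sig0 le_rfl)) N.la
theorem L0 : 0 ≤ Λ := zero_le_one.trans (N.L1 h)
theorem ε0 : 0 ≤ ε := (sqrt_nonneg _).trans N.tl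
theorem ep (j : ℕ) : 0 < D.e j := N.X0.trans_le (h.eX j)
theorem E0 : D.E0 ≤ ε := by
  have := N.err
  rw [Err_val (by rw [N.val]; rfl)] at this
  linarith [h.Ig30]
theorem g3 : D.I (fun j => D.e j * D.g j ^ 3) ≤ ε := by
  have := N.err
  rw [Err_val (by rw [N.val]; rfl)] at this
  linarith [h.E00]
theorem pw {i j : ℕ} (k : i ≤ j) : Λ ^ i * ε ≤ Λ ^ j * ε :=
  mul_le_mul_of_nonneg_right (pow_le_pow_right₀ (N.L1 h) k) (N.ε0 h)
theorem X6 : D.X ^ 6 ≤ ε := h.X6_le.trans (N.E0 h)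
theorem N13 : D.N1 ^ 3 ≤ ε := by
  have := mul_le_mul_of_nonneg_left (N1_sq h) h.N10
  linarith [N.nn]
theorem e2v : D.I (fun t => D.e t ^ 2 * D.v t t) ≤ ε := by
  have := h.Lad0_parts
  have k := h.Lad0_le.trans (N.E0 h)
  rw [Lad0] at k
  linarith [this.1, this.2.2]
theorem eS : D.I (fun t => D.e t * ∑ y ∈ Ico 1 t, D.dx y * D.v y t) ≤ ε := by
  have := h.Lad0_parts
  have k := h.Lad0_le.trans (N.E0 h)
  rw [Lad0] at k
  linarith [this.1, this.2.1]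
theorem Iev : D.I (fun t => D.e t * √(D.v t t)) ^ 2 ≤ ε := by
  have := I_sq h fun t => D.e t * √(D.v t t)
  simp only [ev_sq h] at this
  exact this.trans (N.e2v h)
theorem VF : D.sv D.f0 D.J ^ 2 + D.I (fun j => D.f0 j ^ 2) ≤ ε := by
  have k := h.VF_le.trans (N.E0 h)
  rw [CD.VF] at k
  linarith [I_sv h (F := fun j => D.f0 j ^ 2) fun _ => sq_nonneg _]
theorem sf : D.sv D.f0 D.J ^ 2 ≤ ε := by
  linarith [N.VF h, h.I0 (a := fun j => D.f0 j ^ 2) fun _ _ => sq_nonneg _]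
theorem If : D.I (fun j => D.f0 j ^ 2) ≤ ε := by linarith [N.VF h, sq_nonneg (D.sv D.f0 D.J)]
theorem Ie : D.I (fun j => 1 / D.e j) ≤ Λ :=
  (I_sv h fun j => (one_div_pos.2 (N.ep h j)).le).trans N.lg
theorem fs {F : ℕ → ℝ} (hF : ∀ j, 0 ≤ F j) (ha : Antitone F) {c : ℝ} (hc : F (D.J + 1) ≤ c)
    {j : ℕ} (hj : D.J ≤ j) : D.fs F j ≤ c * Λ :=
  (fs_le h hF ha hc le_rfl hj).trans (mul_le_mul_of_nonneg_left N.V ((hF _).trans hc))
theorem gq {j : ℕ} (hj : j ∈ D.up) : D.gq j ≤ D.X ^ 3 := h.stt N.val j hj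

/-- the Hardy term -/
theorem hardy : D.I (fun j => √(D.v j j) * D.lw (fun k => D.e k * √(D.v k k)) j) ≤ Λ * ε := by
  have ε0 := N.ε0 h
  have k := I_cs h (fun j => D.e j * √(D.v j j))
    fun j => D.lw (fun k => D.e k * √(D.v k k)) j / D.e j
  simp only [ev_sq h] at k
  have k2 : D.I (fun j => (D.lw (fun k => D.e k * √(D.v k k)) j / D.e j) ^ 2) ≤
      D.I fun j => ε * (1 / D.e j) := h.I_mono fun j hj => by
    have e := N.ep h j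
    have c := cs (Ioo D.J j) (μ := D.dx) (ν := D.dx) (fun t _ => (abs_of_nonneg (h.dx0 t)).le)
      fun k => D.e k * √(D.v k k)
    simp only [ev_sq h] at c
    have c2 := mul_le_mul ((h.sum_dx_le (A := Ioo D.J j) fun i hi => (mem_Ioo.1 hi).2.le).trans
      (ex_e h hj)) ((sub_I h (s := Ioo D.J j) (Ioo_subset_Ioo_right (mem_up.1 hj).2.le)
        fun t _ => mul_nonneg (sq_nonneg (D.e t)) (D.v0 t t)).trans (N.e2v h))
      (sum_nonneg fun t _ => mul_nonneg (h.dx0 t) (mul_nonneg (sq_nonneg _) (D.v0 t t))) e.le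
    rw [div_pow, div_le_iff₀ (pow_pos e 2)]
    refine (c.trans c2).trans_eq ?_
    field_simp
  rw [D.I_mul] at k2
  have k3 := mul_le_mul (N.e2v h) (k2.trans (mul_le_mul_of_nonneg_left (N.Ie h) ε0))
    (h.I0 fun _ _ => sq_nonneg _) ε0
  have e : (fun j => D.e j * √(D.v j j) * (D.lw (fun k => D.e k * √(D.v k k)) j / D.e j)) =
      fun j => √(D.v j j) * D.lw (fun k => D.e k * √(D.v k k)) j := funext fun j => by
    have := (N.ep h j).ne'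
    field_simp
  rw [e] at k
  refine le_of_pow_le_pow_left₀ two_ne_zero (mul_nonneg (N.L0 h) ε0) ?_
  nlinarith [mul_nonneg (mul_nonneg (N.L0 h) (sub_nonneg.2 (N.L1 h))) (sq_nonneg ε)]

end Nm

/-- the second-round envelope -/
def G2 (D : CD) (Λ ε : ℝ) (j : ℕ) : ℝ := min (D.G0 j) √(Λ * ε / D.e j)

/-- the test record -/
def tst (D : CD) (ω : ℕ → ℝ) (c : ℝ) (G : ℕ → ℝ) (z : ℝ) : CD :=
  { D with W := some ω, F1 := fun _ => c, f1 := fun _ => c, Z := z, G0 := G }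

/-- the marked numbers -/
structure Mk (D : CD) (ω : ℕ → ℝ) (w y : ℝ) : Prop where
  w : Jw D ω (fun _ => 1) ≤ w
  m1 : Jw D ω (fun j => D.dx j + D.X ^ 4 * D.g j + D.X ^ 3 * (D.g j ^ 2 + D.g j * D.N1) +
    D.u 4 j + D.u 5 j + D.u 2 j * D.fs D.F0 j) ≤ y
  m2 : (E42.wi D ω).Cub ≤ y
  m3 : (E42.wi D ω).Lad1 ≤ y
  m4 : (E42.wi D ω).NLa ≤ y ∨ ∃ a l A : ℕ → ℝ, (∀ j ∈ D.up, ω j = D.dx j * a j) ∧ (∀ j, 0 < l j) ∧
    (∀ j, l j ≤ l (j + 1)) ∧ D.Add A ∧ (E42.wi D ω).TFa a l A + log (D.K + 2) *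
      (1 + D.sv (fun _ => 1) D.J) ^ 2 *
        (D.I (fun t => D.e t * √(D.v t t)) * √(D.I fun t => a t ^ 2 * A t)) ≤ y
  m6 : Jw D ω (fun j => min (D.g j * D.lw (fun t => D.g t ^ 2) j)
    (√(D.u 2 j) * D.lw (fun t => √(D.u 4 t)) j)) ≤ y
  m7 : Jw D ω (fun j => √(D.v j j) * (D.f0 j + D.sv D.f0 D.J +
      D.lw (fun k => D.e k * √(D.v k k)) j + D.hi (fun k => √(D.v k k)) j)) ≤ y
  m8 : Jw D ω (fun j => D.f0 j * (D.f0 j + D.sv D.f0 D.J)) ≤ y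

namespace Nm

variable {D : CD} {τ0 : ℝ} {P : ℕ} {A : ℕ → ℝ} {Λ ε : ℝ} (N : Nm D τ0 P A Λ ε) (h : D.Ok τ0)
include N h

theorem G0 (j : ℕ) : 0 ≤ G2 D Λ ε j := le_min (h.G00 j) (sqrt_nonneg _)

theorem Gsq (j : ℕ) : G2 D Λ ε j ^ 2 ≤ Λ * ε * (1 / D.e j) := by
  refine (pow_le_pow_left₀ (N.G0 h j) (min_le_right _ _) 2).trans_eq ?_
  rw [sq_sqrt (div_nonneg (mul_nonneg (N.L0 h) (N.ε0 h)) (h.e0 j)), mul_one_div]

theorem wG : D.Wk2 D.dx (G2 D Λ ε) D.f0 := by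
  have p := mul_nonneg (N.L0 h) (N.ε0 h)
  have k : ∀ b j, pE (fun _ => 1) D.B 0 (fun p x => (∑ t ∈ D.tail j, D.dx t * yv D b t p x) ^ 2) ≤
      √(Λ * ε / D.e j) ^ 2 := fun b j => by
    have c := pE_cs D (D.tail j) (μ := fun t => D.dx t / D.e t ^ 2) (ν := fun t => D.dx t / D.e t ^ 2)
      (σ := fun t => (D.e t ^ 2) ^ 2 * D.u 2 t)
      (fun t _ => (abs_of_nonneg (div_nonneg (h.dx0 t) (sq_nonneg _))).le)
      (Y := fun t p x => D.e t ^ 2 * yv D b t p x) (fun t x => (eg_yv D b t x).const_mul _)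
      fun t => by
        simp only [mul_pow]
        rw [Pe.pE_const_mul]
        exact mul_le_mul_of_nonneg_left (yv_sq D b t) (sq_nonneg _)
    have e1 : ∀ t (y : ℝ), D.dx t / D.e t ^ 2 * (D.e t ^ 2 * y) = D.dx t * y := fun t y => by
      have := (N.ep h t).ne'
      field_simp
    simp only [sq (D.e _ ^ 2), mul_assoc (D.e _ ^ 2), e1] at c
    rw [sq_sqrt (div_nonneg p (h.e0 j)), mul_div_right_comm]
    refine c.trans (mul_le_mul ?_ ((sub_I h (tail_sub D j) fun t _ =>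
      mul_nonneg (sq_nonneg _) (D.u0 2 t)).trans N.eu) (sum_nonneg fun t _ => mul_nonneg (h.dx0 t)
        (mul_nonneg (sq_nonneg _) (D.u0 2 t))) (div_nonneg (N.L0 h) (h.e0 j)))
    rw [le_div_iff₀ (N.ep h j), sum_mul]
    refine le_trans (sum_le_sum fun t ht => ?_) ((sub_I h (tail_sub D j) fun t _ =>
      (one_div_pos.2 (N.ep h t)).le).trans (N.Ie h))
    have e := N.ep h t
    have m := mul_le_mul_of_nonneg_left (h.e_mono ((le_max_left _ _).trans (mem_Ico.1 ht).1))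
      (div_nonneg (h.dx0 t) (sq_nonneg (D.e t)))
    refine m.trans_eq ?_
    field_simp
  have mn : ∀ {x a b : ℝ}, x ≤ a ^ 2 → x ≤ b ^ 2 → x ≤ min a b ^ 2 := fun {x a b} h1 h2 => by
    rcases le_total a b with e | e
    · rwa [min_eq_left e]
    · rwa [min_eq_right e]
  exact ⟨fun j => ⟨N.G0 h j, h.f00 j⟩, fun j => ⟨min_le_min (h.wg0.anti j).1 (sqrt_le_sqrt
      (div_le_div_of_nonneg_left p (N.ep h j) (h.emono j))), (h.wg0.anti j).2⟩,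
    fun j => mn (h.wg0.sqN j) (k false j), fun j => mn (h.wg0.sqL j) (k true j), h.wg0.varN,
    h.wg0.varL⟩

theorem svG : D.sv (G2 D Λ ε) D.J ^ 2 ≤ Λ ^ 3 * ε := by
  have d0 : ∀ t ∈ Ioo D.J D.K, 0 ≤ D.dv t := fun t ht => h.dv0 (mem_Ioo.1 ht).2.le
  have c := cs (Ioo D.J D.K) (μ := D.dv) (ν := D.dv) (fun t ht => (abs_of_nonneg (d0 t ht)).le)
    (G2 D Λ ε)
  have a1 : ∑ t ∈ Ioo D.J D.K, D.dv t ≤ Λ := by
    have := N.V
    simp only [CD.sv, mul_one] at this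
    linarith
  have a2 : ∑ t ∈ Ioo D.J D.K, D.dv t * G2 D Λ ε t ^ 2 ≤ Λ * ε * Λ := by
    refine le_trans ?_ (mul_le_mul_of_nonneg_left N.lg (mul_nonneg (N.L0 h) (N.ε0 h)))
    rw [CD.sv, mul_sum]
    exact sum_le_sum fun t ht => (mul_le_mul_of_nonneg_left (N.Gsq h t) (d0 t ht)).trans_eq
      (mul_left_comm _ _ _)
  exact c.trans ((mul_le_mul a1 a2 (sum_nonneg fun t ht => mul_nonneg (d0 t ht) (sq_nonneg _))
    (N.L0 h)).trans_eq (by ring))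

theorem eG {j : ℕ} (hj : j ∈ D.up) : (D.e j * G2 D Λ ε j) ^ 2 ≤ Λ ^ 2 * ε := by
  have e := N.ep h j
  have a := mul_le_mul_of_nonneg_left (N.Gsq h j) (sq_nonneg (D.e j))
  have b := mul_le_mul_of_nonneg_left (N.eB j hj) (mul_nonneg (N.L0 h) (N.ε0 h))
  rw [show D.e j ^ 2 * (Λ * ε * (1 / D.e j)) = Λ * ε * D.e j by field_simp] at a
  rw [mul_pow]
  linarith

end Nm

end Crest.Agent.T156.Cas.C40.R40

end
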