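import Crest.Agent.T156.CInR_12
import Crest.Agent.T156.CLfC_24
import Crest.Agent.T156.R2VA_23
import Crest.Agent.T156.StC_7

/-!
# Row 156, R2 (helper23): a value record with homogeneous envelopes on the class
-/

set_option autoImplicit false
set_option linter.unusedSectionVars false

noncomputable section

namespace Crest.Agent.T156.Alt.Rc23

open Real Finset
open Crest.Agent.T156.Cas Crest.Agent.T156.Cas.C40 Md67 CIn12 Lb24

variable {S : Sc} {M : Md} {m : ℕ} {a : ℝ} {J : ℕ}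

/-- the envelopes -/
def evV (M : Md) (m : ℕ) (a : ℝ) (J : ℕ) (l κ tl : ℝ) (G f0 : ℕ → ℝ) : CIn12.Ev :=
  ⟨l / κ, fun k => max l (M.z k) / κ, tl, fun k => ∑ t ∈ tlP M J k, M.dz m a t * G t, fun _ => 0,
    f0, fun _ => 0, 0, fun k => ∑ t ∈ tlP M J k, M.dz m a t * G t⟩

theorem ci_cl {Λ lam l τ0 c κ tl : ℝ} (K : KD' S M m a J Λ lam l τ0 c) {G f0 : ℕ → ℝ}
    (a0 : An f0) (v0 : VarI M m a J (M.dz m a) f0)
    (st : ∀ k, J ≤ k → k < M.N → |GamC M m a M.q J k - M.q k| ≤ (lam * l) ^ 3)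
    (κ0 : 0 < κ) (hX : lam * max (M.z (J - 1)) l ≤ l / κ) (X1 : l / κ ≤ 1) (hu : lam * κ ≤ 1)
    (ht : tlD S 3 ≤ tl)
    (hG : ∀ k, J ≤ k → k < M.N → 0 < G k ∧ M.E2 m a (fun R => (R - M.q k) ^ 2) k ≤ G k ^ 2 ∧
      M.E2 m a (fun R => max (|R - M.q k| - G k) 0) k ≤ tl) :
    CI τ0 M m a M.q J none (evV M m a J l κ tl G f0) := by
  have L := K.fn.lg
  have l0 := K.l0
  have l4 := K.lam4
  have ge : GE S M m a J 1 fun _ => 2 := ⟨fun _ _ _ => two_pos, fun k _ _ => E2_le (fun r hr => by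
      have := abs_le.1 hr
      have := q_nonneg (M := M) k
      have := q_le_one (M := M) k
      rw [mul_one]
      nlinarith) k, fun k _ _ => (env_triv (by
      rw [abs_of_nonneg (q_nonneg k)]; linarith [q_le_one (M := M) k])).trans (tlD_nn S 3)⟩
  have H := (K.ci (W := none) (f1 := fun _ => 0) ge le_rfl a0 An.zero v0 (varI_zero _)
    (fun _ k k1 k2 => (st k k1 k2).trans (pow_le_pow_left₀ (by positivity)
      (mul_le_mul_of_nonneg_left (le_max_right _ _) (by linarith)) 3))).relax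
    (X := l / κ) (e := fun k => max l (M.z k) / κ) (tl := tl) hX X1 ht
    (fun k k1 _ => by
      rw [K.e_eq k1, max_comm, le_div_iff₀ κ0, mul_right_comm]
      exact mul_le_of_le_one_left (le_max_of_le_left l0.le) hu)
    (fun k => div_le_div_of_nonneg_right (le_max_left _ _) κ0.le)
    fun k => div_le_div_of_nonneg_right (max_le_max le_rfl (L.zm (Nat.le_succ k))) κ0.le
  have aF : An fun k => ∑ t ∈ tlP M J k, M.dz m a t * G t :=
    An.tail fun k k1 k2 => mul_nonneg (L.dz_nonneg k) (hG k k1 k2).1.le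
  exact { H with
    aF0 := aF, aG0 := aF, aF1 := An.zero, gF := fun _ => le_rfl
    ev0 := ⟨G, fun k k1 k2 => (hG k k1 k2).2.2, fun _ => le_rfl⟩
    sq0 := .inl ⟨G, fun k k1 k2 => ⟨(hG k k1 k2).1, (hG k k1 k2).2.1⟩, fun k =>
      (sum_congr rfl fun t _ => by rw [abs_of_nonneg (L.dz_nonneg t)]).le⟩
    sq1 := sqI_none _ _ fun _ => by simp [evV] }

/-- the field just above the merged zone -/
theorem H_le (F : C33.Fn S M m a) (h : Cei S M) {μ : ℝ} {k : ℕ} (h1 : S.jl < k) (h2 : k ≤ S.Jp)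
    (hμ : S.ms (M.s k) ≤ μ) : M.H k ≤ S.C * S.F * μ * (M.s S.jl + k * S.v) := by
  have C0 := F.C0
  have F0 := F.F0
  have v0 := F.v0
  have μ0 : 0 ≤ μ := (F.ms_pos (F.s_nonneg k)).le.trans hμ
  have key : ∀ j, S.jl + 1 ≤ j → j ≤ k → M.H j ≤ S.C * S.F * μ * (M.s S.jl + j * S.v) := by
    intro j j1 j2
    induction j, j1 using Nat.le_induction with
    | base =>
      refine h.bot.trans (mul_le_mul (mul_le_mul_of_nonneg_left
        ((F.msm (F.sm h1.le)).trans hμ) (by positivity)) ?_ (F.s_nonneg _) (by positivity))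
      have : (0 : ℝ) ≤ ((S.jl + 1 : ℕ) : ℝ) * S.v := by positivity
      linarith
    | succ j hj ih =>
      have a1 := h.up j hj (by omega)
      have a2 := mul_le_mul_of_nonneg_left ((F.msm (F.sm (show j ≤ k by omega))).trans hμ)
        (show 0 ≤ S.C * S.F * S.v by positivity)
      have a3 := ih (by omega)
      push_cast
      linarith
  exact key k h1 le_rfl

/-- the blocks -/
theorem vb_cl {lam l Λ κ y w : ℝ} {D b : ℕ} (K : Kc lam l Λ D S M m a) (h : Cei S M)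
    (hJ : 4 * S.jl ≤ J) (hb : b < S.J) (hJb : J < b) {A : ℕ → ℝ} {E : CIn12.Ev}
    (P : BP M m a J (nI J b + 1) (lv J b) (tt S J b) (fun i => l * y / tt S J b i + w) A)
    (he : ∀ k, E.e k = max l (M.z k) / κ)
    (hf : ∀ k, E.f0 k = ErrL.ph (nI J b + 1) (fun i => l * y / tt S J b i + w) (lv J b k))
    (F1 : S.F = 1) (l0 : 0 < l) (l1 : l ≤ 1) (lJ : l ≤ J * S.v) (κ0 : 0 < κ)
    (y0 : 0 ≤ y) (w0 : 0 ≤ w) (w2 : w ^ 2 = l * y ^ 2) (k1 : 100 * S.C ^ 4 * κ ≤ 1)
    (k2 : lam ^ 2 * κ ≤ 1) (k3 : 4 * M.H M.N * κ ≤ 1) :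
    V23.Vb (cd M m a M.q J none E) (nI J b + 1) (fun j => lv J b (j - 1)) (tt S J b) (sh A)
      (κ ^ 2)⁻¹ l y w := by
  have F := K.fn
  have G := K.lg
  have C1 := F.C1
  have i0 := F.i0
  have i1 := F.i1
  have i3 := F.i3
  have i4 := F.i4
  have v0 := F.v0
  have c3 := one_le_pow₀ (n := 3) C1
  have c4 : S.C ^ 3 ≤ S.C ^ 4 := pow_le_pow_right₀ C1 (by norm_num)
  have c1 : S.C ≤ S.C ^ 4 := le_self_pow₀ C1 (by norm_num)
  have HN := H_nonneg G.toLeg M.N
  obtain ⟨u, hu⟩ : ∃ u, u = κ⁻¹ := ⟨_, rfl⟩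
  have e : ∀ x, x * κ ≤ 1 → x ≤ u := fun x hx => by
    rw [hu, ← one_div, le_div_iff₀ κ0]; exact hx
  have u1 := e _ k1
  have u2 := e _ k2
  have u3 := e _ k3
  have uu : 100 * u ≤ u ^ 2 := by nlinarith
  have lo : ∀ i, l ≤ tt S J b i := fun i => le_trans (by
    rw [tt_lt (Nat.succ_pos _), pow_zero, one_mul]
    exact lJ.trans (le_mul_of_one_le_left (by positivity) C1)) (K.tt_mono hJ hb hJb.le (Nat.zero_le i))
  have tp : ∀ i, 0 < tt S J b i := fun i => l0.trans_le (lo i)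
  have ez : ∀ k, J ≤ k → E.e k ≤ 6 * S.C * u * tt S J b (lv J b k) := fun k hk => by
    rw [he, div_eq_mul_inv, ← hu, mul_right_comm]
    refine mul_le_mul_of_nonneg_right (max_le ((lo _).trans (le_mul_of_one_le_left (tp _).le
      (by linarith))) ?_) (by linarith)
    rcases lt_or_ge k b with c | c
    · exact (G.zm (Nat.le_succ k)).trans (K.z_tt hJ hb hk c).2
    · rw [lv_ge c, tt_ge le_rfl]; nlinarith [G.z1 k]
  have e6 : 6 * S.C * u ≤ u ^ 2 / 2 := by nlinarith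
  rw [← inv_pow, ← hu]
  have e0 : ∀ k, 0 ≤ E.e k := fun k => by
    rw [he]; exact div_nonneg (le_max_of_le_left l0.le) κ0.le
  refine ⟨P.bd G (rf_q F.toCl) e0 (fun i => mul_nonneg (sq_nonneg _) (tp i).le)
    (fun k k0 _ _ => (ez k k0).trans (mul_le_mul_of_nonneg_right (by nlinarith) (tp _).le))
    (fun i => (K.clk hJ hb (K₁ := 6 * S.C ^ 3) (rf_q F.toCl) e0 (by positivity)
      (fun k k0 k1 => ?_) i).trans ?_)
    (fun k => by rw [hf]; exact ErrL.ph0 P.al0 _) fun k _ _ => (hf k).le,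
    K.tt_mono hJ hb hJb.le, l0, l1, lo, fun i => (K.tt_le hJ hb hJb.le i).trans (by linarith),
    (K.nI_le hJ hb).trans (by linarith), by linarith, y0, w0, w2, ?_, ?_⟩
  · have a1 := H_cei F (h.toG F.toCl) (k := k) (by omega) (by omega)
    have a2 := mul_le_mul_of_nonneg_left ((q_le_s F.toCl (k := k) (by omega)).trans
      (F.s_le_z' (by omega) (by omega))) F.C0.le
    rw [F1] at a1
    linarith [mul_le_mul_of_nonneg_left (le_max_left (M.z k) l) (show 0 ≤ 6 * S.C ^ 3 by positivity)]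
  · have t0 := tp i
    have a1 : (if i = lv J b J then E.e J else 0) ≤ u ^ 2 / 2 * tt S J b i := by
      split_ifs with c
      · rw [c]; exact (ez J le_rfl).trans (mul_le_mul_of_nonneg_right e6 (tp _).le)
      · positivity
    have a2 : (if i < nI J b then 6 * S.C * (6 * S.C ^ 3 + 2) * max (tt S J b i) l
        else S.C + M.H M.N + 2) ≤ u ^ 2 / 2 * tt S J b i := by
      split_ifs with c
      · rw [max_eq_left (lo i)]
        exact mul_le_mul_of_nonneg_right (by nlinarith) t0.le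
      · rw [tt_ge (not_lt.1 c)]
        exact le_trans (by linarith) (le_mul_of_one_le_right (by positivity) c3)
    linarith
  · obtain ⟨j, rfl⟩ : ∃ j, J = j + 1 := ⟨J - 1, by omega⟩
    rw [cd_J, cd_dx, dz_succ G.toLeg]
    exact ((div_pos v0 F.C0).trans_le (F.zs j (by omega) (by omega)).1).ne'
  · rw [cd_J, cd_K]; omega

end Crest.Agent.T156.Alt.Rc23

end
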