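import Crest.Agent.T156.ErrT_5

/-!
# Row 156, R2 (helper40): the error of a value record from plain numbers
-/

set_option autoImplicit false
set_option linter.unusedSectionVars false

noncomputable section

namespace Crest.Agent.T156.Cas.C40.R40

open Real Finset
open Crest.Agent.T157.E Crest.Agent.T157.Casc Crest.Agent.T157.SL
open CD Et5

/-- the numbers of a value record -/
structure Vn (D : CD) (B V η a1 a2 G3 U F f l0 vf L1 w : ℝ) : Prop where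
  val : D.W = none
  eB : ∀ j ∈ D.up, D.e j ≤ B
  V : 1 + D.sv (fun _ => 1) D.J ≤ V
  dx : ∀ j ∈ D.up, D.dx j ≤ η
  η0 : 0 ≤ η
  n1 : D.N1 ≤ a1
  n2 : D.N2 ≤ a2
  g3 : D.I (fun j => D.e j * D.g j ^ 3) ≤ G3
  u4 : D.I (D.u 4) ≤ U
  F : D.F0 (D.J + 1) ≤ F
  f : D.f0 (D.J + 1) ≤ f
  l0 : D.Lad0 ≤ l0
  vf : D.VF ≤ vf
  L1 : D.Lv1 ≤ L1
  w : D.vL ≤ w

/-- **the value table** -/
theorem Vn.err {D : CD} {τ0 B V η a1 a2 G3 U F f l0 vf L1 w : ℝ} (h : D.Ok τ0) (B0 : 0 ≤ B)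
    (N : Vn D B V η a1 a2 G3 U F f l0 vf L1 w) :
    D.Err ≤ D.X ^ 6 + 1 / D.n + (D.K + 1) ^ 2 * D.tl + η + D.X ^ 4 * a1 + 2 * (D.X ^ 3 * a2) +
      2 * B * (a1 * a2) + 3 * U + l0 + vf + (a2 + L1) * (F * V) +
      (√w + D.X * √(D.X * L1)) * (f * V) + G3 := by
  have X0 := h.X0
  have n1 := h.N10
  have n2 := h.N20
  have fF : ∀ j, D.J ≤ j → D.fs D.F0 j ≤ F * V := fun j hj =>
    (fs_le h h.F00 h.wk0.F_anti N.F le_rfl hj).trans
      (mul_le_mul_of_nonneg_left N.V ((h.F00 _).trans N.F))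
  have ff : D.fs D.f0 D.J ≤ f * V := (fs_le h h.f00 h.wk0.f_anti N.f le_rfl le_rfl).trans
    (mul_le_mul_of_nonneg_left N.V ((h.f00 _).trans N.f))
  have FV := (h.fs0 h.F00 _).trans (fF _ le_rfl)
  have a0 := h.I_le N.η0 N.dx
  have b1 := mul_le_mul_of_nonneg_left N.n1 (pow_nonneg X0 4)
  have b2 := mul_le_mul_of_nonneg_left (add_le_add N.n2 ((N1_sq h).trans N.n2)) (pow_nonneg X0 3)
  have b3 : D.T3 ≤ 2 * B * (a1 * a2) := by
    refine (h.I_mono (b := fun j => B * D.N2 * D.g j + B * D.N1 * D.g j ^ 2) fun j hj => ?_).trans ?_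
    · have hJ := (mem_up.1 hj).1.le
      have c1 : D.hi (fun t => D.g t ^ 2) j ≤ D.N2 := hi_le h (fun t => sq_nonneg (D.g t)) hJ
      have c2 : D.hi D.g j ≤ D.N1 := hi_le h D.g0 hJ
      have := mul_le_mul (N.eB j hj) (add_le_add (mul_le_mul_of_nonneg_left c1 (D.g0 j))
        (mul_le_mul_of_nonneg_left c2 (sq_nonneg (D.g j)))) (add_nonneg (mul_nonneg (D.g0 j)
          (h.hi0 (fun _ => sq_nonneg _) j)) (mul_nonneg (sq_nonneg _) (h.hi0 D.g0 j))) B0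
      linarith
    · rw [D.I_add, D.I_mul, D.I_mul]
      have := mul_le_mul_of_nonneg_left (mul_le_mul N.n1 N.n2 n2 (n1.trans N.n1)) B0
      unfold CD.N2 at this ⊢
      unfold CD.N1 at this ⊢
      linarith
  have b4 : D.I (fun j => D.u 4 j + D.u 5 j) ≤ 3 * U := by
    refine (h.I_mono (b := fun j => 3 * D.u 4 j) fun j hj => ?_).trans
      ((D.I_mul _ _).trans_le (by linarith [N.u4]))
    have : D.u 5 j ≤ 2 * D.u 4 j := by
      rw [CD.u, CD.u, uM, uM, ← pi2_const_mul]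
      refine pi2_mono (Ω := Cube D.n) wt_one90 _ j (fun x y => ?_) 0
      rw [pow_succ']
      exact mul_le_mul_of_nonneg_right (abs_oU_le h.ook (mem_up.1 hj).2.le x y)
        (pow_nonneg (abs_nonneg _) _)
    linarith
  have b5 : D.I (fun j => D.u 2 j * D.fs D.F0 j) ≤ a2 * (F * V) := by
    refine (h.I_mono (b := fun j => F * V * D.g j ^ 2) fun j hj => (mul_le_mul (u2_le D j)
      (fF j (mem_up.1 hj).1.le) (h.fs0 h.F00 j) (sq_nonneg _)).trans_eq (mul_comm _ _)).trans ?_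
    rw [D.I_mul, mul_comm]
    exact mul_le_mul_of_nonneg_right N.n2 FV
  have b6 := mul_le_mul N.L1 (fF _ le_rfl) (h.fs0 h.F00 _) (h.Lv10.trans N.L1)
  have b7 := mul_le_mul ((Vl21.Lv2_le h N.w).trans (add_le_add le_rfl (mul_le_mul_of_nonneg_left
    (sqrt_le_sqrt (mul_le_mul_of_nonneg_left N.L1 X0)) X0))) ff (h.fs0 h.f00 _) (by positivity)
  rw [Err_val (by rw [N.val]; rfl), E0]
  linarith [N.g3, N.l0, N.vf]

end Crest.Agent.T156.Cas.C40.R40

end
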