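import Crest.Agent.T156.R2U_40

/-!
# Row 156, R2 (helper40): the test record is admissible, and the size of its error
-/

set_option autoImplicit false
set_option linter.unusedSectionVars false

noncomputable section

namespace Crest.Agent.T156.Cas.C40.R40

open Real Finset
open Crest.Agent.T157.E Crest.Agent.T157.Casc Crest.Agent.T157.SL
open CD Et5

namespace Nm

variable {D : CD} {τ0 : ℝ} {P : ℕ} {A : ℕ → ℝ} {Λ ε : ℝ} (N : Nm D τ0 P A Λ ε) (h : D.Ok τ0)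
  {ω : ℕ → ℝ} {c : ℝ} (M : Mk D ω (2 * Λ ^ 2) (30 * (Λ ^ 6 * ε))) (c0 : 0 ≤ c)
  (hc : c ^ 2 ≤ 16 * (Λ ^ 3 * ε))
include N h

theorem I1 (j : ℕ) : 0 ≤ D.gq j * D.g j := mul_nonneg (abs_nonneg _) (D.g0 j)

theorem Igq : D.I (fun t => D.gq t * D.g t) ≤ D.X ^ 3 * D.N1 :=
  (h.I_mono fun t ht => mul_le_mul_of_nonneg_right (N.gq h ht) (D.g0 t)).trans_eq (D.I_mul _ _)

theorem XN : D.X ^ 3 * (D.N2 + D.N1 ^ 2) ≤ ε := h.XN2_le.trans (N.E0 h)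

theorem tle : D.tl ≤ ε := h.tl_le.trans (N.E0 h)

include M

theorem wm {x y : ℝ} (x0 : 0 ≤ x) (k : x ≤ y) : Jw D ω (fun _ => 1) * x ≤ 2 * Λ ^ 2 * y :=
  mul_le_mul M.w k x0 (by positivity)

theorem m1' : Jw D ω (fun j => D.X ^ 3 * (D.g j ^ 2 + D.g j * D.N1)) ≤ 30 * (Λ ^ 6 * ε) :=
  (Jw_mono ω fun j _ => by
    obtain ⟨h1, h2, h3, h4, h5, h6, h7⟩ := h.Iw_parts j; linarith).trans M.m1

theorem stw : Jw D ω (fun j => D.g j * (D.gq j * D.g j + D.I fun t => D.gq t * D.g t)) +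
    (D.K + 1) ^ 2 * D.tl ≤ 70 * (Λ ^ 6 * ε) := by
  have a := (Jw_mono ω (a := fun j => D.g j * (D.gq j * D.g j + D.I fun t => D.gq t * D.g t))
    fun j hj => by
      have := mul_le_mul_of_nonneg_left (add_le_add (mul_le_mul_of_nonneg_right (N.gq h hj)
        (D.g0 j)) (N.Igq h)) (D.g0 j)
      linarith).trans (N.m1' h M)
  have := N.pw h (i := 0) (j := 6) (by norm_num)
  linarith [h.Ktl_le.trans (N.E0 h), N.ε0 h]

theorem stq : (Jw D ω (fun _ => 1) * (D.I (fun t => D.gq t * D.g t ^ 2) +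
    D.I (fun t => D.gq t * D.g t) * D.N1) +
    Jw D ω fun j => D.gq j * (D.g j * D.N1 + D.N2 + D.N1 ^ 2)) * 1 ≤ 70 * (Λ ^ 6 * ε) := by
  have X3 := pow_nonneg h.X0 3
  have a1 : D.I (fun t => D.gq t * D.g t ^ 2) ≤ D.X ^ 3 * D.N2 :=
    (h.I_mono fun t ht => mul_le_mul_of_nonneg_right (N.gq h ht) (sq_nonneg _)).trans_eq
      (D.I_mul _ _)
  have a2 := mul_le_mul_of_nonneg_right (N.Igq h) h.N10
  have a3 := N.wm h M (x := D.I (fun t => D.gq t * D.g t ^ 2) +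
    D.I (fun t => D.gq t * D.g t) * D.N1) (y := ε) (add_nonneg (h.I0 fun t _ =>
      mul_nonneg (abs_nonneg _) (sq_nonneg _)) (mul_nonneg (h.I0 fun t _ => N.I1 h t) h.N10))
    (by linarith [N.XN h])
  have a4 := Jw_mono (D := D) ω (a := fun j => D.gq j * (D.g j * D.N1 + D.N2 + D.N1 ^ 2))
    (b := fun j => D.X ^ 3 * (D.g j ^ 2 + D.g j * D.N1) + ε) fun j hj => by
      have := mul_le_mul_of_nonneg_right (N.gq h hj) (add_nonneg (add_nonneg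
        (mul_nonneg (D.g0 j) h.N10) h.N20) (sq_nonneg D.N1))
      linarith [N.XN h, mul_nonneg X3 (sq_nonneg (D.g j))]
  rw [Jw_add, Jw_const D ω ε] at a4
  have a5 := N.wm h M (N.ε0 h) le_rfl
  have := N.pw h (i := 2) (j := 6) (by norm_num)
  have := N.pw h (i := 0) (j := 6) (by norm_num)
  linarith [N.m1' h M, N.ε0 h]

include c0 hc

theorem c4 : c ≤ 4 * Λ ^ 2 := by
  have L0 := N.L0 h
  refine le_of_pow_le_pow_left₀ two_ne_zero (by positivity) (hc.trans ?_)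
  have := mul_le_mul (pow_le_pow_right₀ (N.L1 h) (show 3 ≤ 4 by norm_num)) N.ε1 (N.ε0 h)
    (pow_nonneg L0 4)
  linarith

theorem fc {j : ℕ} (hj : D.J ≤ j) : D.fs (fun _ => c) j ≤ c * Λ :=
  N.fs h (fun _ => c0) antitone_const le_rfl hj

theorem xc {x : ℝ} (x0 : 0 ≤ x) (hx : x ^ 2 ≤ 2 * ε) : x * (c * Λ) ≤ 9 * (Λ ^ 4 * ε) := by
  have a := mul_le_mul_of_nonneg_left (am x c) (N.L0 h)
  have b := mul_le_mul_of_nonneg_left (add_le_add hx hc) (N.L0 h)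
  have := N.pw h (i := 1) (j := 4) (by norm_num)
  linarith

theorem Ic {a : ℕ → ℝ} (ha : ∀ j, 0 ≤ a j) (hx : D.I a ^ 2 ≤ 2 * ε) :
    D.I (fun j => a j * D.fs (fun _ => c) j) ≤ 9 * (Λ ^ 4 * ε) := by
  refine (h.I_mono (b := fun j => c * Λ * a j) fun j hj => (mul_le_mul_of_nonneg_left
    (N.fc h M c0 hc (mem_up.1 hj).1.le) (ha j)).trans_eq (mul_comm _ _)).trans ?_
  rw [D.I_mul, mul_comm]
  exact N.xc h M c0 hc (h.I0 fun j _ => ha j) hx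

theorem zA : D.I (fun j => √(D.u 4 j) * D.fs (fun _ => c) j) +
    √D.tl * (D.fs (fun _ => c) D.J + D.fs (fun _ => c) D.J +
      Jw D ω (fun j => D.e j * G2 D Λ ε j) + Jw D ω (fun _ => 1) * D.fs (G2 D Λ ε) D.J) ≤
      70 * (Λ ^ 6 * ε) := by
  have L0 := N.L0 h
  have ε0 := N.ε0 h
  have a1 := N.Ic h M c0 hc (a := fun j => √(D.u 4 j)) (fun _ => sqrt_nonneg _) (by
    have := I_sq h fun j => √(D.u 4 j)
    simp only [sq_sqrt (D.u0 4 _)] at this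
    linarith [h.Iu4_le.trans (N.E0 h)])
  have gF : ∀ j, D.J < j → G2 D Λ ε j ≤ Λ := fun j hj =>
    (min_le_left _ _).trans ((h.gF j).trans ((h.wk0.F_anti hj).trans N.F))
  have a2 := Jw_mono (D := D) ω (a := fun j => D.e j * G2 D Λ ε j) (b := fun _ => Λ * Λ)
    fun j hj => mul_le_mul (N.eB j hj) (gF j (mem_up.1 hj).1) (N.G0 h j) L0
  rw [Jw_const, mul_comm] at a2
  have a3 := N.wm h M (mul_nonneg L0 L0) le_rfl
  have a4 := N.wm h M (h.fs0 (N.G0 h) D.J)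
    (N.fs h (N.G0 h) (N.wG h).F_anti (gF _ (Nat.lt_succ_self _)) le_rfl)
  have a5 := (N.fc h M c0 hc le_rfl).trans (mul_le_mul_of_nonneg_right (N.c4 h M c0 hc) L0)
  have a6 := mul_le_mul N.tl (show D.fs (fun _ => c) D.J + D.fs (fun _ => c) D.J +
      Jw D ω (fun j => D.e j * G2 D Λ ε j) + Jw D ω (fun _ => 1) * D.fs (G2 D Λ ε) D.J ≤
      8 * Λ ^ 3 + 4 * Λ ^ 4 by linarith) (add_nonneg (add_nonneg (add_nonneg
        (h.fs0 (fun _ => c0) _) (h.fs0 (fun _ => c0) _)) (Jw0 ω fun j _ =>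
        mul_nonneg (h.e0 j) (N.G0 h j))) (mul_nonneg (Jw0 ω fun _ _ => zero_le_one)
        (h.fs0 (N.G0 h) _))) ε0
  have := N.pw h (i := 3) (j := 6) (by norm_num)
  have := N.pw h (i := 4) (j := 6) (by norm_num)
  have : 0 ≤ Λ ^ 6 * ε := by positivity
  linarith

theorem ok (W : WK D ω c) : (tst D ω c (G2 D Λ ε) (70 * (Λ ^ 6 * ε))).Ok τ0 := by
  have L0 := N.L0 h
  have ε0 := N.ε0 h
  have p : 0 ≤ Λ ^ 6 * ε := by positivity
  have p2 := N.pw h (i := 2) (j := 6) (by norm_num)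
  have p3 := N.pw h (i := 3) (j := 6) (by norm_num)
  have G := N.wG h
  refine ⟨h.pos, h.ook, h.mono, h.cut, h.top, h.tau, h.qlo, h.X1, h.x1, h.h1, nofun, h.tl0, h.envL,
    h.envU, h.eX, h.emono, h.esc, ⟨h.wk0.1, h.wk0.2, h.wk0.3, h.wk0.4, h.wk0.5, h.wk0.6⟩,
    ⟨W.1.1, W.1.2, W.1.3, W.1.4, W.1.5, W.1.6⟩, ?_, N.stw h M, h.qe, ?_, ⟨h.wkp.1, W.2⟩, ?_, ?_,
    ⟨G.1, G.2, G.3, G.4, G.5, G.6⟩, fun j => (min_le_left _ _).trans (h.gF j),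
    N.zA h M c0 hc, N.stq h M⟩
  · rcases M.m4 with k | ⟨a, l, A, k1, k2, k3, k4, k5⟩
    · exact Or.inl (k.trans (show _ ≤ 70 * (Λ ^ 6 * ε) by linarith))
    · refine Or.inr ⟨a, l, A, k1, k2, k3, k4, show (E42.wi D ω).TFa a l A ≤ 70 * (Λ ^ 6 * ε) from ?_⟩
      have : 0 ≤ log ((D.K : ℝ) + 2) * (1 + D.sv (fun _ => 1) D.J) ^ 2 *
          (D.I (fun t => D.e t * √(D.v t t)) * √(D.I fun t => a t ^ 2 * A t)) :=
        mul_nonneg (mul_nonneg (log_nonneg (by linarith [(Nat.cast_nonneg D.K : (0 : ℝ) ≤ D.K)]))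
          (sq_nonneg _)) (mul_nonneg (h.I0 fun t _ => ev0 h t) (sqrt_nonneg _))
      linarith
  · have := N.wm h M (mul_nonneg h.N10 h.N20) N.nn
    exact show Jw D ω (fun _ => 1) * (D.N1 * D.N2) * 1 + Jw D ω (fun j =>
      min (D.g j * D.lw (fun t => D.g t ^ 2) j) (√(D.u 2 j) * D.lw (fun t => √(D.u 4 t)) j)) ≤
      70 * (Λ ^ 6 * ε) by linarith [M.m6]
  · have := N.wm h M (h.I0 fun j _ => mul_nonneg (sqrt_nonneg (D.v j j)) (h.lw0 (ev0 h) j))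
      (N.hardy h)
    exact show Jw D ω (fun _ => 1) *
      D.I (fun j => √(D.v j j) * D.lw (fun k => D.e k * √(D.v k k)) j) * 1 +
      Jw D ω (fun j => √(D.v j j) * (D.f0 j + D.sv D.f0 D.J +
        D.lw (fun k => D.e k * √(D.v k k)) j + D.hi (fun k => √(D.v k k)) j)) +
      Jw D ω (fun j => D.f0 j * (D.f0 j + D.sv D.f0 D.J)) ≤ 70 * (Λ ^ 6 * ε) by
        linarith [M.m7, M.m8]
  · rcases M.m4 with k | ⟨a, l, A, k1, k2, k3, k4, k5⟩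
    · exact Or.inl (k.trans (show _ ≤ 70 * (Λ ^ 6 * ε) by linarith))
    · exact Or.inr ⟨a, l, A, k1, k2, k3, k4, k5.trans (show _ ≤ 70 * (Λ ^ 6 * ε) by linarith)⟩

theorem err_le : (tst D ω c (G2 D Λ ε) (70 * (Λ ^ 6 * ε))).Err ≤ 300 * (Λ ^ 6 * ε) := by
  have L0 := N.L0 h
  have L1 := N.L1 h
  have ε0 := N.ε0 h
  have X3 := pow_nonneg h.X0 3
  have X6 : (D.X ^ 3) ^ 2 ≤ ε := by linarith [N.X6 h]
  have r0 := sqrt_nonneg D.tl
  have f0 := h.fs0 (fun _ => c0) D.J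
  have fc := N.fc h M c0 hc le_rfl
  have f4 := fc.trans (mul_le_mul_of_nonneg_right (N.c4 h M c0 hc) L0)
  have a0 := N.wm h M h.E00 (N.E0 h)
  have a1 := Jw_mono (D := D) ω (a := fun j => D.dx j + D.X ^ 4 * D.g j +
      D.X ^ 3 * (D.g j ^ 2 + D.g j * D.N1) + D.u 4 j + D.u 5 j + D.u 2 j * D.fs D.F0 j +
      D.X ^ 3 * (D.e j * G2 D Λ ε j)) (b := fun j => (D.dx j + D.X ^ 4 * D.g j +
      D.X ^ 3 * (D.g j ^ 2 + D.g j * D.N1) + D.u 4 j + D.u 5 j + D.u 2 j * D.fs D.F0 j) +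
      Λ ^ 2 * ε) fun j hj => by
    linarith [am (D.X ^ 3) (D.e j * G2 D Λ ε j), N.eG h hj, N.pw h (i := 0) (j := 2) (by norm_num)]
  rw [Jw_add D ω _ fun _ => Λ ^ 2 * ε, Jw_const D ω (Λ ^ 2 * ε), mul_comm (Λ ^ 2 * ε)] at a1
  have a2 := N.wm h M (show 0 ≤ Λ ^ 2 * ε by positivity) le_rfl
  have a3 := N.Ic h M c0 hc (a := D.u 2) (D.u0 2) (by
    have b1 : D.I (D.u 2) ≤ D.N2 := h.I_mono fun j _ => u2_le D j
    have b2 : D.N2 ≤ 2 * D.N1 := (h.I_mono fun j hj => (sq (D.g j)).trans_le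
      (mul_le_mul_of_nonneg_right (g_le h (mem_up.1 hj).2.le) (D.g0 j))).trans_eq (D.I_mul _ _)
    have b3 := pow_le_pow_left₀ (h.I0 fun j _ => D.u0 2 j) b1 2
    linarith [mul_le_mul_of_nonneg_right b2 h.N20, N.nn])
  have a4 := (mul_le_mul_of_nonneg_left fc X3).trans (N.xc h M c0 hc X3 (by linarith))
  have a5 := mul_le_mul (N.tle h) f4 f0 ε0
  have a6 := mul_le_mul_of_nonneg_right (Lv1_le h) f0
  have a7 := N.wm h M (x := D.X ^ 3 * D.sv (G2 D Λ ε) D.J) (y := Λ ^ 3 * ε)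
    (mul_nonneg X3 (h.sv0 (N.G0 h) _)) (by
      linarith [am (D.X ^ 3) (D.sv (G2 D Λ ε) D.J), N.svG h, N.pw h (i := 0) (j := 3) (by norm_num)])
  have a8 := mul_le_mul_of_nonneg_right ((Lv2_le h).trans (add_le_add
    (mul_le_mul_of_nonneg_right (show 2 * τ0 ^ 2 + 1 ≤ 3 * Λ by linarith [N.t2]) X3)
    (mul_le_mul_of_nonneg_right (show 15 * τ0 ^ 2 + 2 ≤ 17 * Λ by linarith [N.t2]) r0))) f0
  have a9 := mul_le_mul_of_nonneg_left a4 L0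
  have a10 := mul_le_mul_of_nonneg_left (mul_le_mul N.tl f4 f0 ε0) L0
  have p2 := N.pw h (i := 2) (j := 6) (by norm_num)
  have p3 := N.pw h (i := 3) (j := 6) (by norm_num)
  have p4 := N.pw h (i := 4) (j := 6) (by norm_num)
  have p5 := N.pw h (i := 5) (j := 6) (by norm_num)
  have p : 0 ≤ Λ ^ 6 * ε := by positivity
  exact show Jw D ω (fun _ => 1) * D.E0 + (Jw D ω (fun j => D.dx j + D.X ^ 4 * D.g j +
      D.X ^ 3 * (D.g j ^ 2 + D.g j * D.N1) + D.u 4 j + D.u 5 j + D.u 2 j * D.fs D.F0 j +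
      D.X ^ 3 * (D.e j * G2 D Λ ε j)) + (E42.wi D ω).Cub + (E42.wi D ω).Lad1 +
      D.I (fun j => D.u 2 j * D.fs (fun _ => c) j) + (D.Lv1 + D.X ^ 3) * D.fs (fun _ => c) D.J +
      D.X ^ 3 * (Jw D ω (fun _ => 1) * D.sv (G2 D Λ ε) D.J) + D.Lv2 * D.fs (fun _ => c) D.J +
      70 * (Λ ^ 6 * ε)) ≤ 300 * (Λ ^ 6 * ε) by linarith [M.m1, M.m2, M.m3]

end Nm

/-- **the test head from the marked numbers** -/
theorem dT_mk (H : HT) (τ0 : ℝ) : ∃ C : ℝ, 0 ≤ C ∧ ∀ (D : CD) (P : ℕ) (A : ℕ → ℝ) (Λ ε : ℝ),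
    D.Ok τ0 → Nm D τ0 P A Λ ε → ∀ (ω : ℕ → ℝ) (c : ℝ), Mk D ω (2 * Λ ^ 2) (30 * (Λ ^ 6 * ε)) →
      0 ≤ c → c ^ 2 ≤ 16 * (Λ ^ 3 * ε) → WK D ω c → |E42.dT D ω| ≤ C * (Λ ^ 6 * ε) := by
  obtain ⟨C, C0, k⟩ := H τ0
  refine ⟨C * 300, by positivity, fun D P A Λ ε h N ω c M c0 hc W => ?_⟩
  rw [mul_assoc]
  exact (show |E42.dT D ω| ≤ _ from k _ (N.ok h M c0 hc W) rfl).trans
    (mul_le_mul_of_nonneg_left (N.err_le h M c0 hc) C0)

end Crest.Agent.T156.Cas.C40.R40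

end
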