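import Crest.Agent.T156.R2B_85
import Crest.Agent.T156.CInB_12

/-!
# Row 156, R2 (helper40): weak inputs of a test measure at `CD` level, constant envelopes
-/

set_option autoImplicit false
set_option linter.unusedSectionVars false

noncomputable section

namespace Crest.Agent.T156.Cas.C40.R40

open Real Finset
open Crest.Agent.T157.E Crest.Agent.T157.Casc Crest.Agent.T157.SL
open CD

/-- weighted Cauchy–Schwarz -/
theorem cs {ι : Type*} (s : Finset ι) {μ ν : ι → ℝ} (h : ∀ i ∈ s, |μ i| ≤ ν i) (Y : ι → ℝ) :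
    (∑ i ∈ s, μ i * Y i) ^ 2 ≤ (∑ i ∈ s, ν i) * ∑ i ∈ s, ν i * Y i ^ 2 :=
  sum_sq_le_sum_mul_sum_of_sq_le_mul s (fun i hi => (abs_nonneg _).trans (h i hi))
    (fun i hi => mul_nonneg ((abs_nonneg _).trans (h i hi)) (sq_nonneg _)) fun i hi => by
      rw [mul_pow, ← mul_assoc, ← sq, ← sq_abs (μ i)]
      exact mul_le_mul_of_nonneg_right (pow_le_pow_left₀ (abs_nonneg _) (h i hi) 2) (sq_nonneg _)

variable (D : CD)

/-- node (`false`) or leaf (`true`) variable along the path -/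
def yv (b : Bool) (t : ℕ) (p : NI D.B → ℝ) (x : Cube D.n) : ℝ := bif b then D.lf t p x else D.nd t p

theorem eg_l (t : ℕ) (x : Cube D.n) :
    Eg fun z => Pf (fun _ => 1) (D.B.drop t) z (oU D.q t x) :=
  Eg.sum _ fun y _ => (eg_P wt_one90 _ y).mul_const _

theorem eg_yv (b : Bool) (t : ℕ) (x : Cube D.n) : Eg fun p => yv D b t p x := by
  cases b
  · exact Pe.eg_st D.B 0 t (eg_qf wt_one90 _ (oU D.q t))
  · exact Pe.eg_st D.B 0 t (eg_l D t x)

theorem jen (L : List (Lv (Cube D.n))) (z f : Cube D.n → ℝ) :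
    (∑ x, P (fun _ => 1) L z x * f x) ^ 2 ≤ ∑ x, P (fun _ => 1) L z x * f x ^ 2 := by
  have := cs univ (μ := P (fun _ => 1) L z) (ν := P (fun _ => 1) L z)
    (fun x _ => (abs_of_nonneg (P_nonneg wt_one90 L z x)).le) f
  rwa [sum_P wt_one90, one_mul] at this

theorem yv_sq (b : Bool) (t : ℕ) :
    pE (fun _ => 1) D.B 0 (fun p x => yv D b t p x ^ 2) ≤ D.u 2 t := by
  have k : ∀ z, ∑ x, P (fun _ => 1) (D.B.drop t) z x *
      Pf (fun _ => 1) (D.B.drop t) z (oU D.q t x) ^ 2 ≤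
      qf (P (fun _ => 1) (D.B.drop t) z) fun x y => |oU D.q t x y| ^ 2 := fun z => by
    simp only [qf, mul_assoc, ← mul_sum, sq_abs]
    exact sum_le_sum fun x _ => mul_le_mul_of_nonneg_left (jen D _ z _) (P_nonneg wt_one90 _ z x)
  cases b
  · refine (Pe.pE_node1 wt_one90 ((eg_qf wt_one90 _ (oU D.q t)).pow 2) D.B t 0).trans_le
      (node_mono wt_one90 ((eg_qf wt_one90 _ _).pow 2) (eg_qf wt_one90 _ _) (fun z => ?_) _ _ _)
    refine le_trans ?_ (k z)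
    simp only [qf, mul_assoc, ← mul_sum]
    exact jen D _ z _
  · exact (Pe.pE_node wt_one90 (fun x z => Pf (fun _ => 1) (D.B.drop t) z (oU D.q t x) ^ 2)
      (fun x => (eg_l D t x).pow 2) D.B t 0).trans_le (node_mono wt_one90
        (Eg.sum _ fun x _ => (eg_P wt_one90 _ x).mul ((eg_l D t x).pow 2)) (eg_qf wt_one90 _ _) k _ _ _)

theorem pE_c (c : ℝ) : pE (fun _ => 1) D.B 0 (fun _ _ => c) = c := Sy41.pE_const wt_one90 _ _ c

theorem cv_sq (b : Bool) (t : ℕ) :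
    pE (fun _ => 1) D.B 0 (fun p x => (yv D b t p x - D.del t) ^ 2) ≤ 4 * D.u 2 t := by
  have e := eg_yv D b t
  refine (Eg33.pE_mono' wt_one90 D.B 0 (G := fun p x => 2 * yv D b t p x ^ 2 + 2 * D.del t ^ 2)
    (fun x => ((e x).sub (Eg.const _)).pow 2)
    (fun x => (((e x).pow 2).const_mul _).add (Eg.const _))
    fun p x => by nlinarith [sq_nonneg (yv D b t p x + D.del t)]).trans ?_
  rw [Eg33.pE_add' wt_one90 D.B 0 (fun x => ((e x).pow 2).const_mul _) fun _ => Eg.const _,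
    Pe.pE_const_mul, pE_c]
  linarith [yv_sq D b t, R85.del_sq_le D t]

theorem pE_cs (s : Finset ℕ) {μ ν σ : ℕ → ℝ} (h : ∀ i ∈ s, |μ i| ≤ ν i)
    {Y : ℕ → (NI D.B → ℝ) → Cube D.n → ℝ} (e : ∀ t x, Eg fun p => Y t p x)
    (hY : ∀ t, pE (fun _ => 1) D.B 0 (fun p x => Y t p x ^ 2) ≤ σ t) :
    pE (fun _ => 1) D.B 0 (fun p x => (∑ t ∈ s, μ t * Y t p x) ^ 2) ≤
      (∑ t ∈ s, ν t) * ∑ t ∈ s, ν t * σ t := by
  have n0 : ∀ i ∈ s, 0 ≤ ν i := fun i hi => (abs_nonneg _).trans (h i hi)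
  refine (Eg33.pE_mono' wt_one90 D.B 0
    (G := fun p x => (∑ t ∈ s, ν t) * ∑ t ∈ s, ν t * Y t p x ^ 2)
    (fun x => (Eg.sum _ fun t _ => (e t x).const_mul _).pow 2)
    (fun x => (Eg.sum _ fun t _ => ((e t x).pow 2).const_mul _).const_mul _)
    fun p x => cs s h _).trans ?_
  rw [Pe.pE_const_mul, Eg33.pE_sum' wt_one90 D.B 0 s fun t x => ((e t x).pow 2).const_mul _]
  refine mul_le_mul_of_nonneg_left (sum_le_sum fun t ht => ?_) (sum_nonneg n0)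
  rw [Pe.pE_const_mul]
  exact mul_le_mul_of_nonneg_left (hY t) (n0 t ht)

theorem tail_sub (j : ℕ) : D.tail j ⊆ D.up := fun t ht => by
  rw [mem_Ico] at ht; rw [mem_Ioo]; omega

variable {D}

/-- both weak inputs with one constant -/
def WK (D : CD) (ω : ℕ → ℝ) (c : ℝ) : Prop :=
  D.Wk2 ω (fun _ => c) (fun _ => c) ∧ D.Wp ω fun _ => c

theorem wk_of {ω : ℕ → ℝ} {c : ℝ} (c0 : 0 ≤ c)
    (h1 : ∀ b j, pE (fun _ => 1) D.B 0
      (fun p x => (∑ t ∈ D.tail j, ω t * yv D b t p x) ^ 2) ≤ c ^ 2)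
    (h2 : ∀ φ : ℕ → ℝ, (∀ t, |φ t| ≤ 1) → ∀ b j, pE (fun _ => 1) D.B 0
      (fun p x => (∑ t ∈ D.tail j, ω t * φ t * (yv D b t p x - D.del t)) ^ 2) ≤ c ^ 2) :
    WK D ω c := by
  have k := h2 (fun _ => 1) fun _ => abs_one.le
  simp only [mul_one] at k
  exact ⟨⟨fun _ => ⟨c0, c0⟩, fun _ => ⟨le_rfl, le_rfl⟩, h1 false, h1 true, k false, k true⟩,
    fun φ hφ j => ⟨h2 φ hφ false j, h2 φ hφ true j⟩⟩

/-- **any measure**: Cauchy–Schwarz -/
theorem wk_any {ω : ℕ → ℝ} {c w m : ℝ} (c0 : 0 ≤ c) (hw : ∑ t ∈ D.up, |ω t| ≤ w)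
    (hm : ∑ t ∈ D.up, |ω t| * D.u 2 t ≤ m) (hc : 4 * (w * m) ≤ c ^ 2) : WK D ω c := by
  have a1 : ∀ j, ∑ t ∈ D.tail j, |ω t| ≤ w := fun j =>
    (sum_le_sum_of_subset_of_nonneg (tail_sub D j) fun _ _ _ => abs_nonneg _).trans hw
  have a2 : ∀ j, ∑ t ∈ D.tail j, |ω t| * D.u 2 t ≤ m := fun j =>
    (sum_le_sum_of_subset_of_nonneg (tail_sub D j) fun t _ _ =>
      mul_nonneg (abs_nonneg _) (D.u0 2 t)).trans hm
  have w0 : 0 ≤ w := (sum_nonneg fun _ _ => abs_nonneg _).trans hw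
  have s0 : ∀ j, 0 ≤ ∑ t ∈ D.tail j, |ω t| * D.u 2 t := fun j =>
    sum_nonneg fun t _ => mul_nonneg (abs_nonneg _) (D.u0 2 t)
  have a3 := fun j => mul_le_mul (a1 j) (a2 j) (s0 j) w0
  refine wk_of c0 (fun b j => (pE_cs D _ (fun _ _ => le_rfl) (eg_yv D b) (yv_sq D b)).trans ?_)
    fun φ hφ b j => (pE_cs D _ (ν := fun t => |ω t|) (fun t _ => ?_)
      (fun t x => (eg_yv D b t x).sub (Eg.const _)) (cv_sq D b)).trans ?_
  · linarith [a3 j, mul_nonneg w0 ((s0 j).trans (a2 j))]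
  · rw [abs_mul]; exact mul_le_of_le_one_right (abs_nonneg _) (hφ t)
  · simp only [mul_left_comm _ (4 : ℝ), ← mul_sum]
    linarith [a3 j]

/-- **a measure with a density**: the additive variance bound -/
theorem wk_den {τ0 : ℝ} (h : D.Ok τ0) {ω a α A : ℕ → ℝ} {c : ℝ} (c0 : 0 ≤ c) (H : D.Add A)
    (e : ∀ t ∈ D.up, ω t = D.dx t * a t) (ha : ∀ t ∈ D.up, |a t| ≤ α t)
    (hc : 2 * D.I (fun t => α t ^ 2 * A t) + 2 * D.I (fun t => α t ^ 2 * D.u 2 t) ≤ c ^ 2) :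
    WK D ω c := by
  have i2 : 0 ≤ D.I (fun t => α t ^ 2 * D.u 2 t) := h.I0 fun t _ => mul_nonneg (sq_nonneg _) (D.u0 2 t)
  have i1 : 0 ≤ D.I (fun t => α t ^ 2 * A t) := h.I0 fun t _ => mul_nonneg (sq_nonneg _) (H.1 t)
  have k : ∀ φ : ℕ → ℝ, (∀ t, |φ t| ≤ 1) → ∀ b j, pE (fun _ => 1) D.B 0
      (fun p x => (∑ t ∈ D.tail j, ω t * φ t * (yv D b t p x - D.del t)) ^ 2) ≤
      D.I (fun t => α t ^ 2 * A t) := fun φ hφ b j => by
    have := Alt.CIn12.add_tl H h.dx0 j (φ := fun t => a t * φ t) (α := α) (fun t ht => by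
        rw [abs_mul]
        exact (mul_le_of_le_one_right (abs_nonneg _) (hφ t)).trans (ha t (tail_sub D j ht)))
      (f := D.I fun t => α t ^ 2 * A t) (sum_le_sum_of_subset_of_nonneg (tail_sub D j)
        fun t _ _ => mul_nonneg (h.dx0 t) (mul_nonneg (sq_nonneg _) (H.1 t)))
    have e' : ∀ Y : ℕ → ℝ, ∑ t ∈ D.tail j, ω t * φ t * Y t =
        ∑ t ∈ D.tail j, D.dx t * (a t * φ t) * Y t := fun Y =>
      sum_congr rfl fun t ht => by rw [e t (tail_sub D j ht), mul_assoc (D.dx t)]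
    simp only [e']
    cases b
    exacts [this.1, this.2]
  refine wk_of c0 (fun b j => ?_) fun φ hφ b j => (k φ hφ b j).trans (by linarith)
  have k1 := k (fun _ => 1) (fun _ => abs_one.le) b j
  simp only [mul_one] at k1
  have eg : ∀ x, Eg fun p => ∑ t ∈ D.tail j, ω t * (yv D b t p x - D.del t) := fun x =>
    Eg.sum _ fun t _ => ((eg_yv D b t x).sub (Eg.const _)).const_mul _
  have m : (∑ t ∈ D.tail j, ω t * D.del t) ^ 2 ≤ D.I fun t => α t ^ 2 * D.u 2 t := by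
    have := cs (D.tail j) (μ := D.dx) (ν := D.dx) (fun t _ => (abs_of_nonneg (h.dx0 t)).le)
      fun t => a t * D.del t
    rw [sum_congr rfl fun t ht => by rw [e t (tail_sub D j ht), mul_assoc]]
    refine this.trans ((mul_le_of_le_one_left (sum_nonneg fun t _ => mul_nonneg (h.dx0 t)
      (sq_nonneg _)) (h.sum_dx_one fun t ht => (mem_Ico.1 ht).2.le)).trans
      ((sum_le_sum fun t ht => mul_le_mul_of_nonneg_left ?_ (h.dx0 t)).trans
        (sum_le_sum_of_subset_of_nonneg (tail_sub D j) fun t _ _ =>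
          mul_nonneg (h.dx0 t) (mul_nonneg (sq_nonneg _) (D.u0 2 t)))))
    rw [mul_pow, ← sq_abs (a t)]
    exact mul_le_mul (pow_le_pow_left₀ (abs_nonneg _) (ha t (tail_sub D j ht)) 2)
      (R85.del_sq_le D t) (sq_nonneg _) (sq_nonneg _)
  refine (Eg33.pE_mono' wt_one90 D.B 0 (G := fun p x =>
      2 * (∑ t ∈ D.tail j, ω t * (yv D b t p x - D.del t)) ^ 2 +
        2 * (∑ t ∈ D.tail j, ω t * D.del t) ^ 2)
    (fun x => (Eg.sum _ fun t _ => (eg_yv D b t x).const_mul _).pow 2)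
    (fun x => (((eg x).pow 2).const_mul _).add (Eg.const _)) fun p x => ?_).trans ?_
  · simp only [mul_sub, sum_sub_distrib]
    nlinarith [sq_nonneg (∑ t ∈ D.tail j, ω t * yv D b t p x - 2 * ∑ t ∈ D.tail j, ω t * D.del t)]
  · rw [Eg33.pE_add' wt_one90 D.B 0 (fun x => ((eg x).pow 2).const_mul _) fun _ => Eg.const _,
      Pe.pE_const_mul, pE_c]
    linarith

end Crest.Agent.T156.Cas.C40.R40

end
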