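import Crest.Agent.T156.R2T_40

/-!
# Row 156, R2 (helper40): the numbers `R40.Nm` from the price inputs `R85.Pz`
-/

set_option autoImplicit false
set_option linter.unusedSectionVars false

noncomputable section

namespace Crest.Agent.T156.Cas.C40.R40

open Real Finset
open Crest.Agent.T157.E Crest.Agent.T157.Casc Crest.Agent.T157.SL
open CD Et5

variable {D : CD} {τ0 : ℝ} (h : D.Ok τ0)
include h

/-- the clock against an antitone weight, `τ` constant on UP -/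
theorem sv_ck (hτ : ∀ j, D.J < j → j + 1 < D.K → D.τ (j + 1) = D.τ j) {F : ℕ → ℝ}
    (F0 : ∀ j, 0 ≤ F j) (Fa : ∀ j ∈ D.up, F (j + 1) ≤ F j) :
    D.sv F D.J ≤ D.e (D.J + 1) * F (D.J + 1) + 2 * E42.Ck D F := by
  have c0 := R85.Ck0 h (a := F) fun t _ => F0 t
  have p := mul_nonneg (h.e0 (D.J + 1)) (F0 (D.J + 1))
  rcases (Nat.succ_le_of_lt h.cut).eq_or_lt with e | e
  · rw [CD.sv, sum_eq_zero fun t ht => by have := mem_Ioo.1 ht; omega]
    linarith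
  have i1 : D.I F ≤ E42.Ck D F := sum_le_sum fun t ht => mul_le_mul_of_nonneg_right
    (le_add_of_nonneg_right (R85.ds0 h (mem_up.1 ht).2)) (F0 t)
  have i2 : ∑ t ∈ Ioo (D.J + 1) D.K, D.dx t * F t ≤ D.I F :=
    sub_I h (Ioo_subset_Ioo_left (Nat.le_succ _)) fun t _ => F0 t
  have i3 : ∑ t ∈ Ioo (D.J + 1) D.K, E42.ck D (t - 1) * F (t - 1) ≤ E42.Ck D F := by
    rw [← sum_image (g := fun t => t - 1) (f := fun t => E42.ck D t * F t) fun x hx y hy k => by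
      have := mem_Ioo.1 (mem_coe.1 hx); have := mem_Ioo.1 (mem_coe.1 hy); simp only at k; omega]
    refine sum_le_sum_of_subset_of_nonneg (fun t ht => ?_) fun t ht _ =>
      mul_nonneg (R85.ck0 h ht) (F0 t)
    obtain ⟨x, hx, rfl⟩ := mem_image.1 ht
    have := mem_Ioo.1 hx
    exact mem_up.2 (by omega)
  rw [CD.sv, show Ioo D.J D.K = insert (D.J + 1) (Ioo (D.J + 1) D.K) from by
    ext t; simp only [mem_Ioo, mem_insert]; omega, sum_insert (by simp), CD.dv, if_pos le_rfl]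
  refine add_le_add le_rfl (le_trans (sum_le_sum (g := fun t => E42.ck D (t - 1) * F (t - 1) +
    D.dx t * F t) fun t ht => ?_) (by rw [sum_add_distrib]; linarith))
  have m := mem_Ioo.1 ht
  obtain ⟨s, rfl⟩ : ∃ s, t = s + 1 := ⟨t - 1, by omega⟩
  have us : s ∈ D.up := mem_up.2 (by omega)
  have := mul_le_mul_of_nonneg_left (Fa s us) (R85.ck0 h us)
  rw [CD.dv, if_neg (by omega), Nat.add_sub_cancel, hτ s (by omega) m.2]
  unfold E42.ck at this ⊢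
  linarith

omit h in
theorem tau_ct {τ : ℝ} (c : R85.CT D τ) : ∀ j, D.J < j → j + 1 < D.K → D.τ (j + 1) = D.τ j :=
  fun j a b => (c _ (by omega) b.le).trans (c j (by omega) (by omega)).symm

theorem Ck_one : E42.Ck D (fun _ => 1) ≤ E42.La D := by
  have a := h.sum_dx_one (A := D.up) fun i hi => (mem_up.1 hi).2.le
  have b := sum_Ico_sub D.sig (Nat.succ_le_of_lt h.cut)
  simp only [E42.Ck, E42.ck, mul_one, sum_add_distrib, E42.La]
  rw [show D.up = Ico (D.J + 1) D.K from rfl] at a ⊢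
  linarith [h.sig0 (Nat.succ_le_of_lt h.cut)]

/-- **the numbers from the price inputs** -/
theorem nm_of {P : ℕ} {L θ ρ ε' B Lg Λ ε : ℝ} {A : ℕ → ℝ} (z : R85.Pz D P L θ ρ ε' B Lg)
    (hτ : ∀ j, D.J < j → j + 1 < D.K → D.τ (j + 1) = D.τ j) (JK : D.J + 1 < D.K)
    (val : D.W = none) (X0 : 0 < D.X) (t2 : τ0 ^ 2 ≤ Λ) (hL : L ≤ Λ)
    (hB : 1 + B + 2 * E42.La D ≤ Λ) (hg : 1 + 2 * Lg ≤ Λ) (F : D.F0 (D.J + 1) ≤ Λ)
    (lK : log ((D.K : ℝ) + 2) ≤ Λ) (w1 : Λ * D.X ≤ 1) (w2 : 2 ≤ Λ * ex D.B (P - 1))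
    (add : D.Add A) (ε1 : ε ≤ 1) (err : D.Err ≤ ε) (nn : D.N1 * D.N2 ≤ ε)
    (eA : D.I (fun t => D.e t * A t) ≤ ε) (mu : 1 / θ * R85.muU D (E42.τ D) ≤ ε)
    (mv : R85.Rv D P (D.u 2) ≤ ε) (tl : √D.tl ≤ ε) (dx : ∀ t ∈ D.up, P ≤ t → D.dx t ≤ ε) :
    Nm D τ0 P A Λ ε := by
  have u1 : D.J + 1 ∈ D.up := mem_up.2 ⟨Nat.lt_succ_self _, JK⟩
  have ep : ∀ j, 0 < D.e j := fun j => X0.trans_le (h.eX j)
  have B0 : 0 ≤ B := (h.e0 _).trans (z.eB _ u1)
  have l1 : 1 ≤ E42.La D := le_add_of_nonneg_right (h.sig0 le_rfl)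
  have a1 := sv_ck h hτ (F := fun _ => 1) (fun _ => zero_le_one) fun _ _ => le_rfl
  have a2 := sv_ck h hτ (F := fun j => 1 / D.e j) (fun j => (one_div_pos.2 (ep j)).le)
    fun j _ => one_div_le_one_div_of_le (ep j) (h.emono j)
  rw [mul_one_div_cancel (ep _).ne'] at a2
  exact ⟨val, X0, z.JP, z.PK, t2, by linarith, fun j hj => by linarith [z.eB j hj],
    by linarith [z.eB _ u1, Ck_one h], F, fun t ht hP => (z.ck t ht hP).trans
      (mul_le_mul_of_nonneg_right hL (h.dx0 t)), by linarith [z.lg], lK, w1, w2, add, ε1, err, nn,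
    eA, (z.Ie2 h).trans mu, mv, tl, dx⟩

end Crest.Agent.T156.Cas.C40.R40

end
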