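import Crest.Agent.T156.CDef_40
import Crest.Agent.T156.HessT_65

/-!
# Row 156, R2 (helper85): the names of the reduced heads (P), (W), (EE) on the data `CD`
-/

set_option autoImplicit false

noncomputable section

namespace Crest.Agent.T156.Cas.C40.R85

open Crest.Agent.T157.E Crest.Agent.T157.Casc Crest.Agent.T157.SL
open Crest.Agent.T157.G1 (ov)
open Crest.ProbabilityR.SpinGlassDynamics (spin)

/-- constant `τ` above the root -/
def CT (D : CD) (τ : ℝ) : Prop := ∀ j, 1 ≤ j → j ≤ D.K → D.τ j = τ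
/-- `∫_low E R² dx` -/
def s2 (D : CD) : ℝ := ∑ j ∈ D.lo, D.dx j * D.E2 j fun x y => ov x y ^ 2
/-- `∫_low h E R dx` -/
def sh (D : CD) : ℝ := ∑ j ∈ D.lo, D.dx j * (fAcc D.M j * D.rb j)
/-- the low triangle -/
def s3 (D : CD) (τ : ℝ) : ℝ := D.S3 / τ ^ 3
/-- `∫_low E R⁴ dx` -/
def s4 (D : CD) : ℝ := ∑ j ∈ D.lo, D.dx j * D.E2 j fun x y => ov x y ^ 4
/-- `k² τ⁴ / 12` -/
def kap (D : CD) (τ : ℝ) : ℝ := D.k4 ^ 2 * τ ^ 4 / 12
/-- `Γ_j` given the field `y` at the cut -/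
def Gy (D : CD) (j : ℕ) (y : ℝ) : ℝ :=
  pi2 (fun _ => 1) (D.S.drop D.J) (j - D.J) (fun a b => spin a * spin b) fun b => y * spin b
/-- `ψ_j` -/
def psi (D : CD) (j : ℕ) : ℝ := -(1 / 2) * iteratedDeriv 2 (Gy D j) 0
/-- `∫_up ψ δ dx` -/
def O (D : CD) : ℝ := ∑ j ∈ D.up, D.dx j * (psi D j * D.del j)
/-- `μ_j = 1 - τ E Φ_yy²` -/
def mu (D : CD) (τ : ℝ) (j : ℕ) : ℝ := 1 - τ * Hess65.Gn D.S j
/-- `δ` on UP, zero on LOW -/
def dU (D : CD) (j : ℕ) : ℝ := if D.J < j then D.del j else 0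
/-- the one-site list of the site cascade -/
abbrev V (D : CD) : List (ℝ × ℝ) := opV D.n D.β D.M D.q
/-- `‖δ‖²_{H⁻¹}` in the clock of the site cascade -/
def ell2 (D : CD) : ℝ := Hess65.Hc D.S (V D) (dU D)
/-- `∫_up μ E U² dx` -/
def muU (D : CD) (τ : ℝ) : ℝ := ∑ j ∈ D.up, D.dx j * (mu D τ j * D.u 2 j)
/-- (TWIN) with the low reference `S0` and the error `tw` -/
def TW (D : CD) (τ S0 tw : ℝ) : Prop :=
  ∀ j ∈ D.up, |D.Gam j - D.q j + τ ^ 2 * D.lam * psi D j * S0| ≤ tw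

variable {D : CD} {τ : ℝ}

theorem CT.lo (h : CT D τ) (hc : D.J < D.K) {j : ℕ} (hj : j ∈ D.lo) : D.τ j = τ :=
  h j (Finset.mem_Icc.1 hj).1 ((Finset.mem_Icc.1 hj).2.trans hc.le)

theorem CT.up (h : CT D τ) {j : ℕ} (hj : j ∈ D.up) : D.τ j = τ :=
  h j (by have := Finset.mem_Ioo.1 hj; omega) (Finset.mem_Ioo.1 hj).2.le

theorem S1_eq (h : CT D τ) (hc : D.J < D.K) : D.S1 = τ * s2 D := by
  rw [CD.S1, s2, Finset.mul_sum]
  exact Finset.sum_congr rfl fun j hj => by rw [h.lo hc hj]; ring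

theorem S2_eq (h : CT D τ) (hc : D.J < D.K) : D.S2 = τ ^ 2 * s2 D := by
  rw [CD.S2, s2, Finset.mul_sum]
  exact Finset.sum_congr rfl fun j hj => by rw [h.lo hc hj]; ring

theorem S4_eq (h : CT D τ) (hc : D.J < D.K) : D.S4 = τ ^ 4 * s4 D := by
  rw [CD.S4, s4, Finset.mul_sum]
  exact Finset.sum_congr rfl fun j hj => by rw [h.lo hc hj]; ring

theorem Sh_eq (h : CT D τ) (hc : D.J < D.K) : D.Sh' = τ * sh D := by
  rw [CD.Sh', sh, Finset.mul_sum]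
  exact Finset.sum_congr rfl fun j hj => by rw [h.lo hc hj]; ring

theorem S3_eq (D : CD) (h : τ ≠ 0) : D.S3 = τ ^ 3 * s3 D τ := by
  rw [s3]; field_simp

theorem Su_eq (h : CT D τ) : D.Su = τ * D.I (D.u 2) := by
  rw [CD.Su, CD.I, Finset.mul_sum]
  exact Finset.sum_congr rfl fun j hj => by rw [h.up hj]; ring

end Crest.Agent.T156.Cas.C40.R85

end
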