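import Crest.Agent.T156.Crv_56
import Crest.Agent.T156.CaLink_33
import Crest.Agent.T157.PfB_56

/-!
# Row 156: re-gridding a block of field levels (helper59)

Two lists `D`, `D'` of `(tilt, variance)` with the same total variance: the values of the two
cascades differ by at most `c / 2 * ∫ |lvr D - lvr D'| dt`, `c` the variance per unit time.
-/

set_option autoImplicit false
set_option linter.unusedSectionVars false

noncomputable section

namespace Crest.Agent.T156.Cas.Rg59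

open MeasureTheory Real Set Filter Topology
open Crest.Agent.T157.E Crest.Agent.T157.Casc Crest.Agent.T157.SL
open Trf
open Crest.Agent.R339.Var (TT)
open Crest.Agent.T157.Pf (lvr)

variable {Ω : Type} [Fintype Ω] {w : Ω → ℝ}

/-- a family of levels: tilt `p.1`, covariance `p.2 * K` -/
structure Fm (F : ℝ × ℝ → Lv Ω) (K : Ω → Ω → ℝ) : Prop where
  m : ∀ p, (F p).m = p.1
  cov : ∀ p, 0 ≤ p.2 → ∀ x y, (F p).cov x y = p.2 * K x y

theorem TT_cons (p : ℝ × ℝ) (D : List (ℝ × ℝ)) : TT (p :: D) = p.2 + TT D := by simp [TT]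

theorem TT_nonneg : ∀ {D : List (ℝ × ℝ)}, (∀ p ∈ D, 0 ≤ p.2) → 0 ≤ TT D
  | [], _ => by simp [TT]
  | p :: D, h => by
    rw [TT_cons]
    exact add_nonneg (h p (by simp)) (TT_nonneg fun q hq => h q (by simp [hq]))

variable {F F' : ℝ × ℝ → Lv Ω} {K : Ω → Ω → ℝ}

theorem Fm.zero (H : Fm F K) {p : ℝ × ℝ} (hp : p.2 = 0) (L : List (Lv Ω)) :
    X w (F p :: L) = X w L := by
  rw [C.X_cons]
  refine C.step_of_zero (fun x i => ?_) _
  have e := H.cov p hp.ge x x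
  rw [hp, zero_mul, Lv.cov, Finset.sum_eq_zero_iff_of_nonneg fun i _ => mul_self_nonneg _] at e
  exact mul_self_eq_zero.1 (e i (Finset.mem_univ i))

theorem Fm.nil (H : Fm F K) (N : List (Lv Ω)) : ∀ {D : List (ℝ × ℝ)}, (∀ p ∈ D, 0 ≤ p.2) →
    TT D = 0 → X w (D.map F ++ N) = X w N
  | [], _, _ => rfl
  | p :: D, h, h0 => by
    have h1 : ∀ q ∈ D, 0 ≤ q.2 := fun q hq => h q (by simp [hq])
    have h2 := TT_nonneg h1
    have h3 := h p (by simp)
    rw [TT_cons] at h0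
    rw [List.map_cons, List.cons_append, H.zero (by linarith), H.nil N h1 (by linarith)]

theorem Fm.split (hw : Wt w) (H : Fm F K) {a u v : ℝ} (h0 : 0 ≤ v) (h1 : v ≤ u)
    (L : List (Lv Ω)) : X w (F (a, u) :: L) = X w (F (a, v) :: F (a, u - v) :: L) :=
  C.X_split hw (by rw [H.m, H.m]) (by rw [H.m, H.m]) (fun x y => by
    rw [H.cov _ (h0.trans h1), H.cov _ h0, H.cov _ (sub_nonneg.2 h1)]; ring) L

/-- one common slice -/
theorem head_le (hw : Wt w) (H : Fm F K) (H' : Fm F' K) {c : ℝ} (hc : ∀ x, K x x ≤ c)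
    {g : ℝ → ℝ} (g0 : ∀ t, 0 ≤ g t) (gi : ∀ a b, IntervalIntegrable g volume a b) {a a' v s e : ℝ}
    (hv : 0 ≤ v) (hg : ∀ t ∈ Ico 0 v, a' - a ≤ g (s + t)) {A A' : List (Lv Ω)}
    (hA : ∀ h, X w A' h ≤ X w A h + e) (h : Ω → ℝ) :
    X w (F' (a', v) :: A') h ≤ X w (F (a, v) :: A) h + (c / 2 * (∫ t in s..s + v, g t) + e) := by
  have hK : ∀ x, 0 ≤ K x x := fun x => by
    have := H.cov (0, 1) zero_le_one x x
    rw [one_mul] at this
    rw [← this]
    exact Finset.sum_nonneg fun i _ => mul_self_nonneg _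
  have c0 : 0 ≤ c := by
    obtain ⟨x, -⟩ := Finset.nonempty_of_sum_ne_zero hw.2.ne'
    exact (hK x).trans (hc x)
  have a1 := C.X_append_le hw hw hA [F' (a', v)] h
  simp only [List.singleton_append] at a1
  have e1 : X w (F' (a', v) :: A) = X w (rt (F (a, v)) a' :: A) := by
    rw [C.X_cons, C.X_cons]
    exact C.Same.step (l := F' (a', v)) (l' := rt (F (a, v)) a') ⟨H'.m _, funext fun x =>
      funext fun y => (H'.cov _ hv x y).trans (H.cov (a, v) hv x y).symm⟩ (C.lp_X hw A)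
  have e2 : F (a, v) = rt (F (a, v)) a := by
    have := H.m (a, v)
    generalize F (a, v) = l at this
    cases l
    simp only at this
    simp [rt, this]
  have i0 : 0 ≤ ∫ t in s..s + v, g t :=
    intervalIntegral.integral_nonneg (by linarith) fun t _ => g0 t
  have hcv : ∀ x, (F (a, v)).cov x x ≤ v * c := fun x => by
    rw [H.cov _ hv]; exact mul_le_mul_of_nonneg_left (hc x) hv
  rw [e1] at a1
  rcases le_total a a' with haa | haa
  · have b := (X_rt_sub hw (F (a, v)) A h hcv haa).2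
    rw [← e2] at b
    have i1 : (a' - a) * v ≤ ∫ t in s..s + v, g t := by
      have := intervalIntegral.integral_mono_on_of_le_Ioo (f := fun _ => a' - a) (g := g)
        (μ := volume) (a := s) (b := s + v) (by linarith) intervalIntegrable_const (gi _ _)
        fun t ht => by
          have := hg (t - s) ⟨by linarith [ht.1], by linarith [ht.2]⟩
          rwa [add_sub_cancel] at this
      rwa [intervalIntegral.integral_const, add_sub_cancel_left, smul_eq_mul, mul_comm] at this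
    nlinarith [mul_le_mul_of_nonneg_left i1 c0]
  · have b := (X_rt_sub hw (F (a, v)) A h hcv haa).1
    rw [← e2] at b
    nlinarith [mul_nonneg c0 i0]

theorem lvr_shift (β : ℝ) (p : ℝ × ℝ) (D : List (ℝ × ℝ)) {t : ℝ} (ht : 0 ≤ t) :
    lvr β (p :: D) (t + p.2) = lvr β D t := by
  rw [lvr, if_neg (by linarith), add_sub_cancel_right]

theorem lvr_cut (β a u v : ℝ) (D : List (ℝ × ℝ)) (t : ℝ) :
    lvr β ((a, u) :: D) (t + v) = lvr β ((a, u - v) :: D) t := by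
  simp only [lvr, lt_sub_iff_add_lt, show t + v - u = t - (u - v) by ring]

theorem lvr_head (β : ℝ) (p : ℝ × ℝ) (D : List (ℝ × ℝ)) {t : ℝ} (ht : t < p.2) :
    lvr β (p :: D) t = p.1 := by rw [lvr, if_pos ht]

theorem core (hw : Wt w) (H : Fm F K) (H' : Fm F' K) {c : ℝ} (hc : ∀ x, K x x ≤ c)
    {g : ℝ → ℝ} (g0 : ∀ t, 0 ≤ g t) (gi : ∀ a b, IntervalIntegrable g volume a b) (β β' : ℝ)
    (N : List (Lv Ω)) : ∀ (k : ℕ) (D D' : List (ℝ × ℝ)) (s : ℝ), D.length + D'.length ≤ k →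
      (∀ p ∈ D, 0 ≤ p.2) → (∀ p ∈ D', 0 ≤ p.2) → TT D = TT D' →
      (∀ t ∈ Ico 0 (TT D), lvr β' D' t - lvr β D t ≤ g (s + t)) → ∀ h,
      X w (D'.map F' ++ N) h ≤ X w (D.map F ++ N) h + c / 2 * ∫ t in s..s + TT D, g t
  | _, [], D', s, _, _, h', e, _, h => by
    have e0 : TT ([] : List (ℝ × ℝ)) = 0 := by simp [TT]
    rw [H'.nil N h' (e ▸ e0), e0]
    simp
  | _, p :: D, [], s, _, h0, _, e, _, h => by
    have e0 : TT ([] : List (ℝ × ℝ)) = 0 := by simp [TT]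
    rw [H.nil N h0 (e.trans e0), e, e0]
    simp
  | 0, _ :: _, _ :: _, _, hk, _, _, _, _, _ => by simp at hk
  | k + 1, (a, u) :: D, (a', u') :: D', s, hk, h0, h', e, hg, h => by
    have d0 : ∀ q ∈ D, 0 ≤ q.2 := fun q hq => h0 q (by simp [hq])
    have d' : ∀ q ∈ D', 0 ≤ q.2 := fun q hq => h' q (by simp [hq])
    have u0 : 0 ≤ u := h0 (a, u) (by simp)
    have u0' : 0 ≤ u' := h' (a', u') (by simp)
    have t0 := TT_nonneg d0
    have t0' := TT_nonneg d'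
    simp only [TT_cons] at e hg ⊢
    simp only [List.length_cons] at hk
    simp only [List.map_cons, List.cons_append]
    rcases le_total u u' with hu | hu
    · have ih := core hw H H' hc g0 gi β β' N k D ((a', u' - u) :: D') (s + u)
        (by simp only [List.length_cons]; omega) d0
        (fun q hq => by
          rcases List.mem_cons.1 hq with rfl | hq
          · exact sub_nonneg.2 hu
          · exact d' q hq)
        (by rw [TT_cons]; linarith) fun t ht => by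
          have := hg (t + u) ⟨by linarith [ht.1], by linarith [ht.2]⟩
          rwa [lvr_cut, lvr_shift β (a, u) D ht.1, add_comm t, ← add_assoc] at this
      have key := head_le hw H H' hc g0 gi (a := a) (a' := a') (s := s) u0 (fun t ht => by
        have := hg t ⟨ht.1, by linarith [ht.2]⟩
        rwa [lvr_head β (a, u) D ht.2, lvr_head β' (a', u') D' (ht.2.trans_le hu)] at this) ih h
      rw [H'.split hw u0 hu]
      refine key.trans_eq ?_
      rw [← mul_add, intervalIntegral.integral_add_adjacent_intervals (gi _ _) (gi _ _), add_assoc]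
    · have ih := core hw H H' hc g0 gi β β' N k ((a, u - u') :: D) D' (s + u')
        (by simp only [List.length_cons]; omega)
        (fun q hq => by
          rcases List.mem_cons.1 hq with rfl | hq
          · exact sub_nonneg.2 hu
          · exact d0 q hq) d'
        (by rw [TT_cons]; linarith) fun t ht => by
          rw [TT_cons] at ht
          have := hg (t + u') ⟨by linarith [ht.1], by linarith [ht.2]⟩
          rwa [lvr_cut β a u u', lvr_shift β' (a', u') D' ht.1, add_comm t, ← add_assoc] at this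
      have key := head_le hw H H' hc g0 gi (a := a) (a' := a') (s := s) u0' (fun t ht => by
        have := hg t ⟨ht.1, by linarith [ht.2]⟩
        rwa [lvr_head β (a, u) D (ht.2.trans_le hu), lvr_head β' (a', u') D' ht.2] at this) ih h
      rw [H.split hw u0' hu]
      refine key.trans_eq ?_
      rw [← mul_add, intervalIntegral.integral_add_adjacent_intervals (gi _ _) (gi _ _), TT_cons]
      congr 3
      ring

/-- **one-sided re-grid** -/
theorem regrid_le (hw : Wt w) (H : Fm F K) (H' : Fm F' K) {c : ℝ} (hc : ∀ x, K x x ≤ c)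
    {g : ℝ → ℝ} (g0 : ∀ t, 0 ≤ g t) (gi : ∀ a b, IntervalIntegrable g volume a b) {β β' : ℝ}
    {D D' : List (ℝ × ℝ)} (h0 : ∀ p ∈ D, 0 ≤ p.2) (h' : ∀ p ∈ D', 0 ≤ p.2) (e : TT D = TT D')
    (hg : ∀ t ∈ Ico 0 (TT D), lvr β' D' t - lvr β D t ≤ g t) (M N : List (Lv Ω)) (h : Ω → ℝ) :
    X w (M ++ (D'.map F' ++ N)) h ≤ X w (M ++ (D.map F ++ N)) h + c / 2 * ∫ t in (0 : ℝ)..TT D, g t :=
  C.X_append_le hw hw (fun h => by
    simpa using core hw H H' hc g0 gi β β' N _ D D' 0 le_rfl h0 h' e (by simpa using hg) h) M h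

/-- **re-grid, `L¹` form** -/
theorem regrid (hw : Wt w) (H : Fm F K) (H' : Fm F' K) {c : ℝ} (hc : ∀ x, K x x ≤ c)
    {g : ℝ → ℝ} (gi : ∀ a b, IntervalIntegrable g volume a b) (g0 : ∀ t, 0 ≤ g t) {β β' : ℝ}
    {D D' : List (ℝ × ℝ)} (h0 : ∀ p ∈ D, 0 ≤ p.2) (h' : ∀ p ∈ D', 0 ≤ p.2) (e : TT D = TT D')
    (hg : ∀ t ∈ Ico 0 (TT D), |lvr β' D' t - lvr β D t| ≤ g t) (M N : List (Lv Ω)) (h : Ω → ℝ) :
    |X w (M ++ (D'.map F' ++ N)) h - X w (M ++ (D.map F ++ N)) h| ≤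
      c / 2 * ∫ t in (0 : ℝ)..TT D, g t := by
  have a1 := regrid_le hw H H' hc g0 gi h0 h' e (fun t ht => (abs_le.1 (hg t ht)).2) M N h
  have a2 := regrid_le hw H' H hc g0 gi (β := β') (β' := β) h' h0 e.symm (fun t ht => by
    linarith [(abs_le.1 (hg t (e ▸ ht))).1]) M N h
  rw [← e] at a2
  rw [abs_le]
  constructor <;> linarith

/-- **re-grid, sup form** -/
theorem regrid_sup (hw : Wt w) (H : Fm F K) (H' : Fm F' K) {c ε : ℝ} (hc : ∀ x, K x x ≤ c)
    (ε0 : 0 ≤ ε) {β β' : ℝ} {D D' : List (ℝ × ℝ)} (h0 : ∀ p ∈ D, 0 ≤ p.2) (h' : ∀ p ∈ D', 0 ≤ p.2)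
    (e : TT D = TT D') (hg : ∀ t ∈ Ico 0 (TT D), |lvr β' D' t - lvr β D t| ≤ ε) (M N : List (Lv Ω))
    (h : Ω → ℝ) :
    |X w (M ++ (D'.map F' ++ N)) h - X w (M ++ (D.map F ++ N)) h| ≤ c / 2 * (TT D * ε) := by
  simpa using regrid hw H H' hc (g := fun _ => ε) (fun _ _ => intervalIntegrable_const)
    (fun _ => ε0) h0 h' e hg M N h

/-- the same tilt function: the same value -/
theorem regrid_eq (hw : Wt w) (H : Fm F K) (H' : Fm F' K) {β β' : ℝ} {D D' : List (ℝ × ℝ)}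
    (h0 : ∀ p ∈ D, 0 ≤ p.2) (h' : ∀ p ∈ D', 0 ≤ p.2) (e : TT D = TT D')
    (hg : ∀ t ∈ Ico 0 (TT D), lvr β' D' t = lvr β D t) (M N : List (Lv Ω)) :
    X w (M ++ (D'.map F' ++ N)) = X w (M ++ (D.map F ++ N)) := by
  funext h
  have := regrid_sup hw H H' (c := ∑ x, |K x x|) (fun x => (le_abs_self _).trans
    (Finset.single_le_sum (f := fun x => |K x x|) (fun _ _ => abs_nonneg _) (Finset.mem_univ x)))
    le_rfl (β := β) (β' := β') h0 h' e (fun t ht => by rw [hg t ht]; simp) M N h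
  simpa [sub_eq_zero] using this

theorem fm_lv (l : Lv Ω) : Fm (fun p => lv l p.2 p.1) l.cov :=
  ⟨fun _ => rfl, fun p hp x y => by
    simp only [Lv.cov, Finset.mul_sum]
    refine Finset.sum_congr rfl fun i _ => ?_
    have := mul_self_sqrt hp
    linear_combination (l.A x i * l.A y i) * this⟩

/-! ### lists given by nodes -/

/-- tilt `z k` on the cell `[H k, H (k + 1))`, `k < N` -/
def nl (z H : ℕ → ℝ) (N : ℕ) : List (ℝ × ℝ) := List.ofFn fun k : Fin N => (z k, H (k + 1) - H k)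

theorem nl_succ (z H : ℕ → ℝ) (N : ℕ) : nl z H (N + 1) =
    (z 0, H 1 - H 0) :: nl (fun k => z (k + 1)) (fun k => H (k + 1)) N := by
  simp [nl, List.ofFn_succ]

theorem TT_nl : ∀ (N : ℕ) (z H : ℕ → ℝ), TT (nl z H N) = H N - H 0
  | 0, _, _ => by simp [nl, TT]
  | N + 1, z, H => by rw [nl_succ, TT_cons, TT_nl N]; ring

theorem nl_nonneg {z H : ℕ → ℝ} {N : ℕ} (hH : ∀ k < N, H k ≤ H (k + 1)) : ∀ p ∈ nl z H N, 0 ≤ p.2 := by
  intro p hp
  obtain ⟨k, rfl⟩ := (List.mem_ofFn' _ _).1 hp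
  exact sub_nonneg.2 (hH k k.2)

theorem lvr_nl (β : ℝ) : ∀ (N : ℕ) (z H : ℕ → ℝ) {t : ℝ}, 0 ≤ t → t < H N - H 0 →
    ∃ k < N, H k ≤ H 0 + t ∧ H 0 + t < H (k + 1) ∧ lvr β (nl z H N) t = z k
  | 0, _, _, t, h0, h1 => by simp at h1; linarith
  | N + 1, z, H, t, h0, h1 => by
    rw [nl_succ]
    by_cases ht : t < H 1 - H 0
    · exact ⟨0, N.succ_pos, by linarith, by linarith, lvr_head β _ _ ht⟩
    · obtain ⟨k, k1, k2, k3, k4⟩ := lvr_nl β N (fun k => z (k + 1)) (fun k => H (k + 1))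
        (t := t - (H 1 - H 0)) (by linarith) (by simp only [zero_add]; linarith)
      simp only [zero_add] at k2 k3
      exact ⟨k + 1, by omega, by linarith, by linarith, by rw [lvr, if_neg ht, k4]⟩

/-- **two grids**: the tilts of overlapping cells differ by at most `ε` -/
theorem regrid_nl (hw : Wt w) (H : Fm F K) (H' : Fm F' K) {c ε : ℝ} (hc : ∀ x, K x x ≤ c)
    (ε0 : 0 ≤ ε) {z S z' S' : ℕ → ℝ} {J J' : ℕ} (hS : ∀ k < J, S k ≤ S (k + 1))
    (hS' : ∀ k < J', S' k ≤ S' (k + 1)) (e0 : S 0 = S' 0) (e1 : S J = S' J')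
    (hz : ∀ k < J, ∀ k' < J', S k < S' (k' + 1) → S' k' < S (k + 1) → |z' k' - z k| ≤ ε)
    (M N : List (Lv Ω)) (h : Ω → ℝ) :
    |X w (M ++ ((nl z' S' J').map F' ++ N)) h - X w (M ++ ((nl z S J).map F ++ N)) h| ≤
      c / 2 * ((S J - S 0) * ε) := by
  rw [← TT_nl J z S]
  refine regrid_sup hw H H' hc ε0 (β := 1) (β' := 1) (nl_nonneg hS) (nl_nonneg hS')
    (by rw [TT_nl, TT_nl, e0, e1]) (fun t ht => ?_) M N h
  rw [TT_nl] at ht
  obtain ⟨k, k1, k2, k3, k4⟩ := lvr_nl 1 J z S ht.1 ht.2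
  obtain ⟨k', l1, l2, l3, l4⟩ := lvr_nl 1 J' z' S' ht.1 (by rw [← e0, ← e1]; exact ht.2)
  rw [k4, l4]
  exact hz k k1 k' l1 (by linarith) (by linarith)

/-- **coarsening**: the cells `ν i ≤ k < ν (i + 1)` are merged and get the tilt `z' i` -/
theorem regrid_sub (hw : Wt w) (H : Fm F K) (H' : Fm F' K) {c ε : ℝ} (hc : ∀ x, K x x ≤ c)
    (ε0 : 0 ≤ ε) {z S z' : ℕ → ℝ} {ν : ℕ → ℕ} {J' : ℕ} (hS : Monotone S) (hν : Monotone ν)
    (ν0 : ν 0 = 0) (hz : ∀ i < J', ∀ k, ν i ≤ k → k < ν (i + 1) → |z' i - z k| ≤ ε)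
    (M N : List (Lv Ω)) (h : Ω → ℝ) :
    |X w (M ++ ((nl z' (fun i => S (ν i)) J').map F' ++ N)) h -
      X w (M ++ ((nl z S (ν J')).map F ++ N)) h| ≤ c / 2 * ((S (ν J') - S 0) * ε) :=
  regrid_nl hw H H' hc ε0 (fun k _ => hS k.le_succ) (fun i _ => hS (hν i.le_succ)) (by rw [ν0]) rfl
    (fun k _ i hi h1 h2 => hz i hi k (Nat.lt_succ_iff.1 (hS.reflect_lt h2)) (hS.reflect_lt h1))
    M N h

/-! ### the cube -/

section cube
open Crest.Agent.T157.G1 (ov fl FL)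

theorem fm_fl {n : ℕ} (hn : 0 < n) (s : ℝ) :
    Fm (fl n s) fun x y => s ^ 2 * n * ov x y :=
  ⟨fun _ => rfl, fun p hp x y => by rw [Link33.cov_fl n s p x y hn hp]; ring⟩

theorem diag_fl {n : ℕ} (hn : 0 < n) (s : ℝ) (x : Cube n) : s ^ 2 * n * ov x x ≤ s ^ 2 * n := by
  have hn' : (n : ℝ) ≠ 0 := Nat.cast_ne_zero.2 hn.ne'
  simp [ov, dotProduct, Link33.sv_sq, hn']

/-- **re-grid of field levels on the cube** -/
theorem regrid_FL {n : ℕ} (hn : 0 < n) (s : ℝ) {w : Cube n → ℝ} (hw : Wt w) {g : ℝ → ℝ}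
    (gi : ∀ a b, IntervalIntegrable g volume a b) (g0 : ∀ t, 0 ≤ g t) {β β' : ℝ}
    {D D' : List (ℝ × ℝ)} (h0 : ∀ p ∈ D, 0 ≤ p.2) (h' : ∀ p ∈ D', 0 ≤ p.2) (e : TT D = TT D')
    (hg : ∀ t ∈ Ico 0 (TT D), |lvr β' D' t - lvr β D t| ≤ g t) (M N : List (Lv (Cube n)))
    (h : Cube n → ℝ) :
    |X w (M ++ (FL n s D' ++ N)) h - X w (M ++ (FL n s D ++ N)) h| ≤
      s ^ 2 * n / 2 * ∫ t in (0 : ℝ)..TT D, g t :=
  regrid hw (fm_fl hn s) (fm_fl hn s) (diag_fl hn s) gi g0 h0 h' e hg M N h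

theorem regrid_FL_sup {n : ℕ} (hn : 0 < n) (s : ℝ) {w : Cube n → ℝ} (hw : Wt w) {ε : ℝ}
    (ε0 : 0 ≤ ε) {β β' : ℝ} {D D' : List (ℝ × ℝ)} (h0 : ∀ p ∈ D, 0 ≤ p.2)
    (h' : ∀ p ∈ D', 0 ≤ p.2) (e : TT D = TT D')
    (hg : ∀ t ∈ Ico 0 (TT D), |lvr β' D' t - lvr β D t| ≤ ε) (M N : List (Lv (Cube n)))
    (h : Cube n → ℝ) :
    |X w (M ++ (FL n s D' ++ N)) h - X w (M ++ (FL n s D ++ N)) h| ≤ s ^ 2 * n / 2 * (TT D * ε) :=
  regrid_sup hw (fm_fl hn s) (fm_fl hn s) (diag_fl hn s) ε0 h0 h' e hg M N h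

theorem regrid_FL_nl {n : ℕ} (hn : 0 < n) (s : ℝ) {w : Cube n → ℝ} (hw : Wt w) {ε : ℝ}
    (ε0 : 0 ≤ ε) {z S z' S' : ℕ → ℝ} {J J' : ℕ} (hS : ∀ k < J, S k ≤ S (k + 1))
    (hS' : ∀ k < J', S' k ≤ S' (k + 1)) (e0 : S 0 = S' 0) (e1 : S J = S' J')
    (hz : ∀ k < J, ∀ k' < J', S k < S' (k' + 1) → S' k' < S (k + 1) → |z' k' - z k| ≤ ε)
    (M N : List (Lv (Cube n))) (h : Cube n → ℝ) :
    |X w (M ++ (FL n s (nl z' S' J') ++ N)) h - X w (M ++ (FL n s (nl z S J) ++ N)) h| ≤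
      s ^ 2 * n / 2 * ((S J - S 0) * ε) :=
  regrid_nl hw (fm_fl hn s) (fm_fl hn s) (diag_fl hn s) ε0 hS hS' e0 e1 hz M N h

end cube

end Crest.Agent.T156.Cas.Rg59

end
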