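import Crest.Agent.T156.CaPe_45
import Crest.Agent.T156.CaLc_44
import Crest.Agent.T156.CaPP_16
import Crest.Agent.T156.CaHess_87
import Crest.Agent.T156.CaSym_84

/-!
# Row 156: stability of the top plateau / of the reveal marks (helper51)

For a symmetric cascade `M` (monotone tilts) followed by odd levels of tilt `1` and total variance
`s`, `E φ (end) ≤ exp (-s/2) E φ (end of M)` for every `φ = exp (-Ψ - X w [])`, `Ψ` convex and
symmetric.  On one site `φ = sech ^ (2p)`, `p ≥ 1/2`.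
-/

set_option autoImplicit false
set_option linter.unusedSectionVars false

noncomputable section

namespace Crest.Agent.T156.Cas

open MeasureTheory Real Set Filter Topology
open Crest.Agent.T157.E Crest.Agent.T157.Casc Crest.Agent.T157.SL
open Crest.Agent.R339.Guerra (mp_sum)
open Crest.ProbabilityR.SpinGlassDynamics (spin)

namespace Rev51

variable {Ω : Type} [Fintype Ω] {w : Ω → ℝ}

/-- the potential of the path without the leaf -/
def U0 (w : Ω → ℝ) (M : List (Lv Ω)) (h : Ω → ℝ) (g : NI M → ℝ) : ℝ :=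
  ∑ j ∈ Finset.range M.length, dm M 0 (j + 1) * Ph w M (j + 1) h g

theorem lg_U0 (hw : Wt w) (M : List (Lv Ω)) (h : Ω → ℝ) : Lg (U0 w M h) :=
  Pe.lg_sum _ fun j _ => Pe.lg_const_mul _ (Pe.lg_Ph hw M (j + 1) h)

theorem conv_U0 (hw : Wt w) {M : List (Lv Ω)} (hM : Mono 0 M) :
    ConvexOn ℝ univ fun p : (Ω → ℝ) × (NI M → ℝ) => U0 w M p.1 p.2 := by
  refine ⟨convex_univ, fun u _ v _ a b ha hb hab => ?_⟩
  have h : ∑ j ∈ Finset.range M.length,
      dm M 0 (j + 1) * Ph w M (j + 1) (a • u + b • v).1 (a • u + b • v).2 ≤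
      ∑ j ∈ Finset.range M.length, (a * (dm M 0 (j + 1) * Ph w M (j + 1) u.1 u.2) +
        b * (dm M 0 (j + 1) * Ph w M (j + 1) v.1 v.2)) := Finset.sum_le_sum fun j _ =>
    (lc_mul (convexOn_Ph hw (hM.nn le_rfl) (j + 1)) (dm_nonneg hM (j + 1))).2 (mem_univ u)
      (mem_univ v) ha hb hab
  rw [Finset.sum_add_distrib, ← Finset.mul_sum, ← Finset.mul_sum] at h
  simpa only [U0, smul_eq_mul] using h

/-- the law of the end state has density `exp (-U0 + X w [])` -/
theorem node_eq (hw : Wt w) (M : List (Lv Ω)) (h : Ω → ℝ) {Φ : (Ω → ℝ) → ℝ} (hΦ : Eg Φ) :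
    node w M M.length Φ h = exp (-(ex M 0 * X w M h)) *
      ∫ g, exp (-U0 w M h g) * (exp (X w [] (st M M.length h g)) * Φ (st M M.length h g))
        ∂gv (NI M) := by
  rw [← Pe.pE_node1 hw hΦ, pE, ← integral_const_mul]
  refine integral_congr_ae (Eventually.of_forall fun g => ?_)
  simp only [C.exp_X_nil hw, Finset.sum_mul, Finset.mul_sum]
  refine Finset.sum_congr rfl fun x _ => ?_
  have e : -U w M h x g - ex M 0 * X w M h =
      -(ex M 0 * X w M h) + (-U0 w M h g + st M M.length h g x) := by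
    simp only [U, U0]; ring
  rw [den, e, exp_add, exp_add]; ring

/-- the shifted partition function -/
def K (w : Ω → ℝ) (M : List (Lv Ω)) (h : Ω → ℝ) (Ψ : (Ω → ℝ) → ℝ) (y : Ω → ℝ) : ℝ :=
  ∫ g, exp (-(U0 w M h g + Ψ (st M M.length h g + y))) ∂gv (NI M)

variable {Ψ : (Ω → ℝ) → ℝ}

theorem lg_pot (hw : Wt w) (hΨ : Lg Ψ) (M : List (Lv Ω)) (h y : Ω → ℝ) :
    Lg fun g => U0 w M h g + Ψ (st M M.length h g + y) :=
  Pe.lg_add (lg_U0 hw M h) (Pe.lg_st M h M.length (hΨ.shift y))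

theorem K_pos (hw : Wt w) (hΨ : Lg Ψ) (M : List (Lv Ω)) (h y : Ω → ℝ) : 0 < K w M h Ψ y :=
  integral_exp_pos (Pe.eg_int (Pe.eg_exp (Pe.lg_neg (lg_pot hw hΨ M h y))))

theorem eg_phi (hw : Wt w) (hΨ : Lg Ψ) (y : Ω → ℝ) : Eg fun z => exp (-Ψ (z + y) - X w [] z) :=
  Pe.eg_exp (Pe.lg_sub (Pe.lg_neg (hΨ.shift y)) (lg_X hw []))

theorem node_K (hw : Wt w) (hΨ : Lg Ψ) (M : List (Lv Ω)) (h y : Ω → ℝ) :
    node w M M.length (fun z => exp (-Ψ (z + y) - X w [] z)) h =
      exp (-(ex M 0 * X w M h)) * K w M h Ψ y := by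
  rw [node_eq hw M h (eg_phi hw hΨ y), K]
  congr 1
  refine integral_congr_ae (Eventually.of_forall fun g => ?_)
  simp only [← exp_add]
  congr 1; ring

/-- **Prékopa**: `log K` is concave in the shift -/
theorem concave_K (hw : Wt w) (hΨ : Lg Ψ) (hc : ConvexOn ℝ univ Ψ) {M : List (Lv Ω)}
    (hM : Mono 0 M) (h : Ω → ℝ) : ConcaveOn ℝ univ fun y => log (K w M h Ψ y) := by
  refine prekStmt (NI M) (Ω → ℝ) univ
    (fun p => U0 w M h p.1 + Ψ (st M M.length h p.1 + p.2)) convex_univ ?_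
    (fun y _ => (lg_pot hw hΨ M h y).eg.cont.measurable)
    fun y _ => Pe.eg_int (Pe.eg_exp (Pe.lg_neg (lg_pot hw hΨ M h y)))
  refine ⟨by simpa using convex_univ, fun u _ v _ a b ha hb hab => ?_⟩
  have e0 : a • h + b • h = h := by rw [← add_smul, hab, one_smul]
  have h1 := (conv_U0 hw hM).2 (mem_univ (h, u.1)) (mem_univ (h, v.1)) ha hb hab
  have h2 := hc.2 (mem_univ (st M M.length h u.1 + u.2)) (mem_univ (st M M.length h v.1 + v.2))
    ha hb hab
  have e1 := st_lin a b M M.length h h u.1 v.1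
  rw [e0] at e1
  have e2 : a • (st M M.length h u.1 + u.2) + b • (st M M.length h v.1 + v.2) =
      st M M.length h (a • u.1 + b • v.1) + (a • u.2 + b • v.2) := by
    rw [e1, smul_add, smul_add]; abel
  rw [e2] at h2
  simp only [Prod.smul_mk, Prod.mk_add_mk, e0, smul_eq_mul] at h1 h2
  simp only [Prod.fst_add, Prod.snd_add, Prod.smul_fst, Prod.smul_snd, smul_eq_mul]
  linarith

variable {τ : Equiv.Perm Ω}

/-- nodes are invariant under a symmetry -/
theorem node_sym (hw : Wt w) {M : List (Lv Ω)} {h : Ω → ℝ} (H : Sym w M h τ) {j : ℕ}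
    (hj : j ≤ M.length) {Φ : (Ω → ℝ) → ℝ} (hΦ : Measurable Φ) :
    node w M j (fun z => Φ fun y => z (τ y)) h = node w M j Φ h := by
  have := C.node_transfer hw hw one_ne_zero (Sy84.X_nil_sym H.w) (Sy84.fa_sym M H.cov) hj hΦ h
  simp only [List.append_nil] at this
  rw [← this, funext H.h]

theorem K_sym (hw : Wt w) (hΨ : Lg Ψ) (hs : ∀ z, Ψ (fun x => z (τ x)) = Ψ z) {M : List (Lv Ω)}
    {h : Ω → ℝ} (H : Sym w M h τ) (y : Ω → ℝ) : K w M h Ψ (fun x => y (τ x)) = K w M h Ψ y := by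
  have h1 := node_sym hw H le_rfl (eg_phi hw hΨ fun x => y (τ x)).cont.measurable
  have e : (fun z : Ω → ℝ => exp (-Ψ ((fun x => z (τ x)) + fun x => y (τ x)) -
      X w [] fun x => z (τ x))) = fun z => exp (-Ψ (z + y) - X w [] z) := by
    funext z
    rw [Sy84.X_nil_sym H.w, one_mul, add_zero, ← hs (z + y)]
    rfl
  rw [e, node_K hw hΨ, node_K hw hΨ] at h1
  exact (mul_left_cancel₀ (exp_pos _).ne' h1).symm

/-- **Anderson's inequality** for the planted path law: an odd shift lowers `K` -/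
theorem K_le (hw : Wt w) (hΨ : Lg Ψ) (hc : ConvexOn ℝ univ Ψ)
    (hs : ∀ z, Ψ (fun x => z (τ x)) = Ψ z) {M : List (Lv Ω)} (hM : Mono 0 M) {h : Ω → ℝ}
    (H : Sym w M h τ) {y : Ω → ℝ} (hy : ∀ x, y (τ x) = -y x) : K w M h Ψ y ≤ K w M h Ψ 0 := by
  have h1 := (concave_K hw hΨ hc hM h).2 (mem_univ y) (mem_univ fun x => y (τ x))
    (show (0 : ℝ) ≤ 1 / 2 by norm_num) (show (0 : ℝ) ≤ 1 / 2 by norm_num) (by norm_num)
  have e : (1 / 2 : ℝ) • y + (1 / 2 : ℝ) • (fun x => y (τ x)) = 0 := by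
    funext x; simp [hy]
  simp only [e, K_sym hw hΨ hs H, smul_eq_mul] at h1
  exact (log_le_log_iff (K_pos hw hΨ M h y) (K_pos hw hΨ M h 0)).1 (by linarith)

/-- a level of tilt `1` whose energies all have variance `s` -/
structure Ann (l : Lv Ω) (s : ℝ) : Prop where
  m : l.m = 1
  v : ∀ x, l.cov x x = s

/-- the features change sign under `τ` -/
def Od (τ : Equiv.Perm Ω) (l : Lv Ω) : Prop := ∀ x i, l.A (τ x) i = -l.A x i

omit [Fintype Ω] in
theorem od_of_cov {l : Lv Ω} (h : ∀ x, l.cov x x + l.cov (τ x) (τ x) + 2 * l.cov (τ x) x = 0) :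
    Od τ l := fun x i => by
  have e : ∑ i, (l.A (τ x) i + l.A x i) ^ 2 = 0 := by
    rw [← h x]
    simp only [Lv.cov, Finset.mul_sum, ← Finset.sum_add_distrib]
    exact Finset.sum_congr rfl fun i _ => by ring
  have := (Finset.sum_eq_zero_iff_of_nonneg fun i _ => sq_nonneg _).1 e i (Finset.mem_univ i)
  linarith [pow_eq_zero_iff (two_ne_zero) |>.1 this]

omit [Fintype Ω] in
theorem Od.cov {l : Lv Ω} (h : Od τ l) (x y : Ω) : l.cov (τ x) (τ y) = l.cov x y := by
  simp only [Lv.cov, h x, h y, neg_mul_neg]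

omit [Fintype Ω] in
theorem Od.fld {l : Lv Ω} (h : Od τ l) (g : l.ι → ℝ) (x : Ω) : l.fld g (τ x) = -l.fld g x := by
  simp only [Lv.fld, h x, neg_mul, Finset.sum_neg_distrib]

theorem fa_id : ∀ M : List (Lv Ω), List.Forall₂ (C.Rel (fun h : Ω → ℝ => h) 1) M M
  | [] => .nil
  | _ :: M => .cons (C.Same.rel ⟨rfl, rfl⟩) (fa_id M)

/-- a suffix that only adds a constant to the value does not change the nodes -/
theorem node_suffix (hw : Wt w) {N N' : List (Lv Ω)} {c : ℝ} (hN : ∀ z, X w N z = X w N' z + c)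
    (M : List (Lv Ω)) {j : ℕ} (hj : j ≤ M.length) {Φ : (Ω → ℝ) → ℝ} (hΦ : Measurable Φ)
    (h : Ω → ℝ) : node w (M ++ N) j Φ h = node w (M ++ N') j Φ h :=
  C.node_transfer (e := fun h => h) (c := c) hw hw one_ne_zero (by simpa using hN) (fa_id M) hj hΦ h

theorem tE_ann (hw : Wt w) {l : Lv Ω} {s : ℝ} (hl : Ann l s) (Ψ : (Ω → ℝ) → ℝ) (z : Ω → ℝ) :
    tE l (X w []) (fun z => exp (-Ψ z - X w [] z)) z =
      exp (-(s / 2)) * (exp (-X w [] z) * ∫ g, exp (-Ψ (z + l.fld g)) ∂gv l.ι) := by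
  have h1 := Pe.exp_X_cons hw l [] z
  rw [C.X_annealed_const hw hl.m hl.v] at h1
  rw [tE, ← h1, hl.m]
  simp only [one_mul, ← exp_add]
  have e : ∀ g, X w [] (z + l.fld g) + (-Ψ (z + l.fld g) - X w [] (z + l.fld g)) =
      -Ψ (z + l.fld g) := fun g => by ring
  simp only [e]
  rw [div_eq_iff (exp_pos _).ne', exp_add, exp_neg, exp_neg (X w [] z)]
  field_simp

/-- **one reveal level** -/
theorem rev_one (hw : Wt w) (hΨ : Lg Ψ) (hc : ConvexOn ℝ univ Ψ)
    (hs : ∀ z, Ψ (fun x => z (τ x)) = Ψ z) {M : List (Lv Ω)} (hM : Mono 0 M) {h : Ω → ℝ}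
    (H : Sym w M h τ) {l : Lv Ω} {s : ℝ} (hl : Ann l s) (ho : Od τ l) :
    node w (M ++ [l]) (M.length + 1) (fun z => exp (-Ψ z - X w [] z)) h ≤
      exp (-(s / 2)) * node w M M.length (fun z => exp (-Ψ z - X w [] z)) h := by
  have hφ : Eg fun z => exp (-Ψ z - X w [] z) := by simpa using eg_phi hw hΨ 0
  have hT := hφ.tE (lg_X hw []) l
  have e1 : node w (M ++ [l]) (M.length + 1) (fun z => exp (-Ψ z - X w [] z)) h =
      node w M M.length (tE l (X w []) fun z => exp (-Ψ z - X w [] z)) h := by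
    rw [C.node_add, List.drop_left, node_cons, node_zero,
      node_suffix hw (N' := []) (C.X_annealed_const hw hl.m hl.v) M le_rfl hT.cont.measurable,
      List.append_nil]
  have e2 := node_K hw hΨ M h 0
  simp only [add_zero] at e2
  rw [e1, e2, node_eq hw M h hT, mul_left_comm]
  refine mul_le_mul_of_nonneg_left ?_ (exp_pos _).le
  -- Fubini
  obtain ⟨B, hB0, hB⟩ := Pe.norm_st M
  obtain ⟨B', hB0', hB'⟩ := Pe.fld_bd l
  have hG : Lg fun q : NI M ⊕ l.ι → ℝ => U0 w M h (fun i => q (.inl i)) +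
      Ψ (st M M.length h (fun i => q (.inl i)) + l.fld fun i => q (.inr i)) := by
    refine Pe.lg_add (Pe.lg_comp (lg_U0 hw M h) (a := 0) (B := 1) (by fun_prop)
      fun q => by simpa using Pe.norm_inl q) (Pe.lg_comp hΨ (a := ‖h‖) (B := B + B')
      (((Pe.cont_st' M _ h).comp (by fun_prop)).add ((Pe.cont_fld l).comp (by fun_prop)))
      fun q => (norm_add_le _ _).trans ?_)
    have h1 := hB M.length h fun i => q (.inl i)
    have h2 := hB' fun i => q (.inr i)
    have h3 := mul_le_mul_of_nonneg_left (Pe.norm_inl q) hB0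
    have h4 := mul_le_mul_of_nonneg_left (Pe.norm_inr q) hB0'
    linarith
  have hI : Integrable (Function.uncurry fun (g : NI M → ℝ) (g' : l.ι → ℝ) =>
      exp (-(U0 w M h g + Ψ (st M M.length h g + l.fld g')))) ((gv (NI M)).prod (gv l.ι)) :=
    (mp_sum (ι := NI M) (κ := l.ι)).integrable_comp_of_integrable
      (Pe.eg_int (Pe.eg_exp (Pe.lg_neg hG)))
  have e3 : ∫ g, exp (-U0 w M h g) * (exp (X w [] (st M M.length h g)) *
      tE l (X w []) (fun z => exp (-Ψ z - X w [] z)) (st M M.length h g)) ∂gv (NI M) =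
      exp (-(s / 2)) * ∫ g', K w M h Ψ (l.fld g') ∂gv l.ι := by
    simp only [K]
    rw [← integral_integral_swap hI, ← integral_const_mul]
    refine integral_congr_ae (Eventually.of_forall fun g => ?_)
    simp only [tE_ann hw hl, neg_add, exp_add]
    rw [integral_const_mul, exp_neg (X w [] _)]
    field_simp
  rw [e3]
  refine mul_le_mul_of_nonneg_left ?_ (exp_pos _).le
  have := integral_mono (μ := gv l.ι) (f := fun g' => K w M h Ψ (l.fld g'))
    (g := fun _ => K w M h Ψ 0) hI.integral_prod_right (integrable_const _)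
    fun g' => K_le hw hΨ hc hs hM H (ho.fld g')
  simpa using this

omit [Fintype Ω] in
theorem mono_app : ∀ {M : List (Lv Ω)} {m0 : ℝ} {N : List (Lv Ω)}, Mono m0 M →
    (∀ l ∈ N, l.m = 1) → Mono m0 (M ++ N)
  | [], _, [], h, _ => h
  | [], _, l :: N, h, hN => ⟨by rw [hN l List.mem_cons_self]; exact h,
      mono_app (M := []) (hN l List.mem_cons_self).le fun l' h' => hN l' (List.mem_cons_of_mem _ h')⟩
  | _ :: _, _, _, h, hN => ⟨h.1, mono_app h.2 hN⟩

/-- **any number of reveal levels** -/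
theorem rev (hw : Wt w) (hΨ : Lg Ψ) (hc : ConvexOn ℝ univ Ψ)
    (hs : ∀ z, Ψ (fun x => z (τ x)) = Ψ z) {h : Ω → ℝ} {N : List (Lv Ω)} {s : List ℝ}
    (hN : List.Forall₂ Ann N s) : ∀ {M : List (Lv Ω)}, Mono 0 M → Sym w M h τ →
    (∀ l ∈ N, Od τ l) →
    node w (M ++ N) (M.length + N.length) (fun z => exp (-Ψ z - X w [] z)) h ≤
      exp (-(s.sum / 2)) * node w M M.length (fun z => exp (-Ψ z - X w [] z)) h := by
  induction hN with
  | nil => intro M _ _ _; simp
  | @cons l a N s h1 _ ih =>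
    intro M hM H ho
    have hl := ho l List.mem_cons_self
    have h2 := ih (M := M ++ [l]) (mono_app hM (by simpa using h1.m))
      ⟨H.w, H.h, fun l' hl' => by
        rcases List.mem_append.1 hl' with h | h
        · exact H.cov l' h
        · rw [List.mem_singleton.1 h]; exact hl.cov⟩
      fun l' h' => ho l' (List.mem_cons_of_mem _ h')
    have h3 := rev_one hw hΨ hc hs hM H h1 hl
    rw [List.append_assoc, List.singleton_append, List.length_append, List.length_singleton] at h2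
    rw [List.length_cons, show M.length + (N.length + 1) = M.length + 1 + N.length by omega,
      List.sum_cons, show -((a + s.sum) / 2) = -(s.sum / 2) + -(a / 2) by ring, exp_add, mul_assoc]
    exact h2.trans (mul_le_mul_of_nonneg_left h3 (exp_pos _).le)

/-! ### annealed suffixes -/

theorem X_ann (hw : Wt w) {N : List (Lv Ω)} {s : List ℝ} (hN : List.Forall₂ Ann N s) :
    ∀ z, X w N z = X w [] z + s.sum / 2 := by
  induction hN with
  | nil => simp
  | @cons l a N s h1 _ ih =>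
    intro z
    have := C.X_transfer (e := fun h => h) (k := 1) (c := s.sum / 2) (M := N) (M' := []) hw hw
      one_ne_zero (by simpa using ih) (fa_id [l]) z
    simp only [List.singleton_append, one_mul] at this
    rw [this, C.X_annealed_const hw h1.m h1.v, List.sum_cons]; ring

theorem P_add_const (w z : Ω → ℝ) (c : ℝ) (x : Ω) : P w [] (z + fun _ => c) x = P w [] z x := by
  simp only [P, prob, Pi.add_apply, exp_add, ← mul_assoc, ← Finset.sum_mul]
  rw [mul_div_mul_right _ _ (exp_pos c).ne']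

theorem P_ann (hw : Wt w) {N : List (Lv Ω)} {s : List ℝ} (hN : List.Forall₂ Ann N s) :
    ∀ z x, P w N z x = P w [] z x := by
  induction hN with
  | nil => simp
  | @cons l a N s h1 h2 ih =>
    intro z x
    have e : P w (l :: N) z x = node w ([l] ++ N) 1 (fun z => P w [] z x) z := by
      rw [List.singleton_append, node_cons, node_zero, ← funext fun z => ih z x]; rfl
    rw [e, node_suffix hw (X_ann hw h2) [l] (j := 1) le_rfl (C.meas_P hw [] x)]
    have := C.P_annealed hw h1.m z x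
    simp only [h1.v, P_add_const] at this
    rw [← this]; rfl

theorem Pf_ann (hw : Wt w) {N : List (Lv Ω)} {s : List ℝ} (hN : List.Forall₂ Ann N s)
    (z f : Ω → ℝ) : Pf w N z f = Pf w [] z f := by simp only [Pf, P_ann hw hN]

theorem Cb_ann (hw : Wt w) {N : List (Lv Ω)} {s : List ℝ} (hN : List.Forall₂ Ann N s)
    (z f f' : Ω → ℝ) : Cb w N z f f' = Cb w [] z f f' := by simp only [Cb, Pf_ann hw hN]

theorem Hb_ann (hw : Wt w) {N : List (Lv Ω)} {s : List ℝ} (hN : List.Forall₂ Ann N s)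
    (z f : Ω → ℝ) : Hb w N z f f = Cb w [] z f f := by
  have hm : Mono 1 ([] ++ N) := mono_app (M := []) le_rfl fun l hl => by
    obtain ⟨i, hi, rfl⟩ := List.getElem_of_mem hl
    exact (List.forall₂_iff_get.1 hN).2 i hi (hN.length_eq ▸ hi) |>.m
  have := Hess87.sandwich hw f N 1 z hm
  rw [← Cb_ann hw hN]
  linarith [this.1, this.2]

theorem node_ann (hw : Wt w) {N : List (Lv Ω)} {s : List ℝ} (hN : List.Forall₂ Ann N s)
    (M : List (Lv Ω)) {j : ℕ} (hj : j ≤ M.length) {Φ : (Ω → ℝ) → ℝ} (hΦ : Measurable Φ)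
    (h : Ω → ℝ) : node w (M ++ N) j Φ h = node w M j Φ h := by
  simpa using node_suffix hw (X_ann hw hN) M hj hΦ h

/-! ### powers of `sech` -/

/-- the potential of `(P a * P (τ a)) ^ p` -/
def Ps (w : Ω → ℝ) (a b : Ω) (p : ℝ) (z : Ω → ℝ) : ℝ :=
  (2 * p - 1) * X w [] z - p * (z a + z b) - p * log (w a * w b)

theorem lg_Ps (hw : Wt w) (a b : Ω) (p : ℝ) : Lg (Ps w a b p) :=
  Pe.lg_sub (Pe.lg_sub (Pe.lg_const_mul _ (lg_X hw []))
    (Pe.lg_const_mul _ (Pe.lg_add (Pe.lg_coord a) (Pe.lg_coord b)))) (Pe.lg_const _)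

theorem conv_Ps (hw : Wt w) (a b : Ω) {p : ℝ} (hp : 1 / 2 ≤ p) : ConvexOn ℝ univ (Ps w a b p) := by
  refine ⟨convex_univ, fun u _ v _ c d hc hd hcd => ?_⟩
  have h := (lc_mul (convexOn_X hw (L := []) (by simp)) (c := 2 * p - 1) (by linarith)).2
    (mem_univ u) (mem_univ v) hc hd hcd
  obtain rfl : d = 1 - c := by linarith
  simp only [Ps, smul_eq_mul, Pi.add_apply, Pi.smul_apply] at h ⊢
  linarith

theorem exp_Ps (hw : Wt w) {a b : Ω} (ha : 0 < w a) (hb : 0 < w b) (p : ℝ) (z : Ω → ℝ) :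
    exp (-Ps w a b p z - X w [] z) = (P w [] z a * P w [] z b) ^ p := by
  have e : P w [] z a * P w [] z b = exp (log (w a * w b) + (z a + z b) - 2 * X w [] z) := by
    simp only [P, prob, ← C.exp_X_nil hw]
    rw [two_mul, exp_sub, exp_add, exp_add, exp_add, exp_log (mul_pos ha hb)]
    field_simp
  rw [e, ← exp_mul, Ps]
  congr 1; ring

/-- **decay of `E (P a * P (τ a)) ^ p` along the reveal levels** -/
theorem rev_P (hw : Wt w) {a : Ω} (ha : 0 < w a) (hτ : τ (τ a) = a) {p : ℝ} (hp : 1 / 2 ≤ p)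
    {M N : List (Lv Ω)} {s : List ℝ} {h : Ω → ℝ} (hM : Mono 0 M) (H : Sym w M h τ)
    (hN : List.Forall₂ Ann N s) (ho : ∀ l ∈ N, Od τ l) :
    node w (M ++ N) (M.length + N.length) (fun z => (P w [] z a * P w [] z (τ a)) ^ p) h ≤
      exp (-(s.sum / 2)) * node w M M.length (fun z => (P w [] z a * P w [] z (τ a)) ^ p) h := by
  have hb : 0 < w (τ a) := by rw [H.w]; exact ha
  simp only [← exp_Ps hw ha hb]
  refine rev hw (lg_Ps hw a (τ a) p) (conv_Ps hw a (τ a) hp) (fun z => ?_) hN hM H ho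
  simp only [Ps, Sy84.X_nil_sym H.w, hτ]
  ring

/-- the flip of one spin -/
def flip : Equiv.Perm Bool := ⟨not, not, Bool.not_not, Bool.not_not⟩

theorem wt1 : Wt fun _ : Bool => (1 : ℝ) := ⟨fun _ => zero_le_one, by simp⟩

theorem spin_flip (x : Bool) : spin (flip x) = -spin x := by cases x <;> simp [flip, spin]

/-- a field level on one site: covariance `v σ σ'` (`C.Rk1 spin l (m, v)`) -/
def F1 (l : Lv Bool) (v : ℝ) : Prop := ∀ a b, l.cov a b = v * (spin a * spin b)

theorem F1.od {l : Lv Bool} {v : ℝ} (h : F1 l v) : Od flip l :=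
  od_of_cov fun x => by rw [h, h, h]; cases x <;> simp [flip, spin] <;> ring

theorem F1.ann {l : Lv Bool} {v : ℝ} (h : F1 l v) (hm : l.m = 1) : Ann l v :=
  ⟨hm, fun x => by rw [h]; cases x <;> simp [spin]⟩

theorem sym1 {M : List (Lv Bool)} (hM : ∀ l ∈ M, ∃ v, F1 l v) : Sym (fun _ => 1) M 0 flip :=
  ⟨fun _ => rfl, fun _ => rfl, fun l hl => (hM l hl).elim fun _ h => h.od.cov⟩

/-- `sech² = 1 - m² = 4 P₊ P₋` -/
theorem Cb_spin (z : Bool → ℝ) : Cb (fun _ => 1) [] z spin spin =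
    4 * (P (fun _ => 1) [] z true * P (fun _ => 1) [] z false) := by
  have h := sum_P wt1 [] z
  simp only [Fintype.sum_bool] at h
  simp only [Cb, Pf, Fintype.sum_bool, spin, if_true, Bool.false_eq_true, if_false]
  rw [show P (fun _ => (1 : ℝ)) [] z false = 1 - P (fun _ => 1) [] z true by linarith]
  ring

theorem Cb_spin' (L : List (Lv Bool)) (z : Bool → ℝ) :
    Cb (fun _ => 1) L z spin spin = 1 - Pf (fun _ => 1) L z spin ^ 2 := by
  have h := sum_P wt1 L z
  simp only [Fintype.sum_bool] at h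
  simp only [Cb, Pf, Fintype.sum_bool, spin, if_true, Bool.false_eq_true, if_false]
  linear_combination h

end Rev51

open Rev51 in
/-- **60's (6)**: one site, field levels `M` with monotone tilts, then field levels `N` of tilt `1`
and variances `s`: `E sech^{2k} (end) ≤ exp (-∑ s / 2) E sech^{2k} (end of M)`, `k ≥ 1`. -/
theorem rev_sech {M N : List (Lv Bool)} {s : List ℝ} (hM : Mono 0 M) (hF : ∀ l ∈ M, ∃ v, F1 l v)
    (hN : List.Forall₂ (fun l v => l.m = 1 ∧ F1 l v) N s) {k : ℕ} (hk : 1 ≤ k) :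
    node (fun _ => 1) (M ++ N) (M.length + N.length)
        (fun z => Cb (fun _ => 1) [] z spin spin ^ k) 0 ≤
      exp (-(s.sum / 2)) *
        node (fun _ => 1) M M.length (fun z => Cb (fun _ => 1) [] z spin spin ^ k) 0 := by
  have hk' : (1 : ℝ) ≤ k := by exact_mod_cast hk
  have h := rev_P (τ := Rev51.flip) (a := true) (p := k) wt1 one_pos rfl (by linarith) hM (sym1 hF)
    (hN.imp fun l v h => h.2.ann h.1) fun l hl => by
      obtain ⟨i, hi, rfl⟩ := List.getElem_of_mem hl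
      exact ((List.forall₂_iff_get.1 hN).2 i hi (hN.length_eq ▸ hi)).2.od
  simp only [rpow_natCast] at h
  simp only [Cb_spin, mul_pow _ (_ * _), node_const_mul]
  rw [mul_left_comm]
  exact mul_le_mul_of_nonneg_left h (by positivity)

open Rev51 in
/-- the same inside one list `M ++ N ++ N'` (`N`, `N'` of tilt `1`), for the Hessian `A = Φ''` -/
theorem rev_hess {M N N' : List (Lv Bool)} {s s' : List ℝ} (hM : Mono 0 M)
    (hF : ∀ l ∈ M, ∃ v, F1 l v) (hN : List.Forall₂ (fun l v => l.m = 1 ∧ F1 l v) N s)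
    (hN' : List.Forall₂ (fun l v => l.m = 1 ∧ F1 l v) N' s') {k : ℕ} (hk : 1 ≤ k) :
    node (fun _ => 1) (M ++ N ++ N') (M.length + N.length)
        (fun z => Hb (fun _ => 1) N' z spin spin ^ k) 0 ≤
      exp (-(s.sum / 2)) * node (fun _ => 1) (M ++ N ++ N') M.length
        (fun z => Hb (fun _ => 1) (N ++ N') z spin spin ^ k) 0 := by
  have hA : List.Forall₂ Ann N s := hN.imp fun l v h => h.2.ann h.1
  have hA' : List.Forall₂ Ann N' s' := hN'.imp fun l v h => h.2.ann h.1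
  have hB : List.Forall₂ Ann (N ++ N') (s ++ s') := List.rel_append hA hA'
  have hm : Measurable fun z => Cb (fun _ : Bool => (1 : ℝ)) [] z spin spin ^ k :=
    ((Hess87.eg_Cb wt1 [] spin spin).pow k).cont.measurable
  simp only [Hb_ann wt1 hA', Hb_ann wt1 hB]
  rw [node_ann wt1 hA' (M ++ N) (by simp) hm, List.append_assoc, node_ann wt1 hB M le_rfl hm]
  exact rev_sech hM hF hN hk

end Crest.Agent.T156.Cas

end
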