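import Crest.Agent.T156.Rig_63

/-!
# Row 156: rigidity of an overlap profile, part 2 (helper63)

Nodes `r 0 ≤ … ≤ r N`, labels `X 0 ≤ … ≤ X (N+1)`; the label on the gap `(r k, r (k+1))` is
`X (k+1)`.  `M' = μ`, `μ' = ν` off the nodes, `|M (r k) - H (label)| ≤ err` on both sides.
-/

set_option autoImplicit false

namespace Crest.Agent.T156.Rig

open Set Real

/-- the nodes -/
noncomputable def nodes (N : ℕ) (r : ℕ → ℝ) : Finset ℝ := by
  classical exact (Finset.range (N + 1)).image r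

theorem mem_nodes {N : ℕ} {r : ℕ → ℝ} {t : ℝ} : t ∈ nodes N r ↔ ∃ k ≤ N, r k = t := by
  simp [nodes]

/-- a profile solving the cavity equation up to `err` -/
structure Prof (N : ℕ) (r X : ℕ → ℝ) (M μ ν H : ℝ → ℝ) (err : ℝ) : Prop where
  rm : ∀ i j, i ≤ j → j ≤ N → r i ≤ r j
  Xm : ∀ i j, i ≤ j → j ≤ N + 1 → X i ≤ X j
  pc : PC2 (nodes N r) (r 0) (r N) M μ ν
  eL : ∀ k ≤ N, |M (r k) - H (X k)| ≤ err
  eR : ∀ k ≤ N, |M (r k) - H (X (k + 1))| ≤ err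

/-- upper increments of `ν`: `dν ≤ 2 b dx - 2 K dr` -/
def Up (N : ℕ) (r X : ℕ → ℝ) (ν : ℝ → ℝ) (b K : ℝ) : Prop :=
  ∀ i j, i ≤ j → j < N → ∀ s ∈ Ioo (r i) (r (i + 1)), ∀ t ∈ Ioo (r j) (r (j + 1)), s ≤ t →
    ν t - ν s ≤ 2 * b * (X (j + 1) - X (i + 1)) - 2 * K * (t - s)

namespace Prof
variable {N : ℕ} {r X : ℕ → ℝ} {M μ ν H : ℝ → ℝ} {err : ℝ}

theorem err_nonneg (h : Prof N r X M μ ν H err) : 0 ≤ err :=
  (abs_nonneg _).trans (h.eL 0 (Nat.zero_le _))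

theorem not_mem (h : Prof N r X M μ ν H err) {k : ℕ} (hk : k < N) {t : ℝ}
    (ht : t ∈ Ioo (r k) (r (k + 1))) : t ∉ nodes N r := by
  rw [mem_nodes]
  rintro ⟨j, hj, rfl⟩
  rcases le_or_gt j k with h1 | h1
  · exact absurd (h.rm j k h1 hk.le) (not_le.2 ht.1)
  · exact absurd (h.rm (k + 1) j h1 hj) (not_le.2 ht.2)

/-- a point strictly between the nodes `i` and `j` that is not a node lies in a gap -/
theorem exists_gap (r : ℕ → ℝ) {N i : ℕ} {t : ℝ} (hS : t ∉ nodes N r) : ∀ {j : ℕ}, i ≤ j →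
    j ≤ N → t ∈ Ioo (r i) (r j) → ∃ k, i ≤ k ∧ k < j ∧ t ∈ Ioo (r k) (r (k + 1)) := by
  intro j hij
  induction j, hij using Nat.le_induction with
  | base => intro _ ht; exact absurd (ht.1.trans ht.2) (lt_irrefl _)
  | succ j hij ih =>
    intro hj ht
    rcases lt_trichotomy t (r j) with h1 | h1 | h1
    · obtain ⟨k, k1, k2, k3⟩ := ih (by omega) ⟨ht.1, h1⟩
      exact ⟨k, k1, by omega, k3⟩
    · exact absurd (mem_nodes.2 ⟨j, by omega, h1.symm⟩) hS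
    · exact ⟨j, hij, by omega, h1, ht.2⟩

theorem gap_pc (h : Prof N r X M μ ν H err) {k : ℕ} (hk : k < N) :
    PC2 ∅ (r k) (r (k + 1)) M μ ν := by
  have h1 := h.pc.mono (h.rm 0 k (Nat.zero_le _) hk.le) (h.rm (k + 1) N hk le_rfl)
    (Finset.Subset.refl _)
  exact ⟨h1.cW, h1.cω, fun t ht _ => h1.dW t ht (h.not_mem hk ht),
    fun t ht _ => h1.dω t ht (h.not_mem hk ht)⟩

/-- equal-area rule on a gap: `Γ (μ₁ + μ₂) ≤ 4 err - K Γ³ / 3` -/
theorem gap_sum (h : Prof N r X M μ ν H err) {b K : ℝ} (hU : Up N r X ν b K) {k : ℕ}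
    (hk : k < N) : (r (k + 1) - r k) * (μ (r k) + μ (r (k + 1))) ≤
      4 * err - K * (r (k + 1) - r k) ^ 3 / 3 := by
  have hle := h.rm k (k + 1) (Nat.le_succ _) hk
  rcases hle.eq_or_lt with he | hlt
  · rw [← he]; have := h.err_nonneg; simp only [sub_self]; nlinarith
  set p := r k with hp
  set q := r (k + 1) with hq
  have hΓ : 0 < q - p := sub_pos.2 hlt
  have hg := h.gap_pc hk
  set c := (μ q + K * (q - p) ^ 2 - μ p) / (q - p) with hc
  have hcq : c * (q - p) = μ q + K * (q - p) ^ 2 - μ p := by rw [hc]; field_simp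
  -- `u = chord - g`
  have du : ∀ s ∈ Ioo p q, HasDerivAt (fun s => μ p + c * (s - p) - K * (s - p) ^ 2 - μ s)
      (c - 2 * K * (s - p) - ν s) s := fun s hs => by
    have := (((((hasDerivAt_id' s).sub_const p).const_mul c).const_add (μ p)).fun_sub
      ((((hasDerivAt_id' s).sub_const p).fun_pow 2).const_mul K)).fun_sub
      (hg.dω s hs (by simp))
    exact this.congr_deriv (by simp; ring)
  have cu : ContinuousOn (fun s => μ p + c * (s - p) - K * (s - p) ^ 2 - μ s) (Icc p q) :=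
    (by fun_prop : Continuous fun s => μ p + c * (s - p) - K * (s - p) ^ 2).continuousOn.sub hg.cω
  have hu : ∀ s ∈ Ioo p q, μ p + c * (s - p) - K * (s - p) ^ 2 - μ s ≤ 0 := fun s hs => by
    by_contra hpos
    push Not at hpos
    obtain ⟨s1, a1, a2⟩ := exists_hasDerivAt_eq_slope _ _ hs.1
      (cu.mono (Icc_subset_Icc_right hs.2.le)) fun v hv => du v ⟨hv.1, hv.2.trans hs.2⟩
    obtain ⟨s2, b1, b2⟩ := exists_hasDerivAt_eq_slope _ _ hs.2
      (cu.mono (Icc_subset_Icc_left hs.1.le)) fun v hv => du v ⟨hs.1.trans hv.1, hv.2⟩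
    have h1 : 0 < c - 2 * K * (s1 - p) - ν s1 := by
      rw [a2]
      refine div_pos ?_ (sub_pos.2 hs.1)
      simp only [sub_self]; nlinarith
    have h2 : c - 2 * K * (s2 - p) - ν s2 < 0 := by
      rw [b2]
      refine div_neg_of_neg_of_pos ?_ (sub_pos.2 hs.2)
      linarith
    have h3 := hU k k le_rfl hk s1 ⟨a1.1, a1.2.trans hs.2⟩ s2 ⟨hs.1.trans b1.1, b1.2⟩
      (a1.2.trans b1.1).le
    simp only [sub_self, mul_zero] at h3
    linarith
  have hψ := le_off ∅ (f := fun s => M s + K * (s - p) ^ 3 / 3 - μ p * (s - p) -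
      c * (s - p) ^ 2 / 2) hlt.le
    (((hg.cW.add (by fun_prop)).sub (by fun_prop)).sub (by fun_prop)) fun s hs _ => by
      have := (((hg.dW s hs (by simp)).fun_add
        (((((hasDerivAt_id' s).sub_const p).fun_pow 3).const_mul K).div_const 3)).fun_sub
        (((hasDerivAt_id' s).sub_const p).const_mul (μ p))).fun_sub
        (((((hasDerivAt_id' s).sub_const p).fun_pow 2).const_mul c).div_const 2)
      refine ⟨_, this, ?_⟩
      have := hu s hs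
      simp
      linarith
  have e1 := abs_le.1 (h.eR k hk.le)
  have e2 := abs_le.1 (h.eL (k + 1) hk)
  have : c * (q - p) ^ 2 = (μ q + K * (q - p) ^ 2 - μ p) * (q - p) := by rw [← hcq]; ring
  simp only [sub_self] at hψ
  nlinarith [e1.1, e1.2, e2.1, e2.2]

/-- gaps are short when the mass is almost nonnegative at the nodes -/
theorem gap_plefka (h : Prof N r X M μ ν H err) {b K η : ℝ} (hU : Up N r X ν b K) {k : ℕ}
    (hk : k < N) (h1 : -η ≤ μ (r k)) (h2 : -η ≤ μ (r (k + 1))) :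
    K * (r (k + 1) - r k) ^ 3 ≤ 12 * err + 6 * η * (r (k + 1) - r k) := by
  have := h.gap_sum hU hk
  have h0 := sub_nonneg.2 (h.rm k (k + 1) (Nat.le_succ _) hk)
  nlinarith [mul_nonneg h0 (show 0 ≤ μ (r k) + μ (r (k + 1)) + 2 * η by linarith)]

/-- **gaps are short under a label floor**: if the labels are not exhausted within
`K Γ / (2 b)` on either side, then `K Γ³ < 12 err` or `d K Γ ≤ 4 b err`. -/
theorem gap_floor (h : Prof N r X M μ ν H err) {b K d : ℝ} (hU : Up N r X ν b K) (hb : 0 ≤ b)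
    (hK : 0 ≤ K) (hd : 0 ≤ d)
    (hH : ∀ i j, i ≤ j → j ≤ N + 1 → d * (X j - X i) ≤ H (X j) - H (X i)) {k : ℕ} (hk : k < N)
    (htop : K * (r (k + 1) - r k) < 2 * b * (X (N + 1) - X (k + 1)))
    (hbot : K * (r (k + 1) - r k) < 2 * b * (X (k + 1) - X 0))
    (hΓ : 12 * err ≤ K * (r (k + 1) - r k) ^ 3) : d * K * (r (k + 1) - r k) ≤ 4 * b * err := by
  classical
  have hle := h.rm k (k + 1) (Nat.le_succ _) hk
  have he := h.err_nonneg
  rcases hle.eq_or_lt with he' | hlt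
  · rw [← he']; simp only [sub_self, mul_zero]; positivity
  have hs := h.gap_sum hU hk
  have hg := h.gap_pc hk
  have hΓ0 : 0 < r (k + 1) - r k := sub_pos.2 hlt
  have hsum : μ (r k) + μ (r (k + 1)) ≤ 0 := by
    by_contra hc
    push Not at hc
    nlinarith [mul_pos hΓ0 hc]
  have fin : ∀ D : ℝ, K * (r (k + 1) - r k) < 2 * b * D → d * D ≤ 2 * err →
      d * K * (r (k + 1) - r k) ≤ 4 * b * err := fun D h1 h2 => by
    nlinarith [mul_le_mul_of_nonneg_left h1.le hd, mul_le_mul_of_nonneg_left h2 hb]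
  rcases le_total (μ (r (k + 1))) (μ (r k)) with h12 | h12
  · -- the upper end is bad
    obtain ⟨s, s1, s2⟩ := exists_hasDerivAt_eq_slope
      (fun s => μ s + K * (r (k + 1) - s) ^ 2 + K * (r (k + 1) - r k) * s)
      (fun s => ν s - 2 * K * (r (k + 1) - s) + K * (r (k + 1) - r k)) hlt
      ((hg.cω.add (by fun_prop)).add (by fun_prop)) fun s hs => by
        have := ((hg.dω s hs (by simp)).fun_add
          ((((hasDerivAt_id' s).const_sub (r (k + 1))).fun_pow 2).const_mul K)).fun_add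
          ((hasDerivAt_id' s).const_mul (K * (r (k + 1) - r k)))
        exact this.congr_deriv (by simp; ring)
    have s3 : ν s - 2 * K * (r (k + 1) - s) + K * (r (k + 1) - r k) ≤ 0 := by
      rw [s2]
      refine div_nonpos_of_nonpos_of_nonneg ?_ hΓ0.le
      nlinarith
    have hex : ∃ j, k + 1 ≤ j ∧ j ≤ N ∧
        K * (r (k + 1) - r k) < 2 * b * (X (j + 1) - X (k + 1)) := ⟨N, hk, le_rfl, htop⟩
    obtain ⟨j1, j2, j3⟩ := Nat.find_spec hex
    set j := Nat.find hex with hj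
    have hν : ∀ t ∈ Ioo (r (k + 1)) (r j), t ∉ nodes N r → ν t ≤ 0 := fun t ht hS => by
      obtain ⟨i, i1, i2, i3⟩ := exists_gap r hS j1 j2 ht
      have h1 := Nat.find_min hex (show i < Nat.find hex from i2)
      have h2 : 2 * b * (X (i + 1) - X (k + 1)) ≤ K * (r (k + 1) - r k) := by
        by_contra hc
        exact h1 ⟨i1, by omega, not_le.1 hc⟩
      have h3 := hU k i (by omega) (by omega) s s1 t i3 (s1.2.trans ht.1).le
      nlinarith [mul_nonneg hK (sub_nonneg.2 ht.1.le)]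
    have a0 := h.rm 0 (k + 1) (Nat.zero_le _) hk
    have a1 := h.rm j N j2 le_rfl
    have hM : -M (r (k + 1)) ≤ -M (r j) := h.pc.neg.W_le a0 (h.rm _ _ j1 j2) a1 fun u hu _ => by
      have := h.pc.neg.ω_le a0 hu.1.le (hu.2.le.trans a1) fun v hv hS =>
        neg_nonneg.2 (hν v ⟨hv.1, hv.2.trans hu.2⟩ hS)
      show 0 ≤ -μ u
      linarith
    have e1 := abs_le.1 (h.eR j j2)
    have e2 := abs_le.1 (h.eL (k + 1) hk)
    have e3 := hH (k + 1) (j + 1) (by omega) (by omega)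
    exact fin _ j3 (by linarith [e1.1, e2.2])
  · -- the lower end is bad
    obtain ⟨s, s1, s2⟩ := exists_hasDerivAt_eq_slope
      (fun s => μ s + K * (s - r k) ^ 2 - K * (r (k + 1) - r k) * s)
      (fun s => ν s + 2 * K * (s - r k) - K * (r (k + 1) - r k)) hlt
      ((hg.cω.add (by fun_prop)).sub (by fun_prop)) fun s hs => by
        have := ((hg.dω s hs (by simp)).fun_add
          ((((hasDerivAt_id' s).sub_const (r k)).fun_pow 2).const_mul K)).fun_sub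
          ((hasDerivAt_id' s).const_mul (K * (r (k + 1) - r k)))
        exact this.congr_deriv (by simp; ring)
    have s3 : 0 ≤ ν s + 2 * K * (s - r k) - K * (r (k + 1) - r k) := by
      rw [s2]
      refine div_nonneg ?_ hΓ0.le
      nlinarith
    have hex : ∃ m, m ≤ k ∧ K * (r (k + 1) - r k) < 2 * b * (X (k + 1) - X (k - m)) :=
      ⟨k, le_rfl, by simpa using hbot⟩
    obtain ⟨j1, j3⟩ := Nat.find_spec hex
    set m := Nat.find hex with hm
    have hν : ∀ t ∈ Ioo (r (k - m)) (r k), t ∉ nodes N r → 0 ≤ ν t := fun t ht hS => by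
      obtain ⟨i, i1, i2, i3⟩ := exists_gap r hS (Nat.sub_le k m) hk.le ht
      have h1 := Nat.find_min hex (show k - (i + 1) < Nat.find hex by omega)
      have h2 : 2 * b * (X (k + 1) - X (i + 1)) ≤ K * (r (k + 1) - r k) := by
        by_contra hc
        refine h1 ⟨by omega, ?_⟩
        rw [show k - (k - (i + 1)) = i + 1 by omega]
        exact not_le.1 hc
      have h3 := hU i k (by omega) hk t i3 s s1 (ht.2.trans s1.1).le
      nlinarith [mul_nonneg hK (sub_nonneg.2 ht.2.le)]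
    have a0 := h.rm 0 (k - m) (Nat.zero_le _) (by omega)
    have a1 := h.rm k N hk.le le_rfl
    have hM : -M (r (k - m)) ≤ -M (r k) :=
      h.pc.neg.W_le a0 (h.rm _ _ (Nat.sub_le k m) hk.le) a1 fun u hu _ => by
        have := h.pc.ω_le (a0.trans hu.1.le) hu.2.le a1 fun v hv hS =>
          hν v ⟨hu.1.trans hv.1, hv.2⟩ hS
        show 0 ≤ -μ u
        linarith
    have e1 := abs_le.1 (h.eL (k - m) (by omega))
    have e2 := abs_le.1 (h.eR k hk.le)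
    have e3 := hH (k - m) (k + 1) (by omega) (by omega)
    exact fin _ j3 (by linarith [e1.2, e2.1])

/-- the cavity equation inside a gap -/
theorem inside (h : Prof N r X M μ ν H err) {k : ℕ} (hk : k < N) {Γ O : ℝ}
    (hΓ : r (k + 1) - r k ≤ Γ) {t : ℝ} (ht : t ∈ Ioo (r k) (r (k + 1)))
    (hO : ∀ s ∈ Ioo (r k) (r (k + 1)), |ν s - ν t| ≤ O) :
    M t - H (X (k + 1)) ≤ err + Γ ^ 2 / 8 * (max (-ν t) 0 + O) ∧
      -(M t - H (X (k + 1))) ≤ err + Γ ^ 2 / 8 * (max (ν t) 0 + O) := by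
  have hg := h.gap_pc hk
  have hO0 : 0 ≤ O := (abs_nonneg _).trans (hO t ht)
  have e1 := abs_le.1 (h.eR k hk.le)
  have e2 := abs_le.1 (h.eL (k + 1) hk)
  have hsq : (r (k + 1) - r k) ^ 2 / 8 ≤ Γ ^ 2 / 8 := by
    have := pow_le_pow_left₀ (sub_nonneg.2 (ht.1.trans ht.2).le) hΓ 2
    linarith
  constructor
  · have hA : 0 ≤ max (-ν t) 0 + O := add_nonneg (le_max_right _ _) hO0
    have := hg.chord (C := H (X (k + 1)) + err) hA (by linarith [e1.2]) (by linarith [e2.2])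
      (fun s hs _ => by
        have := (abs_le.1 (hO s hs)).1
        have := le_max_left (-ν t) 0
        linarith) t (Ioo_subset_Icc_self ht)
    have := mul_le_mul_of_nonneg_right hsq hA
    linarith
  · have hA : 0 ≤ max (ν t) 0 + O := add_nonneg (le_max_right _ _) hO0
    have := hg.neg.chord (C := -H (X (k + 1)) + err) hA (by linarith [e1.1]) (by linarith [e2.1])
      (fun s hs _ => by
        have := (abs_le.1 (hO s hs)).2
        have := le_max_left (ν t) 0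
        show -(max (ν t) 0 + O) ≤ -ν s
        linarith) t (Ioo_subset_Icc_self ht)
    have := mul_le_mul_of_nonneg_right hsq hA
    linarith

end Prof

/-- scalar core of the comparison (one side) -/
theorem core {W Y u ν ν₀ β b₀ b₁ d D c₀ R G e N₀ p₀ O : ℝ} (hG : 0 ≤ G) (hb₀ : 0 ≤ b₀)
    (h0 : b₀ ≤ β) (h1 : β ≤ b₁) (hc₀ : 0 ≤ c₀) (hGd : 2 * b₁ * G ≤ d + c₀)
    (hW : W ≤ Y + e + G * (max (-ν) 0 + O)) (hν : |ν - ν₀ - 2 * β * u| ≤ p₀) (hN : |ν₀| ≤ N₀)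
    (hu : |u| ≤ R) (hup : 0 ≤ u → Y ≤ D * u) (hdn : u ≤ 0 → Y ≤ d * u) :
    (0 ≤ u → W - (e + G * (N₀ + p₀ + O)) ≤ D * u) ∧
    (u ≤ 0 → W - (e + G * (N₀ + p₀ + O)) ≤ (d - 2 * b₁ * G) * u) ∧
    (e + G * (N₀ + p₀ + O) + c₀ * R < W → 0 ≤ u) := by
  obtain ⟨n1, n2⟩ := abs_le.1 hν
  obtain ⟨m1, m2⟩ := abs_le.1 hN
  obtain ⟨u1, u2⟩ := abs_le.1 hu
  have hβ : 0 ≤ β := hb₀.trans h0
  have A : 0 ≤ u → W - (e + G * (N₀ + p₀ + O)) ≤ D * u := fun hu0 => by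
    have : max (-ν) 0 ≤ N₀ + p₀ := max_le (by nlinarith [mul_nonneg hβ hu0]) (by linarith)
    nlinarith [hup hu0, mul_le_mul_of_nonneg_left this hG]
  have B : u ≤ 0 → W - (e + G * (N₀ + p₀ + O)) ≤ (d - 2 * b₁ * G) * u := fun hu0 => by
    have h2 : β * (-u) ≤ b₁ * (-u) := mul_le_mul_of_nonneg_right h1 (neg_nonneg.2 hu0)
    have h3 : 0 ≤ β * (-u) := mul_nonneg hβ (neg_nonneg.2 hu0)
    have : max (-ν) 0 ≤ N₀ + p₀ + 2 * b₁ * (-u) := max_le (by nlinarith) (by nlinarith)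
    nlinarith [hdn hu0, mul_le_mul_of_nonneg_left this hG]
  refine ⟨A, B, fun hlt => ?_⟩
  by_contra hc
  push Not at hc
  have := B hc.le
  nlinarith [mul_le_mul_of_nonneg_left (show -u ≤ R by linarith) hc₀,
    mul_nonneg (show 0 ≤ d + c₀ - 2 * b₁ * G by linarith) (neg_nonneg.2 hc.le)]

/-- an approximate reference solution `(M₀, μ₀, ν₀, x₀)` on the window `[a, b]` -/
structure Ref (N : ℕ) (r X : ℕ → ℝ) (ν H : ℝ → ℝ) (S₀ : Finset ℝ) (a b : ℝ)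
    (M₀ μ₀ ν₀ x₀ : ℝ → ℝ) (b₀ b₁ d D Γ O e₀ N₀ p₀ R : ℝ) : Prop where
  lo : r 0 ≤ a
  lt : a < b
  hi : b ≤ r N
  pc : PC2 S₀ a b M₀ μ₀ ν₀
  b0 : 0 ≤ b₀
  loc : ∀ k < N, ∀ t ∈ Ioo (r k) (r (k + 1)), t ∈ Ioo a b → t ∉ S₀ →
    r (k + 1) - r k ≤ Γ ∧ (∀ s ∈ Ioo (r k) (r (k + 1)), |ν s - ν t| ≤ O) ∧
    (∃ β, b₀ ≤ β ∧ β ≤ b₁ ∧ |ν t - ν₀ t - 2 * β * (X (k + 1) - x₀ t)| ≤ p₀) ∧
    |ν₀ t| ≤ N₀ ∧ |M₀ t - H (x₀ t)| ≤ e₀ ∧ |X (k + 1) - x₀ t| ≤ R ∧
    (x₀ t ≤ X (k + 1) → d * (X (k + 1) - x₀ t) ≤ H (X (k + 1)) - H (x₀ t) ∧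
      H (X (k + 1)) - H (x₀ t) ≤ D * (X (k + 1) - x₀ t)) ∧
    (X (k + 1) ≤ x₀ t → d * (x₀ t - X (k + 1)) ≤ H (x₀ t) - H (X (k + 1)) ∧
      H (x₀ t) - H (X (k + 1)) ≤ D * (x₀ t - X (k + 1)))

namespace Prof
variable {N : ℕ} {r X : ℕ → ℝ} {M μ ν H : ℝ → ℝ} {err : ℝ} {S₀ : Finset ℝ} {a b : ℝ}
  {M₀ μ₀ ν₀ x₀ : ℝ → ℝ} {b₀ b₁ d D Γ O e₀ N₀ p₀ R c₀ : ℝ}

theorem both (h : Prof N r X M μ ν H err)
    (g : Ref N r X ν H S₀ a b M₀ μ₀ ν₀ x₀ b₀ b₁ d D Γ O e₀ N₀ p₀ R) (hc₀ : 0 ≤ c₀)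
    (hGd : b₁ * Γ ^ 2 / 4 ≤ d + c₀) {k : ℕ} (hk : k < N) {t : ℝ}
    (ht : t ∈ Ioo (r k) (r (k + 1))) (ht' : t ∈ Ioo a b) (hS : t ∉ S₀) (ε : ℝ)
    (hε : ε = 1 ∨ ε = -1) :
    (0 ≤ ε * (X (k + 1) - x₀ t) → ε * (M t - M₀ t) - (err + e₀ + Γ ^ 2 / 8 * (N₀ + p₀ + O)) ≤
      D * (ε * (X (k + 1) - x₀ t))) ∧
    (ε * (X (k + 1) - x₀ t) ≤ 0 → ε * (M t - M₀ t) - (err + e₀ + Γ ^ 2 / 8 * (N₀ + p₀ + O)) ≤
      (d - 2 * b₁ * (Γ ^ 2 / 8)) * (ε * (X (k + 1) - x₀ t))) ∧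
    (err + e₀ + Γ ^ 2 / 8 * (N₀ + p₀ + O) + c₀ * R < ε * (M t - M₀ t) →
      0 ≤ ε * (X (k + 1) - x₀ t)) := by
  obtain ⟨l1, l2, ⟨β, β0, β1, l3⟩, l4, l5, l6, l7, l8⟩ := g.loc k hk t ht ht' hS
  obtain ⟨i1, i2⟩ := h.inside hk l1 ht l2
  obtain ⟨m1, m2⟩ := abs_le.1 l5
  rcases hε with rfl | rfl
  · simp only [one_mul]
    exact core (Y := H (X (k + 1)) - H (x₀ t)) (by positivity) g.b0 β0 β1 hc₀ (by linarith)
      (by linarith) l3 l4 l6 (fun hu => (l7 (by linarith)).2)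
      fun hu => by linarith [(l8 (by linarith)).1]
  · simp only [neg_one_mul]
    refine core (Y := -(H (X (k + 1)) - H (x₀ t))) (ν := -ν t) (ν₀ := -ν₀ t) (by positivity)
      g.b0 β0 β1 hc₀ (by linarith) (by rw [neg_neg]; linarith) ?_ (by rwa [abs_neg])
      (by rwa [abs_neg]) (fun hu => by linarith [(l8 (by linarith)).2])
      fun hu => by linarith [(l7 (by linarith)).1]
    rw [← abs_neg]
    convert l3 using 2
    ring

/-- **rigidity**: in the middle of the window the profile is the reference. -/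
theorem rigid (h : Prof N r X M μ ν H err)
    (g : Ref N r X ν H S₀ a b M₀ μ₀ ν₀ x₀ b₀ b₁ d D Γ O e₀ N₀ p₀ R) (hc₀ : 0 ≤ c₀)
    (hGd : b₁ * Γ ^ 2 / 4 ≤ d + c₀) (hD : 0 ≤ D) (hR : 0 ≤ R) {κ q₀ : ℝ}
    (hκ : κ ^ 2 * D ≤ 2 * b₀) (hq : p₀ ≤ κ ^ 2 * q₀) (hq₀ : 0 ≤ q₀) :
    ∀ t ∈ Icc a b, |M t - M₀ t| ≤ err + e₀ + Γ ^ 2 / 8 * (N₀ + p₀ + O) + c₀ * R + q₀ +
      D * R * (exp (-(κ * (b - t))) + exp (-(κ * (t - a)))) := by
  classical
  have hp : PC2 (nodes N r ∪ S₀) a b (fun t => M t - M₀ t) (fun t => μ t - μ₀ t)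
      fun t => ν t - ν₀ t :=
    (h.pc.mono g.lo g.hi Finset.subset_union_left).sub
      (g.pc.mono le_rfl le_rfl Finset.subset_union_right)
  have side : ∀ ε : ℝ, ε = 1 ∨ ε = -1 → PC2 (nodes N r ∪ S₀) a b (fun t => ε * (M t - M₀ t))
      (fun t => ε * (μ t - μ₀ t)) (fun t => ε * (ν t - ν₀ t)) → ∀ t ∈ Icc a b,
      ε * (M t - M₀ t) ≤ err + e₀ + Γ ^ 2 / 8 * (N₀ + p₀ + O) + c₀ * R + q₀ +
        D * R * (exp (-(κ * (b - t))) + exp (-(κ * (t - a)))) := fun ε hε hq' => by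
    have hε1 : |ε| = 1 := by rcases hε with rfl | rfl <;> simp
    have loc : ∀ t ∈ Ioo a b, t ∉ nodes N r ∪ S₀ → ∃ k < N, t ∈ Ioo (r k) (r (k + 1)) ∧ t ∉ S₀ :=
      fun t ht hS => by
        rw [Finset.mem_union, not_or] at hS
        obtain ⟨k, _, k2, k3⟩ := exists_gap r hS.1 (Nat.zero_le N) le_rfl
          ⟨g.lo.trans_lt ht.1, ht.2.trans_le g.hi⟩
        exact ⟨k, k2, k3, hS.2⟩
    have crude : ∀ t ∈ Icc a b, ε * (M t - M₀ t) ≤
        err + e₀ + Γ ^ 2 / 8 * (N₀ + p₀ + O) + c₀ * R + q₀ + D * R :=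
      bd_off _ g.lt hq'.cW fun t ht hS => by
        obtain ⟨k, hk, k1, k2⟩ := loc t ht hS
        obtain ⟨A, _, C⟩ := h.both g hc₀ hGd hk k1 ht k2 ε hε
        have hu : ε * (X (k + 1) - x₀ t) ≤ R := by
          refine (le_abs_self _).trans ?_
          rw [abs_mul, hε1, one_mul]
          exact (g.loc k hk t k1 ht k2).2.2.2.2.2.1
        have := mul_nonneg hD hR
        have := mul_nonneg hc₀ hR
        by_contra hc
        push Not at hc
        have h1 := A (C (by linarith))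
        have := mul_le_mul_of_nonneg_left hu hD
        linarith
    refine hq'.barrier (mul_nonneg hD hR) (crude a ⟨le_rfl, g.lt.le⟩) (crude b ⟨g.lt.le, le_rfl⟩)
      fun t ht hS hlt => ?_
    obtain ⟨k, hk, k1, k2⟩ := loc t ht hS
    obtain ⟨A, _, C⟩ := h.both g hc₀ hGd hk k1 ht k2 ε hε
    obtain ⟨β, β0, _, l3⟩ := (g.loc k hk t k1 ht k2).2.2.1
    have hu := C (by linarith)
    have h1 := mul_le_mul_of_nonneg_left (A hu) (sq_nonneg κ)
    have h2 : |ε * (ν t - ν₀ t) - 2 * β * (ε * (X (k + 1) - x₀ t))| ≤ p₀ := by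
      rw [show ε * (ν t - ν₀ t) - 2 * β * (ε * (X (k + 1) - x₀ t)) =
        ε * (ν t - ν₀ t - 2 * β * (X (k + 1) - x₀ t)) by ring, abs_mul, hε1, one_mul]
      exact l3
    have h3 := (abs_le.1 h2).1
    have h4 := mul_le_mul_of_nonneg_right hκ hu
    have h5 := mul_le_mul_of_nonneg_right β0 hu
    have h6 := mul_nonneg (sq_nonneg κ) (mul_nonneg hc₀ hR)
    nlinarith
  intro t ht
  have s1 := side 1 (Or.inl rfl) (by simpa using hp) t ht
  have s2 := side (-1) (Or.inr rfl) (by simpa only [neg_one_mul] using hp.neg) t ht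
  exact abs_le.2 ⟨by linarith, by linarith⟩

/-- the labels follow `M` -/
theorem label (h : Prof N r X M μ ν H err)
    (g : Ref N r X ν H S₀ a b M₀ μ₀ ν₀ x₀ b₀ b₁ d D Γ O e₀ N₀ p₀ R)
    (hGd : b₁ * Γ ^ 2 / 4 ≤ d) {k : ℕ} (hk : k < N) {t : ℝ}
    (ht : t ∈ Ioo (r k) (r (k + 1))) (ht' : t ∈ Ioo a b) (hS : t ∉ S₀) :
    (d - b₁ * Γ ^ 2 / 4) * |X (k + 1) - x₀ t| ≤
      |M t - M₀ t| + (err + e₀ + Γ ^ 2 / 8 * (N₀ + p₀ + O)) := by
  rcases le_total (X (k + 1) - x₀ t) 0 with hu | hu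
  · have := (h.both g le_rfl (by linarith) hk ht ht' hS 1 (Or.inl rfl)).2.1 (by linarith)
    rw [abs_of_nonpos hu]
    have := neg_abs_le (M t - M₀ t)
    nlinarith
  · have := (h.both g le_rfl (by linarith) hk ht ht' hS (-1) (Or.inr rfl)).2.1 (by linarith)
    rw [abs_of_nonneg hu]
    have := le_abs_self (M t - M₀ t)
    nlinarith

/-- the masses agree (Landau): `|M - M₀| ≤ C` and labels within `U` on `[s, t]` -/
theorem mass (h : Prof N r X M μ ν H err)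
    (g : Ref N r X ν H S₀ a b M₀ μ₀ ν₀ x₀ b₀ b₁ d D Γ O e₀ N₀ p₀ R) {s t C U : ℝ} (hs : a ≤ s)
    (hst : s < t) (ht : t ≤ b) (h1 : |M s - M₀ s| ≤ C) (h2 : |M t - M₀ t| ≤ C)
    (hU : ∀ k < N, ∀ u ∈ Ioo (r k) (r (k + 1)), u ∈ Ioo s t → u ∉ S₀ → |X (k + 1) - x₀ u| ≤ U) :
    |μ s - μ₀ s| ≤ 2 * C / (t - s) + (2 * b₁ * U + p₀) * (t - s) / 2 ∧
      |μ t - μ₀ t| ≤ 2 * C / (t - s) + (2 * b₁ * U + p₀) * (t - s) / 2 := by
  classical
  have hp : PC2 (nodes N r ∪ S₀) s t (fun t => M t - M₀ t) (fun t => μ t - μ₀ t)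
      fun t => ν t - ν₀ t :=
    (h.pc.mono (g.lo.trans hs) (ht.trans g.hi) Finset.subset_union_left).sub
      (g.pc.mono hs ht Finset.subset_union_right)
  refine hp.landau hst h1 h2 fun u hu hS => ?_
  rw [Finset.mem_union, not_or] at hS
  have hu' : u ∈ Ioo a b := Ioo_subset_Ioo hs ht hu
  obtain ⟨k, _, k2, k3⟩ := exists_gap r hS.1 (Nat.zero_le N) le_rfl
    ⟨g.lo.trans_lt hu'.1, hu'.2.trans_le g.hi⟩
  obtain ⟨β, β0, β1, l3⟩ := (g.loc k k2 u k3 hu' hS.2).2.2.1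
  have h3 := hU k k2 u k3 hu hS.2
  have hβ : 0 ≤ β := g.b0.trans β0
  have h4 : |2 * β * (X (k + 1) - x₀ u)| ≤ 2 * b₁ * U := by
    rw [abs_mul, abs_of_nonneg (by linarith : 0 ≤ 2 * β)]
    exact mul_le_mul (by linarith) h3 (abs_nonneg _) (by linarith)
  have := abs_add_le (ν u - ν₀ u - 2 * β * (X (k + 1) - x₀ u)) (2 * β * (X (k + 1) - x₀ u))
  rw [sub_add_cancel] at this
  linarith

end Prof

end Crest.Agent.T156.Rig
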