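import Crest.Agent.T156.RigB_63

/-!
# Row 156: rigidity of an overlap profile, part 3 (helper63)

Almost nonnegative mass at the nodes, short gaps and semiconvexity bound `ν = μ'` (this is the
location of the profile: `ν = 2 (b x - K r)`), and bound `μ` from above.
-/

set_option autoImplicit false

namespace Crest.Agent.T156.Rig

open Set Real

/-- lower increments of `ν`: `dν ≥ -2 K dr` -/
def Lo (N : ℕ) (r : ℕ → ℝ) (ν : ℝ → ℝ) (K : ℝ) : Prop :=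
  ∀ i j, i ≤ j → j < N → ∀ s ∈ Ioo (r i) (r (i + 1)), ∀ t ∈ Ioo (r j) (r (j + 1)), s ≤ t →
    -(2 * K * (t - s)) ≤ ν t - ν s

namespace Prof
variable {N : ℕ} {r X : ℕ → ℝ} {M μ ν H : ℝ → ℝ} {err : ℝ}

/-- a node at distance between `ℓ` and `ℓ + Γ` above a node -/
theorem node_above {Γ ℓ : ℝ} (hΓ : ∀ k < N, r (k + 1) - r k ≤ Γ) (hℓ : 0 < ℓ) {p : ℕ} (hp : p ≤ N)
    (h : r p + ℓ ≤ r N) : ∃ j, p < j ∧ j ≤ N ∧ ℓ ≤ r j - r p ∧ r j - r p ≤ ℓ + Γ := by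
  classical
  have hex : ∃ j, p ≤ j ∧ j ≤ N ∧ r p + ℓ ≤ r j := ⟨N, hp, le_rfl, h⟩
  obtain ⟨j1, j2, j3⟩ := Nat.find_spec hex
  have hne : p ≠ Nat.find hex := fun e => by rw [← e] at j3; linarith
  obtain ⟨i, hi⟩ : ∃ i, Nat.find hex = i + 1 := ⟨Nat.find hex - 1, by omega⟩
  have h1 := Nat.find_min hex (show i < Nat.find hex by omega)
  have h2 : r i < r p + ℓ := by
    by_contra hc
    exact h1 ⟨by omega, by omega, not_lt.1 hc⟩
  have h3 := hΓ i (by omega)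
  rw [hi] at j1 j2 j3 hne
  exact ⟨i + 1, by omega, j2, by linarith, by linarith⟩

/-- a node at distance between `ℓ` and `ℓ + Γ` below a node -/
theorem node_below {Γ ℓ : ℝ} (hΓ : ∀ k < N, r (k + 1) - r k ≤ Γ) (hℓ : 0 < ℓ) {p : ℕ} (hp : p ≤ N)
    (h : r 0 + ℓ ≤ r p) : ∃ i, i < p ∧ ℓ ≤ r p - r i ∧ r p - r i ≤ ℓ + Γ := by
  classical
  have hex : ∃ m, m ≤ p ∧ r (p - m) + ℓ ≤ r p := ⟨p, le_rfl, by simpa using h⟩
  obtain ⟨j1, j3⟩ := Nat.find_spec hex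
  have hne : 0 ≠ Nat.find hex := fun e => by rw [← e, Nat.sub_zero] at j3; linarith
  obtain ⟨i, hi⟩ : ∃ i, Nat.find hex = i + 1 := ⟨Nat.find hex - 1, by omega⟩
  have h1 := Nat.find_min hex (show i < Nat.find hex by omega)
  have h2 : r p < r (p - i) + ℓ := by
    by_contra hc
    exact h1 ⟨by omega, not_lt.1 hc⟩
  rw [hi] at j1 j3
  have h3 := hΓ (p - (i + 1)) (by omega)
  rw [show p - (i + 1) + 1 = p - i by omega] at h3
  exact ⟨p - (i + 1), by omega, by linarith, by linarith⟩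

theorem fin_bd {V Q η K ℓ Γ s : ℝ} (hQ : 0 ≤ Q) (hη : 0 ≤ η) (hK : 0 ≤ K) (hℓ : 0 < ℓ)
    (h1 : ℓ ≤ s) (h2 : s ≤ ℓ + Γ) (h : (V - 2 * K * Γ - 2 * K * s) * s ^ 2 / 2 ≤ Q + η * s) :
    V ≤ 2 * Q / ℓ ^ 2 + 2 * η / ℓ + 2 * K * (ℓ + 2 * Γ) := by
  have hs : 0 < s := hℓ.trans_le h1
  have a1 : V - 2 * K * Γ - 2 * K * s ≤ 2 * Q / s ^ 2 + 2 * η / s := by
    have : 2 * Q / s ^ 2 + 2 * η / s = (2 * Q + 2 * η * s) / s ^ 2 := by field_simp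
    rw [this, le_div_iff₀ (by positivity)]
    linarith
  have a2 : 2 * Q / s ^ 2 ≤ 2 * Q / ℓ ^ 2 := by gcongr
  have a3 : 2 * η / s ≤ 2 * η / ℓ := by gcongr
  nlinarith [mul_le_mul_of_nonneg_left h2 hK]

/-- **upper bound for `ν`** -/
theorem nu_le (h : Prof N r X M μ ν H err) {K η Γ Hr ℓ : ℝ} (hL : Lo N r ν K) (hK : 0 ≤ K)
    (hη : 0 ≤ η) (hΓ : ∀ k < N, r (k + 1) - r k ≤ Γ)
    (hH : ∀ i j, i ≤ j → j ≤ N + 1 → H (X j) - H (X i) ≤ Hr) (hℓ : 0 < ℓ) {k : ℕ} (hk : k < N)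
    (hμ : -η ≤ μ (r (k + 1))) (hw : r (k + 1) + ℓ ≤ r N) {t : ℝ}
    (ht : t ∈ Ioo (r k) (r (k + 1))) :
    ν t ≤ 2 * (Hr + 2 * err) / ℓ ^ 2 + 2 * η / ℓ + 2 * K * (ℓ + 2 * Γ) := by
  obtain ⟨j, j1, j2, j3, j4⟩ := node_above hΓ hℓ (show k + 1 ≤ N from hk) hw
  have hpc := h.pc.mono (h.rm 0 (k + 1) (Nat.zero_le _) hk) (h.rm j N j2 le_rfl)
    (Finset.Subset.refl _)
  have hT := hpc.taylorL (A := -(ν t - 2 * K * Γ - 2 * K * (r j - r (k + 1))))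
    (h.rm _ _ j1.le j2) fun u hu hS => by
      obtain ⟨i, i1, i2, i3⟩ := exists_gap r hS j1.le j2 hu
      have a1 := hL k i (by omega) (by omega) t ht u i3 (ht.2.trans hu.1).le
      have a2 := hΓ k hk
      have a3 : u - t ≤ Γ + (r j - r (k + 1)) := by linarith [ht.1, hu.2]
      nlinarith [mul_le_mul_of_nonneg_left a3 hK]
  have e1 := abs_le.1 (h.eL j j2)
  have e2 := abs_le.1 (h.eL (k + 1) hk)
  have e3 := hH (k + 1) j j1.le (by omega)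
  have e4 := hH 0 0 le_rfl (Nat.zero_le _)
  have e5 := h.err_nonneg
  refine fin_bd (by linarith) hη hK hℓ j3 j4 ?_
  nlinarith [mul_le_mul_of_nonneg_right hμ (show 0 ≤ r j - r (k + 1) by linarith), e1.2, e2.1]

/-- **lower bound for `ν`** -/
theorem le_nu (h : Prof N r X M μ ν H err) {K η Γ Hr ℓ : ℝ} (hL : Lo N r ν K) (hK : 0 ≤ K)
    (hη : 0 ≤ η) (hΓ : ∀ k < N, r (k + 1) - r k ≤ Γ)
    (hH : ∀ i j, i ≤ j → j ≤ N + 1 → H (X j) - H (X i) ≤ Hr) (hℓ : 0 < ℓ) {k : ℕ} (hk : k < N)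
    (hμ : -η ≤ μ (r k)) (hw : r 0 + ℓ ≤ r k) {t : ℝ} (ht : t ∈ Ioo (r k) (r (k + 1))) :
    -ν t ≤ 2 * (Hr + 2 * err) / ℓ ^ 2 + 2 * η / ℓ + 2 * K * (ℓ + 2 * Γ) := by
  obtain ⟨i, j1, j3, j4⟩ := node_below hΓ hℓ hk.le hw
  have hpc := h.pc.mono (h.rm 0 i (Nat.zero_le _) (by omega)) (h.rm k N hk.le le_rfl)
    (Finset.Subset.refl _)
  have hT := hpc.neg.taylorR (A := ν t + 2 * K * Γ + 2 * K * (r k - r i))
    (h.rm _ _ j1.le hk.le) fun u hu hS => by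
      obtain ⟨m, i1, i2, i3⟩ := exists_gap r hS j1.le hk.le hu
      have a1 := hL m k (by omega) hk u i3 t ht (hu.2.trans ht.1).le
      have a2 := hΓ k hk
      have a3 : t - u ≤ Γ + (r k - r i) := by linarith [ht.2, hu.1]
      show _ ≤ -ν u
      nlinarith [mul_le_mul_of_nonneg_left a3 hK]
  have e1 := abs_le.1 (h.eR i (by omega))
  have e2 := abs_le.1 (h.eL k hk.le)
  have e3 := hH (i + 1) k j1 (by omega)
  have e4 := hH 0 0 le_rfl (Nat.zero_le _)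
  have e5 := h.err_nonneg
  refine fin_bd (by linarith) hη hK hℓ j3 j4 ?_
  nlinarith [mul_le_mul_of_nonneg_right hμ (show 0 ≤ r k - r i by linarith), e1.1, e2.2]

/-- **location**: `|ν|` in the middle of the window -/
theorem abs_nu_le (h : Prof N r X M μ ν H err) {K η Γ Hr ℓ : ℝ} (hL : Lo N r ν K) (hK : 0 ≤ K)
    (hη : 0 ≤ η) (hΓ : ∀ k < N, r (k + 1) - r k ≤ Γ)
    (hH : ∀ i j, i ≤ j → j ≤ N + 1 → H (X j) - H (X i) ≤ Hr) (hℓ : 0 < ℓ)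
    (hμ : ∀ k ≤ N, -η ≤ μ (r k)) {k : ℕ} (hk : k < N) (h1 : r 0 + ℓ ≤ r k)
    (h2 : r (k + 1) + ℓ ≤ r N) {t : ℝ} (ht : t ∈ Ioo (r k) (r (k + 1))) :
    |ν t| ≤ 2 * (Hr + 2 * err) / ℓ ^ 2 + 2 * η / ℓ + 2 * K * (ℓ + 2 * Γ) :=
  abs_le.2 ⟨by linarith [h.le_nu hL hK hη hΓ hH hℓ hk (hμ k hk.le) h1 ht],
    h.nu_le hL hK hη hΓ hH hℓ hk (hμ _ hk) h2 ht⟩

/-- upper bound for the mass at a node, from a lower bound for `ν` above it -/
theorem mu_le (h : Prof N r X M μ ν H err) {A Γ Hr ℓ : ℝ} (hA : 0 ≤ A)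
    (hΓ : ∀ k < N, r (k + 1) - r k ≤ Γ) (hℓ : 0 < ℓ) {p : ℕ} (hp : p ≤ N) (hw : r p + ℓ ≤ r N)
    (hH : ∀ j, p < j → j ≤ N → r j - r p ≤ ℓ + Γ → H (X j) - H (X (p + 1)) ≤ Hr) (hHr : 0 ≤ Hr)
    (hν : ∀ k < N, ∀ t ∈ Ioo (r k) (r (k + 1)), t ∈ Ioo (r p) (r p + ℓ + Γ) → -A ≤ ν t) :
    μ (r p) ≤ (Hr + 2 * err) / ℓ + A * (ℓ + Γ) / 2 := by
  obtain ⟨j, j1, j2, j3, j4⟩ := node_above hΓ hℓ hp hw
  have hpc := h.pc.mono (h.rm 0 p (Nat.zero_le _) hp) (h.rm j N j2 le_rfl) (Finset.Subset.refl _)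
  have hT := hpc.taylorL (A := A) (h.rm _ _ j1.le j2) fun u hu hS => by
    obtain ⟨i, _, i2, i3⟩ := exists_gap r hS j1.le j2 hu
    exact hν i (by omega) u i3 ⟨hu.1, by linarith [hu.2]⟩
  have e1 := abs_le.1 (h.eL j j2)
  have e2 := abs_le.1 (h.eR p hp)
  have e3 := hH j j1 j2 j4
  have e5 := h.err_nonneg
  have hs : 0 < r j - r p := hℓ.trans_le j3
  have a1 : μ (r p) ≤ (Hr + 2 * err) / (r j - r p) + A * (r j - r p) / 2 := by
    have : (Hr + 2 * err) / (r j - r p) + A * (r j - r p) / 2 =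
        (Hr + 2 * err + A * (r j - r p) ^ 2 / 2) / (r j - r p) := by field_simp
    rw [this, le_div_iff₀ hs]
    linarith [e1.2, e2.1]
  have a2 : (Hr + 2 * err) / (r j - r p) ≤ (Hr + 2 * err) / ℓ := by gcongr
  nlinarith [mul_le_mul_of_nonneg_left j4 hA]

/-- a sub-window of a profile is a profile -/
theorem window (h : Prof N r X M μ ν H err) {p n : ℕ} (hp : p + n ≤ N) :
    Prof n (fun k => r (p + k)) (fun k => X (p + k)) M μ ν H err := by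
  have h1 := h.pc.mono (h.rm 0 p (Nat.zero_le _) (by omega)) (h.rm (p + n) N hp le_rfl)
    (Finset.Subset.refl _)
  have key : ∀ t ∈ Ioo (r p) (r (p + n)), t ∉ nodes n (fun k => r (p + k)) → t ∉ nodes N r :=
    fun t ht hS hm => by
      obtain ⟨j, hj, rfl⟩ := mem_nodes.1 hm
      rcases le_or_gt j p with a | a
      · exact absurd (h.rm j p a (by omega)) (not_le.2 ht.1)
      rcases le_or_gt (p + n) j with b | b
      · exact absurd (h.rm (p + n) j b hj) (not_le.2 ht.2)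
      exact hS (mem_nodes.2 ⟨j - p, by omega, by rw [show p + (j - p) = j by omega]⟩)
  exact ⟨fun i j a b => h.rm _ _ (by omega) (by omega), fun i j a b => h.Xm _ _ (by omega) (by omega),
    ⟨h1.cW, h1.cω, fun t ht hS => h1.dW t ht (key t ht hS), fun t ht hS => h1.dω t ht (key t ht hS)⟩,
    fun k hk => h.eL _ (by omega), fun k hk => h.eR (p + k) (by omega)⟩

end Prof

theorem Up.window {N : ℕ} {r X : ℕ → ℝ} {ν : ℝ → ℝ} {b K : ℝ} (h : Up N r X ν b K) {p n : ℕ}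
    (hp : p + n ≤ N) : Up n (fun k => r (p + k)) (fun k => X (p + k)) ν b K :=
  fun i j a c s hs t ht hst => h (p + i) (p + j) (by omega) (by omega) s hs t ht hst

theorem Lo.window {N : ℕ} {r : ℕ → ℝ} {ν : ℝ → ℝ} {K : ℝ} (h : Lo N r ν K) {p n : ℕ}
    (hp : p + n ≤ N) : Lo n (fun k => r (p + k)) ν K :=
  fun i j a c s hs t ht hst => h (p + i) (p + j) (by omega) (by omega) s hs t ht hst

end Crest.Agent.T156.Rig
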