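import Mathlib

/-!
# Row 156: rigidity of an overlap profile from the first cavity equation (helper63)

Frame free.  `M` is piecewise `C²` (`M' = μ`, `μ' = ν` off a finite set).  A profile is a list of
nodes `r k` with labels `X k` (left of the node) and `X (k+1)` (right of the node, and on the gap
`(r k, r (k+1))`); the cavity equation is `|M (r k) - H (label)| ≤ err`.

* `PC2.maxp`, `PC2.barrier`, `PC2.landau`: maximum principle, exponential barrier, Landau.
* `Prof.gap_sum`, `Prof.gap_plefka`, `Prof.gap_floor`: gaps are short.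
* `Prof.rigid`, `Prof.label`, `Prof.mass`: comparison with an approximate reference solution.
-/

set_option autoImplicit false

namespace Crest.Agent.T156.Rig

open Set Real

/-- monotonicity from a derivative off a finite set -/
theorem le_off (S : Finset ℝ) {f : ℝ → ℝ} : ∀ {a b : ℝ}, a ≤ b → ContinuousOn f (Icc a b) →
    (∀ t ∈ Ioo a b, t ∉ S → ∃ f', HasDerivAt f f' t ∧ 0 ≤ f') → f a ≤ f b := by
  classical
  induction S using Finset.induction_on with
  | empty =>
    intro a b hab hc hd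
    rcases hab.eq_or_lt with rfl | hlt
    · exact le_rfl
    have hd' : ∀ t ∈ Ioo a b, HasDerivAt f (deriv f t) t := fun t ht => by
      obtain ⟨f', h1, _⟩ := hd t ht (by simp)
      exact h1.differentiableAt.hasDerivAt
    obtain ⟨c, hc1, hc2⟩ := exists_hasDerivAt_eq_slope f (deriv f) hlt hc hd'
    obtain ⟨f', h1, h2⟩ := hd c hc1 (by simp)
    rw [h1.deriv] at hc2
    rw [hc2] at h2
    have := (div_nonneg_iff.1 h2)
    rcases this with h | h
    · linarith [h.1]
    · linarith [h.2]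
  | insert s S _ ih =>
    intro a b hab hc hd
    by_cases hs : s ∈ Ioo a b
    · have h1 : f a ≤ f s := ih hs.1.le (hc.mono (Icc_subset_Icc_right hs.2.le)) fun t ht hS =>
        hd t ⟨ht.1, ht.2.trans hs.2⟩ (by
          simp only [Finset.mem_insert, not_or]; exact ⟨ht.2.ne, hS⟩)
      have h2 : f s ≤ f b := ih hs.2.le (hc.mono (Icc_subset_Icc_left hs.1.le)) fun t ht hS =>
        hd t ⟨hs.1.trans ht.1, ht.2⟩ (by
          simp only [Finset.mem_insert, not_or]; exact ⟨ht.1.ne', hS⟩)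
      exact h1.trans h2
    · exact ih hab hc fun t ht hS => hd t ht (by
        simp only [Finset.mem_insert, not_or]
        exact ⟨fun h => hs (h ▸ ht), hS⟩)

/-- a bound off a finite set extends to the closed interval -/
theorem bd_off (S : Finset ℝ) {f : ℝ → ℝ} {a b C : ℝ} (hab : a < b)
    (hc : ContinuousOn f (Icc a b)) (h : ∀ t ∈ Ioo a b, t ∉ S → f t ≤ C) :
    ∀ t ∈ Icc a b, f t ≤ C := by
  intro t ht
  have hd : Dense ((S : Set ℝ)ᶜ) := S.countable_toSet.dense_compl ℝ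
  have h1 : Ioo a b ⊆ closure (Ioo a b ∩ (S : Set ℝ)ᶜ) := hd.open_subset_closure_inter isOpen_Ioo
  have h2 : t ∈ closure (Ioo a b ∩ (S : Set ℝ)ᶜ) := by
    have := closure_mono h1
    rw [closure_closure, closure_Ioo hab.ne] at this
    exact this ht
  have h3 : ContinuousWithinAt f (Ioo a b ∩ (S : Set ℝ)ᶜ) t :=
    (hc t ht).mono fun u hu => Ioo_subset_Icc_self hu.1
  exact ContinuousWithinAt.closure_le h2 h3 continuousWithinAt_const fun u hu => h u hu.1 hu.2

/-- piecewise `C²` on `[a, b]`, smooth off `S` -/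
structure PC2 (S : Finset ℝ) (a b : ℝ) (W ω ν : ℝ → ℝ) : Prop where
  cW : ContinuousOn W (Icc a b)
  cω : ContinuousOn ω (Icc a b)
  dW : ∀ t ∈ Ioo a b, t ∉ S → HasDerivAt W (ω t) t
  dω : ∀ t ∈ Ioo a b, t ∉ S → HasDerivAt ω (ν t) t

namespace PC2
variable {S S' : Finset ℝ} {a b : ℝ} {W ω ν W' ω' ν' : ℝ → ℝ}

theorem of_smooth (S : Finset ℝ) (a b : ℝ) (h1 : ∀ t, HasDerivAt W (ω t) t)
    (h2 : ∀ t, HasDerivAt ω (ν t) t) : PC2 S a b W ω ν :=
  ⟨fun t _ => (h1 t).continuousAt.continuousWithinAt,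
    fun t _ => (h2 t).continuousAt.continuousWithinAt, fun t _ _ => h1 t, fun t _ _ => h2 t⟩

theorem mono (h : PC2 S a b W ω ν) {a' b' : ℝ} (ha : a ≤ a') (hb : b' ≤ b) (hS : S ⊆ S') :
    PC2 S' a' b' W ω ν :=
  ⟨h.cW.mono (Icc_subset_Icc ha hb), h.cω.mono (Icc_subset_Icc ha hb),
    fun t ht hs => h.dW t (Ioo_subset_Ioo ha hb ht) fun h' => hs (hS h'),
    fun t ht hs => h.dω t (Ioo_subset_Ioo ha hb ht) fun h' => hs (hS h')⟩

theorem sub (h : PC2 S a b W ω ν) (h' : PC2 S a b W' ω' ν') :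
    PC2 S a b (fun t => W t - W' t) (fun t => ω t - ω' t) fun t => ν t - ν' t :=
  ⟨h.cW.sub h'.cW, h.cω.sub h'.cω, fun t ht hs => (h.dW t ht hs).sub (h'.dW t ht hs),
    fun t ht hs => (h.dω t ht hs).sub (h'.dω t ht hs)⟩

theorem neg (h : PC2 S a b W ω ν) :
    PC2 S a b (fun t => -W t) (fun t => -ω t) fun t => -ν t :=
  ⟨h.cW.neg, h.cω.neg, fun t ht hs => (h.dW t ht hs).neg, fun t ht hs => (h.dω t ht hs).neg⟩

theorem W_le (h : PC2 S a b W ω ν) {s t : ℝ} (hs : a ≤ s) (hst : s ≤ t) (ht : t ≤ b)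
    (h0 : ∀ u ∈ Ioo s t, u ∉ S → 0 ≤ ω u) : W s ≤ W t :=
  le_off S hst (h.cW.mono (Icc_subset_Icc hs ht)) fun u hu hS =>
    ⟨_, h.dW u (Ioo_subset_Ioo hs ht hu) hS, h0 u hu hS⟩

theorem ω_le (h : PC2 S a b W ω ν) {s t : ℝ} (hs : a ≤ s) (hst : s ≤ t) (ht : t ≤ b)
    (h0 : ∀ u ∈ Ioo s t, u ∉ S → 0 ≤ ν u) : ω s ≤ ω t :=
  le_off S hst (h.cω.mono (Icc_subset_Icc hs ht)) fun u hu hS =>
    ⟨_, h.dω u (Ioo_subset_Ioo hs ht hu) hS, h0 u hu hS⟩

/-- **maximum principle** -/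
theorem maxp (h : PC2 S a b W ω ν) (ha : W a ≤ 0) (hb : W b ≤ 0)
    (hν : ∀ t ∈ Ioo a b, t ∉ S → 0 < W t → 0 ≤ ν t) : ∀ t ∈ Icc a b, W t ≤ 0 := by
  intro t ht
  by_contra hpos
  push Not at hpos
  rcases le_total 0 (ω t) with h0 | h0
  · have hK : IsCompact (Icc t b ∩ W ⁻¹' Iic 0) :=
      isCompact_Icc.of_isClosed_subset
        ((h.cW.mono (Icc_subset_Icc_left ht.1)).preimage_isClosed_of_isClosed isClosed_Icc
          isClosed_Iic) inter_subset_left
    obtain ⟨β, ⟨hβ1, hβ2⟩, hβ3⟩ := hK.exists_isLeast ⟨b, ⟨ht.2, le_rfl⟩, hb⟩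
    have hp : ∀ u ∈ Ioo t β, 0 < W u := fun u hu => by
      by_contra hc
      exact absurd (hβ3 ⟨⟨hu.1.le, hu.2.le.trans hβ1.2⟩, not_lt.1 hc⟩) (not_le.2 hu.2)
    have : W t ≤ W β := h.W_le ht.1 hβ1.1 hβ1.2 fun u hu _ =>
      h0.trans (h.ω_le ht.1 hu.1.le (hu.2.le.trans hβ1.2) fun v hv hS =>
        hν v ⟨ht.1.trans_lt hv.1, (hv.2.trans hu.2).trans_le hβ1.2⟩ hS
          (hp v ⟨hv.1, hv.2.trans hu.2⟩))
    have h2 : W β ≤ 0 := hβ2
    linarith
  · have hK : IsCompact (Icc a t ∩ W ⁻¹' Iic 0) :=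
      isCompact_Icc.of_isClosed_subset
        ((h.cW.mono (Icc_subset_Icc_right ht.2)).preimage_isClosed_of_isClosed isClosed_Icc
          isClosed_Iic) inter_subset_left
    obtain ⟨α, ⟨hα1, hα2⟩, hα3⟩ := hK.exists_isGreatest ⟨a, ⟨le_rfl, ht.1⟩, ha⟩
    have hp : ∀ u ∈ Ioo α t, 0 < W u := fun u hu => by
      by_contra hc
      exact absurd (hα3 ⟨⟨hα1.1.trans hu.1.le, hu.2.le⟩, not_lt.1 hc⟩) (not_le.2 hu.1)
    have : -W α ≤ -W t := h.neg.W_le hα1.1 hα1.2 ht.2 fun u hu _ => by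
      have := h.ω_le (hα1.1.trans hu.1.le) hu.2.le ht.2 fun v hv hS =>
        hν v ⟨hα1.1.trans_lt (hu.1.trans hv.1), hv.2.trans_le ht.2⟩ hS
          (hp v ⟨hu.1.trans hv.1, hv.2⟩)
      show 0 ≤ -ω u
      linarith
    have h2 : W α ≤ 0 := hα2
    linarith

/-- comparison with any barrier -/
theorem cmp (h : PC2 S a b W ω ν) (h' : PC2 S a b W' ω' ν') (ha : W a ≤ W' a) (hb : W b ≤ W' b)
    (hν : ∀ t ∈ Ioo a b, t ∉ S → W' t < W t → ν' t ≤ ν t) : ∀ t ∈ Icc a b, W t ≤ W' t :=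
  fun t ht => sub_nonpos.1 ((h.sub h').maxp (sub_nonpos.2 ha) (sub_nonpos.2 hb)
    (fun u hu hS hp => sub_nonneg.2 (hν u hu hS (sub_pos.1 hp))) t ht)

/-- **exponential barrier** -/
theorem barrier (h : PC2 S a b W ω ν) {κ E B : ℝ} (hB : 0 ≤ B) (ha : W a ≤ E + B)
    (hb : W b ≤ E + B) (hν : ∀ t ∈ Ioo a b, t ∉ S → E < W t → κ ^ 2 * (W t - E) ≤ ν t) :
    ∀ t ∈ Icc a b, W t ≤ E + B * (exp (-(κ * (b - t))) + exp (-(κ * (t - a)))) := by
  have e1 : ∀ t, HasDerivAt (fun t => exp (-(κ * (b - t)))) (κ * exp (-(κ * (b - t)))) t :=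
    fun t => by
      have := ((((hasDerivAt_id' t).const_sub b).const_mul κ).fun_neg).exp
      exact this.congr_deriv (by ring)
  have e2 : ∀ t, HasDerivAt (fun t => exp (-(κ * (t - a)))) (-κ * exp (-(κ * (t - a)))) t :=
    fun t => by
      have := ((((hasDerivAt_id' t).sub_const a).const_mul κ).fun_neg).exp
      exact this.congr_deriv (by ring)
  have h' : PC2 S a b (fun t => E + B * (exp (-(κ * (b - t))) + exp (-(κ * (t - a)))))
      (fun t => B * (κ * exp (-(κ * (b - t))) + -κ * exp (-(κ * (t - a)))))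
      fun t => B * (κ * (κ * exp (-(κ * (b - t)))) + -κ * (-κ * exp (-(κ * (t - a))))) :=
    of_smooth S a b (fun t => (((e1 t).add (e2 t)).const_mul B).const_add E)
      fun t => (((e1 t).const_mul κ).add ((e2 t).const_mul (-κ))).const_mul B
  refine h.cmp h' ?_ ?_ fun t ht hS hlt => ?_
  · have := mul_nonneg hB (exp_pos (-(κ * (b - a)))).le
    simp only [sub_self, mul_zero, neg_zero, exp_zero]
    nlinarith
  · have := mul_nonneg hB (exp_pos (-(κ * (b - a)))).le
    simp only [sub_self, mul_zero, neg_zero, exp_zero]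
    nlinarith
  · have h1 := mul_nonneg hB (add_pos (exp_pos (-(κ * (b - t)))) (exp_pos (-(κ * (t - a))))).le
    have h2 := hν t ht hS (by linarith)
    have h3 := mul_le_mul_of_nonneg_left (show B * (exp (-(κ * (b - t))) + exp (-(κ * (t - a))))
      ≤ W t - E by linarith) (sq_nonneg κ)
    nlinarith

/-- semiconvex functions lie below the chord up to `A (b - a)² / 8` -/
theorem chord (h : PC2 S a b W ω ν) {A C : ℝ} (hA : 0 ≤ A) (ha : W a ≤ C) (hb : W b ≤ C)
    (hν : ∀ t ∈ Ioo a b, t ∉ S → -A ≤ ν t) : ∀ t ∈ Icc a b, W t ≤ C + (b - a) ^ 2 / 8 * A := by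
  have h' : PC2 S a b (fun t => C + A / 2 * ((t - a) * (b - t)))
      (fun t => A / 2 * (a + b - 2 * t)) fun _ => -A := by
    refine of_smooth S a b (fun t => ?_) fun t => ?_
    · have := ((((hasDerivAt_id' t).sub_const a).fun_mul
        ((hasDerivAt_id' t).const_sub b)).const_mul (A / 2)).const_add C
      exact this.congr_deriv (by ring)
    · have := (((hasDerivAt_id' t).const_mul 2).const_sub (a + b)).const_mul (A / 2)
      exact this.congr_deriv (by ring)
  intro t ht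
  have := h.cmp h' (by simpa using ha) (by simpa using hb) (fun u hu hS _ => hν u hu hS) t ht
  nlinarith [mul_nonneg hA (sq_nonneg (a + b - 2 * t))]

/-- Taylor from the left end -/
theorem taylorL (h : PC2 S a b W ω ν) {A : ℝ} (hab : a ≤ b)
    (hν : ∀ t ∈ Ioo a b, t ∉ S → -A ≤ ν t) : W a + ω a * (b - a) - A * (b - a) ^ 2 / 2 ≤ W b := by
  have h' : PC2 S a b (fun t => ω a * (t - a) - A * (t - a) ^ 2 / 2)
      (fun t => ω a - A * (t - a)) fun _ => -A := by
    refine of_smooth S a b (fun t => ?_) fun t => ?_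
    · have := (((hasDerivAt_id' t).sub_const a).const_mul (ω a)).fun_sub
        (((((hasDerivAt_id' t).sub_const a).fun_pow 2).const_mul A).div_const 2)
      exact this.congr_deriv (by simp; ring)
    · have := ((((hasDerivAt_id' t).sub_const a).const_mul A).const_sub (ω a))
      exact this.congr_deriv (by ring)
  have := (h.sub h').W_le le_rfl hab le_rfl fun u hu _ => by
    have := (h.sub h').ω_le le_rfl hu.1.le hu.2.le fun v hv hS => by
      have := hν v ⟨hv.1, hv.2.trans hu.2⟩ hS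
      show 0 ≤ ν v - -A
      linarith
    simpa using this
  simp only [sub_self, mul_zero] at this
  linarith

/-- Taylor from the right end -/
theorem taylorR (h : PC2 S a b W ω ν) {A : ℝ} (hab : a ≤ b)
    (hν : ∀ t ∈ Ioo a b, t ∉ S → -A ≤ ν t) : W b - ω b * (b - a) - A * (b - a) ^ 2 / 2 ≤ W a := by
  have h' : PC2 S a b (fun t => -(ω b * (b - t)) - A * (b - t) ^ 2 / 2)
      (fun t => ω b + A * (b - t)) fun _ => -A := by
    refine of_smooth S a b (fun t => ?_) fun t => ?_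
    · have := (((hasDerivAt_id' t).const_sub b).const_mul (ω b)).fun_neg.fun_sub
        (((((hasDerivAt_id' t).const_sub b).fun_pow 2).const_mul A).div_const 2)
      exact this.congr_deriv (by simp; ring)
    · have := ((((hasDerivAt_id' t).const_sub b).const_mul A).const_add (ω b))
      exact this.congr_deriv (by ring)
  have := (h'.sub h).W_le le_rfl hab le_rfl fun u hu _ => by
    have := (h.sub h').ω_le hu.1.le hu.2.le le_rfl fun v hv hS => by
      have := hν v ⟨hu.1.trans hv.1, hv.2⟩ hS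
      show 0 ≤ ν v - -A
      linarith
    simp only [sub_self, mul_zero, add_zero] at this
    show 0 ≤ ω b + A * (b - u) - ω u
    linarith
  simp only [sub_self, mul_zero] at this
  linarith

/-- **Landau**, both ends -/
theorem landau (h : PC2 S a b W ω ν) {A C : ℝ} (hab : a < b) (ha : |W a| ≤ C) (hb : |W b| ≤ C)
    (hν : ∀ t ∈ Ioo a b, t ∉ S → |ν t| ≤ A) :
    |ω a| ≤ 2 * C / (b - a) + A * (b - a) / 2 ∧ |ω b| ≤ 2 * C / (b - a) + A * (b - a) / 2 := by
  have hl : 0 < b - a := sub_pos.2 hab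
  have n1 : ∀ t ∈ Ioo a b, t ∉ S → -A ≤ ν t := fun t ht hS => (abs_le.1 (hν t ht hS)).1
  have n2 : ∀ t ∈ Ioo a b, t ∉ S → -A ≤ -ν t := fun t ht hS =>
    neg_le_neg (abs_le.1 (hν t ht hS)).2
  have h1 := h.taylorL hab.le n1
  have h2 := h.neg.taylorL hab.le n2
  have h3 := h.taylorR hab.le n1
  have h4 := h.neg.taylorR hab.le n2
  obtain ⟨a1, a2⟩ := abs_le.1 ha
  obtain ⟨b1, b2⟩ := abs_le.1 hb
  have key : ∀ z : ℝ, z * (b - a) ≤ 2 * C + A * (b - a) ^ 2 / 2 →
      z ≤ 2 * C / (b - a) + A * (b - a) / 2 := fun z hz => by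
    have : 2 * C / (b - a) + A * (b - a) / 2 = (2 * C + A * (b - a) ^ 2 / 2) / (b - a) := by
      field_simp
    rw [this, le_div_iff₀ hl]
    exact hz
  refine ⟨abs_le.2 ⟨?_, key _ (by linarith)⟩, abs_le.2 ⟨?_, key _ (by linarith)⟩⟩
  · have := key (-ω a) (by linarith)
    linarith
  · have := key (-ω b) (by linarith)
    linarith

end PC2

end Crest.Agent.T156.Rig
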