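import Crest.Agent.T156.CaTr_32

/-!
# Row 156 (helper22): the row lemma RL (Hermite energies without Hermite polynomials)

`ph u v θ = E u(g) v(θ g + √(1-θ²) g')`; its derivative is the same expression for the gradients.
-/

set_option autoImplicit false
set_option linter.unusedSectionVars false

noncomputable section

namespace Crest.Agent.T156.Cas.Rl

open MeasureTheory Real Set Filter Topology
open Crest.Agent.T157.E Crest.Agent.T157.Casc Crest.Agent.T157.SL Crest.Agent.T156.Cas.Tr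
open Crest.Agent.T157.Casc.C (int_fld_eq)

variable {ι : Type} [Fintype ι]

/-- linear mixing of two copies -/
def mx (p q : ℝ) (G : ι ⊕ ι → ℝ) : ι → ℝ := fun i => p * G (.inl i) + q * G (.inr i)

open Classical in
/-- two mixtures of two copies as a level -/
def l2 (ι : Type) [Fintype ι] (p q r s : ℝ) : Lv (ι ⊕ ι) :=
  ⟨ι ⊕ ι, fun x k => match x, k with
    | .inl i, .inl j => if i = j then p else 0
    | .inl i, .inr j => if i = j then q else 0
    | .inr i, .inl j => if i = j then r else 0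
    | .inr i, .inr j => if i = j then s else 0, 0⟩

open Classical in
/-- a shared copy and two private ones -/
def l3 (ι : Type) [Fintype ι] (p q : ℝ) : Lv (ι ⊕ ι) :=
  ⟨ι ⊕ ι ⊕ ι, fun x k => match x, k with
    | .inl i, .inl j => if i = j then p else 0
    | .inl i, .inr (.inl j) => if i = j then q else 0
    | .inl _, .inr (.inr _) => 0
    | .inr i, .inl j => if i = j then p else 0
    | .inr _, .inr (.inl _) => 0
    | .inr i, .inr (.inr j) => if i = j then q else 0, 0⟩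

theorem l2_fld (p q r s : ℝ) (G : ι ⊕ ι → ℝ) :
    (l2 ι p q r s).fld G = Sum.elim (mx p q G) (mx r s G) := by
  classical
  funext x
  change ∑ k : ι ⊕ ι, (l2 ι p q r s).A x k * G k = _
  rcases x with i | i <;> simp [l2, Fintype.sum_sum_type, mx]

theorem l3_fld (p q : ℝ) (G : ι ⊕ ι ⊕ ι → ℝ) :
    (l3 ι p q).fld G = Sum.elim (fun i => p * G (.inl i) + q * G (.inr (.inl i)))
      (fun i => p * G (.inl i) + q * G (.inr (.inr i))) := by
  classical
  funext x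
  change ∑ k : ι ⊕ ι ⊕ ι, (l3 ι p q).A x k * G k = _
  rcases x with i | i <;> simp [l3, Fintype.sum_sum_type]

open Classical in
theorem l2_cov (p q r s : ℝ) (x y : ι ⊕ ι) : (l2 ι p q r s).cov x y = match x, y with
    | .inl i, .inl j => if i = j then p * p + q * q else 0
    | .inl i, .inr j => if i = j then p * r + q * s else 0
    | .inr i, .inl j => if i = j then p * r + q * s else 0
    | .inr i, .inr j => if i = j then r * r + s * s else 0 := by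
  change ∑ k : ι ⊕ ι, (l2 ι p q r s).A x k * (l2 ι p q r s).A y k = _
  rcases x with i | i <;> rcases y with j | j <;> by_cases h : i = j <;>
    simp [l2, Fintype.sum_sum_type, h, mul_comm]

open Classical in
theorem l3_cov (p q : ℝ) (x y : ι ⊕ ι) : (l3 ι p q).cov x y = match x, y with
    | .inl i, .inl j => if i = j then p * p + q * q else 0
    | .inl i, .inr j => if i = j then p * p else 0
    | .inr i, .inl j => if i = j then p * p else 0
    | .inr i, .inr j => if i = j then p * p + q * q else 0 := by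
  change ∑ k : ι ⊕ ι ⊕ ι, (l3 ι p q).A x k * (l3 ι p q).A y k = _
  rcases x with i | i <;> rcases y with j | j <;> by_cases h : i = j <;>
    simp [l3, Fintype.sum_sum_type, h, mul_comm]

theorem int_mix {p q r s p' q' r' s' : ℝ} (h1 : p * p + q * q = p' * p' + q' * q')
    (h2 : p * r + q * s = p' * r' + q' * s') (h3 : r * r + s * s = r' * r' + s' * s')
    {Φ : (ι ⊕ ι → ℝ) → ℝ} (hΦ : Measurable Φ) :
    ∫ G, Φ (Sum.elim (mx p q G) (mx r s G)) ∂gv (ι ⊕ ι) =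
      ∫ G, Φ (Sum.elim (mx p' q' G) (mx r' s' G)) ∂gv (ι ⊕ ι) := by
  have := int_fld_eq (l := l2 ι p q r s) (l' := l2 ι p' q' r' s') (by
    funext x y
    rw [l2_cov, l2_cov, h1, h2, h3]) hΦ
  rw [show (l2 ι p q r s).fld = _ from funext (l2_fld p q r s),
    show (l2 ι p' q' r' s').fld = _ from funext (l2_fld p' q' r' s')] at this
  exact this

theorem mx_id (G : ι ⊕ ι → ℝ) : Sum.elim (mx 1 0 G) (mx 0 1 G) = G := by
  funext x
  rcases x with i | i <;> simp [mx]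

/-- rotation invariance -/
theorem int_rot (a : ℝ) {Φ : (ι ⊕ ι → ℝ) → ℝ} (hΦ : Measurable Φ) :
    ∫ G, Φ (Sum.elim (mx (cos a) (sin a) G) (mx (-sin a) (cos a) G)) ∂gv (ι ⊕ ι) =
      ∫ G, Φ G ∂gv (ι ⊕ ι) := by
  rw [int_mix (p' := 1) (q' := 0) (r' := 0) (s' := 1) (by nlinarith [sin_sq_add_cos_sq a])
    (by ring) (by nlinarith [sin_sq_add_cos_sq a]) hΦ]
  simp only [mx_id]

theorem cont_mx (p q : ℝ) : Continuous (mx p q : (ι ⊕ ι → ℝ) → ι → ℝ) := by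
  unfold mx; fun_prop

theorem eg_mx {u : (ι → ℝ) → ℝ} (hu : Eg u) (p q : ℝ) : Eg fun G : ι ⊕ ι → ℝ => u (mx p q G) :=
  eg_comp hu fun i => lg_add (lg_cmul p (lg_coord (Sum.inl i))) (lg_cmul q (lg_coord (Sum.inr i)))

theorem EG_mx {u : (ι → ℝ) → ℝ} (hu : Eg u) {p q : ℝ → ℝ} (hp : Continuous p) (hq : Continuous q)
    (bp : ∀ t, |p t| ≤ 1) (bq : ∀ t, |q t| ≤ 1) :
    EG univ fun z : Pt (ι ⊕ ι) => u (mx (p z.1) (q z.1) z.2) := by
  classical
  refine (hu.toEG univ).comp (φ := fun z : Pt (ι ⊕ ι) => (z.1, mx (p z.1) (q z.1) z.2))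
    (by unfold mx; fun_prop) (fun _ _ => trivial) 0 2 fun z _ => ?_
  refine (pi_norm_le_iff_of_nonneg (by positivity)).2 fun i => ?_
  have h1 := norm_le_pi_norm z.2 (.inl i)
  have h2 := norm_le_pi_norm z.2 (.inr i)
  rw [Real.norm_eq_abs] at h1 h2 ⊢
  have h3 := mul_le_mul (bp z.1) h1 (abs_nonneg _) zero_le_one
  have h4 := mul_le_mul (bq z.1) h2 (abs_nonneg _) zero_le_one
  refine (abs_add_le _ _).trans ?_
  rw [abs_mul, abs_mul]
  linarith

/-- `E u(g) v(cos a g + sin a g')` -/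
def Fc (u v : (ι → ℝ) → ℝ) (a : ℝ) : ℝ :=
  ∫ G, u (mx 1 0 G) * v (mx (cos a) (sin a) G) ∂gv (ι ⊕ ι)

variable {u v : (ι → ℝ) → ℝ} {u₁ v₁ : ι → (ι → ℝ) → ℝ}

theorem EG_Fc (hu : Eg u) (hv : Eg v) :
    EG univ fun z : Pt (ι ⊕ ι) => u (mx 1 0 z.2) * v (mx (cos z.1) (sin z.1) z.2) := by
  classical
  exact (EG_mx hu (p := fun _ => 1) (q := fun _ => 0) continuous_const continuous_const
    (fun _ => by simp) fun _ => by simp).mul
    (EG_mx hv continuous_cos continuous_sin abs_cos_le_one abs_sin_le_one)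

theorem cont_Fc (hu : Eg u) (hv : Eg v) : Continuous (Fc u v) := by
  classical
  exact continuousOn_univ.1 (EG_Fc hu hv).continuousOn_int

theorem mx_back (a : ℝ) (G : ι ⊕ ι → ℝ) :
    mx (cos a) (-sin a) (Sum.elim (mx (cos a) (sin a) G) (mx (-sin a) (cos a) G)) = mx 1 0 G := by
  funext i
  simp only [mx, Sum.elim_inl, Sum.elim_inr]
  linear_combination G (.inl i) * sin_sq_add_cos_sq a

theorem mx_fst (f f' : ι → ℝ) : mx 1 0 (Sum.elim f f') = f := by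
  funext i; simp [mx]

theorem key (hu : Gr u u₁) (hv : Eg v) (a : ℝ) (i : ι) :
    ∫ G, u (mx 1 0 G) * (v (mx (cos a) (sin a) G) * mx (-sin a) (cos a) G i) ∂gv (ι ⊕ ι) =
      -sin a * Fc (u₁ i) v a := by
  classical
  have e1 : Eg fun Z : ι ⊕ ι → ℝ => u (mx (cos a) (-sin a) Z) * v (mx 1 0 Z) :=
    (eg_mx hu.eg _ _).mul (eg_mx hv _ _)
  have e2 : Eg fun Z : ι ⊕ ι → ℝ => u₁ i (mx (cos a) (-sin a) Z) * v (mx 1 0 Z) :=
    (eg_mx (hu.eg' i) _ _).mul (eg_mx hv _ _)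
  have h1 := int_rot a ((Eg.coord (Sum.inr i)).mul e1).cont.measurable
  have h2 := int_rot a e2.cont.measurable
  simp only [mx_back, mx_fst, Sum.elim_inr] at h1 h2
  have h3 := stein (e1.toEG univ) ((e2.const_mul (-sin a)).toEG univ) (mem_univ 0) (Sum.inr i)
    fun y => by
      have c1 : HasDerivAt (fun s => mx (cos a) (-sin a) (Function.update y (Sum.inr i) s))
          (Pi.single i (-sin a)) (y (.inr i)) := by
        refine hasDerivAt_pi.2 fun j => ?_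
        by_cases hj : j = i
        · subst hj
          simp only [mx, Function.update_self, Pi.single_eq_same]
          rw [show (fun s => cos a * Function.update y (Sum.inr j) s (Sum.inl j) + -sin a * s) =
            fun s => cos a * y (.inl j) + -sin a * s from by
              funext s; rw [Function.update_of_ne (by simp)]]
          simpa using ((hasDerivAt_id (y (.inr j))).const_mul (-sin a)).const_add
            (cos a * y (.inl j))
        · rw [Pi.single_eq_of_ne hj]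
          have : (fun s => mx (cos a) (-sin a) (Function.update y (Sum.inr i) s) j) =
              fun _ => mx (cos a) (-sin a) y j := by
            funext s
            simp only [mx]
            rw [Function.update_of_ne (by simp), Function.update_of_ne (by simpa using hj)]
          rw [this]
          exact hasDerivAt_const _ _
      have c2 := hu.hasDerivAt c1
      have c3 : ∀ s, mx 1 0 (Function.update y (Sum.inr i) s) = mx 1 0 y := fun s => by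
        funext j
        simp only [mx, zero_mul, add_zero]
        rw [Function.update_of_ne (by simp)]
      simp only [c3]
      refine (c2.mul_const _).congr_deriv ?_
      simp only [Function.update_eq_self, Pi.single_apply, mul_ite, mul_zero, Finset.sum_ite_eq',
        Finset.mem_univ, if_true]
      ring
  rw [integral_const_mul] at h3
  rw [Fc, h2, ← h3, ← h1]
  congr 1
  funext G
  ring

theorem hasDerivAt_Fc (hu : Gr u u₁) (hv : Gr v v₁) (a : ℝ) :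
    HasDerivAt (Fc u v) (-sin a * ∑ i, Fc (u₁ i) (v₁ i) a) a := by
  classical
  have e : ∀ i, EG univ fun z : Pt (ι ⊕ ι) => u (mx 1 0 z.2) *
      (v₁ i (mx (cos z.1) (sin z.1) z.2) * mx (-sin z.1) (cos z.1) z.2 i) := fun i => by
    have := (EG_Fc hu.eg (hv.eg' i)).mul (EG_mx (Eg.coord i) (p := fun t => -sin t) (q := cos)
      (by fun_prop) continuous_cos (fun t => by simpa using abs_sin_le_one t) abs_cos_le_one)
    exact this.congr fun _ _ => (mul_assoc _ _ _).symm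
  have h := (EG_Fc hu.eg hv.eg).hasDerivAt_int (EG.sum Finset.univ fun i _ => e i) (t := a)
    univ_mem fun s _ z => by
      have c1 : HasDerivAt (fun s => mx (cos s) (sin s) z) (mx (-sin s) (cos s) z) s :=
        hasDerivAt_pi.2 fun j => ((hasDerivAt_cos s).mul_const _).add ((hasDerivAt_sin s).mul_const _)
      refine ((hv.hasDerivAt c1).const_mul (u (mx 1 0 z))).congr_deriv ?_
      rw [Finset.mul_sum]
  refine h.congr_deriv ?_
  rw [integral_finsetSum _ fun i _ => (e i).int (mem_univ a), Finset.mul_sum]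
  exact Finset.sum_congr rfl fun i _ => key hu (hv.eg' i) a i

/-- `E u(g) v(θ g + √(1-θ²) g')` -/
def ph (u v : (ι → ℝ) → ℝ) (θ : ℝ) : ℝ := Fc u v (arccos θ)

theorem ph_eq (u v : (ι → ℝ) → ℝ) {θ : ℝ} (h1 : -1 ≤ θ) (h2 : θ ≤ 1) :
    ph u v θ = ∫ G, u (mx 1 0 G) * v (mx θ (√(1 - θ ^ 2)) G) ∂gv (ι ⊕ ι) := by
  rw [ph, Fc, cos_arccos h1 h2, sin_arccos]

theorem cont_ph (hu : Eg u) (hv : Eg v) : Continuous (ph u v) :=
  (cont_Fc hu hv).comp continuous_arccos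

theorem hasDerivAt_ph (hu : Gr u u₁) (hv : Gr v v₁) {θ : ℝ} (h1 : -1 < θ) (h2 : θ < 1) :
    HasDerivAt (ph u v) (∑ i, ph (u₁ i) (v₁ i) θ) θ := by
  refine ((hasDerivAt_Fc hu hv (arccos θ)).comp θ (hasDerivAt_arccos h1.ne' h2.ne)).congr_deriv ?_
  have : 0 < √(1 - θ ^ 2) := sqrt_pos.2 (by nlinarith)
  rw [sin_arccos]
  unfold ph
  field_simp

theorem int_fst (hu : Eg u) : ∫ G, u (mx 1 0 G) ∂gv (ι ⊕ ι) = ∫ g, u g ∂gv ι := by
  rw [int_sum (eg_int (eg_mx hu 1 0))]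
  simp [mx_fst]

theorem int_mx (hu : Eg u) (a : ℝ) :
    ∫ G, u (mx (cos a) (sin a) G) ∂gv (ι ⊕ ι) = ∫ g, u g ∂gv ι := by
  have := int_rot a (eg_mx hu 1 0).cont.measurable
  simp only [mx_fst] at this
  rw [this, int_fst hu]

theorem ph_one (hu : Eg u) (hv : Eg v) : ph u v 1 = ∫ g, u g * v g ∂gv ι := by
  rw [ph, Fc, arccos_one, cos_zero, sin_zero]
  exact int_fst (hu.mul hv)

theorem ph_zero (hu : Eg u) (hv : Eg v) : ph u v 0 = (∫ g, u g ∂gv ι) * ∫ g, v g ∂gv ι := by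
  rw [ph, Fc, arccos_zero, cos_pi_div_two, sin_pi_div_two,
    int_sum (eg_int ((eg_mx hu 1 0).mul (eg_mx hv 0 1)))]
  have : ∀ f f' : ι → ℝ, mx 0 1 (Sum.elim f f') = f' := fun f f' => by funext i; simp [mx]
  simp only [mx_fst, this, integral_const_mul, integral_mul_const]

theorem abs_ph_le (hu : Eg u) (hv : Eg v) (θ : ℝ) {c : ℝ} (hc : 0 < c) :
    |ph u v θ| ≤ (c * ∫ g, u g ^ 2 ∂gv ι + c⁻¹ * ∫ g, v g ^ 2 ∂gv ι) / 2 := by
  have i1 := eg_int (eg_mx (hu.pow 2) 1 0)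
  have i2 := eg_int (eg_mx (hv.pow 2) (cos (arccos θ)) (sin (arccos θ)))
  rw [← int_fst (hu.pow 2), ← int_mx (hv.pow 2) (arccos θ), ← integral_const_mul,
    ← integral_const_mul, ← integral_add (i1.const_mul _) (i2.const_mul _), ← integral_div]
  refine abs_integral_le_integral_abs.trans (integral_mono
    (eg_int ((eg_mx hu 1 0).mul (eg_mx hv _ _))).abs
    (((i1.const_mul _).add (i2.const_mul _)).div_const _) fun G => ?_)
  simp only
  generalize u (mx 1 0 G) = x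
  generalize v (mx _ _ G) = y
  have h : c⁻¹ * (c * |x| - |y|) ^ 2 = c * x ^ 2 + c⁻¹ * y ^ 2 - 2 * |x * y| := by
    rw [abs_mul, ← sq_abs x, ← sq_abs y]; field_simp; ring
  have : 0 ≤ c⁻¹ * (c * |x| - |y|) ^ 2 := by positivity
  linarith

theorem ph_le (hu : Eg u) (θ : ℝ) : ph u u θ ≤ ∫ g, u g ^ 2 ∂gv ι := by
  have := (le_abs_self _).trans (abs_ph_le hu hu θ one_pos)
  simp only [inv_one, one_mul] at this
  linarith

/-- three-copy form: `ph u v θ = E (P u)(P v)` -/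
theorem ph_three (hu : Eg u) (hv : Eg v) {θ : ℝ} (h0 : 0 ≤ θ) (h1 : θ ≤ 1) :
    ph u v θ = ∫ g, (∫ g', u (mx (√θ) (√(1 - θ)) (Sum.elim g g')) ∂gv ι) *
      ∫ g', v (mx (√θ) (√(1 - θ)) (Sum.elim g g')) ∂gv ι ∂gv ι := by
  have e : Eg fun Z : ι ⊕ ι → ℝ => u (mx 1 0 Z) * v (mx 0 1 Z) := (eg_mx hu 1 0).mul (eg_mx hv 0 1)
  have s1 := mul_self_sqrt h0
  have s2 := mul_self_sqrt (sub_nonneg.2 h1)
  have s3 : √(1 - θ ^ 2) * √(1 - θ ^ 2) = 1 - θ ^ 2 := mul_self_sqrt (by nlinarith)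
  have h := int_fld_eq (l := l2 ι 1 0 θ (√(1 - θ ^ 2))) (l' := l3 ι (√θ) (√(1 - θ))) (by
    funext x y
    rw [l2_cov, l3_cov, s1, s2, s3]
    rcases x with i | i <;> rcases y with j | j <;> simp only <;> congr 1 <;> ring) e.cont.measurable
  have m2 : ∀ f f' : ι → ℝ, mx 0 1 (Sum.elim f f') = f' := fun f f' => by funext i; simp [mx]
  rw [show (l2 ι 1 0 θ (√(1 - θ ^ 2))).fld = _ from funext (l2_fld _ _ _ _),
    show (l3 ι (√θ) (√(1 - θ))).fld = _ from funext (l3_fld _ _)] at h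
  simp only [mx_fst, m2] at h
  have e3 : Eg fun G : ι ⊕ ι ⊕ ι → ℝ =>
      u (fun i => √θ * G (.inl i) + √(1 - θ) * G (.inr (.inl i))) *
        v fun i => √θ * G (.inl i) + √(1 - θ) * G (.inr (.inr i)) :=
    (eg_comp hu fun i => lg_add (lg_cmul _ (lg_coord _)) (lg_cmul _ (lg_coord _))).mul
      (eg_comp hv fun i => lg_add (lg_cmul _ (lg_coord _)) (lg_cmul _ (lg_coord _)))
  rw [ph_eq u v (by linarith) h1]
  refine h.trans ((int_sum (eg_int e3)).trans ?_)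
  congr 1
  funext g
  have e4 := eg_comp e3 (φ := fun G' : ι ⊕ ι → ℝ => Sum.elim g G') fun k => lg_elim_right g k
  rw [int_sum (eg_int e4)]
  simp only [Sum.elim_inl, Sum.elim_inr, integral_const_mul, integral_mul_const]
  rfl

theorem ph_nonneg (hu : Eg u) {θ : ℝ} (h0 : 0 ≤ θ) (h1 : θ ≤ 1) : 0 ≤ ph u u θ := by
  rw [ph_three hu hu h0 h1]
  exact integral_nonneg fun g => mul_self_nonneg _

/-! ### finite families (Hilbert valued functions, arrays of derivatives) -/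

variable {κ : Type} [Fintype κ]

/-- a family with its gradients -/
def GrF (u : κ → (ι → ℝ) → ℝ) (u₁ : κ × ι → (ι → ℝ) → ℝ) : Prop :=
  ∀ k, Gr (u k) fun i => u₁ (k, i)

/-- `∑_k ph (u k) (v k)` -/
def PH (u v : κ → (ι → ℝ) → ℝ) (θ : ℝ) : ℝ := ∑ k, ph (u k) (v k) θ

/-- energy `E |u|²` -/
def En (u : κ → (ι → ℝ) → ℝ) : ℝ := ∑ k, ∫ g, u k g ^ 2 ∂gv ι

/-- `|E u|²` -/
def M0 (u : κ → (ι → ℝ) → ℝ) : ℝ := ∑ k, (∫ g, u k g ∂gv ι) ^ 2

section fam
variable {u v : κ → (ι → ℝ) → ℝ} {u₁ v₁ : κ × ι → (ι → ℝ) → ℝ}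
  {u₂ v₂ : (κ × ι) × ι → (ι → ℝ) → ℝ} {u₃ : ((κ × ι) × ι) × ι → (ι → ℝ) → ℝ}
  {u₄ : (((κ × ι) × ι) × ι) × ι → (ι → ℝ) → ℝ}

theorem GrF.eg (h : GrF u u₁) (k : κ) : Eg (u k) := (h k).eg

theorem GrF.eg' (h : GrF u u₁) (k : κ × ι) : Eg (u₁ k) := (h k.1).eg' k.2

theorem En_nonneg (u : κ → (ι → ℝ) → ℝ) : 0 ≤ En u :=
  Finset.sum_nonneg fun _ _ => integral_nonneg fun _ => sq_nonneg _

theorem M0_nonneg (u : κ → (ι → ℝ) → ℝ) : 0 ≤ M0 u := Finset.sum_nonneg fun _ _ => sq_nonneg _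

theorem M0_zero (h : ∀ k, ∫ g, u k g ∂gv ι = 0) : M0 u = 0 := by simp [M0, h]

theorem En_eq (hu : ∀ k, Eg (u k)) : En u = ∫ g, ∑ k, u k g ^ 2 ∂gv ι :=
  (integral_finsetSum _ fun k _ => eg_int ((hu k).pow 2)).symm

theorem cont_PH (hu : ∀ k, Eg (u k)) (hv : ∀ k, Eg (v k)) : Continuous (PH u v) :=
  continuous_finsetSum _ fun k _ => cont_ph (hu k) (hv k)

theorem hasDerivAt_PH (hu : GrF u u₁) (hv : GrF v v₁) {θ : ℝ} (h1 : -1 < θ) (h2 : θ < 1) :
    HasDerivAt (PH u v) (PH u₁ v₁ θ) θ := by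
  have := HasDerivAt.fun_sum (u := Finset.univ) fun k _ => hasDerivAt_ph (hu k) (hv k) h1 h2
  rw [PH, Fintype.sum_prod_type]
  exact this

theorem PH_one (hu : ∀ k, Eg (u k)) (hv : ∀ k, Eg (v k)) :
    PH u v 1 = ∑ k, ∫ g, u k g * v k g ∂gv ι :=
  Finset.sum_congr rfl fun k _ => ph_one (hu k) (hv k)

theorem PH_zero (hu : ∀ k, Eg (u k)) (hv : ∀ k, Eg (v k)) :
    PH u v 0 = ∑ k, (∫ g, u k g ∂gv ι) * ∫ g, v k g ∂gv ι :=
  Finset.sum_congr rfl fun k _ => ph_zero (hu k) (hv k)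

theorem PH_one' (hu : ∀ k, Eg (u k)) : PH u u 1 = En u := by
  rw [PH_one hu hu, En]; simp only [sq]

theorem PH_zero' (hu : ∀ k, Eg (u k)) : PH u u 0 = M0 u := by
  rw [PH_zero hu hu, M0]; simp only [sq]

theorem PH_nonneg (hu : ∀ k, Eg (u k)) {θ : ℝ} (h0 : 0 ≤ θ) (h1 : θ ≤ 1) : 0 ≤ PH u u θ :=
  Finset.sum_nonneg fun k _ => ph_nonneg (hu k) h0 h1

theorem PH_le (hu : ∀ k, Eg (u k)) (θ : ℝ) : PH u u θ ≤ En u :=
  Finset.sum_le_sum fun k _ => ph_le (hu k) θ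

theorem abs_PH_le (hu : ∀ k, Eg (u k)) (hv : ∀ k, Eg (v k)) (θ : ℝ) {c : ℝ} (hc : 0 < c) :
    |PH u v θ| ≤ (c * En u + c⁻¹ * En v) / 2 := by
  rw [En, En, Finset.mul_sum, Finset.mul_sum, ← Finset.sum_add_distrib, Finset.sum_div]
  exact (Finset.abs_sum_le_sum_abs _ _).trans
    (Finset.sum_le_sum fun k _ => abs_ph_le (hu k) (hv k) θ hc)

/-- Cauchy–Schwarz -/
theorem PH_sq_le (hu : ∀ k, Eg (u k)) (hv : ∀ k, Eg (v k)) (θ : ℝ) :
    PH u v θ ^ 2 ≤ En u * En v := by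
  have h := fun c : ℝ => @abs_PH_le ι _ κ _ u v hu hv θ c
  have hA := En_nonneg u
  have hB := En_nonneg v
  rw [← sq_abs]
  have hx := abs_nonneg (PH u v θ)
  generalize |PH u v θ| = x at h hx
  generalize En u = A at h hA
  generalize En v = B at h hB
  rcases hx.eq_or_lt with h0 | h0
  · rw [← h0]; simpa using mul_nonneg hA hB
  rcases hA.eq_or_lt with hA0 | hA0
  · exfalso
    have := h ((B + 1) / x) (by positivity)
    rw [← hA0, mul_zero, zero_add, inv_div] at this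
    have h2 : x / (B + 1) * B < x := by
      rw [div_mul_eq_mul_div, div_lt_iff₀ (by positivity)]; nlinarith
    linarith
  · have := h (x / A) (by positivity)
    rw [inv_div, div_mul_cancel₀ _ hA0.ne'] at this
    have h2 : x ≤ A / x * B := by linarith
    rw [div_mul_eq_mul_div, le_div_iff₀ h0] at h2
    nlinarith

theorem mono01 {f f' : ℝ → ℝ} (hc : Continuous f) (hd : ∀ θ ∈ Ioo (0 : ℝ) 1, HasDerivAt f (f' θ) θ)
    (h : ∀ θ ∈ Ioo (0 : ℝ) 1, 0 ≤ f' θ) : f 0 ≤ f 1 := by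
  obtain ⟨c, hc', e⟩ := exists_hasDerivAt_eq_slope f f' zero_lt_one hc.continuousOn hd
  have := h c hc'
  rw [e] at this
  simpa using this

/-- covariance identity on `[0, θ]` -/
theorem PH_sub (hu : GrF u u₁) (hv : GrF v v₁) {θ : ℝ} (h0 : 0 ≤ θ) (h1 : θ ≤ 1) :
    PH u v θ - PH u v 0 = ∫ t in (0 : ℝ)..θ, PH u₁ v₁ t :=
  (intervalIntegral.integral_eq_sub_of_hasDerivAt_of_le h0 (cont_PH hu.eg hv.eg).continuousOn
    (fun t ht => hasDerivAt_PH hu hv (by linarith [ht.1]) (by linarith [ht.2]))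
    ((cont_PH hu.eg' hv.eg').intervalIntegrable _ _)).symm

/-- exact form: `B₀ - B₁ = |E u|² - ∫ θ φ''(θ)` (bilinear) -/
theorem exact_form (hu : GrF u u₁) (hv : GrF v v₁) (hu₁ : GrF u₁ u₂) (hv₁ : GrF v₁ v₂) :
    PH u v 1 - PH u₁ v₁ 1 = PH u v 0 - ∫ θ in (0 : ℝ)..1, θ * PH u₂ v₂ θ := by
  have h := intervalIntegral.integral_eq_sub_of_hasDerivAt_of_le zero_le_one
    (f := fun θ => θ * PH u₁ v₁ θ - PH u v θ) (f' := fun θ => θ * PH u₂ v₂ θ)
    ((continuous_id.mul (cont_PH hu.eg' hv.eg')).sub (cont_PH hu.eg hv.eg)).continuousOn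
    (fun t ht => (((hasDerivAt_id' t).mul (hasDerivAt_PH hu₁ hv₁ (by linarith [ht.1]) ht.2)).sub
      (hasDerivAt_PH hu hv (by linarith [ht.1]) ht.2)).congr_deriv (by ring))
    ((continuous_id.mul (cont_PH hu₁.eg' hv₁.eg')).intervalIntegrable _ _)
  rw [h]
  ring

/-- **Poincaré**: `|E u|² + |E ∇u|² ≤ B₀ ≤ |E u|² + B₁` (upper half) -/
theorem poincare (hu : GrF u u₁) : En u ≤ M0 u + En u₁ := by
  have := mono01 (f := fun θ => θ * En u₁ - PH u u θ) (f' := fun θ => En u₁ - PH u₁ u₁ θ)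
    ((continuous_id.mul continuous_const).sub (cont_PH hu.eg hu.eg))
    (fun t ht => (((hasDerivAt_id' t).mul_const _).sub
      (hasDerivAt_PH hu hu (by linarith [ht.1]) ht.2)).congr_deriv (by ring))
    fun t _ => sub_nonneg.2 (PH_le hu.eg' t)
  rw [PH_one' hu.eg, PH_zero' hu.eg] at this
  linarith

/-- Bessel for the chaoses `0` and `1` -/
theorem bessel1 (hu : GrF u u₁) (hu₁ : GrF u₁ u₂) : M0 u + M0 u₁ ≤ En u := by
  have := mono01 (f := fun θ => PH u u θ + (1 - θ) * PH u₁ u₁ θ)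
    (f' := fun θ => (1 - θ) * PH u₂ u₂ θ)
    ((cont_PH hu.eg hu.eg).add ((continuous_const.sub continuous_id).mul (cont_PH hu.eg' hu.eg')))
    (fun t ht => ((hasDerivAt_PH hu hu (by linarith [ht.1]) ht.2).add
      (((hasDerivAt_id' t).const_sub 1).mul
        (hasDerivAt_PH hu₁ hu₁ (by linarith [ht.1]) ht.2))).congr_deriv (by ring))
    fun t ht => mul_nonneg (by linarith [ht.2]) (PH_nonneg hu₁.eg' ht.1.le ht.2.le)
  rw [PH_one' hu.eg, PH_zero' hu.eg, PH_zero' hu.eg'] at this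
  linarith

/-- second order, upper bound: `B₀ ≤ |E u|² + |E ∇u|² + B₂/2` -/
theorem second_le (hu : GrF u u₁) (hu₁ : GrF u₁ u₂) : En u ≤ M0 u + M0 u₁ + En u₂ / 2 := by
  have := mono01 (f := fun θ => -((1 - θ) ^ 2 / 2 * En u₂) - (PH u u θ + (1 - θ) * PH u₁ u₁ θ))
    (f' := fun θ => (1 - θ) * (En u₂ - PH u₂ u₂ θ))
    (((((continuous_const.sub continuous_id).pow 2).div_const 2).mul continuous_const).neg.sub
      ((cont_PH hu.eg hu.eg).add ((continuous_const.sub continuous_id).mul (cont_PH hu.eg' hu.eg'))))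
    (fun t ht => (((((((hasDerivAt_id' t).const_sub 1).pow 2).div_const 2).mul_const _).neg).sub
      ((hasDerivAt_PH hu hu (by linarith [ht.1]) ht.2).add (((hasDerivAt_id' t).const_sub 1).mul
        (hasDerivAt_PH hu₁ hu₁ (by linarith [ht.1]) ht.2)))).congr_deriv (by simp; ring))
    fun t ht => mul_nonneg (by linarith [ht.2]) (sub_nonneg.2 (PH_le hu₁.eg' t))
  rw [PH_one' hu.eg, PH_zero' hu.eg, PH_zero' hu.eg'] at this
  linarith

/-- second order, lower bound: `|E u|² + |E ∇u|² + B₂/2 - B₃/2 ≤ B₀` -/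
theorem second_ge (hu : GrF u u₁) (hu₁ : GrF u₁ u₂) (hu₂ : GrF u₂ u₃) :
    M0 u + M0 u₁ + En u₂ / 2 - En u₃ / 2 ≤ En u := by
  have := mono01 (f := fun θ => PH u u θ + (1 - θ) * PH u₁ u₁ θ +
      ((1 - θ) ^ 2 - 1) / 2 * PH u₂ u₂ θ + θ / 2 * En u₃)
    (f' := fun θ => (1 - θ) ^ 2 / 2 * PH u₃ u₃ θ + (En u₃ - PH u₃ u₃ θ) / 2)
    ((((cont_PH hu.eg hu.eg).add ((continuous_const.sub continuous_id).mul
      (cont_PH hu.eg' hu.eg'))).add (((((continuous_const.sub continuous_id).pow 2).sub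
        continuous_const).div_const 2).mul (cont_PH hu₁.eg' hu₁.eg'))).add
      ((continuous_id.div_const 2).mul continuous_const))
    (fun t ht => ((((hasDerivAt_PH hu hu (by linarith [ht.1]) ht.2).add
      (((hasDerivAt_id' t).const_sub 1).mul
        (hasDerivAt_PH hu₁ hu₁ (by linarith [ht.1]) ht.2))).add
      ((((((hasDerivAt_id' t).const_sub 1).pow 2).sub_const 1).div_const 2).mul
        (hasDerivAt_PH hu₂ hu₂ (by linarith [ht.1]) ht.2))).add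
      (((hasDerivAt_id' t).div_const 2).mul_const _)).congr_deriv (by simp; ring))
    fun t ht => add_nonneg (mul_nonneg (by positivity) (PH_nonneg hu₂.eg' ht.1.le ht.2.le))
      (div_nonneg (sub_nonneg.2 (PH_le hu₂.eg' t)) zero_le_two)
  rw [PH_one' hu.eg, PH_zero' hu.eg, PH_zero' hu.eg', PH_one' hu₁.eg'] at this
  linarith

/-- the fourth-order remainder -/
theorem hd4 (hu : GrF u u₁) (hu₁ : GrF u₁ u₂) (hu₂ : GrF u₂ u₃) (hu₃ : GrF u₃ u₄) {t : ℝ}
    (ht : t ∈ Ioo (0 : ℝ) 1) :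
    HasDerivAt (fun θ => PH u u θ - θ * PH u₁ u₁ θ + ((1 - θ) ^ 2 / 2 - (1 - θ)) * PH u₂ u₂ θ +
      ((1 - θ) ^ 3 / 6 - (1 - θ) ^ 2 / 2 + 1 / 3) * PH u₃ u₃ θ)
      (((1 - t) ^ 3 / 6 - (1 - t) ^ 2 / 2 + 1 / 3) * PH u₄ u₄ t) t := by
  have h0 : -1 < t := by linarith [ht.1]
  have s := (hasDerivAt_id' t).const_sub 1
  refine ((((hasDerivAt_PH hu hu h0 ht.2).sub ((hasDerivAt_id' t).mul
    (hasDerivAt_PH hu₁ hu₁ h0 ht.2))).add ((((s.pow 2).div_const 2).sub s).mul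
      (hasDerivAt_PH hu₂ hu₂ h0 ht.2))).add (((((s.pow 3).div_const 6).sub
        ((s.pow 2).div_const 2)).add_const (1 / 3)).mul
          (hasDerivAt_PH hu₃ hu₃ h0 ht.2))).congr_deriv ?_
  simp
  ring

theorem cont4 (hu : GrF u u₁) (hu₁ : GrF u₁ u₂) (hu₂ : GrF u₂ u₃) :
    Continuous fun θ => PH u u θ - θ * PH u₁ u₁ θ + ((1 - θ) ^ 2 / 2 - (1 - θ)) * PH u₂ u₂ θ +
      ((1 - θ) ^ 3 / 6 - (1 - θ) ^ 2 / 2 + 1 / 3) * PH u₃ u₃ θ := by
  have h0 := cont_PH hu.eg hu.eg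
  have h1 := cont_PH hu.eg' hu.eg'
  have h2 := cont_PH hu₁.eg' hu₁.eg'
  have h3 := cont_PH hu₂.eg' hu₂.eg'
  fun_prop

theorem w4_nonneg {t : ℝ} (ht : t ∈ Ioo (0 : ℝ) 1) : 0 ≤ (1 - t) ^ 3 / 6 - (1 - t) ^ 2 / 2 + 1 / 3 := by
  nlinarith [ht.1, ht.2, mul_pos ht.1 ht.1, mul_pos (mul_pos ht.1 ht.1) (sub_pos.2 ht.2)]

/-- third order, lower bound: `B₁ - B₃/3 + e₀ - e₂ ≤ B₀` (`e₀ = M0 u`, `e₂ = M0 u₂ / 2`) -/
theorem third_ge (hu : GrF u u₁) (hu₁ : GrF u₁ u₂) (hu₂ : GrF u₂ u₃) (hu₃ : GrF u₃ u₄) :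
    En u₁ - En u₃ / 3 + M0 u - M0 u₂ / 2 ≤ En u := by
  have := mono01 (cont4 hu hu₁ hu₂) (fun t ht => hd4 hu hu₁ hu₂ hu₃ ht) fun t ht =>
    mul_nonneg (w4_nonneg ht) (PH_nonneg hu₃.eg' ht.1.le ht.2.le)
  rw [PH_one' hu.eg, PH_zero' hu.eg, PH_one' hu.eg', PH_zero' hu₁.eg', PH_one' hu₂.eg'] at this
  linarith

/-- third order, upper bound -/
theorem third_le (hu : GrF u u₁) (hu₁ : GrF u₁ u₂) (hu₂ : GrF u₂ u₃) (hu₃ : GrF u₃ u₄) :
    En u ≤ En u₁ - En u₃ / 3 + M0 u - M0 u₂ / 2 + En u₄ / 4 := by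
  have := mono01 (f := fun θ => (-(1 - θ) ^ 4 / 24 + (1 - θ) ^ 3 / 6 + θ / 3) * En u₄ -
      (PH u u θ - θ * PH u₁ u₁ θ + ((1 - θ) ^ 2 / 2 - (1 - θ)) * PH u₂ u₂ θ +
      ((1 - θ) ^ 3 / 6 - (1 - θ) ^ 2 / 2 + 1 / 3) * PH u₃ u₃ θ))
    (f' := fun t => ((1 - t) ^ 3 / 6 - (1 - t) ^ 2 / 2 + 1 / 3) * (En u₄ - PH u₄ u₄ t))
    (Continuous.sub (by fun_prop) (cont4 hu hu₁ hu₂))
    (fun t ht => by
      have s := (hasDerivAt_id' t).const_sub 1
      refine (((((((s.pow 4).neg).div_const 24).add ((s.pow 3).div_const 6)).add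
        ((hasDerivAt_id' t).div_const 3)).mul_const (En u₄)).sub
          (hd4 hu hu₁ hu₂ hu₃ ht)).congr_deriv ?_
      simp
      ring)
    fun t ht => mul_nonneg (w4_nonneg ht) (sub_nonneg.2 (PH_le hu₃.eg' t))
  rw [PH_one' hu.eg, PH_zero' hu.eg, PH_one' hu.eg', PH_zero' hu₁.eg', PH_one' hu₂.eg'] at this
  linarith [En_nonneg u₄]

/-- **RL, odd case** (only `E u = 0`, `E ∇² u = 0` are used) -/
theorem rl_odd (hu : GrF u u₁) (hu₁ : GrF u₁ u₂) (hu₂ : GrF u₂ u₃) (hu₃ : GrF u₃ u₄)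
    (h0 : ∀ k, ∫ g, u k g ∂gv ι = 0) (h2 : ∀ k, ∫ g, u₂ k g ∂gv ι = 0) :
    En u₁ - En u₃ / 3 ≤ En u ∧ En u ≤ En u₁ - En u₃ / 3 + En u₄ / 4 := by
  have a := third_ge hu hu₁ hu₂ hu₃
  have b := third_le hu hu₁ hu₂ hu₃
  rw [M0_zero h0, M0_zero h2] at a b
  constructor <;> linarith

/-- **RL, chaoses `0` and `1` vanish** -/
theorem rl_even (hu : GrF u u₁) (hu₁ : GrF u₁ u₂) (hu₂ : GrF u₂ u₃)
    (h0 : ∀ k, ∫ g, u k g ∂gv ι = 0) (h1 : ∀ k, ∫ g, u₁ k g ∂gv ι = 0) :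
    En u₂ / 2 - En u₃ / 2 ≤ En u ∧ En u ≤ En u₂ / 2 := by
  have a := second_ge hu hu₁ hu₂
  have b := second_le hu hu₁
  rw [M0_zero h0, M0_zero h1] at a b
  constructor <;> linarith

/-- `L⁴` Poincaré inequality -/
theorem poincare4 (hu : GrF u u₁) (h0 : ∀ k, ∫ g, u k g ∂gv ι = 0) :
    ∫ g, (∑ k, u k g ^ 2) ^ 2 ∂gv ι ≤ 18 * ∫ g, (∑ k, u₁ k g ^ 2) ^ 2 ∂gv ι := by
  have eS : Eg fun g => ∑ k, u k g ^ 2 := Eg.sum _ fun k _ => (hu.eg k).pow 2
  have eG : Eg fun g => ∑ k, u₁ k g ^ 2 := Eg.sum _ fun k _ => (hu.eg' k).pow 2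
  have gS : GrF (fun (_ : Unit) g => ∑ k, u k g ^ 2)
      fun p g => ∑ k, 2 * (u k g * u₁ (k, p.2) g) := fun _ => by
    have := Gr.sum Finset.univ fun k _ => (hu k).mul (hu k)
    simp only [sq]
    exact this.congr fun i z => Finset.sum_congr rfl fun k _ => by ring
  have p1 := poincare gS
  have p2 := poincare hu
  rw [M0_zero h0, zero_add, En_eq hu.eg, En_eq hu.eg'] at p2
  rw [En_eq gS.eg'] at p1
  simp only [En, M0, Fintype.sum_prod_type, Finset.univ_unique, Finset.sum_singleton] at p1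
  have q1 : ∫ g, ∑ i, (∑ k, 2 * (u k g * u₁ (k, i) g)) ^ 2 ∂gv ι ≤
      ∫ g, ((∑ k, u k g ^ 2) ^ 2 / 2 + 8 * (∑ k, u₁ k g ^ 2) ^ 2) ∂gv ι := by
    refine integral_mono (eg_int (Eg.sum _ fun i _ => (gS.eg' ((), i)).pow 2))
      (((eg_int (eS.pow 2)).div_const 2).add ((eg_int (eG.pow 2)).const_mul 8)) fun g => ?_
    have h1 : ∑ i, (∑ k, 2 * (u k g * u₁ (k, i) g)) ^ 2 ≤
        4 * ((∑ k, u k g ^ 2) * ∑ k, u₁ k g ^ 2) := by
      rw [Fintype.sum_prod_type, Finset.sum_comm, Finset.mul_sum, Finset.mul_sum]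
      refine Finset.sum_le_sum fun i _ => ?_
      rw [← Finset.mul_sum, mul_pow]
      linarith [Finset.sum_mul_sq_le_sq_mul_sq Finset.univ (fun k => u k g) fun k => u₁ (k, i) g]
    simp only
    nlinarith [sq_nonneg ((∑ k, u k g ^ 2) - 4 * ∑ k, u₁ k g ^ 2)]
  rw [integral_add ((eg_int (eS.pow 2)).div_const 2) ((eg_int (eG.pow 2)).const_mul 8),
    integral_div, integral_const_mul] at q1
  have q2 : (∫ g, ∑ k, u₁ k g ^ 2 ∂gv ι) ^ 2 ≤ ∫ g, (∑ k, u₁ k g ^ 2) ^ 2 ∂gv ι := by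
    have := ph_le eG 0
    rwa [ph_zero eG eG, ← sq] at this
  have q3 : (∫ g, ∑ k, u k g ^ 2 ∂gv ι) ^ 2 ≤ (∫ g, ∑ k, u₁ k g ^ 2 ∂gv ι) ^ 2 :=
    pow_le_pow_left₀ (integral_nonneg fun g => Finset.sum_nonneg fun k _ => sq_nonneg _) p2 2
  linarith

end fam

/-! ### vanishing means -/

/-- Stein: `E ∂_i u = E g_i u` -/
theorem int_grad (hu : Gr u u₁) (i : ι) : ∫ g, u₁ i g ∂gv ι = ∫ g, g i * u g ∂gv ι := by
  classical
  refine (stein (hu.eg.toEG univ) ((hu.eg' i).toEG univ) (mem_univ 0) i fun y => ?_).symm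
  refine (hu.hasDerivAt (hasDerivAt_update y i (y i))).congr_deriv ?_
  simp [Pi.single_apply]

/-- a function that is odd under a symmetry of the Gaussian measure has mean zero -/
theorem int_odd_of {T : (ι → ℝ) → ι → ℝ} (hT : MeasurePreserving T (gv ι) (gv ι)) (hu : Eg u)
    (h : ∀ g, u (T g) = -u g) : ∫ g, u g ∂gv ι = 0 := by
  have h1 : ∫ g, u (T g) ∂gv ι = ∫ g, u g ∂gv ι := by
    rw [← integral_map hT.measurable.aemeasurable hu.cont.aestronglyMeasurable, hT.map_eq]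
  simp only [h, integral_neg] at h1
  linarith

theorem int_neg (hu : Eg u) : ∫ g, u (-g) ∂gv ι = ∫ g, u g ∂gv ι := by
  have e : Eg fun g : ι → ℝ => u (-g) := eg_comp hu fun i => lg_neg (lg_coord i)
  rw [← int_fst e, ← int_mx hu π]
  congr 1
  funext G
  congr 1
  funext i
  simp [mx]

theorem int_odd (hu : Eg u) (h : ∀ g, u (-g) = -u g) : ∫ g, u g ∂gv ι = 0 := by
  have h1 := int_neg hu
  simp only [h, integral_neg] at h1
  linarith

/-- parity of the gradient -/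
theorem grad_parity (hu : Gr u u₁) {ε : ℝ} (h : ∀ g, u (-g) = ε * u g) (i : ι) (g : ι → ℝ) :
    u₁ i (-g) = -ε * u₁ i g := by
  classical
  have c1 : HasDerivAt (fun s : ℝ => g + s • Pi.single i (1 : ℝ)) (Pi.single i 1) 0 := by
    simpa using ((hasDerivAt_id' (0 : ℝ)).smul_const (Pi.single i (1 : ℝ) : ι → ℝ)).const_add g
  have d1 := (hu.hasDerivAt c1).const_mul ε
  have d2 := hu.hasDerivAt c1.neg
  simp only [Pi.neg_apply, h] at d2
  have := d1.unique d2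
  simp [Pi.single_apply] at this
  linarith

/-- **RL for an odd family** -/
theorem rl_odd' {u : κ → (ι → ℝ) → ℝ} {u₁ : κ × ι → (ι → ℝ) → ℝ}
    {u₂ : (κ × ι) × ι → (ι → ℝ) → ℝ} {u₃ : ((κ × ι) × ι) × ι → (ι → ℝ) → ℝ}
    {u₄ : (((κ × ι) × ι) × ι) × ι → (ι → ℝ) → ℝ} (hu : GrF u u₁) (hu₁ : GrF u₁ u₂)
    (hu₂ : GrF u₂ u₃) (hu₃ : GrF u₃ u₄) (h : ∀ k g, u k (-g) = -u k g) :
    En u₁ - En u₃ / 3 ≤ En u ∧ En u ≤ En u₁ - En u₃ / 3 + En u₄ / 4 := by
  refine rl_odd hu hu₁ hu₂ hu₃ (fun k => int_odd (hu.eg k) (h k)) fun k =>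
    int_odd (hu₁.eg' k) fun g => ?_
  have h1 : ∀ g, u₁ k.1 (-g) = 1 * u₁ k.1 g := fun g => by
    simpa using grad_parity (hu k.1.1) (ε := -1) (fun g => by simpa using h _ g) k.1.2 g
  simpa using grad_parity (hu₁ k.1) h1 k.2 g

end Crest.Agent.T156.Cas.Rl

end
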