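import Crest.Agent.T156.Tri_18

/-!
# Row 156 (helper18): a row sum with a jump on the diagonal

`∑_j α_j ∑_{y ≠ j} κ j y φ y C j y`, the coefficient Lipschitz in `y` on both sides of `j`:
Abel summation against the tails, plus a triangle, plus the diagonal.
-/

set_option autoImplicit false
set_option linter.all false

namespace Crest.Agent.T156.Cas.Tri18
open Finset
open Crest.Agent.T156.Rect52

/-- `abel_tail` with a separate size of the first coefficient -/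
theorem abel_tail' {C κ : ℕ → ℕ → ℝ} {I : Finset ℕ} {A r s f : ℕ → ℝ} {m b : ℕ} {k0 : ℝ}
    (hA : ∀ i ∈ I, 0 ≤ A i) (hs : ∀ y ∈ Ico m (b - 1), 0 ≤ s y)
    (hf : ∀ y, m ≤ y → 0 ≤ f y) (hk : 0 ≤ k0)
    (hC : ∀ (φ : ℕ → ℝ) (y : ℕ), m ≤ y → |∑ i ∈ I, φ i * ∑ j ∈ Ico y b, C i j| ≤
      √(∑ i ∈ I, φ i ^ 2 * A i) * f y)
    (h0 : ∀ i ∈ I, |κ i m| ≤ r i * k0)
    (h1 : ∀ i ∈ I, ∀ y ∈ Ico m (b - 1), |κ i (y + 1) - κ i y| ≤ r i * s y) :
    |∑ i ∈ I, ∑ j ∈ Ico m b, κ i j * C i j| ≤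
      √(∑ i ∈ I, r i ^ 2 * A i) * (k0 * f m + ∑ y ∈ Ico m (b - 1), s y * f (y + 1)) := by
  have e : ∑ i ∈ I, ∑ j ∈ Ico m b, κ i j * C i j = ∑ i ∈ I, κ i m * ∑ j ∈ Ico m b, C i j +
      ∑ y ∈ Ico m (b - 1), ∑ i ∈ I, (κ i (y + 1) - κ i y) * ∑ j ∈ Ico (y + 1) b, C i j := by
    rw [Finset.sum_comm (s := Ico m (b - 1)), ← Finset.sum_add_distrib]
    exact Finset.sum_congr rfl fun i _ => abel_id' (κ i) (C i) m b
  rw [e, mul_add, Finset.mul_sum]
  refine (abs_add_le _ _).trans (add_le_add ?_ ((Finset.abs_sum_le_sum_abs _ _).trans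
    (Finset.sum_le_sum fun y hy => ?_)))
  · refine (hC _ m le_rfl).trans ?_
    have := mul_le_mul_of_nonneg_right (sqrt_coef (s := k0) (r := r) hk hA h0) (hf m le_rfl)
    linarith [show k0 * √(∑ i ∈ I, r i ^ 2 * A i) * f m =
      √(∑ i ∈ I, r i ^ 2 * A i) * (k0 * f m) by ring]
  · have hy' : m ≤ y + 1 := by have := (mem_Ico.1 hy).1; omega
    refine (hC _ (y + 1) hy').trans ?_
    have := mul_le_mul_of_nonneg_right
      (sqrt_coef (hs y hy) hA (fun i hi => h1 i hi y hy)) (hf _ hy')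
    linarith [show s y * √(∑ i ∈ I, r i ^ 2 * A i) * f (y + 1) =
      √(∑ i ∈ I, r i ^ 2 * A i) * (s y * f (y + 1)) by ring]

/-- the lower coefficient, frozen at `j - 1` -/
def kl (κ : ℕ → ℕ → ℝ) (m j y : ℕ) : ℝ := if m < j then κ j (min y (j - 1)) else 0

theorem row_split (κ : ℕ → ℕ → ℝ) (w : ℕ → ℝ) {m j K : ℕ} (h1 : m ≤ j) (h2 : j < K) :
    ∑ y ∈ Ico m j, κ j y * w y + ∑ y ∈ Ico (j + 1) K, κ j y * w y =
      ∑ y ∈ Ico m K, kl κ m j y * w y - kl κ m j j * w j +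
        ∑ y ∈ Ico (j + 1) K, (κ j y - kl κ m j j) * w y := by
  rw [← sum_Ico_consecutive _ h1 h2.le, sum_eq_sum_Ico_succ_bot h2]
  have e1 : ∑ y ∈ Ico m j, kl κ m j y * w y = ∑ y ∈ Ico m j, κ j y * w y :=
    sum_congr rfl fun y hy => by
      have := mem_Ico.1 hy
      rw [kl, if_pos (by omega), min_eq_left (by omega)]
  have e2 : ∑ y ∈ Ico (j + 1) K, kl κ m j y * w y = ∑ y ∈ Ico (j + 1) K, kl κ m j j * w y :=
    sum_congr rfl fun y hy => by
      have := mem_Ico.1 hy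
      simp only [kl]
      rw [min_eq_right (show j - 1 ≤ y by omega), min_eq_right (show j - 1 ≤ j by omega)]
  rw [e1, e2]
  simp only [sub_mul, sum_sub_distrib]
  ring

/-- **the row bound** -/
theorem Cr.row {C : ℕ → ℕ → ℝ} {A : ℕ → ℝ} {S : Finset ℕ} (h : Cr C A A S) {κ : ℕ → ℕ → ℝ}
    {α φ s f l G : ℕ → ℝ} {m K k : ℕ} {c k0 V : ℝ} (hk : K - m ≤ 2 ^ k) (hS : Ico m K ⊆ S)
    (hs : ∀ y, 0 ≤ s y) (hV : ∑ y ∈ Ico m (K - 1), s y ≤ V) (hl : ∀ i, 0 < l i) (hm : Monotone l)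
    (hf : ∀ y, 0 ≤ f y) (hφ : ∀ y, |φ y| ≤ 1) (hc : 1 ≤ c) (hk0 : 0 ≤ k0)
    (hF : ∀ (θ : ℕ → ℝ) (y : ℕ), m ≤ y → |∑ i ∈ Ico m K, θ i * ∑ x ∈ Ico y K, φ x * C i x| ≤
      √(∑ i ∈ Ico m K, θ i ^ 2 * A i) * f y)
    (hG : ∀ j, m ≤ j → j < K → |C j j| ≤ G j)
    (h0 : ∀ j y, m ≤ j → j < K → m ≤ y → y < K → y ≠ j → |κ j y| ≤ c)
    (h00 : ∀ j, m < j → j < K → |κ j m| ≤ k0)
    (hd : ∀ j y, m ≤ y → y + 1 < j → j < K → |κ j (y + 1) - κ j y| ≤ s y)
    (hu : ∀ j y, m ≤ j → j < y → y + 1 < K → |κ j (y + 1) - κ j y| ≤ s y) :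
    |∑ j ∈ Ico m K, α j * (∑ y ∈ Ico m j, κ j y * (φ y * C j y) +
        ∑ y ∈ Ico (j + 1) K, κ j y * (φ y * C j y))| ≤
      √(∑ i ∈ Ico m K, α i ^ 2 * A i) * (k0 * f m + ∑ y ∈ Ico m (K - 1), s y * f (y + 1)) +
      c * ∑ j ∈ Ico m K, |α j| * G j +
      c * (k * ((1 + V) * ∑ i ∈ Ico m K, (α i ^ 2 * A i / l i + l i * A i))) := by
  have c0 : 0 < c := by linarith
  have hA : ∀ i ∈ Ico m K, 0 ≤ A i := fun i hi => h.nn i (hS hi)
  have kb : ∀ j, m ≤ j → j < K → |kl κ m j j| ≤ c := fun j h1 h2 => by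
    simp only [kl]
    split_ifs with h3
    · rw [min_eq_right (Nat.sub_le j 1)]
      exact h0 j (j - 1) h1 h2 (by omega) (by omega) (by omega)
    · simpa using c0.le
  have e : ∑ j ∈ Ico m K, α j * (∑ y ∈ Ico m j, κ j y * (φ y * C j y) +
        ∑ y ∈ Ico (j + 1) K, κ j y * (φ y * C j y)) =
      ∑ j ∈ Ico m K, ∑ y ∈ Ico m K, (α j * kl κ m j y) * (φ y * C j y) -
        ∑ j ∈ Ico m K, α j * (kl κ m j j * (φ j * C j j)) +
        2 * c * ∑ y ∈ Ico m K, ∑ j ∈ Ico m y,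
          (α j * (κ j y - kl κ m j j) / (2 * c)) * (φ y * C j y) := by
    rw [← sum_Ico_Ico_comm', mul_sum, ← sum_sub_distrib, ← sum_add_distrib]
    refine sum_congr rfl fun j hj => ?_
    rw [row_split κ (fun y => φ y * C j y) (mem_Ico.1 hj).1 (mem_Ico.1 hj).2, mul_add, mul_sub,
      mul_sum, mul_sum, mul_sum]
    congr 1
    · congr 1
      exact sum_congr rfl fun y _ => by ring
    · exact sum_congr rfl fun y _ => by field_simp
  have b1 := abel_tail' (C := fun i x => φ x * C i x) (κ := fun j y => α j * kl κ m j y)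
    (I := Ico m K) (A := A) (r := fun i => |α i|) (s := s) (f := f) (m := m) (b := K) (k0 := k0)
    hA (fun y _ => hs y) (fun y _ => hf y) hk0 hF
    (fun j hj => by
      have hj' := mem_Ico.1 hj
      rw [abs_mul]
      refine mul_le_mul_of_nonneg_left ?_ (abs_nonneg _)
      simp only [kl]
      split_ifs with h3
      · rw [min_eq_left (by omega)]
        exact h00 j h3 hj'.2
      · simpa using hk0)
    (fun j hj y hy => by
      have hj' := mem_Ico.1 hj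
      have hy' := mem_Ico.1 hy
      rw [← mul_sub, abs_mul]
      refine mul_le_mul_of_nonneg_left ?_ (abs_nonneg _)
      simp only [kl]
      split_ifs with h3
      · rcases lt_or_ge (y + 1) j with h4 | h4
        · rw [min_eq_left (by omega), min_eq_left (by omega)]
          exact hd j y hy'.1 h4 hj'.2
        · rw [min_eq_right (by omega), min_eq_right (by omega)]
          simpa using hs y
      · simpa using hs y)
  simp only [sq_abs] at b1
  have b2 : |∑ j ∈ Ico m K, α j * (kl κ m j j * (φ j * C j j))| ≤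
      c * ∑ j ∈ Ico m K, |α j| * G j := by
    rw [mul_sum]
    refine (abs_sum_le_sum_abs _ _).trans (sum_le_sum fun j hj => ?_)
    have hj' := mem_Ico.1 hj
    rw [abs_mul, abs_mul, abs_mul, mul_left_comm c]
    refine mul_le_mul_of_nonneg_left (mul_le_mul (kb j hj'.1 hj'.2) ?_ (by positivity) c0.le)
      (abs_nonneg _)
    exact (mul_le_of_le_one_left (abs_nonneg _) (hφ j)).trans (hG j hj'.1 hj'.2)
  have b3 := h.tri (κ := fun j y => α j * (κ j y - kl κ m j j) / (2 * c)) (r := fun i => |α i|)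
    (s := s) (l := l) φ (a := m) (b := K) (k := k) (V := V) hk hS (fun y _ => hs y) hV hl hm
    (fun j y h1 h2 h3 => by
      have k1 := h0 j y h1 (by omega) (by omega) h3 (by omega)
      have k2 := kb j h1 (by omega)
      rw [mul_div_assoc, abs_mul]
      refine mul_le_of_le_one_right (abs_nonneg _) ?_
      rw [abs_div, abs_of_pos (by positivity : 0 < 2 * c), div_le_one (by positivity)]
      exact (abs_sub _ _).trans (by linarith))
    (fun j y h1 h2 h3 => by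
      have k1 := hu j y h1 h2 h3
      rw [← sub_div, ← mul_sub, mul_div_assoc, abs_mul]
      refine mul_le_mul_of_nonneg_left ?_ (abs_nonneg _)
      rw [abs_div, abs_of_pos (by positivity : 0 < 2 * c), div_le_iff₀ (by positivity),
        sub_sub_sub_cancel_right]
      nlinarith [hs y])
  simp only [sq_abs] at b3
  have V0 : 0 ≤ V := (sum_nonneg fun y _ => hs y).trans hV
  have b4 : ∑ i ∈ Ico m K, (α i ^ 2 * A i / l i + l i * (φ i ^ 2 * A i)) ≤
      ∑ i ∈ Ico m K, (α i ^ 2 * A i / l i + l i * A i) := sum_le_sum fun i hi => by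
    have : φ i ^ 2 ≤ 1 := by rw [← sq_abs]; nlinarith [hφ i, abs_nonneg (φ i)]
    have := mul_le_of_le_one_left (hA i hi) this
    have := mul_le_mul_of_nonneg_left this (hl i).le
    linarith
  have b5 := mul_le_mul_of_nonneg_left (mul_le_mul_of_nonneg_left b4
    (show 0 ≤ (1 + V) / 2 by positivity)) (Nat.cast_nonneg (α := ℝ) k)
  have b6 := mul_le_mul_of_nonneg_left (b3.trans b5) (show 0 ≤ 2 * c by positivity)
  rw [e]
  refine (abs_add_le _ _).trans (add_le_add ((abs_sub _ _).trans (add_le_add b1 b2)) ?_)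
  rw [abs_mul, abs_of_pos (by positivity : 0 < 2 * c)]
  refine b6.trans_eq (by ring)

end Crest.Agent.T156.Cas.Tri18
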