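import Crest.Agent.T156.CQ21D_52
import Crest.Agent.T156.Row_18

/-!
# Row 156 (helper18): tools for the rows (one edge at the level `j`)
-/

set_option autoImplicit false
set_option linter.all false

noncomputable section

namespace Crest.Agent.T156.Cas.Q21

open Finset
open Crest.Agent.T157.E Crest.Agent.T157.Casc Crest.Agent.T157.SL
open Crest.Agent.T156.Cas.Q75
open Crest.Agent.T156.Cas.Q75.A10 (ind)
open Nu87 Wt87 Tri18

namespace R18

theorem split2 {g : ℕ → ℝ} {m j K : ℕ} (h1 : m ≤ j) (h2 : j < K) (hj : g j = 0) (hK : g K = 0) :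
    ∑ y ∈ Ico m (K + 1), g y = ∑ y ∈ Ico m j, g y + ∑ y ∈ Ico (j + 1) K, g y := by
  rw [sum_Ico_succ_top (h1.trans h2.le), hK, add_zero, ← sum_Ico_consecutive _ h1 h2.le,
    sum_eq_sum_Ico_succ_bot h2, hj, zero_add]

variable {Θ : Type} {L : List (Lv Θ)} {c B : Tw} {j₁ : ℕ} {c₀ : ℝ} {p s a φ f : ℕ → ℝ}
  {b : ℕ → ℕ → ℝ} {V : Type} [AddCommGroup V] [Module ℝ V] {ip : LinearMap.BilinForm ℝ V}
  {δ : ℕ → V} {π : ℕ → ℕ → V} {P : ℕ → V →ₗ[ℝ] V}

/-- the non-local part with the old edge at `j` -/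
theorem NL_row (hc : c.tr.Eqv c L.length) (hB : B.tr.Eqv B L.length) (hφ : ∀ x < j₁, φ x = 0)
    (hK : dm L 0 L.length = 0) {j : ℕ} (h1 : j₁ ≤ j) (h2 : j < L.length) :
    NL L (((wt (ind j) fun x => nj j x * φ x).mul c).mul B) =
      dm L 0 j * ∑ y ∈ Ico j₁ j, dm L 0 y * φ y * LO L (c.mul B) y j +
      dm L 0 j * ∑ x ∈ Ico (j + 1) L.length, dm L 0 x * φ x * LO L (c.mul B) j x +
      ∑ z ∈ range L.length, dm L 0 z * if z < j then
        (∑ k ∈ Ico (max (z + 1) j₁) j, c.off L.length z j k *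
            (φ k * (dm L 0 j * dm L 0 k * B.off L.length z j k)) +
          ∑ k ∈ Ico (j + 1) L.length, c.off L.length z j k *
            (φ k * (dm L 0 j * dm L 0 k * B.off L.length z j k))) else 0 := by
  have i0 : ∀ x, x ≠ j → ind j x = 0 := fun x h => if_neg h
  have i1 : ind j j = 1 := if_pos rfl
  have n0 : nj j j = 0 := if_pos rfl
  have n1 : ∀ x, x ≠ j → nj j x = 1 := fun x h => if_neg h
  rw [NL_eq (j₁ := j₁) hc hB (fun x hx => i0 x (by omega)) fun x hx => by rw [hφ x hx, mul_zero]]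
  congr 1
  · congr 1
    · rw [sum_eq_single_of_mem j (mem_Ico.2 ⟨h1, by omega⟩) fun x _ hx => by simp [i0 x hx],
        sum_Ico_succ_top h1, n0, mul_sum]
      simp only [zero_mul, mul_zero, add_zero]
      exact sum_congr rfl fun y hy => by
        rw [i1, n1 y (by have := mem_Ico.1 hy; omega)]; ring
    · rw [← sum_Ico_Ico_comm',
        sum_eq_single_of_mem j (mem_Ico.2 ⟨h1, by omega⟩) fun x _ hx => by simp [i0 x hx],
        sum_Ico_succ_top (show j + 1 ≤ L.length from h2), hK, mul_sum]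
      simp only [zero_mul, mul_zero, add_zero]
      exact sum_congr rfl fun y hy => by
        rw [i1, n1 y (by have := mem_Ico.1 hy; omega)]; ring
  · refine sum_congr rfl fun z _ => ?_
    congr 1
    split_ifs with hz
    · rw [sum_eq_single_of_mem j (mem_Ico.2 ⟨hz, by omega⟩) fun x _ hx => by simp [i0 x hx],
        sum_cut (j := j₁) fun k hk => by simp [hφ k hk],
        split2 (j := j) (max_le hz h1) h2 (by simp [n0]) (by simp [hK])]
      congr 1 <;> exact sum_congr rfl fun y hy => by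
        rw [i1, n1 y (by have := mem_Ico.1 hy; omega)]; ring
    · exact sum_eq_zero fun x hx => by simp [i0 x (by have := mem_Ico.1 hx; omega)]

theorem lo_dec (H : BH L B j₁ c₀ p s a b ip δ π P) {y x : ℕ} {κ : ℝ} (hy : y ≤ x)
    (hx : x ≤ L.length) (h0 : ∀ t, y ≤ t → t ≤ L.length + 1 → |c.lo L.length y x t| ≤ κ) :
    |LO L (c.mul B) y x - (LO L c y x * ip (δ x) (δ y) -
      2 * Pt L c ip δ π y x)| ≤ 8 * (κ * (b y x * a x)) := by
  have κ0 : 0 ≤ κ := (abs_nonneg _).trans (h0 y le_rfl (by omega))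
  set Y : ℕ → ℝ := fun t => B.lo L.length y x t - (ip (δ x) (δ y) + ip (δ x) (π y (min t x)))
  have hY : ∀ t, y ≤ t → t ≤ L.length + 1 → |c.lo L.length y x t * Y t| ≤ κ * (b y x * a x) :=
    fun t h2 h3 => by
      rw [abs_mul]
      refine mul_le_mul (h0 t h2 h3) ?_ (abs_nonneg _) κ0
      rcases le_or_gt t x with h | h
      · simp only [Y, min_eq_left h, H.bs.lo1 y x t h2 h hx, sub_self, abs_zero]
        exact mul_nonneg (H.b0 y x) (H.bs.a0 x)
      · simp only [Y, min_eq_right h.le]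
        exact H.lo3 y x t hy h h3 hx
  have e : ∀ t, y ≤ t → (c.mul B).lo L.length y x t =
      ip (δ x) (δ y) * c.lo L.length y x t + ∑ u ∈ Ico y x, ip (δ x) (π y (u + 1) - π y u) *
        (if u < t then c.lo L.length y x t else 0) + c.lo L.length y x t * Y t := fun t ht => by
    have : ∑ u ∈ Ico y x, ip (δ x) (π y (u + 1) - π y u) *
        (if u < t then c.lo L.length y x t else 0) =
        ip (δ x) (π y (min t x)) * c.lo L.length y x t := by
      simp only [mul_ite, mul_zero]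
      rw [← sum_filter, ← sum_mul, ← map_sum, show filter (· < t) (Ico y x) = Ico y (min t x) by
        ext u; simp only [mem_filter, mem_Ico]; omega,
        sum_Ico_sub (π y) (le_min ht hy), H.bs.pi0, sub_zero]
    rw [lo_mul, this]
    simp only [Y]
    ring
  have e1 : cP L (c.mul B) y y x = ip (δ x) (δ y) * cP L c y y x + Pt L c ip δ π y x +
      (Lg L y (fun t => c.lo L.length y x t * Y t) + Lx L x fun t => c.lo L.length y x t * Y t) := by
    rw [cP, Lg_congr (hy.trans hx) fun t h _ => e t h.le, Lx_congr hx fun t h _ => e t (hy.trans h),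
      Lg_add, Lg_add, Lx_add, Lx_add, Lg_mul, Lx_mul, Lg_sum, Lx_sum, Q75.Pt, cP,
      sum_congr rfl (g := fun u => ip (δ x) (π y (u + 1) - π y u) * Lg L u (c.lo L.length y x))
        fun u hu => by
          rw [Lg_mul, Lg_cut (mem_Ico.1 hu).1 ((mem_Ico.1 hu).2.le.trans hx)],
      sum_congr rfl (f := fun u => Lx L x _)
        (g := fun u => ip (δ x) (π y (u + 1) - π y u) * Lx L x (c.lo L.length y x)) fun u hu => by
          rw [Lx_mul, Lx_congr hx fun t h _ => if_pos ((mem_Ico.1 hu).2.trans_le h)]]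
    simp only [cP, add_mul, sum_add_distrib, mul_comm (ip (δ x) (π y _ - π y _))]
    ring
  have e2 : (c.mul B).lo L.length y x y = c.lo L.length y x y * ip (δ x) (δ y) := by
    rw [lo_mul, H.bs.lo1 y x y le_rfl hy hx, H.bs.pi0, map_zero, add_zero]
  have h := abs_LL_le H.mono hy hx hY
  rw [LO, LO, e1, e2]
  rw [abs_le] at h ⊢
  constructor <;> nlinarith [h.1, h.2]

theorem abs_LO (hL : Mono 0 L) {y x : ℕ} {κ : ℝ} (hy : y ≤ x)
    (hx : x ≤ L.length) (h0 : ∀ t, y ≤ t → t ≤ L.length + 1 → |c.lo L.length y x t| ≤ κ) :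
    |LO L c y x| ≤ 10 * κ := by
  have h1 : |cP L c y y x| ≤ 4 * κ := abs_LL_le hL hy hx h0
  have h2 := h0 y le_rfl (by omega)
  have h3 : dm L 0 y ≤ 1 := by
    simpa using sum_dm_le_one hL (A := {y}) (by simp; omega)
  have h4 := Tay38.ex_le_one hL y
  have h5 : |(dm L 0 y + ex L y) * c.lo L.length y x y| ≤ 2 * κ := by
    rw [abs_mul, abs_of_nonneg (add_nonneg (dm_nonneg hL y) (ex_nonneg hL y))]
    exact mul_le_mul (by linarith) h2 (abs_nonneg _) zero_le_two
  rw [LO]
  rw [abs_le] at h1 h5 ⊢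
  constructor <;> linarith [h1.1, h1.2, h5.1, h5.2]

theorem BH.s0 (H : BH L B j₁ c₀ p s a b ip δ π P) (i : ℕ) : 0 ≤ s i :=
  (dm_nonneg H.mono i).trans (H.ds i)

/-- the martingale part above `j` -/
theorem pi_up (H : BH L B j₁ c₀ p s a b ip δ π P) (W : Wf L j₁ ip δ φ f) {y : ℕ}
    (R : RowR L c j₁ y c₀ p s) (h1 : j₁ ≤ y) (hy : y ≤ L.length) :
    |∑ x ∈ Ico y (L.length + 1), dm L 0 x * φ x * Pt L c ip δ π y x| ≤
      a y * (4 * c₀ * f (y + 1) + ∑ i ∈ Ico j₁ L.length, s i * f (i + 1)) := by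
  set F : ℕ → V := fun y => ∑ x ∈ Ico y (L.length + 1), (dm L 0 x * φ x) • δ x with hF
  set d : ℕ → V := fun u => π y (u + 1) - π y u with hd
  have e0 : ∀ u v, ∑ x ∈ Ico v (L.length + 1), dm L 0 x * φ x * ip (δ x) (d u) = ip (F v) (d u) :=
    fun u v => by simp only [hF, map_sum, LinearMap.sum_apply, map_smul, LinearMap.smul_apply,
      smul_eq_mul]
  have e1 : ∑ x ∈ Ico y (L.length + 1), dm L 0 x * φ x * Pt L c ip δ π y x =
      ∑ u ∈ Ico y L.length, (cP L c y u (u + 1) * ip (F (u + 1)) (d u) +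
        ∑ j ∈ Ico (u + 1) L.length, (cP L c y u (j + 1) - cP L c y u j) * ip (F (j + 1)) (d u)) := by
    simp only [Q75.Pt, mul_sum]
    rw [← sum_Ico_Ico_comm', sum_Ico_succ_top hy, Ico_self, sum_empty, add_zero]
    refine sum_congr rfl fun u _ => ?_
    have := Rect52.abel_id' (cP L c y u) (fun x => dm L 0 x * φ x * ip (δ x) (d u)) (u + 1)
      (L.length + 1)
    simp only [e0, Nat.add_sub_cancel] at this
    rw [← this]
    exact sum_congr rfl fun x _ => by ring
  have e2 : ∀ u ∈ Ico y L.length, ip (F (u + 1)) (d u) = ip (F (y + 1)) (d u) := fun u hu => by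
    have hu' := mem_Ico.1 hu
    rw [← e0, ← e0, ← sum_Ico_consecutive _ (show y + 1 ≤ u + 1 by omega)
      (show u + 1 ≤ L.length + 1 by omega), sum_eq_zero (s := Ico (y + 1) (u + 1)) fun v hv => by
        rw [H.bs.or1 y u v hu'.1 hu'.2 (by have := mem_Ico.1 hv; omega), mul_zero], zero_add]
  have c0 : 0 ≤ c₀ := zero_le_one.trans H.c1
  have pa := H.bs.a0 y
  have b1 : |∑ u ∈ Ico y L.length, cP L c y u (u + 1) * ip (F (u + 1)) (d u)| ≤
      f (y + 1) * (4 * c₀ * a y) := by
    rw [sum_congr rfl fun u hu => by rw [e2 u hu, ← smul_eq_mul, ← map_smul], ← map_sum]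
    refine H.bs.cs (W.nn _) (by positivity) (W.tl _ (by omega))
      (H.bs.mart hy le_rfl fun u h2 h3 => ?_)
    have g := fun t h4 h5 => R.up0 (u + 1) t (by omega) h3 h4 h5
    exact abs_LL_le H.mono (Nat.le_succ u) h3 fun t h4 h5 => g t (h2.trans h4) h5
  have b2 : |∑ u ∈ Ico y L.length, ∑ j ∈ Ico (u + 1) L.length,
      (cP L c y u (j + 1) - cP L c y u j) * ip (F (j + 1)) (d u)| ≤
      a y * ∑ i ∈ Ico j₁ L.length, s i * f (i + 1) := by
    rw [sum_Ico_Ico_comm', mul_sum]
    refine (abs_sum_le_sum_abs _ _).trans ((sum_le_sum fun j hj => ?_).trans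
      (sum_le_sum_of_subset_of_nonneg (Ico_subset_Ico_left h1) fun i _ _ =>
        mul_nonneg pa (mul_nonneg (BH.s0 H i) (W.nn _))))
    have hj' := mem_Ico.1 hj
    rw [sum_congr rfl fun u _ => by rw [← smul_eq_mul, ← map_smul], ← map_sum]
    refine (H.bs.cs (W.nn _) (mul_nonneg (BH.s0 H j) (H.bs.a0 y))
      (W.tl _ (by omega)) (H.bs.mart hj'.1 hj'.2.le fun u h2 h3 =>
        R.upp u j h2 h3 hj'.2)).trans_eq (by ring)
  rw [e1, sum_add_distrib]
  exact (abs_add_le _ _).trans (by linarith)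

theorem or_top (H : Bs L.length B ip δ π P a) {y j n : ℕ} (hy : y ≤ j) (hj : j ≤ n)
    (hn : n ≤ L.length) : ip (δ j) (π y n) = ip (δ j) (π y j) := by
  induction n, hj using Nat.le_induction with
  | base => rfl
  | succ n hj ih =>
    have := H.or1 y n j (hy.trans hj) hn hj
    rw [map_sub, sub_eq_zero] at this
    rw [this, ih (by omega)]

theorem Pt_eq (H : Bs L.length B ip δ π P a) {y x : ℕ} (hy : y ≤ x) (hx : x ≤ L.length) :
    Pt L c ip δ π y x =
      Lg L y (fun t => c.lo L.length y x t * ip (δ x) (π y (min t L.length))) +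
        Lx L x (c.lo L.length y x) * ip (δ x) (π y L.length) := by
  have e : ∀ t, y ≤ t → c.lo L.length y x t * ip (δ x) (π y (min t L.length)) =
      ∑ u ∈ Ico y x, ip (δ x) (π y (u + 1) - π y u) *
        (if u < t then c.lo L.length y x t else 0) := fun t ht => by
    simp only [mul_ite, mul_zero]
    rw [← sum_filter, ← sum_mul, ← map_sum, show filter (· < t) (Ico y x) = Ico y (min t x) by
      ext u; simp only [mem_filter, mem_Ico]; omega,
      sum_Ico_sub (π y) (le_min ht hy), H.pi0, sub_zero, mul_comm]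
    congr 1
    rcases le_total t x with h | h
    · rw [min_eq_left h, min_eq_left (h.trans hx)]
    · rw [min_eq_right h, or_top H hy (le_min h hx) (min_le_right _ _)]
  rw [Lg_congr (hy.trans hx) fun t h _ => e t h.le, Lg_sum, Q75.Pt,
    sum_congr rfl (f := fun u => Lg L y _)
      (g := fun u => ip (δ x) (π y (u + 1) - π y u) * Lg L u (c.lo L.length y x)) fun u hu => by
        rw [Lg_mul, Lg_cut (mem_Ico.1 hu).1 ((mem_Ico.1 hu).2.le.trans hx)],
    or_top H hy hx le_rfl]
  simp only [cP, add_mul, sum_add_distrib]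
  rw [← mul_sum, ← map_sum, sum_Ico_sub (π y) hy, H.pi0, sub_zero]
  congr 1
  exact sum_congr rfl fun u _ => mul_comm _ _

end R18

end Crest.Agent.T156.Cas.Q21

end
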