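import Crest.Agent.T157.PlbVar_36
import Crest.Agent.T157.ConcP_16

/-!
# Row 156 (helper40): Gaussian Poincare inequality for `Gr`, and the row lemma

`poinc`, `bessel`, `row_odd` (`|B0 - B1 + B3/3| ≤ B4`), `row_even` (`|B0 - B2/2| ≤ B3`),
`row_two` (`B0 ≤ B2`), `l4` (vector valued `L⁴` Poincare inequality).
-/

set_option autoImplicit false
set_option linter.unusedSectionVars false

noncomputable section

namespace Crest.Agent.T156.Row

open MeasureTheory Real Set Filter Topology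
open Crest.Agent.T157.E Crest.Agent.T157.Casc
open Crest.Agent.T157.Plb.Var36 (eg_int stein0 gr_coord gr_lin)

variable {ι : Type} [Fintype ι] {Φ φ : (ι → ℝ) → ℝ} {Ψ φ₁ : ι → (ι → ℝ) → ℝ}

/-- Gaussian mean -/
def Ev (f : (ι → ℝ) → ℝ) : ℝ := ∫ g, f g ∂gv ι

/-- truncation -/
def tr (e : ℝ) (g : ι → ℝ) : ι → ℝ := fun i => sin (e * g i) / e

theorem abs_tr_le {e : ℝ} (he : 0 < e) (x : ℝ) : |sin (e * x) / e| ≤ |x| := by
  rw [abs_div, abs_of_pos he, div_le_iff₀ he]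
  refine Real.abs_sin_le_abs.trans (le_of_eq ?_)
  rw [abs_mul, abs_of_pos he, mul_comm]

theorem norm_tr_le {e : ℝ} (he : 0 < e) (g : ι → ℝ) : ‖tr e g‖ ≤ ‖g‖ :=
  (pi_norm_le_iff_of_nonneg (norm_nonneg _)).2 fun i =>
    (abs_tr_le he (g i)).trans (norm_le_pi_norm g i)

theorem norm_tr_le' {e : ℝ} (he : 0 < e) (g : ι → ℝ) : ‖tr e g‖ ≤ 1 / e :=
  (pi_norm_le_iff_of_nonneg (by positivity)).2 fun i => by
    rw [tr, Real.norm_eq_abs, abs_div, abs_of_pos he]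
    exact div_le_div_of_nonneg_right (Real.abs_sin_le_one _) he.le

theorem cont_tr (e : ℝ) : Continuous (tr e : (ι → ℝ) → ι → ℝ) := by
  unfold tr; fun_prop

theorem eg_tr (h : Eg Φ) {e : ℝ} (he : 0 < e) : Eg fun g => Φ (tr e g) := by
  obtain ⟨C, c, hC, hc, hb⟩ := h.bd
  refine ⟨h.cont.comp (cont_tr e), C, c, hC, hc, fun g => (hb _).trans ?_⟩
  gcongr
  exact norm_tr_le he g

theorem tend_tr (g : ι → ℝ) : Tendsto (fun e => tr e g) (𝓝[>] 0) (𝓝 g) := by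
  refine tendsto_pi_nhds.2 fun i => ?_
  have h1 : HasDerivAt (fun e : ℝ => sin (e * g i)) (g i) 0 := by
    simpa using ((hasDerivAt_id (0 : ℝ)).mul_const (g i)).sin
  refine h1.tendsto_slope_zero_right.congr fun e => ?_
  simp [tr, div_eq_inv_mul]

theorem tend_int (h : Eg Φ) :
    Tendsto (fun e => ∫ g, Φ (tr e g) ∂gv ι) (𝓝[>] 0) (𝓝 (∫ g, Φ g ∂gv ι)) := by
  obtain ⟨C, c, hC, hc, hb⟩ := h.bd
  have hB : Eg fun g : ι → ℝ => C * exp (c * ‖g‖) :=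
    ⟨by fun_prop, C, c, hC, hc, fun g => by rw [abs_of_nonneg (by positivity)]⟩
  refine tendsto_integral_filter_of_dominated_convergence (fun g => C * exp (c * ‖g‖)) ?_ ?_
    (eg_int hB) (ae_of_all _ fun g => (h.cont.tendsto g).comp (tend_tr g))
  · exact Eventually.of_forall fun e => (h.cont.comp (cont_tr e)).aestronglyMeasurable
  · filter_upwards [self_mem_nhdsWithin] with e he
    refine ae_of_all _ fun g => (hb _).trans ?_
    gcongr
    exact norm_tr_le he g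

theorem elip_tr (h : Gr Φ Ψ) {e : ℝ} (he : 0 < e) :
    ∃ L, Crest.Agent.T157.Conc.ELip L fun g => Φ (tr e g) := by
  choose C c hC hc hb using fun i => (h.eg' i).bd
  refine ⟨∑ i, C i * exp (c i * (1 / e)), fun x y => ?_⟩
  obtain ⟨s, hs, e1⟩ := h.exists_sub (tr e y) (tr e x - tr e y)
  rw [add_sub_cancel] at e1
  rw [e1, Finset.sum_mul]
  refine (Finset.abs_sum_le_sum_abs _ _).trans (Finset.sum_le_sum fun i _ => ?_)
  rw [abs_mul]
  have hn : ‖tr e y + s • (tr e x - tr e y)‖ ≤ 1 / e := by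
    have e2 : tr e y + s • (tr e x - tr e y) = (1 - s) • tr e y + s • tr e x := by
      rw [smul_sub, sub_smul, one_smul]; abel
    rw [e2]
    refine (norm_add_le _ _).trans ?_
    rw [norm_smul, norm_smul, Real.norm_of_nonneg (by linarith [hs.2]),
      Real.norm_of_nonneg hs.1.le]
    have a1 := mul_le_mul_of_nonneg_left (norm_tr_le' he y) (by linarith [hs.2] : 0 ≤ 1 - s)
    have a2 := mul_le_mul_of_nonneg_left (norm_tr_le' he x) hs.1.le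
    linarith
  refine mul_le_mul ((hb i _).trans ?_) ?_ (abs_nonneg _) (by have := hC i; positivity)
  · have := hC i; have := hc i
    gcongr
  · have a1 : |(tr e x - tr e y) i| ≤ |x i - y i| := by
      simp only [tr, Pi.sub_apply]
      rw [← sub_div, abs_div, abs_of_pos he, div_le_iff₀ he]
      refine (Real.abs_sin_sub_sin_le _ _).trans (le_of_eq ?_)
      rw [← mul_sub, abs_mul, abs_of_pos he, mul_comm]
    refine a1.trans (Real.abs_le_sqrt ?_)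
    exact Finset.single_le_sum (f := fun j => (x - y) j ^ 2) (fun _ _ => sq_nonneg _)
      (Finset.mem_univ i)

theorem var_eq (h : Eg Φ) : ∫ g, (Φ g - ∫ y, Φ y ∂gv ι) ^ 2 ∂gv ι =
    ∫ g, Φ g ^ 2 ∂gv ι - (∫ y, Φ y ∂gv ι) ^ 2 := by
  have e : ∀ g, (Φ g - ∫ y, Φ y ∂gv ι) ^ 2 =
      Φ g ^ 2 - (2 * ∫ y, Φ y ∂gv ι) * Φ g + (∫ y, Φ y ∂gv ι) ^ 2 := fun g => by ring
  simp only [e]
  rw [integral_add (eg_int ((h.pow 2).sub (h.const_mul _))) (integrable_const _),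
    integral_sub (eg_int (h.pow 2)) (eg_int (h.const_mul _)), integral_const_mul]
  simp only [integral_const, probReal_univ, smul_eq_mul, one_mul]
  ring

/-- **Gaussian Poincare inequality** for functions of exponential growth -/
theorem poinc (h : Gr Φ Ψ) : Ev (fun g => Φ g ^ 2) - Ev Φ ^ 2 ≤ ∑ i, Ev fun g => Ψ i g ^ 2 := by
  classical
  have hS : Eg fun g => ∑ i, Ψ i g ^ 2 := Eg.sum _ fun i _ => (h.eg' i).pow 2
  have e0 : ∑ i, Ev (fun g => Ψ i g ^ 2) = ∫ g, ∑ i, Ψ i g ^ 2 ∂gv ι :=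
    (integral_finsetSum _ fun i _ => eg_int ((h.eg' i).pow 2)).symm
  rw [e0]
  refine le_of_tendsto_of_tendsto ((tend_int (h.eg.pow 2)).sub ((tend_int h.eg).pow 2))
    (tend_int hS) ?_
  filter_upwards [self_mem_nhdsWithin] with e he
  have he' : 0 < e := he
  obtain ⟨L, hL⟩ := elip_tr h he'
  have hp := Crest.Agent.T157.Conc.poincare_partial hL
    (D := fun i g => Ψ i (tr e g) * cos (e * g i)) fun x i => by
      have h1 : HasDerivAt (fun t => tr e (Function.update x i t))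
          (Pi.single i (cos (e * x i))) (x i) := by
        refine hasDerivAt_pi.2 fun j => ?_
        by_cases hj : j = i
        · subst hj
          simp only [tr, Function.update_self, Pi.single_eq_same]
          refine ((((hasDerivAt_id (x j)).const_mul e).sin).div_const e).congr_deriv ?_
          simp only [id, mul_one]
          field_simp
        · simp only [tr, Function.update_of_ne hj, Pi.single_eq_of_ne hj]
          exact hasDerivAt_const _ _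
      have h2 := h.hasDerivAt h1
      simp only [Function.update_eq_self] at h2
      refine h2.congr_deriv ?_
      rw [Finset.sum_eq_single i (fun j _ hj => by simp [hj]) (by simp)]
      simp
  rw [← var_eq (eg_tr h.eg he')]
  refine hp.trans (integral_mono_of_nonneg (ae_of_all _ fun g => by positivity)
    (eg_int (eg_tr hS he')) (ae_of_all _ fun g => Finset.sum_le_sum fun i _ => ?_))
  rw [mul_pow]
  exact mul_le_of_le_one_right (sq_nonneg _) (Real.cos_sq_le_one _)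

/-! ### linearity of `Ev` -/

theorem Ev_add (h : Eg Φ) (h' : Eg φ) : Ev (fun g => Φ g + φ g) = Ev Φ + Ev φ :=
  integral_add (eg_int h) (eg_int h')

theorem Ev_sub (h : Eg Φ) (h' : Eg φ) : Ev (fun g => Φ g - φ g) = Ev Φ - Ev φ :=
  integral_sub (eg_int h) (eg_int h')

theorem Ev_mul (c : ℝ) (Φ : (ι → ℝ) → ℝ) : Ev (fun g => c * Φ g) = c * Ev Φ :=
  integral_const_mul _ _

theorem Ev_const (c : ℝ) : Ev (fun _ : ι → ℝ => c) = c := by simp [Ev]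

theorem Ev_sum {κ : Type*} (s : Finset κ) {F : κ → (ι → ℝ) → ℝ} (h : ∀ k ∈ s, Eg (F k)) :
    Ev (fun g => ∑ k ∈ s, F k g) = ∑ k ∈ s, Ev (F k) :=
  integral_finsetSum _ fun k hk => eg_int (h k hk)

theorem Ev_nonneg (h : ∀ g, 0 ≤ Φ g) : 0 ≤ Ev Φ := integral_nonneg h

theorem Ev_mono (h : Eg Φ) (h' : Eg φ) (e : ∀ g, Φ g ≤ φ g) : Ev Φ ≤ Ev φ :=
  integral_mono (eg_int h) (eg_int h') e

theorem Ev_stein (h : Gr Φ Ψ) (i : ι) : Ev (fun g => g i * Φ g) = Ev (Ψ i) := stein0 h i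

theorem sq_Ev_le (h : Eg Φ) : Ev Φ ^ 2 ≤ Ev fun g => Φ g ^ 2 := by
  have := var_eq h
  have h2 : 0 ≤ ∫ g, (Φ g - ∫ y, Φ y ∂gv ι) ^ 2 ∂gv ι := integral_nonneg fun _ => sq_nonneg _
  unfold Ev
  linarith

theorem Gr.sub' (h : Gr Φ Ψ) (h' : Gr φ φ₁) :
    Gr (fun g => Φ g - φ g) fun i g => Ψ i g - φ₁ i g := by
  have := h.add (h'.const_mul (-1))
  simp only [neg_mul, one_mul, ← sub_eq_add_neg] at this
  exact this

/-- the divergence is the adjoint of the gradient -/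
theorem adj (h : Gr φ φ₁) {F : ι → (ι → ℝ) → ℝ} {F₁ : ι → ι → (ι → ℝ) → ℝ}
    (hF : ∀ i, Gr (F i) (F₁ i)) :
    Ev (fun g => φ g * ∑ i, (g i * F i g - F₁ i i g)) = ∑ i, Ev fun g => φ₁ i g * F i g := by
  simp only [Finset.mul_sum]
  rw [Ev_sum _ fun i _ => h.eg.mul (((Eg.coord i).mul (hF i).eg).sub ((hF i).eg' i))]
  refine Finset.sum_congr rfl fun i _ => ?_
  have h1 := Ev_stein (h.mul (hF i)) i
  rw [Ev_add ((h.eg' i).mul (hF i).eg) (h.eg.mul ((hF i).eg' i))] at h1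
  have e : (fun g => φ g * (g i * F i g - F₁ i i g)) =
      fun g => g i * (φ g * F i g) - φ g * F₁ i i g := funext fun g => by ring
  rw [e, Ev_sub ((Eg.coord i).mul (h.eg.mul (hF i).eg)) (h.eg.mul ((hF i).eg' i)), h1]
  ring

/-- Pythagoras -/
theorem pyth (h : Eg Φ) (h' : Eg φ) (e : Ev (fun g => Φ g * φ g) = Ev fun g => φ g ^ 2) :
    Ev (fun g => Φ g ^ 2) = Ev (fun g => φ g ^ 2) + Ev fun g => (Φ g - φ g) ^ 2 := by
  have e1 : (fun g => (Φ g - φ g) ^ 2) = fun g => Φ g ^ 2 - 2 * (Φ g * φ g) + φ g ^ 2 :=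
    funext fun g => by ring
  rw [e1, Ev_add ((h.pow 2).sub ((h.mul h').const_mul 2)) (h'.pow 2),
    Ev_sub (h.pow 2) ((h.mul h').const_mul 2), Ev_mul, e]
  ring

/-- linear forms -/
def li (v : ι → ℝ) (g : ι → ℝ) : ℝ := ∑ i, v i * g i

theorem gr_li (v : ι → ℝ) : Gr (li v) fun j _ => v j := gr_lin v

theorem Ev_mul_li (h : Gr Φ Ψ) (v : ι → ℝ) :
    Ev (fun g => Φ g * li v g) = ∑ i, v i * Ev (Ψ i) := by
  have h1 := adj h (F := fun i _ => v i) (F₁ := fun _ _ _ => 0) fun i => Gr.const (v i)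
  simp only [sub_zero] at h1
  have e : (fun g => Φ g * li v g) = fun g => Φ g * ∑ i, g i * v i := funext fun g => by
    simp only [li, mul_comm]
  rw [e, h1]
  refine Finset.sum_congr rfl fun i _ => ?_
  rw [← Ev_mul]
  simp only [mul_comm]

theorem Ev_li (v : ι → ℝ) : Ev (li v) = 0 := by
  have := Ev_mul_li (Gr.const (Ω := ι) 1) v
  simpa [Ev_const] using this

theorem Ev_li_sq (v : ι → ℝ) : Ev (fun g => li v g ^ 2) = ∑ i, v i ^ 2 := by
  have := Ev_mul_li (gr_li v) v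
  simp only [Ev_const, ← sq] at this
  exact this

/-- **Bessel**: the first chaos -/
theorem bessel (h : Gr Φ Ψ) : Ev Φ ^ 2 + ∑ i, Ev (Ψ i) ^ 2 ≤ Ev fun g => Φ g ^ 2 := by
  have h1 := pyth h.eg (gr_li fun i => Ev (Ψ i)).eg (by
    rw [Ev_mul_li h, Ev_li_sq]; simp only [sq])
  have h2 := sq_Ev_le (h.eg.sub (gr_li fun i => Ev (Ψ i)).eg)
  rw [Ev_sub h.eg (gr_li _).eg, Ev_li, sub_zero] at h2
  rw [h1, Ev_li_sq]
  linarith

/-- symmetry of second derivatives in the mean -/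
theorem Ev_symm (h : Gr Φ Ψ) {Ψ₂ : ι → ι → (ι → ℝ) → ℝ} (h2 : ∀ i, Gr (Ψ i) (Ψ₂ i)) (i j : ι) :
    Ev (Ψ₂ i j) = Ev (Ψ₂ j i) := by
  classical
  have key : ∀ i j, Ev (Ψ₂ i j) = Ev (fun g => g i * (g j * Φ g)) -
      (if i = j then 1 else 0) * Ev Φ := fun i j => by
    rw [Ev_stein ((gr_coord j).mul h) i, ← Ev_stein (h2 i) j,
      Ev_add (h.eg.const_mul _) ((Eg.coord j).mul (h.eg' i)), Ev_mul]
    ring
  rw [key i j, key j i]
  simp only [mul_left_comm, eq_comm]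

/-! ### second and third chaos -/

/-- Hermite form of degree two -/
def qd (S : ι → ι → ℝ) (g : ι → ℝ) : ℝ := ∑ i, (g i * li (S i) g - S i i)

theorem gr_qd {S : ι → ι → ℝ} (hS : ∀ i j, S i j = S j i) :
    Gr (qd S) fun l g => 2 * li (S l) g := by
  classical
  refine (Gr.sum Finset.univ fun i _ =>
    Gr.sub' ((gr_coord i).mul (gr_li (S i))) (Gr.const (S i i))).congr fun l g => ?_
  simp only [sub_zero, Finset.sum_add_distrib, ite_mul, one_mul, zero_mul, Finset.sum_ite_eq,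
    Finset.mem_univ, if_true]
  rw [two_mul]
  congr 1
  exact Finset.sum_congr rfl fun i _ => by rw [hS, mul_comm]

theorem Ev_mul_qd (h : Gr φ φ₁) {φ₂ : ι → ι → (ι → ℝ) → ℝ} (h2 : ∀ i, Gr (φ₁ i) (φ₂ i))
    (S : ι → ι → ℝ) : Ev (fun g => φ g * qd S g) = ∑ i, ∑ j, S i j * Ev (φ₂ i j) := by
  have h1 := adj h (F := fun i => li (S i)) (F₁ := fun i j _ => S i j) fun i => gr_li (S i)
  unfold qd
  rw [h1]
  exact Finset.sum_congr rfl fun i _ => Ev_mul_li (h2 i) _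

theorem Ev_qd (S : ι → ι → ℝ) : Ev (qd S) = 0 := by
  have := Ev_mul_qd (Gr.const (Ω := ι) 1) (φ₂ := fun _ _ _ => 0) (fun _ => Gr.const 0) S
  simpa [Ev_const] using this

theorem Ev_qd_sq {S : ι → ι → ℝ} (hS : ∀ i j, S i j = S j i) :
    Ev (fun g => qd S g ^ 2) = 2 * ∑ i, ∑ j, S i j ^ 2 := by
  have := Ev_mul_qd (gr_qd hS) (fun i => (gr_li (S i)).const_mul 2) S
  simp only [Ev_const, ← sq] at this
  rw [this, Finset.mul_sum]
  refine Finset.sum_congr rfl fun i _ => ?_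
  rw [Finset.mul_sum]
  exact Finset.sum_congr rfl fun j _ => by ring

/-- Hermite form of degree three -/
def cb (T : ι → ι → ι → ℝ) (g : ι → ℝ) : ℝ := ∑ i, (g i * qd (T i) g - 2 * li (T i i) g)

theorem gr_cb {T : ι → ι → ι → ℝ} (h1 : ∀ i j k, T i j k = T j i k) (h2 : ∀ i j k, T i j k = T i k j) :
    Gr (cb T) fun l g => 3 * qd (T l) g := by
  classical
  refine (Gr.sum Finset.univ fun i _ =>
    Gr.sub' ((gr_coord i).mul (gr_qd (h2 i))) ((gr_li (T i i)).const_mul 2)).congr fun l g => ?_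
  have e : ∀ i, (if l = i then (1 : ℝ) else 0) * qd (T i) g + g i * (2 * li (T i l) g) - 2 * T i i l =
      (if l = i then qd (T i) g else 0) + 2 * (g i * li (T l i) g - T l i i) := fun i => by
    have e1 : T i l = T l i := funext fun k => h1 i l k
    have e2 : T i i l = T l i i := by rw [h2 i i l, h1 i l i]
    rw [e1, e2]
    split_ifs <;> ring
  simp only [e, Finset.sum_add_distrib, Finset.sum_ite_eq, Finset.mem_univ, if_true,
    ← Finset.mul_sum]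
  unfold qd
  ring

theorem Ev_mul_cb (h : Gr φ φ₁) {φ₂ : ι → ι → (ι → ℝ) → ℝ} (h2 : ∀ i, Gr (φ₁ i) (φ₂ i))
    {φ₃ : ι → ι → ι → (ι → ℝ) → ℝ} (h3 : ∀ i j, Gr (φ₂ i j) (φ₃ i j)) {T : ι → ι → ι → ℝ}
    (hT : ∀ i j k, T i j k = T i k j) :
    Ev (fun g => φ g * cb T g) = ∑ i, ∑ j, ∑ k, T i j k * Ev (φ₃ i j k) := by
  have h1 := adj h (F := fun i => qd (T i)) (F₁ := fun i l g => 2 * li (T i l) g)
    fun i => gr_qd (hT i)
  unfold cb
  rw [h1]
  exact Finset.sum_congr rfl fun i _ => Ev_mul_qd (h2 i) (h3 i) _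

section tower
variable {u : (ι → ℝ) → ℝ} {u₁ : ι → (ι → ℝ) → ℝ} {u₂ : ι → ι → (ι → ℝ) → ℝ}
  {u₃ : ι → ι → ι → (ι → ℝ) → ℝ} {u₄ : ι → ι → ι → ι → (ι → ℝ) → ℝ}

theorem poinc0 (h : Gr u u₁) (e : Ev u = 0) : Ev (fun g => u g ^ 2) ≤ ∑ i, Ev fun g => u₁ i g ^ 2 := by
  have := poinc h
  rw [e] at this
  linarith

/-- chaos `0` and `1` vanish: `B0 ≤ B2` -/
theorem row_two (h : Gr u u₁) (h2 : ∀ i, Gr (u₁ i) (u₂ i)) (e0 : Ev u = 0) (e1 : ∀ i, Ev (u₁ i) = 0) :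
    Ev (fun g => u g ^ 2) ≤ ∑ i, ∑ j, Ev fun g => u₂ i j g ^ 2 :=
  (poinc0 h e0).trans (Finset.sum_le_sum fun i _ => poinc0 (h2 i) (e1 i))

theorem row_three (h : Gr u u₁) (h2 : ∀ i, Gr (u₁ i) (u₂ i)) (h3 : ∀ i j, Gr (u₂ i j) (u₃ i j))
    (e0 : Ev u = 0) (e1 : ∀ i, Ev (u₁ i) = 0) (e2 : ∀ i j, Ev (u₂ i j) = 0) :
    Ev (fun g => u g ^ 2) ≤ ∑ i, ∑ j, ∑ k, Ev fun g => u₃ i j k g ^ 2 :=
  (poinc0 h e0).trans (Finset.sum_le_sum fun i _ => row_two (h2 i) (h3 i) (e1 i) (e2 i))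

/-- mean and fluctuation -/
theorem lvl0 (h : Gr u u₁) : ∃ R, Ev (fun g => u g ^ 2) = Ev u ^ 2 + R ∧ 0 ≤ R ∧
    R ≤ ∑ i, Ev fun g => u₁ i g ^ 2 :=
  ⟨Ev (fun g => u g ^ 2) - Ev u ^ 2, by ring, sub_nonneg.2 (sq_Ev_le h.eg), poinc h⟩

/-- expansion when the first chaos vanishes -/
theorem lvl2 (h : Gr u u₁) (h2 : ∀ i, Gr (u₁ i) (u₂ i)) (h3 : ∀ i j, Gr (u₂ i j) (u₃ i j))
    (e1 : ∀ i, Ev (u₁ i) = 0) : ∃ R, Ev (fun g => u g ^ 2) =
      Ev u ^ 2 + (∑ i, ∑ j, Ev (u₂ i j) ^ 2) / 2 + R ∧ 0 ≤ R ∧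
      R ≤ ∑ i, ∑ j, ∑ k, Ev fun g => u₃ i j k g ^ 2 := by
  set S : ι → ι → ℝ := fun i j => Ev (u₂ i j) with hSd
  have hS : ∀ i j, S i j = S j i := Ev_symm h h2
  have hq := (Gr.const (Ω := ι) (Ev u)).add ((gr_qd hS).const_mul (1 / 2))
  have eq2 : Ev (fun g => (Ev u + 1 / 2 * qd S g) ^ 2) = Ev u ^ 2 + (∑ i, ∑ j, S i j ^ 2) / 2 := by
    have e : (fun g => (Ev u + 1 / 2 * qd S g) ^ 2) =
        fun g => Ev u ^ 2 + Ev u * qd S g + 1 / 4 * qd S g ^ 2 := funext fun g => by ring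
    rw [e, Ev_add ((Eg.const _).add ((gr_qd hS).eg.const_mul _)) (((gr_qd hS).eg.pow 2).const_mul _),
      Ev_add (Eg.const _) ((gr_qd hS).eg.const_mul _), Ev_mul, Ev_mul, Ev_qd, Ev_qd_sq hS, Ev_const]
    ring
  have eq1 : Ev (fun g => u g * (Ev u + 1 / 2 * qd S g)) =
      Ev u ^ 2 + (∑ i, ∑ j, S i j ^ 2) / 2 := by
    have e : (fun g => u g * (Ev u + 1 / 2 * qd S g)) =
        fun g => Ev u * u g + 1 / 2 * (u g * qd S g) := funext fun g => by ring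
    rw [e, Ev_add (h.eg.const_mul _) ((h.eg.mul (gr_qd hS).eg).const_mul _), Ev_mul, Ev_mul,
      Ev_mul_qd h h2]
    simp only [hSd, ← sq]
    ring
  refine ⟨_, (pyth h.eg hq.eg (eq1.trans eq2.symm)).trans (congrArg (· + _) eq2),
    Ev_nonneg fun _ => sq_nonneg _, ?_⟩
  have g1 : Gr (fun g => u g - (Ev u + 1 / 2 * qd S g)) fun l g => u₁ l g - li (S l) g :=
    (Gr.sub' h hq).congr fun l g => by ring
  have g2 : ∀ l, Gr (fun g => u₁ l g - li (S l) g) fun m g => u₂ l m g - S l m := fun l =>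
    Gr.sub' (h2 l) (gr_li _)
  have g3 : ∀ l m, Gr (fun g => u₂ l m g - S l m) (u₃ l m) := fun l m =>
    (Gr.sub' (h3 l m) (Gr.const _)).congr fun k g => by ring
  refine row_three g1 g2 g3 ?_ (fun l => ?_) fun l m => ?_
  · rw [Ev_sub h.eg hq.eg, Ev_add (Eg.const _) ((gr_qd hS).eg.const_mul _), Ev_mul, Ev_qd, Ev_const]
    ring
  · rw [Ev_sub (h.eg' l) (gr_li _).eg, e1, Ev_li, sub_zero]
  · rw [Ev_sub ((h2 l).eg' m) (Eg.const _), Ev_const, sub_self]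

/-- **row lemma, even case**: `|B0 - B2/2| ≤ B3` when chaos `0` and `1` vanish -/
theorem row_even (h : Gr u u₁) (h2 : ∀ i, Gr (u₁ i) (u₂ i)) (h3 : ∀ i j, Gr (u₂ i j) (u₃ i j))
    (e0 : Ev u = 0) (e1 : ∀ i, Ev (u₁ i) = 0) :
    |Ev (fun g => u g ^ 2) - (∑ i, ∑ j, Ev fun g => u₂ i j g ^ 2) / 2| ≤
      ∑ i, ∑ j, ∑ k, Ev fun g => u₃ i j k g ^ 2 := by
  obtain ⟨R, a1, a2, a3⟩ := lvl2 h h2 h3 e1
  choose V b1 b2 b3 using fun i j => lvl0 (h3 i j)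
  have c1 : ∑ i, ∑ j, Ev (fun g => u₂ i j g ^ 2) = ∑ i, ∑ j, Ev (u₂ i j) ^ 2 + ∑ i, ∑ j, V i j := by
    simp only [b1, Finset.sum_add_distrib]
  have c2 : 0 ≤ ∑ i, ∑ j, V i j := Finset.sum_nonneg fun i _ => Finset.sum_nonneg fun j _ => b2 i j
  have c3 : ∑ i, ∑ j, V i j ≤ ∑ i, ∑ j, ∑ k, Ev fun g => u₃ i j k g ^ 2 :=
    Finset.sum_le_sum fun i _ => Finset.sum_le_sum fun j _ => b3 i j
  rw [a1, c1, e0, abs_le]
  constructor <;> linarith

theorem Ev_symm3 (h : Gr u u₁) (h2 : ∀ i, Gr (u₁ i) (u₂ i)) (h3 : ∀ i j, Gr (u₂ i j) (u₃ i j))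
    (i j k : ι) : Ev (u₃ i j k) = Ev (u₃ j i k) := by
  classical
  have a := Ev_symm ((gr_coord k).mul h) (Ψ₂ := fun i j g => (if i = k then 1 else 0) * u₁ j g +
    ((if j = k then 1 else 0) * u₁ i g + g k * u₂ i j g))
    (fun i => (h.const_mul _).add ((gr_coord k).mul (h2 i))) i j
  rw [Ev_add ((h.eg' _).const_mul _) (((h.eg' _).const_mul _).add ((Eg.coord k).mul ((h2 _).eg' _))),
    Ev_add ((h.eg' _).const_mul _) ((Eg.coord k).mul ((h2 _).eg' _)),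
    Ev_add ((h.eg' _).const_mul _) (((h.eg' _).const_mul _).add ((Eg.coord k).mul ((h2 _).eg' _))),
    Ev_add ((h.eg' _).const_mul _) ((Eg.coord k).mul ((h2 _).eg' _)),
    Ev_stein (h3 i j), Ev_stein (h3 j i)] at a
  linarith

/-- expansion when chaos `0` and `2` vanish -/
theorem lvl3 (h : Gr u u₁) (h2 : ∀ i, Gr (u₁ i) (u₂ i)) (h3 : ∀ i j, Gr (u₂ i j) (u₃ i j))
    (h4 : ∀ i j k, Gr (u₃ i j k) (u₄ i j k)) (e0 : Ev u = 0) (e2 : ∀ i j, Ev (u₂ i j) = 0) :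
    ∃ R, Ev (fun g => u g ^ 2) =
      ∑ i, Ev (u₁ i) ^ 2 + (∑ i, ∑ j, ∑ k, Ev (u₃ i j k) ^ 2) / 6 + R ∧ 0 ≤ R ∧
      R ≤ ∑ i, ∑ j, ∑ k, ∑ l, Ev fun g => u₄ i j k l g ^ 2 := by
  set T : ι → ι → ι → ℝ := fun i j k => Ev (u₃ i j k) with hTd
  set a : ι → ℝ := fun i => Ev (u₁ i) with had
  have hT1 : ∀ i j k, T i j k = T j i k := Ev_symm3 h h2 h3
  have hT2 : ∀ i j k, T i j k = T i k j := fun i => Ev_symm (h2 i) (h3 i)
  have hc := gr_cb hT1 hT2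
  have hc2 : ∀ l, Gr (fun g => 3 * qd (T l) g) fun m g => 3 * (2 * li (T l m) g) := fun l =>
    (gr_qd (hT2 l)).const_mul 3
  have hc3 : ∀ l m, Gr (fun g => 3 * (2 * li (T l m) g)) fun k _ => 3 * (2 * T l m k) := fun l m =>
    ((gr_li _).const_mul 2).const_mul 3
  have hq := (gr_li a).add (hc.const_mul (1 / 6))
  have cc : Ev (fun g => cb T g ^ 2) = 6 * ∑ i, ∑ j, ∑ k, T i j k ^ 2 := by
    have := Ev_mul_cb hc hc2 hc3 hT2
    simp only [Ev_const, ← sq] at this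
    rw [this]
    simp only [Finset.mul_sum]
    exact Finset.sum_congr rfl fun i _ => Finset.sum_congr rfl fun j _ =>
      Finset.sum_congr rfl fun k _ => by ring
  have cl : Ev (fun g => cb T g * li a g) = 0 := by
    rw [Ev_mul_li hc]
    simp only [Ev_mul, Ev_qd, mul_zero, Finset.sum_const_zero]
  have c0 : Ev (cb T) = 0 := by
    have := Ev_mul_cb (Gr.const (Ω := ι) 1) (φ₂ := fun _ _ _ => 0) (fun _ => Gr.const 0)
      (φ₃ := fun _ _ _ _ => 0) (fun _ _ => Gr.const 0) hT2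
    simpa [Ev_const] using this
  have eq2 : Ev (fun g => (li a g + 1 / 6 * cb T g) ^ 2) =
      ∑ i, a i ^ 2 + (∑ i, ∑ j, ∑ k, T i j k ^ 2) / 6 := by
    have e : (fun g => (li a g + 1 / 6 * cb T g) ^ 2) =
        fun g => li a g ^ 2 + 1 / 3 * (cb T g * li a g) + 1 / 36 * cb T g ^ 2 :=
      funext fun g => by ring
    rw [e, Ev_add (((gr_li a).eg.pow 2).add ((hc.eg.mul (gr_li a).eg).const_mul _))
      ((hc.eg.pow 2).const_mul _), Ev_add ((gr_li a).eg.pow 2)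
      ((hc.eg.mul (gr_li a).eg).const_mul _), Ev_mul, Ev_mul, cl, cc, Ev_li_sq]
    ring
  have eq1 : Ev (fun g => u g * (li a g + 1 / 6 * cb T g)) =
      ∑ i, a i ^ 2 + (∑ i, ∑ j, ∑ k, T i j k ^ 2) / 6 := by
    have e : (fun g => u g * (li a g + 1 / 6 * cb T g)) =
        fun g => u g * li a g + 1 / 6 * (u g * cb T g) := funext fun g => by ring
    rw [e, Ev_add (h.eg.mul (gr_li a).eg) ((h.eg.mul hc.eg).const_mul _), Ev_mul,
      Ev_mul_cb h h2 h3 hT2, Ev_mul_li h]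
    simp only [hTd, had, ← sq]
    ring
  refine ⟨_, (pyth h.eg hq.eg (eq1.trans eq2.symm)).trans (congrArg (· + _) eq2),
    Ev_nonneg fun _ => sq_nonneg _, ?_⟩
  have g1 : Gr (fun g => u g - (li a g + 1 / 6 * cb T g))
      fun l g => u₁ l g - (a l + 1 / 2 * qd (T l) g) := (Gr.sub' h hq).congr fun l g => by ring
  have g2 : ∀ l, Gr (fun g => u₁ l g - (a l + 1 / 2 * qd (T l) g))
      fun m g => u₂ l m g - li (T l m) g := fun l =>
    (Gr.sub' (h2 l) ((Gr.const (a l)).add ((gr_qd (hT2 l)).const_mul (1 / 2)))).congr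
      fun m g => by ring
  have g3 : ∀ l m, Gr (fun g => u₂ l m g - li (T l m) g) fun k g => u₃ l m k g - T l m k :=
    fun l m => Gr.sub' (h3 l m) (gr_li _)
  have g4 : ∀ l m k, Gr (fun g => u₃ l m k g - T l m k) (u₄ l m k) := fun l m k =>
    (Gr.sub' (h4 l m k) (Gr.const _)).congr fun k g => by ring
  refine (poinc0 g1 ?_).trans (Finset.sum_le_sum fun l _ =>
    row_three (g2 l) (g3 l) (g4 l) ?_ (fun m => ?_) fun m k => ?_)
  · rw [Ev_sub h.eg hq.eg, Ev_add (gr_li a).eg (hc.eg.const_mul _), Ev_mul, c0, Ev_li, e0]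
    ring
  · rw [Ev_sub (h.eg' l) ((Eg.const _).add ((gr_qd (hT2 l)).eg.const_mul _)),
      Ev_add (Eg.const _) ((gr_qd (hT2 l)).eg.const_mul _), Ev_mul, Ev_qd, Ev_const]
    ring
  · rw [Ev_sub ((h2 l).eg' m) (gr_li _).eg, e2, Ev_li, sub_zero]
  · rw [Ev_sub ((h3 l m).eg' k) (Eg.const _), Ev_const, sub_self]

/-- **row lemma, odd case**: `|B0 - B1 + B3/3| ≤ 2 B4` when chaos `0` and `2` vanish -/
theorem row_odd (h : Gr u u₁) (h2 : ∀ i, Gr (u₁ i) (u₂ i)) (h3 : ∀ i j, Gr (u₂ i j) (u₃ i j))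
    (h4 : ∀ i j k, Gr (u₃ i j k) (u₄ i j k)) (e0 : Ev u = 0) (e2 : ∀ i j, Ev (u₂ i j) = 0) :
    |Ev (fun g => u g ^ 2) - (∑ i, Ev fun g => u₁ i g ^ 2) +
        (∑ i, ∑ j, ∑ k, Ev fun g => u₃ i j k g ^ 2) / 3| ≤
      2 * ∑ i, ∑ j, ∑ k, ∑ l, Ev fun g => u₄ i j k l g ^ 2 := by
  obtain ⟨R, a1, a2, a3⟩ := lvl3 h h2 h3 h4 e0 e2
  choose Q q1 q2 q3 using fun i => lvl2 (h2 i) (h3 i) (h4 i) (e2 i)
  choose V b1 b2 b3 using fun i j k => lvl0 (h4 i j k)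
  have d1 : ∑ i, Ev (fun g => u₁ i g ^ 2) = ∑ i, Ev (u₁ i) ^ 2 +
      (∑ i, ∑ j, ∑ k, Ev (u₃ i j k) ^ 2) / 2 + ∑ i, Q i := by
    simp only [q1, Finset.sum_add_distrib, Finset.sum_div]
  have d2 : 0 ≤ ∑ i, Q i := Finset.sum_nonneg fun i _ => q2 i
  have d3 : ∑ i, Q i ≤ ∑ i, ∑ j, ∑ k, ∑ l, Ev fun g => u₄ i j k l g ^ 2 :=
    Finset.sum_le_sum fun i _ => q3 i
  have c1 : ∑ i, ∑ j, ∑ k, Ev (fun g => u₃ i j k g ^ 2) =
      ∑ i, ∑ j, ∑ k, Ev (u₃ i j k) ^ 2 + ∑ i, ∑ j, ∑ k, V i j k := by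
    simp only [b1, Finset.sum_add_distrib]
  have c2 : 0 ≤ ∑ i, ∑ j, ∑ k, V i j k := Finset.sum_nonneg fun i _ =>
    Finset.sum_nonneg fun j _ => Finset.sum_nonneg fun k _ => b2 i j k
  have c3 : ∑ i, ∑ j, ∑ k, V i j k ≤ ∑ i, ∑ j, ∑ k, ∑ l, Ev fun g => u₄ i j k l g ^ 2 :=
    Finset.sum_le_sum fun i _ => Finset.sum_le_sum fun j _ => Finset.sum_le_sum fun k _ => b3 i j k
  rw [a1, c1, d1, abs_le]
  constructor <;> linarith

/-- odd functions have no chaos `0` -/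
theorem Ev_odd {f : (ι → ℝ) → ℝ} (ho : ∀ g, f (-g) = -f g) : Ev f = 0 := by
  have h1 : ∫ g, f (-g) ∂gv ι = ∫ g, f g ∂gv ι := by
    have : (gv ι).IsNegInvariant := by
      refine ⟨?_⟩
      have hm : MeasurePreserving (fun (g : ι → ℝ) i => -g i) (gv ι) (gv ι) :=
        measurePreserving_pi _ _ fun _ => ⟨measurable_neg, by
          simpa using ProbabilityTheory.gaussianReal_map_neg (μ := 0) (v := 1)⟩
      exact hm.map_eq
    exact integral_neg_eq_self f _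
  simp only [ho, integral_neg] at h1
  unfold Ev
  linarith

/-- odd functions have no chaos `2` -/
theorem Ev_odd2 (h : Gr u u₁) (h2 : ∀ i, Gr (u₁ i) (u₂ i)) (ho : ∀ g, u (-g) = -u g) (i j : ι) :
    Ev (u₂ i j) = 0 := by
  classical
  have a := Ev_stein ((gr_coord j).mul h) i
  rw [Ev_add (h.eg.const_mul _) ((Eg.coord j).mul (h.eg' i)), Ev_mul, Ev_stein (h2 i) j,
    Ev_odd ho, Ev_odd (f := fun g => g i * (g j * u g)) fun g => by simp [ho]] at a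
  linarith

/-- **row lemma for odd functions** -/
theorem row_odd' (h : Gr u u₁) (h2 : ∀ i, Gr (u₁ i) (u₂ i)) (h3 : ∀ i j, Gr (u₂ i j) (u₃ i j))
    (h4 : ∀ i j k, Gr (u₃ i j k) (u₄ i j k)) (ho : ∀ g, u (-g) = -u g) :
    |Ev (fun g => u g ^ 2) - (∑ i, Ev fun g => u₁ i g ^ 2) +
        (∑ i, ∑ j, ∑ k, Ev fun g => u₃ i j k g ^ 2) / 3| ≤
      2 * ∑ i, ∑ j, ∑ k, ∑ l, Ev fun g => u₄ i j k l g ^ 2 :=
  row_odd h h2 h3 h4 (Ev_odd ho) (Ev_odd2 h h2 ho)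

end tower

theorem Ev_cs (h : Eg Φ) (h' : Eg φ) :
    Ev (fun g => Φ g * φ g) ^ 2 ≤ Ev (fun g => Φ g ^ 2) * Ev fun g => φ g ^ 2 := by
  have key : ∀ t : ℝ, 0 ≤ Ev (fun g => φ g ^ 2) * (t * t) + 2 * Ev (fun g => Φ g * φ g) * t +
      Ev fun g => Φ g ^ 2 := fun t => by
    have h1 : 0 ≤ Ev fun g => (Φ g + t * φ g) ^ 2 := Ev_nonneg fun _ => sq_nonneg _
    have e : (fun g => (Φ g + t * φ g) ^ 2) =
        fun g => Φ g ^ 2 + 2 * t * (Φ g * φ g) + t ^ 2 * φ g ^ 2 := funext fun g => by ring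
    rw [e, Ev_add ((h.pow 2).add ((h.mul h').const_mul _)) ((h'.pow 2).const_mul _),
      Ev_add (h.pow 2) ((h.mul h').const_mul _), Ev_mul, Ev_mul] at h1
    linarith
  have := discrim_le_zero key
  unfold discrim at this
  nlinarith

/-- **`L⁴` Poincare inequality**, vector valued -/
theorem l4 {κ : Type*} [Fintype κ] {U : κ → (ι → ℝ) → ℝ} {U₁ : κ → ι → (ι → ℝ) → ℝ}
    (h : ∀ a, Gr (U a) (U₁ a)) (e0 : ∀ a, Ev (U a) = 0) :
    Ev (fun g => (∑ a, U a g ^ 2) ^ 2) ≤ 25 * Ev fun g => (∑ a, ∑ i, U₁ a i g ^ 2) ^ 2 := by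
  have hN : Gr (fun g => ∑ a, U a g ^ 2) fun i g => ∑ a, 2 * (U a g * U₁ a i g) := by
    have := Gr.sum Finset.univ fun a _ => (h a).mul (h a)
    simp only [← sq] at this
    exact this.congr fun i g => Finset.sum_congr rfl fun a _ => by ring
  have hD : Eg fun g => ∑ a, ∑ i, U₁ a i g ^ 2 :=
    Eg.sum _ fun a _ => Eg.sum _ fun i _ => ((h a).eg' i).pow 2
  have p1 := poinc hN
  have p2 : Ev (fun g => ∑ a, U a g ^ 2) ≤ Ev fun g => ∑ a, ∑ i, U₁ a i g ^ 2 := by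
    rw [Ev_sum _ fun a _ => (h a).eg.pow 2,
      Ev_sum _ fun a _ => Eg.sum _ fun i _ => ((h a).eg' i).pow 2]
    refine Finset.sum_le_sum fun a _ => ?_
    rw [Ev_sum _ fun i _ => ((h a).eg' i).pow 2]
    exact poinc0 (h a) (e0 a)
  have p3 := sq_Ev_le hD
  have p4 : ∑ i, Ev (fun g => (∑ a, 2 * (U a g * U₁ a i g)) ^ 2) ≤
      4 * Ev fun g => (∑ a, U a g ^ 2) * ∑ a, ∑ i, U₁ a i g ^ 2 := by
    rw [← Ev_sum _ fun i _ => (hN.eg' i).pow 2, ← Ev_mul]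
    refine Ev_mono (Eg.sum _ fun i _ => (hN.eg' i).pow 2) ((hN.eg.mul hD).const_mul 4) fun g => ?_
    rw [Finset.sum_comm, Finset.mul_sum, Finset.mul_sum]
    refine Finset.sum_le_sum fun i _ => ?_
    rw [← Finset.mul_sum, mul_pow]
    have := Finset.sum_mul_sq_le_sq_mul_sq Finset.univ (fun a => U a g) fun a => U₁ a i g
    linarith
  have p5 := Ev_cs hN.eg hD
  have n1 : 0 ≤ Ev fun g => ∑ a, U a g ^ 2 := Ev_nonneg fun g => by positivity
  have n2 : 0 ≤ Ev fun g => (∑ a, U a g ^ 2) ^ 2 := Ev_nonneg fun g => by positivity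
  have n3 : 0 ≤ Ev fun g => (∑ a, ∑ i, U₁ a i g ^ 2) ^ 2 := Ev_nonneg fun g => by positivity
  set A := Ev fun g => (∑ a, U a g ^ 2) ^ 2
  set B := Ev fun g => (∑ a, ∑ i, U₁ a i g ^ 2) ^ 2
  set P := Ev fun g => (∑ a, U a g ^ 2) * ∑ a, ∑ i, U₁ a i g ^ 2
  have p6 : A ≤ B + 4 * P := by nlinarith [pow_le_pow_left₀ n1 p2 2]
  have p7 : P ≤ A / 10 + 5 / 2 * B := by
    by_contra hc
    push Not at hc
    nlinarith [sq_nonneg (A / 10 - 5 / 2 * B)]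
  linarith

end Crest.Agent.T156.Row

end
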