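import Crest.Agent.T156.Sc_48

/-!
Row 156 (helper48): corollaries of `Sc_48`: tangent form, monotonicity of the gradient, vector form.
-/

set_option autoImplicit false

namespace Crest.Agent.T156.Sc48

open MeasureTheory ProbabilityTheory Filter Topology Set
open Crest.Agent.R339.B Crest.Agent.R339.Var

noncomputable section

theorem head_lev (θ : ℝ) : ∀ L : List (ℝ × ℝ × ℝ),
    headLv 1 (lev θ L) = (1 - θ) * headLv 1 (lev 0 L) + θ * headLv 1 (lev 1 L)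
  | [] => by simp [lev, headLv]
  | p :: L => by simp only [lev_cons, headLv]; ring

theorem adm_lev {θ : ℝ} (hθ0 : 0 ≤ θ) (hθ1 : θ ≤ 1) : ∀ {L : List (ℝ × ℝ × ℝ)},
    Adm 1 (lev 0 L) → Adm 1 (lev 1 L) → Adm 1 (lev θ L)
  | [], _, _ => trivial
  | p :: L, h0, h1 => by
    rw [lev_cons] at h0 h1 ⊢
    obtain ⟨a1, a2, a3, a4⟩ := h0
    obtain ⟨b1, b2, -, b4⟩ := h1
    simp only [zero_mul, add_zero, one_mul] at a1 a2 b1 b2
    refine ⟨?_, ?_, a3, adm_lev hθ0 hθ1 a4 b4⟩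
    · show 0 < p.1 + θ * p.2.1
      rcases le_total 0 p.2.1 with h | h <;> nlinarith
    · show p.1 + θ * p.2.1 ≤ _
      rw [head_lev]
      nlinarith [mul_le_mul_of_nonneg_left a2 (sub_nonneg.2 hθ1), mul_le_mul_of_nonneg_left b2 hθ0]

theorem adm_le : ∀ {l : List (ℝ × ℝ)}, Adm 1 l → ∀ q ∈ l, q.1 ≤ 1
  | [], _, q, hq => by simp at hq
  | p :: l, h, q, hq => by
    rcases List.mem_cons.1 hq with rfl | hq
    · exact h.2.1.trans h.2.2.2.head_le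
    · exact adm_le h.2.2.2 q hq

theorem hyp_of_adm {L : List (ℝ × ℝ × ℝ)} (h0 : Adm 1 (lev 0 L)) (h1 : Adm 1 (lev 1 L)) :
    ∀ p ∈ L, 0 < p.1 ∧ 0 < p.1 + p.2.1 ∧ |p.2.1| ≤ 1 := by
  intro p hp
  have m0 : (p.1 + 0 * p.2.1, p.2.2) ∈ lev 0 L := List.mem_map.2 ⟨p, hp, rfl⟩
  have m1 : (p.1 + 1 * p.2.1, p.2.2) ∈ lev 1 L := List.mem_map.2 ⟨p, hp, rfl⟩
  have a1 := (Adm.pos h0 _ m0).1
  have a2 := adm_le h0 _ m0
  have b1 := (Adm.pos h1 _ m1).1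
  have b2 := adm_le h1 _ m1
  simp only [zero_mul, add_zero, one_mul] at a1 a2 b1 b2
  exact ⟨a1, b1, abs_le.2 ⟨by linarith, by linarith⟩⟩

theorem TT_lev (θ : ℝ) : ∀ L : List (ℝ × ℝ × ℝ), TT (lev θ L) = TT (lev 0 L)
  | [] => rfl
  | p :: L => by rw [lev_cons, lev_cons, TT_cons, TT_cons, TT_lev θ L]

variable {L : List (ℝ × ℝ × ℝ)} {T : ℝ}

/-- strong convexity between two admissible profiles -/
theorem sconv_adm (h0 : Adm 1 (lev 0 L)) (h1 : Adm 1 (lev 1 L)) (hT : TT (lev 0 L) ≤ T) {θ : ℝ}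
    (hθ0 : 0 ≤ θ) (hθ1 : θ ≤ 1) :
    PhiL 1 (lev θ L) 0 ≤ (1 - θ) * PhiL 1 (lev 0 L) 0 + θ * PhiL 1 (lev 1 L) 0 -
      θ * (1 - θ) * (Real.exp (-14 * T) / 16 * RR L) :=
  sconv hθ0 hθ1 (hyp_of_adm h0 h1) (adm_lev hθ0 hθ1 h0 h1) ((TT_lev θ L).trans_le hT)

theorem slope_le {f : ℝ → ℝ} {f' c : ℝ} (hd : HasDerivAt f f' 0)
    (h : ∀ θ, 0 ≤ θ → θ ≤ 1 → f θ ≤ (1 - θ) * f 0 + θ * f 1 - θ * (1 - θ) * c) :
    f' + c ≤ f 1 - f 0 := by
  have t1 : Tendsto (slope f 0) (𝓝[>] 0) (𝓝 f') :=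
    (hasDerivAt_iff_tendsto_slope.1 hd).mono_left (nhdsGT_le_nhdsNE 0)
  have t2 : Tendsto (fun θ : ℝ => f 1 - f 0 - (1 - θ) * c) (𝓝[>] 0)
      (𝓝 (f 1 - f 0 - (1 - 0) * c)) :=
    (Continuous.tendsto (by fun_prop) 0).mono_left nhdsWithin_le_nhds
  have := le_of_tendsto_of_tendsto t1 t2 (by
    filter_upwards [Ioo_mem_nhdsGT (zero_lt_one' ℝ)] with θ hθ
    rw [slope_def_field, sub_zero, div_le_iff₀ hθ.1]
    have := h θ hθ.1.le hθ.2.le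
    linarith)
  linarith

theorem lev_hasDerivAt (h0 : Adm 1 (lev 0 L)) (x : ℝ) :
    HasDerivAt (fun t => PhiL 1 (lev t L) x) (wsum (fun s => QQ 1 (lev 0 L) s x) 0 L) 0 := by
  have hp : ∀ p ∈ L, 0 < p.1 ∧ 0 ≤ p.2.2 := fun p hp => by
    simpa using Adm.pos h0 _ (List.mem_map.2 ⟨p, hp, rfl⟩)
  obtain ⟨r, hr, hr'⟩ := exists_radius L fun p h => (hp p h).1
  obtain ⟨C, hC⟩ := PhiL_lev_hasDerivAt dmFormula one_pos L (fun p h => (hp p h).2) hr'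
  have h1 := (hC 0 (by simpa using hr)).1 x
  rwa [AA_eq dmFormula one_pos L (fun p h => (hp p h).2) (fun p h => (hp p h).1) x] at h1

/-- **tangent form**: `Φ(ζ¹) - Φ(ζ⁰) ≥ (1/2) ∫ (ζ¹ - ζ⁰) Γ⁰ + c ∫ D²` -/
theorem tangent (h0 : Adm 1 (lev 0 L)) (h1 : Adm 1 (lev 1 L)) (hT : TT (lev 0 L) ≤ T) :
    wsum (fun s => QQ 1 (lev 0 L) s 0) 0 L + Real.exp (-14 * T) / 16 * RR L ≤
      PhiL 1 (lev 1 L) 0 - PhiL 1 (lev 0 L) 0 :=
  slope_le (f := fun t => PhiL 1 (lev t L) 0) (lev_hasDerivAt h0 0)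
    fun _ a b => sconv_adm h0 h1 hT a b

/-- the reversed path -/
def rv (L : List (ℝ × ℝ × ℝ)) : List (ℝ × ℝ × ℝ) := L.map fun p => (p.1 + p.2.1, -p.2.1, p.2.2)

theorem rv_cons (p : ℝ × ℝ × ℝ) (L : List (ℝ × ℝ × ℝ)) :
    rv (p :: L) = (p.1 + p.2.1, -p.2.1, p.2.2) :: rv L := rfl

theorem lev_rv (t : ℝ) : ∀ L : List (ℝ × ℝ × ℝ), lev t (rv L) = lev (1 - t) L
  | [] => rfl
  | p :: L => by
    rw [rv_cons, lev_cons, lev_cons, lev_rv t L]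
    congr 2
    ring

theorem DD_rv : ∀ L : List (ℝ × ℝ × ℝ), DD (rv L) = -DD L
  | [] => by simp [rv, DD]
  | p :: L => by rw [rv_cons]; simp only [DD, DD_rv L]; ring

theorem RR_rv : ∀ L : List (ℝ × ℝ × ℝ), RR (rv L) = RR L
  | [] => rfl
  | p :: L => by rw [rv_cons]; simp only [RR, DD_rv L, RR_rv L]; ring

theorem wsum_rv (q : ℝ → ℝ) : ∀ (L : List (ℝ × ℝ × ℝ)) (t : ℝ), wsum q t (rv L) = -wsum q t L
  | [], _ => by simp [rv, wsum]
  | p :: L, t => by rw [rv_cons]; simp only [wsum, wsum_rv q L]; ring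

/-- tangent form at the other end -/
theorem tangent' (h0 : Adm 1 (lev 0 L)) (h1 : Adm 1 (lev 1 L)) (hT : TT (lev 0 L) ≤ T) :
    PhiL 1 (lev 1 L) 0 - PhiL 1 (lev 0 L) 0 + Real.exp (-14 * T) / 16 * RR L ≤
      wsum (fun s => QQ 1 (lev 1 L) s 0) 0 L := by
  have e0 : lev 0 (rv L) = lev 1 L := by rw [lev_rv, sub_zero]
  have e1 : lev 1 (rv L) = lev 0 L := by rw [lev_rv, sub_self]
  have := tangent (L := rv L) (T := T) (e0 ▸ h1) (e1 ▸ h0) (by rw [e0, TT_lev]; exact hT)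
  rw [e0, e1, RR_rv, wsum_rv] at this
  linarith

/-- **monotone gradient**: `(1/2) ∫ (ζ¹ - ζ⁰)(Γ¹ - Γ⁰) ≥ (e^{-14T}/8) ∫ D²` -/
theorem grad_mono (h0 : Adm 1 (lev 0 L)) (h1 : Adm 1 (lev 1 L)) (hT : TT (lev 0 L) ≤ T) :
    Real.exp (-14 * T) / 8 * RR L ≤
      wsum (fun s => QQ 1 (lev 1 L) s 0) 0 L - wsum (fun s => QQ 1 (lev 0 L) s 0) 0 L := by
  have a := tangent h0 h1 hT
  have b := tangent' h0 h1 hT
  linarith

/-! ### vector form -/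

/-- the path from `x` to `y` on slices `v` -/
def pth {K : ℕ} (x y v : Fin K → ℝ) : List (ℝ × ℝ × ℝ) := List.ofFn fun k => (x k, y k - x k, v k)

theorem lev_pth {K : ℕ} (t : ℝ) (x y v : Fin K → ℝ) :
    lev t (pth x y v) = List.ofFn fun k => ((1 - t) * x k + t * y k, v k) := by
  unfold lev pth
  rw [List.map_ofFn]
  congr 1
  funext k
  simp only [Function.comp]
  congr 1
  ring

theorem DD_pth : ∀ {K : ℕ} (x y v : Fin K → ℝ), DD (pth x y v) = ∑ k, (y k - x k) * v k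
  | 0, _, _, _ => by simp [pth, DD]
  | K + 1, x, y, v => by
    have ih := DD_pth (fun k : Fin K => x k.succ) (fun k => y k.succ) (fun k => v k.succ)
    unfold pth at ih ⊢
    rw [List.ofFn_succ, Fin.sum_univ_succ]
    simp only [DD, ih]
    ring

theorem NN_pth : ∀ {K : ℕ} (x y v : Fin K → ℝ), NN (pth x y v) =
    ∑ k, v k * ((∑ j, if k ≤ j then (y j - x j) * v j else 0) ^ 2 +
      (∑ j, if k < j then (y j - x j) * v j else 0) ^ 2)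
  | 0, _, _, _ => by simp [pth, NN]
  | K + 1, x, y, v => by
    have ih := NN_pth (fun k : Fin K => x k.succ) (fun k => y k.succ) (fun k => v k.succ)
    have d := DD_pth (fun k : Fin K => x k.succ) (fun k => y k.succ) (fun k => v k.succ)
    unfold pth at ih d ⊢
    rw [List.ofFn_succ, Fin.sum_univ_succ]
    simp only [NN, DD, ih, d, Fin.sum_univ_succ, Fin.zero_le, if_true, lt_self_iff_false,
      if_false, Fin.succ_pos, Fin.succ_le_succ_iff, Fin.succ_lt_succ_iff, Fin.not_lt_zero,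
      Fin.le_zero_iff, Fin.succ_ne_zero, zero_add]
    ring

theorem adm_ofFn' : ∀ {K : ℕ} {m v : Fin K → ℝ}, Monotone m → (∀ k, 0 < m k) → (∀ k, m k ≤ 1) →
    (∀ k, 0 ≤ v k) → Adm 1 (List.ofFn fun k => (m k, v k))
  | 0, _, _, _, _, _, _ => by simp [Adm]
  | K + 1, m, v, hm, h0, hβ, hv => by
    rw [List.ofFn_succ]
    have ih := adm_ofFn' (m := fun k : Fin K => m k.succ) (v := fun k : Fin K => v k.succ)
      (fun i j hij => hm (Fin.succ_le_succ_iff.2 hij)) (fun k => h0 _) (fun k => hβ _)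
      (fun k => hv _)
    refine ⟨h0 0, ?_, hv 0, ih⟩
    cases K with
    | zero => simpa [headLv] using hβ 0
    | succ K =>
      rw [List.ofFn_succ]
      exact hm (Fin.zero_le _)

theorem TT_ofFn {K : ℕ} (m v : Fin K → ℝ) : TT (List.ofFn fun k => (m k, v k)) = ∑ k, v k := by
  unfold TT
  rw [List.map_ofFn, List.sum_ofFn]
  rfl

/-- **vector form** -/
theorem sconv_vec {K : ℕ} {x y v : Fin K → ℝ} (hx : Monotone x) (hy : Monotone y)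
    (hx0 : ∀ k, 0 < x k) (hx1 : ∀ k, x k ≤ 1) (hy0 : ∀ k, 0 < y k) (hy1 : ∀ k, y k ≤ 1)
    (hv : ∀ k, 0 ≤ v k) (hT : ∑ k, v k ≤ T) {θ : ℝ} (hθ0 : 0 ≤ θ) (hθ1 : θ ≤ 1) :
    PhiL 1 (List.ofFn fun k => ((1 - θ) * x k + θ * y k, v k)) 0 ≤
      (1 - θ) * PhiL 1 (List.ofFn fun k => (x k, v k)) 0 +
        θ * PhiL 1 (List.ofFn fun k => (y k, v k)) 0 -
        θ * (1 - θ) * (Real.exp (-14 * T) / 96 *
          ∑ k, v k * ((∑ j, if k ≤ j then (y j - x j) * v j else 0) ^ 2 +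
            (∑ j, if k < j then (y j - x j) * v j else 0) ^ 2)) := by
  have e0 : lev 0 (pth x y v) = List.ofFn fun k => (x k, v k) := by simp [lev_pth]
  have e1 : lev 1 (pth x y v) = List.ofFn fun k => (y k, v k) := by simp [lev_pth]
  have h0 : Adm 1 (lev 0 (pth x y v)) := e0 ▸ adm_ofFn' hx hx0 hx1 hv
  have h1 : Adm 1 (lev 1 (pth x y v)) := e1 ▸ adm_ofFn' hy hy0 hy1 hv
  have := sconv_NN hθ0 hθ1 (hyp_of_adm h0 h1) (adm_lev hθ0 hθ1 h0 h1) (T := T)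
    (by rw [TT_lev, e0, TT_ofFn]; exact hT)
  rwa [e0, e1, lev_pth, NN_pth] at this

end

end Crest.Agent.T156.Sc48
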