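import Crest.Agent.T156.Ent_68
import Crest.Agent.T156.CaHess_87
import Crest.Agent.T156.CaRow_90
import Crest.Agent.T156.Crv_56

/-!
# Row 156 (helper90): the scaling symmetry

Tilts `λ m`, features `A / λ`, state `h / λ`: the value is `1 / λ` times the value of the original
cascade with the thermal exponent `1 / λ`; the thermal exponent costs the entropy at the last node.
-/

set_option autoImplicit false
set_option linter.unusedSectionVars false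

noncomputable section

namespace Crest.Agent.T156.Cas

open MeasureTheory Real Set Filter Topology
open Crest.Agent.T157.E Crest.Agent.T157.Casc Crest.Agent.T157.SL
open Crest.Agent.T157.Casc.C (Same)

variable {Ω : Type} [Fintype Ω] {w : Ω → ℝ} {lam : ℝ}

/-- features divided by `λ`, tilt multiplied by `λ` -/
abbrev scl (lam : ℝ) (l : Lv Ω) : Lv Ω := ⟨l.ι, fun x i => lam⁻¹ * l.A x i, lam * l.m⟩

/-- the terminal value with thermal exponent `1 / λ` -/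
def YT (w : Ω → ℝ) (lam : ℝ) (z : Ω → ℝ) : ℝ := lam * X w [] (lam⁻¹ • z)

namespace Scl

omit [Fintype Ω] in
theorem cov (lam : ℝ) (l : Lv Ω) (x y : Ω) : (scl lam l).cov x y = l.cov x y / lam ^ 2 := by
  simp only [Lv.cov, Finset.sum_div]
  exact Finset.sum_congr rfl fun i _ => by ring

omit [Fintype Ω] in
theorem add_fld (lam : ℝ) (l : Lv Ω) (h : Ω → ℝ) (g : l.ι → ℝ) :
    lam⁻¹ • h + (scl lam l).fld g = lam⁻¹ • (h + l.fld g) := by
  funext x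
  simp only [Lv.fld, Pi.add_apply, Pi.smul_apply, smul_eq_mul, mul_add, Finset.mul_sum, mul_assoc]

omit [Fintype Ω] in
theorem step_scl (hl : lam ≠ 0) (l : Lv Ω) (F : (Ω → ℝ) → ℝ) (h : Ω → ℝ) :
    lam * step (scl lam l) F (lam⁻¹ • h) = step l (fun z => lam * F (lam⁻¹ • z)) h := by
  by_cases hm : l.m = 0
  · rw [step, step, if_pos hm, if_pos (show lam * l.m = 0 by rw [hm, mul_zero]),
      integral_const_mul]
    simp only [add_fld]
  · rw [step, step, if_neg hm, if_neg (show ¬lam * l.m = 0 from mul_ne_zero hl hm)]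
    simp only [add_fld, mul_left_comm l.m lam, mul_assoc]
    rw [mul_inv, ← mul_assoc, ← mul_assoc, mul_inv_cancel₀ hl, one_mul]

omit [Fintype Ω] in
theorem tE_scl (lam : ℝ) (l : Lv Ω) (F Φ : (Ω → ℝ) → ℝ) (h : Ω → ℝ) :
    tE (scl lam l) F Φ (lam⁻¹ • h) =
      tE l (fun z => lam * F (lam⁻¹ • z)) (fun z => Φ (lam⁻¹ • z)) h := by
  simp only [tE, add_fld, mul_left_comm l.m lam, mul_assoc]

theorem le_X_nil (hw : Wt w) (z : Ω → ℝ) {x : Ω} (hx : w x = 1) : z x ≤ X w [] z := by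
  refine exp_le_exp.1 ?_
  rw [C.exp_X_nil hw, ← one_mul (exp (z x)), ← hx]
  exact Finset.single_le_sum (f := fun x => w x * exp (z x))
    (fun y _ => mul_nonneg (hw.nn y) (exp_pos _).le) (Finset.mem_univ x)

theorem lg_YT (hw : Wt w) (lam : ℝ) : Lg (YT w lam) :=
  Tr.lg_cmul lam (Tr.lg_comp (lg_X hw []) fun y => Tr.lg_cmul lam⁻¹ (Tr.lg_coord y))

theorem YT_le (hw : Wt w) (h01 : ∀ x, w x = 0 ∨ w x = 1) (h0 : 0 < lam) (h1 : lam ≤ 1)
    (z : Ω → ℝ) : YT w lam z ≤ X w [] z := by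
  have h2 : 0 ≤ lam⁻¹ - 1 := sub_nonneg.2 (one_le_inv_iff₀.2 ⟨h0, h1⟩)
  rw [YT, ← le_inv_mul_iff₀ h0]
  refine exp_le_exp.1 ?_
  rw [show lam⁻¹ * X w [] z = X w [] z + (lam⁻¹ - 1) * X w [] z by ring, exp_add,
    C.exp_X_nil hw, C.exp_X_nil hw z, Finset.sum_mul]
  refine Finset.sum_le_sum fun x _ => ?_
  rcases h01 x with hx | hx
  · simp [hx]
  · rw [mul_assoc, ← exp_add]
    refine mul_le_mul_of_nonneg_left (exp_le_exp.2 ?_) (hw.nn x)
    have := mul_le_mul_of_nonneg_left (le_X_nil hw z hx) h2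
    simp only [Pi.smul_apply, smul_eq_mul]
    linarith

theorem le_YT (hw : Wt w) (h01 : ∀ x, w x = 0 ∨ w x = 1) (h0 : 0 < lam) (z : Ω → ℝ) :
    Pf w [] z z ≤ YT w lam z := by
  rw [← one_mul (YT w lam z), ← sum_P hw [] z, Finset.sum_mul]
  refine Finset.sum_le_sum fun x _ => ?_
  rcases h01 x with hx | hx
  · simp [P, prob, hx]
  · refine mul_le_mul_of_nonneg_left ?_ (P_nonneg hw [] z x)
    rw [YT, ← inv_mul_le_iff₀ h0]
    exact le_X_nil hw (lam⁻¹ • z) hx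

theorem nodeT_nonneg (F : (Ω → ℝ) → ℝ) {Φ : (Ω → ℝ) → ℝ} (h : ∀ z, 0 ≤ Φ z) :
    ∀ (M : List (Lv Ω)) (z : Ω → ℝ), 0 ≤ nodeT F M Φ z
  | [], z => h z
  | _ :: M, _ => div_nonneg (integral_nonneg fun _ => mul_nonneg (exp_pos _).le
      (nodeT_nonneg F h M _)) (integral_nonneg fun _ => (exp_pos _).le)

end Scl

/-- **exact scaling** -/
theorem X_scl (w : Ω → ℝ) (hl : lam ≠ 0) : ∀ (L : List (Lv Ω)) (h : Ω → ℝ),
    lam * X w (L.map (scl lam)) (lam⁻¹ • h) = XT (YT w lam) L h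
  | [], _ => rfl
  | l :: L, h => (Scl.step_scl hl l _ h).trans
      (congrArg (fun F => step l F h) (funext (X_scl w hl L)))

theorem node_scl (w : Ω → ℝ) (hl : lam ≠ 0) (Φ : (Ω → ℝ) → ℝ) : ∀ (L : List (Lv Ω)) (h : Ω → ℝ),
    node w (L.map (scl lam)) L.length Φ (lam⁻¹ • h) =
      nodeT (YT w lam) L (fun z => Φ (lam⁻¹ • z)) h
  | [], _ => rfl
  | l :: L, h => (Scl.tE_scl lam l _ _ h).trans (by
      rw [funext (X_scl w hl L), funext (node_scl w hl Φ L)]; rfl)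

/-- **the scaling symmetry up to the entropy at the last node** -/
theorem X_scl_le (hw : Wt w) (h01 : ∀ x, w x = 0 ∨ w x = 1) (h0 : 0 < lam) (h1 : lam ≤ 1)
    {L : List (Lv Ω)} (hL : ∀ l ∈ L, 0 ≤ l.m) (h : Ω → ℝ) :
    X w L h - node w L L.length (Gir68.Sn w) h ≤ lam * X w (L.map (scl lam)) (lam⁻¹ • h) ∧
      lam * X w (L.map (scl lam)) (lam⁻¹ • h) ≤ X w L h := by
  have e : X w L = XT (X w []) L := by rw [← Hess87.X_append, List.append_nil]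
  have hY := Scl.lg_YT hw lam
  rw [X_scl w h0.ne']
  constructor
  · have h2 := Hess87.XT_ge (lg_X hw []) hY L h hL
    rw [← e, ← Hess87.node_append, List.append_nil] at h2
    have h3 := node_mono hw ((Gir68.eg_Sn hw).const_mul (-1)) (hY.eg.sub (lg_X hw []).eg)
      (fun z => by have := Scl.le_YT hw h01 h0 z; simp only [Gir68.Sn]; linarith) L L.length h
    rw [node_const_mul] at h3
    linarith
  · have h2 := Hess87.XT_ge hY (lg_X hw []) L h hL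
    have h3 := Scl.nodeT_nonneg (YT w lam) (Φ := fun z => X w [] z - YT w lam z)
      (fun z => sub_nonneg.2 (Scl.YT_le hw h01 h0 h1 z)) L h
    rw [← e] at h2
    linarith

theorem abs_X_scl_le (hw : Wt w) (h01 : ∀ x, w x = 0 ∨ w x = 1) (h0 : 0 < lam) (h1 : lam ≤ 1)
    {L L' : List (Lv Ω)} (hL : ∀ l ∈ L, 0 ≤ l.m) (H : List.Forall₂ Same L' (L.map (scl lam)))
    (h : Ω → ℝ) : |lam * X w L' (lam⁻¹ • h) - X w L h| ≤ node w L L.length (Gir68.Sn w) h := by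
  have h2 := X_scl_le hw h01 h0 h1 hL h
  have h3 := node_nonneg w (Gir68.Sn_nonneg hw h01) L L.length h
  rw [C.X_same hw H, abs_le]
  constructor <;> linarith [h2.1, h2.2]

/-- on the cube, after a reveal slice of variance `U` -/
theorem abs_X_scl_cube (n : ℕ) (h0 : 0 < lam) (h1 : lam ≤ 1) {U : ℝ} (hU : 0 ≤ U)
    {L L' : List (Lv (Cube n))} (hL : ∀ l ∈ L, 0 ≤ l.m)
    (H : List.Forall₂ Same L' ((L ++ [T157.G1.fl n 1 (1, U)]).map (scl lam))) (h : Cube n → ℝ) :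
    |lam * X (fun _ => 1) L' (lam⁻¹ • h) - X (fun _ => 1) (L ++ [T157.G1.fl n 1 (1, U)]) h| ≤
      2 * ((1 + exp (-U / 2)) ^ n - 1) := by
  refine (abs_X_scl_le wt_one90 (fun _ => .inr rfl) h0 h1 (fun l hl => ?_) H h).trans ?_
  · rcases List.mem_append.1 hl with hl | hl
    · exact hL l hl
    · rw [List.mem_singleton.1 hl]; exact zero_le_one
  · rw [List.length_append, List.length_singleton]
    exact (Gir68.node_Sn_cube n hU L h).2

/-- the mixed levels are carried to mixed levels -/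
theorem same_scl_mxL {n : ℕ} (hn : 0 < n) (β lam : ℝ) {p : ℝ × ℝ × ℝ} (hd : 0 ≤ p.2.1)
    (hf : 0 ≤ p.2.2) :
    Same (mxL n β (lam * p.1, p.2.1 / lam ^ 2, p.2.2 / lam ^ 2)) (scl lam (mxL n β p)) :=
  ⟨rfl, by
    funext x y
    rw [Scl.cov, mxL_cov hn β hd hf, mxL_cov hn β (div_nonneg hd (sq_nonneg _))
      (div_nonneg hf (sq_nonneg _))]
    ring⟩

/-- the ratio of the scales -/
def lmb (n n' : ℕ) : ℝ := (n' : ℝ) ^ (-(1 : ℝ) / 6) / (n : ℝ) ^ (-(1 : ℝ) / 6)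

theorem lmb_pos {n n' : ℕ} (hn : 0 < n) (hn' : 0 < n') : 0 < lmb n n' :=
  div_pos (rpow_pos_of_pos (Nat.cast_pos.2 hn') _) (rpow_pos_of_pos (Nat.cast_pos.2 hn) _)

theorem lmb_le_one {n n' : ℕ} (hn : 0 < n) (h : n ≤ n') : lmb n n' ≤ 1 :=
  (div_le_one (rpow_pos_of_pos (Nat.cast_pos.2 hn) _)).2
    (rpow_le_rpow_of_nonpos (Nat.cast_pos.2 hn) (Nat.cast_le.2 h) (by norm_num))

theorem lmb_mul {n : ℕ} (hn : 0 < n) (n' : ℕ) :
    lmb n n' * (n : ℝ) ^ (-(1 : ℝ) / 6) = (n' : ℝ) ^ (-(1 : ℝ) / 6) :=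
  div_mul_cancel₀ _ (rpow_pos_of_pos (Nat.cast_pos.2 hn) _).ne'

theorem lmb_pow {n n' : ℕ} (hn : 0 < n) (hn' : 0 < n') : lmb n n' ^ 6 = n / n' := by
  have e : ∀ m : ℕ, ((m : ℝ) ^ (-(1 : ℝ) / 6)) ^ 6 = (m : ℝ)⁻¹ := fun m => by
    rw [← rpow_natCast, ← rpow_mul (Nat.cast_nonneg m), ← rpow_neg_one]
    norm_num
  have h1 : (n : ℝ) ≠ 0 := Nat.cast_ne_zero.2 hn.ne'
  have h2 : (n' : ℝ) ≠ 0 := Nat.cast_ne_zero.2 hn'.ne'
  rw [lmb, div_pow, e, e]
  field_simp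

/-- **the curve at scale `n` is the curve of the scaled model at scale `n'`** -/
theorem crv_scl (hw : Wt w) (h01 : ∀ x, w x = 0 ∨ w x = 1) {n n' : ℕ} (hn : 0 < n) (hn' : n ≤ n')
    (l : Lv Ω) {L : List (Lv Ω)} (hL : ∀ l ∈ L, 0 ≤ l.m) (h : Ω → ℝ) {s₁ s E : ℝ} (hs₁ : 0 ≤ s₁)
    (hs : 0 ≤ s) (hE : ∀ a, 0 ≤ a → node w (rt l a :: L) (L.length + 1) (Gir68.Sn w) h ≤ E) :
    |crv n' s₁ w (scl (lmb n n') l) (L.map (scl (lmb n n'))) ((lmb n n')⁻¹ • h) s -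
      crv n s₁ w l L h s| ≤ (n : ℝ) ^ (-(1 : ℝ) / 6) * E := by
  have h0 := lmb_pos hn (hn.trans_le hn')
  have he : 0 < (n : ℝ) ^ (-(1 : ℝ) / 6) := rpow_pos_of_pos (Nat.cast_pos.2 hn) _
  have key : ∀ u, 0 ≤ u → X w (rt l (u * (n : ℝ) ^ (-(1 : ℝ) / 6)) :: L) h - E ≤ lmb n n' *
      X w (rt (scl (lmb n n') l) (u * (n' : ℝ) ^ (-(1 : ℝ) / 6)) :: L.map (scl (lmb n n')))
        ((lmb n n')⁻¹ • h) ∧ lmb n n' *
      X w (rt (scl (lmb n n') l) (u * (n' : ℝ) ^ (-(1 : ℝ) / 6)) :: L.map (scl (lmb n n')))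
        ((lmb n n')⁻¹ • h) ≤ X w (rt l (u * (n : ℝ) ^ (-(1 : ℝ) / 6)) :: L) h := fun u hu => by
    have h2 := X_scl_le hw h01 h0 (lmb_le_one hn hn')
      (L := rt l (u * (n : ℝ) ^ (-(1 : ℝ) / 6)) :: L) (fun l' hl => by
        rcases List.mem_cons.1 hl with rfl | hl
        · exact mul_nonneg hu he.le
        · exact hL l' hl) h
    have h3 := hE _ (mul_nonneg hu he.le)
    rw [← lmb_mul hn n', mul_left_comm]
    exact ⟨le_trans (sub_le_sub_left h3 _) h2.1, h2.2⟩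
  have h1 := key s hs
  have h2 := key s₁ hs₁
  have e : ∀ a b : ℝ, (n' : ℝ) ^ (-(1 : ℝ) / 6) * a - (n : ℝ) ^ (-(1 : ℝ) / 6) * b =
      (n : ℝ) ^ (-(1 : ℝ) / 6) * (lmb n n' * a - b) := fun a b => by
    rw [← lmb_mul hn n']; ring
  rw [crv, crv, e, abs_mul, abs_of_pos he]
  refine mul_le_mul_of_nonneg_left (abs_le.2 ⟨?_, ?_⟩) he.le <;> rw [mul_sub] <;>
    linarith [h1.1, h1.2, h2.1, h2.2]

end Crest.Agent.T156.Cas

end
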