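import Crest.Agent.T156.Seg_56

/-!
# Row 156: the segment lemma with budgets in variance form (helper56)
-/

set_option autoImplicit false
set_option linter.unusedSectionVars false

noncomputable section

namespace Crest.Agent.T156.Cas.Seg56

open MeasureTheory Real Set Filter Topology
open Crest.Agent.T157.E Crest.Agent.T157.Casc Crest.Agent.T157.SL
open Crest.Agent.T157.G1 (ov fl FL)
open Crest.Agent.T156.Cas.Lp12 Crest.Agent.T156.Cas.Sy41 Crest.Agent.T156.Cas.Q33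
open Crest.Agent.T156.Alt.Sd56

variable {Ω : Type} [Fintype Ω] {w : Ω → ℝ} {L : ℝ → List (Lv Ω)} {N : ℕ} {D : ℕ → Ω → Ω → ℝ}

/-- the path functional `∑_{j ∈ S} dm_j G_j (ρ_j)` -/
def FS (w : Ω → ℝ) (M : List (Lv Ω)) (l₀ : Lv Ω) (S : Finset ℕ) (G : ℕ → ℝ → ℝ) (p : Pth Ω) : ℝ :=
  ∑ j ∈ S, dm M 0 j * G j (rr w (M.drop j) l₀ (p j))

/-- variance under the path law -/
def Vr (w : Ω → ℝ) (M : List (Lv Ω)) (h : Ω → ℝ) (F : Pth Ω → ℝ) : ℝ :=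
  EE w M h (fun p => F p ^ 2) - EE w M h F ^ 2

theorem ep_FS (hw : Wt w) (M : List (Lv Ω)) (l₀ : Lv Ω) (S : Finset ℕ) {G : ℕ → ℝ → ℝ}
    (hG : ∀ j, Continuous (G j)) : EP (FS w M l₀ S G) :=
  EP.sum S fun j _ => (EP.state (eg_comp_rr hw _ l₀ (hG j)) j).const_mul _

theorem EE_FS (hw : Wt w) (M : List (Lv Ω)) (h : Ω → ℝ) (l₀ : Lv Ω) (S : Finset ℕ)
    {G : ℕ → ℝ → ℝ} (hG : ∀ j, Continuous (G j)) : EE w M h (FS w M l₀ S G) =
      ∑ j ∈ S, dm M 0 j * node w M j (fun z => G j (rr w (M.drop j) l₀ z)) h := by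
  unfold FS
  rw [EE_sum hw _ _ S fun j _ => (EP.state (eg_comp_rr hw _ l₀ (hG j)) j).const_mul _]
  exact Finset.sum_congr rfl fun j _ => by
    rw [EE_const_mul, EE_node hw fun z => G j (rr w (M.drop j) l₀ z)]

theorem FS_root (l l₀ : Lv Ω) (U : List (Lv Ω)) (s s' : ℝ) {S : Finset ℕ} (hS : ∀ j ∈ S, 2 ≤ j)
    (G : ℕ → ℝ → ℝ) : FS w (rt l s :: U) l₀ S G = FS w (rt l s' :: U) l₀ S G := by
  funext p
  refine Finset.sum_congr rfl fun j hj => ?_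
  obtain ⟨i, rfl⟩ := Nat.exists_eq_add_of_le' (hS j hj)
  rfl

theorem Vr_eq (hw : Wt w) (M : List (Lv Ω)) (h : Ω → ℝ) {F : Pth Ω → ℝ} (hF : EP F) :
    Vr w M h F = EE w M h fun p => (F p - EE w M h F) ^ 2 := by
  rw [EE_sq_sub hw M h hF, Vr]; ring

/-- the same in the `pE` frame -/
theorem Vr_pE (hw : Wt w) (M : List (Lv Ω)) (h : Ω → ℝ) {F : Pth Ω → ℝ} (hF : EP F) :
    Vr w M h F = pE w M h (fun g _ => F (fun j => st M j h g) ^ 2) -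
      pE w M h (fun g _ => F fun j => st M j h g) ^ 2 := by
  rw [Vr, EE_eq hw M h (hF.pow 2), EE_eq hw M h hF]

theorem mo_of_Vr (hw : Wt w) {M : List (Lv Ω)} {h : Ω → ℝ} {F : Pth Ω → ℝ} (hF : EP F) {V : ℝ}
    (h0 : 0 ≤ V) (hV : Vr w M h F ≤ V ^ 2) : Mo w M h 2 (fun p => F p - EE w M h F) V :=
  ⟨hF.sub (EP.const _), h0, by simpa only [sq_abs, ← Vr_eq hw M h hF] using hV⟩

theorem Vr_le_mo (hw : Wt w) {M : List (Lv Ω)} {h : Ω → ℝ} {F : Pth Ω → ℝ} (hF : EP F) {V c : ℝ}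
    (H : Mo w M h 2 (fun p => F p - c) V) : Vr w M h F ≤ V ^ 2 := by
  rw [Vr_eq hw M h hF]
  exact (var_le hw M h hF c).trans (by simpa only [sq_abs] using H.le)

/-- standard deviations add -/
theorem Vr_add (hw : Wt w) {M : List (Lv Ω)} {h : Ω → ℝ} {F G : Pth Ω → ℝ} (hF : EP F) (hG : EP G)
    {V V' : ℝ} (h0 : 0 ≤ V) (h0' : 0 ≤ V') (h1 : Vr w M h F ≤ V ^ 2) (h2 : Vr w M h G ≤ V' ^ 2) :
    Vr w M h (fun p => F p + G p) ≤ (V + V') ^ 2 :=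
  Vr_le_mo hw (hF.add hG) (c := EE w M h F + EE w M h G)
    (((mo_of_Vr hw hF h0 h1).add hw (mo_of_Vr hw hG h0' h2)).congr fun p => by ring)

theorem Vr_sum (hw : Wt w) {M : List (Lv Ω)} {h : Ω → ℝ} {κ : Type*} (I : Finset κ)
    {F : κ → Pth Ω → ℝ} {V : κ → ℝ} (hF : ∀ i ∈ I, EP (F i)) (h0 : ∀ i ∈ I, 0 ≤ V i)
    (h1 : ∀ i ∈ I, Vr w M h (F i) ≤ V i ^ 2) :
    Vr w M h (fun p => ∑ i ∈ I, F i p) ≤ (∑ i ∈ I, V i) ^ 2 :=
  Vr_le_mo hw (EP.sum I hF) (c := ∑ i ∈ I, EE w M h (F i))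
    ((Mo.sum hw I fun i hi => mo_of_Vr hw (hF i hi) (h0 i hi) (h1 i hi)).congr fun p => by
      rw [Finset.sum_sub_distrib])

theorem Vr_const_mul (M : List (Lv Ω)) (h : Ω → ℝ) (F : Pth Ω → ℝ) (c : ℝ) :
    Vr w M h (fun p => c * F p) = c ^ 2 * Vr w M h F := by
  simp only [Vr, mul_pow, EE_const_mul]; ring

/-- Brascamp–Lieb -/
theorem Vr_FS (hw : Wt w) {M : List (Lv Ω)} {h : Ω → ℝ} {l₀ : Lv Ω} (H : Sy w M h l₀)
    {S : Finset ℕ} (hS : ∀ j ∈ S, 1 ≤ j ∧ j ≤ M.length) {G G' : ℕ → ℝ → ℝ}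
    (hG : ∀ j t, HasDerivAt (G j) (G' j t) t) (hG' : ∀ j, Continuous (G' j)) :
    Vr w M h (FS w M l₀ S G) ≤ 4 * ∑ j ∈ S, dm M 0 j *
      node w M j (fun z => G' j (rr w (M.drop j) l₀ z) ^ 2 * mAm w (M.drop j) l₀ z) h := by
  rw [Vr_eq hw M h (ep_FS hw M l₀ S fun j =>
    continuous_iff_continuousAt.2 fun t => (hG j t).continuousAt)]
  exact var_G hw H hS hG hG'

/-- (SD) for `FS` -/
theorem sd_FS (hw : Wt w) (l : Lv Ω) (U : List (Lv Ω)) (h : Ω → ℝ) (l₀ : Lv Ω) {a a' Q V : ℝ}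
    (haa : a ≤ a') (hQ : 0 ≤ Q) (hW : (a' - a) * Wd w l U h a a' ≤ Q ^ 2) (hV0 : 0 ≤ V)
    {S : Finset ℕ} (hS : ∀ j ∈ S, 2 ≤ j) {G : ℕ → ℝ → ℝ} (hG : ∀ j, Continuous (G j))
    (hV : ∀ s ∈ Icc a a', Vr w (rt l s :: U) h (FS w (rt l s :: U) l₀ S G) ≤ V ^ 2) :
    |EE w (rt l a' :: U) h (FS w (rt l a' :: U) l₀ S G) -
      EE w (rt l a :: U) h (FS w (rt l a :: U) l₀ S G)| ≤ Q * V := by
  rw [FS_root l l₀ U a' 0 hS, FS_root l l₀ U a 0 hS]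
  have ep := ep_FS hw (rt l 0 :: U) l₀ S hG
  refine delta_Mo hw l U h ep (c := fun s => EE w (rt l s :: U) h (FS w (rt l 0 :: U) l₀ S G))
    haa hQ hW fun s hs => mo_of_Vr hw ep hV0 ?_
  rw [← FS_root l l₀ U s 0 hS]
  exact hV s hs

/-- budgets in variance form, with a reference `q`: `V₂` for the squares, `V₁` for the linear
part, `B` for the pair fluctuations, `A` for the other nodes -/
structure BudV (w : Ω → ℝ) (l : Lv Ω) (U : List (Lv Ω)) (h : Ω → ℝ) (l₀ : Lv Ω) (a a' : ℝ)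
    (α φ : ℕ → ℝ) (Q V₂ V₁ B A : ℝ) : Prop where
  W : (a' - a) * Wd w l U h a a' ≤ Q ^ 2
  V2 : 0 ≤ V₂
  V1 : 0 ≤ V₁
  mono : ∀ s ∈ Icc a a', Mono 0 (rt l s :: U)
  ex : ∃ (S : Finset ℕ) (q c : ℕ → ℝ), S ⊆ Finset.Icc 2 (U.length + 1) ∧ ∀ s ∈ Icc a a',
    Vr w (rt l s :: U) h (FS w (rt l s :: U) l₀ S fun j r => α j * (r - q j) ^ 2) ≤ V₂ ^ 2 ∧
    Vr w (rt l s :: U) h (FS w (rt l s :: U) l₀ S fun j r => (α j * q j + φ j) * r) ≤ V₁ ^ 2 ∧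
    (∑ j ∈ S, dm (rt l s :: U) 0 j * (|α j| *
      (tc w (rt l s :: U) l₀ h j + 2 * vv w (rt l s :: U) l₀ h j)) ≤ B) ∧
    ∑ j ∈ Finset.Icc 2 (U.length + 1) \ S, dm (rt l s :: U) 0 j * |pi2 w (rt l s :: U) j
      (fun x y => α j / 2 * l₀.cov x y ^ 2 + φ j * l₀.cov x y) h - c j| ≤ A

theorem BudV.le (hw : Wt w) {l l₀ : Lv Ω} {U : List (Lv Ω)} {h : Ω → ℝ} {a a' Q V₂ V₁ B A : ℝ}
    {α φ : ℕ → ℝ} (H : BudV w l U h l₀ a a' α φ Q V₂ V₁ B A) (haa : a ≤ a') (hQ : 0 ≤ Q) :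
    |PS w l U h (Finset.Icc 2 (U.length + 1))
        (fun j x y => α j / 2 * l₀.cov x y ^ 2 + φ j * l₀.cov x y) a' -
      PS w l U h (Finset.Icc 2 (U.length + 1))
        (fun j x y => α j / 2 * l₀.cov x y ^ 2 + φ j * l₀.cov x y) a| ≤
      2 * (Q * (V₂ / 4 + V₁ / 2) + B / 2 + A) := by
  obtain ⟨S, q, c, hS, hb⟩ := H.ex
  have ia : a ∈ Icc a a' := ⟨le_rfl, haa⟩
  have ia' : a' ∈ Icc a a' := ⟨haa, le_rfl⟩
  have hS2 : ∀ j ∈ S, 2 ≤ j := fun j hj => (Finset.mem_Icc.1 (hS hj)).1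
  have c2 : ∀ j, Continuous fun r : ℝ => α j * (r - q j) ^ 2 := fun j => by fun_prop
  have c1 : ∀ j, Continuous fun r : ℝ => (α j * q j + φ j) * r := fun j => by fun_prop
  have k1 := sd_FS hw l U h l₀ haa hQ H.W H.V2 hS2 c2 fun s hs => (hb s hs).1
  have k1' := sd_FS hw l U h l₀ haa hQ H.W H.V1 hS2 c1 fun s hs => (hb s hs).2.1
  have k2 : ∀ s ∈ Icc a a', |∑ j ∈ S, dm (rt l s :: U) 0 j * (α j *
      (tc w (rt l s :: U) l₀ h j + 2 * vv w (rt l s :: U) l₀ h j))| ≤ B := fun s hs => by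
    refine (Finset.abs_sum_le_sum_abs _ _).trans (le_trans (le_of_eq ?_) (hb s hs).2.2.1)
    refine Finset.sum_congr rfl fun j _ => ?_
    have h1 := tc_nonneg (w := w) l₀ h (rt l s :: U) j
    have h2 := vv_nonneg hw l₀ h (rt l s :: U) j
    rw [abs_mul, abs_mul, abs_of_nonneg (dm_nonneg (H.mono s hs) j),
      abs_of_nonneg (a := _ + _) (by positivity)]
  have k3 : ∀ s ∈ Icc a a', |∑ j ∈ Finset.Icc 2 (U.length + 1) \ S, dm (rt l s :: U) 0 j *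
      pi2 w (rt l s :: U) j (fun x y => α j / 2 * l₀.cov x y ^ 2 + φ j * l₀.cov x y) h -
      ∑ j ∈ Finset.Icc 2 (U.length + 1) \ S, dm (rt l 0 :: U) 0 j * c j| ≤ A := fun s hs => by
    rw [← Finset.sum_sub_distrib]
    refine (Finset.abs_sum_le_sum_abs _ _).trans (le_trans (le_of_eq ?_) (hb s hs).2.2.2)
    refine Finset.sum_congr rfl fun j hj => ?_
    rw [dm_root l U 0 s (Finset.mem_Icc.1 (Finset.mem_sdiff.1 hj).1).1, ← mul_sub, abs_mul,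
      abs_of_nonneg (dm_nonneg (H.mono s hs) j)]
  simp only [PS, ← Finset.sum_sdiff hS]
  have e : ∀ s, ∑ j ∈ S, dm (rt l s :: U) 0 j *
      pi2 w (rt l s :: U) j (fun x y => α j / 2 * l₀.cov x y ^ 2 + φ j * l₀.cov x y) h =
      EE w (rt l s :: U) h (FS w (rt l s :: U) l₀ S fun j r => α j * (r - q j) ^ 2) / 2 +
      EE w (rt l s :: U) h (FS w (rt l s :: U) l₀ S fun j r => (α j * q j + φ j) * r) +
      (∑ j ∈ S, dm (rt l s :: U) 0 j * (α j *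
        (tc w (rt l s :: U) l₀ h j + 2 * vv w (rt l s :: U) l₀ h j))) / 2 -
      ∑ j ∈ S, dm (rt l 0 :: U) 0 j * (α j / 2 * q j ^ 2) := fun s => by
    rw [EE_FS hw _ _ _ _ c2, EE_FS hw _ _ _ _ c1, Finset.sum_div, Finset.sum_div,
      ← Finset.sum_add_distrib, ← Finset.sum_add_distrib, ← Finset.sum_sub_distrib]
    refine Finset.sum_congr rfl fun j hj => ?_
    have r := eg_rr hw ((rt l s :: U).drop j) l₀
    have e1 : (fun z => α j / 2 * rr w ((rt l s :: U).drop j) l₀ z ^ 2 +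
        φ j * rr w ((rt l s :: U).drop j) l₀ z) = fun z =>
        1 / 2 * (α j * (rr w ((rt l s :: U).drop j) l₀ z - q j) ^ 2) +
        (α j * q j + φ j) * rr w ((rt l s :: U).drop j) l₀ z - α j / 2 * q j ^ 2 := by
      funext z; ring
    have g2 := (((r.sub (Eg.const (q j))).pow 2).const_mul (α j)).const_mul (1 / 2)
    rw [pi2_quad hw, dm_root l U 0 s (hS2 j hj), e1,
      node_sub hw (g2.add (r.const_mul _)) (Eg.const _), node_add hw g2 (r.const_mul _),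
      node_const hw, node_const_mul w _ (1 / 2)]
    ring
  rw [e, e]
  have := abs_le.1 k1
  have := abs_le.1 k1'
  have := abs_le.1 (k2 a ia)
  have := abs_le.1 (k2 a' ia')
  have := abs_le.1 (k3 a ia)
  have := abs_le.1 (k3 a' ia')
  exact abs_le.2 ⟨by linarith, by linarith⟩

/-- the segment lemma from any bound of the exact derivative -/
theorem seg_PS (hw : Wt w) (H : Seg L N D) (l l₀ : Lv Ω) (h : Ω → ℝ) {ν d a a' e : ℝ}
    {α φ : ℕ → ℝ} (hν : 0 ≤ ν) (hd : ∀ x, l₀.cov x x = d)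
    (hD : ∀ j, 2 ≤ j → j ≤ N + 1 → ∀ x y,
      D (j - 1) x y = ν * (α j / 2 * l₀.cov x y ^ 2 + φ j * l₀.cov x y)) {g : ℝ → ℝ}
    (hb : ∀ t ∈ Ioo (0 : ℝ) 1, |PS w l (L t) h (Finset.Icc 2 (N + 1))
        (fun j x y => α j / 2 * l₀.cov x y ^ 2 + φ j * l₀.cov x y) a' -
      PS w l (L t) h (Finset.Icc 2 (N + 1))
        (fun j x y => α j / 2 * l₀.cov x y ^ 2 + φ j * l₀.cov x y) a| ≤ 2 * g t)
    (hi : IntegrableOn g (Icc 0 1)) (he : ∫ t in (0 : ℝ)..1, g t ≤ e) :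
    ∀ t ∈ Icc (0 : ℝ) 1, |DV w l (L t) h a a' - DV w l (L 0) h a a'| ≤ ν * e := by
  obtain ⟨c, hc⟩ : ∃ c, ∀ x, D N x x = c := by
    rcases Nat.eq_zero_or_pos N with rfl | hN
    · exact ⟨0, fun x => H.zero x x⟩
    · exact ⟨ν * (α (N + 1) / 2 * d ^ 2 + φ (N + 1) * d), fun x => by
        rw [← hd x]; exact hD (N + 1) (by omega) le_rfl x x⟩
  refine Chain26.path_le (g := fun t => ν * g t) (H.contD hw l h a a')
    (fun t ht => (H.derD hw hc l h a a' ht).hasDerivWithinAt) (fun t ht => ?_) (hi.const_mul ν) ?_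
  · have e : ∀ s, PS w l (L t) h (Finset.Icc 2 (N + 1)) (fun j => D (j - 1)) s =
        ν * PS w l (L t) h (Finset.Icc 2 (N + 1))
          (fun j x y => α j / 2 * l₀.cov x y ^ 2 + φ j * l₀.cov x y) s := fun s => by
      rw [PS, PS, Finset.mul_sum]
      refine Finset.sum_congr rfl fun j hj => ?_
      obtain ⟨h1, h2⟩ := Finset.mem_Icc.1 hj
      have : D (j - 1) = fun x y => ν * (α j / 2 * l₀.cov x y ^ 2 + φ j * l₀.cov x y) := by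
        funext x y; exact hD j h1 h2 x y
      simp only [this, pi2_const_mul]
      ring
    rw [e, e, ← mul_sub, abs_div, abs_neg, abs_mul, abs_of_nonneg hν, abs_two]
    have := mul_le_mul_of_nonneg_left (hb t ht) hν
    linarith
  · rw [intervalIntegral.integral_const_mul]
    exact mul_le_mul_of_nonneg_left he hν

variable {n : ℕ}

/-- cube segments: the data -/
structure CS {n : ℕ} (L : ℝ → List (Lv (Cube n))) (N : ℕ) (d' f' : ℕ → ℝ) : Prop where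
  len : ∀ t ∈ Icc (0 : ℝ) 1, (L t).length = N
  cov : ∃ x d f : ℕ → ℝ, ∀ t ∈ Icc (0 : ℝ) 1, ∀ k (hk : k < (L t).length), (L t)[k].m = x k ∧
    ∀ u v, (L t)[k].cov u v = n * ((d k + t * d' k) / 2 * ov u v ^ 2 + (f k + t * f' k) * ov u v)

/-- accumulated velocity at the node `j` of `root :: L t` -/
def acc (d' : ℕ → ℝ) (j : ℕ) : ℝ := ∑ k ∈ Finset.range (j - 1), d' k

theorem CS.seg {L : ℝ → List (Lv (Cube n))} {N : ℕ} {d' f' : ℕ → ℝ} (H : CS L N d' f') :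
    Seg L N fun j u v => n * (acc d' (j + 1) / 2 * ov u v ^ 2 + acc f' (j + 1) * ov u v) := by
  obtain ⟨x, d, f, hc⟩ := H.cov
  have i0 : (0 : ℝ) ∈ Icc (0 : ℝ) 1 := ⟨le_rfl, zero_le_one⟩
  refine (Seg.of_cov (κ := fun k u v => n * (d' k / 2 * ov u v ^ 2 + f' k * ov u v)) H.len
    fun t ht k h1 h0 => ⟨(hc t ht k h1).1.trans (hc 0 i0 k h0).1.symm, fun u v => by
      rw [(hc t ht k h1).2, (hc 0 i0 k h0).2]; ring⟩).congr fun j _ => ?_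
  funext u v
  simp only [acc, Nat.add_sub_cancel, ← Finset.mul_sum, Finset.sum_add_distrib, ← Finset.sum_mul,
    ← Finset.sum_div]

/-- **cube segment, any bound of the derivative**, in the form of `ChainQ_26` -/
theorem CS.cl (hn : 0 < n) {L : ℝ → List (Lv (Cube n))} {N : ℕ} {d' f' : ℕ → ℝ}
    (H : CS L N d' f') (l : Lv (Cube n)) {l₀ : Lv (Cube n)} (h₀ : ∀ u v, l₀.cov u v = ov u v)
    {a a' e : ℝ} {g : ℝ → ℝ}
    (hb : ∀ t ∈ Ioo (0 : ℝ) 1, |PS (fun _ => 1) l (L t) 0 (Finset.Icc 2 (N + 1))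
        (fun j x y => acc d' j / 2 * l₀.cov x y ^ 2 + acc f' j * l₀.cov x y) a' -
      PS (fun _ => 1) l (L t) 0 (Finset.Icc 2 (N + 1))
        (fun j x y => acc d' j / 2 * l₀.cov x y ^ 2 + acc f' j * l₀.cov x y) a| ≤ 2 * g t)
    (hi : IntegrableOn g (Icc 0 1)) (he : ∫ t in (0 : ℝ)..1, g t ≤ e) {t : ℝ}
    (ht : t ∈ Icc (0 : ℝ) 1) :
    Chain26.Cl a a' (n * e) (Chain26.Vv l (L t)) (Chain26.Vv l (L 0)) :=
  seg_PS Link33.wt1 H.seg l l₀ 0 (d := 1) (Nat.cast_nonneg n)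
    (fun u => by rw [h₀, Q33.ov_self hn]) (fun j h2 _ u v => by
      simp only [h₀, Nat.sub_add_cancel (by omega : 1 ≤ j)]) hb hi he t ht

/-- **cube segment, variance budgets** -/
theorem CS.clV (hn : 0 < n) {L : ℝ → List (Lv (Cube n))} {N : ℕ} {d' f' : ℕ → ℝ}
    (H : CS L N d' f') (l : Lv (Cube n)) {l₀ : Lv (Cube n)} (h₀ : ∀ u v, l₀.cov u v = ov u v)
    {a a' Q e : ℝ} (haa : a ≤ a') (hQ : 0 ≤ Q) {V₂ V₁ B A g : ℝ → ℝ}
    (hb : ∀ t ∈ Ioo (0 : ℝ) 1, BudV (fun _ => 1) l (L t) 0 l₀ a a' (acc d') (acc f') Q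
      (V₂ t) (V₁ t) (B t) (A t))
    (hg : ∀ t ∈ Ioo (0 : ℝ) 1, Q * (V₂ t / 4 + V₁ t / 2) + B t / 2 + A t ≤ g t)
    (hi : IntegrableOn g (Icc 0 1)) (he : ∫ t in (0 : ℝ)..1, g t ≤ e) {t : ℝ}
    (ht : t ∈ Icc (0 : ℝ) 1) :
    Chain26.Cl a a' (n * e) (Chain26.Vv l (L t)) (Chain26.Vv l (L 0)) :=
  H.cl hn l h₀ (fun t ht => by
    have k := (hb t ht).le Link33.wt1 haa hQ
    rw [H.len t (Ioo_subset_Icc_self ht)] at k
    exact k.trans (mul_le_mul_of_nonneg_left (hg t ht) zero_le_two)) hi he ht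

/-- constant budgets -/
theorem CS.clV_const (hn : 0 < n) {L : ℝ → List (Lv (Cube n))} {N : ℕ} {d' f' : ℕ → ℝ}
    (H : CS L N d' f') (l : Lv (Cube n)) {l₀ : Lv (Cube n)} (h₀ : ∀ u v, l₀.cov u v = ov u v)
    {a a' Q V₂ V₁ B A : ℝ} (haa : a ≤ a') (hQ : 0 ≤ Q)
    (hb : ∀ t ∈ Ioo (0 : ℝ) 1, BudV (fun _ => 1) l (L t) 0 l₀ a a' (acc d') (acc f') Q V₂ V₁ B A)
    {t : ℝ} (ht : t ∈ Icc (0 : ℝ) 1) :
    Chain26.Cl a a' (n * (Q * (V₂ / 4 + V₁ / 2) + B / 2 + A)) (Chain26.Vv l (L t))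
      (Chain26.Vv l (L 0)) :=
  H.clV hn l h₀ haa hQ (V₂ := fun _ => V₂) (V₁ := fun _ => V₁) (B := fun _ => B)
    (A := fun _ => A) (g := fun _ => Q * (V₂ / 4 + V₁ / 2) + B / 2 + A) hb (fun _ _ => le_rfl)
    continuousOn_const.integrableOn_Icc (by simp) ht

/-- **cube segment, node budgets** -/
theorem CS.clB (hn : 0 < n) {L : ℝ → List (Lv (Cube n))} {N : ℕ} {d' f' : ℕ → ℝ}
    (H : CS L N d' f') (l : Lv (Cube n)) {l₀ : Lv (Cube n)} (h₀ : ∀ u v, l₀.cov u v = ov u v)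
    {a a' Q e : ℝ} (haa : a ≤ a') (hQ : 0 ≤ Q) {V B A g : ℝ → ℝ}
    (hb : ∀ t ∈ Ioo (0 : ℝ) 1, Bud (fun _ => 1) l (L t) 0 l₀ a a' (acc d') (acc f') Q
      (V t) (B t) (A t))
    (hg : ∀ t ∈ Ioo (0 : ℝ) 1, Q * V t + B t + A t ≤ g t)
    (hi : IntegrableOn g (Icc 0 1)) (he : ∫ t in (0 : ℝ)..1, g t ≤ e) {t : ℝ}
    (ht : t ∈ Icc (0 : ℝ) 1) :
    Chain26.Cl a a' (n * e) (Chain26.Vv l (L t)) (Chain26.Vv l (L 0)) :=
  H.cl hn l h₀ (fun t ht => by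
    have k := (hb t ht).le Link33.wt1 haa hQ
    rw [H.len t (Ioo_subset_Icc_self ht)] at k
    exact k.trans (mul_le_mul_of_nonneg_left (hg t ht) zero_le_two)) hi he ht

end Crest.Agent.T156.Cas.Seg56

end
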