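import Crest.Agent.T156.Regrid_59
import Crest.Agent.T156.AltCl_88

/-!
# Row 156: SNAP, two models whose fields are close in label form (helper59)
-/

set_option autoImplicit false
set_option linter.unusedSectionVars false

noncomputable section

namespace Crest.Agent.T156.Cas.Rg59

open MeasureTheory Real Set Filter Topology
open Crest.Agent.T157.E Crest.Agent.T157.Casc Crest.Agent.T157.SL
open Trf
open Crest.Agent.R339.Var (TT)
open Crest.Agent.T157.Pf (lvr)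

variable {Ω : Type} [Fintype Ω] {w : Ω → ℝ} {F F' : ℝ × ℝ → Lv Ω} {K : Ω → Ω → ℝ}

theorem lvr_snoc (β u : ℝ) : ∀ (D : List (ℝ × ℝ)) (t : ℝ), lvr β (D ++ [(β, u)]) t = lvr β D t
  | [], t => by simp [lvr]
  | p :: D, t => by simp only [List.cons_append, lvr, lvr_snoc β u D]

theorem TT_snoc (p : ℝ × ℝ) (D : List (ℝ × ℝ)) : TT (D ++ [p]) = TT D + p.2 := by simp [TT]

/-- a top level of tilt `1` is a constant -/
theorem X_snoc (hw : Wt w) (H : Fm F K) {c u : ℝ} (hc : ∀ x, K x x = c) (hu : 0 ≤ u)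
    (M : List (Lv Ω)) (h : Ω → ℝ) : X w (M ++ [F (1, u)]) h = X w M h + u * c / 2 := by
  have b := C.X_annealed_const hw (l := F (1, u)) (v := u * c) (H.m _) fun y => by
    rw [H.cov _ hu, hc]
  have a1 := C.X_append_le hw hw (fun z => (b z).le) M h
  have a2 := C.X_append_le hw hw (M := []) (M' := [F (1, u)]) (c := -(u * c / 2))
    (fun z => by linarith [b z]) M h
  rw [List.append_nil] at a1 a2
  linarith

/-- **re-grid at the top**: the total variances may differ -/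
theorem regrid_top (hw : Wt w) (H : Fm F K) (H' : Fm F' K) {c : ℝ} (hc : ∀ x, K x x = c)
    {g : ℝ → ℝ} (gi : ∀ a b, IntervalIntegrable g volume a b) (g0 : ∀ t, 0 ≤ g t)
    {D D' : List (ℝ × ℝ)} (h0 : ∀ p ∈ D, 0 ≤ p.2) (h' : ∀ p ∈ D', 0 ≤ p.2) {T : ℝ} (e : TT D ≤ T)
    (e' : TT D' ≤ T) (hg : ∀ t ∈ Ico 0 T, |lvr 1 D' t - lvr 1 D t| ≤ g t) (M : List (Lv Ω))
    (h : Ω → ℝ) :
    |X w (M ++ D'.map F') h - X w (M ++ D.map F) h - (TT D' - TT D) * c / 2| ≤
      c / 2 * ∫ t in (0 : ℝ)..T, g t := by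
  have k : ∀ {D : List (ℝ × ℝ)}, (∀ p ∈ D, 0 ≤ p.2) → TT D ≤ T →
      ∀ p ∈ D ++ [(1, T - TT D)], 0 ≤ p.2 := fun h0 e p hp => by
    rcases List.mem_append.1 hp with hp | hp
    · exact h0 p hp
    · rw [List.mem_singleton.1 hp]; exact sub_nonneg.2 e
  have t1 : TT (D ++ [(1, T - TT D)]) = T := by rw [TT_snoc]; ring
  have t2 : TT (D' ++ [(1, T - TT D')]) = T := by rw [TT_snoc]; ring
  have := regrid hw H H' (fun x => (hc x).le) gi g0 (β := 1) (β' := 1) (k h0 e) (k h' e')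
    (t1.trans t2.symm) (fun t ht => by rw [lvr_snoc, lvr_snoc]; exact hg t (t1 ▸ ht)) M [] h
  simp only [List.append_nil, List.map_append, List.map_cons, List.map_nil, ← List.append_assoc,
    X_snoc hw H hc (sub_nonneg.2 e), X_snoc hw H' hc (sub_nonneg.2 e'), t1] at this
  refine le_of_eq_of_le ?_ this
  congr 1
  ring

theorem lvr_nl_bd : ∀ (N : ℕ) {z : ℕ → ℝ} (H : ℕ → ℝ), Monotone z → (∀ k, z k ≤ 1) →
    Monotone (lvr 1 (nl z H N)) ∧ ∀ t, z 0 ≤ lvr 1 (nl z H N) t ∧ lvr 1 (nl z H N) t ≤ 1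
  | 0, z, H, _, h1 => ⟨fun _ _ _ => by simp [nl, lvr], fun t => by simp [nl, lvr, h1]⟩
  | N + 1, z, H, hz, h1 => by
    obtain ⟨a, b⟩ := lvr_nl_bd N (z := fun k => z (k + 1)) (fun k => H (k + 1))
      (fun i j hij => hz (by omega)) fun k => h1 _
    have z01 : z 0 ≤ z (0 + 1) := hz (by omega)
    rw [nl_succ]
    refine ⟨fun s t hst => ?_, fun t => ?_⟩
    · simp only [lvr]
      split_ifs with h2 h3 h3
      · exact le_rfl
      · exact z01.trans (b _).1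
      · linarith
      · exact a (by linarith)
    · simp only [lvr]
      split_ifs
      · exact ⟨le_rfl, h1 0⟩
      · exact ⟨z01.trans (b _).1, (b _).2⟩

theorem lvr_ge (β : ℝ) : ∀ {D : List (ℝ × ℝ)}, (∀ p ∈ D, 0 ≤ p.2) → ∀ {t : ℝ}, TT D ≤ t →
    lvr β D t = β
  | [], _, _, _ => rfl
  | p :: D, h, t, ht => by
    have d0 : ∀ q ∈ D, 0 ≤ q.2 := fun q hq => h q (by simp [hq])
    rw [TT_cons] at ht
    rw [lvr, if_neg (by linarith [TT_nonneg d0]), lvr_ge β d0 (by linarith)]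

theorem lvr_nl' {N : ℕ} {z H : ℕ → ℝ} (hH : ∀ k < N, H k ≤ H (k + 1)) (hN : z N = 1) {t : ℝ}
    (h0 : 0 ≤ t) : ∃ k ≤ N, H k ≤ H 0 + t ∧ (k < N → H 0 + t < H (k + 1)) ∧
      lvr 1 (nl z H N) t = z k := by
  rcases lt_or_ge t (H N - H 0) with h | h
  · obtain ⟨k, k1, k2, k3, k4⟩ := lvr_nl 1 N z H h0 h
    exact ⟨k, k1.le, k2, fun _ => k3, k4⟩
  · exact ⟨N, le_rfl, by linarith, fun h => absurd h (lt_irrefl N), by
      rw [lvr_ge 1 (nl_nonneg hH) (by rwa [TT_nl]), hN]⟩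

/-- a legal sequence of nodes -/
structure Lg (z H : ℕ → ℝ) (N : ℕ) : Prop where
  zm : Monotone z
  z0 : 0 ≤ z 0
  z1 : ∀ k, z k ≤ 1
  zN : z N = 1
  Hm : ∀ k < N, H k ≤ H (k + 1)

/-- the field of `(z, H)` at a label `x` is at most `δ` above the field of `(z', H')` at `x + η` -/
def Le (δ η : ℝ) (z H : ℕ → ℝ) (N : ℕ) (z' H' : ℕ → ℝ) (N' : ℕ) : Prop :=
  ∀ k < N, ∀ k' ≤ N', z k + η < z' k' → H (k + 1) ≤ H' k' + δ

theorem lvr_shift_le {z H z' H' : ℕ → ℝ} {N N' : ℕ} {δ η : ℝ} (L : Lg z H N) (L' : Lg z' H' N')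
    (e0 : H 0 = H' 0) (hδ : 0 ≤ δ) (hη : 0 ≤ η) (A : Le δ η z H N z' H' N') {t : ℝ} (ht : 0 ≤ t) :
    lvr 1 (nl z' H' N') t ≤ lvr 1 (nl z H N) (t + δ) + η := by
  obtain ⟨k, k1, -, k3, k4⟩ := lvr_nl' L.Hm L.zN (t := t + δ) (by linarith)
  obtain ⟨k', l1, l2, -, l4⟩ := lvr_nl' L'.Hm L'.zN ht
  rw [k4, l4]
  rcases k1.eq_or_lt with rfl | k1
  · rw [L.zN]; linarith [L'.z1 k']
  · by_contra hc
    have := A k k1 k' l1 (not_le.1 hc)
    linarith [k3 k1]

theorem int_shift {f : ℝ → ℝ} (hf : Monotone f) (h0 : ∀ t, 0 ≤ f t) (h1 : ∀ t, f t ≤ 1) {δ : ℝ}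
    (hδ : 0 ≤ δ) (T : ℝ) : ∫ t in (0 : ℝ)..T, (f (t + δ) - f (t - δ)) ≤ 2 * δ := by
  have i : ∀ a b, IntervalIntegrable f volume a b := fun a b => hf.intervalIntegrable
  have m1 : Monotone fun t => f (t + δ) := fun s t h => hf (by linarith)
  have m2 : Monotone fun t => f (t - δ) := fun s t h => hf (by linarith)
  rw [intervalIntegral.integral_sub m1.intervalIntegrable m2.intervalIntegrable,
    intervalIntegral.integral_comp_add_right, intervalIntegral.integral_comp_sub_right]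
  have e1 := intervalIntegral.integral_add_adjacent_intervals (i (0 - δ) (0 + δ)) (i (0 + δ) (T + δ))
  have e2 := intervalIntegral.integral_add_adjacent_intervals (i (0 - δ) (T - δ)) (i (T - δ) (T + δ))
  have b1 : 0 ≤ ∫ t in (0 - δ)..(0 + δ), f t :=
    intervalIntegral.integral_nonneg (by linarith) fun t _ => h0 t
  have b2 := intervalIntegral.integral_mono_on (a := T - δ) (b := T + δ) (by linarith) (i _ _)
    (intervalIntegrable_const (c := (1 : ℝ))) fun t _ => h1 t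
  rw [intervalIntegral.integral_const, smul_eq_mul] at b2
  linarith

/-- **snap**: fields that are close in label form -/
theorem snap_nl (hw : Wt w) (H : Fm F K) (H' : Fm F' K) {c : ℝ} (hc : ∀ x, K x x = c) (c0 : 0 ≤ c)
    {z S z' S' : ℕ → ℝ} {N N' : ℕ} {δ η T : ℝ} (L : Lg z S N) (L' : Lg z' S' N') (e0 : S 0 = S' 0)
    (hδ : 0 ≤ δ) (hη : 0 ≤ η) (A : Le δ η z S N z' S' N') (B : Le δ η z' S' N' z S N)
    (hT : S N - S 0 ≤ T) (hT' : S' N' - S' 0 ≤ T) (M : List (Lv Ω)) (h : Ω → ℝ) :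
    |X w (M ++ (nl z' S' N').map F') h - X w (M ++ (nl z S N).map F) h - (S' N' - S N) * c / 2| ≤
      c * (δ + η * T / 2) := by
  obtain ⟨m, b⟩ := lvr_nl_bd N S L.zm L.z1
  obtain ⟨-, b'⟩ := lvr_nl_bd N' S' L'.zm L'.z1
  set f : ℝ → ℝ := fun t => if t < 0 then 0 else lvr 1 (nl z S N) t with hf
  have f0 : ∀ t, 0 ≤ f t := fun t => by
    simp only [hf]; split_ifs; exacts [le_rfl, L.z0.trans (b t).1]
  have f1 : ∀ t, f t ≤ 1 := fun t => by
    simp only [hf]; split_ifs; exacts [zero_le_one, (b t).2]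
  have fm : Monotone f := fun s t hst => by
    simp only [hf]
    split_ifs with h1 h2 h2
    exacts [le_rfl, L.z0.trans (b t).1, by linarith, m hst]
  have m1 : Monotone fun t => f (t + δ) := fun s t h => fm (by linarith)
  have m2 : Monotone fun t => f (t - δ) := fun s t h => fm (by linarith)
  have i1 : ∀ a b, IntervalIntegrable (fun t => f (t + δ) - f (t - δ)) volume a b := fun _ _ =>
    m1.intervalIntegrable.sub m2.intervalIntegrable
  have key := regrid_top hw H H' hc (g := fun t => f (t + δ) - f (t - δ) + η)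
    (D := nl z S N) (D' := nl z' S' N')
    (fun _ _ => (i1 _ _).add intervalIntegrable_const)
    (fun t => add_nonneg (sub_nonneg.2 (fm (by linarith))) hη) (nl_nonneg L.Hm) (nl_nonneg L'.Hm)
    (T := T) (by rwa [TT_nl]) (by rwa [TT_nl]) (fun t ht => by
      have u1 : lvr 1 (nl z' S' N') t ≤ f (t + δ) + η := by
        simp only [hf, if_neg (show ¬t + δ < 0 by linarith [ht.1])]
        exact lvr_shift_le L L' e0 hδ hη A ht.1
      have u2 : f (t - δ) ≤ lvr 1 (nl z' S' N') t + η := by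
        simp only [hf]
        split_ifs with h1
        · exact add_nonneg (L'.z0.trans (b' t).1) hη
        · simpa using lvr_shift_le L' L e0.symm hδ hη B (not_lt.1 h1)
      have u3 : f t = lvr 1 (nl z S N) t := by simp only [hf, if_neg (not_lt.2 ht.1)]
      have u4 := fm (show t ≤ t + δ by linarith)
      have u5 := fm (show t - δ ≤ t by linarith)
      rw [abs_le]
      constructor <;> linarith) M h
  rw [TT_nl, TT_nl, e0, intervalIntegral.integral_add (i1 _ _) intervalIntegrable_const,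
    intervalIntegral.integral_const, smul_eq_mul, sub_zero] at key
  have i := mul_le_mul_of_nonneg_left (add_le_add (int_shift fm f0 f1 hδ T) (le_refl (T * η)))
    (show 0 ≤ c / 2 by linarith)
  refine le_of_eq_of_le ?_ (key.trans (i.trans_eq (by ring)))
  congr 1
  ring

end Crest.Agent.T156.Cas.Rg59

namespace Crest.Agent.T156.Alt

open Crest.Agent.T157.E Crest.Agent.T157.Casc Crest.Agent.T157.SL
open Crest.Agent.T157.G1 (ov)
open Crest.Agent.T156.Cas (mxL mxL_cov)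
open Crest.Agent.T156.Cas.Rg59

/-- the field of `M` at a label `x` is at most `δ` above the field of `M'` at `x + η` -/
def FLe (k0 : ℕ) (δ η : ℝ) (M M' : Md) : Prop :=
  ∀ k k', k0 ≤ k → k < M.N → k0 ≤ k' → k' ≤ M'.N → M.z k + η < M'.z k' → M.H (k + 1) ≤ M'.H k' + δ

/-- from a monotone profile `φ` of the label and the label mesh `η` of `M'` -/
theorem FLe.of_fun {k0 : ℕ} {δ₁ δ₂ η x x' : ℝ} {M M' : Md} (L : M.Leg x) (L' : M'.Leg x')
    {φ : ℝ → ℝ} (hφ : ∀ s t, M.z k0 ≤ s → s ≤ t → t < 1 → φ s ≤ φ t)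
    (h1 : ∀ k, k0 ≤ k → k < M.N → M.z k < 1 → M.H (k + 1) ≤ φ (M.z k) + δ₁)
    (h2 : ∀ k, k0 ≤ k → k < M'.N → M'.z k < 1 → φ (M'.z k) ≤ M'.H (k + 1) + δ₂)
    (hm : ∀ k, k0 ≤ k → k < M'.N → M'.z (k + 1) ≤ M'.z k + η) (h0 : M'.z k0 ≤ M.z k0 + η) :
    FLe k0 (δ₁ + δ₂) η M M' := by
  intro k k' a b c d e
  induction c with
  | refl => linarith [L.zm a]
  | @step j c ih =>
    have c' : k0 ≤ j := c
    have d' : j < M'.N := d
    simp only [Nat.succ_eq_add_one] at e ⊢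
    rcases lt_or_ge (M'.z j) 1 with g | g
    · have g1 := hm j c' d'
      have g2 := hφ (M.z k) (M'.z j) (L.zm a) (by linarith) g
      linarith [h1 k a b (by linarith), h2 j c' d' g]
    · have := ih d'.le (by linarith [L'.z1 (j + 1)])
      linarith [L'.Hm (Nat.le_succ j)]

theorem FLe.mono {k0 : ℕ} {δ δ' η η' : ℝ} {M M' : Md} (S : FLe k0 δ η M M') (h : δ ≤ δ')
    (h' : η ≤ η') : FLe k0 δ' η' M M' := fun k k' a b c d e =>
  (S k k' a b c d (by linarith)).trans (by linarith)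

/-- same tilts, fields `δ`-close at the nodes with a label weight -/
theorem FLe.of_same {k0 : ℕ} {δ x : ℝ} {M M' : Md} (L' : M'.Leg x) (hz : M'.z = M.z)
    (h : ∀ k, k0 ≤ k → k < M.N → M.z k < 1 → M.H (k + 1) ≤ M'.H (k + 1) + δ) :
    FLe k0 δ 0 M M' := fun k k' a b _ _ e => by
  rw [add_zero, ← hz] at e
  have h1 := L'.Hm (Nat.succ_le_of_lt (L'.zm.reflect_lt e))
  have h2 := h k a b (by rw [← hz]; exact e.trans_le (L'.z1 _))
  simp only [Nat.succ_eq_add_one] at h1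
  linarith

/-- `M`, `M'` agree below the node `k0`, have no W-mark above it, and their fields are close in
label form -/
structure Snp (k0 : ℕ) (δ η T : ℝ) (M M' : Md) : Prop where
  n : k0 ≤ M.N
  n' : k0 ≤ M'.N
  z : ∀ k < k0, M'.z k = M.z k
  d : ∀ k ≤ k0, M'.d k = M.d k
  H : ∀ k ≤ k0, M'.H k = M.H k
  dc : ∀ k, k0 ≤ k → M.d k = M.d k0
  dc' : ∀ k, k0 ≤ k → M'.d k = M'.d k0
  d0 : 0 ≤ δ
  e0 : 0 ≤ η
  t : M.H M.N ≤ T
  t' : M'.H M'.N ≤ T
  A : FLe k0 δ η M M'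
  B : FLe k0 δ η M' M

theorem Snp.symm {k0 : ℕ} {δ η T : ℝ} {M M' : Md} (S : Snp k0 δ η T M M') : Snp k0 δ η T M' M :=
  ⟨S.n', S.n, fun k h => (S.z k h).symm, fun k h => (S.d k h).symm, fun k h => (S.H k h).symm,
    S.dc', S.dc, S.d0, S.e0, S.t', S.t, S.B, S.A⟩

theorem Mu_split (M : Md) {k0 : ℕ} (dc : ∀ k, k0 ≤ k → M.d k = M.d k0) :
    M.Mu = M.Mu.take k0 ++ (nl (fun k => M.z (k0 + k)) (fun k => M.H (k0 + k)) (M.N - k0)).map
      fun p => (p.1, 0, p.2) := by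
  conv_lhs => rw [← List.take_append_drop k0 M.Mu]
  congr 1
  refine List.ext_getElem (by simp [Md.Mu, nl]) fun i h1 h2 => ?_
  simp only [Md.Mu, nl, List.getElem_drop, List.getElem_ofFn, List.getElem_map]
  rw [dc (k0 + i + 1) (by omega), dc (k0 + i) (by omega), sub_self, add_assoc]

theorem fm_mx {m : ℕ} (hm : 0 < m) :
    Fm (fun p : ℝ × ℝ => mxL m 1 (p.1, 0, p.2)) fun x y => m * ov x y :=
  ⟨fun _ => rfl, fun p hp x y => by rw [mxL_cov hm 1 le_rfl hp]; ring⟩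

theorem lg_md {M : Md} {x : ℝ} (L : M.Leg x) (hx : 0 ≤ x) {k0 : ℕ} (hn : k0 ≤ M.N) :
    Lg (fun k => M.z (k0 + k)) (fun k => M.H (k0 + k)) (M.N - k0) :=
  ⟨fun _ _ h => L.zm (by omega), (hx.trans L.z0).trans (L.zm (Nat.zero_le _)), fun _ => L.z1 _,
    by simp only [Nat.add_sub_cancel' hn, L.zN], fun _ _ => L.Hm (by omega)⟩

/-- **SNAP**, absolute form -/
theorem snap_abs {k0 : ℕ} {δ η T x x' : ℝ} {M M' : Md} (S : Snp k0 δ η T M M') (L : M.Leg x)
    (L' : M'.Leg x') (hx : 0 ≤ x) (hx' : 0 ≤ x') {m : ℕ} (hm : 0 < m) (a : ℝ) :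
    |M'.V m a - M.V m a - (M'.H M'.N - M.H M.N) * m / 2| ≤ m * (δ + η * T / 2) := by
  have e : M'.Mu.take k0 = M.Mu.take k0 := by
    have n := S.n
    have n' := S.n'
    refine List.ext_getElem (by simp [Md.Mu, n, n']) fun i h1 h2 => ?_
    have hi : i < k0 := by simp at h2; omega
    simp only [Md.Mu, List.getElem_take, List.getElem_ofFn]
    rw [S.z i hi, S.d i hi.le, S.d (i + 1) hi, S.H i hi.le, S.H (i + 1) hi]
  have p : 0 ≤ M.H k0 := L.H0.ge.trans (L.Hm (Nat.zero_le _))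
  have p' : 0 ≤ M'.H k0 := L'.H0.ge.trans (L'.Hm (Nat.zero_le _))
  have key := snap_nl Cas.Link33.wt1 (fm_mx hm) (fm_mx hm) (c := m) (T := T) (fun x => by
      have hn' : (m : ℝ) ≠ 0 := Nat.cast_ne_zero.2 hm.ne'
      simp [ov, dotProduct, Cas.Link33.sv_sq, hn']) (Nat.cast_nonneg m) (lg_md L hx S.n)
    (lg_md L' hx' S.n') (S.H k0 le_rfl).symm S.d0 S.e0
    (fun k h1 k' h2 h3 => S.A (k0 + k) (k0 + k') (by omega) (by omega) (by omega)
      (by have := S.n'; omega) h3)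
    (fun k h1 k' h2 h3 => S.B (k0 + k) (k0 + k') (by omega) (by omega) (by omega)
      (by have := S.n; omega) h3)
    (by simp only [Nat.add_sub_cancel' S.n, add_zero]; linarith [S.t])
    (by simp only [Nat.add_sub_cancel' S.n', add_zero]; linarith [S.t'])
    (((a, M.d 0, 0) :: M.Mu.take k0).map (mxL m 1)) 0
  simp only [Nat.add_sub_cancel' S.n, Nat.add_sub_cancel' S.n'] at key
  have e1 : M.L m a = ((a, M.d 0, 0) :: M.Mu.take k0).map (mxL m 1) ++
      (nl (fun k => M.z (k0 + k)) (fun k => M.H (k0 + k)) (M.N - k0)).map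
        fun p => mxL m 1 (p.1, 0, p.2) := by
    rw [Md.L, Md.Mx, Mu_split M S.dc, List.take_left' (by simp [Md.Mu, S.n])]
    simp [Function.comp_def]
  have e2 : M'.L m a = ((a, M.d 0, 0) :: M.Mu.take k0).map (mxL m 1) ++
      (nl (fun k => M'.z (k0 + k)) (fun k => M'.H (k0 + k)) (M'.N - k0)).map
        fun p => mxL m 1 (p.1, 0, p.2) := by
    rw [Md.L, Md.Mx, Mu_split M' S.dc', e, S.d 0 (Nat.zero_le _)]
    simp [Function.comp_def]
  rw [Md.V, Md.V, e1, e2]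
  exact key

/-- **SNAP** -/
theorem snap {k0 : ℕ} {δ η T x x' : ℝ} {M M' : Md} (S : Snp k0 δ η T M M') (L : M.Leg x)
    (L' : M'.Leg x') (hx : 0 ≤ x) (hx' : 0 ≤ x') {m : ℕ} (hm : 0 < m) (a a' : ℝ) :
    |M'.V m a' - M'.V m a - (M.V m a' - M.V m a)| ≤ m * (2 * δ + η * T) := by
  have h1 := abs_le.1 (snap_abs S L L' hx hx' hm a)
  have h2 := abs_le.1 (snap_abs S L L' hx hx' hm a')
  rw [abs_le]
  constructor <;> linarith [h1.1, h1.2, h2.1, h2.2]

/-- a snap is a stage with two members -/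
theorem stage_snap {k0 n : ℕ} {δ η T s γ C ε : ℝ} {M M' : Md} (S : Snp k0 δ η T M M') (hn : 0 < n)
    (hs : 1 ≤ s) (L : M.Leg (s * (n : ℝ) ^ (γ - 1 / 6))) (L' : M'.Leg (s * (n : ℝ) ^ (γ - 1 / 6)))
    (hC : M.d 0 ≤ C) (hε : 2 * n * (2 * δ + η * T) ≤ ε * (n : ℝ) ^ ((1 : ℝ) / 6)) :
    Stage n s γ C ε M {M, M'} := by
  have x0 : 0 ≤ s * (n : ℝ) ^ (γ - 1 / 6) := by positivity
  have T0 : 0 ≤ T := (L.H0.ge.trans (L.Hm (Nat.zero_le _))).trans S.t
  have p0 : 0 ≤ 2 * δ + η * T := by have := S.d0; have := S.e0; positivity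
  have e0 : 0 ≤ ε * (n : ℝ) ^ ((1 : ℝ) / 6) := le_trans (by positivity) hε
  refine ⟨by simp, fun N hN => ?_, fun a a' Q _ hQ _ m h1 h2 N hN => ?_⟩
  · rcases hN with rfl | rfl
    · exact ⟨L, hC⟩
    · exact ⟨L', (S.d 0 (Nat.zero_le _)).trans_le hC⟩
  have s5 : 1 ≤ Q * s ^ 2 + s ^ 5 := by
    have := one_le_pow₀ (n := 5) hs
    have : 0 ≤ Q * s ^ 2 := by positivity
    linarith
  have k := le_mul_of_one_le_right e0 s5
  rcases hN with rfl | rfl
  · rw [sub_self, abs_zero]; exact e0.trans k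
  · have h3 : (m : ℝ) ≤ 2 * n := by exact_mod_cast h2
    exact (snap S L L' x0 x0 (hn.trans_le h1) a a').trans
      (((mul_le_mul_of_nonneg_right h3 p0).trans hε).trans k)

end Crest.Agent.T156.Alt

end
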