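import Crest.Agent.T156.SoftDef_88

/-!
# Row 156, soft part: `Key β → S27 β` (helper88)
-/

set_option autoImplicit false
open MeasureTheory ProbabilityTheory Filter Topology Set
open Crest.ProbabilityR.SpinGlass

namespace Crest.Agent.T156.Soft

theorem rpow_neg_le_one_88 {n : ℕ} (hn : 1 ≤ n) {c : ℝ} (hc : 0 < c) : (n : ℝ) ^ (-c) ≤ 1 :=
  Real.rpow_le_one_of_one_le_of_nonpos (by exact_mod_cast hn) (by linarith)

theorem tendsto_rpow_neg_88 {c : ℝ} (hc : 0 < c) (C : ℝ) :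
    Tendsto (fun n : ℕ => C * (n : ℝ) ^ (-c)) atTop (𝓝 0) := by
  have := ((tendsto_rpow_neg_atTop hc).comp tendsto_natCast_atTop_atTop).const_mul C
  simpa using this

theorem tendsto_of_rate_88 {m : ℕ → ℝ} {a c C : ℝ} (hc : 0 < c) {n₀ : ℕ}
    (h : ∀ n : ℕ, n₀ ≤ n → |m n - a| ≤ C * (n : ℝ) ^ (-c)) : Tendsto m atTop (𝓝 a) := by
  rw [tendsto_iff_norm_sub_tendsto_zero]
  refine squeeze_zero' (Eventually.of_forall fun n => norm_nonneg _) ?_ (tendsto_rpow_neg_88 hc C)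
  filter_upwards [eventually_ge_atTop n₀] with n hn
  simpa [Real.norm_eq_abs] using h n hn

theorem bdd_of_cauchy_88 (hC : CauchyStmt) {m : ℕ → ℝ} {c C : ℝ} {n₁ : ℕ} (hc : 0 < c)
    (h : ∀ n n' : ℕ, n₁ ≤ n → n ≤ n' → n' ≤ 2 * n → |m n - m n'| ≤ C * (n : ℝ) ^ (-c)) :
    ∃ B : ℝ, ∀ n : ℕ, 1 ≤ n → m n ≤ B := by
  obtain ⟨a, C', h'⟩ := hC m c C n₁ hc h
  refine ⟨a + |C'|, fun n hn => ?_⟩
  have h1 := h' n hn
  have h2 : C' * (n : ℝ) ^ (-c) ≤ |C'| := by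
    have h3 : 0 ≤ (n : ℝ) ^ (-c) := by positivity
    calc C' * (n : ℝ) ^ (-c) ≤ |C'| * (n : ℝ) ^ (-c) :=
          mul_le_mul_of_nonneg_right (le_abs_self _) h3
      _ ≤ |C'| * 1 := mul_le_mul_of_nonneg_left (rpow_neg_le_one_88 hn hc) (abs_nonneg _)
      _ = |C'| := mul_one _
  have := (abs_le.mp h1).2
  linarith

theorem Nice.int_pow_88 {μ : Measure ℝ} (h : Nice μ) (k : ℕ) : Integrable (fun x => x ^ k) μ := by
  refine ((h.expInt 1).const_mul (k.factorial : ℝ)).mono' (by fun_prop) (ae_of_all _ fun x => ?_)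
  have h1 := Real.pow_div_factorial_le_exp |x| (abs_nonneg x) k
  have h2 : (0 : ℝ) < k.factorial := by exact_mod_cast k.factorial_pos
  rw [div_le_iff₀ h2] at h1
  rw [Real.norm_eq_abs, abs_pow, one_mul]
  linarith

theorem Nice.int_exp_88 {μ : Measure ℝ} (h : Nice μ) (s : ℝ) :
    Integrable (fun x => Real.exp (s * x)) μ := by
  refine (h.expInt |s|).mono' (by fun_prop) (ae_of_all _ fun x => ?_)
  rw [Real.norm_eq_abs, abs_of_pos (Real.exp_pos _), ← abs_mul]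
  exact Real.exp_le_exp.mpr (le_abs_self _)

theorem Nice.mgf_eq_88 {μ : Measure ℝ} (h : Nice μ) (s : ℝ) :
    ∫ x, Real.exp (s * x) ∂μ = Real.exp (lam μ s) := by
  have := h.prob
  rw [lam, Real.exp_log]
  exact integral_exp_pos (h.int_exp_88 s)

theorem a27Stmt : A27Stmt := by
  intro hB hL hP hE hT hCl hPos hC β hK
  obtain ⟨s₁, s₂, c, C, n₁, hs₁, hs₂, hc, hcau, s, s', δ, hs, hs', hδ, hfr⟩ := hK
  have nice : ∀ n, Nice (yLaw n β) := fun n => (hB n β).2.2.2.2.2.2.2.2.2.2.2.1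
  have mom : ∀ n k, ∫ x, x ^ k ∂yLaw n β = fluctuationMoment β k n :=
    fun n => (hB n β).2.2.2.2.2.2.2.2.2.2.2.2.1
  have cont : ∀ n, Continuous (scaledFluctuation n β) := fun n => (hB n β).2.2.2.2.1
  have hs₂0 : 0 < s₂ := by linarith
  -- uniform bounds
  obtain ⟨B₁, hB₁⟩ := bdd_of_cauchy_88 hC (m := fun n => Ln n β s₁ (2 * s₁)) hc
    fun n n' h1 h2 h3 => hcau n n' h1 h2 h3 _ ⟨by linarith, by linarith⟩
  obtain ⟨B₂, hB₂⟩ := bdd_of_cauchy_88 hC (m := fun n => Ln n β s₁ s₂) hc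
    fun n n' h1 h2 h3 => hcau n n' h1 h2 h3 _ ⟨by linarith, le_rfl⟩
  obtain ⟨c₀, C₀, hc₀, hexp⟩ := hE s₁ (2 * s₁ * B₁) hs₁
  have hexp' : ∀ n : ℕ, 1 ≤ n → ∫ x, Real.exp (c₀ * |x|) ∂yLaw n β ≤ C₀ ∧
      |lam (yLaw n β) s₁| ≤ C₀ := by
    intro n hn
    refine hexp _ (nice n) (hL hB n β).2 ?_
    have h1 := hB₁ n hn
    rw [hP hB n β _ _ hn hs₁ (by linarith), Lm] at h1
    have h2 : lam (yLaw n β) (2 * s₁) =
        2 * s₁ * (lam (yLaw n β) (2 * s₁) / (2 * s₁) - lam (yLaw n β) s₁ / s₁) +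
          2 * lam (yLaw n β) s₁ := by field_simp; ring
    rw [h2]
    have := mul_le_mul_of_nonneg_left h1 (by linarith : 0 ≤ 2 * s₁)
    linarith
  set M : ℝ := max C₀ (Real.exp (s₂ * (B₂ + C₀ / s₁))) with hM
  have hM1 : ∀ n : ℕ, 1 ≤ n → ∫ x, Real.exp (c₀ * |x|) ∂yLaw n β ≤ M :=
    fun n hn => (hexp' n hn).1.trans (le_max_left _ _)
  have hM2 : ∀ n : ℕ, 1 ≤ n → ∫ x, Real.exp (s₂ * x) ∂yLaw n β ≤ M := by
    intro n hn
    refine le_trans ?_ (le_max_right _ _)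
    rw [(nice n).mgf_eq_88]
    apply Real.exp_le_exp.mpr
    have h1 := hB₂ n hn
    rw [hP hB n β _ _ hn hs₁ hs₂0, Lm] at h1
    have h2 : lam (yLaw n β) s₁ / s₁ ≤ C₀ / s₁ :=
      div_le_div_of_nonneg_right (abs_le.mp (hexp' n hn).2).2 hs₁.le
    have h3 : lam (yLaw n β) s₂ = s₂ * (lam (yLaw n β) s₂ / s₂) := by field_simp
    rw [h3]
    exact mul_le_mul_of_nonneg_left (by linarith) hs₂0.le
  obtain ⟨α, hα, hclose⟩ := hCl hT s₁ s₂ c₀ M hs₁ hs₂ hc₀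
  set C₁ : ℝ := max C 1 with hC₁
  have hC₁0 : 0 < C₁ := lt_of_lt_of_le one_pos (le_max_right _ _)
  obtain ⟨n₂, hn₂⟩ : ∃ n₂ : ℕ, ∀ n : ℕ, n₂ ≤ n → C₁ * (n : ℝ) ^ (-c) ≤ 1 := by
    have := (tendsto_rpow_neg_88 hc C₁).eventually (ge_mem_nhds (one_pos))
    exact eventually_atTop.mp this
  have key : ∀ k : ℕ, ∃ a C' : ℝ, ∀ n : ℕ, 1 ≤ n →
      |fluctuationMoment β k n - a| ≤ C' * (n : ℝ) ^ (-(c * α)) := by
    intro k
    obtain ⟨Ck, hCk⟩ := hclose k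
    refine hC (fun n => fluctuationMoment β k n) (c * α) (Ck * C₁ ^ α) (max (max n₁ n₂) 1)
      (mul_pos hc hα) fun n n' h1 h2 h3 => ?_
    have e1 : n₁ ≤ n := le_trans (le_trans (le_max_left _ _) (le_max_left _ _)) h1
    have e2 : n₂ ≤ n := le_trans (le_trans (le_max_right _ _) (le_max_left _ _)) h1
    have e3 : 1 ≤ n := le_trans (le_max_right _ _) h1
    have e4 : 1 ≤ n' := e3.trans h2
    have np : (0 : ℝ) < n := by exact_mod_cast e3
    have hε : 0 < C₁ * (n : ℝ) ^ (-c) := mul_pos hC₁0 (Real.rpow_pos_of_pos np _)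
    have := hCk _ _ (nice n) (nice n') (hM1 n e3) (hM1 n' e4) (hM2 n e3) (hM2 n' e4) _ hε
      (hn₂ n e2) fun t ht => by
        have ht0 : 0 < t := lt_of_lt_of_le hs₁ ht.1
        rw [← hP hB n β _ _ e3 hs₁ ht0, ← hP hB n' β _ _ e4 hs₁ ht0]
        exact (hcau n n' e1 h2 h3 t ht).trans
          (mul_le_mul_of_nonneg_right (le_max_left _ _) (by positivity))
    rw [mom, mom, Real.mul_rpow hC₁0.le (by positivity), ← Real.rpow_mul np.le] at this
    rw [show -(c * α) = -c * α by ring, mul_assoc]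
    exact this
  choose a C' ha using key
  have lim : ∀ k, Tendsto (fun n => fluctuationMoment β k n) atTop (𝓝 (a k)) :=
    fun k => tendsto_of_rate_88 (mul_pos hc hα) (ha k)
  refine ⟨a, ?_, ?_, fun k _ => ⟨c * α, mul_pos hc hα, C' k, fun n hn => ⟨?_, ha k n (by omega)⟩⟩,
    c₀, hc₀, C₀, fun n hn => ?_⟩
  · have h1 : (fun n => fluctuationMoment β 1 n) = fun _ => (0 : ℝ) := by
      funext n
      rw [← mom]
      simpa using (nice n).mean
    have h2 := lim 1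
    rw [h1] at h2
    exact (tendsto_nhds_unique tendsto_const_nhds h2).symm
  · obtain ⟨v, hv, hpos⟩ := hPos s s' s₂ M δ (lt_of_lt_of_le hs₁ hs.1) (lt_of_lt_of_le hs₁ hs'.1)
      (by linarith [hs.2]) (by linarith [hs'.2]) hδ
    refine lt_of_lt_of_le hv (ge_of_tendsto_of_frequently (lim 2) ?_)
    refine (hfr.and_eventually (eventually_ge_atTop 1)).mono fun n hn => ?_
    rw [← mom]
    refine hpos _ (nice n) (hM2 n hn.2) ?_
    rw [← hP hB n β _ _ hn.2 (lt_of_lt_of_le hs₁ hs.1) (lt_of_lt_of_le hs₁ hs'.1)]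
    exact hn.1
  · have := (nice n).int_pow_88 k
    rw [yLaw, integrable_map_measure (by fun_prop) (cont n).measurable.aemeasurable] at this
    exact this
  · have h1 := (nice n).expInt c₀
    have h2 := (hexp' n (by omega)).1
    rw [yLaw, integrable_map_measure (by fun_prop) (cont n).measurable.aemeasurable] at h1
    rw [yLaw, integral_map (cont n).measurable.aemeasurable (by fun_prop)] at h2
    exact ⟨h1, h2⟩

end Crest.Agent.T156.Soft
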