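import Mathlib
import Crest.Prelude.Def_SKModel
import Crest.Agent.Lib.PrekopaLeindler

/-!
# Row 156, soft part (helper88): the five statements from one key estimate

`Key β` (Cauchy at a power rate for differences of `ψ_n(m) = (1/m) log E Z^m` at `m ~ n^{-1/6}`,
limit not zero) gives `S27`, and `S27` gives `S24 S25 S26 S28`.  This file only holds the
propositions; every `...Stmt` is one leaf.
-/

set_option autoImplicit false
open MeasureTheory ProbabilityTheory Filter Topology Set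
open Crest.ProbabilityR.SpinGlass

namespace Crest.Agent.T156.Soft

/-! ### the five targets (bodies of the frozen statements) -/

def S24 (β : ℝ) : Prop :=
    ∃ ν : MeasureTheory.Measure ℝ, MeasureTheory.IsProbabilityMeasure ν ∧
      ∫ x, x ∂ν = 0 ∧ ∫ x, x ^ 2 ∂ν = 1 ∧
      (∃ c : ℝ, 0 < c ∧ MeasureTheory.Integrable (fun x => Real.exp (c * |x|)) ν) ∧
      ∀ f : BoundedContinuousFunction ℝ ℝ,
        Filter.Tendsto
          (fun n : ℕ => ∫ g, f ((logPartitionFunction n β g -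
              ∫ g', logPartitionFunction n β g' ∂disorderLaw n) /
              Real.sqrt (ProbabilityTheory.variance (logPartitionFunction n β) (disorderLaw n)))
            ∂disorderLaw n)
          Filter.atTop (nhds (∫ x, f x ∂ν))

def S25 (β : ℝ) : Prop :=
    ∃ c : ℝ, 0 < c ∧
      Filter.Tendsto
        (fun n : ℕ => ProbabilityTheory.variance (logPartitionFunction n β) (disorderLaw n) /
          (n : ℝ) ^ ((1 : ℝ) / 3))
        Filter.atTop (nhds c)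

def S26 (β η : ℝ) : Prop :=
    (∃ n₀ : ℕ, ∀ n : ℕ, n₀ ≤ n →
        (n : ℝ) ^ ((1 : ℝ) / 6 - η) ≤
            Real.sqrt (ProbabilityTheory.variance (logPartitionFunction n β) (disorderLaw n)) ∧
          Real.sqrt (ProbabilityTheory.variance (logPartitionFunction n β) (disorderLaw n)) ≤
            (n : ℝ) ^ ((1 : ℝ) / 6 + η)) ∧
      Filter.Tendsto
        (fun n : ℕ => (disorderLaw n).real {g | (n : ℝ) ^ ((1 : ℝ) / 6 - η) ≤
              |logPartitionFunction n β g - ∫ g', logPartitionFunction n β g' ∂disorderLaw n| ∧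
            |logPartitionFunction n β g - ∫ g', logPartitionFunction n β g' ∂disorderLaw n| ≤
              (n : ℝ) ^ ((1 : ℝ) / 6 + η)})
        Filter.atTop (nhds 1)

def S27 (β : ℝ) : Prop :=
    ∃ a : ℕ → ℝ, a 1 = 0 ∧ 0 < a 2 ∧
      (∀ k : ℕ, 1 ≤ k → ∃ c : ℝ, 0 < c ∧ ∃ C : ℝ, ∀ n : ℕ, 2 ≤ n →
        MeasureTheory.Integrable (fun ω => scaledFluctuation n β ω ^ k) (completedLaw n β) ∧
          |fluctuationMoment β k n - a k| ≤ C * (n : ℝ) ^ (-c)) ∧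
      (∃ c : ℝ, 0 < c ∧ ∃ C : ℝ, ∀ n : ℕ, 2 ≤ n →
        MeasureTheory.Integrable (fun ω => Real.exp (c * |scaledFluctuation n β ω|))
            (completedLaw n β) ∧
          (∫ ω, Real.exp (c * |scaledFluctuation n β ω|) ∂completedLaw n β) ≤ C)

def S28 (β : ℝ) : Prop :=
    ∃ a : ℕ → ℝ,
      (∀ k : ℕ, 1 ≤ k →
        (∀ l : ℕ, 2 ≤ l →
          MeasureTheory.Integrable (copyProduct l β k) (copyLaw l β k) ∧
            (∫ ω, copyProduct l β k ω ∂copyLaw l β k) = fluctuationMoment β k l) ∧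
        (∀ h : ℕ, Summable (fun l : ℕ =>
          sizeLaw l * (∫ ω, |copyProduct l β k ω| ∂copyLaw l β k) *
            |seriesWeight h (Real.log l)|)) ∧
        HasSum (fun h : ℕ => sizeWeightSum *
            ∑' l : ℕ, sizeLaw l * (∫ ω, copyProduct l β k ω ∂copyLaw l β k) *
              seriesWeight h (Real.log l)) (a k) ∧
        Filter.Tendsto (fun n : ℕ => fluctuationMoment β k n) Filter.atTop (nhds (a k))) ∧
      0 < a 2 ∧
      ∃ ν : MeasureTheory.Measure ℝ, MeasureTheory.IsProbabilityMeasure ν ∧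
        (∀ f : BoundedContinuousFunction ℝ ℝ,
          Filter.Tendsto
            (fun n : ℕ => ∫ g, f ((logPartitionFunction n β g -
                ∫ g', logPartitionFunction n β g' ∂disorderLaw n) /
                Real.sqrt (ProbabilityTheory.variance (logPartitionFunction n β) (disorderLaw n)))
              ∂disorderLaw n)
            Filter.atTop (nhds (∫ x, f x ∂ν))) ∧
        ∀ k : ℕ, 1 ≤ k → MeasureTheory.Integrable (fun x => x ^ k) ν ∧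
          ∫ x, x ^ k ∂ν = a k / a 2 ^ ((k : ℝ) / 2)

/-! ### objects -/

/-- `n^{-1/6} (F - E F)` without the completion. -/
noncomputable def xs (n : ℕ) (β : ℝ) (g : Disorder n) : ℝ :=
  (n : ℝ) ^ (-(1 : ℝ) / 6) *
    (logPartitionFunction n β g - ∫ g', logPartitionFunction n β g' ∂disorderLaw n)

/-- law of `xs` -/
noncomputable def xLaw (n : ℕ) (β : ℝ) : Measure ℝ := (disorderLaw n).map (xs n β)

/-- law of the scaled completed fluctuation -/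
noncomputable def yLaw (n : ℕ) (β : ℝ) : Measure ℝ :=
  (completedLaw n β).map (scaledFluctuation n β)

/-- `ψ_n(m) = (1/m) log E exp (m F)` for the completed free energy -/
noncomputable def psi (n : ℕ) (β m : ℝ) : ℝ :=
  Real.log (∫ ω, Real.exp (m * completedFreeEnergy n β ω) ∂completedLaw n β) / m

/-- `L_n(s,s') = n^{-1/6} (ψ_n(s' n^{-1/6}) - ψ_n(s n^{-1/6}))` -/
noncomputable def Ln (n : ℕ) (β s s' : ℝ) : ℝ :=
  (n : ℝ) ^ (-(1 : ℝ) / 6) *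
    (psi n β (s' * (n : ℝ) ^ (-(1 : ℝ) / 6)) - psi n β (s * (n : ℝ) ^ (-(1 : ℝ) / 6)))

/-- log of the moment generating function of a law on the line -/
noncomputable def lam (μ : Measure ℝ) (s : ℝ) : ℝ := Real.log (∫ x, Real.exp (s * x) ∂μ)

/-- `Λ(s')/s' - Λ(s)/s` -/
noncomputable def Lm (μ : Measure ℝ) (s s' : ℝ) : ℝ := lam μ s' / s' - lam μ s / s

/-- the distribution function is log-concave -/
def CdfLC (μ : Measure ℝ) : Prop :=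
  ∀ s t θ : ℝ, 0 < θ → θ < 1 →
    μ.real (Iic s) ^ (1 - θ) * μ.real (Iic t) ^ θ ≤ μ.real (Iic ((1 - θ) * s + θ * t))

/-- centred probability law with all exponential moments -/
structure Nice (μ : Measure ℝ) : Prop where
  prob : IsProbabilityMeasure μ
  expInt : ∀ c : ℝ, Integrable (fun x => Real.exp (c * |x|)) μ
  mean : ∫ x, x ∂μ = 0

/-- **THE KEY ESTIMATE** of row 156. -/
def Key (β : ℝ) : Prop :=
  ∃ s₁ s₂ c C : ℝ, ∃ n₁ : ℕ, 0 < s₁ ∧ 3 * s₁ ≤ s₂ ∧ 0 < c ∧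
    (∀ n n' : ℕ, n₁ ≤ n → n ≤ n' → n' ≤ 2 * n → ∀ s ∈ Icc s₁ s₂,
      |Ln n β s₁ s - Ln n' β s₁ s| ≤ C * (n : ℝ) ^ (-c)) ∧
    ∃ s s' δ : ℝ, s ∈ Icc s₁ (s₂ / 2) ∧ s' ∈ Icc s₁ (s₂ / 2) ∧ 0 < δ ∧
      ∃ᶠ n : ℕ in atTop, δ ≤ Ln n β s s'

/-! ### leaves about the model -/

/-- elementary facts -/
def BasicStmt : Prop := ∀ (n : ℕ) (β : ℝ),
  IsProbabilityMeasure (disorderLaw n) ∧ IsProbabilityMeasure (completedLaw n β) ∧
  Continuous (logPartitionFunction n β) ∧ Continuous (completedFreeEnergy n β) ∧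
  Continuous (scaledFluctuation n β) ∧ Continuous (xs n β) ∧
  ConvexOn ℝ univ (logPartitionFunction n β) ∧
  (∀ c : ℝ, Integrable (fun g => Real.exp (c * |logPartitionFunction n β g|)) (disorderLaw n)) ∧
  (∀ c : ℝ, Integrable (fun ω => Real.exp (c * |completedFreeEnergy n β ω|)) (completedLaw n β)) ∧
  (∀ ω, scaledFluctuation n β ω = xs n β ω.1 + (n : ℝ) ^ (-(1 : ℝ) / 6) * ω.2) ∧
  Nice (xLaw n β) ∧ Nice (yLaw n β) ∧
  (∀ k : ℕ, ∫ x, x ^ k ∂yLaw n β = fluctuationMoment β k n) ∧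
  ∫ x, x ^ 2 ∂xLaw n β =
    variance (logPartitionFunction n β) (disorderLaw n) / (n : ℝ) ^ ((1 : ℝ) / 3)

/-- Prékopa–Leindler for the Gaussian laws (`Lib.PrekopaLeindler`: `pl_real` with the density,
`PL.prod`, `PL.of_measurePreserving`), then sublevel sets of the convex functions. -/
def LcStmt : Prop := BasicStmt → ∀ (n : ℕ) (β : ℝ), CdfLC (xLaw n β) ∧ CdfLC (yLaw n β)

/-- the `ψ` form and the centred form agree -/
def PsiStmt : Prop := BasicStmt → ∀ (n : ℕ) (β s s' : ℝ), 1 ≤ n → 0 < s → 0 < s' →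
  Ln n β s s' = Lm (yLaw n β) s s'

/-- the completion does not change the limits of the moments; Jensen in the completion variable
for the exponential moment -/
def XMomStmt : Prop := BasicStmt → ∀ (β c C : ℝ) (a : ℕ → ℝ), 0 < c →
  (∀ n : ℕ, 2 ≤ n → ∫ x, Real.exp (c * |x|) ∂yLaw n β ≤ C) →
  (∀ k : ℕ, 1 ≤ k → Tendsto (fun n : ℕ => fluctuationMoment β k n) atTop (𝓝 (a k))) →
  (∀ n : ℕ, 2 ≤ n → ∫ x, Real.exp (c * |x|) ∂xLaw n β ≤ C) ∧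
  ∀ k : ℕ, 1 ≤ k → Tendsto (fun n : ℕ => ∫ x, x ^ k ∂xLaw n β) atTop (𝓝 (a k))

/-- the copy product: integrable, mean = moment (Fubini over the copies given copy `0`) -/
def CopyStmt : Prop := BasicStmt → ∀ (l : ℕ) (β : ℝ) (k : ℕ),
  Integrable (copyProduct l β k) (copyLaw l β k) ∧
    (∫ ω, copyProduct l β k ω ∂copyLaw l β k) = fluctuationMoment β k l

/-- `|P| ≤ 2^k Σ_j |Y_j|^k` -/
def CopyBdStmt : Prop := BasicStmt → ∀ (k : ℕ) (c C : ℝ), 0 < c → ∃ K : ℝ, ∀ (l : ℕ) (β : ℝ),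
  ∫ x, Real.exp (c * |x|) ∂yLaw l β ≤ C → ∫ ω, |copyProduct l β k ω| ∂copyLaw l β k ≤ K

/-! ### leaves about laws on the line -/

/-- R3: no mass near zero. `E X₋ ≥ c`, so `G(-a) ≥ p`, and `G(-ε) ≥ G(ε) p^θ`, `θ = 2ε/(a+ε)`. -/
def AntiStmt : Prop := ∀ v K τ : ℝ, 0 < v → 0 < τ → ∃ ε : ℝ, 0 < ε ∧ ∀ μ : Measure ℝ,
  Nice μ → CdfLC μ → v ≤ ∫ x, x ^ 2 ∂μ → ∫ x, x ^ 4 ∂μ ≤ K → μ.real (Ioo (-ε) ε) ≤ τ

/-- R4: one positive-moment inequality gives a two-sided exponential moment. With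
`X = s x - Λ(s)`: Paley–Zygmund `P(X > -log 2) ≥ e^{-k}/4`, Markov `P(X > u) ≤ e^{-u}`,
log-concavity gives an exponential lower tail; `Λ(s) = -E X` is then bounded. -/
def ExpStmt : Prop := ∀ s k : ℝ, 0 < s → ∃ c C : ℝ, 0 < c ∧ ∀ μ : Measure ℝ,
  Nice μ → CdfLC μ → lam μ (2 * s) ≤ 2 * lam μ s + k →
  ∫ x, Real.exp (c * |x|) ∂μ ≤ C ∧ |lam μ s| ≤ C

/-- two-constants theorem: three lines for `w ↦ h (x₀ + ℓ cosh w)` (`x₀ = s₁ + ℓ`, `ℓ` small),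
then the Cauchy estimate on a small disc at `0`. -/
def TwoStmt : Prop := ∀ s₁ s₂ c₀ M : ℝ, 0 < s₁ → 3 * s₁ ≤ s₂ → 0 < c₀ → ∃ α : ℝ, 0 < α ∧
  ∀ k : ℕ, ∃ C : ℝ, ∀ h : ℂ → ℂ, Differentiable ℂ h →
    (∀ z : ℂ, -c₀ ≤ z.re → z.re ≤ s₂ → ‖h z‖ ≤ M) →
    ∀ ε : ℝ, 0 < ε → ε ≤ 1 → (∀ s ∈ Icc s₁ s₂, ‖h (s : ℂ)‖ ≤ ε) →
      ‖iteratedDeriv k h 0‖ ≤ C * ε ^ α

/-- R5: `h z = M_μ z - M_ν z * exp (d z)`, `d = Λ_μ(s₁)/s₁ - Λ_ν(s₁)/s₁`; `h' 0 = -d`. -/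
def CloseStmt : Prop := TwoStmt → ∀ s₁ s₂ c₀ M : ℝ, 0 < s₁ → 3 * s₁ ≤ s₂ → 0 < c₀ →
  ∃ α : ℝ, 0 < α ∧ ∀ k : ℕ, ∃ C : ℝ, ∀ μ ν : Measure ℝ, Nice μ → Nice ν →
    ∫ x, Real.exp (c₀ * |x|) ∂μ ≤ M → ∫ x, Real.exp (c₀ * |x|) ∂ν ≤ M →
    ∫ x, Real.exp (s₂ * x) ∂μ ≤ M → ∫ x, Real.exp (s₂ * x) ∂ν ≤ M →
    ∀ ε : ℝ, 0 < ε → ε ≤ 1 → (∀ s ∈ Icc s₁ s₂, |Lm μ s₁ s - Lm ν s₁ s| ≤ ε) →
      |∫ x, x ^ k ∂μ - ∫ x, x ^ k ∂ν| ≤ C * ε ^ α

/-- a non-zero `L` forces a non-zero variance: `0 ≤ Λ(s) ≤ E e^{sx} - 1 ≤ s ‖x‖₂ (1+M)^{1/2}` -/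
def PosStmt : Prop := ∀ s s' s₂ M δ : ℝ, 0 < s → 0 < s' → 2 * s ≤ s₂ → 2 * s' ≤ s₂ → 0 < δ →
  ∃ v : ℝ, 0 < v ∧ ∀ μ : Measure ℝ, Nice μ → ∫ x, Real.exp (s₂ * x) ∂μ ≤ M →
    δ ≤ Lm μ s s' → v ≤ ∫ x, x ^ 2 ∂μ

/-- moment determinacy under an exponential moment (`complexMGF` is analytic in a strip) -/
def DetStmt : Prop := ∀ (μ ν : Measure ℝ) (c : ℝ), IsProbabilityMeasure μ →
  IsProbabilityMeasure ν → 0 < c → Integrable (fun x => Real.exp (c * |x|)) μ →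
  Integrable (fun x => Real.exp (c * |x|)) ν →
  (∀ k : ℕ, 1 ≤ k → ∫ x, x ^ k ∂μ = ∫ x, x ^ k ∂ν) → μ = ν

/-- method of moments: tightness, Prokhorov, uniform integrability, `DetStmt` -/
def LimitStmt : Prop := DetStmt → ∀ (μ : ℕ → Measure ℝ) (b : ℕ → ℝ) (c C : ℝ),
  (∀ n, IsProbabilityMeasure (μ n)) → 0 < c →
  (∀ᶠ n in atTop, Integrable (fun x => Real.exp (c * |x|)) (μ n) ∧
    ∫ x, Real.exp (c * |x|) ∂μ n ≤ C) →
  (∀ k : ℕ, 1 ≤ k → Tendsto (fun n => ∫ x, x ^ k ∂μ n) atTop (𝓝 (b k))) →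
  ∃ ν : Measure ℝ, IsProbabilityMeasure ν ∧ Integrable (fun x => Real.exp (c * |x|)) ν ∧
    (∀ k : ℕ, 1 ≤ k → Integrable (fun x => x ^ k) ν ∧ ∫ x, x ^ k ∂ν = b k) ∧
    ∀ f : BoundedContinuousFunction ℝ ℝ,
      Tendsto (fun n => ∫ x, f x ∂μ n) atTop (𝓝 (∫ x, f x ∂ν))

/-! ### leaves about sequences -/

/-- dyadic chaining -/
def CauchyStmt : Prop := ∀ (m : ℕ → ℝ) (c C : ℝ) (n₁ : ℕ), 0 < c →
  (∀ n n' : ℕ, n₁ ≤ n → n ≤ n' → n' ≤ 2 * n → |m n - m n'| ≤ C * (n : ℝ) ^ (-c)) →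
  ∃ a C' : ℝ, ∀ n : ℕ, 1 ≤ n → |m n - a| ≤ C' * (n : ℝ) ^ (-c)

/-- `t^h/h! ≤ θ^{-h} e^{θ t}` with `θ = 1/2` -/
def SummStmt : Prop := ∀ (b : ℕ → ℝ) (K : ℝ) (h : ℕ), (∀ l : ℕ, 2 ≤ l → |b l| ≤ K) →
  Summable (fun l : ℕ => sizeLaw l * b l * |seriesWeight h (Real.log l)|)

/-- R1. `T_H = Σ_{l ≥ 2} l^{-2} m(l) (log l)^H / H!`, the `h`-th term is `T_h - T_{h-1}`, and
`|T_H - a| ≤ C θ^{-H}`, `θ > 1`: error part by `t^H/H! ≤ θ^{-H} e^{θ t}` (`θ = 1 + c/2`); main part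
by the mean value theorem for `A_H(x) = -x⁻¹ Σ_{j ≤ H} (log x)^j/j!`, `A_H' = x^{-2}(log x)^H/H!`,
which telescopes to `-A_H(2) → 1`. -/
def SeriesStmt : Prop := ∀ (m : ℕ → ℝ) (a c C : ℝ), 0 < c →
  (∀ l : ℕ, 2 ≤ l → |m l - a| ≤ C * (l : ℝ) ^ (-c)) →
  HasSum (fun h : ℕ => sizeWeightSum *
    ∑' l : ℕ, sizeLaw l * m l * seriesWeight h (Real.log l)) a

/-! ### assembly leaves -/

/-- R4 + R5 -/
def A27Stmt : Prop := BasicStmt → LcStmt → PsiStmt → ExpStmt → TwoStmt → CloseStmt → PosStmt →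
  CauchyStmt → ∀ β : ℝ, Key β → S27 β

/-- R2 + R3 -/
def A256Stmt : Prop := BasicStmt → LcStmt → XMomStmt → AntiStmt →
  ∀ β : ℝ, S27 β → S25 β ∧ ∀ η : ℝ, 0 < η → S26 β η

/-- R1 + R2: apply `LimitStmt` to the laws of the standardised variables -/
def A248Stmt : Prop := BasicStmt → XMomStmt → CopyStmt → CopyBdStmt → DetStmt → LimitStmt →
  SummStmt → SeriesStmt → ∀ β : ℝ, S27 β → S24 β ∧ S28 β

end Crest.Agent.T156.Soft
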