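import Crest.Agent.T156.Sort_86

/-!
# Row 156, SR route: moving slices of the field between levels (helper86)

`plan`: slices `π k j` of the kernel `κ` are moved from the level `k` to the level `j`; the gain is
at least the tangent read in the first model (joint convexity in the tilts and SORT).
-/

set_option autoImplicit false
set_option linter.unusedSectionVars false

noncomputable section

namespace Crest.Agent.T156.Cas.Sort86

open MeasureTheory Real Set Filter Topology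
open Crest.Agent.T157.E Crest.Agent.T157.Casc Crest.Agent.T157.SL
open Trf

variable {Ω : Type} [Fintype Ω] {w : Ω → ℝ}

/-- one step with another tilt and another terminal value -/
theorem step_any {F G : (Ω → ℝ) → ℝ} (hF : Lg F) (hG : Lg G) (l : Lv Ω) {m : ℝ} (h0 : 0 < m)
    (hl : 0 < l.m) (z : Ω → ℝ) :
    step l F z + (m - l.m) / m * (tE l F F z - step l F z) + tE l F (fun z => G z - F z) z ≤
      step (rt l m) G z := by
  have key := step_ge (l := rt l m) (Lift72.lg_cmul hF (l.m / m)) hG h0.le z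
  have e0 : ∀ u : ℝ, m * (l.m / m * u) = l.m * u := fun u => by field_simp
  have e1 : step (rt l m) (fun z => l.m / m * F z) z = l.m / m * step l F z := by
    simp only [step, h0.ne', hl.ne', if_false, e0]
    field_simp
    rfl
  have e2 : ∀ Φ : (Ω → ℝ) → ℝ, tE (rt l m) (fun z => l.m / m * F z) Φ z = tE l F Φ z := fun Φ => by
    simp only [tE, e0]
    rfl
  rw [e1, e2, tE_sub hF hG.eg (hF.eg.const_mul _), tE_const_mul] at key
  rw [tE_sub hF hG.eg hF.eg]
  have e3 : (m - l.m) / m = 1 - l.m / m := by field_simp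
  rw [e3]
  linarith

theorem jump_mem (hw : Wt w) (l : Lv Ω) (L : List (Lv Ω)) (z : Ω → ℝ) : ∃ J,
    tE l (X w L) (X w L) z - step l (X w L) z = l.m / 2 * J ∧
      pi2 w (l :: L) 0 l.cov z ≤ J ∧ J ≤ pi2 w (l :: L) 1 l.cov z := by
  have a := Gir68.jump hw [] L l z
  have b := Kkt28.int_inside hw l l [] L l.m z
  simp only [List.nil_append, List.length_nil, zero_add, node_zero] at a b
  have e : node w (l :: L) 1 (X w L) z = tE l (X w L) (X w L) z := by
    rw [node_cons, node_zero]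
  rw [e] at a
  exact ⟨_, a, b⟩

theorem one (hw : Wt w) {l : Lv Ω} (hl : 0 ≤ l.m) {L L' : List (Lv Ω)} {Γ : (Ω → ℝ) → ℝ}
    (hΓ : Eg Γ) (h : ∀ z, X w L z + Γ z ≤ X w L' z) (z : Ω → ℝ) :
    X w (l :: L) z + tE l (X w L) Γ z ≤ X w (l :: L') z := by
  have a := step_ge (l := l) (lg_X hw L) (lg_X hw L') hl z
  have b := tE_mono (lg_X hw L) hΓ ((lg_X hw L').eg.sub (lg_X hw L).eg)
    (fun z => le_sub_iff_add_le'.2 (h z)) l z
  change step l (X w L) z + _ ≤ step l (X w L') z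
  linarith

/-- levels from data `(tilt, variance of W, variance of κ)` -/
structure Fam (G : ℝ × ℝ × ℝ → Lv Ω) (W : Ω → Ω → ℝ) (κ : Lv Ω) : Prop where
  m : ∀ p, (G p).m = p.1
  cov : ∀ p, 0 ≤ p.2.1 → 0 ≤ p.2.2 → ∀ x y, (G p).cov x y = p.2.1 * W x y + p.2.2 * κ.cov x y
  rt : ∀ p y, rt (G p) y = G (y, p.2)

/-- total variance of the slices `(new tilt, variance)` -/
def tv (S : List (ℝ × ℝ)) : ℝ := (S.map Prod.snd).sum
def cf (m : ℝ) (s : ℝ × ℝ) : ℝ := (s.1 - m) / s.1 * (m / 2) * s.2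
def cp (m : ℝ) (S : List (ℝ × ℝ)) : ℝ := (S.map fun s => max (cf m s) 0).sum
def cn (m : ℝ) (S : List (ℝ × ℝ)) : ℝ := (S.map fun s => min (cf m s) 0).sum
/-- a slice as data -/
def sl (s : ℝ × ℝ) : ℝ × ℝ × ℝ := (s.1, 0, s.2)

theorem tv_nonneg {S : List (ℝ × ℝ)} (h : ∀ s ∈ S, 0 ≤ s.2) : 0 ≤ tv S :=
  List.sum_nonneg fun x hx => by
    obtain ⟨s, hs, rfl⟩ := List.mem_map.1 hx
    exact h s hs

theorem cp_nonneg (m : ℝ) (S : List (ℝ × ℝ)) : 0 ≤ cp m S :=
  List.sum_nonneg fun x hx => by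
    obtain ⟨s, -, rfl⟩ := List.mem_map.1 hx
    exact le_max_right _ _

variable {G : ℝ × ℝ × ℝ → Lv Ω} {W : Ω → Ω → ℝ} {κ : Lv Ω}

theorem Fam.add (F : Fam G W κ) (m : ℝ) {d f u : ℝ} (hd : 0 ≤ d) (hf : 0 ≤ f) (hu : 0 ≤ u)
    (x y : Ω) : (G (m, d, u + f)).cov x y = (G (m, 0, u)).cov x y + (G (m, d, f)).cov x y := by
  rw [F.cov _ hd (add_nonneg hu hf), F.cov _ le_rfl hu, F.cov _ hd hf]
  ring

/-- slices of the same tilt merge -/
theorem merge (hw : Wt w) (F : Fam G W κ) {m d f : ℝ} (hd : 0 ≤ d) (hf : 0 ≤ f) (L : List (Lv Ω)) :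
    ∀ S : List (ℝ × ℝ), (∀ s ∈ S, s.1 = m ∧ 0 ≤ s.2) →
      X w ((S.map sl).map G ++ G (m, d, f) :: L) = X w (G (m, d, tv S + f) :: L)
  | [], _ => by simp [tv]
  | s :: S, h => by
    have h' : ∀ s ∈ S, s.1 = m ∧ 0 ≤ s.2 := fun k hk => h k (by simp [hk])
    obtain ⟨h1, h2⟩ := h s (by simp)
    have e : tv (s :: S) + f = s.2 + (tv S + f) := by simp [tv, add_assoc]
    have hp := add_nonneg (tv_nonneg fun k hk => (h' k hk).2) hf
    rw [e, C.X_split hw (l1 := G (m, 0, s.2)) (l2 := G (m, d, tv S + f)) (by rw [F.m, F.m])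
      (by rw [F.m, F.m]) (F.add m hd hp h2), List.map_cons, List.map_cons, List.cons_append,
      C.X_cons, merge hw F hd hf L S h', sl, h1, C.X_cons w (G (m, 0, s.2))]

/-- one level with its slices re-tilted -/
theorem blk (hw : Wt w) (F : Fam G W κ) {m d f : ℝ} (hm : 0 < m) (hd : 0 ≤ d) (hf : 0 ≤ f)
    {L L' : List (Lv Ω)} {Γ : (Ω → ℝ) → ℝ} (hΓ : Eg Γ) (h : ∀ z, X w L z + Γ z ≤ X w L' z) :
    ∀ S : List (ℝ × ℝ), (∀ s ∈ S, 0 < s.1 ∧ 0 ≤ s.2) → ∀ z,
      X w (G (m, d, tv S + f) :: L) z +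
        (cp m S * pi2 w (G (m, d, tv S + f) :: L) 0 κ.cov z +
          cn m S * pi2 w (G (m, d, tv S + f) :: L) 1 κ.cov z +
          tE (G (m, d, tv S + f)) (X w L) Γ z) ≤ X w ((S.map sl).map G ++ G (m, d, f) :: L') z
  | [], _, z => by
    simpa [tv, cp, cn] using one hw (l := G (m, d, f)) (by rw [F.m]; exact hm.le) hΓ h z
  | s :: S, hS, z => by
    have h' : ∀ s ∈ S, 0 < s.1 ∧ 0 ≤ s.2 := fun k hk => hS k (by simp [hk])
    obtain ⟨h1, h2⟩ := hS s (by simp)
    have ih := blk hw F hm hd hf hΓ h S h'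
    have e : tv (s :: S) + f = s.2 + (tv S + f) := by simp [tv, add_assoc]
    have hp := add_nonneg (tv_nonneg fun k hk => (h' k hk).2) hf
    have hc := F.add m hd hp h2
    rw [e]
    set l := G (m, d, s.2 + (tv S + f))
    set l1 := G (m, 0, s.2) with hl1
    set l2 := G (m, d, tv S + f)
    have m1 : l.m = l1.m := by rw [F.m, F.m]
    have m2 : l1.m = l2.m := by rw [F.m, F.m]
    have m3 : l1.m = m := F.m _
    have hX := lg_X hw (l2 :: L)
    have hY := lg_X hw ((S.map sl).map G ++ G (m, d, f) :: L')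
    have a := step_any hX hY l1 h1 (by rw [m3]; exact hm) z
    obtain ⟨J, j1, j2, j3⟩ := jump_mem hw l1 (l2 :: L) z
    have g0 := (eg_pi2 hw (l2 :: L) 0 κ.cov).const_mul (cp m S)
    have g1 := (eg_pi2 hw (l2 :: L) 1 κ.cov).const_mul (cn m S)
    have g2 := hΓ.tE (lg_X hw L) l2
    have b := tE_mono hX ((g0.add g1).add g2) (hY.eg.sub hX.eg)
      (fun z => le_sub_iff_add_le'.2 (ih z)) l1 z
    rw [tE_add hX (g0.add g1) g2, tE_add hX g0 g1, tE_const_mul, tE_const_mul, ← pi2_cons,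
      ← pi2_cons, ← Kkt28.tE_split hw m1 m2 hc L hΓ] at b
    have c1 : l1.cov = fun x y => s.2 * κ.cov x y := by
      funext x y
      rw [hl1, F.cov _ le_rfl h2]
      simp
    rw [c1, pi2_const_mul] at j2 j3
    have p0 := congrFun (Kkt28.pi2_split_lo hw m1 m2 hc L κ.cov []) z
    have p2 := congrFun (Kkt28.pi2_split_hi hw m1 m2 hc L κ.cov 0 []) z
    simp only [List.nil_append, List.length_nil, zero_add] at p0 p2 b
    have q1 := Kkt28.pi2_succ hw κ (l1 :: l2 :: L) 0 z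
    have q2 := Kkt28.pi2_succ hw κ (l1 :: l2 :: L) 1 z
    simp only [zero_add, Nat.reduceAdd] at q1 q2 b
    have r : rt l1 s.1 = G (sl s) := F.rt _ _
    rw [j1, m3, r] at a
    have e1 : cp m (s :: S) = max (cf m s) 0 + cp m S := by simp [cp]
    have e2 : cn m (s :: S) = min (cf m s) 0 + cn m S := by simp [cn]
    rw [e1, e2, p0, p2, C.X_split hw m1 m2 hc, List.map_cons, List.map_cons, List.cons_append,
      C.X_cons w l1, C.X_cons w (G (sl s))]
    have k1 := mul_le_mul_of_nonneg_left q1 (cp_nonneg m S)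
    have k2 : max (cf m s) 0 * pi2 w (l1 :: l2 :: L) 0 κ.cov z +
        min (cf m s) 0 * pi2 w (l1 :: l2 :: L) 2 κ.cov z ≤ (s.1 - m) / s.1 * (m / 2 * J) := by
      rw [← mul_assoc, cf]
      rcases le_total 0 ((s.1 - m) / s.1 * (m / 2)) with t | t
      · rw [max_eq_left (mul_nonneg t h2), min_eq_right (mul_nonneg t h2), zero_mul, add_zero,
          mul_assoc _ s.2]
        exact mul_le_mul_of_nonneg_left j2 t
      · rw [max_eq_right (mul_nonpos_of_nonpos_of_nonneg t h2),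
          min_eq_left (mul_nonpos_of_nonpos_of_nonneg t h2), zero_mul, zero_add, mul_assoc _ s.2]
        exact mul_le_mul_of_nonpos_left (j3.trans (mul_le_mul_of_nonneg_left q2 h2)) t
    linarith

/-- a level `b.1` and the slices `b.2` on top of it -/
abbrev Bk := (ℝ × ℝ × ℝ) × List (ℝ × ℝ)

def ob (b : Bk) : ℝ × ℝ × ℝ := (b.1.1, b.1.2.1, tv b.2 + b.1.2.2)
def nb (b : Bk) : List (ℝ × ℝ × ℝ) := b.2.map sl ++ [b.1]
def oD (B : ℕ → Bk) (N : ℕ) : List (ℝ × ℝ × ℝ) := (List.range N).map fun k => ob (B k)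
def nD (B : ℕ → Bk) (N : ℕ) : List (ℝ × ℝ × ℝ) := (List.range N).flatMap fun k => nb (B k)

theorem oD_succ (B : ℕ → Bk) (N : ℕ) : oD B (N + 1) = ob (B 0) :: oD (fun k => B (k + 1)) N := by
  simp [oD, List.range_succ_eq_map]

theorem nD_succ (B : ℕ → Bk) (N : ℕ) : nD B (N + 1) = nb (B 0) ++ nD (fun k => B (k + 1)) N := by
  simp [nD, List.range_succ_eq_map, List.flatMap_map]

theorem nD_map (B : ℕ → Bk) (N : ℕ) : (nD B (N + 1)).map G =
    ((B 0).2.map sl).map G ++ G ((B 0).1.1, (B 0).1.2.1, (B 0).1.2.2) ::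
      (nD (fun k => B (k + 1)) N).map G := by
  simp [nD_succ, nb]

theorem mergeD (hw : Wt w) (F : Fam G W κ) : ∀ (N : ℕ) (B : ℕ → Bk),
    (∀ k < N, 0 ≤ (B k).1.2.1 ∧ 0 ≤ (B k).1.2.2 ∧ ∀ s ∈ (B k).2, s.1 = (B k).1.1 ∧ 0 ≤ s.2) →
      X w ((nD B N).map G) = X w ((oD B N).map G)
  | 0, _, _ => rfl
  | N + 1, B, h => by
    obtain ⟨h1, h2, h3⟩ := h 0 (Nat.succ_pos N)
    rw [nD_map, merge hw F h1 h2 _ _ h3, oD_succ, List.map_cons, C.X_cons, C.X_cons,
      mergeD hw F N _ fun k hk => h (k + 1) (by omega)]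
    rfl

/-- the gain, read in the unsplit list -/
def Gn (w : Ω → ℝ) (L : List (Lv Ω)) (κ : Lv Ω) (B : ℕ → Bk) (N i : ℕ) (z : Ω → ℝ) : ℝ :=
  ∑ k ∈ Finset.range N, (cp (B k).1.1 (B k).2 * pi2 w L (k + i) κ.cov z +
    cn (B k).1.1 (B k).2 * pi2 w L (k + i + 1) κ.cov z)

theorem eg_Gn (hw : Wt w) (L : List (Lv Ω)) (κ : Lv Ω) (B : ℕ → Bk) (N i : ℕ) :
    Eg (Gn w L κ B N i) := by
  unfold Gn
  exact Eg.sum _ fun k _ => ((eg_pi2 hw _ _ _).const_mul _).add ((eg_pi2 hw _ _ _).const_mul _)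

theorem tE_Gn (hw : Wt w) (l : Lv Ω) (L : List (Lv Ω)) (κ : Lv Ω) (B : ℕ → Bk) (N : ℕ)
    (z : Ω → ℝ) : tE l (X w L) (Gn w L κ B N 0) z = Gn w (l :: L) κ B N 1 z := by
  unfold Gn
  rw [tE_sum (lg_X hw _) _ fun k _ =>
    ((eg_pi2 hw _ _ _).const_mul _).add ((eg_pi2 hw _ _ _).const_mul _)]
  refine Finset.sum_congr rfl fun k _ => ?_
  rw [tE_add (lg_X hw _) ((eg_pi2 hw _ _ _).const_mul _) ((eg_pi2 hw _ _ _).const_mul _),
    tE_const_mul, tE_const_mul, ← pi2_cons, ← pi2_cons]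

theorem lst (hw : Wt w) (F : Fam G W κ) : ∀ (N : ℕ) (B : ℕ → Bk),
    (∀ k < N, 0 < (B k).1.1 ∧ 0 ≤ (B k).1.2.1 ∧ 0 ≤ (B k).1.2.2 ∧
      ∀ s ∈ (B k).2, 0 < s.1 ∧ 0 ≤ s.2) → ∀ z,
      X w ((oD B N).map G) z + Gn w ((oD B N).map G) κ B N 0 z ≤ X w ((nD B N).map G) z
  | 0, _, _, z => by simp [Gn, oD, nD]
  | N + 1, B, h, z => by
    obtain ⟨h0, h1, h2, h3⟩ := h 0 (Nat.succ_pos N)
    have := blk hw F h0 h1 h2 (eg_Gn hw _ κ _ N 0)
      (lst hw F N _ fun k hk => h (k + 1) (by omega)) _ h3 z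
    rw [tE_Gn hw] at this
    rw [nD_map, oD_succ, List.map_cons]
    refine le_trans (le_of_eq ?_) this
    simp only [Gn, Finset.sum_range_succ', ob, add_zero, zero_add]
    ring

/-- the blocks on the way: slices `π k j` of the level `k` at the tilt `z k + t (z j - z k)` -/
def bt (N : ℕ) (z d f : ℕ → ℝ) (p : ℕ → ℕ → ℝ) (t : ℝ) (k : ℕ) : Bk :=
  ((z k, d k, f k), (List.range N).map fun j => (z k + t * (z j - z k), p k j))

theorem list_sum (N : ℕ) (g : ℕ → ℝ) : ((List.range N).map g).sum = ∑ j ∈ Finset.range N, g j := rfl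

/-- the blocks at the end: the level `j` has received the slices `π k j` -/
def be (N : ℕ) (z d f : ℕ → ℝ) (p : ℕ → ℕ → ℝ) (j : ℕ) : Bk :=
  ((z j, d j, f j), (List.range N).map fun k => (z j, p k j))

theorem oD_bt (N : ℕ) (z d f : ℕ → ℝ) (p : ℕ → ℕ → ℝ) (t : ℝ) : oD (bt N z d f p t) N =
    (List.range N).map fun k => (z k, d k, ∑ j ∈ Finset.range N, p k j + f k) := by
  simp only [oD, ob, bt, tv, List.map_map, Function.comp_def, list_sum]

theorem oD_be (N : ℕ) (z d f : ℕ → ℝ) (p : ℕ → ℕ → ℝ) : oD (be N z d f p) N =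
    (List.range N).map fun j => (z j, d j, ∑ k ∈ Finset.range N, p k j + f j) := by
  simp only [oD, ob, be, tv, List.map_map, Function.comp_def, list_sum]

theorem perm_be (N : ℕ) (z d f : ℕ → ℝ) (p : ℕ → ℕ → ℝ) :
    (nD (bt N z d f p 1) N).Perm (nD (be N z d f p) N) := by
  rw [← Multiset.coe_eq_coe]
  simp only [nD, ← Multiset.coe_bind, nb, bt, be, List.map_map, Function.comp_def, sl, one_mul,
    add_sub_cancel, ← Multiset.coe_add, Multiset.bind_add, ← Multiset.map_coe]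
  rw [Multiset.bind_map_comm]

theorem sorted_be (F : Fam G W κ) {N : ℕ} {z : ℕ → ℝ} (zm : ∀ i j, i ≤ j → j < N → z i ≤ z j)
    (d f : ℕ → ℝ) (p : ℕ → ℕ → ℝ) :
    ((nD (be N z d f p) N).map G).Pairwise fun a b => a.m ≤ b.m := by
  have e : ∀ j, ∀ x ∈ nb (be N z d f p j), x.1 = z j := fun j x hx => by
    simp only [nb, be, List.map_map, List.mem_append, List.mem_map, List.mem_singleton] at hx
    rcases hx with ⟨k, -, rfl⟩ | rfl <;> rfl
  rw [List.pairwise_map, nD, List.pairwise_flatMap]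
  simp only [F.m]
  refine ⟨fun j _ => List.pairwise_of_forall_mem_list fun a ha b hb => ?_, ?_⟩
  · rw [e j a ha, e j b hb]
  · refine List.pairwise_lt_range.imp_of_mem fun {i j} _ hj hij a ha b hb => ?_
    rw [e i a ha, e j b hb]
    exact zm i j hij.le (List.mem_range.1 hj)

theorem tl_bt (F : Fam G W κ) (l0 : Lv Ω) (N : ℕ) (z d f : ℕ → ℝ) (p : ℕ → ℕ → ℝ) (t : ℝ) :
    tl ((l0, 0) :: (List.range N).flatMap fun k =>
      ((List.range N).map fun j => (G (z k, 0, p k j), z j - z k)) ++ [(G (z k, d k, f k), 0)]) t =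
      l0 :: (nD (bt N z d f p t) N).map G := by
  have r : ∀ q y, (⟨(G q).ι, (G q).A, y⟩ : Lv Ω) = G (y, q.2) := F.rt
  simp only [tl, List.map_cons, nD, List.map_flatMap, nb, bt, List.map_append, List.map_map,
    Function.comp_def, r, F.m, sl, mul_zero, add_zero, List.map_nil]

/-- **transport plan**: the gain is at least the tangent -/
theorem plan (hw : Wt w) (F : Fam G W κ) {l0 : Lv Ω} (h0 : 0 ≤ l0.m) {N : ℕ} {z d f : ℕ → ℝ}
    {p : ℕ → ℕ → ℝ} (hz : ∀ k < N, 0 < z k) (zm : ∀ i j, i ≤ j → j < N → z i ≤ z j)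
    (hd : ∀ k < N, 0 ≤ d k) (hf : ∀ k < N, 0 ≤ f k) (hp : ∀ k < N, ∀ j < N, 0 ≤ p k j)
    {L L' : List (Lv Ω)}
    (hL : L = l0 :: ((List.range N).map fun k =>
      (z k, d k, ∑ j ∈ Finset.range N, p k j + f k)).map G)
    (hL' : L' = l0 :: ((List.range N).map fun j =>
      (z j, d j, ∑ k ∈ Finset.range N, p k j + f j)).map G) (h : Ω → ℝ) :
    X w L h + ∑ k ∈ Finset.range N, ∑ j ∈ Finset.range N, p k j * (z j - z k) / 2 *
      (if k ≤ j then pi2 w L (k + 1) κ.cov h else pi2 w L (k + 2) κ.cov h) ≤ X w L' h := by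
  set v : ℝ → ℝ := fun t => X w (l0 :: (nD (bt N z d f p t) N).map G) h with hv
  have pos : ∀ t ∈ Icc (0 : ℝ) 1, ∀ k < N, ∀ j < N, 0 < z k + t * (z j - z k) := by
    intro t ht k hk j hj
    have := hz k hk; have := hz j hj
    rcases le_total (z k) (z j) with e | e
    · have := mul_nonneg ht.1 (sub_nonneg.2 e); linarith
    · have := mul_nonneg (sub_nonneg.2 ht.2) (sub_nonneg.2 e); linarith
  have v0 : v 0 = X w L h := by
    rw [hv, hL]
    simp only
    rw [C.X_cons, mergeD hw F N _ fun k hk => ⟨hd k hk, hf k hk, fun s hs => ?_⟩, oD_bt, C.X_cons]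
    obtain ⟨j, hj, rfl⟩ := List.mem_map.1 hs
    exact ⟨by simp [bt], hp k hk j (List.mem_range.1 hj)⟩
  have v1 : v 1 ≤ X w L' h := by
    have a := sort hw ((perm_be N z d f p).map G) (sorted_be F zm d f p) [l0] [] h
    simp only [List.append_nil, List.singleton_append] at a
    refine a.trans (le_of_eq ?_)
    rw [hL', C.X_cons, mergeD hw F N _ fun k hk => ⟨hd k hk, hf k hk, fun s hs => ?_⟩, oD_be,
      C.X_cons]
    obtain ⟨j, hj, rfl⟩ := List.mem_map.1 hs
    exact ⟨rfl, hp j (List.mem_range.1 hj) k hk⟩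
  have cv : ∀ t ∈ Icc (0 : ℝ) 1, v t ≤ (1 - t) * v 0 + t * v 1 := fun t ht => by
    have hh : ∀ s ∈ Icc (0 : ℝ) 1, ∀ q ∈ ((l0, (0 : ℝ)) :: (List.range N).flatMap fun k =>
        ((List.range N).map fun j => (G (z k, 0, p k j), z j - z k)) ++ [(G (z k, d k, f k), 0)]),
        0 ≤ q.1.m + s * q.2 := fun s hs q hq => by
      simp only [List.mem_cons, List.mem_flatMap, List.mem_append, List.mem_map, List.mem_range,
        List.not_mem_nil, or_false] at hq
      rcases hq with rfl | ⟨k, hk, ⟨j, hj, rfl⟩ | rfl⟩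
      · simpa using h0
      · simpa [F.m] using (pos s hs k hk j hj).le
      · simpa [F.m] using (hz k hk).le
    have := Tilt43.tl_conv hw (sub_nonneg.2 ht.2) ht.1 (sub_add_cancel 1 t) _
      (hh 0 ⟨le_rfl, zero_le_one⟩) (hh 1 ⟨zero_le_one, le_rfl⟩) h h
    rw [← add_smul, sub_add_cancel, one_smul, mul_zero, zero_add, mul_one, tl_bt F, tl_bt F,
      tl_bt F] at this
    exact this
  set c : ℝ → ℕ → ℕ → ℝ := fun t k j => (z j - z k) / (z k + t * (z j - z k)) * (z k / 2) * p k j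
    with hc
  set g : ℝ → ℝ := fun t => ∑ k ∈ Finset.range N, ∑ j ∈ Finset.range N,
    (max (c t k j) 0 * pi2 w L (k + 1) κ.cov h + min (c t k j) 0 * pi2 w L (k + 2) κ.cov h) with hg
  have lo : ∀ t ∈ Ioc (0 : ℝ) 1, X w L h + t * g t ≤ v t := fun t ht => by
    have a := one hw h0 (eg_Gn hw _ κ _ N 0) (lst hw F N (bt N z d f p t) fun k hk =>
      ⟨hz k hk, hd k hk, hf k hk, fun s hs => by
        obtain ⟨j, hj, rfl⟩ := List.mem_map.1 hs
        exact ⟨pos t ⟨ht.1.le, ht.2⟩ k hk j (List.mem_range.1 hj),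
          hp k hk j (List.mem_range.1 hj)⟩⟩) h
    rw [tE_Gn hw, oD_bt, ← hL] at a
    refine le_trans (le_of_eq ?_) a
    simp only [hg, Gn, bt, cp, cn, List.map_map, Function.comp_def, list_sum, Finset.mul_sum,
      Finset.sum_mul, ← Finset.sum_add_distrib]
    congr 1
    refine Finset.sum_congr rfl fun k _ => Finset.sum_congr rfl fun j _ => ?_
    have e : cf (z k) (z k + t * (z j - z k), p k j) = t * c t k j := by
      simp only [cf, hc]; ring
    rw [e, ← mul_zero t, ← mul_max_of_nonneg _ _ ht.1.le, ← mul_min_of_nonneg _ _ ht.1.le,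
      mul_zero]
    ring
  have gc : Tendsto g (𝓝[>] 0) (𝓝 (g 0)) := by
    refine tendsto_nhdsWithin_of_tendsto_nhds (tendsto_finsetSum _ fun k hk =>
      tendsto_finsetSum _ fun j _ => ?_)
    have : ContinuousAt (fun t => c t k j) 0 := by
      have := (hz k (Finset.mem_range.1 hk)).ne'
      simp only [hc]
      fun_prop (disch := simpa using this)
    exact ((this.max continuousAt_const).mul continuousAt_const).add
      ((this.min continuousAt_const).mul continuousAt_const)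
  have key : g 0 ≤ v 1 - X w L h := by
    refine le_of_tendsto gc ?_
    filter_upwards [Ioc_mem_nhdsGT zero_lt_one] with t ht
    have a := (lo t ht).trans (cv t ⟨ht.1.le, ht.2⟩)
    rw [v0] at a
    exact le_of_mul_le_mul_left (by linarith) ht.1
  have e : g 0 = ∑ k ∈ Finset.range N, ∑ j ∈ Finset.range N, p k j * (z j - z k) / 2 *
      (if k ≤ j then pi2 w L (k + 1) κ.cov h else pi2 w L (k + 2) κ.cov h) := by
    refine Finset.sum_congr rfl fun k hk => Finset.sum_congr rfl fun j hj => ?_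
    have hk' := Finset.mem_range.1 hk
    have hj' := Finset.mem_range.1 hj
    have e : c 0 k j = p k j * (z j - z k) / 2 := by
      have := (hz k hk').ne'
      simp only [hc, zero_mul, add_zero]
      field_simp
    rw [e]
    split_ifs with hkj
    · have := div_nonneg (mul_nonneg (hp k hk' j hj') (sub_nonneg.2 (zm k j hkj hj'))) zero_le_two
      rw [max_eq_left this, min_eq_right this]; ring
    · have := div_nonpos_of_nonpos_of_nonneg (mul_nonpos_of_nonneg_of_nonpos (hp k hk' j hj')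
        (sub_nonpos.2 (zm j k (by omega) hk'))) zero_le_two
      rw [max_eq_right this, min_eq_left this]; ring
  linarith

end Crest.Agent.T156.Cas.Sort86

end
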