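import Crest.Agent.T156.Lift_72

/-!
# Row 156, SR route: SORT and the tangent inequality for moved slices (helper86)

`swap`, `sort`: a cascade with its levels in any order is below the sorted one.
`tangent`: slices split off the levels and re-tilted, lower bound read in the unsplit model.
-/

set_option autoImplicit false
set_option linter.unusedSectionVars false

noncomputable section

namespace Crest.Agent.T156.Cas.Sort86

open MeasureTheory Real Set Filter Topology
open Crest.Agent.T157.E Crest.Agent.T157.Casc Crest.Agent.T157.SL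

variable {Ω : Type} [Fintype Ω] {w : Ω → ℝ}

/-! ### SORT -/

/-- the part of `l` that is in front at the time `t` -/
def lc (l : Lv Ω) : TL Ω := ⟨l.ι, fun t x i => cos t * l.A x i, fun t x i => -sin t * l.A x i, l.m⟩
/-- the part of `l` that is behind at the time `t` -/
def ls (l : Lv Ω) : TL Ω := ⟨l.ι, fun t x i => sin t * l.A x i, fun t x i => cos t * l.A x i, l.m⟩

theorem lc_S (l : Lv Ω) (t : ℝ) (x y : Ω) : (lc l).S t x y = -(sin t * cos t) * l.cov x y := by
  simp only [TL.S, lc, Lv.cov, Finset.mul_sum]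
  exact Finset.sum_congr rfl fun i _ => by ring

theorem ls_S (l : Lv Ω) (t : ℝ) (x y : Ω) : (ls l).S t x y = (sin t * cos t) * l.cov x y := by
  simp only [TL.S, ls, Lv.cov, Finset.mul_sum]
  exact Finset.sum_congr rfl fun i _ => by ring

theorem cst_S (l : Lv Ω) (t : ℝ) (x y : Ω) : l.cst.S t x y = 0 := by simp [TL.S, Lv.cst]

theorem lc_C1 (l : Lv Ω) (I : Set ℝ) : (lc l).C1 I :=
  ⟨fun t _ x i => (hasDerivAt_cos t).mul_const _, fun x i => by
    change ContinuousOn (fun t => -sin t * l.A x i) I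
    fun_prop⟩

theorem ls_C1 (l : Lv Ω) (I : Set ℝ) : (ls l).C1 I :=
  ⟨fun t _ x i => (hasDerivAt_sin t).mul_const _, fun x i => by
    change ContinuousOn (fun t => cos t * l.A x i) I
    fun_prop⟩

theorem cst_C1 (l : Lv Ω) (I : Set ℝ) : l.cst.C1 I :=
  ⟨fun t _ _ _ => hasDerivAt_const t _, fun _ _ => continuousOn_const⟩

/-- **swap**: the smaller tilt first -/
theorem swap (hw : Wt w) {l1 l2 : Lv Ω} (h : l2.m ≤ l1.m) (L : List (Lv Ω)) (z : Ω → ℝ) :
    X w (l1 :: l2 :: L) z ≤ X w (l2 :: l1 :: L) z := by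
  set T : List (TL Ω) := lc l1 :: l2.cst :: ls l1 :: L.map Lv.cst with hT
  have hD : ∀ I, ∀ l ∈ T, l.C1 I := fun I l hl => by
    simp only [hT, List.mem_cons, List.mem_map] at hl
    rcases hl with rfl | rfl | rfl | ⟨k, -, rfl⟩
    exacts [lc_C1 _ _, cst_C1 _ _, ls_C1 _ _, cst_C1 _ _]
  obtain ⟨t, ht, e⟩ := exists_X_sub hw (L := T) pi_div_two_pos
    (fun l hl x i s hs => ((hD univ l hl).der s trivial x i).continuousAt.continuousWithinAt)
    (hD _) (b := fun _ => z) (b' := fun _ _ => 0) (fun _ => continuousOn_const)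
    fun t _ x => hasDerivAt_const t _
  have eT : ∀ t, atL T t = (lc l1).at t :: l2 :: (ls l1).at t :: L := fun t => by
    have := atL_cst L t
    simp only [atL] at this
    simp only [hT, atL, List.map_cons, this]
    rfl
  have e0 : X w (atL T 0) z = X w (l1 :: l2 :: L) z := by
    have a : (lc l1).at 0 = l1 := by
      simp only [lc, TL.at, cos_zero, one_mul]
      rfl
    have b : X w ((ls l1).at 0 :: L) = X w L := by
      rw [C.X_cons]
      exact C.step_of_zero (fun x i => by simp [ls]) _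
    rw [eT, a, C.X_cons, C.X_cons w l2, b, C.X_cons, C.X_cons w l2]
  have e1 : X w (atL T (π / 2)) z = X w (l2 :: l1 :: L) z := by
    have a : (ls l1).at (π / 2) = l1 := by
      simp only [ls, TL.at, sin_pi_div_two, one_mul]
      rfl
    rw [eT, a, C.X_cons, C.step_of_zero (fun x i => by simp [lc])]
  have hs : 0 ≤ sin t * cos t :=
    mul_nonneg (sin_nonneg_of_nonneg_of_le_pi ht.1.le (by linarith [ht.2, pi_pos]))
      (cos_nonneg_of_mem_Icc ⟨by linarith [ht.1, pi_pos], ht.2.le⟩)
  have s3 : ∀ j, Sacc T t (j + 3) = fun _ _ => 0 := fun j => by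
    funext x y
    simp only [hT, Sacc_cons, Var6.Sacc_cst, lc_S, ls_S, cst_S]
    ring
  have s2 : Sacc T t 2 = fun x y => -(sin t * cos t) * l1.cov x y := by
    funext x y
    simp only [hT, Sacc_cons, Sacc_zero, lc_S, cst_S]
    ring
  have s1 : Sacc T t 1 = fun x y => -(sin t * cos t) * l1.cov x y := by
    funext x y
    simp only [hT, Sacc_cons, Sacc_zero, lc_S]
    ring
  have hl : T.length = L.length + 3 := by simp [hT]
  have hl' : (atL T t).length + 1 = L.length + 1 + 3 := by simp [eT]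
  have hz : ∀ j, pi2 w (atL T t) j (fun _ _ => 0) z = 0 := fun j => pi2_const hw _ _ _ _
  have hm := Kkt28.pi2_mono hw l1 (atL T t) z (show 1 ≤ 2 by norm_num)
  have d1 : dm (atL T t) 0 1 = l2.m - l1.m := by rw [eT]; rfl
  have d2 : dm (atL T t) 0 2 = l1.m - l2.m := by rw [eT]; rfl
  have hDX : 0 ≤ DX w T t z fun _ => 0 := by
    rw [DX, pair_eq_sum hw, hl, hl', s3, Finset.sum_range_succ' _ (L.length + 1 + 2),
      Finset.sum_range_succ' _ (L.length + 1 + 1), Finset.sum_range_succ' _ (L.length + 1)]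
    simp only [add_assoc, Nat.reduceAdd, zero_add, s3, s2, s1, Sacc_zero, hz, pi2_const_mul, d1, d2,
      mul_zero, Finset.sum_const_zero, add_zero]
    have := mul_nonneg (mul_nonneg hs (sub_nonneg.2 h)) (sub_nonneg.2 hm)
    linarith
  rw [e0, e1] at e
  have := mul_nonneg (sub_pos.2 pi_div_two_pos).le hDX
  linarith

theorem pre_le (hw : Wt w) {A B : List (Lv Ω)} (h : ∀ z, X w A z ≤ X w B z) (M : List (Lv Ω))
    (z : Ω → ℝ) : X w (M ++ A) z ≤ X w (M ++ B) z := by
  simpa using C.X_append_le hw hw (c := 0) (fun z => by simpa using h z) M z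

/-- a level moves behind a block of smaller tilts -/
theorem move (hw : Wt w) (l : Lv Ω) (R : List (Lv Ω)) : ∀ (S : List (Lv Ω)),
    (∀ s ∈ S, s.m ≤ l.m) → ∀ z, X w (l :: (S ++ R)) z ≤ X w (S ++ l :: R) z
  | [], _, _ => le_rfl
  | s :: S, h, z => (swap hw (h s (by simp)) _ z).trans
      (pre_le hw (move hw l R S fun k hk => h k (by simp [hk])) [s] z)

theorem sort₀ (hw : Wt w) (R : List (Lv Ω)) : ∀ (L L' : List (Lv Ω)), L.Perm L' →
    L'.Pairwise (fun a b => a.m ≤ b.m) → ∀ z, X w (L ++ R) z ≤ X w (L' ++ R) z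
  | [], L', h, _, z => by rw [← h.nil_eq]
  | l :: L, L', h, hs, z => by
    obtain ⟨S1, S2, rfl⟩ := List.append_of_mem (h.subset (List.mem_cons_self))
    have hp : L.Perm (S1 ++ S2) := (h.trans List.perm_middle).cons_inv
    have hs' : (S1 ++ S2).Pairwise fun a b => a.m ≤ b.m :=
      hs.sublist ((List.sublist_cons_self l S2).append_left S1)
    have h1 := pre_le hw (sort₀ hw R L _ hp hs') [l] z
    have h2 := move hw l (S2 ++ R) S1
      (fun s hs1 => (List.pairwise_append.1 hs).2.2 s hs1 l List.mem_cons_self) z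
    simp only [List.append_assoc, List.cons_append, List.nil_append] at h1 h2 ⊢
    exact h1.trans h2

/-- **SORT**: any order of the levels is below the order sorted by tilt (no sign condition) -/
theorem sort (hw : Wt w) {L L' : List (Lv Ω)} (h : L.Perm L')
    (hs : L'.Pairwise fun a b => a.m ≤ b.m) (M R : List (Lv Ω)) (z : Ω → ℝ) :
    X w (M ++ (L ++ R)) z ≤ X w (M ++ (L' ++ R)) z := pre_le hw (sort₀ hw R L L' h hs) M z

end Crest.Agent.T156.Cas.Sort86

end
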