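import Crest.Agent.T156.CostP_41
import Crest.Agent.T156.SprM_41
import Crest.Agent.T156.GrReg_29
import Crest.Agent.T156.ClReg_29

/-!
# Row 156, stage C: a segment of marks on a fine grid is a stage (helper41)
-/

set_option autoImplicit false
set_option linter.unusedSectionVars false

noncomputable section

namespace Crest.Agent.T156.Alt.Cost41

open Real Set
open Crest.Agent.T156.Alt.Plt13 Crest.Agent.T156.Alt.Md67

/-- numbers -/
structure Nu (p : Pm) (Λ : ℝ) : Prop where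
  L3 : 1000 ≤ Λ
  lg : log p.n ≤ Λ
  A : (p.A : ℝ) ≤ Λ
  nm : Nm p p.μe
  v1 : Λ * p.v ≤ (p.n : ℝ) ^ (-(3 : ℝ))
  v2 : 1 ≤ p.v * (p.n : ℝ) ^ p.A
  am : 1 / p.n ≤ p.am
  r0 : 1 / p.n ≤ p.r
  r1 : 6 * Λ ^ 3 * p.r ≤ 1
  jf : p.jf * p.v ≤ p.r
  ye : 4 * Λ ^ 2 * p.ye ≤ 1
  ry : p.r ≤ p.ye
  μ1 : Λ * p.μe ≤ 1 / 2
  n1 : Λ ^ 8 ≤ (p.n : ℝ) ^ ((1 : ℝ) / 3)
  u1 : 2 * Λ * (log p.n * u0 p p.μe) ≤ 1
  s1 : 1 ≤ p.s
  κ0 : 0 < p.κ

/-- a model of the class on the grid `P` -/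
structure Gm (p : Pm) (Λ α : ℝ) (P : Pl) (M : Md) : Prop where
  mem : ∃ C, C ≤ Λ ∧ MemC C p P M
  z : ∀ k, M.z k = p.zP P (max k p.jf)
  fine : p.Fine P
  e3 : (p.n : ℝ) ^ (-(3 : ℝ)) ≤ 1 - P.x P.I
  ms : ∀ i < P.I, P.x (i + 1) - P.x i ≤ (p.n : ℝ) ^ (-(3 : ℝ))
  α0 : 0 < α
  α1 : α ≤ 1
  st : ∀ i < P.I, α * (p.rF p.μe (P.x (i + 1)) - p.rF p.μe (P.x i)) ≤ 3 * p.v
  q3 : M.q (p.Jp P) - M.q p.J ≤ p.la p.μe

/-- the size of the move -/
structure Sz (p : Pm) (Λ B Bl : ℝ) (P : Pl) (M : Md) (φ : ℕ → ℝ) : Prop where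
  φ0 : ∀ k ≤ p.jf, φ k = 0
  lo : ∀ k, p.jf < k → k < p.J → M.z (k - 1) < p.xs / 2 → |φ k| ≤ Bl * M.s k
  p1 : ∀ k, p.jf < k → k < p.J → |φ k| ≤ B * u0 p p.μe
  p2 : ∀ k, p.jf < k → k < p.J → log p.n * u0 p p.μe < p.xs - M.z (k - 1) → |φ k| ≤ B * p.la p.μe
  p3 : ∀ k, p.J ≤ k → k < p.Jp P → |φ k| ≤ B * env p p.μe (M.z (k - 1))
  top : ∀ k ≤ p.Jp P, |φ k| ≤ Λ

namespace Nu

variable {p : Pm} {Λ : ℝ} (U : Nu p Λ)
include U

theorem L0 : 0 < Λ := by linarith [U.L3]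
theorem np : (0 : ℝ) < p.n := U.nm.np
theorem n3 : (p.n : ℝ) ^ (-(3 : ℝ)) = 1 / p.n * (1 / p.n) * (1 / p.n) := by
  rw [rpow_neg U.np.le, rpow_ofNat]; field_simp
theorem n2 : (p.n : ℝ) ^ (-(2 : ℝ)) = 1 / p.n * (1 / p.n) := by
  rw [rpow_neg U.np.le, rpow_ofNat]; field_simp
theorem i0 : (0 : ℝ) < 1 / p.n := one_div_pos.2 U.np
theorem i2 : (1 : ℝ) / p.n ≤ 1 / 2 := one_div_le_one_div_of_le two_pos U.nm.n2
theorem n32 : (p.n : ℝ) ^ (-(3 : ℝ)) ≤ (p.n : ℝ) ^ (-(2 : ℝ)) := by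
  rw [U.n3, U.n2]
  exact mul_le_of_le_one_right (mul_pos U.i0 U.i0).le (by linarith [U.i2])
theorem n31 : 4 * (p.n : ℝ) ^ (-(3 : ℝ)) ≤ 1 / p.n := by
  rw [U.n3]
  have := mul_le_mul U.i2 U.i2 U.i0.le (by norm_num)
  nlinarith [U.i0]
theorem rp : 0 < p.r := U.i0.trans_le U.r0
theorem yp : 0 < p.ye := U.rp.trans_le U.ry
theorem y1 : p.ye ≤ 1 := by nlinarith [U.ye, U.L3, U.yp]
theorem μ_eq : p.μe = p.κ * p.ye ^ 2 := by rw [Pm.μe, Pm.μ, one_mul]
theorem μp : 0 < p.μe := by rw [U.μ_eq]; exact mul_pos U.κ0 (pow_pos U.yp 2)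
theorem ms_top {t : ℝ} (h : p.ye ≤ t) : p.ms 1 p.ye t = p.μe := by
  rw [Pm.ms, min_eq_right h, max_eq_right U.ry, U.μ_eq, one_mul]
theorem Ln : Λ ^ 3 ≤ p.n := by
  have a : Λ ^ 3 ≤ Λ ^ 8 := pow_le_pow_right₀ (by linarith [U.L3]) (by norm_num)
  have b := rpow_le_rpow_of_exponent_le (show (1 : ℝ) ≤ p.n by linarith [U.nm.n2])
    (show (1 : ℝ) / 3 ≤ 1 by norm_num)
  rw [rpow_one] at b
  linarith [U.n1]
theorem L1 : 1 ≤ Λ := by linarith [U.L3]
theorem L4 : 4 * Λ ≤ Λ ^ 3 := by nlinarith [U.L3, sq_nonneg Λ]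
theorem LL : Λ * Λ ≤ Λ ^ 3 := by nlinarith [U.L3, sq_nonneg Λ]
theorem L23 : Λ ^ 2 ≤ Λ ^ 3 := by linarith [U.LL]
theorem iL : 4 * (1 / Λ ^ 3) ≤ 1 / Λ := by
  have := U.L0
  rw [← mul_div_assoc, div_le_div_iff₀ (by positivity) U.L0]; linarith [U.L4]

/-- the number of dyadic scales -/
theorem exD : ∃ D : ℕ, (D : ℝ) + 2 ≤ Λ ^ 3 ∧ (p.n : ℝ) ≤ 2 ^ D * (1 / (p.n : ℝ) ^ (p.A + 3)) := by
  have l1 := U.nm.l1
  have np := U.np
  have L3 := U.L3
  set D := ⌈2 * ((p.A : ℝ) + 4) * log p.n⌉₊ with hD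
  have D1 : 2 * ((p.A : ℝ) + 4) * log p.n ≤ D := Nat.le_ceil _
  refine ⟨D, ?_, ?_⟩
  · have a1 : (D : ℝ) ≤ 2 * ((p.A : ℝ) + 4) * log p.n + 1 := (Nat.ceil_lt_add_one (by positivity)).le
    have a2 : 2 * ((p.A : ℝ) + 4) * log p.n ≤ 2 * (Λ + 4) * Λ :=
      mul_le_mul (by linarith [U.A]) U.lg (by linarith) (by linarith)
    nlinarith [sq_nonneg Λ]
  · have h3 : (1 : ℝ) / 2 ≤ log 2 := by linarith [log_two_gt_d9]
    rw [mul_one_div, le_div_iff₀ (by positivity), ← pow_succ',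
      ← log_le_log_iff (by positivity) (by positivity), log_pow, log_pow]
    push_cast
    nlinarith [mul_le_mul_of_nonneg_left h3 (Nat.cast_nonneg (α := ℝ) D)]

/-- the mass dominates the square of the level -/
theorem lev {z s l : ℝ} (z0 : 0 < z) (z1 : z ≤ 1) (s0 : 0 ≤ s) (h : z ≤ 2 * Λ * s) (l0 : p.r ≤ l) :
    z * max z l * p.μe ≤ (2 * Λ * (l / p.r)) ^ 2 * p.ms 1 p.ye s := by
  have rp := U.rp
  have L0 := U.L0
  have L1 := U.L1
  have lr : 1 ≤ l / p.r := (one_le_div rp).2 l0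
  set y := max z l with hy
  set w := max p.r (min s p.ye) with hw
  have yp : 0 < y := z0.trans_le (le_max_left _ _)
  have wr : p.r ≤ w := le_max_left _ _
  have a4 : y * p.ye ≤ 2 * Λ * (l / p.r) * w := by
    have b0 : 2 * Λ ≤ 2 * Λ * (l / p.r) := le_mul_of_one_le_right (by positivity) lr
    rcases le_total z l with c | c
    · rw [hy, max_eq_right c]
      have b1 : l * p.ye ≤ l / p.r * w := by
        refine (mul_le_of_le_one_right (by linarith) U.y1).trans ?_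
        rw [div_mul_eq_mul_div, le_div_iff₀ rp]
        exact mul_le_mul_of_nonneg_left wr (by linarith)
      have : 0 ≤ l / p.r * w := mul_nonneg (by linarith) (by linarith)
      nlinarith
    · rw [hy, max_eq_left c]
      have b1 : z * p.ye ≤ 2 * Λ * min s p.ye := by
        rw [mul_min_of_nonneg _ _ (by positivity : 0 ≤ 2 * Λ)]
        exact le_min ((mul_le_of_le_one_right z0.le U.y1).trans h)
          (mul_le_mul_of_nonneg_right (by linarith) U.yp.le)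
      exact b1.trans (mul_le_mul b0 (le_max_right _ _) (le_min s0 U.yp.le) (by positivity))
  have b1 := mul_le_mul_of_nonneg_left (pow_le_pow_left₀ (mul_pos yp U.yp).le a4 2) U.κ0.le
  have b2 := mul_le_mul_of_nonneg_right (le_max_left z l) (mul_pos yp U.μp).le
  rw [Pm.ms, ← hw]
  rw [← hy, U.μ_eq] at b2
  rw [U.μ_eq]
  linarith

end Nu

theorem z_x {p : Pm} {P : Pl} {M : Md} (hz : ∀ k, M.z k = p.zP P (max k p.jf)) (x0 : P.x 0 = p.xs)
    (hj : p.jf < p.J) {i : ℕ} (hi : i ≤ P.I) : M.z (p.J - 1 + i) = P.x i := by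
  rw [hz, max_eq_left (by omega), Pm.zP]
  rcases Nat.eq_zero_or_pos i with rfl | h
  · rw [if_pos (by omega), x0]; rfl
  · rw [if_neg (by omega), if_pos (by unfold Pm.Jp; omega)]
    congr 1; omega

variable {p : Pm} {Λ α B Bl l V : ℝ} {P : Pl} {M : Md} {φ : ℕ → ℝ} {m : ℕ} {a : ℝ}

set_option maxHeartbeats 1600000 in
/-- **the cost of the move for one member** -/
theorem cost_one (U : Nu p Λ) (G : Gm p Λ α P M) (Z : Sz p Λ B Bl P M φ) (W : p.InW m a)
    (l0 : p.r ≤ l) (l1 : l ≤ 1) (V0 : 0 ≤ V) (Bl0 : 0 ≤ Bl)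
    (hL : ∀ k ≤ p.Jp P, M.rb m a k ≤ Λ * max (M.z k) l) (hV : p.tw P M m a ≤ V ^ 2) :
    ∑ k ∈ Finset.Ioc p.jf (p.Jp P - 1), (M.z k - M.z (k - 1)) * φ k ^ 2 * aM M m a k ≤
      Λ ^ 3 * (2 / p.n * (Λ ^ 3 * (72 * Λ ^ 8 * (Bl ^ 2 * (l / p.r) ^ 2 / p.μe) +
        6 * 10 ^ 6 * Λ ^ 14 * (B ^ 2 / (p.μe * α) * (p.la p.μe * (p.la p.μe + V))))) +
        Λ ^ 2 * (p.n : ℝ) ^ (-(2 : ℝ))) := by
  classical
  obtain ⟨C, CΛ, S, h, sC, sn, sA, sv, sa, sm, s0, sl, sJ, sP, sF⟩ := G.mem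
  have N := U.nm
  have L3 := U.L3
  have L0 := U.L0
  have np := U.np
  have i0 := U.i0
  have v0 := N.v0
  have μp := U.μp
  have rp := U.rp
  have C1 : 1 ≤ C := sC ▸ h.C1
  have C0 : 0 < C := by linarith
  have jJ : p.jf + 1 < p.J := sl ▸ sJ ▸ h.i2
  have JP : p.Jp P = p.J + P.I := rfl
  have PN : p.Jp P < M.N := sP ▸ h.i4
  have Lg' : Lg M m a := lg_of h.leg (by have := W.m1; have := h.n1; omega)
    (le_trans (by positivity) W.a1) (by rw [sa]; linarith [W.a2, U.am])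
  have zx := fun i => z_x (i := i) G.z G.fine.x0 (by omega)
  have zJ : M.z (p.J - 1) = p.xs := (zx 0 (Nat.zero_le _)).trans G.fine.x0
  have zm := h.leg.zm
  have Cv : C * p.v ≤ (p.n : ℝ) ^ (-(3 : ℝ)) := (mul_le_mul_of_nonneg_right CΛ v0.le).trans U.v1
  have n31 := U.n31
  have za : ∀ k, 2 * (1 / p.n) ≤ M.z k := fun k => by linarith [h.amax_le k, sa ▸ U.am]
  have at1 : 1 / C ≤ p.xs := by simpa only [sC, sJ, zJ] using h.atom.1
  have at2 : p.xs ≤ 1 - 1 / C := by simpa only [sC, sJ, zJ] using h.atom.2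
  have iC : 1 / Λ ≤ 1 / C := one_div_le_one_div_of_le C0 CΛ
  have iL := U.iL
  have iL0 : 0 < 1 / Λ ^ 3 := by positivity
  have nL : 1 / (p.n : ℝ) ≤ 1 / Λ ^ 3 := one_div_le_one_div_of_le (by positivity) U.Ln
  have zs : ∀ k, p.jf ≤ k → k + 1 < p.J → p.v / C ≤ M.z (k + 1) - M.z k ∧
      M.z (k + 1) - M.z k ≤ C * p.v := fun k a b => by
    simpa only [sC, sv] using h.zs k (s0 ▸ a) (sJ ▸ b)
  have ss : ∀ k, k < p.J → M.s (k + 1) - M.s k ≤ C * p.v := fun k b => by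
    simpa only [sC, sv] using (h.ss k (sJ ▸ b)).2
  have zS : ∀ k, p.jf ≤ k → k < p.J → M.s k ≤ C * (M.z k + C * p.v) ∧ M.z k ≤ 2 * C * M.s k :=
    fun k a b => by
    have := h.z_s (s0 ▸ a) (sJ ▸ b)
    rw [sC, sv, sub_le_iff_le_add, div_le_iff₀' C0] at this
    exact ⟨this.1, by linarith [this.2, za k]⟩
  have fl : ∀ k, p.jf ≤ k → k < p.Jp P →
      p.ms 1 p.ye (M.s k) * p.v / Λ ≤ M.H (k + 1) - M.H k := fun k a b => by
    have := h.flr k (sl ▸ a) (sP ▸ b)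
    rw [sC, sv, sF, mul_one] at this
    refine le_trans (div_le_div_of_nonneg_left ?_ C0 CΛ) (sm ▸ this)
    exact mul_nonneg (sm ▸ (h.ms_pos (h.s_nn k)).le) v0.le
  have zf : M.z p.jf < p.xs / 2 := by
    have a1 := (zS p.jf le_rfl (by omega)).2
    have a2 := (h.s_bds (k := p.jf) (by omega)).2
    rw [sC, sv, mul_left_comm] at a2
    have a3 := mul_le_mul_of_nonneg_left (a2.trans (mul_le_mul CΛ U.jf (by positivity) L0.le))
      (by positivity : 0 ≤ 2 * C)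
    have a4 := mul_le_mul_of_nonneg_right CΛ (by positivity : 0 ≤ 2 * (Λ * p.r))
    have a5 : 6 * (Λ * (Λ * p.r)) ≤ 1 / Λ := by rw [le_div_iff₀ L0]; linarith [U.r1]
    have : 0 < Λ * (Λ * p.r) := by positivity
    linarith
  have ex : ∃ k, p.xs / 2 ≤ M.z k := ⟨p.J - 1, by linarith [N.x0]⟩
  obtain ⟨j1, j1a, j1b, j1c⟩ : ∃ j1, p.xs / 2 ≤ M.z j1 ∧ (∀ k < j1, M.z k < p.xs / 2) ∧
      j1 ≤ p.J - 1 := ⟨Nat.find ex, Nat.find_spec ex, fun k hk => not_le.1 (Nat.find_min ex hk),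
    Nat.find_le (by linarith [N.x0])⟩
  have j1d : p.jf < j1 := not_le.1 fun c => by linarith [zm c]
  have dz : ∀ i, p.jf < i → i < p.J → p.v / C ≤ M.z i - M.z (i - 1) ∧
      M.z i - M.z (i - 1) ≤ C * p.v := fun i a b => by
    have := zs (i - 1) (by omega) (by omega)
    rwa [Nat.sub_add_cancel (by omega)] at this
  have dz2 : ∀ k, p.jf < k → k ≤ p.Jp P - 1 → M.z k - M.z (k - 1) ≤ (p.n : ℝ) ^ (-(3 : ℝ)) :=
    fun k a b => by
    rcases lt_or_ge k p.J with c | c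
    · exact (dz k a c).2.trans Cv
    · obtain ⟨i, rfl⟩ : ∃ i, k = p.J - 1 + (i + 1) := ⟨k - p.J, by omega⟩
      rw [show p.J - 1 + (i + 1) - 1 = p.J - 1 + i by omega, zx _ (by omega), zx _ (by omega)]
      exact G.ms i (by omega)
  have top : ∀ i, j1 ≤ i → i < p.Jp P → p.μe * p.v / (2 * Λ ^ 2) ≤ Phi M (i + 1) - Phi M i :=
    fun i a b => by
    have a1 := (zS j1 j1d.le (by omega)).2
    have a2 : p.ye ≤ M.s j1 := by
      have b1 := mul_le_mul_of_nonneg_right CΛ (by linarith [h.s_nn j1] : 0 ≤ 2 * M.s j1)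
      have b2 : 1 / Λ ≤ 4 * Λ * M.s j1 := by linarith
      rw [div_le_iff₀ L0] at b2
      refine le_of_mul_le_mul_left (a := 4 * Λ ^ 2) ?_ (by positivity)
      linarith [U.ye]
    have a3 := fl i (by omega) b
    rw [U.ms_top (a2.trans (h.sm a))] at a3
    rw [Phi_succ]
    refine le_trans (le_of_eq ?_) (mul_le_mul (show 1 / Λ / 2 ≤ M.z i by linarith [zm a]) a3
      (by positivity) (Lg'.z_nonneg i))
    field_simp
  have T : Tw p p.μe (Λ ^ 3) α (p.μe / (6 * Λ ^ 3)) M.z (Phi M) j1 (p.J - 1) (p.Jp P - 1) :=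
    { nm := N
      K1 := one_le_pow₀ (by linarith)
      α0 := G.α0
      α1 := G.α1
      β0 := by positivity
      i1 := j1c
      i2 := by omega
      zJ := zJ
      zm := zm
      z0 := Lg'.z_nonneg 0
      mesh := fun i a b => by linarith [(dz i (by omega) (by omega)).2, N.nl, N.l_le_u0]
      sh := by
        rw [show p.Jp P - 1 - (p.J - 1) = P.I by omega]
        refine ⟨by simp only [zx 0 (Nat.zero_le _), G.fine.x0, le_refl], fun i _ => zm (by omega),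
          by simp only [zx _ le_rfl]; exact G.e3, fun i hi => ?_⟩
        simp only [zx _ hi.le, zx (i + 1) hi]
        have b1 := G.fine.xm.monotone (Nat.zero_le i)
        have b2 := G.fine.xm.monotone (show i + 1 ≤ P.I from hi)
        have := G.ms i hi
        exact le_min (by linarith [G.fine.x0, N.nl, N.l_le_u0]) (by linarith [G.e3])
      top := by
        rw [show p.Jp P - 1 = p.J - 1 + P.I by omega, zx _ le_rfl]
        refine G.fine.e2.trans ?_
        rw [U.n2, sq]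
        exact mul_le_mul N.nl N.nl i0.le N.lp.le
      xs1 := by linarith
      xs0 := by linarith [(dz j1 j1d (by omega)).2, j1b (j1 - 1) (by omega)]
      g1 := fun i a b => by
        refine le_trans ?_ (top i a (by omega))
        refine (mul_le_mul_of_nonneg_left ((zs i (by omega) (by omega)).2.trans
          (mul_le_mul_of_nonneg_right CΛ v0.le)) (by positivity)).trans ?_
        rw [show p.μe / (6 * Λ ^ 3) * (Λ * p.v) = p.μe * p.v / (6 * Λ ^ 2) by field_simp]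
        exact div_le_div_of_nonneg_left (by positivity) (by positivity)
          (by linarith only [sq_nonneg Λ])
      g2 := fun i a b => by
        refine le_trans ?_ (top i (by omega) (by omega))
        obtain ⟨i, rfl⟩ := Nat.exists_eq_add_of_le a
        rw [mul_assoc, add_assoc, zx _ (by omega), zx _ (by omega)]
        refine (mul_le_mul_of_nonneg_left (G.st i (by omega)) (by positivity)).trans ?_
        rw [show p.μe / (6 * Λ ^ 3) * (3 * p.v) = p.μe * p.v / (2 * Λ ^ 3) by field_simp; norm_num]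
        exact div_le_div_of_nonneg_left (by positivity) (by positivity) (by linarith only [U.L23]) }
  have F : Mv p p.μe B M.z φ j1 (p.J - 1) (p.Jp P - 1) :=
    ⟨fun i a b => Z.p1 i (by omega) (by omega), fun i a b => Z.p2 i (by omega) (by omega),
      fun i a b => Z.p3 i (by omega) (by omega)⟩
  have hθ : S.C * S.θ ≤ 1 / 2 := by
    rw [sC, Sc.θ, sm, U.ms_top U.y1]
    exact (mul_le_mul_of_nonneg_right CΛ μp.le).trans U.μ1
  have dq : ∀ j, j < p.J → M.q (j + 1) - M.q j ≤ C * p.v := fun j hj =>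
    (h.q_tel hθ j.le_succ (by omega)).2.trans (ss j hj)
  have Lc' : Lc p p.μe (Λ ^ 3) Λ V M.z (fun k => max (M.z k) l) M.q (M.rb m a) p.jf j1 (p.J - 1)
      (p.Jp P - 1) :=
    { Λ0 := L0.le
      V0 := V0
      y0 := (rp.trans_le l0).trans_le (le_max_right _ _)
      ym := fun i j hij => max_le_max (zm hij) le_rfl
      lo := fun j _ b => hL j (by omega)
      q0 := h.q_nn (by omega)
      q1 := Cl.q_le_one _
      qm := fun i j _ b c => h.q_mono b (by omega)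
      q2 := fun j a b => by
        have a1 := dq (j - 1) (by omega)
        have a2 := (dz j (by omega) (by omega)).1
        rw [Nat.sub_add_cancel (by omega)] at a1
        rw [div_le_iff₀' C0] at a2
        have a3 := mul_le_mul_of_nonneg_left a2 C0.le
        have a4 : C * C ≤ Λ ^ 3 := (mul_le_mul CΛ CΛ C0.le L0.le).trans U.LL
        have := mul_le_mul_of_nonneg_right a4 (T.dz_nn j)
        linarith
      q3 := by
        have a1 := dq (p.J - 1) (by omega)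
        rw [Nat.sub_add_cancel (by omega)] at a1
        have a2 := h.q_mono (show p.Jp P - 1 ≤ p.Jp P by omega) PN.le
        have a3 := mul_le_mul_of_nonneg_right (show 2 ≤ Λ ^ 3 by linarith only [U.L4, L3]) N.lp.le
        linarith [G.q3, N.nl]
      rms := by
        refine le_trans ?_ hV
        simp only [sq_abs]
        refine Finset.sum_le_sum_of_subset_of_nonneg (fun k hk => ?_) fun k _ _ =>
          mul_nonneg (T.dz_nn k) (sq_nonneg _)
        have := Finset.mem_Ioc.1 hk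
        exact Finset.mem_filter.2 ⟨Finset.mem_Ioc.2 ⟨by omega, by omega⟩,
          j1a.trans (zm (by omega))⟩ }
  have l1' := N.l1
  obtain ⟨D, D2, D3⟩ := U.exD
  have k := costP (B0 := 36 * Λ ^ 6 * (Bl ^ 2 * (l / p.r) ^ 2 / p.μe)) (D := D)
    (σ := 1 / (p.n : ℝ) ^ (p.A + 3)) (cm := Λ ^ 2 * (p.n : ℝ) ^ (-(2 : ℝ))) Lg' T F Lc'
    (by positivity) j1d.le (by omega) (fun i a b => ?_) ?_ (by positivity) (fun k a b => ?_)
    (by positivity) fun i a b => ?_
  · refine k.trans (mul_le_mul D2 (add_le_add (mul_le_mul ?_ (mul_le_mul (by linarith)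
      (add_le_add ?_ ?_) ?_ (by positivity)) ?_ (by positivity)) le_rfl) ?_ (by positivity))
    · exact div_le_div_of_nonneg_left two_pos.le np (by exact_mod_cast W.m1)
    · have y0 := Lc'.y0
      have a1 : log (max (M.z j1) l / max (M.z p.jf) l) ≤ Λ := by
        refine (log_le_log (div_pos (y0.trans_le (Lc'.ym j1d.le)) y0) ?_).trans U.lg
        rw [div_le_iff₀ y0]
        have b1 : 1 / (p.n : ℝ) ≤ max (M.z p.jf) l := (U.r0.trans l0).trans (le_max_right _ _)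
        rw [div_le_iff₀' np] at b1
        exact (max_le (h.leg.z1 _) l1).trans b1
      refine (mul_le_mul_of_nonneg_left (show _ ≤ 2 * Λ by linarith) (by positivity)).trans
        (le_of_eq (by ring))
    · have α0 := G.α0
      have lp := N.lp
      have a1 : log (p.n : ℝ) ^ 2 ≤ Λ ^ 2 := pow_le_pow_left₀ (by linarith) U.lg 2
      refine le_trans (le_of_eq ?_) ((mul_le_mul_of_nonneg_right a1 (show 0 ≤ 6 * 10 ^ 6 * Λ ^ 12 *
        (B ^ 2 / (p.μe * α) * (p.la p.μe * (p.la p.μe + V))) by positivity)).trans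
        (le_of_eq (by ring)))
      field_simp
    all_goals
      have α0 := G.α0
      have lp := N.lp
      have y0 := Lc'.y0
      have : 0 ≤ log (max (M.z j1) l / max (M.z p.jf) l) :=
        log_nonneg ((one_le_div y0).2 (Lc'.ym j1d.le))
      positivity
  · have a1 := fl i a (by omega)
    have a2 : 1 / (p.n : ℝ) ≤ p.ms 1 p.ye (M.s i) := by
      have := h.ms_ge (h.s_nn i)
      rwa [sn, sm, rpow_neg_one, ← one_div] at this
    have a3 : 1 / (p.n : ℝ) ^ p.A ≤ p.v := by rw [div_le_iff₀ (by positivity)]; exact U.v2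
    have a4 : 1 / (p.n : ℝ) * (1 / (p.n : ℝ) ^ p.A) / p.n ≤ p.ms 1 p.ye (M.s i) * p.v / Λ :=
      div_le_div₀ (mul_nonneg (i0.le.trans a2) v0.le)
        (mul_le_mul a2 a3 (by positivity) (i0.le.trans a2)) L0 (by linarith only [U.Ln, U.L4, L0])
    refine le_trans (le_of_eq ?_) (mul_le_mul (show 1 / (p.n : ℝ) ≤ M.z i by linarith [za i])
      (a4.trans a1) (by positivity) (Lg'.z_nonneg i))
    field_simp; ring
  · have a1 := tel_le (f := Phi M) (g := M.H) (show p.jf ≤ p.Jp P - 1 by omega) fun i _ _ => by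
      rw [Phi_succ]
      exact mul_le_of_le_one_left (dH_nonneg h.leg i) (h.leg.z1 i)
    have a2 := h.leg.Hm (show p.Jp P - 1 ≤ M.N by omega)
    have a3 := h.HN
    rw [sC, sA, sn] at a3
    have a4 : C * p.A * log p.n ≤ Λ * Λ * Λ :=
      mul_le_mul (mul_le_mul CΛ U.A (Nat.cast_nonneg _) L0.le) U.lg (by linarith) (by positivity)
    linarith only [h.H_nn p.jf, U.Ln, D3, a1, a2, a3, a4]
  · have a1 := pow_le_pow_left₀ (abs_nonneg _) (Z.top k (by omega)) 2
    rw [sq_abs] at a1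
    rw [mul_comm]
    exact mul_le_mul a1 ((dz2 k a b).trans U.n32) (T.dz_nn k) (by positivity)
  · have zp : 0 < M.z i := by linarith [za i]
    have a0 : C * p.v ≤ M.z i := by linarith [za i]
    have a1 : M.s (i + 1) ≤ 3 * Λ * M.z i := by
      have b1 := (zS i a (by omega)).1
      have b2 := mul_le_mul_of_nonneg_left a0 C0.le
      have b3 := mul_le_mul_of_nonneg_right C1 zp.le
      have b4 := mul_le_mul_of_nonneg_right CΛ zp.le
      linarith [ss i (by omega)]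
    have a2 := pow_le_pow_left₀ (abs_nonneg _) ((Z.lo (i + 1) (by omega) (by omega)
      (j1b i b)).trans (mul_le_mul_of_nonneg_left a1 Bl0)) 2
    rw [sq_abs] at a2
    have a3 := mul_le_mul ((zs i a (by omega)).2.trans (mul_le_mul_of_nonneg_right CΛ v0.le)) a2
      (sq_nonneg _) (by positivity)
    have a5 := U.lev zp (h.leg.z1 i) (h.s_nn i) ((zS i a (by omega)).2.trans
      (mul_le_mul_of_nonneg_right (by linarith only [CΛ]) (h.s_nn i))) l0
    have yp : 0 < max (M.z i) l := zp.trans_le (le_max_left _ _)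
    generalize max (M.z i) l = y at *
    refine a3.trans (le_trans ?_ (mul_le_mul_of_nonneg_left (mul_le_mul_of_nonneg_left
      (fl i a (by omega)) zp.le) (by positivity)))
    have a6 := mul_le_mul_of_nonneg_left a5
      (show 0 ≤ 9 * Λ ^ 3 * Bl ^ 2 * p.v * M.z i / (y * p.μe) by positivity)
    refine le_trans (le_of_eq ?_) (a6.trans (le_of_eq ?_))
    · field_simp; norm_num
    · field_simp; ring

end Crest.Agent.T156.Alt.Cost41

end
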