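import Crest.Agent.T156.SprLP_11

/-!
# Row 156, block (L) (helper11): residual sums, the bulk cost `cB`, and the top window from `LO`
-/

set_option autoImplicit false
set_option linter.unusedSectionVars false

noncomputable section

namespace Crest.Agent.T156.Alt.Lt11

open Real Finset
open Crest.Agent.T156.Alt.L69 Crest.Agent.T156.Alt.Ps64

/-- residual and mass of the member -/
structure FG (S : Sc) (M : Md) (l t0 κ D : ℝ) : Prop where
  cl : Cl S M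
  F1 : S.F = 1
  l0 : 0 < l
  κ0 : 0 < κ
  D0 : 0 ≤ D
  gr : ∀ t, M.s S.jl < t → S.gr t ≤ D * t
  ml : ∀ t, l ≤ t → S.ms t ≤ t ^ 2
  mlo : ∀ t, l ≤ t → min (κ * t ^ 2) S.θ ≤ S.ms t
  lt0 : l ≤ t0
  t1 : S.θ ≤ κ * t0 ^ 2
  t2 : S.C * (t0 + 2 * S.v) ≤ 1 / (2 * S.C)

variable {S : Sc} {M : Md} {l t0 κ D : ℝ} (F : FG S M l t0 κ D)
include F

theorem g_dx (k : ℕ) : 0 ≤ dx M k := sub_nonneg.2 (F.cl.leg.zm (Nat.sub_le k 1))

theorem g_one {T : Finset ℕ} (hT : T ⊆ Ioc S.jl S.Jp) : ∑ k ∈ T, dx M k ≤ 1 :=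
  (sum_le_sum_of_subset_of_nonneg hT fun k _ _ => g_dx F k).trans
    ((Ap63.tel M.z (F.cl.jl_lt.le.trans F.cl.i3)).trans_le (Ap63.wt_le F.cl _))

theorem g_lo {k : ℕ} (h1 : S.jl < k) (h2 : M.z k ≤ 1 / (2 * S.C)) :
    M.G k ^ 2 ≤ D ^ 2 * M.s k ^ 2 := by
  have a := (F.cl.Gmi k h1.le h2).trans (F.gr _ (F.cl.s_lt h1 F.cl.jl_lt))
  rw [← mul_pow, ← sq_abs (M.G k)]
  exact pow_le_pow_left₀ (abs_nonneg _) a 2

theorem g_sum {T : Finset ℕ} (hT : T ⊆ Ioc S.jl S.Jp) {f : ℕ → ℝ} {a c : ℝ} (a0 : 0 ≤ a)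
    (c0 : 0 ≤ c) (h1 : ∀ k ∈ T, M.z k ≤ 1 / (2 * S.C) → f k ≤ a)
    (h2 : ∀ k ∈ T, 1 / (2 * S.C) < M.z k → f k ≤ c * M.G k ^ 2) :
    ∑ k ∈ T, dx M k * f k ≤ a + c * S.g2 := by
  have s1 := g_one F hT
  have s2 : ∑ k ∈ T.filter fun k => 1 / (2 * S.C) < M.z k, dx M k * M.G k ^ 2 ≤ S.g2 :=
    le_trans (sum_le_sum_of_subset_of_nonneg (fun k hk => by
      obtain ⟨x, y⟩ := mem_filter.1 hk
      obtain ⟨u, w⟩ := mem_Ioc.1 (hT x)
      exact mem_filter.2 ⟨mem_Icc.2 ⟨by omega, w⟩, y⟩)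
      fun k _ _ => mul_nonneg (g_dx F k) (sq_nonneg _)) F.cl.Gtp
  calc _ ≤ ∑ k ∈ T, (a * dx M k +
        c * if 1 / (2 * S.C) < M.z k then dx M k * M.G k ^ 2 else 0) := by
        refine sum_le_sum fun k hk => ?_
        have d := g_dx F k
        split_ifs with e
        · nlinarith [mul_le_mul_of_nonneg_left (h2 k hk e) d, mul_nonneg a0 d]
        · nlinarith [mul_le_mul_of_nonneg_left (h1 k hk (not_lt.1 e)) d]
    _ ≤ _ := by
        rw [sum_add_distrib, ← mul_sum, ← mul_sum, ← sum_filter]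
        nlinarith [mul_le_mul_of_nonneg_left s2 c0]

/-- `∫ G²` -/
theorem g_all : GS M S 0 S.C + GP M S ≤ D ^ 2 * S.C ^ 2 + S.g2 := by
  have i := F.cl.jl_lt
  rw [GS, GP, ← sum_union (disjoint_left.2 fun k a b => by
    have := (mem_Ioo.1 (mem_filter.1 a).1).2
    have := (mem_Icc.1 b).1
    omega), ← one_mul S.g2]
  have i3 := F.cl.i3
  have hT : ((Ioo S.jl S.J).filter fun k => 0 ≤ M.s k ∧ M.s k ≤ S.C) ∪ Icc S.J S.Jp ⊆
      Ioc S.jl S.Jp := fun k hk => by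
    rcases mem_union.1 hk with a | a
    · have := mem_Ioo.1 (mem_filter.1 a).1
      exact mem_Ioc.2 ⟨this.1, by omega⟩
    · have := mem_Icc.1 a
      exact mem_Ioc.2 ⟨by omega, this.2⟩
  refine g_sum F hT (by positivity) zero_le_one (fun k hk e => ?_) fun k _ _ => (one_mul _).ge
  obtain ⟨a, b⟩ := mem_Ioc.1 (hT hk)
  exact (g_lo F a e).trans (mul_le_mul_of_nonneg_left
    (pow_le_pow_left₀ (F.cl.s_nn k) (F.cl.s_le_C b) 2) (sq_nonneg D))

theorem g_inv {t : ℝ} (ht : l ≤ t) : 1 / S.ms t ≤ 1 / (κ * t ^ 2) + 1 / S.θ := by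
  have t0 := F.l0.trans_le ht
  have κ0 := F.κ0
  have θ0 := F.cl.θ0
  rcases min_le_iff.1 (F.mlo t ht) with a | a
  · linarith [one_div_le_one_div_of_le (by positivity) a, one_div_pos.2 θ0]
  · linarith [one_div_le_one_div_of_le θ0 a, show 0 < 1 / (κ * t ^ 2) by positivity]

theorem g_top {t : ℝ} (ht : t0 ≤ t) : S.θ ≤ S.ms t :=
  (le_min F.t1 le_rfl).trans ((F.mlo t0 F.lt0).trans (F.cl.msm ht))

theorem g_t0 {k : ℕ} (h0 : S.j0 ≤ k) (hk : k < S.J) (h : 1 / (2 * S.C) ≤ M.z k) : t0 ≤ M.s k := by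
  have := le_of_mul_le_mul_left ((F.t2.trans h).trans (F.cl.z_s h0 hk).2) F.cl.C0
  linarith

theorem g_sq {T : Finset ℕ} (hT : ∀ k ∈ T, S.jl < k ∧ k < S.J ∧ l ≤ M.s k) :
    ∑ k ∈ T, dx M k / M.s k ^ 2 ≤ 4 * S.C ^ 2 / l := by
  have l0 := F.l0
  have C0 := F.cl.C0
  have i1 := F.cl.i1
  have p : ∀ k, 0 < M.s k + l := fun k => by linarith [F.cl.s_nn k]
  set ψ : ℕ → ℝ := fun k => -(1 / (M.s k + l)) with hψ
  have m : ∀ k, 0 ≤ ψ k - ψ (k - 1) := fun k => by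
    have := one_div_le_one_div_of_le (p (k - 1))
      (show M.s (k - 1) + l ≤ M.s k + l by linarith [F.cl.sm (Nat.sub_le k 1)])
    simp only [hψ]; linarith
  calc _ ≤ ∑ k ∈ T, 4 * S.C ^ 2 * (ψ k - ψ (k - 1)) := by
        refine sum_le_sum fun k hk => ?_
        obtain ⟨a, b, c⟩ := hT k hk
        obtain ⟨j, rfl⟩ : ∃ j, k = j + 1 := ⟨k - 1, by omega⟩
        have z := (F.cl.zs j (by omega) b).2
        have s := (F.cl.ss j (by omega)).1
        rw [div_le_iff₀ C0] at s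
        have s0 := l0.trans_le c
        have d : dx M (j + 1) ≤ S.C ^ 2 * (M.s (j + 1) - M.s j) := by
          rw [dx, Nat.add_sub_cancel]; nlinarith
        have d0 : 0 ≤ M.s (j + 1) - M.s j := sub_nonneg.2 (F.cl.sm j.le_succ)
        have e : ψ (j + 1) - ψ (j + 1 - 1) =
            (M.s (j + 1) - M.s j) / ((M.s (j + 1) + l) * (M.s j + l)) := by
          have := p j
          have := p (j + 1)
          simp only [hψ, Nat.add_sub_cancel]; field_simp; ring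
        have q : (M.s (j + 1) + l) * (M.s j + l) ≤ 4 * M.s (j + 1) ^ 2 := by nlinarith [p j]
        rw [e]
        refine (div_le_div_of_nonneg_right d (sq_nonneg _)).trans (le_trans (le_of_eq ?_)
          (mul_le_mul_of_nonneg_left (div_le_div_of_nonneg_left d0 (mul_pos (p _) (p _)) q)
            (by positivity)))
        field_simp
    _ ≤ 4 * S.C ^ 2 * ∑ k ∈ Ioc S.jl S.J, (ψ k - ψ (k - 1)) := by
        rw [← mul_sum]
        exact mul_le_mul_of_nonneg_left (sum_le_sum_of_subset_of_nonneg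
          (fun k hk => mem_Ioc.2 ⟨(hT k hk).1, (hT k hk).2.1.le⟩) fun k _ _ => m k) (by positivity)
    _ ≤ _ := by
        rw [Ap63.tel ψ F.cl.jl_lt.le, div_eq_mul_one_div]
        refine mul_le_mul_of_nonneg_left ?_ (by positivity)
        have := one_div_le_one_div_of_le l0 (show l ≤ M.s S.jl + l by linarith [F.cl.s_nn S.jl])
        have := one_div_pos.2 (p S.J)
        simp only [hψ]; linarith

/-- **the bulk cost** for a constant residual size -/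
theorem cB_le (e : ℝ) : cB M S (fun _ => e) l S.C ≤ e ^ 2 * (4 * S.C ^ 2 / (κ * l) + 1 / S.θ) +
    (D ^ 2 * (1 / κ + S.C ^ 2 / S.θ) + S.g2 / S.θ) := by
  have l0 := F.l0
  have κ0 := F.κ0
  have θ0 := F.cl.θ0
  have i1 := F.cl.i1
  have i3 := F.cl.i3
  set T := (Ioo S.jl S.J).filter fun k => l ≤ M.s k ∧ M.s k ≤ S.C with hT
  have t : ∀ k ∈ T, S.jl < k ∧ k < S.J ∧ l ≤ M.s k := fun k hk =>
    ⟨(mem_Ioo.1 (mem_filter.1 hk).1).1, (mem_Ioo.1 (mem_filter.1 hk).1).2, (mem_filter.1 hk).2.1⟩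
  have t' : T ⊆ Ioc S.jl S.Jp := fun k hk => mem_Ioc.2 ⟨(t k hk).1, by have := t k hk; omega⟩
  have s1 := g_sq F t
  have s2 := g_one F t'
  have s3 := g_sum F t' (f := fun k => M.G k ^ 2 / S.ms (M.s k))
    (a := D ^ 2 * (1 / κ + S.C ^ 2 / S.θ)) (c := 1 / S.θ) (by positivity) (by positivity)
    (fun k hk h => by
      obtain ⟨a, b, c⟩ := t k hk
      have s0 := l0.trans_le c
      have u := mul_le_mul (g_lo F a h) (g_inv F c) (one_div_pos.2 (F.cl.ms_pos s0.le)).le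
        (by positivity)
      have w : M.s k ^ 2 / S.θ ≤ S.C ^ 2 / S.θ := div_le_div_of_nonneg_right
        (pow_le_pow_left₀ s0.le (F.cl.s_le_C (by omega)) 2) θ0.le
      have y : D ^ 2 * M.s k ^ 2 * (1 / (κ * M.s k ^ 2) + 1 / S.θ) =
          D ^ 2 * (1 / κ + M.s k ^ 2 / S.θ) := by field_simp
      rw [div_eq_mul_one_div]
      exact u.trans (y.trans_le (mul_le_mul_of_nonneg_left (by linarith) (sq_nonneg D))))
    fun k hk h => by
      obtain ⟨a, b, c⟩ := t k hk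
      rw [one_div_mul_eq_div]
      exact div_le_div_of_nonneg_left (sq_nonneg _) θ0 (g_top F (g_t0 F (by omega) b h.le))
  calc _ ≤ ∑ k ∈ T, (e ^ 2 * (1 / κ * (dx M k / M.s k ^ 2) + 1 / S.θ * dx M k) +
        dx M k * (M.G k ^ 2 / S.ms (M.s k))) := by
        refine sum_le_sum fun k hk => ?_
        obtain ⟨a, b, c⟩ := t k hk
        have s0 := l0.trans_le c
        have m0 := F.cl.ms_pos s0.le
        have c1 : cr S (M.s k) = 1 := by
          rw [cr, F.F1, one_mul]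
          exact max_eq_left (rpow_le_one (by positivity)
            ((div_le_one (by positivity)).2 (F.ml _ c)) (by norm_num))
        have c2 : mf S (M.s k) = S.ms (M.s k) := by rw [mf, F.F1, div_one]
        rw [c1, c2, one_mul]
        have u := mul_le_mul_of_nonneg_left (g_inv F c) (sq_nonneg e)
        rw [mul_one_div] at u
        exact (mul_le_mul_of_nonneg_left (add_le_add u (min_le_right _ _)) (g_dx F k)).trans_eq
          (by field_simp)
    _ ≤ _ := by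
        rw [sum_add_distrib, ← mul_sum, sum_add_distrib, ← mul_sum, ← mul_sum]
        have a1 := mul_le_mul_of_nonneg_left s1 (show 0 ≤ 1 / κ by positivity)
        have a2 := mul_le_mul_of_nonneg_left s2 (show 0 ≤ 1 / S.θ by positivity)
        have a3 : 1 / κ * (4 * S.C ^ 2 / l) = 4 * S.C ^ 2 / (κ * l) := by field_simp
        rw [one_div_mul_eq_div] at s3
        exact add_le_add (mul_le_mul_of_nonneg_left (by linarith) (sq_nonneg e)) s3

/-- **the top window** from the output of (L) -/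
theorem tw_le {Λ a u En γ Γ : ℝ} {m : ℕ} (hΛ : 0 ≤ Λ) (En0 : 0 ≤ En) (O : LO Λ S M m a l u En)
    (hγ : M.s S.Jp - M.s S.J ≤ γ) (hΓ : GS M S 0 S.C + GP M S ≤ Γ) :
    ∑ k ∈ (Ioc S.j0 S.Jp).filter fun k => M.z (S.J - 1) / 2 ≤ M.z (k - 1),
      (M.z k - M.z (k - 1)) * (M.rb m a k - M.q k) ^ 2 ≤
      Λ * (2 * (En / S.θ) + u + Γ + γ ^ 2 + 2 / (S.n : ℝ) ^ 2) := by
  have θ0 := F.cl.θ0
  have a1 := O.two t0 S.C F.lt0 (by
    have C1 := F.cl.C1
    have v := F.cl.v0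
    have : 1 / (2 * S.C) ≤ S.C * S.C := (div_le_one (by linarith)).2 (by linarith) |>.trans
      (by nlinarith)
    have := le_of_mul_le_mul_left (F.t2.trans this) F.cl.C0
    linarith)
  have a2 := O.pla
  have b1 : En / mf S t0 ≤ En / S.θ := by
    rw [mf, F.F1, div_one]; exact div_le_div_of_nonneg_left En0 θ0 (g_top F le_rfl)
  have b2 : GS M S t0 S.C ≤ GS M S 0 S.C := sum_le_sum_of_subset_of_nonneg (fun k hk =>
    mem_filter.2 ⟨(mem_filter.1 hk).1, F.cl.s_nn k, (mem_filter.1 hk).2.2⟩)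
    fun k _ _ => mul_nonneg (g_dx F k) (sq_nonneg _)
  have b3 : (M.s S.Jp - M.s S.J) ^ 2 ≤ γ ^ 2 :=
    pow_le_pow_left₀ (sub_nonneg.2 (F.cl.sm F.cl.i3)) hγ 2
  have c : ∑ k ∈ (Ioc S.j0 S.Jp).filter fun k => M.z (S.J - 1) / 2 ≤ M.z (k - 1),
      (M.z k - M.z (k - 1)) * (M.rb m a k - M.q k) ^ 2 ≤
      ∑ k ∈ (M.blk S t0 S.C).filter (· < S.J), dx M k * M.del m a k ^ 2 + Pla M S m a 2 := by
    simp only [Pla, sq_abs]
    rw [← sum_union (disjoint_left.2 fun k a b => by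
      have := (mem_filter.1 a).2
      have := (mem_Icc.1 b).1
      omega)]
    refine sum_le_sum_of_subset_of_nonneg (fun k hk => ?_)
      fun k _ _ => mul_nonneg (g_dx F k) (sq_nonneg _)
    obtain ⟨x, y⟩ := mem_filter.1 hk
    obtain ⟨x1, x2⟩ := mem_Ioc.1 x
    rcases lt_or_ge k S.J with d | d
    · refine mem_union_left _ (mem_filter.2 ⟨mem_filter.2 ⟨x, g_t0 F x1.le d ?_,
        F.cl.s_le_C x2⟩, d⟩)
      have e : 1 / (2 * S.C) = 1 / S.C / 2 := by rw [div_div, mul_comm]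
      linarith [F.cl.atom.1, F.cl.leg.zm (Nat.sub_le k 1)]
    · exact mem_union_right _ (mem_Icc.2 ⟨d, x2⟩)
  refine c.trans ((add_le_add a1 a2).trans ?_)
  rw [← mul_add]
  refine mul_le_mul_of_nonneg_left ?_ hΛ
  have e : 2 / (S.n : ℝ) ^ 2 = 1 / (S.n : ℝ) ^ 2 + 1 / (S.n : ℝ) ^ 2 := by ring
  linarith [min_le_right (√(S.C * En)) (En / mf S t0), min_le_right (En ^ ((3 : ℝ) / 5)) (En / S.θ)]

/-- the a priori package with `Vt = 1`, `Xp = X` -/
theorem ap_of {m : ℕ} {a X u j Γ : ℝ} (hm : 0 < m)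
    (hX : ∑ k ∈ Ioc S.j0 S.Jp, (M.z k - M.z (k - 1)) * M.del m a k ^ 2 ≤ X)
    (hΓ : GS M S 0 S.C + GP M S ≤ Γ) (hj : √X + √Γ + l ^ 2 ≤ j) (hJ : Jn S M X u) :
    Ap S M m a l X X 1 u j := by
  have e : Phi M S m a ≤ X := by
    rw [Phi, Ap63.En_eq F.cl, Ap63.Sx_two]; exact hX
  refine ⟨e, le_trans (sum_le_sum_of_subset_of_nonneg (fun k hk => mem_filter.2
    ⟨(mem_filter.1 hk).1, F.cl.s_nn k, (mem_filter.1 hk).2.2⟩)
    fun k _ _ => mul_nonneg (g_dx F k) (by positivity)) e, fun k _ b _ => ?_,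
    by linarith [sqrt_le_sqrt hΓ], hJ⟩
  linarith [(Mp9.rb_mem (M := M) (a := a) hm k).2, F.cl.q_nn (b.trans F.cl.i4.le), Md.del.eq_1 M m a k]

omit F in
/-- crude location from the a priori bound -/
theorem cru_of (h : Cl S M) {m : ℕ} {a x γ L Λ : ℝ} (hm : 0 < m) (x0 : 0 ≤ x) (x1 : x ≤ 1)
    (hX : ∑ k ∈ Ioc S.j0 S.Jp, (M.z k - M.z (k - 1)) * M.del m a k ^ 2 ≤ x ^ 3)
    (hγ : M.s S.Jp - M.s S.J ≤ γ) (hL : S.C ^ 2 * S.v + 2 * Ap63.VV S M S.j0 x γ ≤ L)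
    (hΛ : S.C + 1 ≤ Λ) : ∀ k ≤ S.Jp, M.rb m a k ≤ Λ * max (M.z k) L := by
  intro k hk
  have C0 := h.C0
  have P : Ap63.Pri S M S.j0 (M.rb m a) M.q x γ :=
    ⟨h, le_rfl, h.j0_lt, Ap63.sw_q h ((Ap63.q_slow h h.i3 le_rfl).trans hγ), Mp9.rb_mono hm,
      fun k => (Mp9.rb_mem hm k).1, x0, x1, by rw [Ap63.Sx_two]; exact hX⟩
  have m1 := le_max_left (M.z k) L
  have m2 := le_max_right (M.z k) L
  have z0 := h.z_pos k
  refine le_trans ?_ (mul_le_mul_of_nonneg_right hΛ (z0.le.trans m1))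
  rcases lt_or_ge k S.J with d | d
  · have a1 := P.fm (le_max_left k S.j0)
    have a2 := P.le_s (k := max k S.j0) (max_le d.le h.j0_lt.le)
    have a3 := (h.z_s (le_max_right k S.j0) (max_lt d h.j0_lt)).1
    have a4 : M.z (max k S.j0) = M.z k := by
      rcases le_total k S.j0 with e | e
      · rw [max_eq_right e, h.low k e]
      · rw [max_eq_left e]
    rw [a4, sub_le_iff_le_add, div_le_iff₀ C0] at a3
    nlinarith [mul_le_mul_of_nonneg_left m1 C0.le]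
  · have a1 := h.atom.1.trans (h.leg.zm (show S.J - 1 ≤ k by omega))
    rw [div_le_iff₀ C0] at a1
    nlinarith [(Mp9.rb_mem (M := M) (a := a) hm k).2, mul_le_mul_of_nonneg_left m1 C0.le]

end Crest.Agent.T156.Alt.Lt11

end
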