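import Crest.Agent.T156.SprLN_11

/-!
# Row 156, block (L) (helper11): the plateau numbers `LP` with `Vt = 1`, `Lp = Lg³`
-/

set_option autoImplicit false
set_option linter.unusedSectionVars false

noncomputable section

namespace Crest.Agent.T156.Alt.Lt11

open Real Finset
open Crest.Agent.T156.Alt.L69 Crest.Agent.T156.Alt.Ps64

section sums

variable {S : Sc} {M : Md} {h u1 Xp D lm dm Λ Vt γ w Z s : ℝ} (P : PD S M h u1 Xp D lm dm Λ)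
  (hw : S.w3 1 ≤ w) (hZ : ∑ k ∈ nd S M u1, dx M k * aA S M Xp Vt γ k ≤ Z)
include P hw hZ

theorem ap2 (hs : 0 < s) (hs3 : Z ≤ s ^ 3) :
    ∑ k ∈ nd S M u1, dx M k * ap M S Xp Vt γ k ^ 2 ≤ 2 * s ^ 2 + 2 * (w / dm * (w / lm * Λ)) := by
  have a1 := hZ.trans hs3
  have a2 := P.sum_aB hw 1
  have a3 := P.sum_one
  calc _ ≤ ∑ k ∈ nd S M u1, (4 / (3 * s) * (dx M k * aA S M Xp Vt γ k) + 2 * s ^ 2 / 3 * dx M k +
          2 * (dx M k * aB S M k ^ (1 + 1))) := by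
        refine sum_le_sum fun k _ => ?_
        have b1 := young (rpow_nonneg (P.aA0 (Vt := Vt) (γ := γ) k) ((1 : ℝ) / 3)) hs
        rw [cube3 (P.aA0 k)] at b1
        have b2 : ap M S Xp Vt γ k ^ 2 ≤ 2 * (2 / (3 * s) * aA S M Xp Vt γ k + s ^ 2 / 3) +
            2 * aB S M k ^ 2 := by
          rw [ap_eq]
          nlinarith [sq_nonneg (aA S M Xp Vt γ k ^ ((1 : ℝ) / 3) - aB S M k)]
        exact (mul_le_mul_of_nonneg_left b2 (P.dx0 k)).trans_eq (by ring)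
    _ ≤ _ := by
        rw [sum_add_distrib, sum_add_distrib, ← mul_sum, ← mul_sum, ← mul_sum]
        have c1 := mul_le_mul_of_nonneg_left a1 (by positivity : 0 ≤ 4 / (3 * s))
        have c2 := mul_le_mul_of_nonneg_left a3 (by positivity : 0 ≤ 2 * s ^ 2 / 3)
        have c3 : 4 / (3 * s) * s ^ 3 = 4 * s ^ 2 / 3 := by field_simp
        rw [pow_one] at a2
        linarith

theorem ap3 : ∑ k ∈ nd S M u1, dx M k * ap M S Xp Vt γ k ^ 3 ≤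
      4 * Z + 4 * ((w / dm) ^ 2 * (w / lm * Λ)) := by
  have a2 := P.sum_aB hw 2
  calc _ ≤ ∑ k ∈ nd S M u1, (4 * (dx M k * aA S M Xp Vt γ k) + 4 * (dx M k * aB S M k ^ (2 + 1))) := by
        refine sum_le_sum fun k _ => ?_
        have b1 := add_pow_le (rpow_nonneg (P.aA0 (Vt := Vt) (γ := γ) k) ((1 : ℝ) / 3)) (P.aB0 k) 3
        rw [cube3 (P.aA0 k), ← ap_eq] at b1
        exact (mul_le_mul_of_nonneg_left b1 (P.dx0 k)).trans_eq (by ring)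
    _ ≤ _ := by
        rw [sum_add_distrib, ← mul_sum, ← mul_sum]
        linarith

theorem ap4 {aM : ℝ} (h0 : 0 ≤ aM) (hM : ∀ k ∈ nd S M u1, aA S M Xp Vt γ k ≤ aM ^ 3) :
    ∑ k ∈ nd S M u1, dx M k * ap M S Xp Vt γ k ^ 4 ≤
      8 * (aM * Z) + 8 * ((w / dm) ^ 3 * (w / lm * Λ)) := by
  have a1 := mul_le_mul_of_nonneg_left hZ h0
  have a2 := P.sum_aB hw 3
  calc _ ≤ ∑ k ∈ nd S M u1,
          (8 * (aM * (dx M k * aA S M Xp Vt γ k)) + 8 * (dx M k * aB S M k ^ (3 + 1))) := by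
        refine sum_le_sum fun k hk => ?_
        have b0 := rpow_nonneg (P.aA0 (Vt := Vt) (γ := γ) k) ((1 : ℝ) / 3)
        have b1 := add_pow_le b0 (P.aB0 k) 4
        have b2 : aA S M Xp Vt γ k ^ ((1 : ℝ) / 3) ≤ aM :=
          le_of_pow_le_pow_left₀ (n := 3) (by norm_num) h0 (by rw [cube3 (P.aA0 k)]; exact hM k hk)
        have b3 := mul_le_mul_of_nonneg_right b2 (P.aA0 (Vt := Vt) (γ := γ) k)
        have b4 : (aA S M Xp Vt γ k ^ ((1 : ℝ) / 3)) ^ 4 =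
            aA S M Xp Vt γ k ^ ((1 : ℝ) / 3) * aA S M Xp Vt γ k := by
          rw [pow_succ', cube3 (P.aA0 k)]
        rw [← ap_eq, b4] at b1
        have b5 : ap M S Xp Vt γ k ^ 4 ≤ 8 * (aM * aA S M Xp Vt γ k) + 8 * aB S M k ^ 4 := by
          norm_num at b1; linarith
        exact (mul_le_mul_of_nonneg_left b5 (P.dx0 k)).trans_eq (by ring)
    _ ≤ _ := by
        rw [sum_add_distrib, ← mul_sum, ← mul_sum, ← mul_sum]
        linarith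

end sums

/-- the facts on the plateau of the member -/
structure FP (S : Sc) (M : Md) (h u D lm b dM U0 U1 γ Γ : ℝ) : Prop where
  cl : Cl S M
  F1 : S.F = 1
  mesh : ∀ k, S.J ≤ k → k < S.Jp → dx M k ≤ h
  ue : 0 < S.ue ∧ S.ue ≤ h
  u0 : U0 ≤ S.u0 ∧ S.u0 ^ 3 ≤ U1
  ck : S.C ^ 2 * (M.ck S.Jp - M.ck S.J) ≤ D
  d1 : ∀ y, M.z (S.J - 1) ≤ y → y < 1 → lm ≤ S.den y * min (y - M.z (S.J - 1) + S.u0) (1 - y)
  d2 : ∀ y, M.z (S.J - 1) ≤ y → u ≤ 1 - y → b ^ 2 ≤ S.den y ^ 2 * (1 - y) ^ 3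
  d3 : ∀ y, M.z (S.J - 1) ≤ y → u ≤ 1 - y → S.den y ≤ dM
  rev : ∃ k1, S.Jp ≤ k1 ∧ k1 ≤ M.N ∧ 1 / S.C ≤ ((k1 : ℝ) - S.Jp) * S.v ∧
    ∀ k, S.Jp ≤ k → k < k1 → S.θ * S.v / (S.C * S.F) ≤ M.H (k + 1) - M.H k
  spr : M.s S.Jp - M.s S.J ≤ γ
  G : GS M S 0 S.C + GP M S ≤ Γ

/-- pure numbers of the plateau -/
structure NP (E n C θ w h u D lm b dM U0 U1 γ Γ x Λ dm B σ aM Lg Lc uc X2 X3 G0 e j ec τ N : ℝ) :
    Prop where
  E1 : 1 ≤ E
  w1 : 1 ≤ w * (n * θ)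
  h0 : 0 < h
  hu : 16 * h ≤ u
  hU : 16 * h ≤ U0
  hx : 16 * h ≤ x
  nu : 1 / u ≤ n
  nU : 1 / U0 ≤ n
  nx : 1 / x ≤ n
  Λ1 : 6 * log (1 + n) ≤ Λ
  x1 : E * x ≤ 1
  u1 : E * u ≤ 1
  γ0 : 0 ≤ γ
  γ1 : E * γ ≤ 1
  lm0 : 0 < lm
  b0 : 0 < b
  dm0 : 0 < dm
  dm1 : dm ≤ lm * U0
  dm2 : dm ^ 2 ≤ b ^ 2 * u
  B1 : 3 * (4 * x ^ 2 + γ ^ 2 + 2 * C * x ^ 3) / lm + 3 * √(x ^ 3) / b ≤ B
  σ0 : 0 < σ
  σ1 : 4 * (w * (D + B * Λ) + w / lm * √(w / lm)) ≤ σ ^ 3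
  aM0 : 0 ≤ aM
  aM1 : 4 * (w * (dM + 16 / dm) + w / lm * √(w / lm)) ≤ aM ^ 3
  Lg1 : 1 ≤ Lg
  Lg2 : Lg ^ 3 ≤ n
  f1 : 1 ≤ Lg ^ 6 * x
  f2 : w ≤ Lg ^ 3 * (lm ^ 2 * U0)
  f3 : w ≤ Lg ^ 3 * b ^ 2
  n2 : u + (Lg ^ 4 * (2 * σ ^ 2 + 2 * (w / dm * (w / lm * Λ))) + (9 * x ^ 3 * Λ + 3 * γ ^ 2)) ≤ X2
  n3 : u + (Lg ^ 6 * (4 * σ ^ 3 + 4 * ((w / dm) ^ 2 * (w / lm * Λ))) +
    3 * (9 * x ^ 3 * Λ + 3 * γ ^ 2)) ≤ X3
  g1 : u ≤ G0
  g2 : w * ((2 * x + γ + u) / lm + 1) ≤ G0 ^ 2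
  hU1 : U1 ≤ 1
  g3 : h ≤ G0 ^ 2
  c1 : Lg ^ 8 / θ * (8 * (aM * σ ^ 3) + 8 * ((w / dm) ^ 3 * (w / lm * Λ))) ≤ N
  e0 : 0 ≤ e
  c1' : (e + G0 ^ 2 + 3 * X2) ^ 2 / θ ≤ N
  c2 : (Γ + (θ * γ) ^ 2) / θ ≤ N
  c3 : θ * (τ ^ 3 + U1) ≤ N
  c4 : u ^ 2 + u * (e + X2 + √(Γ / u) + θ * γ) + (u * θ) ^ ((3 : ℝ) / 2) + γ * (e + X2) +
    γ ^ ((15 : ℝ) / 7) ≤ N
  c6 : γ * θ * τ ≤ N
  c8 : ec ^ 2 / θ ≤ N
  Lc1 : Lg ≤ Lc ∧ Lc ≤ n
  uc0 : 0 ≤ uc
  uc1 : Lc ^ 2 * w ≤ uc ^ 3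
  j0 : 0 ≤ j
  ec1 : uc ^ 3 + uc ^ 2 * (θ + j + x) + (√(Lc * w) + G0 + X2) * (uc + √X2) + X3 + 1 / n ≤ ec
  uc2 : E * uc ^ 2 ≤ θ
  τ0 : x / Lc + ec / θ ≤ τ
  τ1 : 0 ≤ τ ∧ τ ≤ x
  j1 : E * (j + τ) ≤ 1
  c5a : j + τ + γ ≤ θ
  c5b : (X2 * x + 2 * θ * x ^ 2) ^ 2 / θ ≤ N
  c5c : E * (X2 + 2 * θ * x) ≤ θ
  τw : w ≤ τ ^ 3
  c9 : (w * x ^ 3) ^ ((3 : ℝ) / 4) + θ * (j ^ 9 + (x ^ 3) ^ 3) ≤ N

section

variable {E w h u D lm b dM U0 U1 γ Γ x Λ dm B σ aM Lg Lc uc X2 X3 G0 e j ec τ N : ℝ} {S : Sc}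
  {M : Md} (F : FP S M h u D lm b dM U0 U1 γ Γ)
  (H : NP E S.n S.C S.θ w h u D lm b dM U0 U1 γ Γ x Λ dm B σ aM Lg Lc uc X2 X3 G0 e j ec τ N)
include F H

theorem p_x0 : 0 < x := by linarith [H.hx, H.h0]
theorem p_u0 : 0 < u := by linarith [H.hu, H.h0]
theorem p_U0 : 0 < U0 := by linarith [H.hU, H.h0]
theorem p_x1 : x ≤ 1 := by nlinarith [H.x1, H.E1, p_x0 F H]
theorem p_γ1 : γ ≤ 1 := by nlinarith [H.γ1, H.E1, H.γ0]

theorem p_w : 0 < S.w3 1 ∧ S.w3 1 ≤ w ∧ gg S 1 = S.w3 1 := by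
  have n0 := F.cl.N0
  have t0 : 0 < S.ms 1 := F.cl.θ0
  rw [Sc.w3, gg, F.F1, mul_one]
  exact ⟨by positivity, (div_le_iff₀ (by positivity)).2 H.w1, rfl⟩

theorem p_xs {k : ℕ} (hk : S.J ≤ k) : M.z (S.J - 1) ≤ M.z (k - 1) := F.cl.leg.zm (by omega)

theorem p_lm {k : ℕ} (hk : S.J ≤ k) (h1 : 0 < du M k) : lm ≤ S.den (M.z (k - 1)) * ds M S k :=
  F.d1 _ (p_xs F H hk) (by rw [du] at h1; linarith)

theorem p_du1 (k : ℕ) : du M k ≤ 1 := by rw [du]; linarith [F.cl.z_pos (k - 1)]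

theorem p_case {k : ℕ} (hk : S.J ≤ k) :
    (U0 ≤ ds M S k ∧ 1 ≤ 2 * S.C * du M k) ∨ ds M S k = du M k := by
  rcases le_total (dl M S k) (du M k) with c | c
  · refine Or.inl ⟨?_, ?_⟩
    · rw [ds, min_eq_left c, dl]; linarith [p_xs F H hk, F.u0.1]
    · have a : 1 / S.C ≤ 2 * du M k := by
        rw [dl] at c; rw [du] at c ⊢; linarith [F.cl.atom.2, F.u0.1, p_U0 F H]
      rw [div_le_iff₀ F.cl.C0] at a; linarith
  · exact Or.inr (min_eq_right c)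

theorem p_top {k : ℕ} (hk : S.J ≤ k) (h1 : u ≤ du M k) :
    b ^ 2 ≤ S.den (M.z (k - 1)) ^ 2 * du M k ^ 3 := F.d2 _ (p_xs F H hk) h1

theorem p_log {y : ℝ} (h0 : 0 < y) (h1 : 1 / y ≤ S.n) : log (1 + 1 / y) ≤ log (1 + (S.n : ℝ)) :=
  log_le_log (by positivity) (by linarith)

theorem pd : PD S M h u (x ^ 3) D lm dm Λ := by
  have x0 := p_x0 F H
  have u0 := p_u0 F H
  have U := p_U0 F H
  have l1 := p_log F H u0 H.nu
  refine ⟨F.cl, H.h0, F.mesh, by linarith [F.ue.2, H.hu, H.h0], H.hu, H.hU.trans F.u0.1,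
    by positivity, by rw [third x0.le]; exact H.hx, F.ck, H.lm0, fun k hk => ?_, H.dm0,
    fun k hk => ?_, ?_, ?_⟩
  · obtain ⟨a, c⟩ := mem_filter.1 hk
    exact p_lm F H (mem_Icc.1 a).1 (u0.trans_le c)
  · obtain ⟨a, c⟩ := mem_filter.1 hk
    have a1 := (mem_Icc.1 a).1
    have d0 := F.cl.den0 (M.z (k - 1))
    rcases p_case F H a1 with ⟨c1, -⟩ | c1
    · have := mul_le_mul (p_lm F H a1 (u0.trans_le c)) c1 U.le
        (H.lm0.le.trans (p_lm F H a1 (u0.trans_le c)))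
      nlinarith [H.dm1]
    · rw [c1]
      refine le_of_pow_le_pow_left₀ (n := 2) two_ne_zero (by positivity) ?_
      have := mul_le_mul (p_top F H a1 c) c u0.le (by have := u0.trans_le c; positivity)
      nlinarith [H.dm2]
  · have := p_log F H (U.trans_le F.u0.1) ((one_div_le_one_div_of_le U F.u0.1).trans H.nU)
    linarith [H.Λ1]
  · rw [third x0.le]
    linarith [H.Λ1, p_log F H x0 H.nx]

theorem p_T (k : ℕ) : √(x ^ 3 / max (dl M S k - S.u0) ((x ^ 3) ^ ((1 : ℝ) / 3))) ≤ x := by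
  have x0 := p_x0 F H
  rw [third x0.le]
  refine sqrt_le_iff.2 ⟨x0.le, (div_le_div_of_nonneg_left (by positivity) x0
    (le_max_right _ _)).trans (le_of_eq (by field_simp))⟩

theorem p_B {k : ℕ} (hk : S.J ≤ k) (h1 : u ≤ du M k) :
    (Rp M S (x ^ 3) 1 γ k + (x ^ 3) ^ ((1 : ℝ) / 3)) ^ 2 ≤
      B * (S.den (M.z (k - 1)) * ds M S k) := by
  have x0 := p_x0 F H
  have y0 := (p_u0 F H).trans_le h1
  have l0 := H.lm0
  have b0 := H.b0
  have C0 := F.cl.C0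
  have d0 := F.cl.den0 (M.z (k - 1))
  have L := p_lm F H hk y0
  have T := p_T F H k
  have T0 := sqrt_nonneg (x ^ 3 / max (dl M S k - S.u0) ((x ^ 3) ^ ((1 : ℝ) / 3)))
  set m := min 1 √(x ^ 3 / du M k) with hm
  have m0 : 0 ≤ m := le_min zero_le_one (sqrt_nonneg _)
  have r : (Rp M S (x ^ 3) 1 γ k + (x ^ 3) ^ ((1 : ℝ) / 3)) ^ 2 ≤
      3 * (4 * x ^ 2 + γ ^ 2 + m ^ 2) := by
    have r1 : Rp M S (x ^ 3) 1 γ k + (x ^ 3) ^ ((1 : ℝ) / 3) ≤ 2 * x + m + γ := by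
      rw [Rp, ← hm]; linarith [third x0.le]
    have r0 : 0 ≤ Rp M S (x ^ 3) 1 γ k + (x ^ 3) ^ ((1 : ℝ) / 3) :=
      add_nonneg ((pd F H).Rp0 zero_le_one H.γ0 k) (by positivity)
    refine (pow_le_pow_left₀ r0 r1 2).trans ?_
    nlinarith [sq_nonneg (m - γ), sq_nonneg (2 * x - γ), sq_nonneg (2 * x - m)]
  have a1 : 3 * (4 * x ^ 2 + γ ^ 2 + 2 * S.C * x ^ 3) ≤
      3 * (4 * x ^ 2 + γ ^ 2 + 2 * S.C * x ^ 3) / lm * (S.den (M.z (k - 1)) * ds M S k) :=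
    le_trans (le_of_eq (by field_simp)) (mul_le_mul_of_nonneg_left L (by positivity))
  have a2 := mul_le_mul_of_nonneg_right H.B1 (l0.le.trans L)
  have a3 : 0 ≤ 3 * √(x ^ 3) / b * (S.den (M.z (k - 1)) * ds M S k) :=
    mul_nonneg (by positivity) (l0.le.trans L)
  have a4 : 0 ≤ S.C * x ^ 3 := by positivity
  rcases p_case F H hk with ⟨-, c⟩ | c
  · have : m ^ 2 ≤ 2 * S.C * x ^ 3 := by
      refine (pow_le_pow_left₀ m0 (min_le_right _ _) 2).trans ?_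
      rw [sq_sqrt (by positivity), div_le_iff₀ y0]
      nlinarith [pow_pos x0 3]
    linarith
  · have t : √(x ^ 3 / du M k) ≤ √(x ^ 3) / b * (S.den (M.z (k - 1)) * ds M S k) := by
      rw [c]
      refine sqrt_le_iff.2 ⟨by positivity, ?_⟩
      rw [mul_pow, div_pow, sq_sqrt (by positivity), div_mul_eq_mul_div,
        div_le_div_iff₀ y0 (by positivity)]
      nlinarith [mul_le_mul_of_nonneg_left (p_top F H hk h1) (pow_pos x0 3).le]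
    have : m ^ 2 ≤ m := by nlinarith [min_le_left 1 √(x ^ 3 / du M k)]
    have e : 3 * √(x ^ 3) / b * (S.den (M.z (k - 1)) * ds M S k) =
        3 * (√(x ^ 3) / b * (S.den (M.z (k - 1)) * ds M S k)) := by ring
    linarith [min_le_right 1 √(x ^ 3 / du M k)]

theorem p_Z : ∑ k ∈ nd S M u, dx M k * aA S M (x ^ 3) 1 γ k ≤ σ ^ 3 := by
  have P := pd F H
  obtain ⟨w0, w1, -⟩ := p_w F H
  have B0 : 0 ≤ B := le_trans (by
    have := H.lm0; have := H.b0; have := p_x0 F H; have := F.cl.C0; positivity) H.B1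
  refine le_trans (P.sum_aA0 w1 ?_) H.σ1
  calc _ ≤ ∑ k ∈ nd S M u, w * (dx M k * S.den (M.z (k - 1)) + B * (dx M k / ds M S k)) := by
        refine sum_le_sum fun k hk => ?_
        have s0 := P.ds0 hk
        have d0 := F.cl.den0 (M.z (k - 1))
        have a : a0 S M (x ^ 3) 1 γ k ≤ w * (S.den (M.z (k - 1)) + B / ds M S k) := by
          refine mul_le_mul w1 (add_le_add le_rfl ?_) (by positivity) (w0.le.trans w1)
          rw [div_le_div_iff₀ (by positivity) s0]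
          nlinarith [mul_le_mul_of_nonneg_right (p_B F H (P.lt hk).1 (P.lt hk).2.2) s0.le]
        exact (mul_le_mul_of_nonneg_left a (P.dx0 k)).trans_eq (by ring)
    _ ≤ _ := by
        rw [← mul_sum, sum_add_distrib, ← mul_sum]
        exact mul_le_mul_of_nonneg_left (add_le_add P.sum_den
          (mul_le_mul_of_nonneg_left P.sum_ds B0)) (w0.le.trans w1)

theorem p_R3 : (x ^ 3) ^ ((1 : ℝ) / 3) + 1 + γ ≤ 3 := by
  rw [third (p_x0 F H).le]; linarith [p_x1 F H, p_γ1 F H]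

theorem p_aM : ∀ k ∈ nd S M u, aA S M (x ^ 3) 1 γ k ≤ aM ^ 3 := fun k hk => by
  have P := pd F H
  obtain ⟨w0, w1, -⟩ := p_w F H
  have d0 := F.cl.den0 (M.z (k - 1))
  refine (P.aA_le0 w1 hk).trans (le_trans (mul_le_mul_of_nonneg_left (add_le_add
    (mul_le_mul w1 (add_le_add (F.d3 _ (P.xs_le hk) (P.lt hk).2.2)
    (div_le_div₀ (by norm_num) ?_ H.dm0 (by linarith [P.dm1 k hk]))) (by positivity)
    (w0.le.trans w1)) le_rfl) (by norm_num)) H.aM1)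
  have x0 := p_x0 F H
  have r0 : 0 ≤ Rp M S (x ^ 3) 1 γ k + (x ^ 3) ^ ((1 : ℝ) / 3) :=
    add_nonneg (P.Rp0 zero_le_one H.γ0 k) (by positivity)
  have r1 : Rp M S (x ^ 3) 1 γ k + (x ^ 3) ^ ((1 : ℝ) / 3) ≤ 4 := by
    linarith [(P.Rp_le (Vt := 1) (γ := γ) k).trans (p_R3 F H), third x0.le, p_x1 F H]
  nlinarith

theorem p_L (i : ℕ) : ((Lg ^ 3) ^ ((2 : ℝ) / 3)) ^ i = Lg ^ (2 * i) := by
  have L0 : 0 ≤ Lg := by linarith [H.Lg1]
  rw [← rpow_natCast Lg 3, ← rpow_mul L0, pow_mul, ← rpow_natCast Lg 2]; norm_num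

theorem p_far : Far M S (x ^ 3) 1 γ u (Lg ^ 3) := by
  intro i k hi hik hk h1
  have P := pd F H
  obtain ⟨w0, w1, -⟩ := p_w F H
  have x0 := p_x0 F H
  have u0 := p_u0 F H
  have L1 : 1 ≤ Lg ^ 3 := one_le_pow₀ H.Lg1
  have hd : du M k ≤ du M i := by
    rw [du, du]; linarith [F.cl.leg.zm (show i - 1 ≤ k - 1 by omega)]
  have yk := u0.trans_le h1
  have li := p_lm F H hi (yk.trans_le hd)
  have lk := p_lm F H (hi.trans hik) yk
  have l0 := H.lm0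
  have sk : 0 < lsh M S k := l0.trans_le lk
  have si : 0 < lsh M S i := l0.trans_le li
  have m1 := le_max_left 1 (lsh M S i / lsh M S k)
  have di := F.cl.den0 (M.z (i - 1))
  have dk := F.cl.den0 (M.z (k - 1))
  have a : w ≤ Lg ^ 3 * (lsh M S i ^ 2 * ds M S i) := by
    rcases p_case F H hi with ⟨c, -⟩ | c
    · exact H.f2.trans (mul_le_mul_of_nonneg_left (mul_le_mul (pow_le_pow_left₀ l0.le li 2) c
        (p_U0 F H).le (by positivity)) (by positivity))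
    · refine H.f3.trans (mul_le_mul_of_nonneg_left ((p_top F H hi (h1.trans hd)).trans_eq ?_)
        (by positivity))
      rw [lsh, c]; ring
  have a2 : S.w3 1 * S.den (M.z (i - 1)) ≤ Lg ^ 3 * lsh M S i ^ 3 :=
    (mul_le_mul_of_nonneg_right (w1.trans a) di.le).trans_eq (by rw [lsh]; ring)
  have a4 : lsh M S k ^ 3 ≤ (lsh M S k + (x ^ 3) ^ ((1 : ℝ) / 3)) * lsh M S k ^ 2 +
      S.w3 1 * S.den (M.z (k - 1)) := by
    rw [third x0.le]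
    nlinarith [mul_pos x0 (pow_pos sk 2), mul_pos w0 dk]
  have a3 : lsh M S i ^ 3 ≤ ((lsh M S k + (x ^ 3) ^ ((1 : ℝ) / 3)) * lsh M S k ^ 2 +
      S.w3 1 * S.den (M.z (k - 1))) * max 1 (lsh M S i / lsh M S k) ^ 3 :=
    le_trans (le_of_eq (by field_simp)) (mul_le_mul a4
      (pow_le_pow_left₀ (by positivity) (le_max_right 1 (lsh M S i / lsh M S k)) 3)
      (by positivity) (by positivity))
  rw [mul_assoc]
  exact a2.trans (mul_le_mul_of_nonneg_left a3 (by positivity))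

theorem p_n2 : 0 ≤ Np M S (x ^ 3) 1 γ u (Lg ^ 3) 2 ∧ Np M S (x ^ 3) 1 γ u (Lg ^ 3) 2 ≤ X2 := by
  have P := pd F H
  have L1 : 1 ≤ Lg ^ 3 := one_le_pow₀ H.Lg1
  have L0 : 0 ≤ Lg := by linarith [H.Lg1]
  have a0 : 0 ≤ ∑ k ∈ nd S M u, dx M k * ap M S (x ^ 3) 1 γ k ^ 2 :=
    sum_nonneg fun k _ => mul_nonneg (P.dx0 k) (sq_nonneg _)
  have b0 : 0 ≤ ∑ k ∈ nd S M u, dx M k * Rp M S (x ^ 3) 1 γ k ^ 2 :=
    sum_nonneg fun k _ => mul_nonneg (P.dx0 k) (sq_nonneg _)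
  have u0 := p_u0 F H
  refine ⟨?_, (P.Np_le _ _).trans ?_⟩
  · rw [Np]
    refine add_nonneg u0.le (sum_nonneg fun k _ => mul_nonneg (P.dx0 k) ?_)
    have r0 := P.Rp0 (Vt := 1) zero_le_one H.γ0 k
    have w0 := (p_w F H).1
    have d0 := F.cl.den0 (M.z (k - 1))
    positivity
  rw [p_L F H]
  exact le_trans (add_le_add le_rfl (add_le_add (mul_le_mul_of_nonneg_left
    (ap2 P (p_w F H).2.1 (p_Z F H) H.σ0 le_rfl) (by positivity))
    ((div_le_self b0 L1).trans (P.sum_Rp zero_le_one)))) H.n2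

theorem p_n3 : Np M S (x ^ 3) 1 γ u (Lg ^ 3) 3 ≤ X3 := by
  have P := pd F H
  have L1 : 1 ≤ Lg ^ 3 := one_le_pow₀ H.Lg1
  have L0 : 0 ≤ Lg := by linarith [H.Lg1]
  have b0 : 0 ≤ ∑ k ∈ nd S M u, dx M k * Rp M S (x ^ 3) 1 γ k ^ 3 :=
    sum_nonneg fun k _ => mul_nonneg (P.dx0 k) (pow_nonneg (P.Rp0 zero_le_one H.γ0 k) 3)
  have := P.Λ0
  have := p_x0 F H
  refine (P.Np_le _ _).trans ?_
  rw [p_L F H]
  exact le_trans (add_le_add le_rfl (add_le_add (mul_le_mul_of_nonneg_left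
    (ap3 P (p_w F H).2.1 (p_Z F H)) (by positivity))
    ((div_le_self b0 L1).trans ((P.sum_Rp3 zero_le_one H.γ0).trans
      (mul_le_mul_of_nonneg_right (p_R3 F H) (by positivity)))))) H.n3

theorem p_GP : 0 ≤ GP M S ∧ GP M S ≤ Γ ∧ ∀ t, GS M S t S.C + GP M S ≤ Γ := by
  have P := pd F H
  have a : 0 ≤ GP M S := sum_nonneg fun k _ => mul_nonneg (P.dx0 k) (sq_nonneg _)
  have c : 0 ≤ GS M S 0 S.C := sum_nonneg fun k _ => mul_nonneg (P.dx0 k) (sq_nonneg _)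
  refine ⟨a, by linarith [F.G], fun t => le_trans (add_le_add ?_ le_rfl) F.G⟩
  exact sum_le_sum_of_subset_of_nonneg (fun k hk => mem_filter.2
    ⟨(mem_filter.1 hk).1, F.cl.s_nn k, (mem_filter.1 hk).2.2⟩)
    fun k _ _ => mul_nonneg (P.dx0 k) (sq_nonneg _)

theorem p_τw : S.w3 1 ≤ τ ^ 3 := (p_w F H).2.1.trans H.τw

theorem p_c9 : (S.w3 1 * x ^ 3) ^ ((3 : ℝ) / 4) + S.θ * (j ^ 9 + (x ^ 3) ^ 3) ≤ N := by
  obtain ⟨w0, w1, -⟩ := p_w F H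
  have x0 := p_x0 F H
  refine le_trans (add_le_add (rpow_le_rpow (by positivity) ?_ (by norm_num)) le_rfl) H.c9
  exact mul_le_mul_of_nonneg_right w1 (by positivity)

/-- **the plateau numbers** -/
theorem lp : LP E S M (x ^ 3) 1 Lg (Lg ^ 3) X2 X3 G0 0 u u j γ Lc ec τ (fun _ => e) N := by
  have P := pd F H
  obtain ⟨w0, w1, w2⟩ := p_w F H
  obtain ⟨G1, G2, G3⟩ := p_GP F H
  have x0 := p_x0 F H
  have x1 := p_x1 F H
  have u0 := p_u0 F H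
  have l0 := H.lm0
  have θ0 := F.cl.θ0
  have γ0 := H.γ0
  have E1 := H.E1
  have e3 := third x0.le
  have mf1 : mf S 1 = S.θ := by rw [mf, F.F1, div_one]; rfl
  have X0 : 0 ≤ X2 := (p_n2 F H).1.trans (p_n2 F H).2
  have G0' : 0 ≤ G0 := u0.le.trans H.g1
  have g2 : w * (2 * x + γ + u) ≤ lm * G0 ^ 2 := by
    have a : w * ((2 * x + γ + u) / lm) ≤ G0 ^ 2 := by nlinarith [H.g2]
    rw [← mul_div_assoc, div_le_iff₀ l0] at a; linarith
  have top : ∀ k, S.J ≤ k → 0 < du M k → lm ≤ S.den (M.z (k - 1)) * du M k := fun k a c =>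
    (p_lm F H a c).trans (mul_le_mul_of_nonneg_left (min_le_right _ _) (F.cl.den0 _).le)
  refine ⟨(p_U0 F H).trans_le F.u0.1, F.rev, ⟨by positivity, ?_⟩, zero_le_one, P.ue.le,
    ⟨le_rfl, H.u1⟩, F.spr, H.γ1, ⟨one_le_pow₀ H.Lg1, H.Lg2⟩, le_rfl, p_far F H, (p_n2 F H).2,
    p_n3 F H, ⟨H.g1, fun k a _ c => ?_⟩, ⟨lm, l0, fun k a _ c => p_lm F H a (u0.trans_le c), ?_⟩,
    Or.inr ⟨lm, l0, fun k a _ c => (top k a (u0.trans_le c)).trans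
      (mul_le_of_le_one_right (F.cl.den0 _).le (p_du1 F H k)), by
        rw [e3]
        exact (mul_le_mul w1 (by linarith) (by positivity) (w0.le.trans w1)).trans g2⟩,
    Or.inr ⟨F.ue.2.trans H.g3, fun k a _ c d => ?_⟩, ?_, fun e' he => ?_, ?_, ?_, ?_, H.c6,
    (min_le_right _ _).trans H.c8, p_τw F H, p_c9 F H, H.Lc1,
    fun u' hu => ?_, by rw [e3, mf1]; exact H.τ0, by rw [e3]; exact H.τ1.2, H.j1,
    fun A B' hA hB => ?_⟩
  · nlinarith [H.x1, mul_le_mul_of_nonneg_left (pow_le_one₀ (n := 2) x0.le x1)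
      (show 0 ≤ E * x by positivity)]
  · have y0 := u0.trans_le c
    have d0 := F.cl.den0 (M.z (k - 1))
    have L := p_lm F H a y0
    have s0 : 0 < ds M S k := (mul_pos_iff_of_pos_left d0).1 (l0.trans_le L)
    have s1 : ds M S k ≤ du M k := min_le_right _ _
    have s2 := s1.trans (p_du1 F H k)
    have m : √(x ^ 3 / du M k) * ds M S k ≤ x := by
      refine le_of_pow_le_pow_left₀ (n := 2) two_ne_zero x0.le ?_
      rw [mul_pow, sq_sqrt (by positivity), div_mul_eq_mul_div, div_le_iff₀ y0]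
      have := mul_le_mul (mul_le_of_le_one_right (sq_nonneg x) x1) (mul_le_mul s2 s1 s0.le
        zero_le_one) (by positivity) (sq_nonneg x)
      nlinarith
    have r : Rp M S (x ^ 3) 1 γ k * ds M S k ≤ 2 * x + γ + u := by
      rw [Rp]
      nlinarith [mul_le_mul (p_T F H k) s2 s0.le x0.le, mul_le_of_le_one_right γ0 s2,
        mul_le_mul_of_nonneg_right (min_le_right 1 √(x ^ 3 / du M k)) s0.le]
    refine le_trans (mul_le_mul w1 (add_le_add ?_ s2) (by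
      have := P.Rp0 (Vt := 1) zero_le_one γ0 k; positivity) (w0.le.trans w1)) H.g2
    rw [div_le_div_iff₀ d0 l0]
    nlinarith [mul_le_mul_of_nonneg_left L (P.Rp0 (Vt := 1) zero_le_one γ0 k),
      mul_le_mul_of_nonneg_right r d0.le]
  · rw [e3]
    have U0 := (p_U0 F H).trans_le F.u0.1
    have U1 : S.u0 ≤ 1 :=
      le_of_pow_le_pow_left₀ (n := 3) (by norm_num) zero_le_one (by linarith [F.u0.2, H.hU1])
    have a1 : √(x ^ 3) ≤ x := sqrt_le_iff.2 ⟨x0.le, by nlinarith [mul_pos x0 x0]⟩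
    have a2 : S.u0 * x ≤ x := mul_le_of_le_one_left x0.le U1
    exact (mul_le_mul w1 (by linarith) (by positivity) (w0.le.trans w1)).trans g2
  · have y0 := F.ue.1.trans_le c
    have d0 := F.cl.den0 (M.z (k - 1))
    have a1 := mul_le_mul_of_nonneg_right ((top k a y0).trans
      (mul_le_mul_of_nonneg_left d.le d0.le)) (sq_nonneg G0)
    have a2 : w * u ≤ lm * G0 ^ 2 :=
      (mul_le_mul_of_nonneg_left (by linarith) (w0.le.trans w1)).trans g2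
    exact w1.trans (le_of_mul_le_mul_right (by linarith) u0)
  · refine le_trans ?_ ((mul_le_mul_of_nonneg_left (ap4 P w1 (p_Z F H) H.aM0 (p_aM F H))
      (show 0 ≤ Lg ^ 8 / S.θ by positivity)).trans H.c1)
    rw [mul_sum]
    exact sum_le_sum fun k _ =>
      (mul_le_mul_of_nonneg_left (min_le_right _ _) (P.dx0 k)).trans_eq (by ring)
  · refine (min_le_right _ _).trans (le_trans (div_le_div_of_nonneg_right
      (pow_le_pow_left₀ ?_ ?_ 2) θ0.le) H.c1')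
    · have := H.e0
      have := (p_n2 F H).1
      rw [he, e3]; positivity
    · rw [he, e3]; nlinarith [(p_n2 F H).2]
  · exact le_trans (div_le_div_of_nonneg_right (by linarith [G3 (1 / (8 * S.C ^ 2))]) θ0.le) H.c2
  · exact (mul_le_mul_of_nonneg_left (by linarith [F.u0.2]) θ0.le).trans H.c3
  · refine le_trans ?_ H.c4
    have : √((GP M S + 0 ^ 2) / u) ≤ √(Γ / u) :=
      sqrt_le_sqrt (div_le_div_of_nonneg_right (by linarith) u0.le)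
    gcongr
  · have c0 : 0 ≤ Lc := by linarith [H.Lg1, H.Lc1.1]
    have u1 : 0 ≤ u' := by rw [hu]; positivity
    have u2 : u' ≤ uc := by
      refine le_of_pow_le_pow_left₀ (n := 3) (by norm_num) H.uc0 (le_trans ?_ H.uc1)
      rw [hu, mul_pow, cube3 w0.le, ← rpow_natCast, ← rpow_mul c0]
      norm_num
      exact mul_le_mul_of_nonneg_left w1 (sq_nonneg _)
    have j0 := H.j0
    rw [e3, mf1, w2]
    refine ⟨le_trans ?_ H.ec1, le_trans ?_ H.uc2⟩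
    · have := H.uc0
      gcongr
    · gcongr
  · rw [e3] at hB ⊢
    have A0 : 0 ≤ A := by linarith [H.j0, H.τ1.1]
    have A1 : A ≤ 2 * S.θ := by linarith [H.c5a]
    have m0 : 0 ≤ min A x := le_min A0 x0.le
    have m1 : min A x ≤ x := min_le_right _ _
    refine ⟨(min_le_right _ _).trans (le_trans (div_le_div_of_nonneg_right
      (pow_le_pow_left₀ (by rw [hB]; positivity) ?_ 2) θ0.le) H.c5b), Or.inr (le_trans ?_ H.c5c)⟩
    · rw [hB]; gcongr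
    · gcongr

end

end Crest.Agent.T156.Alt.Lt11

end
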