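import Crest.Agent.T156.SprLO_11
import Crest.Agent.T156.GrReg_29

/-!
# Row 156, stage C (helper11): the exponent table of (L)
-/

set_option autoImplicit false
set_option linter.unusedSectionVars false

noncomputable section

namespace Crest.Agent.T156.Alt.Lt11

open Real

/-- positive numbers with given exponents; `σ = lg s`, `a = lg α` -/
structure Tb (n c η σ a E C θ μ l g ω ν x Lg X2 X3 G0 e N : ℝ) : Prop where
  n1 : 1 < n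
  c0 : 0 < c
  c1 : c ≤ 1 / 2000
  η0 : 0 < η
  η1 : 100 * η ≤ c
  k3 : 1000 ≤ n ^ η
  σ0 : 0 ≤ σ
  σ1 : σ ≤ 1 / 19
  a0 : 3 * c - 1 / 12 ≤ a
  a1 : a ≤ 0
  E1 : 1 ≤ E
  lE : logb n E ≤ c / 100
  C1 : 1 ≤ C
  lC : logb n C ≤ η
  θ0 : 0 < θ
  lθ : logb n θ = -(7 * c)
  μ0 : 0 < μ
  lμ : logb n μ = 2 * σ + 5 * c - 5 / 18
  l0 : 0 < l
  ll : logb n l = σ + 3 * c - 5 / 36
  g0 : 0 < g
  lg : logb n g = -(13 / 18) - 5 * c - 2 * σ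
  ω0 : 0 < ω
  lω : logb n ω = -(7 / 36) - 2 * c - σ
  ν0 : 0 < ν
  lν : logb n ν = -(2 / 3)
  x0 : 0 < x
  lx : logb n x = σ + c / 2 - 1 / 6
  L0 : 0 < Lg
  lL : logb n Lg = 1 / 36
  X20 : 0 < X2
  l2 : logb n X2 = 3 * σ - 3 / 8
  X30 : 0 < X3
  l3 : logb n X3 = 3 * σ + 2 * c - 1 / 2
  G00 : 0 < G0
  lG : logb n G0 = 3 * σ - 2 / 5
  e0 : 0 < e
  le : logb n e = 3 * σ - 5 / 12
  N0 : 0 < N
  lN : logb n N = 8 * σ - 2 / 3 - 2 * a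

theorem lg_le {n x y : ℝ} (hn : 1 < n) (hx : 0 < x) (hy : 0 < y) (h : logb n x ≤ logb n y) :
    x ≤ y := (logb_le_logb hn hx hy).1 h

theorem ex_lg {n : ℝ} (hn : 1 < n) (y : ℝ) : ∃ z, 0 < z ∧ logb n z = y :=
  ⟨n ^ y, by positivity, logb_rpow (by linarith) hn.ne'⟩

theorem sm_lg {n η R : ℝ} (hn : 1 < n) (h : 1000 ≤ n ^ η) (hR : 0 < R) :
    ∃ z, 0 < z ∧ logb n z = logb n R - η ∧ 1000 * z ≤ R := by
  have a : 0 < n ^ η := by linarith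
  refine ⟨R / n ^ η, by positivity, ?_, ?_⟩
  · rw [logb_div hR.ne' a.ne', logb_rpow (by linarith) hn.ne']
  · rw [← mul_div_assoc, div_le_iff₀ a]; nlinarith

/-- a monomial inequality -/
macro "lgl" : tactic => `(tactic| exact lg_le (by assumption) (by positivity) (by positivity)
  (by (try lg_norm); linarith))

set_option maxHeartbeats 2000000 in
theorem Tb.nn {n c η σ a E C θ μ l g ω ν x Lg X2 X3 G0 e N : ℝ}
    (T : Tb n c η σ a E C θ μ l g ω ν x Lg X2 X3 G0 e N) :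
    NN E n C μ l g ω ν x Lg X2 X3 N G0 e := by
  obtain ⟨n1, c0, c1, η0, η1, k3, σ0, σ1, a0, a1, E1, lE, C1, lC, θ0, lθ, μ0, lμ, l0, ll, g0, lg,
    ω0, lω, ν0, lν, x0, lx, L0, lL, X20, l2, X30, l3, G00, lG, e0, le, N0, lN⟩ := T
  have n0 : 0 < n := by linarith
  have E0 : 0 < E := by linarith
  have C0 : 0 < C := by linarith
  have ln : logb n n = 1 := logb_self_eq_one n1
  obtain ⟨y2, y20, m2, k2⟩ := sm_lg n1 k3 X20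
  obtain ⟨y3, y30, m3, k3'⟩ := sm_lg n1 k3 X30
  obtain ⟨yG, yG0, mG, kG⟩ := sm_lg n1 k3 G00
  obtain ⟨ye, ye0, me, ke⟩ := sm_lg n1 k3 e0
  obtain ⟨yN, yN0, mN, kN⟩ := sm_lg n1 k3 N0
  obtain ⟨z2, z20, p2, q2⟩ := sm_lg n1 k3 (pow_pos X20 3)
  obtain ⟨zG, zG0, pG, qG⟩ := sm_lg n1 k3 (pow_pos G00 2)
  rw [logb_pow] at p2 pG
  push_cast at p2 pG
  refine ⟨E1, l0, by lgl, by lgl, ω0, by lgl, by lgl, ν0, by lgl, x0, by lgl, by lgl, by lgl,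
    by lgl, by lgl, ?_, ?_, ?_, ?_, ?_, ?_, ?_, ?_, ?_, by lgl, by lgl, by lgl, by lgl, ?_⟩
  · linarith [show l ^ 3 ≤ y2 by lgl]
  · linarith [show C * g ^ 2 ≤ z2 by lgl]
  · linarith [show x ^ 3 ≤ y2 by lgl]
  · linarith [show l ^ 5 ≤ y3 by lgl]
  · linarith [show g ≤ y3 by lgl]
  · linarith [show ω * x ^ 3 ≤ y3 by lgl]
  · linarith [show l ^ 3 ≤ yG by lgl]
  · linarith [show l ^ 2 * g ≤ zG by lgl]
  · linarith [show Lg ^ 6 * ω ^ 3 ≤ ye by lgl, show Lg ^ 4 * (ν / l) ≤ ye by lgl,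
      show √(Lg * g) * (Lg ^ 2 * ω) ≤ ye by lgl, show √(Lg * g) * √X2 ≤ ye by lgl,
      show G0 * (Lg ^ 2 * ω) ≤ ye by lgl, show G0 * √X2 ≤ ye by lgl,
      show X2 * (Lg ^ 2 * ω) ≤ ye by lgl, show X2 * √X2 ≤ ye by lgl, show X3 ≤ ye by lgl,
      show 1 / n ≤ ye by lgl]
  · have l2' : logb n 2 ≤ η := by
      have := logb_le_logb_of_le n1 two_pos (show (2 : ℝ) ≤ n ^ η by linarith)
      rwa [logb_rpow n0 n1.ne'] at this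
    linarith [show g * ω ≤ yN by lgl,
      show (2 * ω) ^ ((3 : ℝ) / 2) * (x ^ 3) ^ ((7 : ℝ) / 6) ≤ yN by lgl]

/-- the plateau numbers -/
structure Tp (n c η σ a h u D lm b U1 γ Γ w Λ dm B s' aM Lc uc j ec : ℝ) : Prop where
  h0 : 0 < h
  lh : logb n h = -2
  u0 : 0 < u
  lu : logb n u = 7 * c - 2 / 3 - 2 * a
  D0 : 0 < D
  lD : logb n D = 4 * η
  m0 : 0 < lm
  lm' : logb n lm = -(71 / 200)
  b0 : 0 < b
  lb : a - 5 / 12 + 27 * c / 8 - η ≤ logb n b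
  U0 : 0 < U1
  lU : logb n U1 = 6 * c - 2 / 3
  γ0 : 0 < γ
  lγ : logb n γ = -(7 / 20)
  Γ0 : 0 < Γ
  lΓ : logb n Γ = -(2 / 3) - 15 * c / 2
  w0 : 0 < w
  lw : logb n w = 7 * c - 1
  Λ0 : 0 < Λ
  lΛ : logb n Λ = 2 * η
  Λ1 : 6 * log (1 + n) ≤ Λ
  d0 : 0 < dm
  ld : logb n dm = -(3 / 4)
  B0 : 0 < B
  lB : logb n B = 2 * σ + 1 / 6 - a
  s0 : 0 < s'
  ls : logb n s' = σ + 3 * c - 5 / 18 - a / 3
  A0 : 0 < aM
  lA : logb n aM = 3 * c - 1 / 12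
  c0 : 0 < Lc
  lc : logb n Lc = 1 / 6 - 3 * c
  v0 : 0 < uc
  lv : logb n uc = 3 * c - 2 / 9
  j0 : 0 < j
  lj : logb n j = 2 * σ + 2 * c - 1 / 4
  f0 : 0 < ec
  lf : logb n ec = σ - 1 / 3 - 7 * c

set_option maxHeartbeats 8000000 in
theorem Tb.np {n c η σ a E C θ μ l g ω ν x Lg X2 X3 G0 e N h u D lm b U1 γ Γ w Λ dm B s' aM Lc uc j
    ec : ℝ} (T : Tb n c η σ a E C θ μ l g ω ν x Lg X2 X3 G0 e N)
    (P : Tp n c η σ a h u D lm b U1 γ Γ w Λ dm B s' aM Lc uc j ec) :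
    NP E n C θ w h u D lm b (3 / u) lm U1 γ Γ x Λ dm B s' aM Lg Lc uc X2 X3 G0 e j ec (2 * (x / Lc))
      N := by
  obtain ⟨n1, c0, c1, η0, η1, k3, σ0, σ1, a0, a1, E1, lE, C1, lC, θ0, lθ, -, -, -, -, -, -,
    -, -, -, -, x0, lx, L0, lL, X20, l2, X30, l3, G00, lG, e0, le, N0, lN⟩ := T
  obtain ⟨h0, lh, u0, lu, D0, lD, m0, lm', b0, lb, U0, lU, γ0, lγ, Γ0, lΓ, w0, lw, Λ0, lΛ, Λ1, d0,
    ld, B0, lB, s0, ls, A0, lA, Lc0, lc, v0, lv, j0, lj, f0, lf⟩ := P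
  have n0 : 0 < n := by linarith
  have E0 : 0 < E := by linarith
  have C0 : 0 < C := by linarith
  have ln : logb n n = 1 := logb_self_eq_one n1
  obtain ⟨y1, y10, m1, k1⟩ := sm_lg n1 k3 one_pos
  rw [logb_one] at m1
  obtain ⟨y2, y20, m2, k2⟩ := sm_lg n1 k3 X20
  obtain ⟨y3, y30, m3, k3'⟩ := sm_lg n1 k3 X30
  obtain ⟨yN, yN0, mN, kN⟩ := sm_lg n1 k3 N0
  obtain ⟨yB, yB0, mB, kB⟩ := sm_lg n1 k3 B0
  obtain ⟨yf, yf0, mf, kf⟩ := sm_lg n1 k3 f0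
  obtain ⟨yθ, yθ0, mθ, kθ⟩ := sm_lg n1 k3 θ0
  obtain ⟨zG, zG0, pG, qG⟩ := sm_lg n1 k3 (pow_pos G00 2)
  obtain ⟨zs, zs0, ps, qs⟩ := sm_lg n1 k3 (pow_pos s0 3)
  obtain ⟨zA, zA0, pA, qA⟩ := sm_lg n1 k3 (pow_pos A0 3)
  rw [logb_pow] at pG ps pA
  push_cast at pG ps pA
  have hh : ∀ y, 0 < y → -1 ≤ logb n y → 16 * h ≤ y := fun y y0 ly => by
    obtain ⟨z, z0, p, q⟩ := sm_lg n1 k3 y0
    linarith [show h ≤ z by lgl]
  have τ0 : 0 < x / Lc := by positivity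
  refine ⟨E1, by lgl, h0, hh u u0 (by linarith), hh lm m0 (by linarith), hh x x0 (by linarith),
    by lgl, by lgl, by lgl, Λ1, by lgl, by lgl, γ0.le, by lgl, m0, b0, d0, by lgl, by lgl, ?_,
    s0, ?_, A0.le, ?_, by lgl, by lgl, by lgl, by lgl, by lgl, ?_, ?_, by lgl, ?_, by lgl, by lgl, ?_,
    e0.le, ?_, ?_, ?_, ?_, ?_, by lgl, ⟨by lgl, by lgl⟩, v0.le, by lgl, j0.le, ?_, by lgl, ?_,
    ⟨by positivity, ?_⟩, ?_, ?_, ?_, ?_, ?_, ?_⟩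
  · have e1 : 3 * (4 * x ^ 2 + γ ^ 2 + 2 * C * x ^ 3) / lm + 3 * √(x ^ 3) / b =
        12 * (x ^ 2 / lm) + 3 * (γ ^ 2 / lm) + 6 * (C * x ^ 3 / lm) + 3 * (√(x ^ 3) / b) := by ring
    linarith [show x ^ 2 / lm ≤ yB by lgl, show γ ^ 2 / lm ≤ yB by lgl,
      show C * x ^ 3 / lm ≤ yB by lgl, show √(x ^ 3) / b ≤ yB by lgl]
  · linarith [show w * D ≤ zs by lgl, show w * (B * Λ) ≤ zs by lgl,
      show w / lm * √(w / lm) ≤ zs by lgl]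
  · have e1 : w * (3 / u + 16 / dm) = 3 * (w / u) + 16 * (w / dm) := by ring
    linarith [show w / u ≤ zA by lgl, show w / dm ≤ zA by lgl,
      show w / lm * √(w / lm) ≤ zA by lgl]
  · linarith [show u ≤ y2 by lgl, show Lg ^ 4 * s' ^ 2 ≤ y2 by lgl,
      show Lg ^ 4 * (w / dm * (w / lm * Λ)) ≤ y2 by lgl, show x ^ 3 * Λ ≤ y2 by lgl,
      show γ ^ 2 ≤ y2 by lgl]
  · linarith [show u ≤ y3 by lgl, show Lg ^ 6 * s' ^ 3 ≤ y3 by lgl,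
      show Lg ^ 6 * ((w / dm) ^ 2 * (w / lm * Λ)) ≤ y3 by lgl, show x ^ 3 * Λ ≤ y3 by lgl,
      show γ ^ 2 ≤ y3 by lgl]
  · have e1 : w * ((2 * x + γ + u) / lm + 1) =
        2 * (w * x / lm) + w * γ / lm + w * u / lm + w := by ring
    linarith [show w * x / lm ≤ zG by lgl, show w * γ / lm ≤ zG by lgl,
      show w * u / lm ≤ zG by lgl, show w ≤ zG by lgl]
  · linarith [show Lg ^ 8 / θ * (aM * s' ^ 3) ≤ yN by lgl,
      show Lg ^ 8 / θ * ((w / dm) ^ 3 * (w / lm * Λ)) ≤ yN by lgl]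
  · have a2 : e + G0 ^ 2 + 3 * X2 ≤ 5 * X2 := by
      linarith [show e ≤ X2 by lgl, show G0 ^ 2 ≤ X2 by lgl]
    have a3 := div_le_div_of_nonneg_right (pow_le_pow_left₀ (by positivity) a2 2) θ0.le
    have e1 : (5 * X2) ^ 2 / θ = 25 * (X2 ^ 2 / θ) := by ring
    linarith [show X2 ^ 2 / θ ≤ yN by lgl]
  · rw [add_div]
    linarith [show Γ / θ ≤ yN by lgl, show (θ * γ) ^ 2 / θ ≤ yN by lgl]
  · linarith [show θ * (x / Lc) ^ 3 ≤ yN by lgl, show θ * U1 ≤ yN by lgl]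
  · linarith [show u ^ 2 ≤ yN by lgl, show u * e ≤ yN by lgl, show u * X2 ≤ yN by lgl,
      show u * √(Γ / u) ≤ yN by lgl, show u * (θ * γ) ≤ yN by lgl,
      show (u * θ) ^ ((3 : ℝ) / 2) ≤ yN by lgl, show γ * e ≤ yN by lgl, show γ * X2 ≤ yN by lgl,
      show γ ^ ((15 : ℝ) / 7) ≤ yN by lgl]
  · linarith [show γ * θ * (x / Lc) ≤ yN by lgl]
  · linarith [show uc ^ 3 ≤ yf by lgl, show uc ^ 2 * θ ≤ yf by lgl, show uc ^ 2 * j ≤ yf by lgl,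
      show uc ^ 2 * x ≤ yf by lgl, show √(Lc * w) * uc ≤ yf by lgl,
      show √(Lc * w) * √X2 ≤ yf by lgl, show G0 * uc ≤ yf by lgl, show G0 * √X2 ≤ yf by lgl,
      show X2 * uc ≤ yf by lgl, show X2 * √X2 ≤ yf by lgl, show X3 ≤ yf by lgl,
      show 1 / n ≤ yf by lgl]
  · linarith [show ec / θ ≤ x / Lc by lgl]
  · obtain ⟨z, z0, p, q⟩ := sm_lg n1 k3 x0
    linarith [show x / Lc ≤ z by lgl]
  · linarith [show E * j ≤ y1 by lgl, show E * (x / Lc) ≤ y1 by lgl]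
  · linarith [show j ≤ yθ by lgl, show x / Lc ≤ yθ by lgl, show γ ≤ yθ by lgl]
  · have a2 : X2 * x + 2 * θ * x ^ 2 ≤ 3 * (θ * x ^ 2) := by
      linarith [show X2 * x ≤ θ * x ^ 2 by lgl]
    have a3 := div_le_div_of_nonneg_right (pow_le_pow_left₀ (by positivity) a2 2) θ0.le
    have e1 : (3 * (θ * x ^ 2)) ^ 2 / θ = 9 * ((θ * x ^ 2) ^ 2 / θ) := by ring
    linarith [show (θ * x ^ 2) ^ 2 / θ ≤ yN by lgl]
  · linarith [show E * X2 ≤ yθ by lgl, show E * (θ * x) ≤ yθ by lgl]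
  · linarith [show w ≤ (x / Lc) ^ 3 by lgl, pow_pos τ0 3]
  · linarith [show (w * x ^ 3) ^ ((3 : ℝ) / 4) ≤ yN by lgl, show θ * j ^ 9 ≤ yN by lgl,
      show θ * (x ^ 3) ^ 3 ≤ yN by lgl]

end Crest.Agent.T156.Alt.Lt11

end
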