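import Crest.Agent.T156.SprDef_59

/-!
# Row 156 (helper59): legality of the models of stage C, statement
-/

set_option autoImplicit false

noncomputable section

namespace Crest.Agent.T156.Alt

open Real Set

/-- legality of the models of stage C -/
def LegA (g : ℝ) (_Λ : ℝ) (p : Pm) : Prop :=
  (1 ≤ p.b 1 p.ye ∧ p.b 1 p.ye ≤ p.β ^ 2) ∧
  (∀ α P, 0 ≤ α → α ≤ 1 → p.Fine P → (p.alM g P α).Leg (2 * p.am) ∧
    (α = 0 ∨ (p.n : ℝ) ^ (-(3 : ℝ)) ≤ 1 - P.x P.I → (p.alM g P α).H (p.NP P) ≤ p.n)) ∧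
  ∀ P, p.PlOk p.μe P → (p.alM g P 1).Leg (2 * p.am) ∧ (p.tst P p.ye).Leg (2 * p.am) ∧
    ∀ t ∈ Icc (0 : ℝ) 1, (p.c1M g P t).Leg (2 * p.am) ∧ (p.c1M g P t).H (p.NP P) ≤ p.n

theorem LegA.mo (g : ℝ) : Mo (LegA g) := fun _ _ _ _ _ H => H

end Crest.Agent.T156.Alt

end
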