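import Crest.Agent.T156.SprLeg_59
import Crest.Agent.T156.Snap_59

/-!
# Row 156 (helper59): the switch of the grid in stage C is a snap
-/

set_option autoImplicit false
set_option linter.unusedSectionVars false

noncomputable section

namespace Crest.Agent.T156.Alt.Spr59

open Real Set Filter Topology Pre29 MeasureTheory
open Crest.Agent.R164.GC Crest.Agent.R339.B Crest.Agent.R339.Var Crest.Agent.T157.Pf
open Crest.Agent.T156.Ker
open Mem37 Plt13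

/-- `Γ` is Lipschitz in the sup norm of the tilts -/
theorem gam_fine (T0 : ℝ) : ∃ C : ℝ, 1 ≤ C ∧ ∀ (T1 e : ℝ) (l l' : List (ℝ × ℝ)), Tp T1 l →
    Tp T1 l' → T1 ≤ T0 → 0 ≤ e → (∀ s ∈ Icc 0 T1, |lvr 1 l' s - lvr 1 l s| ≤ e) →
    ∀ t ∈ Icc 0 T1, |Pr.Gam l' t - Pr.Gam l t| ≤ C * e := by
  obtain ⟨C, h1, H⟩ := fun_lip' T0
  refine ⟨C * (1 + T0 ^ 2), by nlinarith [sq_nonneg T0], fun T1 e l l' h h' hT e0 he t ht => ?_⟩
  have a := (H T1 l l' h h' hT t ht.1 (ht.2.trans h.mem.2) (ht.2.trans h'.mem.2) _ _ rfl rfl).1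
  rw [min_eq_left ht.2] at a
  have b : Nf l l' t T1 ≤ (T1 - t) * e := by
    have := intervalIntegral.integral_mono_on ht.2 (et_ii l l' t T1)
      (intervalIntegrable_const (c := e)) fun s hs => he s ⟨ht.1.trans hs.1, hs.2⟩
    simpa [Nf, et] using this
  have c : Wf l l' t ≤ t * (t * e) := by
    have := intervalIntegral.integral_mono_on ht.1 (wet_ii l l' 0 t)
      (intervalIntegrable_const (c := t * e)) fun s hs =>
        mul_le_mul hs.2 (he s ⟨hs.1, hs.2.trans ht.2⟩) (abs_nonneg _) ht.1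
    simpa [Wf, et] using this
  have d : t * T1 ≤ T0 ^ 2 := by
    nlinarith [mul_le_mul (ht.2.trans hT) hT (ht.1.trans ht.2) (ht.1.trans (ht.2.trans hT))]
  refine a.trans ?_
  rw [mul_assoc]
  refine mul_le_mul_of_nonneg_left ?_ (by linarith)
  nlinarith [mul_le_mul_of_nonneg_left b ht.1, mul_le_mul_of_nonneg_right d e0]

variable {c0 C0 η Y μ m y lo b e δ : ℝ} {p : Pm} {P P' : Pl} {om : ℕ → ℝ}

theorem sO_mid (g : Geo c0 C0 η Y p P om) {i : ℕ} (hi : i ≤ P.I) :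
    p.sO P om (p.J + i) = p.J * p.v + P.γ * p.lsp P.γ (P.x i) := by
  rw [g.sP_hi (Nat.le_add_right _ _), g.xP_x hi, Nat.sub_eq_zero_of_le (by unfold Pm.Jp; omega)]
  simp

/-- on the spread the tilt follows the inverse of the spread up to the mesh -/
theorem lvr_mid (g : Geo c0 C0 η Y p P om) (ms : ∀ i < P.I, P.x (i + 1) - P.x i ≤ e)
    (e2 : 1 - P.x P.I ≤ e) {t : ℝ} (ht : p.J * p.v ≤ t) :
    (∃ a ∈ Icc p.xs 1, p.J * p.v + P.γ * p.lsp P.γ a ≤ t ∧ lvr 1 (p.lO P om) t ≤ a + e) ∧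
      (lvr 1 (p.lO P om) t = 1 ∨ lvr 1 (p.lO P om) t ∈ Icc p.xs 1 ∧
        t < p.J * p.v + P.γ * p.lsp P.γ (lvr 1 (p.lO P om) t)) := by
  rcases lt_or_ge t (p.sO P om (p.J + P.I)) with a | a
  · obtain ⟨i, hi, b, c⟩ := Pr.exists_cell (s := fun i => p.sO P om (p.J + i))
      (g.sP_J.le.trans ht) P.I a
    rw [g.ref.2.2.1 (p.J + i) _ b c, show p.J + i = p.J + (i + 1) - 1 from rfl, g.zP_x hi]
    rw [sO_mid g hi.le] at b
    rw [sO_mid g hi] at c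
    exact ⟨⟨_, ⟨g.xs_le hi.le, g.x_le1 hi.le⟩, b, by linarith [ms i hi]⟩,
      Or.inr ⟨⟨g.xs_le hi, g.x_le1 hi⟩, c⟩⟩
  · rw [g.ref.2.2.2 _ a]
    rw [sO_mid g le_rfl] at a
    exact ⟨⟨_, ⟨g.xs_le le_rfl, g.x1⟩, a, by linarith⟩, Or.inl rfl⟩

theorem lvr_le (g : Geo c0 C0 η Y p P om) (g' : Geo c0 C0 η Y p P' om) (eγ : P'.γ = P.γ)
    (ms : ∀ i < P.I, P.x (i + 1) - P.x i ≤ e) (e2 : 1 - P.x P.I ≤ e)
    (ms' : ∀ i < P'.I, P'.x (i + 1) - P'.x i ≤ e) (e2' : 1 - P'.x P'.I ≤ e) {t : ℝ}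
    (ht : p.J * p.v ≤ t) : lvr 1 (p.lO P' om) t ≤ lvr 1 (p.lO P om) t + e := by
  obtain ⟨a, a1, a2, a3⟩ := (lvr_mid g' ms' e2' ht).1
  rw [eγ] at a2
  rcases (lvr_mid g ms e2 ht).2 with u | ⟨u1, u2⟩
  · linarith [a1.2]
  · refine a3.trans (add_le_add_left (le_of_not_gt fun h => ?_) e)
    linarith [mul_le_mul_of_nonneg_left (p.lsp_le P.γ u1.1 h.le a1.2) g.g0]

theorem lvr_near (g : Geo c0 C0 η Y p P om) (g' : Geo c0 C0 η Y p P' om)
    (eγ : P'.γ = P.γ) (ms : ∀ i < P.I, P.x (i + 1) - P.x i ≤ e) (e2 : 1 - P.x P.I ≤ e)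
    (ms' : ∀ i < P'.I, P'.x (i + 1) - P'.x i ≤ e) (e2' : 1 - P'.x P'.I ≤ e) (e0 : 0 ≤ e) {t : ℝ}
    (ht : 0 ≤ t) : |lvr 1 (p.lO P' om) t - lvr 1 (p.lO P om) t| ≤ e := by
  rcases lt_or_ge t (p.J * p.v) with a | a
  · rw [g.lv_lo ht a, g'.lv_lo ht a, sub_self, abs_zero]; exact e0
  · exact abs_le.2 ⟨by linarith [lvr_le g' g eγ.symm ms' e2' ms e2 a],
      by linarith [lvr_le g g' eγ ms e2 ms' e2' a]⟩

theorem LS.H_mid (h : LS c0 C0 η Y μ m y lo p P om b) {i : ℕ} (hi : i ≤ P.I) :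
    p.HO P om b (p.J + i) = Pr.Spr41.mk b (p.lO P om) (p.J * p.v + P.γ * p.lsp P.γ (P.x i)) +
      m * p.rF μ (P.x i) := by
  rw [h.H_eq (h.jJ.trans_le (Nat.le_add_right _ _)), sO_mid h.geo hi, h.geo.xP_x hi]

/-- **label-form comparison of two grids** -/
theorem fle (h : LS c0 C0 η Y μ m y lo p P om b) (h' : LS c0 C0 η Y μ m y lo p P' om b)
    (eγ : P'.γ = P.γ) (ms' : ∀ i < P'.I, P'.x (i + 1) - P'.x i ≤ e) (e2' : 1 - P'.x P'.I ≤ e)
    (e0 : 0 ≤ e) (d0 : 0 ≤ δ) (hk : ∀ t ∈ Icc 0 (p.J * p.v + P.γ),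
      Pr.Spr41.mk b (p.lO P om) t ≤ Pr.Spr41.mk b (p.lO P' om) t + δ) :
    FLe 0 δ e (p.famO P om p.jf b 0 0) (p.famO P' om p.jf b 0 0) := by
  intro k k' _ _ _ _ E
  have g := h.geo
  have g' := h'.geo
  have L' := h'.leg le_rfl
  have jJ := h.jJ
  have γ0 := g.g0
  have J0 : 0 ≤ p.J * p.v := mul_nonneg p.J.cast_nonneg g.v0.le
  change p.zP P (max k p.jf) + e < p.zP P' (max k' p.jf) at E
  rcases g.cases k with c | ⟨i, c, rfl⟩ | c
  · have c' : max k p.jf < p.J := max_lt c jJ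
    have u : k < k' := L'.zm.reflect_lt (show p.zP P' (max k p.jf) < p.zP P' (max k' p.jf) by
      rw [zP_lo c'] at E ⊢; linarith)
    refine le_trans ?_ (add_le_add_left (L'.Hm (Nat.succ_le_of_lt u)) δ)
    rw [h.H_fam, h'.H_fam, Nat.succ_eq_add_one]
    rcases le_or_gt (k + 1) p.jf with a | a
    · rw [Pm.HO, Pm.HO, if_pos a, if_pos a]; linarith
    · rw [h.H_eq a, h'.H_eq a, h.xP_succ c, h'.xP_succ c, sP_lo (P := P') c, ← sP_lo (P := P) c]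
      have := hk _ ⟨g.sP_nn (k + 1), ((g.sP_mono c).trans g.sP_J.le).trans (by linarith)⟩
      linarith
  · rw [max_eq_left (by omega), show p.J + i = p.J + (i + 1) - 1 from rfl, g.zP_x c] at E
    have x1 := h.x_mem c
    obtain ⟨i', a1, a2, a3⟩ : ∃ i' ≤ P'.I, p.J + i' ≤ k' ∧ P.x (i + 1) ≤ P'.x i' := by
      rcases g'.cases k' with c' | ⟨i', c', rfl⟩ | c'
      · have c'' : max k' p.jf < p.J := max_lt c' jJ
        rw [zP_lo c''] at E
        have : p.z (max k' p.jf) ≤ p.xs := g.base.lab.mono (by omega)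
        linarith [x1.1]
      · rw [max_eq_left (by omega), show p.J + i' = p.J + (i' + 1) - 1 from rfl, g'.zP_x c'] at E
        exact ⟨i', c'.le, le_rfl, by linarith [ms' i' c']⟩
      · exact ⟨P'.I, le_rfl, c', by linarith [g'.zP_le (max k' p.jf)]⟩
    refine le_trans ?_ (add_le_add_left (L'.Hm a2) δ)
    rw [h.H_fam, h'.H_fam, add_assoc, h.H_mid c, h'.H_mid a1, eγ]
    have w := g.lsp_mem c
    have t0 : 0 ≤ p.J * p.v + P.γ * p.lsp P.γ (P.x (i + 1)) := by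
      have := mul_nonneg γ0 w.1; linarith
    have u1 := hk _ ⟨t0, add_le_add_right (mul_le_of_le_one_right γ0 w.2) _⟩
    have u2 := h'.mono (t := p.J * p.v + P.γ * p.lsp P.γ (P'.x i')) t0 (add_le_add_right
      (mul_le_mul_of_nonneg_left (p.lsp_le P.γ x1.1 a3 (g'.x_le1 a1)) γ0) _)
    have u3 := mul_le_mul_of_nonneg_left (h.nm.monoOn x1 (h'.x_mem a1) a3) h.m0
    linarith
  · rw [zP_hi (c.trans (le_max_left _ _))] at E
    linarith [g'.zP_le (max k' p.jf)]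

end Spr59

open Spr59 Mem37 Plt13 Real Set

/-- **the switch of the grid** -/
theorem c2T {β g : ℝ} (hβ : 1 < β) (hg : 7 / 20 ≤ g) : Gain β (C2T g) := by
  obtain ⟨C2, c2, G2⟩ := gam_fine (β ^ 2 + 1)
  refine Sml.gain (Sml.glueC hβ (crS β hβ) ((nm_sml hβ).and (legA hβ hg))
    fun C hC c0 C0 h0 h1 => ⟨0, fun A _ => ⟨1, one_pos, fun c _ hc => ⟨c / 40, by positivity,
      fun η hη _ => ⟨max C2 (Real.exp (3 * C0 * C)), fun p H G ⟨N, Lg⟩ α α' P P' a0 a1 a2 hP hP' =>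
        ?_⟩⟩⟩⟩)
  have hη' : 40 * η ≤ c := by linarith
  have a3 := a1.trans a2
  have F : p.Fine P := hP.toFine
  have F' : p.Fine P' := hP'.elim (·.toFine) (·.2)
  obtain ⟨L, R⟩ := ls_al hg H hη' hC (le_max_right _ _) G N F.x0 F.xm F.e1 a0 a3
  obtain ⟨L', R'⟩ := ls_al hg H hη' hC (le_max_right _ _) G N F'.x0 F'.xm F'.e1 a0 a3
  obtain ⟨l, t⟩ := Lg.2.1 α' P a0 a3 F
  obtain ⟨l', t'⟩ := Lg.2.1 α' P' a0 a3 F'
  have N0 := H.N0
  have am := H.am0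
  set e := (p.n : ℝ) ^ (-(2 : ℝ)) with he
  have e0 : 0 < e := H.rp0 _
  have γ1 : (p.alP g P α').γ ≤ 1 := rpow_le_one_of_one_le_of_nonpos H.N1.le (by linarith)
  have b0 := L.b0
  have hi : p.J * p.v ≤ β ^ 2 := H.ok.base.hi.trans_eq (by rw [H.hβ])
  have k : ∀ t ∈ Icc 0 (p.J * p.v + (p.alP g P α').γ),
      |Pr.Spr41.mk (p.b 1 p.ye) (p.lO (p.alP g P' α') (p.om 1 p.ye)) t -
        Pr.Spr41.mk (p.b 1 p.ye) (p.lO (p.alP g P α') (p.om 1 p.ye)) t| ≤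
        p.b 1 p.ye * (C2 * e) := fun t ht => by
    have := G2 _ e _ _ (L.geo.spr R.γN).tp2 (L'.geo.spr R'.γN).tp2 (by linarith) e0.le
      (fun s hs => lvr_near L.geo L'.geo rfl F.ms F.e2 F'.ms F'.e2 e0.le hs.1) t ht
    unfold Pr.Spr41.mk
    rw [show ∀ x y : ℝ, t - p.b 1 p.ye * x - (t - p.b 1 p.ye * y) = -(p.b 1 p.ye * (x - y)) from
      fun x y => by ring, abs_neg, abs_mul, abs_of_nonneg b0]
    exact mul_le_mul_of_nonneg_left this b0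
  have d0 : 0 ≤ p.b 1 p.ye * (C2 * e) := by positivity
  have S : Snp 0 (p.b 1 p.ye * (C2 * e)) e p.n (p.alM g P α') (p.alM g P' α') :=
    ⟨Nat.zero_le _, Nat.zero_le _, fun _ h => absurd h (Nat.not_lt_zero _),
      fun k _ => rfl, fun k h => by rw [Nat.le_zero.1 h, l.H0, l'.H0],
      fun k _ => by simp [Pm.alM, Pm.tst, Pm.fam], fun k _ => by simp [Pm.alM, Pm.tst, Pm.fam],
      d0, e0.le, t (Or.inr hP.e3), t' (hP'.elim (fun h => Or.inr h.e3) fun h => Or.inl h.1),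
      fle L L' rfl F'.ms F'.e2 e0.le d0 fun t ht => by linarith [(abs_le.1 (k t ht)).1],
      fle L' L rfl F.ms F.e2 e0.le d0 fun t ht => by linarith [(abs_le.1 (k t ht)).2]⟩
  have w : ∀ {M : Md}, M.Leg (2 * p.am) → M.Leg p.am := fun l =>
    ⟨l.zm, le_trans (by linarith) l.z0, l.z1, l.zN, l.d0, l.dm, l.H0, l.Hm⟩
  refine ⟨_, stage_snap (γ := p.ga) S H.n0 H.ok.s1 (w l) (w l') ?_ ?_, by simp⟩
  · simpa [Pm.alM, Pm.tst, Pm.fam] using R.b2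
  · have L0 := H.Λ0
    have u1 : p.b 1 p.ye ≤ (p.n : ℝ) ^ η := R.b2.trans (H.hβ ▸ H.β_le)
    have u2 : C2 ≤ (p.n : ℝ) ^ η := (le_max_left _ _).trans H.K_le
    have u3 : 2 * ((p.n : ℝ) ^ η * (p.n : ℝ) ^ η) ≤ p.n := H.le_of_lg (by positivity) N0 (by
      lg_norm
      rw [H.lg_n]
      linarith [H.lg_two.2, H.η_le, H.c_le])
    have u4 : 2 * (p.b 1 p.ye * (C2 * e)) ≤ e * p.n := by
      nlinarith [mul_le_mul_of_nonneg_right ((mul_le_mul_of_nonneg_left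
        (mul_le_mul u1 u2 (by linarith) L0.le) zero_le_two).trans u3) e0.le]
    have u5 : 2 * p.n * (2 * (e * p.n)) ≤ ((p.n : ℝ) ^ η)⁻¹ * (p.n : ℝ) ^ ((1 : ℝ) / 6) :=
      H.le_of_lg (by positivity) (by positivity) (by
        rw [he]
        lg_norm
        rw [H.lg_n]
        linarith [H.lg_two.2, H.η_le, H.c_le])
    refine le_trans (mul_le_mul_of_nonneg_left (by linarith) (by positivity)) u5

end Crest.Agent.T156.Alt

end
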