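import Crest.Agent.T156.CaKkt_28
import Crest.Agent.T156.CaGf_90
import Crest.Agent.T156.AltCl_88

/-!
# Row 156, SR (a): moving field slices to other tilts of the same grid (helper63)

Tangent inequality on the unsorted list (joint convexity in the tilts) and the swap inequality
(Minkowski).
-/

set_option autoImplicit false
set_option linter.unusedSectionVars false

noncomputable section

namespace Crest.Agent.T156.Cas

open MeasureTheory Real Set Filter Topology
open Crest.Agent.T157.E Crest.Agent.T157.Casc Crest.Agent.T157.SL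
open Var6 Kkt28

namespace SrA63

/-- tangent inequality for a convex function with partial derivatives -/
theorem tangent {G : (ℕ → ℝ) → ℝ} (hG : ConvexOn ℝ {x | ∀ k, 0 ≤ x k} G) {K : ℕ} {x y g : ℕ → ℝ}
    (hx : ∀ k, 0 < x k) (hy : ∀ k, 0 ≤ y k) (he : ∀ k, K ≤ k → y k = x k)
    (hd : ∀ k < K, HasDerivAt (fun s => G (Function.update x k s)) (g k) (x k)) :
    G x + ∑ k ∈ Finset.range K, g k * (y k - x k) ≤ G y := by
  classical
  rcases Nat.eq_zero_or_pos K with rfl | hK
  · rw [show y = x from funext fun k => he k (Nat.zero_le _)]; simp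
  have hK' : (0 : ℝ) < K := by exact_mod_cast hK
  set p : ℝ → ℕ → ℕ → ℝ := fun ε k => Function.update x k (x k - ε * (K * (y k - x k))) with hp
  set f : ℝ → ℝ := fun ε => ∑ k ∈ Finset.range K, (K : ℝ)⁻¹ * G (p ε k) with hf
  have f0 : f 0 = G x := by
    simp only [hf, hp, zero_mul, sub_zero, Function.update_eq_self, Finset.sum_const,
      Finset.card_range, nsmul_eq_mul]
    field_simp
  have df : HasDerivAt f (∑ k ∈ Finset.range K, (K : ℝ)⁻¹ * (g k * -(K * (y k - x k)))) 0 :=
    HasDerivAt.fun_sum fun k hk => by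
      have a : HasDerivAt (fun ε : ℝ => x k - ε * (K * (y k - x k))) (-(K * (y k - x k))) 0 := by
        simpa using ((hasDerivAt_id' (0 : ℝ)).mul_const (K * (y k - x k))).const_sub (x k)
      have b := hd k (Finset.mem_range.1 hk)
      rw [show x k = x k - 0 * (K * (y k - x k)) by ring] at b
      exact (HasDerivAt.comp (0 : ℝ) (by simpa using b) a).const_mul _
  have hs : ∑ k ∈ Finset.range K, (K : ℝ)⁻¹ * (g k * -(K * (y k - x k))) =
      -∑ k ∈ Finset.range K, g k * (y k - x k) := by
    rw [← Finset.sum_neg_distrib]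
    exact Finset.sum_congr rfl fun k _ => by field_simp
  rw [hs] at df
  have ev : ∀ᶠ ε in 𝓝[>] (0 : ℝ), ∀ k ∈ Finset.range K, 0 ≤ x k - ε * (K * (y k - x k)) := by
    rw [Filter.eventually_all_finset]
    intro k _
    have : Tendsto (fun ε : ℝ => x k - ε * (K * (y k - x k))) (𝓝 0)
        (𝓝 (x k - 0 * (K * (y k - x k)))) :=
      (continuous_const.sub (continuous_id.mul continuous_const)).tendsto 0
    rw [zero_mul, sub_zero] at this
    exact ((this.eventually (lt_mem_nhds (hx k))).mono fun _ h => h.le).filter_mono nhdsWithin_le_nhds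
  have key : ∀ᶠ ε in 𝓝[>] (0 : ℝ), G x - G y ≤ ε⁻¹ • (f (0 + ε) - f 0) := by
    filter_upwards [ev, self_mem_nhdsWithin] with ε h1 h2
    have h2 : 0 < ε := h2
    have m : ∀ k ∈ Finset.range K, p ε k ∈ {x : ℕ → ℝ | ∀ k, 0 ≤ x k} := fun k hk i => by
      by_cases e : i = k
      · subst e; simpa [hp] using h1 i hk
      · simpa [hp, Function.update_of_ne e] using (hx i).le
    have w1 : ∑ _k ∈ Finset.range K, (K : ℝ)⁻¹ = 1 := by
      simp only [Finset.sum_const, Finset.card_range, nsmul_eq_mul]; field_simp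
    have j := hG.map_sum_le (fun _ _ => inv_nonneg.2 hK'.le) w1 m
    have mm := hG.1.sum_mem (fun _ _ => inv_nonneg.2 hK'.le) w1 m
    have e : ∑ k ∈ Finset.range K, (K : ℝ)⁻¹ • p ε k = fun i => x i - ε * (y i - x i) := by
      funext i
      have e1 : ∀ k, p ε k i = x i - if k = i then ε * (K * (y i - x i)) else 0 := fun k => by
        by_cases e : k = i
        · subst e; simp [hp]
        · simp [hp, Function.update_of_ne (Ne.symm e), e]
      simp only [Finset.sum_apply, Pi.smul_apply, smul_eq_mul, e1, mul_sub, Finset.sum_sub_distrib,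
        ← Finset.sum_mul, w1, mul_ite, mul_zero, Finset.sum_ite_eq', Finset.mem_range]
      split_ifs with h
      · field_simp
      · rw [he i (not_lt.1 h)]; ring
    rw [e] at j mm
    have h3 : 0 < 1 + ε := by linarith
    have c := hG.2 hy mm (show 0 ≤ ε / (1 + ε) by positivity) (show 0 ≤ 1 / (1 + ε) by positivity)
      (by field_simp; ring)
    have e2 : ((ε / (1 + ε)) • y + (1 / (1 + ε)) • fun i => x i - ε * (y i - x i)) = x := by
      funext i
      simp only [Pi.add_apply, Pi.smul_apply, smul_eq_mul]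
      field_simp
      ring
    rw [e2] at c
    simp only [smul_eq_mul] at c j ⊢
    rw [zero_add, f0, ← div_eq_inv_mul, le_div_iff₀ h2]
    have c2 : G x * (1 + ε) ≤ ε * G y + G fun i => x i - ε * (y i - x i) := by
      rw [← le_div_iff₀ h3]
      refine c.trans (le_of_eq ?_)
      field_simp
    have : f ε = ∑ k ∈ Finset.range K, (K : ℝ)⁻¹ * G (p ε k) := rfl
    linarith
  have := ge_of_tendsto df.tendsto_slope_zero_right key
  linarith

variable {Ω : Type} [Fintype Ω] {w : Ω → ℝ}

/-- **swap** (Minkowski): the sorted order gives the larger value -/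
theorem swap_step {F : (Ω → ℝ) → ℝ} (hF : Lg F) {l k : Lv Ω} (h0 : 0 < k.m) (hm : k.m ≤ l.m)
    (h : Ω → ℝ) : step l (step k F) h ≤ step k (step l F) h := by
  set S := step k F with hS
  have hs : Lg S := hF.step k
  have hT : Lg (step l F) := hF.step l
  have e0 : ∀ (G : (Ω → ℝ) → ℝ), Lg G → ∀ z, ∫ g, exp (k.m * G (z + k.fld g)) ∂gv k.ι =
      exp (k.m * step k G z) := fun G hG z => by
    rw [C.step_ne h0.ne', ← mul_assoc, mul_inv_cancel₀ h0.ne', one_mul, exp_log (hG.Z_pos k z)]
  set f : (l.ι ⊕ k.ι → ℝ) → ℝ := fun G => exp ((l.m - k.m) * S (h + l.fld fun i => G (.inl i)) +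
    k.m * F (h + l.fld (fun i => G (.inl i)) + k.fld fun i => G (.inr i))) with hf
  have a1 : ∀ y, Lg fun G : l.ι ⊕ k.ι → ℝ => (h + l.fld fun i => G (.inl i)) y :=
    Tr.lg_fld l (H := fun _ => h) (fun _ => Tr.lg_const _) fun i => Tr.lg_coord _
  have hi : Integrable f (gv (l.ι ⊕ k.ι)) := Tr.eg_int (by
    simpa using (Tr.lg_add (Tr.lg_cmul (l.m - k.m) (Tr.lg_comp hs a1)) (Tr.lg_cmul k.m
      (Tr.lg_comp hF (Tr.lg_fld k a1 fun i => Tr.lg_coord (.inr i))))).exp 1)
  have hZ := hs.Z_pos l h
  set Z := ∫ g, exp (l.m * S (h + l.fld g)) ∂gv l.ι with hZ'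
  have i1 : ∫ G, f G ∂gv (l.ι ⊕ k.ι) = Z := by
    rw [Tr.int_sum hi]
    refine integral_congr_ae (.of_forall fun g => ?_)
    simp only [hf, Sum.elim_inl, Sum.elim_inr, exp_add]
    rw [integral_const_mul, e0 F hF, ← exp_add]
    congr 1
    ring
  have i2 : ∀ g', ∫ g, f (Sum.elim g g') ∂gv l.ι ≤
      Z * exp (-(k.m * step l S h)) * exp (k.m * step l F (h + k.fld g')) := fun g' => by
    have b := Hess87.boost_step hs (hF.shift (k.fld g')) l h h0 hm
    have e1 : step l (fun z => F (z + k.fld g')) h = step l F (h + k.fld g') := by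
      simp only [step, add_right_comm h]
    rw [e1, tE, div_le_iff₀ hZ] at b
    rw [mul_assoc, ← exp_add, mul_comm, show -(k.m * step l S h) + k.m * step l F (h + k.fld g') =
      k.m * (step l F (h + k.fld g') - step l S h) by ring]
    refine le_trans (le_of_eq (integral_congr_ae (.of_forall fun g => ?_))) b
    simp only [hf, Sum.elim_inl, Sum.elim_inr, ← exp_add]
    congr 1
    ring
  have i3 := Gf.int_sum' hi
  rw [i1] at i3
  have i4 : Z ≤ Z * exp (-(k.m * step l S h)) * exp (k.m * step k (step l F) h) := by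
    rw [← e0 _ hT, ← integral_const_mul]
    refine i3.le.trans (integral_mono_of_nonneg (.of_forall fun g' => integral_nonneg fun g =>
      (exp_pos _).le) (((hT.exp k.m).int k h).const_mul _) (.of_forall i2))
  rw [mul_assoc, ← exp_add, le_mul_iff_one_le_right hZ, one_le_exp_iff] at i4
  exact le_of_mul_le_mul_left (by linarith) h0

theorem swap (hw : Wt w) {l k : Lv Ω} (h0 : 0 < k.m) (hm : k.m ≤ l.m) (L : List (Lv Ω))
    (h : Ω → ℝ) : X w (l :: k :: L) h ≤ X w (k :: l :: L) h := swap_step (lg_X hw L) h0 hm h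

theorem pre_le (hw : Wt w) {A B : List (Lv Ω)} (H : ∀ h, X w A h ≤ X w B h) (M : List (Lv Ω))
    (h : Ω → ℝ) : X w (M ++ A) h ≤ X w (M ++ B) h := by
  simpa using C.X_append_le hw hw (c := 0) (by simpa using H) M h

theorem X_same (hw : Wt w) {l l' : Lv Ω} (h1 : l.m = l'.m) (h2 : ∀ x y, l.cov x y = l'.cov x y)
    {A B : List (Lv Ω)} (H : X w A = X w B) : X w (l :: A) = X w (l' :: B) := by
  rw [C.X_cons, C.X_cons, H]
  exact C.Same.step ⟨h1, funext fun x => funext (h2 x)⟩ (C.lp_X hw B)

theorem pi2_pre {A B : List (Lv Ω)} (H : X w A = X w B) {i j : ℕ} {κ : Ω → Ω → ℝ}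
    (H2 : pi2 w A i κ = pi2 w B j κ) :
    ∀ M : List (Lv Ω), pi2 w (M ++ A) (M.length + i) κ = pi2 w (M ++ B) (M.length + j) κ
  | [] => by simpa using H2
  | l :: M => by
    funext z
    rw [List.cons_append, List.cons_append, List.length_cons, add_right_comm _ 1 i,
      add_right_comm _ 1 j, pi2_cons, pi2_cons, pi2_pre H H2 M, C.X_append_congr w H M]

/-- `n` levels of a grid from `s` on -/
def gr (b : ℕ → Lv Ω) : ℕ → ℕ → List (Lv Ω)
  | _, 0 => []
  | s, n + 1 => b s :: gr b (s + 1) n

/-- the unsorted list: fixed parts `a`, slices `e` at the tilts `y` -/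
def un (a e : ℕ → Lv Ω) (y : ℕ → ℝ) : ℕ → ℕ → List (Lv Ω)
  | _, 0 => []
  | s, n + 1 => a s :: tm (e s) (y s) :: un a e y (s + 1) n

theorem gr_add (b : ℕ → Lv Ω) : ∀ s n r, gr b s (n + r) = gr b s n ++ gr b (s + n) r
  | _, 0, r => by simp [gr]
  | s, n + 1, r => by
    rw [add_right_comm, gr, gr, gr_add b (s + 1) n r, List.cons_append, add_assoc, add_comm 1 n]

theorem un_add (a e : ℕ → Lv Ω) (y : ℕ → ℝ) :
    ∀ s n r, un a e y s (n + r) = un a e y s n ++ un a e y (s + n) r
  | _, 0, r => by simp [un]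
  | s, n + 1, r => by
    rw [add_right_comm, un, un, un_add a e y (s + 1) n r, List.cons_append, List.cons_append,
      add_assoc, add_comm 1 n]

theorem un_len (a e : ℕ → Lv Ω) (y : ℕ → ℝ) : ∀ s n, (un a e y s n).length = 2 * n
  | _, 0 => rfl
  | s, n + 1 => by simp only [un, List.length_cons, un_len a e y (s + 1) n]; ring

theorem un_congr (a e : ℕ → Lv Ω) {y y' : ℕ → ℝ} :
    ∀ s n, (∀ i, s ≤ i → i < s + n → y i = y' i) → un a e y s n = un a e y' s n
  | _, 0, _ => rfl
  | s, n + 1, H => by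
    rw [un, un, H s le_rfl (by omega), un_congr a e (s + 1) n fun i a b => H i (by omega) (by omega)]

theorem gr_ofFn (b : ℕ → Lv Ω) : ∀ n s, gr b s n = List.ofFn fun k : Fin n => b (s + k)
  | 0, _ => by simp [gr]
  | n + 1, s => by
    rw [gr, List.ofFn_succ, gr_ofFn b n (s + 1)]
    simp [add_assoc, add_comm 1]

theorem gr_same (hw : Wt w) {b b' : ℕ → Lv Ω} {A B : List (Lv Ω)} (H : X w A = X w B) :
    ∀ n s, (∀ i, s ≤ i → i < s + n → (b i).m = (b' i).m ∧ ∀ x y, (b i).cov x y = (b' i).cov x y) →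
      X w (gr b s n ++ A) = X w (gr b' s n ++ B)
  | 0, _, _ => H
  | n + 1, s, h => X_same hw (h s le_rfl (by omega)).1 (h s le_rfl (by omega)).2
      (gr_same hw H n (s + 1) fun i a c => h i (by omega) (by omega))

section start
variable (hw : Wt w) {a e L : ℕ → Lv Ω} {z : ℕ → ℝ} (B : List (Lv Ω))
include hw

theorem start_eq (κ : Ω → Ω → ℝ) : ∀ n s, (∀ i, s ≤ i → i < s + n → (L i).m = z i ∧ (a i).m = z i ∧
      ∀ x y, (L i).cov x y = (a i).cov x y + (e i).cov x y) →
    X w (un a e z s n ++ B) = X w (gr L s n ++ B) ∧ P w (un a e z s n ++ B) = P w (gr L s n ++ B) ∧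
      ∀ j ≤ n, pi2 w (un a e z s n ++ B) (2 * j) κ = pi2 w (gr L s n ++ B) j κ
  | 0, _, _ => ⟨rfl, rfl, fun j hj => by obtain rfl : j = 0 := by omega
                                         rfl⟩
  | n + 1, s, H => by
    obtain ⟨i1, i2, i3⟩ := start_eq κ n (s + 1) fun i a c => H i (by omega) (by omega)
    obtain ⟨h1, h2, h3⟩ := H s le_rfl (by omega)
    have m1 : (L s).m = (a s).m := h1.trans h2.symm
    have m2 : (a s).m = (tm (e s) (z s)).m := h2
    have hP : P w (un a e z s (n + 1) ++ B) = P w (gr L s (n + 1) ++ B) := by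
      rw [un, gr, List.cons_append, List.cons_append, List.cons_append,
        ← P_split hw m1 m2 h3]
      funext h x
      simp only [P, i1, i2]
    refine ⟨?_, hP, fun j hj => ?_⟩
    · rw [un, gr, List.cons_append, List.cons_append, List.cons_append, ← C.X_split hw m1 m2 h3,
        C.X_cons, C.X_cons, i1]
    · funext h
      cases j with
      | zero => rw [mul_zero, pi2_zero, pi2_zero, hP]
      | succ j =>
        rw [un, gr, List.cons_append, List.cons_append, List.cons_append, pi2_cons, ← i1,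
          ← i3 j (by omega), tE_split hw m1 m2 h3 _ (eg_pi2 hw _ _ _)]
        rfl

end start

end SrA63

end Crest.Agent.T156.Cas

end
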