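import Mathlib

/-!
# Row 156, SR leaf S5: the base move, frame-free (helper72)

Levels `k ∈ A ⊆ [j0, j2)` carry slices `w k` at the tilt `z k`; the slice `k` moves to the level
`ξ k`, the first one with `z (ξ k) ≥ z k + ε (r k - q k)`.
-/

set_option autoImplicit false

noncomputable section

namespace Crest.Agent.T156.Alt.SrB72

open Finset

/-- the data of a base move -/
structure Mv (z q r w : ℕ → ℝ) (A : Finset ℕ) (ξ : ℕ → ℕ) (j0 j2 : ℕ) (ε L h c wb : ℝ) : Prop where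
  zm : Monotone z
  rm : ∀ i j, j0 ≤ i → i ≤ j → j ≤ j2 → r i ≤ r j
  qm : ∀ i j, j0 ≤ i → i ≤ j → j ≤ j2 → q i ≤ q j
  ql : ∀ i j, j0 ≤ i → i ≤ j → j ≤ j2 → q j - q i ≤ L * (z j - z i)
  e0 : 0 < ε
  eL : ε * L ≤ 1 / 2
  c0 : 0 ≤ c
  wb0 : 0 ≤ wb
  sub : ∀ k ∈ A, j0 ≤ k ∧ k < j2
  w0 : ∀ k ∈ A, 0 ≤ w k
  w1 : ∀ k ∈ A, w k ≤ wb * (z (k + 1) - z k)
  hi : ∀ j, j0 ≤ j → j < j2 → z (j + 1) - z j ≤ h
  lo : ∀ k ∈ A, z (k + 1) - z k ≤ c * (z (ξ k) - z (ξ k - 1))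
  x0 : ∀ k ∈ A, j0 < ξ k ∧ ξ k ≤ j2
  x1 : ∀ k ∈ A, z (ξ k - 1) < z k + ε * (r k - q k)
  x2 : ∀ k ∈ A, z k + ε * (r k - q k) ≤ z (ξ k)

/-- the grid map exists as soon as the targets lie in `(z j0, z j2]` -/
theorem exists_xi {z t : ℕ → ℝ} (zm : Monotone z) {A : Finset ℕ} {j0 j2 : ℕ}
    (ht : ∀ k ∈ A, z j0 < t k ∧ t k ≤ z j2) :
    ∃ ξ : ℕ → ℕ, ∀ k ∈ A, (j0 < ξ k ∧ ξ k ≤ j2) ∧ z (ξ k - 1) < t k ∧ t k ≤ z (ξ k) := by
  classical
  have h : ∀ k, ∃ j, k ∈ A → (j0 < j ∧ j ≤ j2) ∧ z (j - 1) < t k ∧ t k ≤ z j := fun k => by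
    by_cases hk : k ∈ A
    · have ex : ∃ j, t k ≤ z j := ⟨j2, (ht k hk).2⟩
      have s := Nat.find_spec ex
      have l : j0 < Nat.find ex := by
        by_contra hc
        exact absurd ((s.trans (zm (not_lt.1 hc)))) (not_le.2 (ht k hk).1)
      exact ⟨Nat.find ex, fun _ => ⟨⟨l, Nat.find_min' ex (ht k hk).2⟩,
        not_le.1 (Nat.find_min ex (by omega)), s⟩⟩
    · exact ⟨0, fun h => absurd h hk⟩
  choose ξ hξ using h
  exact ⟨ξ, hξ⟩

/-- the change of the accumulated marks at the node `j` -/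
def G (w : ℕ → ℝ) (A : Finset ℕ) (ξ : ℕ → ℕ) (j : ℕ) : ℝ :=
  ∑ k ∈ A with ξ k < j, w k - ∑ k ∈ A with k < j, w k

theorem G_succ (w : ℕ → ℝ) (A : Finset ℕ) (ξ : ℕ → ℕ) (j : ℕ) :
    G w A ξ (j + 1) - G w A ξ j = ∑ k ∈ A with ξ k = j, w k - if j ∈ A then w j else 0 := by
  have e : ∀ f : ℕ → ℕ, ∑ k ∈ A with f k < j + 1, w k =
      ∑ k ∈ A with f k < j, w k + ∑ k ∈ A with f k = j, w k := fun f => by
    simp only [sum_filter, ← sum_add_distrib]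
    refine sum_congr rfl fun k _ => ?_
    rcases lt_trichotomy (f k) j with h | h | h
    · rw [if_pos (by omega), if_pos h, if_neg (by omega), add_zero]
    · rw [if_pos (by omega), if_neg (by omega), if_pos h, zero_add]
    · rw [if_neg (by omega), if_neg (by omega), if_neg (by omega), add_zero]
  have e2 : ∑ k ∈ A with k = j, w k = if j ∈ A then w j else 0 := by
    rw [sum_filter, sum_ite_eq']
  unfold G
  rw [e ξ, e fun k => k, e2]
  ring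

theorem G_eq (w : ℕ → ℝ) (A : Finset ℕ) (ξ : ℕ → ℕ) (j : ℕ) :
    G w A ξ j = ∑ k ∈ A with (ξ k < j ∧ j ≤ k), w k - ∑ k ∈ A with (k < j ∧ j ≤ ξ k), w k := by
  unfold G
  simp only [sum_filter, ← sum_sub_distrib]
  refine sum_congr rfl fun k _ => ?_
  by_cases a : ξ k < j <;> by_cases b : k < j
  · rw [if_pos a, if_pos b, if_neg (by omega), if_neg (by omega)]; ring
  · rw [if_pos a, if_neg b, if_pos ⟨a, by omega⟩, if_neg (by omega)]
  · rw [if_neg a, if_pos b, if_neg (by omega), if_pos ⟨b, by omega⟩]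
  · rw [if_neg a, if_neg b, if_neg (by omega), if_neg (by omega)]

theorem sum_tel {z : ℕ → ℝ} (zm : Monotone z) {B : Finset ℕ} {a b : ℕ} (hab : a ≤ b)
    (hB : ∀ k ∈ B, a ≤ k ∧ k < b) : ∑ k ∈ B, (z (k + 1) - z k) ≤ z b - z a := by
  rw [← Finset.sum_Ico_sub z hab]
  exact sum_le_sum_of_subset_of_nonneg (fun k hk => mem_Ico.2 (hB k hk))
    fun k _ _ => sub_nonneg.2 (zm (Nat.le_succ k))

namespace Mv

variable {z q r w : ℕ → ℝ} {A : Finset ℕ} {ξ : ℕ → ℕ} {j0 j2 : ℕ} {ε L h c wb : ℝ}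
  (H : Mv z q r w A ξ j0 j2 ε L h c wb)
include H

/-- the targets spread at least half as fast as the labels -/
theorem spread {i j : ℕ} (h0 : j0 ≤ i) (hij : i ≤ j) (h2 : j ≤ j2) :
    z j - z i ≤ 2 * (z j + ε * (r j - q j) - (z i + ε * (r i - q i))) := by
  have a := mul_le_mul_of_nonneg_left (H.ql i j h0 hij h2) H.e0.le
  have b := mul_le_mul_of_nonneg_left (H.rm i j h0 hij h2) H.e0.le
  have d := mul_le_mul_of_nonneg_right H.eL (sub_nonneg.2 (H.zm hij))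
  nlinarith

theorem step {j : ℕ} (h0 : j0 < j) (h2 : j ≤ j2) : z j - z (j - 1) ≤ h := by
  have := H.hi (j - 1) (by omega) (by omega)
  rwa [Nat.sub_add_cancel (by omega)] at this

theorem wsum {B : Finset ℕ} (hB : B ⊆ A) {a b : ℕ} (hab : a ≤ b)
    (h : ∀ k ∈ B, a ≤ k ∧ k < b) : ∑ k ∈ B, w k ≤ wb * (z b - z a) :=
  (sum_le_sum fun k hk => H.w1 k (hB hk)).trans (by
    rw [← mul_sum]; exact mul_le_mul_of_nonneg_left (sum_tel H.zm hab h) H.wb0)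

/-- the mass landing on one level -/
theorem land (j : ℕ) : ∑ k ∈ A with ξ k = j, w k ≤ wb * (2 + c) * (z j - z (j - 1)) := by
  have d0 : 0 ≤ z j - z (j - 1) := sub_nonneg.2 (H.zm (Nat.sub_le j 1))
  rcases (A.filter fun k => ξ k = j).eq_empty_or_nonempty with e | ne
  · rw [e, sum_empty]
    exact mul_nonneg (mul_nonneg H.wb0 (by linarith [H.c0])) d0
  set B := A.filter fun k => ξ k = j with hB
  obtain ⟨a1, a2⟩ := mem_filter.1 (B.min'_mem ne)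
  obtain ⟨b1, b2⟩ := mem_filter.1 (B.max'_mem ne)
  have ab := B.min'_le_max' ne
  have s := H.wsum (B := B) (filter_subset _ _) (a := B.min' ne) (b := B.max' ne + 1) (by omega)
    fun k hk => ⟨B.min'_le k hk, Nat.lt_succ_of_le (B.le_max' k hk)⟩
  have t := H.spread (H.sub _ a1).1 ab (H.sub _ b1).2.le
  have u := H.x1 _ a1
  have u' := H.x2 _ b1
  have l := H.lo _ b1
  rw [a2] at u
  rw [b2] at u' l
  refine s.trans ?_
  rw [mul_assoc]
  exact mul_le_mul_of_nonneg_left (by nlinarith) H.wb0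

/-- **the image measure has bounded density** -/
theorem dens {F : ℕ → ℝ} (hF : ∀ j, j0 < j → j ≤ j2 → 0 ≤ F j) :
    ∑ k ∈ A, w k * F (ξ k) ≤ wb * (2 + c) * ∑ j ∈ Ioc j0 j2, (z j - z (j - 1)) * F j := by
  rw [← sum_fiberwise_of_maps_to (s := A) (t := Ioc j0 j2) (g := ξ)
    (fun k hk => mem_Ioc.2 (H.x0 k hk)), mul_sum]
  refine sum_le_sum fun j hj => ?_
  rw [sum_congr rfl (g := fun k => w k * F j) fun k hk => by rw [(mem_filter.1 hk).2],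
    ← sum_mul, ← mul_assoc]
  exact mul_le_mul_of_nonneg_right (H.land j) (hF j (mem_Ioc.1 hj).1 (mem_Ioc.1 hj).2)

theorem G_low {j : ℕ} (hj : j ≤ j0) : G w A ξ j = 0 := by
  unfold G
  rw [filter_false_of_mem fun k hk => by have := (H.x0 k hk).1; omega,
    filter_false_of_mem fun k hk => by have := (H.sub k hk).1; omega, sub_self]

theorem G_high {j : ℕ} (hj : j2 < j) : G w A ξ j = 0 := by
  unfold G
  rw [filter_true_of_mem fun k hk => by have := (H.x0 k hk).2; omega,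
    filter_true_of_mem fun k hk => by have := (H.sub k hk).2; omega, sub_self]

/-- the unmoved marks stay -/
theorem G_floor (j : ℕ) : -(if j ∈ A then w j else 0) ≤ G w A ξ (j + 1) - G w A ξ j := by
  rw [G_succ]
  have : 0 ≤ ∑ k ∈ A with ξ k = j, w k := sum_nonneg fun k hk => H.w0 k (mem_filter.1 hk).1
  linarith

/-- **pointwise bound of the residual** -/
theorem abs_G {j : ℕ} (h0 : j0 < j) (h2 : j ≤ j2) :
    |G w A ξ j| ≤ 2 * wb * (ε * |r j - q j| + h) := by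
  have hh : 0 ≤ h := (sub_nonneg.2 (H.zm (Nat.sub_le j 1))).trans (H.step h0 h2)
  have p1 := mul_le_mul_of_nonneg_left (le_abs_self (r j - q j)) H.e0.le
  have p2 := mul_le_mul_of_nonneg_left (neg_abs_le (r j - q j)) H.e0.le
  have p0 : 0 ≤ ε * |r j - q j| := mul_nonneg H.e0.le (abs_nonneg _)
  have n0 : ∀ P : ℕ → Prop, ∀ [DecidablePred P], 0 ≤ ∑ k ∈ A with P k, w k := fun P _ =>
    sum_nonneg fun k hk => H.w0 k (mem_filter.1 hk).1
  have up : ∑ k ∈ A with (k < j ∧ j ≤ ξ k), w k ≤ 2 * wb * (ε * |r j - q j| + h) := by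
    rcases (A.filter fun k => k < j ∧ j ≤ ξ k).eq_empty_or_nonempty with e | ne
    · rw [e, sum_empty]; have := H.wb0; positivity
    set B := A.filter fun k => k < j ∧ j ≤ ξ k with hB
    obtain ⟨a1, a2, a3⟩ := mem_filter.1 (B.min'_mem ne)
    have s := H.wsum (B := B) (filter_subset _ _) (a := B.min' ne) (b := j) a2.le
      fun k hk => ⟨B.min'_le k hk, (mem_filter.1 hk).2.1⟩
    have t := H.spread (H.sub _ a1).1 a2.le h2
    have u := H.x1 _ a1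
    have u' := H.zm (show j - 1 ≤ ξ (B.min' ne) - 1 by omega)
    have := H.step h0 h2
    refine s.trans ?_
    rw [mul_comm 2 wb, mul_assoc]
    exact mul_le_mul_of_nonneg_left (by linarith) H.wb0
  have dn : ∑ k ∈ A with (ξ k < j ∧ j ≤ k), w k ≤ 2 * wb * (ε * |r j - q j| + h) := by
    rcases (A.filter fun k => ξ k < j ∧ j ≤ k).eq_empty_or_nonempty with e | ne
    · rw [e, sum_empty]; have := H.wb0; positivity
    set B := A.filter fun k => ξ k < j ∧ j ≤ k with hB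
    obtain ⟨a1, a2, a3⟩ := mem_filter.1 (B.max'_mem ne)
    have s := H.wsum (B := B) (filter_subset _ _) (a := j) (b := B.max' ne + 1) (by omega)
      fun k hk => ⟨(mem_filter.1 hk).2.2, Nat.lt_succ_of_le (B.le_max' k hk)⟩
    have t := H.spread h0.le a3 (H.sub _ a1).2.le
    have u := H.x2 _ a1
    have u' := H.zm a2.le
    have := H.hi _ (H.sub _ a1).1 (H.sub _ a1).2
    refine s.trans ?_
    rw [mul_comm 2 wb, mul_assoc]
    exact mul_le_mul_of_nonneg_left (by linarith) H.wb0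
  rw [G_eq, abs_le]
  constructor <;> linarith [n0 fun k => k < j ∧ j ≤ ξ k, n0 fun k => ξ k < j ∧ j ≤ k]

/-- the residual in `L²`, any weights, any set of nodes -/
theorem sq_G {B : Finset ℕ} {d : ℕ → ℝ} (hd : ∀ j ∈ B, 0 ≤ d j) (h0 : 0 ≤ h) :
    ∑ j ∈ B, d j * G w A ξ j ^ 2 ≤
      8 * wb ^ 2 * (ε ^ 2 * ∑ j ∈ B, d j * (r j - q j) ^ 2 + h ^ 2 * ∑ j ∈ B, d j) := by
  rw [mul_sum, mul_sum, ← sum_add_distrib, mul_sum]
  refine sum_le_sum fun j hj => ?_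
  have k : G w A ξ j ^ 2 ≤ 8 * wb ^ 2 * (ε ^ 2 * (r j - q j) ^ 2 + h ^ 2) := by
    by_cases a : j0 < j ∧ j ≤ j2
    · have b := pow_le_pow_left₀ (abs_nonneg _) (H.abs_G a.1 a.2) 2
      rw [sq_abs] at b
      refine b.trans ?_
      rw [← sq_abs (r j - q j)]
      nlinarith [sq_nonneg (wb * (ε * |r j - q j| - h))]
    · rw [show G w A ξ j = 0 by
        rcases not_and_or.1 a with a | a
        exacts [H.G_low (not_lt.1 a), H.G_high (not_le.1 a)]]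
      simp only [ne_eq, OfNat.ofNat_ne_zero, not_false_eq_true, zero_pow]
      positivity
  calc d j * G w A ξ j ^ 2 ≤ d j * (8 * wb ^ 2 * (ε ^ 2 * (r j - q j) ^ 2 + h ^ 2)) :=
        mul_le_mul_of_nonneg_left k (hd j hj)
    _ = _ := by ring

/-- one slice -/
theorem one {k : ℕ} (hk : k ∈ A) (r' : ℝ) :
    ε ^ 2 * (r k - q k) ^ 2 ≤ 32 * ε ^ 2 * (r' - q (ξ k)) ^ 2 +
      16 * ε * ((z (ξ k) - z k) * r k - (z (ξ k) - z k) * r') + 18 * h ^ 2 := by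
  have e0 := H.e0
  have x1 := H.x1 k hk
  have x2 := H.x2 k hk
  have st := H.step (H.x0 k hk).1 (H.x0 k hk).2
  set δ := z (ξ k) - z k with hδ
  have l : 2 * ε * (δ * (q (ξ k) - q k)) ≤ δ ^ 2 := by
    rcases le_total k (ξ k) with a | a
    · have b := H.ql _ _ (H.sub k hk).1 a (H.x0 k hk).2
      have d : 0 ≤ δ := sub_nonneg.2 (H.zm a)
      have := mul_le_mul_of_nonneg_left b (mul_nonneg e0.le d)
      have := mul_le_mul_of_nonneg_right H.eL (sq_nonneg δ)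
      nlinarith
    · have b := H.ql _ _ (H.x0 k hk).1.le a (H.sub k hk).2.le
      have d : 0 ≤ -δ := by rw [hδ, neg_sub]; exact sub_nonneg.2 (H.zm a)
      have := mul_le_mul_of_nonneg_left b (mul_nonneg e0.le d)
      have := mul_le_mul_of_nonneg_right H.eL (sq_nonneg δ)
      nlinarith
  set ρ := δ - ε * (r k - q k) with hρ
  have ρ0 : 0 ≤ ρ := by rw [hρ, hδ]; linarith
  have ρ1 : ρ ≤ h := by rw [hρ, hδ]; linarith
  have ρ2 : ρ ^ 2 ≤ h ^ 2 := pow_le_pow_left₀ ρ0 ρ1 2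
  have e : ε * (r k - q k) = δ - ρ := by rw [hρ]; ring
  have e1 : ε ^ 2 * (r k - q k) ^ 2 = (δ - ρ) ^ 2 := by rw [← e]; ring
  have e2 : ε * (δ * r k - δ * r') =
      δ * (δ - ρ) - ε * (δ * (q (ξ k) - q k)) - δ * (ε * (r' - q (ξ k))) := by rw [← e]; ring
  rw [e1, mul_assoc 16, e2]
  nlinarith [sq_nonneg (δ - 4 * (ε * (r' - q (ξ k)))), sq_nonneg (δ - 2 * ρ), sq_nonneg (δ + ρ)]

/-- **the base move**: the two `MV` inequalities and the Guerra steps give the hypothesis `hX` -/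
theorem main {r' : ℕ → ℝ} {X : ℝ}
    (hX : ∑ k ∈ A, w k * (z (ξ k) - z k) * r k ≤
      ∑ k ∈ A, w k * (z (ξ k) - z k) * r' (ξ k) + X) :
    ∑ k ∈ A, w k * (r k - q k) ^ 2 ≤
      32 * (wb * (2 + c)) * ∑ j ∈ Ioc j0 j2, (z j - z (j - 1)) * (r' j - q j) ^ 2 +
        16 * X / ε + 18 * (h / ε) ^ 2 * ∑ k ∈ A, w k := by
  have e0 := H.e0
  have d := H.dens (F := fun j => (r' j - q j) ^ 2) fun _ _ _ => sq_nonneg _
  have s := sum_le_sum (s := A) fun k hk =>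
    mul_le_mul_of_nonneg_left (H.one hk (r' (ξ k))) (H.w0 k hk)
  have e1 : ∑ k ∈ A, w k * (ε ^ 2 * (r k - q k) ^ 2) = ε ^ 2 * ∑ k ∈ A, w k * (r k - q k) ^ 2 := by
    rw [mul_sum]; exact sum_congr rfl fun k _ => by ring
  have e2 : ∑ k ∈ A, w k * (32 * ε ^ 2 * (r' (ξ k) - q (ξ k)) ^ 2 +
      16 * ε * ((z (ξ k) - z k) * r k - (z (ξ k) - z k) * r' (ξ k)) + 18 * h ^ 2) =
      32 * ε ^ 2 * ∑ k ∈ A, w k * (r' (ξ k) - q (ξ k)) ^ 2 +
      16 * ε * (∑ k ∈ A, w k * (z (ξ k) - z k) * r k -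
        ∑ k ∈ A, w k * (z (ξ k) - z k) * r' (ξ k)) + 18 * h ^ 2 * ∑ k ∈ A, w k := by
    simp only [mul_sum, ← sum_sub_distrib, ← sum_add_distrib]
    exact sum_congr rfl fun k _ => by ring
  rw [e1, e2] at s
  have d' := mul_le_mul_of_nonneg_left d (show 0 ≤ 32 * ε ^ 2 by positivity)
  have x' := mul_le_mul_of_nonneg_left (sub_le_iff_le_add'.2 hX) (show 0 ≤ 16 * ε by positivity)
  refine le_of_mul_le_mul_left ?_ (show 0 < ε ^ 2 by positivity)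
  have e3 : ε ^ 2 * (32 * (wb * (2 + c)) *
      ∑ j ∈ Ioc j0 j2, (z j - z (j - 1)) * (r' j - q j) ^ 2 + 16 * X / ε +
      18 * (h / ε) ^ 2 * ∑ k ∈ A, w k) = 32 * ε ^ 2 * (wb * (2 + c) *
      ∑ j ∈ Ioc j0 j2, (z j - z (j - 1)) * (r' j - q j) ^ 2) + 16 * ε * X +
      18 * h ^ 2 * ∑ k ∈ A, w k := by field_simp
  rw [e3]
  linarith

/-- exact one-sided form of `MV`: up-movers read `r k` and `r' (ξ k + 1)`, down-movers read
`r (k + 1)` and `r' (ξ k)`; `Z ≥ |z (ξ k) - z k|`, `R`, `R'` bound the total rises -/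
theorem of_exact {r' : ℕ → ℝ} {X Z R R' : ℝ} (hZ : z j2 - z j0 ≤ Z)
    (rm' : ∀ j, j0 < j → j ≤ j2 → r' j ≤ r' (j + 1)) (hR : r j2 - r j0 ≤ R)
    (hR' : r' (j2 + 1) - r' (j0 + 1) ≤ R') (hj : j0 < j2)
    (hX : ∑ k ∈ A, w k * (z (ξ k) - z k) * (if k ≤ ξ k then r k else r (k + 1)) ≤
      ∑ k ∈ A, w k * (z (ξ k) - z k) * (if k ≤ ξ k then r' (ξ k + 1) else r' (ξ k)) + X) :
    ∑ k ∈ A, w k * (z (ξ k) - z k) * r k ≤ ∑ k ∈ A, w k * (z (ξ k) - z k) * r' (ξ k) +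
      (X + Z * (wb * h * R + wb * (2 + c) * h * R')) := by
  have hh : 0 ≤ h := (sub_nonneg.2 (H.zm (Nat.le_succ j0))).trans (H.hi j0 le_rfl hj)
  have Z0 : 0 ≤ Z := (sub_nonneg.2 (H.zm hj.le)).trans hZ
  have c2 : 0 ≤ wb * (2 + c) := mul_nonneg H.wb0 (by linarith [H.c0])
  have a1 : ∑ k ∈ A, w k * (r (k + 1) - r k) ≤ wb * h * R := by
    calc ∑ k ∈ A, w k * (r (k + 1) - r k) ≤ ∑ k ∈ A, wb * h * (r (k + 1) - r k) :=
          sum_le_sum fun k hk => mul_le_mul_of_nonneg_right ((H.w1 k hk).trans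
            (mul_le_mul_of_nonneg_left (H.hi k (H.sub k hk).1 (H.sub k hk).2) H.wb0))
            (sub_nonneg.2 (H.rm _ _ (H.sub k hk).1 (Nat.le_succ k) (H.sub k hk).2))
      _ ≤ ∑ k ∈ Ico j0 j2, wb * h * (r (k + 1) - r k) :=
          sum_le_sum_of_subset_of_nonneg (fun k hk => mem_Ico.2 (H.sub k hk)) fun k hk _ =>
            mul_nonneg (mul_nonneg H.wb0 hh) (sub_nonneg.2
              (H.rm _ _ (mem_Ico.1 hk).1 (Nat.le_succ k) (mem_Ico.1 hk).2))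
      _ ≤ wb * h * R := by
          rw [← mul_sum, Finset.sum_Ico_sub r hj.le]
          exact mul_le_mul_of_nonneg_left hR (mul_nonneg H.wb0 hh)
  have a2 : ∑ k ∈ A, w k * (r' (ξ k + 1) - r' (ξ k)) ≤ wb * (2 + c) * h * R' := by
    refine (H.dens (F := fun j => r' (j + 1) - r' j) fun j a b => sub_nonneg.2 (rm' j a b)).trans ?_
    rw [mul_assoc (wb * (2 + c))]
    refine mul_le_mul_of_nonneg_left ?_ c2
    calc ∑ j ∈ Ioc j0 j2, (z j - z (j - 1)) * (r' (j + 1) - r' j)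
        ≤ ∑ j ∈ Ioc j0 j2, h * (r' (j + 1) - r' j) := sum_le_sum fun j hj =>
          mul_le_mul_of_nonneg_right (H.step (mem_Ioc.1 hj).1 (mem_Ioc.1 hj).2)
            (sub_nonneg.2 (rm' j (mem_Ioc.1 hj).1 (mem_Ioc.1 hj).2))
      _ ≤ h * R' := by
          rw [← mul_sum, show Ioc j0 j2 = Ico (j0 + 1) (j2 + 1) by
            ext j; simp only [mem_Ioc, mem_Ico]; omega, Finset.sum_Ico_sub r' (by omega)]
          exact mul_le_mul_of_nonneg_left hR' hh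
  have b1 : ∑ k ∈ A, w k * (z (ξ k) - z k) * r k ≤
      ∑ k ∈ A, w k * (z (ξ k) - z k) * (if k ≤ ξ k then r k else r (k + 1)) +
        Z * ∑ k ∈ A, w k * (r (k + 1) - r k) := by
    rw [mul_sum, ← sum_add_distrib]
    refine sum_le_sum fun k hk => ?_
    have d := mul_nonneg (H.w0 k hk)
      (sub_nonneg.2 (H.rm _ _ (H.sub k hk).1 (Nat.le_succ k) (H.sub k hk).2))
    have u := H.zm (H.sub k hk).2.le
    have u' := H.zm (H.x0 k hk).1.le
    split_ifs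
    · nlinarith [mul_nonneg Z0 d]
    · nlinarith [mul_nonneg (show 0 ≤ Z + (z (ξ k) - z k) by linarith) d]
  have b2 : ∑ k ∈ A, w k * (z (ξ k) - z k) * (if k ≤ ξ k then r' (ξ k + 1) else r' (ξ k)) ≤
      ∑ k ∈ A, w k * (z (ξ k) - z k) * r' (ξ k) +
        Z * ∑ k ∈ A, w k * (r' (ξ k + 1) - r' (ξ k)) := by
    rw [mul_sum, ← sum_add_distrib]
    refine sum_le_sum fun k hk => ?_
    have d := mul_nonneg (H.w0 k hk) (sub_nonneg.2 (rm' _ (H.x0 k hk).1 (H.x0 k hk).2))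
    have u := H.zm (H.sub k hk).1
    have u' := H.zm (H.x0 k hk).2
    split_ifs
    · nlinarith [mul_nonneg (show 0 ≤ Z - (z (ξ k) - z k) by linarith) d]
    · nlinarith [mul_nonneg Z0 d]
  nlinarith [mul_le_mul_of_nonneg_left a1 Z0, mul_le_mul_of_nonneg_left a2 Z0]

end Mv

/-- **clipped step size**: with `ε' = ε min 1 (l / √Φ)` the residual is always `≤ ε l` -/
theorem clip_sq {ε l Φ : ℝ} (hl : 0 < l) (hΦ : 0 ≤ Φ) :
    (ε * min 1 (l / √Φ)) ^ 2 * Φ ≤ ε ^ 2 * l ^ 2 ∧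
      (Φ ≠ 0 → 0 < min 1 (l / √Φ)) ∧ min 1 (l / √Φ) ≤ 1 := by
  refine ⟨?_, fun h => lt_min one_pos (div_pos hl (Real.sqrt_pos.2 (hΦ.lt_of_ne' h))),
    min_le_left _ _⟩
  rcases hΦ.eq_or_lt with rfl | h
  · rw [mul_zero]; positivity
  have s := Real.sqrt_pos.2 h
  have a : min 1 (l / √Φ) ^ 2 ≤ (l / √Φ) ^ 2 :=
    pow_le_pow_left₀ (le_min zero_le_one (div_pos hl s).le) (min_le_right _ _) 2
  rw [div_pow, Real.sq_sqrt hΦ, le_div_iff₀ h] at a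
  rw [mul_pow, mul_assoc]
  exact mul_le_mul_of_nonneg_left a (sq_nonneg ε)

/-- the gain with the clipped step size: `Φ ≤ B + Y / min 1 (l / √Φ)` gives
`Φ ≤ 2 B + Y + (Y / l)²` -/
theorem clip_gain {l Φ B Y : ℝ} (hl : 0 < l) (hΦ : 0 ≤ Φ) (hB : 0 ≤ B) (hY : 0 ≤ Y)
    (h : Φ ≠ 0 → Φ ≤ B + Y / min 1 (l / √Φ)) : Φ ≤ 2 * B + Y + (Y / l) ^ 2 := by
  rcases hΦ.eq_or_lt with rfl | h0
  · positivity
  have s := Real.sqrt_pos.2 h0
  have h := h h0.ne'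
  rcases le_total 1 (l / √Φ) with a | a
  · rw [min_eq_left a, div_one] at h
    nlinarith [sq_nonneg (Y / l)]
  · rw [min_eq_right a, show Y / (l / √Φ) = Y / l * √Φ by field_simp] at h
    nlinarith [sq_nonneg (Y / l - √Φ), Real.sq_sqrt hΦ]

/-- existence of the move -/
theorem exists_mv {z q r w : ℕ → ℝ} {A : Finset ℕ} {j0 j2 : ℕ} {ε L h c wb : ℝ} (zm : Monotone z)
    (rm : ∀ i j, j0 ≤ i → i ≤ j → j ≤ j2 → r i ≤ r j)
    (qm : ∀ i j, j0 ≤ i → i ≤ j → j ≤ j2 → q i ≤ q j)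
    (ql : ∀ i j, j0 ≤ i → i ≤ j → j ≤ j2 → q j - q i ≤ L * (z j - z i))
    (e0 : 0 < ε) (eL : ε * L ≤ 1 / 2) (c0 : 0 ≤ c) (wb0 : 0 ≤ wb)
    (sub : ∀ k ∈ A, j0 ≤ k ∧ k < j2) (w0 : ∀ k ∈ A, 0 ≤ w k)
    (w1 : ∀ k ∈ A, w k ≤ wb * (z (k + 1) - z k))
    (hi : ∀ j, j0 ≤ j → j < j2 → z (j + 1) - z j ≤ h)
    (lo : ∀ k ∈ A, ∀ j, j0 < j → j ≤ j2 → z (k + 1) - z k ≤ c * (z j - z (j - 1)))
    (r01 : ∀ k ∈ A, 0 ≤ r k ∧ r k ≤ 1) (q0 : ∀ k ∈ A, 0 ≤ q k)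
    (bot : ∀ k ∈ A, z j0 + ε * q k < z k) (top : ∀ k ∈ A, z k + ε ≤ z j2) :
    ∃ ξ, Mv z q r w A ξ j0 j2 ε L h c wb := by
  obtain ⟨ξ, hξ⟩ := exists_xi zm (t := fun k => z k + ε * (r k - q k)) (A := A) (j0 := j0)
    (j2 := j2) fun k hk => by
      have a := mul_nonneg e0.le (r01 k hk).1
      have b := mul_le_mul_of_nonneg_left (r01 k hk).2 e0.le
      have d := mul_nonneg e0.le (q0 k hk)
      constructor <;> nlinarith [bot k hk, top k hk]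
  exact ⟨ξ, zm, rm, qm, ql, e0, eL, c0, wb0, sub, w0, w1, hi,
    fun k hk => lo k hk _ (hξ k hk).1.1 (hξ k hk).1.2, fun k hk => (hξ k hk).1,
    fun k hk => (hξ k hk).2.1, fun k hk => (hξ k hk).2.2⟩

end Crest.Agent.T156.Alt.SrB72

end
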