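import Crest.Agent.T156.SrClo_11

/-!
# Row 156, soft recursion: closing on the Euler grid, one threshold (helper11)
-/

set_option autoImplicit false

namespace Crest.Agent.T156.Sr11

variable {X : Type*}

/-- **one threshold, one backward induction over the grid.**  In a step from the index `j` the
threshold `P` is known at all later indices, and any bound `B` that holds from the index `K j` on
may be used. -/
theorem close_grid {Kc : ℕ → X → Prop} {ψ : X → ℝ} {j₀ d D J : ℕ} {K C T P : ℝ} (hj : 1 ≤ j₀)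
    (hK : 1 < K) (hC : 1 ≤ C) (hT : 0 ≤ T) (hJ : (d : ℝ) ≤ K ^ J * j₀)
    (hP : (J + 1) * C ^ J * T ≤ P)
    (term : ∀ j x, j₀ ≤ j → d ≤ j → j ≤ D → Kc j x → ψ x ≤ T)
    (step : ∀ j, j₀ ≤ j → j < d → (∀ i y, j < i → i ≤ D → Kc i y → ψ y ≤ P) → ∀ B, T ≤ B → B ≤ P →
      (∀ (i : ℕ) y, K * j ≤ i → i ≤ D → Kc i y → ψ y ≤ B) → ∀ x, Kc j x → ψ x ≤ C * B + T) :
    ∀ j x, j₀ ≤ j → j ≤ D → Kc j x → ψ x ≤ (J + 1) * C ^ J * T := by
  have C0 : 0 ≤ C := zero_le_one.trans hC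
  have K0 : 0 ≤ K := by linarith
  have up : ∀ k l : ℕ, k ≤ l → ((k : ℝ) + 1) * C ^ k * T ≤ (l + 1) * C ^ l * T := fun k l h => by
    have : (k : ℝ) ≤ l := by exact_mod_cast h
    exact mul_le_mul_of_nonneg_right (mul_le_mul (by linarith) (pow_le_pow_right₀ hC h)
      (by positivity) (by positivity)) hT
  have lo : ∀ k : ℕ, T ≤ ((k : ℝ) + 1) * C ^ k * T := fun k => by simpa using up 0 k (Nat.zero_le k)
  have full : ∀ i : ℕ, j₀ ≤ i → (d : ℝ) ≤ K ^ J * i := fun i hi =>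
    hJ.trans (mul_le_mul_of_nonneg_left (by exact_mod_cast hi) (by positivity))
  have key : ∀ n j, j₀ ≤ j → D ≤ j + n → j ≤ D → ∀ k ≤ J, (d : ℝ) ≤ K ^ k * j →
      ∀ x, Kc j x → ψ x ≤ (k + 1) * C ^ k * T := by
    intro n
    induction n with
    | zero =>
      intro j h1 h2 h3 k hk h4 x hx
      rcases le_or_gt d j with c | c
      · exact (term j x h1 c h3 hx).trans (lo k)
      have j1 : (1 : ℝ) ≤ j := by exact_mod_cast hj.trans h1
      rcases k with _ | k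
      · exact absurd (by simpa using h4) (not_le.2 c)
      refine geo hC hT le_rfl (step j h1 c (fun i y a b => absurd a (by omega)) _ (lo k)
        ((up k J (by omega)).trans hP) (fun i y a b => ?_) x hx)
      have : (j : ℝ) < i := by nlinarith
      have : j < i := by exact_mod_cast this
      omega
    | succ n ih =>
      intro j h1 h2 h3 k hk h4 x hx
      rcases le_or_gt d j with c | c
      · exact (term j x h1 c h3 hx).trans (lo k)
      have j1 : (1 : ℝ) ≤ j := by exact_mod_cast hj.trans h1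
      rcases k with _ | k
      · exact absurd (by simpa using h4) (not_le.2 c)
      refine geo hC hT le_rfl (step j h1 c (fun i y a b e => (ih i (by omega) (by omega) b J le_rfl
        (full i (by omega)) y e).trans hP) _ (lo k) ((up k J (by omega)).trans hP)
        (fun i y a b e => ?_) x hx)
      have : (j : ℝ) < i := by nlinarith
      have : j < i := by exact_mod_cast this
      refine ih i (by omega) (by omega) b k (by omega) (h4.trans ?_) y e
      rw [pow_succ, mul_assoc]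
      exact mul_le_mul_of_nonneg_left a (by positivity)
  exact fun j x h1 h2 hx => key D j h1 (by omega) h2 J le_rfl (full j h1) x hx

/-- the same with two moved ends -/
theorem close_ends {Kc : ℕ → X → Prop} {ψ : X → ℝ} {j₀ d D J : ℕ} {K C T P : ℝ} (hj : 1 ≤ j₀)
    (hK : 1 < K) (hC : 1 ≤ C) (hT : 0 ≤ T) (hJ : (d : ℝ) ≤ K ^ J * j₀)
    (hP : (J + 1) * (2 * C) ^ J * T ≤ P)
    (term : ∀ j x, j₀ ≤ j → d ≤ j → j ≤ D → Kc j x → ψ x ≤ T)
    (step : ∀ j, j₀ ≤ j → j < d → (∀ i y, j < i → i ≤ D → Kc i y → ψ y ≤ P) → ∀ x, Kc j x →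
      ∃ (i₁ i₂ : ℕ) (x₁ x₂ : X), K * j ≤ i₁ ∧ i₁ ≤ D ∧ Kc i₁ x₁ ∧ K * j ≤ i₂ ∧ i₂ ≤ D ∧ Kc i₂ x₂ ∧
        ψ x ≤ C * (ψ x₁ + ψ x₂) + T) :
    ∀ j x, j₀ ≤ j → j ≤ D → Kc j x → ψ x ≤ (J + 1) * (2 * C) ^ J * T :=
  close_grid hj hK (by linarith) hT hJ hP term fun j h1 h2 h3 B _ _ hB x hx => by
    obtain ⟨i₁, i₂, x₁, x₂, a1, a2, a3, b1, b2, b3, h⟩ := step j h1 h2 h3 x hx
    have := mul_le_mul_of_nonneg_left (add_le_add (hB i₁ x₁ a1 a2 a3) (hB i₂ x₂ b1 b2 b3))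
      (zero_le_one.trans hC)
    linarith

/-- the clipped move: `e Φ ≤ C e √(Φ B) + C' e² Φ + X` at the scale `e = ε min 1 √(P / Φ)` -/
theorem clip {Φ B P C C' ε Y : ℝ} (hΦ : 0 ≤ Φ) (hB : 0 ≤ B) (hP : 0 < P) (hε : 0 < ε)
    (hs : C' * ε ≤ 1 / 4) (hY : 0 ≤ Y) (small : 4 * C ^ 2 * B + 4 * Y / ε < P)
    (h : ε * min 1 √(P / Φ) * Φ ≤ C * (ε * min 1 √(P / Φ)) * √(Φ * B) +
      C' * (ε * min 1 √(P / Φ)) ^ 2 * Φ + Y) : Φ ≤ 4 * C ^ 2 * B + 4 * Y / ε := by
  have y0 : 0 ≤ Y / ε := by positivity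
  have b0 : 0 ≤ C ^ 2 * B := by positivity
  rcases hΦ.eq_or_lt with rfl | p0
  · positivity
  set t := min 1 √(P / Φ) with ht
  have t0 : 0 < t := lt_min one_pos (Real.sqrt_pos.2 (by positivity))
  have t1 : t ≤ 1 := min_le_left _ _
  have a1 : C * √(Φ * B) * t ≤ t ^ 2 * Φ / 4 + C ^ 2 * B := by
    rw [Real.sqrt_mul hΦ]
    nlinarith [sq_nonneg (t * √Φ / 2 - C * √B), Real.sq_sqrt hΦ, Real.sq_sqrt hB]
  have a2 : C' * ε * (t ^ 2 * Φ) ≤ 1 / 4 * (t ^ 2 * Φ) :=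
    mul_le_mul_of_nonneg_right hs (by positivity)
  have a3 : t * Φ ≤ C * √(Φ * B) * t + C' * ε * (t ^ 2 * Φ) + Y / ε := by
    refine le_of_mul_le_mul_left ?_ hε
    have : ε * (Y / ε) = Y := by field_simp
    nlinarith
  have a4 : t ^ 2 * Φ ≤ t * Φ := by nlinarith [mul_pos t0 p0]
  have a5 : t ^ 2 * Φ ≤ 2 * (C ^ 2 * B) + 2 * (Y / ε) := by linarith
  have e4 : 4 * Y / ε = 4 * (Y / ε) := by ring
  rcases le_total 1 √(P / Φ) with c | c
  · rw [ht, min_eq_left c] at a5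
    linarith
  · rw [ht, min_eq_right c, Real.sq_sqrt (by positivity), div_mul_cancel₀ _ p0.ne'] at a5
    linarith

end Crest.Agent.T156.Sr11
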