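import Crest.Agent.T156.SrCloB_11

/-!
# Row 156, soft recursion: closing on the Euler grid up to the end, with the lag (helper11)
-/

set_option autoImplicit false

namespace Crest.Agent.T156.Sr11

variable {X : Type*}

/-- `close_grid` where the terminal bound may also use the threshold at all later indices -/
theorem close_ih {Kc : ℕ → X → Prop} {ψ : X → ℝ} {j₀ d D J : ℕ} {K C T P : ℝ} (hj : 1 ≤ j₀)
    (hK : 1 < K) (hC : 1 ≤ C) (hT : 0 ≤ T) (hJ : (d : ℝ) ≤ K ^ J * j₀)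
    (hP : (J + 1) * C ^ J * T ≤ P)
    (term : ∀ j, j₀ ≤ j → d ≤ j → j ≤ D → (∀ i y, j < i → i ≤ D → Kc i y → ψ y ≤ P) →
      ∀ x, Kc j x → ψ x ≤ T)
    (step : ∀ j, j₀ ≤ j → j < d → j ≤ D → (∀ i y, j < i → i ≤ D → Kc i y → ψ y ≤ P) →
      ∀ B, T ≤ B → B ≤ P →
      (∀ (i : ℕ) y, K * j ≤ i → i ≤ D → Kc i y → ψ y ≤ B) → ∀ x, Kc j x → ψ x ≤ C * B + T) :
    ∀ j x, j₀ ≤ j → j ≤ D → Kc j x → ψ x ≤ (J + 1) * C ^ J * T := by
  have C0 : 0 ≤ C := zero_le_one.trans hC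
  have K0 : 0 ≤ K := by linarith
  have up : ∀ k l : ℕ, k ≤ l → ((k : ℝ) + 1) * C ^ k * T ≤ (l + 1) * C ^ l * T := fun k l h => by
    have : (k : ℝ) ≤ l := by exact_mod_cast h
    exact mul_le_mul_of_nonneg_right (mul_le_mul (by linarith) (pow_le_pow_right₀ hC h)
      (by positivity) (by positivity)) hT
  have lo : ∀ k : ℕ, T ≤ ((k : ℝ) + 1) * C ^ k * T := fun k => by simpa using up 0 k (Nat.zero_le k)
  have full : ∀ i : ℕ, j₀ ≤ i → (d : ℝ) ≤ K ^ J * i := fun i hi =>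
    hJ.trans (mul_le_mul_of_nonneg_left (by exact_mod_cast hi) (by positivity))
  have key : ∀ n j, j₀ ≤ j → D ≤ j + n → j ≤ D → ∀ k ≤ J, (d : ℝ) ≤ K ^ k * j →
      ∀ x, Kc j x → ψ x ≤ (k + 1) * C ^ k * T := by
    intro n
    induction n with
    | zero =>
      intro j h1 h2 h3 k hk h4 x hx
      rcases le_or_gt d j with c | c
      · exact (term j h1 c h3 (fun i y a b => absurd a (by omega)) x hx).trans (lo k)
      have j1 : (1 : ℝ) ≤ j := by exact_mod_cast hj.trans h1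
      rcases k with _ | k
      · exact absurd (by simpa using h4) (not_le.2 c)
      refine geo hC hT le_rfl (step j h1 c h3 (fun i y a b => absurd a (by omega)) _ (lo k)
        ((up k J (by omega)).trans hP) (fun i y a b => ?_) x hx)
      have : (j : ℝ) < i := by nlinarith
      have : j < i := by exact_mod_cast this
      omega
    | succ n ih =>
      intro j h1 h2 h3 k hk h4 x hx
      have IH : ∀ i y, j < i → i ≤ D → Kc i y → ψ y ≤ P := fun i y a b e =>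
        (ih i (by omega) (by omega) b J le_rfl (full i (by omega)) y e).trans hP
      rcases le_or_gt d j with c | c
      · exact (term j h1 c h3 IH x hx).trans (lo k)
      have j1 : (1 : ℝ) ≤ j := by exact_mod_cast hj.trans h1
      rcases k with _ | k
      · exact absurd (by simpa using h4) (not_le.2 c)
      refine geo hC hT le_rfl (step j h1 c h3 IH _ (lo k) ((up k J (by omega)).trans hP)
        (fun i y a b e => ?_) x hx)
      have : (j : ℝ) < i := by nlinarith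
      have : j < i := by exact_mod_cast this
      refine ih i (by omega) (by omega) b k (by omega) (h4.trans ?_) y e
      rw [pow_succ, mul_assoc]
      exact mul_le_mul_of_nonneg_left a (by positivity)
  exact fun j x h1 h2 hx => key D j h1 (by omega) h2 J le_rfl (full j h1) x hx

/-- **the closing of the captain's ruling**: `start` at the last index `D`, the lag gives the
a-priori bound `P'` below it, `term` improves it on `[d, D)`, the recursion step acts below `d`. -/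
theorem close_lag {Kc : ℕ → X → Prop} {ψ : X → ℝ} {j₀ d D J : ℕ} {K C T P P' : ℝ} (hj : 1 ≤ j₀)
    (hK : 1 < K) (hC : 1 ≤ C) (hT : 0 ≤ T) (hJ : (d : ℝ) ≤ K ^ J * j₀)
    (hP : (J + 1) * C ^ J * T ≤ P)
    (start : ∀ x, Kc D x → ψ x ≤ T)
    (lag : ∀ j, j₀ ≤ j → j < D → (∀ y, Kc (j + 1) y → ψ y ≤ P) → ∀ x, Kc j x → ψ x ≤ P')
    (term : ∀ j x, j₀ ≤ j → d ≤ j → j < D → Kc j x → ψ x ≤ P' → ψ x ≤ T)
    (step : ∀ j, j₀ ≤ j → j < d → j < D → (∀ i y, j < i → i ≤ D → Kc i y → ψ y ≤ P) →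
      (∀ y, Kc j y → ψ y ≤ P') → ∀ B, T ≤ B → B ≤ P →
      (∀ (i : ℕ) y, K * j ≤ i → i ≤ D → Kc i y → ψ y ≤ B) → ∀ x, Kc j x → ψ x ≤ C * B + T) :
    ∀ j x, j₀ ≤ j → j ≤ D → Kc j x → ψ x ≤ (J + 1) * C ^ J * T := by
  refine close_ih hj hK hC hT hJ hP (fun j h1 h2 h3 IH x hx => ?_)
    (fun j h1 h2 h3 IH B b1 b2 hB x hx => ?_)
  · rcases h3.eq_or_lt with rfl | h4
    · exact start x hx
    · exact term j x h1 h2 h4 hx
        (lag j h1 h4 (fun y hy => IH _ y (Nat.lt_succ_self j) h4 hy) x hx)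
  · rcases h3.eq_or_lt with rfl | h4
    · have := mul_nonneg (zero_le_one.trans hC) (hT.trans b1)
      linarith [start x hx]
    · exact step j h1 h2 h4 IH (lag j h1 h4 fun y hy => IH _ y (Nat.lt_succ_self j) h4 hy)
        B b1 b2 hB x hx

/-- the same with two moved ends -/
theorem close_lag_ends {Kc : ℕ → X → Prop} {ψ : X → ℝ} {j₀ d D J : ℕ} {K C T P P' : ℝ}
    (hj : 1 ≤ j₀) (hK : 1 < K) (hC : 1 ≤ C) (hT : 0 ≤ T) (hJ : (d : ℝ) ≤ K ^ J * j₀)
    (hP : (J + 1) * (2 * C) ^ J * T ≤ P)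
    (start : ∀ x, Kc D x → ψ x ≤ T)
    (lag : ∀ j, j₀ ≤ j → j < D → (∀ y, Kc (j + 1) y → ψ y ≤ P) → ∀ x, Kc j x → ψ x ≤ P')
    (term : ∀ j x, j₀ ≤ j → d ≤ j → j < D → Kc j x → ψ x ≤ P' → ψ x ≤ T)
    (step : ∀ j, j₀ ≤ j → j < d → j < D → (∀ i y, j < i → i ≤ D → Kc i y → ψ y ≤ P) →
      (∀ y, Kc j y → ψ y ≤ P') → ∀ x, Kc j x →
      ∃ (i₁ i₂ : ℕ) (x₁ x₂ : X), K * j ≤ i₁ ∧ i₁ ≤ D ∧ Kc i₁ x₁ ∧ K * j ≤ i₂ ∧ i₂ ≤ D ∧ Kc i₂ x₂ ∧
        ψ x ≤ C * (ψ x₁ + ψ x₂) + T) :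
    ∀ j x, j₀ ≤ j → j ≤ D → Kc j x → ψ x ≤ (J + 1) * (2 * C) ^ J * T :=
  close_lag hj hK (by linarith) hT hJ hP start lag term fun j h1 h2 h3 h4 h5 B _ _ hB x hx => by
    obtain ⟨i₁, i₂, x₁, x₂, a1, a2, a3, b1, b2, b3, h⟩ := step j h1 h2 h3 h4 h5 x hx
    have := mul_le_mul_of_nonneg_left (add_le_add (hB i₁ x₁ a1 a2 a3) (hB i₂ x₂ b1 b2 b3))
      (zero_le_one.trans hC)
    linarith

/-- the index zero (members of the path): one more step from the grid -/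
theorem close_zero {Kc : ℕ → X → Prop} {ψ : X → ℝ} {D : ℕ} {B P P' : ℝ} (hD : 1 ≤ D)
    (h : ∀ j x, 1 ≤ j → j ≤ D → Kc j x → ψ x ≤ B) (hB : B ≤ P)
    (lag : (∀ y, Kc 1 y → ψ y ≤ P) → ∀ x, Kc 0 x → ψ x ≤ P') : ∀ x, Kc 0 x → ψ x ≤ P' :=
  lag fun y hy => (h 1 y le_rfl hD hy).trans hB

end Crest.Agent.T156.Sr11
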