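import Mathlib

/-!
# Row 156, soft recursion: the closing argument, frame free (helper11)

`Cs u x`: the state `x` belongs to the class at the time `u`.  A step goes from `u < d` to a time
`u' ∈ [K u, D]`; the zone `[d, D]` is terminal.
-/

set_option autoImplicit false

namespace Crest.Agent.T156.Sr11

open Real Filter Topology

variable {X : Type*}

/-- `j` steps down from the terminal zone -/
theorem steps {Cs : ℝ → X → Prop} {St : ℕ → X → Prop} {a d D K : ℝ} {J : ℕ} (ha : 0 ≤ a)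
    (hK : 1 ≤ K) (mono : ∀ j x, St j x → St (j + 1) x)
    (term : ∀ u x, a ≤ u → d ≤ u → u ≤ D → Cs u x → St 0 x)
    (step : ∀ u x, a ≤ u → u < d → Cs u x →
      ∃ u' x', K * u ≤ u' ∧ u' ≤ D ∧ Cs u' x' ∧ ∀ j < J, St j x' → St (j + 1) x) :
    ∀ j ≤ J, ∀ u x, a ≤ u → u ≤ D → d ≤ K ^ j * u → Cs u x → St j x := by
  intro j
  induction j with
  | zero => exact fun _ u x h1 h2 h3 h => term u x h1 (by simpa using h3) h2 h
  | succ j ih =>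
    intro hj u x h1 h2 h3 h
    have u0 : 0 ≤ u := ha.trans h1
    rcases le_or_gt d u with c | c
    · exact mono j x (ih (by omega) u x h1 h2
        (c.trans (le_mul_of_one_le_left u0 (one_le_pow₀ hK))) h)
    · obtain ⟨u', x', b1, b2, b3, b4⟩ := step u x h1 c h
      refine b4 j (by omega) (ih (by omega) u' x' (h1.trans
        ((le_mul_of_one_le_left u0 hK).trans b1)) b2 (h3.trans ?_) b3)
      rw [pow_succ, mul_assoc]
      exact mul_le_mul_of_nonneg_left b1 (by positivity)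

/-- **backward induction**: the weak property `W` is propagated by continuity (time step `h`), the
strong properties `St j` by the steps -/
theorem back {Cs : ℝ → X → Prop} {W : X → Prop} {St : ℕ → X → Prop} {t d D K h : ℝ} {J : ℕ}
    (ht : 0 ≤ t) (hK : 1 ≤ K) (hh : 0 < h) (hJ : d ≤ K ^ J * t) (hD : d + h ≤ D)
    (mono : ∀ j x, St j x → St (j + 1) x)
    (term : ∀ u x, t ≤ u → d ≤ u → u ≤ D → Cs u x → St 0 x ∧ W x)
    (cont : ∀ u x, t ≤ u → u < d → Cs u x → ∃ y, Cs (u + h) y ∧ (St J y → W x))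
    (step : ∀ u x, t ≤ u → u < d → Cs u x → (∀ v y, u ≤ v → v ≤ D → Cs v y → W y) →
      ∃ u' x', K * u ≤ u' ∧ u' ≤ D ∧ Cs u' x' ∧ ∀ j < J, St j x' → St (j + 1) x) :
    ∀ u x, t ≤ u → u ≤ D → Cs u x → St J x ∧ W x := by
  have A : ∀ a, t ≤ a → (∀ v y, a ≤ v → v ≤ D → Cs v y → W y) →
      ∀ u x, a ≤ u → u ≤ D → Cs u x → St J x := fun a ha hW u x h1 h2 hx =>
    steps (ht.trans ha) hK mono (fun u x b1 b2 b3 b => (term u x (ha.trans b1) b2 b3 b).1)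
      (fun u x b1 b2 b => step u x (ha.trans b1) b2 b fun v y c => hW v y (b1.trans c)) J le_rfl u x
      h1 h2 (hJ.trans (mul_le_mul_of_nonneg_left (ha.trans h1) (by positivity))) hx
  have B : ∀ n : ℕ, ∀ v y, max t (d - n * h) ≤ v → v ≤ D → Cs v y → W y := by
    intro n
    induction n with
    | zero => exact fun v y h1 h2 hy =>
        (term v y (le_of_max_le_left h1) (by simpa using le_of_max_le_right h1) h2 hy).2
    | succ n ih =>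
      intro v y h1 h2 hy
      have v1 := le_of_max_le_left h1
      have v2 := le_of_max_le_right h1
      rcases le_or_gt d v with c | c
      · exact (term v y v1 c h2 hy).2
      · obtain ⟨y', b1, b2⟩ := cont v y v1 c hy
        push_cast at v2
        exact b2 (A _ (le_max_left _ _) ih _ y' (max_le (by linarith) (by linarith)) (by linarith) b1)
  obtain ⟨n, hn⟩ := exists_nat_ge ((d - t) / h)
  rw [div_le_iff₀ hh] at hn
  have W' : ∀ v y, t ≤ v → v ≤ D → Cs v y → W y := fun v y h1 =>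
    B n v y (max_le h1 (by linarith))
  exact fun u x h1 h2 hx => ⟨A t le_rfl W' u x h1 h2 hx, W' u x h1 h2 hx⟩

theorem geo {C T a b : ℝ} (hC : 1 ≤ C) (hT : 0 ≤ T) {j : ℕ} (hb : b ≤ (j + 1) * C ^ j * T)
    (h : a ≤ C * b + T) : a ≤ ((j + 1 : ℕ) + 1) * C ^ (j + 1) * T := by
  have h1 := mul_le_mul_of_nonneg_left hb (zero_le_one.trans hC)
  have h2 : T ≤ C ^ (j + 1) * T := le_mul_of_one_le_left hT (one_le_pow₀ hC)
  push_cast
  rw [pow_succ] at *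
  nlinarith

theorem geo_mono {C T b : ℝ} (hC : 1 ≤ C) (hT : 0 ≤ T) {j : ℕ} (hb : b ≤ (j + 1) * C ^ j * T) :
    b ≤ ((j + 1 : ℕ) + 1) * C ^ (j + 1) * T := by
  refine hb.trans (mul_le_mul_of_nonneg_right ?_ hT)
  exact mul_le_mul (by push_cast; linarith) (pow_le_pow_right₀ hC (Nat.le_succ j))
    (by positivity) (by positivity)

/-- one quantity, steps with additive cost `T` -/
theorem steps_lin {Cs : ℝ → X → Prop} {Φ : X → ℝ} {t d D K C T : ℝ} {J : ℕ} (ht : 0 ≤ t)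
    (hK : 1 ≤ K) (hC : 1 ≤ C) (hT : 0 ≤ T) (hJ : d ≤ K ^ J * t)
    (term : ∀ u x, t ≤ u → d ≤ u → u ≤ D → Cs u x → Φ x ≤ T)
    (step : ∀ u x, t ≤ u → u < d → Cs u x →
      ∃ u' x', K * u ≤ u' ∧ u' ≤ D ∧ Cs u' x' ∧ Φ x ≤ C * Φ x' + T) :
    ∀ u x, t ≤ u → u ≤ D → Cs u x → Φ x ≤ (J + 1) * C ^ J * T := fun u x h1 h2 hx =>
  steps (St := fun j x => Φ x ≤ (j + 1) * C ^ j * T) (J := J) ht hK (fun _ _ => geo_mono hC hT)
    (fun u x a b c e => by simpa using term u x a b c e)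
    (fun u x a b c => by
      obtain ⟨u', x', b1, b2, b3, b4⟩ := step u x a b c
      exact ⟨u', x', b1, b2, b3, fun j _ hj => geo hC hT hj b4⟩) J le_rfl u x h1 h2
    (hJ.trans (mul_le_mul_of_nonneg_left h1 (by positivity))) hx

/-- a bound that halves on nested classes -/
theorem rounds {Cl : ℝ → X → Prop} {Φ : X → ℝ} {B P₀ : ℝ} (hB : 0 ≤ B)
    (mono : ∀ P P' x, 0 ≤ P → P ≤ P' → Cl P x → Cl P' x) (crude : ∀ x, Cl P₀ x → Φ x ≤ P₀)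
    (round : ∀ P, 0 ≤ P → P ≤ P₀ → (∀ x, Cl P x → Φ x ≤ P) →
      ∀ x, Cl P x → Φ x ≤ B + P / 2) : ∀ x, Cl (min P₀ (2 * B)) x → Φ x ≤ 2 * B := by
  intro x hx
  rcases le_total P₀ (2 * B) with c | c
  · rw [min_eq_left c] at hx
    exact (crude x hx).trans c
  rw [min_eq_right c] at hx
  have e0 : 0 ≤ P₀ - 2 * B := by linarith
  have key : ∀ i : ℕ, ∀ y, Cl (2 * B + (P₀ - 2 * B) * (1 / 2) ^ i) y →
      Φ y ≤ 2 * B + (P₀ - 2 * B) * (1 / 2) ^ i := by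
    intro i
    induction i with
    | zero => simpa using crude
    | succ i ih =>
      intro y hy
      have p0 : 0 ≤ (P₀ - 2 * B) * (1 / 2) ^ i := by positivity
      have p1 : (P₀ - 2 * B) * (1 / 2) ^ i ≤ P₀ - 2 * B :=
        mul_le_of_le_one_right e0 (pow_le_one₀ (by norm_num) (by norm_num))
      rw [pow_succ] at hy ⊢
      have := round _ (by linarith) (by linarith) ih y (mono _ _ y (by nlinarith) (by nlinarith) hy)
      nlinarith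
  have lim : Tendsto (fun i : ℕ => 2 * B + (P₀ - 2 * B) * (1 / 2) ^ i) atTop
      (𝓝 (2 * B + (P₀ - 2 * B) * 0)) :=
    ((tendsto_pow_atTop_nhds_zero_of_lt_one (by norm_num) (by norm_num)).const_mul _).const_add _
  rw [mul_zero, add_zero] at lim
  refine ge_of_tendsto' lim fun i => key i x (mono _ _ x (by linarith) ?_ hx)
  have : 0 ≤ (P₀ - 2 * B) * (1 / 2) ^ i := by positivity
  linarith

/-- **closing, one quantity** (rounds over nested classes `Cs P u`, no continuity) -/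
theorem close_lin {Cs : ℝ → ℝ → X → Prop} {Φ : X → ℝ} {t d D K C A ρ P₀ : ℝ} {J : ℕ} (ht : 0 ≤ t)
    (hK : 1 ≤ K) (hC : 1 ≤ C) (hA : 0 ≤ A) (hρ : 0 ≤ ρ) (h0 : 0 ≤ P₀) (hJ : d ≤ K ^ J * t)
    (small : (J + 1) * C ^ J * ρ ≤ 1 / 2)
    (mono : ∀ P P' u x, 0 ≤ P → P ≤ P' → t ≤ u → Cs P u x → Cs P' u x)
    (crude : ∀ u x, t ≤ u → u ≤ D → Cs P₀ u x → Φ x ≤ P₀)
    (term : ∀ P, 0 ≤ P → P ≤ P₀ → (∀ v y, t ≤ v → v ≤ D → Cs P v y → Φ y ≤ P) →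
      ∀ u x, t ≤ u → d ≤ u → u ≤ D → Cs P u x → Φ x ≤ A + ρ * P)
    (step : ∀ P, 0 ≤ P → P ≤ P₀ → (∀ v y, t ≤ v → v ≤ D → Cs P v y → Φ y ≤ P) →
      ∀ u x, t ≤ u → u < d → Cs P u x →
        ∃ u' x', K * u ≤ u' ∧ u' ≤ D ∧ Cs P u' x' ∧ Φ x ≤ C * Φ x' + (A + ρ * P)) :
    ∀ u x, t ≤ u → u ≤ D → Cs 0 u x → Φ x ≤ 2 * ((J + 1) * C ^ J * A) := by
  intro u x h1 h2 hx
  have C0 : 0 ≤ C := zero_le_one.trans hC
  have hB : 0 ≤ (J + 1) * C ^ J * A := by positivity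
  refine rounds (X := ℝ × X) (Cl := fun P z => t ≤ z.1 ∧ z.1 ≤ D ∧ Cs P z.1 z.2)
    (Φ := fun z => Φ z.2) hB (fun P P' z a b c => ⟨c.1, c.2.1, mono P P' _ _ a b c.1 c.2.2⟩)
    (fun z c => crude _ _ c.1 c.2.1 c.2.2) (fun P a b c z e => ?_) (u, x)
    ⟨h1, h2, mono 0 _ u x le_rfl (le_min h0 (by linarith)) h1 hx⟩
  have hP : ∀ v y, t ≤ v → v ≤ D → Cs P v y → Φ y ≤ P := fun v y i j k => c (v, y) ⟨i, j, k⟩
  have := steps_lin ht hK hC (by positivity) hJ (term P a b hP) (step P a b hP) _ _ e.1 e.2.1 e.2.2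
  have := mul_le_mul_of_nonneg_right small a
  nlinarith

/-- **closing, two quantities with thresholds** (backward induction; any nonlinear dependence of
the costs `T`, `T'` on the thresholds `2 P`, `2 Z`) -/
theorem close_two {Cs : ℝ → X → Prop} {Φ z : X → ℝ} {t d D K h C T T' P Z : ℝ} {J : ℕ}
    (ht : 0 ≤ t) (hK : 1 ≤ K) (hh : 0 < h) (hC : 1 ≤ C) (hT : 0 ≤ T) (hT' : 0 ≤ T')
    (hJ : d ≤ K ^ J * t) (hD : d + h ≤ D) (hP : (J + 1) * C ^ J * T ≤ P)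
    (hZ : (J + 1) * C ^ J * T' ≤ Z)
    (term : ∀ u x, t ≤ u → d ≤ u → u ≤ D → Cs u x → Φ x ≤ T ∧ z x ≤ T')
    (cont : ∀ u x, t ≤ u → u < d → Cs u x → ∃ y, Cs (u + h) y ∧ Φ x ≤ Φ y + P ∧ z x ≤ z y + Z)
    (step : ∀ u x, t ≤ u → u < d → Cs u x →
      (∀ v y, u ≤ v → v ≤ D → Cs v y → Φ y ≤ 2 * P ∧ z y ≤ 2 * Z) →
      ∃ u' x', K * u ≤ u' ∧ u' ≤ D ∧ Cs u' x' ∧ Φ x ≤ C * Φ x' + T)
    (step' : ∀ u x, t ≤ u → u < d → Cs u x →
      (∀ v y, u ≤ v → v ≤ D → Cs v y → Φ y ≤ 2 * P ∧ z y ≤ 2 * Z) →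
      ∃ u' x', K * u ≤ u' ∧ u' ≤ D ∧ Cs u' x' ∧ z x ≤ C * z x' + T') :
    ∀ u x, t ≤ u → u ≤ D → Cs u x →
      Φ x ≤ (J + 1) * C ^ J * T ∧ z x ≤ (J + 1) * C ^ J * T' := by
  have C0 : 0 ≤ C := zero_le_one.trans hC
  have one : 1 ≤ ((J : ℝ) + 1) * C ^ J :=
    one_le_mul_of_one_le_of_one_le (by linarith [Nat.cast_nonneg (α := ℝ) J]) (one_le_pow₀ hC)
  have TP : T ≤ P := (le_mul_of_one_le_left hT one).trans hP
  have TZ : T' ≤ Z := (le_mul_of_one_le_left hT' one).trans hZ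
  have A : ∀ a, t ≤ a → (∀ v y, a ≤ v → v ≤ D → Cs v y → Φ y ≤ 2 * P ∧ z y ≤ 2 * Z) →
      ∀ u x, a ≤ u → u ≤ D → Cs u x →
        Φ x ≤ (J + 1) * C ^ J * T ∧ z x ≤ (J + 1) * C ^ J * T' := fun a ha hW u x h1 h2 hx => by
    have hJ' : d ≤ K ^ J * a := hJ.trans (mul_le_mul_of_nonneg_left ha (by positivity))
    exact ⟨steps_lin (ht.trans ha) hK hC hT hJ'
      (fun u x b1 b2 b3 b => (term u x (ha.trans b1) b2 b3 b).1)
      (fun u x b1 b2 b => step u x (ha.trans b1) b2 b fun v y c => hW v y (b1.trans c)) u x h1 h2 hx,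
      steps_lin (ht.trans ha) hK hC hT' hJ'
      (fun u x b1 b2 b3 b => (term u x (ha.trans b1) b2 b3 b).2)
      (fun u x b1 b2 b => step' u x (ha.trans b1) b2 b fun v y c => hW v y (b1.trans c)) u x h1 h2 hx⟩
  have B : ∀ n : ℕ, ∀ v y, max t (d - n * h) ≤ v → v ≤ D → Cs v y →
      Φ y ≤ 2 * P ∧ z y ≤ 2 * Z := by
    have T0 : ∀ v y, t ≤ v → d ≤ v → v ≤ D → Cs v y → Φ y ≤ 2 * P ∧ z y ≤ 2 * Z :=
      fun v y a b c e => ⟨by linarith [(term v y a b c e).1], by linarith [(term v y a b c e).2]⟩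
    intro n
    induction n with
    | zero =>
      exact fun v y h1 h2 hy =>
        T0 v y (le_of_max_le_left h1) (by simpa using le_of_max_le_right h1) h2 hy
    | succ n ih =>
      intro v y h1 h2 hy
      have v1 := le_of_max_le_left h1
      have v2 := le_of_max_le_right h1
      rcases le_or_gt d v with c | c
      · exact T0 v y v1 c h2 hy
      · obtain ⟨y', b1, b2, b3⟩ := cont v y v1 c hy
        push_cast at v2
        have := A _ (le_max_left _ _) ih _ y' (max_le (by linarith) (by linarith)) (by linarith) b1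
        exact ⟨by linarith [this.1], by linarith [this.2]⟩
  obtain ⟨n, hn⟩ := exists_nat_ge ((d - t) / h)
  rw [div_le_iff₀ hh] at hn
  exact A t le_rfl fun v y h1 => B n v y (max_le h1 (by linarith))

/-! ### the response of the terminal zone -/

/-- Young: `a P ^ θ ≤ ρ P + a (a / ρ) ^ (θ / (1 - θ))` -/
theorem young {a ρ P θ : ℝ} (ha : 0 ≤ a) (hρ : 0 < ρ) (hP : 0 ≤ P) (h0 : 0 ≤ θ) (h1 : θ < 1) :
    a * P ^ θ ≤ ρ * P + a * (a / ρ) ^ (θ / (1 - θ)) := by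
  have e : 0 < 1 - θ := by linarith
  have q0 : 0 ≤ a / ρ := by positivity
  rcases le_total P ((a / ρ) ^ (1 / (1 - θ))) with c | c
  · have := rpow_le_rpow hP c h0
    rw [← rpow_mul q0, one_div_mul_eq_div] at this
    have := mul_le_mul_of_nonneg_left this ha
    have := mul_nonneg hρ.le hP
    linarith
  · have k := rpow_le_rpow (by positivity) c e.le
    rw [← rpow_mul q0, one_div_mul_cancel e.ne', rpow_one, div_le_iff₀ hρ] at k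
    have k2 := mul_le_mul_of_nonneg_right k (rpow_nonneg hP θ)
    have k3 : P ^ (1 - θ) * P ^ θ = P := by
      rw [← rpow_add' hP (by linarith), sub_add_cancel, rpow_one]
    have : 0 ≤ a * (a / ρ) ^ (θ / (1 - θ)) := by positivity
    nlinarith

/-- the response to a residual -/
noncomputable def Resp (a₁ a₂ a₃ g : ℝ) : ℝ :=
  a₁ * g ^ ((2 : ℝ) / 3) + a₂ * g ^ ((4 : ℝ) / 3) + a₃ * g ^ 2

theorem Resp_nonneg {a₁ a₂ a₃ g : ℝ} (h1 : 0 ≤ a₁) (h2 : 0 ≤ a₂) (h3 : 0 ≤ a₃) (hg : 0 ≤ g) :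
    0 ≤ Resp a₁ a₂ a₃ g := by unfold Resp; positivity

theorem Resp_mono {a₁ a₂ a₃ g g' : ℝ} (h1 : 0 ≤ a₁) (h2 : 0 ≤ a₂) (h3 : 0 ≤ a₃) (hg : 0 ≤ g)
    (h : g ≤ g') : Resp a₁ a₂ a₃ g ≤ Resp a₁ a₂ a₃ g' := by unfold Resp; gcongr

theorem Resp_two {a₁ a₂ a₃ g : ℝ} (h1 : 0 ≤ a₁) (h2 : 0 ≤ a₂) (hg : 0 ≤ g) :
    Resp a₁ a₂ a₃ (2 * g) ≤ 4 * Resp a₁ a₂ a₃ g := by
  have k : ∀ θ : ℝ, θ ≤ 2 → (2 * g) ^ θ ≤ 4 * g ^ θ := fun θ hθ => by
    rw [mul_rpow zero_le_two hg]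
    refine mul_le_mul_of_nonneg_right ?_ (rpow_nonneg hg θ)
    exact (rpow_le_rpow_of_exponent_le one_le_two hθ).trans_eq (by norm_num)
  have k1 := mul_le_mul_of_nonneg_left (k (2 / 3) (by norm_num)) h1
  have k2 := mul_le_mul_of_nonneg_left (k (4 / 3) (by norm_num)) h2
  unfold Resp
  nlinarith

theorem Resp_add {a₁ a₂ a₃ g g' : ℝ} (h1 : 0 ≤ a₁) (h2 : 0 ≤ a₂) (h3 : 0 ≤ a₃) (hg : 0 ≤ g)
    (hg' : 0 ≤ g') : Resp a₁ a₂ a₃ (g + g') ≤ 4 * Resp a₁ a₂ a₃ g + 4 * Resp a₁ a₂ a₃ g' := by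
  have p := Resp_nonneg h1 h2 h3 hg
  have p' := Resp_nonneg h1 h2 h3 hg'
  rcases le_total g g' with c | c
  · linarith [Resp_mono h1 h2 h3 (add_nonneg hg hg') (show g + g' ≤ 2 * g' by linarith),
      Resp_two (a₃ := a₃) h1 h2 hg']
  · linarith [Resp_mono h1 h2 h3 (add_nonneg hg hg') (show g + g' ≤ 2 * g by linarith),
      Resp_two (a₃ := a₃) h1 h2 hg]

/-- the response to `D √P` is sublinear in `P` up to `a₃ D²` -/
theorem Resp_sqrt {a₁ a₂ a₃ D P ρ : ℝ} (h1 : 0 ≤ a₁) (h2 : 0 ≤ a₂) (hD : 0 ≤ D) (hP : 0 ≤ P)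
    (hρ : 0 < ρ) : Resp a₁ a₂ a₃ (D * √P) ≤ (2 * ρ + a₃ * D ^ 2) * P +
      (√(a₁ ^ 3 * D ^ 2 / ρ) + a₂ ^ 3 * D ^ 4 / ρ ^ 2) := by
  have e1 : (D * √P) ^ ((2 : ℝ) / 3) = D ^ ((2 : ℝ) / 3) * P ^ ((1 : ℝ) / 3) := by
    rw [mul_rpow hD (sqrt_nonneg _), sqrt_eq_rpow, ← rpow_mul hP]; norm_num
  have e2 : (D * √P) ^ ((4 : ℝ) / 3) = D ^ ((4 : ℝ) / 3) * P ^ ((2 : ℝ) / 3) := by
    rw [mul_rpow hD (sqrt_nonneg _), sqrt_eq_rpow, ← rpow_mul hP]; norm_num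
  have c : ∀ (x : ℝ) (k : ℕ), x * 3 = k → (D ^ x) ^ 3 = D ^ k := fun x k hx => by
    rw [← rpow_natCast, ← rpow_mul hD, ← rpow_natCast D k, ← hx]; norm_num
  have y1 := young (a := a₁ * D ^ ((2 : ℝ) / 3)) (θ := 1 / 3) (by positivity) hρ hP (by norm_num)
    (by norm_num)
  have y2 := young (a := a₂ * D ^ ((4 : ℝ) / 3)) (θ := 2 / 3) (by positivity) hρ hP (by norm_num)
    (by norm_num)
  have f1 : a₁ * D ^ ((2 : ℝ) / 3) * (a₁ * D ^ ((2 : ℝ) / 3) / ρ) ^ ((1 / 3 : ℝ) / (1 - 1 / 3)) =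
      √(a₁ ^ 3 * D ^ 2 / ρ) := by
    rw [show (1 / 3 : ℝ) / (1 - 1 / 3) = 1 / 2 by norm_num, ← sqrt_eq_rpow, ← c (2 / 3) 2 (by norm_num),
      show a₁ ^ 3 * (D ^ ((2 : ℝ) / 3)) ^ 3 / ρ = (a₁ * D ^ ((2 : ℝ) / 3)) ^ 2 *
        (a₁ * D ^ ((2 : ℝ) / 3) / ρ) by ring, sqrt_mul (sq_nonneg _), sqrt_sq (by positivity)]
  have f2 : a₂ * D ^ ((4 : ℝ) / 3) * (a₂ * D ^ ((4 : ℝ) / 3) / ρ) ^ ((2 / 3 : ℝ) / (1 - 2 / 3)) =
      a₂ ^ 3 * D ^ 4 / ρ ^ 2 := by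
    rw [show (2 / 3 : ℝ) / (1 - 2 / 3) = (2 : ℕ) by norm_num, rpow_natCast,
      ← c (4 / 3) 4 (by norm_num)]
    ring
  rw [f1] at y1
  rw [f2] at y2
  rw [Resp, e1, e2, mul_pow, sq_sqrt hP]
  nlinarith

/-- **closing with residuals**: classes `Kc u g` (time `u`, residual at most `g`) -/
theorem close_res {Kc : ℝ → ℝ → X → Prop} {Φ : X → ℝ}
    {t d D K C A be c a₁ a₂ a₃ ρ P₀ g₀ : ℝ} {J : ℕ} (ht : 0 ≤ t) (hK : 1 ≤ K) (hC : 1 ≤ C)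
    (hA : 0 ≤ A) (hbe : 0 ≤ be) (hc : 0 ≤ c) (h1 : 0 ≤ a₁) (h2 : 0 ≤ a₂) (h3 : 0 ≤ a₃) (hρ : 0 < ρ)
    (h0 : 0 ≤ P₀) (hg : 0 ≤ g₀) (hJ : d ≤ K ^ J * t)
    (small : (J + 1) * C ^ J * (be + 8 * ρ + 4 * a₃ * (c * D) ^ 2) ≤ 1 / 2)
    (mono : ∀ u g g' x, g ≤ g' → Kc u g x → Kc u g' x)
    (crude : ∀ u g x, t ≤ u → u ≤ D → Kc u g x → Φ x ≤ P₀)
    (term : ∀ P, 0 ≤ P → (∀ v y, t ≤ v → v ≤ D → Kc v (g₀ + c * v * √P) y → Φ y ≤ P) →
      ∀ u g x, t ≤ u → d ≤ u → u ≤ D → 0 ≤ g → g ≤ g₀ + c * u * √P → Kc u g x →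
        Φ x ≤ A + be * P + Resp a₁ a₂ a₃ g)
    (step : ∀ P, 0 ≤ P → (∀ v y, t ≤ v → v ≤ D → Kc v (g₀ + c * v * √P) y → Φ y ≤ P) →
      ∀ u x, t ≤ u → u < d → Kc u (g₀ + c * u * √P) x → ∃ u' x', K * u ≤ u' ∧ u' ≤ D ∧
        Kc u' (g₀ + c * u' * √P) x' ∧ Φ x ≤ C * Φ x' + (A + be * P)) :
    ∀ u x, t ≤ u → u ≤ D → Kc u g₀ x → Φ x ≤ 2 * ((J + 1) * C ^ J * (A + 4 * Resp a₁ a₂ a₃ g₀ +
      4 * (√(a₁ ^ 3 * (c * D) ^ 2 / ρ) + a₂ ^ 3 * (c * D) ^ 4 / ρ ^ 2))) := by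
  intro u x b1 b2 hx
  have D0 : 0 ≤ D := ht.trans (b1.trans b2)
  have r0 := Resp_nonneg h1 h2 h3 hg
  have s0 : 0 ≤ √(a₁ ^ 3 * (c * D) ^ 2 / ρ) + a₂ ^ 3 * (c * D) ^ 4 / ρ ^ 2 := by positivity
  refine close_lin (Cs := fun P u x => Kc u (g₀ + c * u * √P) x) (P₀ := P₀) ht hK hC
    (by positivity) (by positivity) h0 hJ small
    (fun P P' u x _ b e => mono u _ _ x (by have := ht.trans e; gcongr))
    (fun u x => crude u _ x) (fun P p0 _ hP u x e1 e2 e3 e4 => ?_)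
    (fun P p0 _ hP u x e1 e2 e3 => ?_) u x b1 b2 (by simpa using hx)
  · have u0 := ht.trans e1
    have k := term P p0 hP u _ x e1 e2 e3 (by positivity) le_rfl e4
    have k1 := Resp_mono h1 h2 h3 (show 0 ≤ g₀ + c * u * √P by positivity)
      (show g₀ + c * u * √P ≤ g₀ + c * D * √P by gcongr)
    have k2 := Resp_add h1 h2 h3 hg (show 0 ≤ c * D * √P by positivity)
    have k3 := Resp_sqrt (a₃ := a₃) h1 h2 (mul_nonneg hc D0) p0 hρ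
    nlinarith
  · obtain ⟨u', x', k1, k2, k3, k4⟩ := step P p0 hP u x e1 e2 e3
    refine ⟨u', x', k1, k2, k3, k4.trans ?_⟩
    have : 0 ≤ (8 * ρ + 4 * a₃ * (c * D) ^ 2) * P := by positivity
    nlinarith

end Crest.Agent.T156.Sr11
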