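import Crest.Agent.T156.Wr_5
import Crest.Agent.T156.Lad_79

/-!
# Row 156, soft recursion, step (d): fluctuations from the `L²` location (helper79)

No sup location: the rises of the monotone mean profile are paid by a small multiple of
`Φ = ∑ dm (ρ - q)²`.
-/

set_option autoImplicit false
set_option linter.unusedSectionVars false

noncomputable section

namespace Crest.Agent.T156.Cas.SrD79

open MeasureTheory Real Set Filter Topology
open Crest.Agent.T157.E Crest.Agent.T157.Casc Crest.Agent.T157.SL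
open Crest.Agent.T156.Cas.Sy41 Crest.Agent.T156.Cas.Q33 Crest.Agent.T156.Cas.Wr5

/-! ### frame-free -/

section free
variable {ρ q d : ℕ → ℝ} {g δ Φ : ℝ}

theorem inc_le {a b : ℕ} (hq : ∀ k, a ≤ k → k < b → q (k + 1) - q k ≤ g) {i j : ℕ} (h1 : a ≤ i)
    (h : i ≤ j) (h2 : j ≤ b) : q j - q i ≤ g * ((j - i : ℕ) : ℝ) := by
  rw [← Finset.sum_Ico_sub q h]
  refine (Finset.sum_le_card_nsmul _ _ g fun k hk => ?_).trans (le_of_eq (by simp [mul_comm]))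
  have := Finset.mem_Ico.1 hk
  exact hq k (by omega) (by omega)

theorem le_sqrt_of {S : Finset ℕ} {U : ℕ} (hU : 1 ≤ U) (hS : S.card = U) (hδ : 0 < δ)
    (hd : ∀ k ∈ S, δ ≤ d k) {F : ℕ → ℝ} {D : ℝ} (hD : ∀ k ∈ S, D ≤ |F k|)
    (hΦ : ∑ k ∈ S, d k * F k ^ 2 ≤ Φ) : D ≤ √(Φ / (U * δ)) := by
  rcases le_total D 0 with h | h
  · exact h.trans (sqrt_nonneg _)
  have u0 : (0 : ℝ) < U := by exact_mod_cast hU
  refine le_sqrt_of_sq_le ((le_div_iff₀ (by positivity)).2 (le_trans ?_ hΦ))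
  have := Finset.card_nsmul_le_sum S (fun k => d k * F k ^ 2) (δ * D ^ 2) fun k hk =>
    mul_le_mul (hd k hk) (by rw [← sq_abs (F k)]; exact pow_le_pow_left₀ h (hD k hk) 2)
      (sq_nonneg _) (hδ.le.trans (hd k hk))
  rw [hS, nsmul_eq_mul] at this
  linarith

/-- upper bound of a monotone profile from the window above -/
theorem top_le (hρ : Monotone ρ) {i U : ℕ} (hU : 1 ≤ U) (hg : 0 ≤ g) (hδ : 0 < δ)
    (hq : ∀ k, i ≤ k → k < i + U → q (k + 1) - q k ≤ g)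
    (hd : ∀ k ∈ Finset.Ico i (i + U), δ ≤ d k)
    (hΦ : ∑ k ∈ Finset.Ico i (i + U), d k * (ρ k - q k) ^ 2 ≤ Φ) :
    ρ i ≤ q i + g * U + √(Φ / (U * δ)) := by
  have := le_sqrt_of (D := ρ i - q i - g * U) hU (by simp) hδ hd (fun k hk => by
    have hk := Finset.mem_Ico.1 hk
    have h1 := inc_le hq le_rfl hk.1 hk.2.le
    have h2 : g * ((k - i : ℕ) : ℝ) ≤ g * U :=
      mul_le_mul_of_nonneg_left (by exact_mod_cast (by omega : k - i ≤ U)) hg
    linarith [hρ hk.1, le_abs_self (ρ k - q k)]) hΦ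
  linarith

/-- lower bound of a monotone profile from the window below -/
theorem bot_le (hρ : Monotone ρ) {i U : ℕ} (hU : 1 ≤ U) (hg : 0 ≤ g) (hδ : 0 < δ)
    (hq : ∀ k, i ≤ k → k < i + U → q (k + 1) - q k ≤ g)
    (hd : ∀ k ∈ Finset.Ico i (i + U), δ ≤ d k)
    (hΦ : ∑ k ∈ Finset.Ico i (i + U), d k * (ρ k - q k) ^ 2 ≤ Φ) :
    q (i + U) - g * U - √(Φ / (U * δ)) ≤ ρ (i + U) := by
  have := le_sqrt_of (D := q (i + U) - g * U - ρ (i + U)) hU (by simp) hδ hd (fun k hk => by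
    have hk := Finset.mem_Ico.1 hk
    have h1 := inc_le hq hk.1 hk.2.le le_rfl
    have h2 : g * ((i + U - k : ℕ) : ℝ) ≤ g * U :=
      mul_le_mul_of_nonneg_left (by exact_mod_cast (by omega : i + U - k ≤ U)) hg
    linarith [hρ hk.2.le, neg_abs_le (ρ k - q k)]) hΦ
  linarith

theorem sum_blocks (F : ℕ → ℝ) (c U : ℕ) : ∀ M : ℕ,
    ∑ m ∈ Finset.range M, ∑ k ∈ Finset.Ico (c + m * U) (c + m * U + U), F k =
      ∑ k ∈ Finset.Ico c (c + M * U), F k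
  | 0 => by simp
  | M + 1 => by
    rw [Finset.sum_range_succ, sum_blocks F c U M, Finset.sum_Ico_consecutive _ (by omega) (by omega),
      Nat.succ_mul, add_assoc]

/-- one superblock -/
theorem rise_one (hρ : Monotone ρ) {b U u : ℕ} (hU : 1 ≤ U) (hu : u ≤ U) (hg : 0 ≤ g) (hδ : 0 < δ)
    (hq : ∀ k, b ≤ k → k < b + 4 * U → q (k + 1) - q k ≤ g)
    (hd : ∀ k ∈ Finset.Ico b (b + 4 * U), δ ≤ d k) :
    ∑ j ∈ Finset.Ico (b + U) (b + U + U), (ρ (j + u) - ρ j) ^ 2 ≤ u * (48 * (g * U) ^ 2 +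
      3 * (∑ k ∈ Finset.Ico b (b + U), d k * (ρ k - q k) ^ 2) / (U * δ) +
      3 * (∑ k ∈ Finset.Ico (b + 3 * U) (b + 3 * U + U), d k * (ρ k - q k) ^ 2) / (U * δ)) := by
  have u0 : (0 : ℝ) < U := by exact_mod_cast hU
  have p : ∀ c, b ≤ c → c + U ≤ b + 4 * U →
      0 ≤ (∑ k ∈ Finset.Ico c (c + U), d k * (ρ k - q k) ^ 2) / (U * δ) := fun c h1 h2 =>
    div_nonneg (Finset.sum_nonneg fun k hk => mul_nonneg (hδ.le.trans (hd k (by
      rw [Finset.mem_Ico] at hk ⊢; omega))) (sq_nonneg _)) (by positivity)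
  have h1 := bot_le hρ (i := b) hU hg hδ (fun k h h' => hq k h (by omega))
    (fun k hk => hd k (by rw [Finset.mem_Ico] at hk ⊢; omega)) le_rfl
  have h2 := top_le hρ (i := b + 3 * U) hU hg hδ (fun k h h' => hq k (by omega) (by omega))
    (fun k hk => hd k (by rw [Finset.mem_Ico] at hk ⊢; omega)) le_rfl
  have h3 := inc_le hq (i := b + U) (j := b + 3 * U) (by omega) (by omega) (by omega)
  rw [show b + 3 * U - (b + U) = 2 * U by omega] at h3
  push_cast at h3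
  have e1 := sq_sqrt (p b le_rfl (by omega))
  have e2 := sq_sqrt (p (b + 3 * U) (by omega) (by omega))
  set A := √((∑ k ∈ Finset.Ico b (b + U), d k * (ρ k - q k) ^ 2) / (U * δ))
  set B := √((∑ k ∈ Finset.Ico (b + 3 * U) (b + 3 * U + U), d k * (ρ k - q k) ^ 2) / (U * δ))
  set R := ρ (b + 3 * U) - ρ (b + U) with hR
  have R0 : 0 ≤ R := sub_nonneg.2 (hρ (by omega))
  have R1 : R ≤ 4 * (g * U) + A + B := by linarith
  have s1 : ∑ j ∈ Finset.Ico (b + U) (b + U + U), (ρ (j + u) - ρ j) ≤ u * R := by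
    have := shift_sum_le hρ (u' := 0) (u := u) (lo := b + U + u) (hi := b + U + U + u)
      (Nat.zero_le _) (by omega) (by omega)
    rw [← Finset.sum_Ico_add' (fun J => ρ (J - 0) - ρ (J - u)) (b + U) (b + U + U) u] at this
    simp only [Nat.sub_zero, Nat.add_sub_cancel] at this
    exact this.trans (mul_le_mul_of_nonneg_left (sub_le_sub_right (hρ (by omega)) _)
      (Nat.cast_nonneg _))
  have s2 : ∑ j ∈ Finset.Ico (b + U) (b + U + U), (ρ (j + u) - ρ j) ^ 2 ≤ R * (u * R) := by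
    refine le_trans ?_ (mul_le_mul_of_nonneg_left s1 R0)
    rw [Finset.mul_sum]
    refine Finset.sum_le_sum fun j hj => ?_
    have hj := Finset.mem_Ico.1 hj
    rw [sq]
    exact mul_le_mul_of_nonneg_right (sub_le_sub (hρ (by omega)) (hρ hj.1))
      (sub_nonneg.2 (hρ (Nat.le_add_right j u)))
  have s3 : R ^ 2 ≤ 48 * (g * U) ^ 2 + 3 * A ^ 2 + 3 * B ^ 2 := by
    nlinarith [pow_le_pow_left₀ R0 R1 2, sq_nonneg (4 * (g * U) - A), sq_nonneg (4 * (g * U) - B),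
      sq_nonneg (A - B)]
  rw [mul_div_assoc, mul_div_assoc, ← e1, ← e2]
  nlinarith [mul_le_mul_of_nonneg_left s3 (Nat.cast_nonneg (α := ℝ) u)]

/-- **squared rises over windows of `u` nodes**, superblocks of `U` nodes -/
theorem rise_sq (hρ : Monotone ρ) {lo hi lo' hi' U u : ℕ} (hU : 1 ≤ U) (hu : u ≤ U)
    (h1 : lo' + U ≤ lo) (hl : lo ≤ hi) (h2 : hi + 3 * U ≤ hi') (hg : 0 ≤ g) (hδ : 0 < δ)
    (hq : ∀ k, lo' ≤ k → k < hi' → q (k + 1) - q k ≤ g)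
    (hd : ∀ k ∈ Finset.Ico lo' hi', δ ≤ d k)
    (hΦ : ∑ k ∈ Finset.Ico lo' hi', d k * (ρ k - q k) ^ 2 ≤ Φ) :
    ∑ j ∈ Finset.Ico lo hi, (ρ (j + u) - ρ j) ^ 2 ≤
      u * (48 * (((hi - lo + U : ℕ) : ℝ) * U * g ^ 2) + 6 * Φ / (U * δ)) := by
  have u0 : (0 : ℝ) < U := by exact_mod_cast hU
  obtain ⟨c, rfl⟩ : ∃ c, lo = c + U := ⟨lo - U, by omega⟩
  set M := (hi - (c + U)) / U + 1 with hM
  have m1 : hi - (c + U) < M * U := by
    rw [hM, mul_comm]; exact Nat.lt_mul_div_succ _ hU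
  have m2 : M * U ≤ hi - (c + U) + U := by
    rw [hM, Nat.succ_mul]; exact Nat.add_le_add_right (Nat.div_mul_le_self _ _) _
  have m3 : ∀ m ∈ Finset.range M, m * U + U ≤ M * U := fun m hm =>
    (Nat.succ_mul m U).ge.trans (Nat.mul_le_mul_right U (Finset.mem_range.1 hm))
  have p : ∀ a, lo' ≤ a → a + M * U ≤ hi' →
      ∑ k ∈ Finset.Ico a (a + M * U), d k * (ρ k - q k) ^ 2 ≤ Φ := fun a h h' =>
    (Finset.sum_le_sum_of_subset_of_nonneg (Finset.Ico_subset_Ico h h') fun k hk _ =>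
      mul_nonneg (hδ.le.trans (hd k hk)) (sq_nonneg _)).trans hΦ
  refine (Finset.sum_le_sum_of_subset_of_nonneg (Finset.Ico_subset_Ico le_rfl
    (by omega : hi ≤ c + U + M * U)) fun _ _ _ => sq_nonneg _).trans ?_
  rw [← sum_blocks]
  refine (Finset.sum_le_sum fun m hm => ?_).trans
    (?_ : ∑ m ∈ Finset.range M, u * (48 * (g * U) ^ 2 +
      3 * (∑ k ∈ Finset.Ico (c + m * U) (c + m * U + U), d k * (ρ k - q k) ^ 2) / (U * δ) +
      3 * (∑ k ∈ Finset.Ico (c + 3 * U + m * U) (c + 3 * U + m * U + U),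
        d k * (ρ k - q k) ^ 2) / (U * δ)) ≤ _)
  · have h3 := m3 m hm
    have := rise_one hρ (b := c + m * U) (d := d) hU hu hg hδ (fun k h h' => hq k (by omega) (by omega))
      fun k hk => hd k (by rw [Finset.mem_Ico] at hk ⊢; omega)
    rw [add_right_comm c U (m * U), add_right_comm c (3 * U) (m * U)]
    exact this
  · rw [← Finset.mul_sum, Finset.sum_add_distrib, Finset.sum_add_distrib, ← Finset.sum_div,
      ← Finset.sum_div, ← Finset.mul_sum, ← Finset.mul_sum, ← Finset.mul_sum, sum_blocks, sum_blocks]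
    refine mul_le_mul_of_nonneg_left ?_ (Nat.cast_nonneg _)
    have a1 := div_le_div_of_nonneg_right (mul_le_mul_of_nonneg_left (p c (by omega) (by omega))
      (by norm_num : (0 : ℝ) ≤ 3)) (by positivity : (0 : ℝ) ≤ U * δ)
    have a2 := div_le_div_of_nonneg_right (mul_le_mul_of_nonneg_left
      (p (c + 3 * U) (by omega) (by omega)) (by norm_num : (0 : ℝ) ≤ 3))
      (by positivity : (0 : ℝ) ≤ U * δ)
    have a3 : (M : ℝ) * U ≤ ((hi - (c + U) + U : ℕ) : ℝ) := by exact_mod_cast m2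
    have a4 := mul_le_mul_of_nonneg_right a3 (by positivity : (0 : ℝ) ≤ U * g ^ 2)
    have e : 6 * Φ / (U * δ) = 3 * Φ / (U * δ) + 3 * Φ / (U * δ) := by ring
    rw [Finset.sum_const, Finset.card_range, nsmul_eq_mul, e]
    nlinarith

end free

/-! ### on a cascade -/

variable {Ω : Type} [Fintype Ω] {w : Ω → ℝ} {L : List (Lv Ω)} {l₀ : Lv Ω}

/-- `∑_S dm (ρ - q)²` -/
def Ph (w : Ω → ℝ) (L : List (Lv Ω)) (l₀ : Lv Ω) (h : Ω → ℝ) (q : ℕ → ℝ) (S : Finset ℕ) : ℝ :=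
  ∑ k ∈ S, dm L 0 k * (rho w L l₀ h k - q k) ^ 2

theorem Ph_nonneg (hL : Mono 0 L) (l₀ : Lv Ω) (h : Ω → ℝ) (q : ℕ → ℝ) (S : Finset ℕ) :
    0 ≤ Ph w L l₀ h q S := Finset.sum_nonneg fun k _ => mul_nonneg (dm_nonneg hL k) (sq_nonneg _)

theorem Ph_mono (hL : Mono 0 L) (l₀ : Lv Ω) (h : Ω → ℝ) (q : ℕ → ℝ) {S S' : Finset ℕ}
    (e : S ⊆ S') : Ph w L l₀ h q S ≤ Ph w L l₀ h q S' :=
  Finset.sum_le_sum_of_subset_of_nonneg e fun k _ _ => mul_nonneg (dm_nonneg hL k) (sq_nonneg _)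

/-- `E R²` increases with the split level -/
theorem cov_sq_mono (hw : Wt w) (L : List (Lv Ω)) (l₀ : Lv Ω) (h : Ω → ℝ) {j j' : ℕ} (e : j ≤ j')
    (hj : j' ≤ L.length) :
    pi2 w L j (fun x y => l₀.cov x y ^ 2) h ≤ pi2 w L j' (fun x y => l₀.cov x y ^ 2) h := by
  have key : ∀ j ≤ L.length, pi2 w L j (fun x y => l₀.cov x y ^ 2) h = ∑ i, ∑ k,
      Lad79.Nf w L 0 j h (fun x => l₀.A x i * l₀.A x k) fun x => l₀.A x i * l₀.A x k := by
    intro j hj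
    have eP := fun f => Hess87.eg_Pf hw (L.drop j) f
    simp only [Lad79.Nf_le L hj, List.drop_zero, Nat.sub_zero]
    rw [← Finset.sum_congr rfl fun i _ => congrFun
        (node_sum hw _ (fun k _ => (eP _).mul (eP _)) L j) h,
      ← congrFun (node_sum hw _ (fun i _ => Eg.sum _ fun k _ => (eP _).mul (eP _)) L j) h]
    refine congrArg (fun F => node w L j F h) (funext fun z => ?_)
    simp only [Pf, ← qf_mul, ← qf_sum]
    refine congrArg _ (funext fun x => funext fun y => ?_)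
    simp only [Lv.cov, sq, Finset.sum_mul_sum]
    exact Finset.sum_congr rfl fun _ _ => Finset.sum_congr rfl fun _ _ => by ring
  rw [key j (e.trans hj), key j' hj]
  exact Finset.sum_le_sum fun i _ => Finset.sum_le_sum fun k _ =>
    Lad79.Nf_mono hw L (Nat.zero_le _) e h _

/-- **low levels**: `E R²` below a window is read on the window -/
theorem low_le (hw : Wt w) (hL : Mono 0 L) (l₀ : Lv Ω) (h : Ω → ℝ) {j : ℕ} {S : Finset ℕ}
    (hS : ∀ k ∈ S, j ≤ k ∧ k ≤ L.length) {M top X : ℝ} (hM : 0 < M) (h1 : M ≤ ∑ k ∈ S, dm L 0 k)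
    {q : ℕ → ℝ} (hq : ∀ k ∈ S, q k ^ 2 ≤ top ^ 2)
    (hX : ∑ k ∈ S, dm L 0 k * pi2 w L k (fun x y => (l₀.cov x y - q k) ^ 2) h ≤ X) :
    pi2 w L j (fun x y => l₀.cov x y ^ 2) h ≤ 2 * top ^ 2 + 2 * X / M := by
  set E := pi2 w L j (fun x y => l₀.cov x y ^ 2) h with hE
  have h2 : (∑ k ∈ S, dm L 0 k) * (E - 2 * top ^ 2) ≤ 2 * X := by
    refine le_trans ?_ (mul_le_mul_of_nonneg_left hX zero_le_two)
    rw [Finset.sum_mul, Finset.mul_sum]
    refine Finset.sum_le_sum fun k hk => ?_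
    have a1 := cov_sq_mono hw L l₀ h (hS k hk).1 (hS k hk).2
    have a2 := pi2_le2 hw L k (K := fun x y => l₀.cov x y ^ 2) (a := 2) (b := 2 * top ^ 2)
      (A := fun x y => (l₀.cov x y - q k) ^ 2) (B := fun _ _ => 1) (fun x y => by
        nlinarith [hq k hk, sq_nonneg (l₀.cov x y - 2 * q k)]) h
    have a3 : pi2 w L k (fun _ _ => (1 : ℝ)) h = 1 := by
      simp only [pi2, qf, mul_one, ← Finset.mul_sum, sum_P hw, node_const hw]
    rw [a3] at a2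
    nlinarith [mul_le_mul_of_nonneg_left (a1.trans a2) (dm_nonneg hL k)]
  have X0 : 0 ≤ X := (Finset.sum_nonneg fun k _ => mul_nonneg (dm_nonneg hL k)
    (node_nonneg w (fun z => Finset.sum_nonneg fun x _ => Finset.sum_nonneg fun y _ =>
      mul_nonneg (mul_nonneg (P_nonneg hw _ z x) (P_nonneg hw _ z y)) (sq_nonneg _)) L k h)).trans hX
  rw [← sub_le_iff_le_add', le_div_iff₀ hM]
  rcases le_total 0 (E - 2 * top ^ 2) with h3 | h3
  · nlinarith [mul_le_mul_of_nonneg_right h1 h3]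
  · nlinarith [mul_nonpos_of_nonpos_of_nonneg h3 hM.le]

section win
variable (hw : Wt w) (hL : Mono 0 L) (h : Ω → ℝ) {T : Set (Equiv.Perm Ω)}
  (hT : ∀ τ ∈ T, Sym w L h τ) (htr : ∀ x y, w x ≠ 0 → w y ≠ 0 → ∃ τ ∈ T, τ x = y)
  (h₀ : ∀ τ ∈ T, ∀ x y, l₀.cov (τ x) (τ y) = l₀.cov x y)
include hw hL hT htr h₀

/-- sliding windows, the rises kept -/
theorem var_E {lo hi lo' hi' u : ℕ} (hu : 1 ≤ u) (h1 : 1 ≤ lo') (h2 : lo' + u ≤ lo)
    (h3 : hi + u ≤ hi') (h4 : hi' ≤ L.length + 1) {δ κ A x : ℝ} (hδ : 0 < δ)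
    (hd : ∀ k ∈ Finset.Ico lo' hi', δ ≤ dm L 0 k) (hx : 0 < x)
    (hx' : ∀ k ∈ Finset.Ico lo' hi', x ≤ ex L k) (hA : al w L l₀ h (Finset.Ico lo' hi') ≤ A)
    {c : ℕ → ℝ} (hκ : 0 ≤ κ) (hc : ∀ j ∈ Finset.Ico lo hi, 0 ≤ c j ∧ c j ≤ κ) :
    ∑ j ∈ Finset.Ico lo hi, c j * vr w L l₀ h j ≤ κ * (16 * A / (u * δ ^ 2) + 16 * A / (x * δ) +
      2 * ∑ j ∈ Finset.Ico lo hi, ((rho w L l₀ h (j + u) - rho w L l₀ h j) ^ 2 +
        (rho w L l₀ h j - rho w L l₀ h (j - u)) ^ 2)) ∧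
    ∑ j ∈ Finset.Ico lo hi, c j * vv w L l₀ h j ≤ κ * (A / (x * δ)) := by
  have hρ := rho_mono hw L l₀ h
  have u0 : (0 : ℝ) < u := by exact_mod_cast hu
  have sU : ∀ j ∈ Finset.Ico lo hi, Finset.Ico j (j + u) ⊆ Finset.Ico lo' hi' := fun j hj => by
    have := Finset.mem_Ico.1 hj
    exact Finset.Ico_subset_Ico (by omega) (by omega)
  have sD : ∀ j ∈ Finset.Ico lo hi, Finset.Ico (j + 1 - u) (j + 1) ⊆ Finset.Ico lo' hi' :=
    fun j hj => by
      have := Finset.mem_Ico.1 hj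
      exact Finset.Ico_subset_Ico (by omega) (by omega)
  have ms : ∀ S ⊆ Finset.Ico lo' hi', S.card = u → u * δ ≤ ∑ k ∈ S, dm L 0 k := fun S hS e => by
    have := Finset.card_nsmul_le_sum S (dm L 0) δ fun k hk => hd k (hS hk)
    rwa [e, nsmul_eq_mul] at this
  have key := sq_sys hw hL h hT htr h₀ (S := Finset.Ico lo hi) (E := Finset.Ico lo' hi')
    (U := fun j => Finset.Ico j (j + u)) (D := fun j => Finset.Ico (j + 1 - u) (j + 1))
    (fun k hk => by have := Finset.mem_Ico.1 hk; omega)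
    (fun j hj => ⟨sU j hj, fun k hk => (Finset.mem_Ico.1 hk).1⟩)
    (fun j hj => ⟨sD j hj, fun k hk => by have := Finset.mem_Ico.1 hk; omega⟩)
    (M := u * δ) (by positivity) (fun j hj => ms _ (sU j hj) (by simp))
    (fun j hj => ms _ (sD j hj) (by have := Finset.mem_Ico.1 hj; rw [Nat.card_Ico]; omega)) (u := u)
    (fun k _ => (Finset.card_le_card (t := Finset.Ico (k + 1 - u) (k + 1)) fun j hj => by
      have := Finset.mem_Ico.1 (Finset.mem_filter.1 hj).2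
      exact Finset.mem_Ico.2 (by omega)).trans (by rw [Nat.card_Ico]; omega))
    (fun k _ => (Finset.card_le_card (t := Finset.Ico k (k + u)) fun j hj => by
      have := Finset.mem_Ico.1 (Finset.mem_filter.1 hj).2
      exact Finset.mem_Ico.2 (by omega)).trans (by rw [Nat.card_Ico]; omega))
    (q := rho w L l₀ h) (e := fun j => rho w L l₀ h (j + u) - rho w L l₀ h j)
    (e' := fun j => rho w L l₀ h j - rho w L l₀ h (j - u)) (c := c)
    (fun j _ k hk => by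
      have := Finset.mem_Ico.1 hk
      rw [abs_of_nonneg (sub_nonneg.2 (hρ this.1))]
      exact sub_le_sub_right (hρ this.2.le) _)
    (fun j _ k hk => by
      have := Finset.mem_Ico.1 hk
      rw [abs_sub_comm, abs_of_nonneg (sub_nonneg.2 (hρ (by omega)))]
      exact sub_le_sub_left (hρ (by omega)) _) hκ hc
  have s3 := wsum_le (F := fun j => (rho w L l₀ h (j + u) - rho w L l₀ h j) ^ 2 +
      (rho w L l₀ h j - rho w L l₀ h (j - u)) ^ 2) (fun j hj => (hc j hj).2) fun j _ => by positivity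
  have v1 : vl w L l₀ h (Finset.Ico lo' hi') ≤ A / x :=
    (vl_le hw hL l₀ h hx hx').trans (div_le_div_of_nonneg_right hA hx.le)
  have s4 : ∑ j ∈ Finset.Ico lo hi, c j * vv w L l₀ h j ≤ κ * (A / x / δ) := by
    refine (wsum_le (fun j hj => (hc j hj).2) fun j _ => vv_nonneg hw l₀ h L j).trans
      (mul_le_mul_of_nonneg_left ?_ hκ)
    rw [le_div_iff₀ hδ, Finset.sum_mul]
    refine le_trans ?_ v1
    have sS : Finset.Ico lo hi ⊆ Finset.Ico lo' hi' := Finset.Ico_subset_Ico (by omega) (by omega)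
    refine (Finset.sum_le_sum fun j hj => ?_).trans (Finset.sum_le_sum_of_subset_of_nonneg sS
      fun k _ _ => mul_nonneg (dm_nonneg hL k) (vv_nonneg hw l₀ h L k))
    rw [mul_comm]
    exact mul_le_mul_of_nonneg_right (hd j (sS hj)) (vv_nonneg hw l₀ h L j)
  have s5 : κ * u * (16 * (al w L l₀ h (Finset.Ico lo' hi') / (u * δ) ^ 2) +
      8 * (vl w L l₀ h (Finset.Ico lo' hi') / (u * δ))) ≤
      κ * u * (16 * (A / (u * δ) ^ 2) + 8 * (A / x / (u * δ))) := by gcongr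
  have e : κ * u * (16 * (A / (u * δ) ^ 2) + 8 * (A / x / (u * δ))) + 8 * (κ * (A / x / δ)) =
      κ * (16 * A / (u * δ ^ 2) + 16 * A / (x * δ)) := by
    field_simp
    ring
  refine ⟨?_, s4.trans_eq (by rw [div_div])⟩
  simp only [vr]
  linarith

/-- the bound of step (d): `N` nodes, windows `u`, superblocks `U` -/
def vb (N u U : ℕ) (δ A x g Φ : ℝ) : ℝ := 16 * A / (u * δ ^ 2) + 16 * A / (x * δ) +
  4 * u * (48 * (((N + U : ℕ) : ℝ) * U * g ^ 2) + 6 * Φ / (U * δ))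

/-- **(d)**: variance of the node overlaps from the `L²` location -/
theorem var_phi {lo hi lo' hi' u U : ℕ} (hu : 1 ≤ u) (hU : u ≤ U) (h1 : 1 ≤ lo')
    (h2 : lo' + 2 * U ≤ lo) (hl : lo ≤ hi) (h3 : hi + 3 * U ≤ hi') (h4 : hi' ≤ L.length + 1)
    {δ κ A x g Φ : ℝ} (hδ : 0 < δ) (hd : ∀ k ∈ Finset.Ico lo' hi', δ ≤ dm L 0 k) (hx : 0 < x)
    (hx' : ∀ k ∈ Finset.Ico lo' hi', x ≤ ex L k) (hA : al w L l₀ h (Finset.Ico lo' hi') ≤ A)
    {q : ℕ → ℝ} (hg : 0 ≤ g) (hq : ∀ k, lo' ≤ k → k < hi' → q (k + 1) - q k ≤ g)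
    (hΦ : Ph w L l₀ h q (Finset.Ico lo' hi') ≤ Φ)
    {c : ℕ → ℝ} (hκ : 0 ≤ κ) (hc : ∀ j ∈ Finset.Ico lo hi, 0 ≤ c j ∧ c j ≤ κ) :
    ∑ j ∈ Finset.Ico lo hi, c j * vr w L l₀ h j ≤ κ * vb (hi - lo) u U δ A x g Φ := by
  have hρ := rho_mono hw L l₀ h
  refine (var_E hw hL h hT htr h₀ hu h1 (by omega) (by omega) h4 hδ hd hx hx' hA hκ hc).1.trans
    (mul_le_mul_of_nonneg_left ?_ hκ)
  have r1 := rise_sq hρ (lo := lo) (hi := hi) (hu.trans hU) hU (by omega) hl h3 hg hδ hq hd hΦ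
  have r2 := rise_sq hρ (lo := lo - u) (hi := hi - u) (hu.trans hU) hU (by omega) (by omega)
    (by omega) hg hδ hq hd hΦ
  rw [show hi - u - (lo - u) = hi - lo by omega] at r2
  have e : ∑ j ∈ Finset.Ico lo hi, (rho w L l₀ h j - rho w L l₀ h (j - u)) ^ 2 =
      ∑ j ∈ Finset.Ico (lo - u) (hi - u), (rho w L l₀ h (j + u) - rho w L l₀ h j) ^ 2 := by
    have := Finset.sum_Ico_add' (fun j => (rho w L l₀ h j - rho w L l₀ h (j - u)) ^ 2)
      (lo - u) (hi - u) u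
    rw [Nat.sub_add_cancel (by omega), Nat.sub_add_cancel (by omega)] at this
    simpa only [Nat.add_sub_cancel] using this.symm
  rw [Finset.sum_add_distrib, e, vb]
  linarith

/-- **(d), pair form**: `∑ c E (R - r)²` for any `r` -/
theorem pair_phi {lo hi lo' hi' u U : ℕ} (hu : 1 ≤ u) (hU : u ≤ U) (h1 : 1 ≤ lo')
    (h2 : lo' + 2 * U ≤ lo) (hl : lo ≤ hi) (h3 : hi + 3 * U ≤ hi') (h4 : hi' ≤ L.length + 1)
    {δ κ A x g Φ B : ℝ} (hδ : 0 < δ) (hd : ∀ k ∈ Finset.Ico lo' hi', δ ≤ dm L 0 k) (hx : 0 < x)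
    (hx' : ∀ k ∈ Finset.Ico lo' hi', x ≤ ex L k) (hA : al w L l₀ h (Finset.Ico lo' hi') ≤ A)
    {q : ℕ → ℝ} (hg : 0 ≤ g) (hq : ∀ k, lo' ≤ k → k < hi' → q (k + 1) - q k ≤ g)
    (hΦ : Ph w L l₀ h q (Finset.Ico lo' hi') ≤ Φ)
    {c : ℕ → ℝ} (hκ : 0 ≤ κ) (hc : ∀ j ∈ Finset.Ico lo hi, 0 ≤ c j ∧ c j ≤ κ)
    (hB : ∑ j ∈ Finset.Ico lo hi, c j * tc w L l₀ h j ≤ B) (r : ℕ → ℝ) :
    ∑ j ∈ Finset.Ico lo hi, c j * pi2 w L j (fun x y => (l₀.cov x y - r j) ^ 2) h ≤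
      ∑ j ∈ Finset.Ico lo hi, c j * (rho w L l₀ h j - r j) ^ 2 +
        κ * (vb (hi - lo) u U δ A x g Φ + 2 * (A / (x * δ))) + B := by
  have a1 := var_phi hw hL h hT htr h₀ hu hU h1 h2 hl h3 h4 hδ hd hx hx' hA hg hq hΦ hκ hc
  have a2 := (var_E hw hL h hT htr h₀ hu h1 (by omega) (by omega) h4 hδ hd hx hx' hA hκ hc).2
  simp only [pair_eq hw, sq2_eq hw L l₀ h (r _), mul_add, Finset.sum_add_distrib,
    mul_left_comm _ (2 : ℝ), ← Finset.mul_sum] at a1 ⊢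
  linarith

end win

/-! ### the Riccati budget from the `L²` location -/

section blk
variable {τ : ℕ → ℝ} {Λ σ : ℝ} {A B : ℕ}

/-- top value and rise on `[a, b]` from the windows `[a - W, a)` and `[b, b + W)` -/
theorem top_rise (hw : Wt w) (hL : Mono 0 L) (l₀ : Lv Ω) (h : Ω → ℝ) {a b W : ℕ} (hW : 1 ≤ W)
    (hab : a + W ≤ b) {δ g Φ : ℝ} (hδ : 0 < δ) (hd : ∀ k ∈ Finset.Ico a (b + W), δ ≤ dm L 0 k)
    {q : ℕ → ℝ} (hg : 0 ≤ g) (hq : ∀ k, a ≤ k → k < b + W → q (k + 1) - q k ≤ g)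
    (hΦ : Ph w L l₀ h q (Finset.Ico a (b + W)) ≤ Φ) :
    rho w L l₀ h b ≤ q b + g * W + √(Φ / (W * δ)) ∧ rho w L l₀ h b - rho w L l₀ h (a + W) ≤
      g * ((b - a + W : ℕ) : ℝ) + 2 * √(Φ / (W * δ)) := by
  have hρ := rho_mono hw L l₀ h
  have h1 := top_le hρ (i := b) hW hg hδ (fun k e e' => hq k (by omega) e')
    (fun k hk => hd k (by rw [Finset.mem_Ico] at hk ⊢; omega))
    ((Ph_mono hL l₀ h q (Finset.Ico_subset_Ico (by omega) le_rfl)).trans hΦ)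
  have h2 := bot_le hρ (i := a) hW hg hδ (fun k e e' => hq k e (by omega))
    (fun k hk => hd k (by rw [Finset.mem_Ico] at hk ⊢; omega))
    ((Ph_mono hL l₀ h q (Finset.Ico_subset_Ico le_rfl (by omega))).trans hΦ)
  have h3 := inc_le hq (i := a + W) (j := b) (by omega) hab (by omega)
  refine ⟨h1, ?_⟩
  rw [show b - a + W = b - (a + W) + W + W by omega]
  push_cast
  linarith

/-- **(Q1) from the `L²` location**: block `[lo, hi)`, look-back `2^D`, windows `W` -/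
theorem al_phi (H : Blk w L l₀ τ Λ σ A B) (h : Ω → ℝ) {D lo hi a W : ℕ} (hW : 1 ≤ W)
    (h1 : A + 2 ^ D ≤ lo) (hl : lo ≤ hi) (h2 : hi ≤ B + 1) (ha : a + W + 2 ^ D ≤ lo)
    {δ δ' g Φ top : ℝ} (hδ : 0 < δ) (hd : ∀ k ∈ Finset.Ico a (hi + W), δ ≤ dm L 0 k)
    (hδ' : 0 ≤ δ') (hd' : ∀ k ∈ Finset.Ico lo hi, dm L 0 k ≤ δ')
    {q : ℕ → ℝ} (hg : 0 ≤ g) (hq : ∀ k, a ≤ k → k < hi + W → q (k + 1) - q k ≤ g)
    (ht : q hi ≤ top) (hΦ : Ph w L l₀ h q (Finset.Ico a (hi + W)) ≤ Φ) :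
    al w L l₀ h (Finset.Ico lo hi) ≤ δ' * qb Λ σ D (hi - lo) (top + g * W + √(Φ / (W * δ)))
      (g * ((hi - a + W : ℕ) : ℝ) + 2 * √(Φ / (W * δ))) := by
  have hρ := rho_mono H.wt L l₀ h
  obtain ⟨t1, t2⟩ := top_rise H.wt H.mono l₀ h hW
    ((Nat.le_add_right _ _).trans (ha.trans hl)) hδ hd hg hq hΦ
  exact H.q1 h h1 hl h2 ((hρ (Nat.sub_le _ _)).trans (by linarith))
    ((sub_le_sub (hρ (Nat.sub_le _ _)) (hρ (Nat.le_sub_of_add_le ha))).trans t2) hδ' hd'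

end blk

end Crest.Agent.T156.Cas.SrD79
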