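import Mathlib

/-!
# Row 156, soft recursion, leaf S4: blocks of the top window and of the plateau (helper17)

Frame-free.  Labels `z`, local density `D` of the nodes, `1`-Lipschitz scale `ρ`.
-/

set_option autoImplicit false

noncomputable section

namespace Crest.Agent.T156.Sg17

open Real

/-- labels with a slowly varying density -/
structure Gm (z : ℕ → ℝ) (D ρ : ℝ → ℝ) (v C lm e : ℝ) (a b : ℕ) : Prop where
  zm : Monotone z
  C1 : 1 ≤ C
  v0 : 0 < v
  D0 : ∀ x, 0 < D x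
  stp : ∀ j, a ≤ j → j + 1 < b →
    v / C ≤ (z (j + 1) - z j) * D (z j) ∧ (z (j + 1) - z j) * D (z j) ≤ C * v
  lip : ∀ x y, ρ x - ρ y ≤ |x - y|
  cmp : ∀ x y, x ≤ 1 - e → |x - y| ≤ ρ x / 4 → D x ≤ C * D y ∧ D y ≤ C * D x
  lm1 : ∀ x, x ≤ 1 - e → lm ≤ D x * ρ x
  msh : 80 * C ^ 2 * v ≤ lm

namespace Gm

variable {z : ℕ → ℝ} {D ρ : ℝ → ℝ} {v C lm e : ℝ} {a b : ℕ} (G : Gm z D ρ v C lm e a b)
include G

theorem lm0 : 0 < lm := lt_of_lt_of_le (by have := G.v0; have := G.C1; positivity) G.msh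

theorem r0 {x : ℝ} (hx : x ≤ 1 - e) : 0 < ρ x :=
  pos_of_mul_pos_left (G.lm0.trans_le ((G.lm1 x hx).trans_eq (mul_comm _ _))) (G.D0 x).le

/-- increments near `x` -/
theorem near {x : ℝ} (hx : x ≤ 1 - e) {j : ℕ} (h1 : a ≤ j) (h2 : j + 1 < b)
    (h : |x - z j| ≤ ρ x / 4) : v / (C ^ 2 * D x) ≤ z (j + 1) - z j ∧
      z (j + 1) - z j ≤ C ^ 4 * (v / (C ^ 2 * D x)) := by
  obtain ⟨s1, s2⟩ := G.stp j h1 h2
  obtain ⟨c1, c2⟩ := G.cmp x _ hx h
  have C0 : 0 < C := zero_lt_one.trans_le G.C1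
  have d0 := sub_nonneg.2 (G.zm (Nat.le_succ j))
  have x0 := G.D0 x
  rw [div_le_iff₀' C0] at s1
  constructor
  · rw [div_le_iff₀ (by positivity)]
    nlinarith [mul_le_mul_of_nonneg_left c2 (mul_nonneg C0.le d0)]
  · rw [show C ^ 4 * (v / (C ^ 2 * D x)) = C ^ 2 * v / D x by field_simp, le_div_iff₀ x0]
    nlinarith [mul_le_mul_of_nonneg_left c1 d0, mul_le_mul_of_nonneg_left s2 C0.le]

/-- the mesh is fine against the scale -/
theorem mesh {j : ℕ} (h1 : a ≤ j) (h2 : j + 1 < b) (hx : z j ≤ 1 - e) :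
    16 * (z (j + 1) - z j) ≤ ρ (z j) := by
  have s2 := (G.stp j h1 h2).2
  have C1 := G.C1
  have v0 := G.v0
  refine le_of_mul_le_mul_right ?_ (G.D0 (z j))
  nlinarith [G.lm1 _ hx, G.msh, mul_le_mul_of_nonneg_right C1 (mul_pos (by linarith : 0 < C) v0).le]

theorem up {k : ℕ} (hx : z k ≤ 1 - e) (h1 : a ≤ k) {N : ℕ}
    (hN : N * (C ^ 4 * (v / (C ^ 2 * D (z k)))) ≤ ρ (z k) / 8) :
    ∀ i ≤ N, k + i < b → z (k + i) - z k ≤ i * (C ^ 4 * (v / (C ^ 2 * D (z k))))
  | 0, _, _ => by simp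
  | i + 1, hi, hb => by
    have ih := up hx h1 hN i (by omega) (by omega)
    have p : 0 ≤ C ^ 4 * (v / (C ^ 2 * D (z k))) := by
      have := G.v0; have := G.C1; have := G.D0 (z k); positivity
    have a1 : (i : ℝ) * _ ≤ N * _ :=
      mul_le_mul_of_nonneg_right (by exact_mod_cast (by omega : i ≤ N)) p
    have a2 := (G.near hx (j := k + i) (by omega) hb (by
      rw [abs_sub_comm, abs_of_nonneg (sub_nonneg.2 (G.zm (Nat.le_add_right k i)))]
      linarith [G.r0 hx])).2
    push_cast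
    rw [← add_assoc]
    linarith

theorem dn_step {k j : ℕ} (hx : z k ≤ 1 - e) (h1 : a ≤ j) (hj : j + 1 ≤ k) (hb : k < b)
    (h : z k - z (j + 1) ≤ ρ (z k) / 8) : |z k - z j| ≤ ρ (z k) / 4 := by
  have m := G.zm (show j ≤ k by omega)
  have a1 := G.mesh h1 (by omega) (m.trans hx)
  have a2 := G.lip (z j) (z k)
  rw [abs_sub_comm, abs_of_nonneg (sub_nonneg.2 m)] at a2
  rw [abs_of_nonneg (sub_nonneg.2 m)]
  linarith [G.r0 hx]

theorem dn {k : ℕ} (hx : z k ≤ 1 - e) (hb : k < b) {N : ℕ}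
    (hN : N * (C ^ 4 * (v / (C ^ 2 * D (z k)))) ≤ ρ (z k) / 8) :
    ∀ i ≤ N, a + i ≤ k → z k - z (k - i) ≤ i * (C ^ 4 * (v / (C ^ 2 * D (z k))))
  | 0, _, _ => by simp
  | i + 1, hi, ha => by
    have ih := dn hx hb hN i (by omega) (by omega)
    have p : 0 ≤ C ^ 4 * (v / (C ^ 2 * D (z k))) := by
      have := G.v0; have := G.C1; have := G.D0 (z k); positivity
    have a1 : (i : ℝ) * _ ≤ N * _ :=
      mul_le_mul_of_nonneg_right (by exact_mod_cast (by omega : i ≤ N)) p
    have e1 : k - (i + 1) + 1 = k - i := by omega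
    have a2 := (G.near hx (j := k - (i + 1)) (by omega) (by omega)
      (G.dn_step hx (by omega) (by omega) hb (by rw [e1]; linarith))).2
    rw [e1] at a2
    push_cast
    linarith

/-- **one block** above the node `k` -/
theorem blk {k : ℕ} (hx : z k ≤ 1 - e) (h1 : a ≤ k) (h2 : k < b) (ha : ρ (z k) ≤ z k - z a)
    (hb : ρ (z k) ≤ 4 * (z (b - 1) - z k)) : ∃ (n : ℕ) (de : ℝ), 0 < de ∧
      lm ≤ 80 * C ^ 2 * (n * v) ∧ de * (D (z k) * C ^ 2) = v ∧ n * de ≤ ρ (z k) ∧ a + 3 * n ≤ k ∧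
      k + 5 * n < b ∧ (∀ j, k ≤ j + 3 * n → j < k + 5 * n →
        de ≤ z (j + 1) - z j ∧ z (j + 1) - z j ≤ C ^ 4 * de) ∧
      z k + ρ (z k) / (80 * C ^ 4) ≤ z (k + n) := by
  have C1 := G.C1
  have C0 : 0 < C := zero_lt_one.trans_le C1
  have v0 := G.v0
  have x0 := G.D0 (z k)
  have r0 := G.r0 hx
  set de := v / (C ^ 2 * D (z k)) with hde
  have d0 : 0 < de := by positivity
  have ev : de * (D (z k) * C ^ 2) = v := by rw [hde]; field_simp
  set n := ⌊ρ (z k) / (40 * (C ^ 4 * de))⌋₊ with hn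
  have n1 : n * (40 * (C ^ 4 * de)) ≤ ρ (z k) :=
    (le_div_iff₀ (by positivity)).1 (Nat.floor_le (by positivity))
  have n2 : ρ (z k) < (n + 1) * (40 * (C ^ 4 * de)) :=
    (div_lt_iff₀ (by positivity)).1 (Nat.lt_floor_add_one _)
  have n3 : 80 * (C ^ 4 * de) ≤ ρ (z k) := by
    refine le_of_mul_le_mul_right ?_ x0
    have := G.lm1 _ hx
    have := G.msh
    rw [← ev] at this
    nlinarith
  have n4 : ρ (z k) ≤ 80 * C ^ 4 * (n * de) := by nlinarith
  have p : 0 < C ^ 4 * de := by positivity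
  have c4 : 1 ≤ C ^ 4 := one_le_pow₀ C1
  have h5 : ((5 * n : ℕ) : ℝ) * (C ^ 4 * de) ≤ ρ (z k) / 8 := by push_cast; linarith
  have le5 : ∀ i ≤ 5 * n, (i : ℝ) * (C ^ 4 * de) ≤ ρ (z k) / 8 := fun i hi =>
    (mul_le_mul_of_nonneg_right (by exact_mod_cast hi) p.le).trans h5
  have b1 : a + 3 * n ≤ k := by
    by_contra hc
    have := G.dn hx h2 h5 (k - a) (by omega) (by omega)
    rw [show k - (k - a) = a by omega] at this
    linarith [le5 (k - a) (by omega)]
  have b2 : k + 5 * n < b := by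
    by_contra hc
    have := G.up hx h1 h5 (b - 1 - k) (by omega) (by omega)
    rw [show k + (b - 1 - k) = b - 1 by omega] at this
    linarith [le5 (b - 1 - k) (by omega)]
  have b3 : ∀ j, k ≤ j + 3 * n → j < k + 5 * n →
      de ≤ z (j + 1) - z j ∧ z (j + 1) - z j ≤ C ^ 4 * de := fun j j1 j2 => by
    refine G.near hx (by omega) (by omega) ?_
    rcases le_or_gt k j with h | h
    · have := G.up hx h1 h5 (j - k) (by omega) (by omega)
      rw [show k + (j - k) = j by omega] at this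
      rw [abs_sub_comm, abs_of_nonneg (sub_nonneg.2 (G.zm h))]
      linarith [le5 (j - k) (by omega)]
    · have := G.dn hx h2 h5 (k - j) (by omega) (by omega)
      rw [show k - (k - j) = j by omega] at this
      rw [abs_of_nonneg (sub_nonneg.2 (G.zm h.le))]
      linarith [le5 (k - j) (by omega)]
  refine ⟨n, de, d0, ?_, ev, ?_, b1, b2, b3, ?_⟩
  · have := mul_le_mul_of_nonneg_left n4 x0.le
    have e : D (z k) * (80 * C ^ 4 * (n * de)) = 80 * C ^ 2 * (n * v) := by rw [← ev]; ring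
    linarith [G.lm1 _ hx]
  · nlinarith [mul_le_mul_of_nonneg_right c4 (by positivity : (0 : ℝ) ≤ n * de)]
  · have s := Finset.card_nsmul_le_sum (Finset.Ico k (k + n)) (fun j => z (j + 1) - z j) de
      fun j hj => by
        have := Finset.mem_Ico.1 hj
        exact (b3 j (by omega) (by omega)).1
    rw [Finset.sum_Ico_sub z (Nat.le_add_right k n), Nat.card_Ico, Nat.add_sub_cancel_left,
      nsmul_eq_mul] at s
    have : ρ (z k) / (80 * C ^ 4) ≤ n * de := (div_le_iff₀' (by positivity)).2 n4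
    linarith

end Gm

/-! ### the scale and its potential -/

/-- distance to the junction `xs` (shifted), to the top, capped -/
def rh (xs u0 r0 x : ℝ) : ℝ := min (min (|x - xs| + u0) (1 - x)) r0

theorem rh_lip (xs u0 r0 x y : ℝ) : rh xs u0 r0 x - rh xs u0 r0 y ≤ |x - y| := by
  have a1 := (min_le_left _ r0).trans (min_le_left (|x - xs| + u0) (1 - x))
  have a2 := (min_le_left _ r0).trans (min_le_right (|x - xs| + u0) (1 - x))
  have a3 := min_le_right (min (|x - xs| + u0) (1 - x)) r0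
  have a4 := abs_sub_abs_le_abs_sub (x - xs) (y - xs)
  rw [sub_sub_sub_cancel_right] at a4
  have a5 := neg_abs_le (x - y)
  have a6 := abs_nonneg (x - y)
  rw [sub_le_comm]
  unfold rh
  exact le_min (le_min (by linarith) (by linarith)) (by linarith)

/-- multiplicative potential of the junction -/
def P1 (xs u0 x : ℝ) : ℝ := (max (x - xs) 0 + u0) / (max (xs - x) 0 + u0)

theorem P1_pos {xs u0 : ℝ} (hu : 0 < u0) (x : ℝ) : 0 < P1 xs u0 x := by
  unfold P1; positivity

theorem P1_mono {xs u0 : ℝ} (hu : 0 < u0) {x y : ℝ} (h : x ≤ y) : P1 xs u0 x ≤ P1 xs u0 y := by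
  unfold P1
  gcongr

theorem P1_gain {xs u0 δ : ℝ} (hu : 0 < u0) (h0 : 0 ≤ δ) (h1 : δ ≤ 1 / 2) {x y : ℝ}
    (h : x + δ * (|x - xs| + u0) ≤ y) : (1 + δ) * P1 xs u0 x ≤ P1 xs u0 y := by
  refine le_trans ?_ (P1_mono hu h)
  unfold P1
  rw [← mul_div_assoc, div_le_div_iff₀ (by positivity) (by positivity)]
  rcases le_total xs x with k | k
  · have p : 0 ≤ δ * (x - xs + u0) := mul_nonneg h0 (by linarith)
    rw [abs_of_nonneg (sub_nonneg.2 k), max_eq_left (sub_nonneg.2 k), max_eq_right (by linarith),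
      max_eq_left (by linarith), max_eq_right (by linarith)]
    exact le_of_eq (by ring)
  · rw [abs_of_nonpos (sub_nonpos.2 k), max_eq_right (sub_nonpos.2 k),
      max_eq_left (sub_nonneg.2 k)]
    set s := xs - x with hs
    have s0 : 0 ≤ s := sub_nonneg.2 k
    rw [show x + δ * (-(x - xs) + u0) - xs = δ * (s + u0) - s by rw [hs]; ring,
      show xs - (x + δ * (-(x - xs) + u0)) = s - δ * (s + u0) by rw [hs]; ring]
    rcases le_total s (δ * (s + u0)) with l | l
    · rw [max_eq_left (sub_nonneg.2 l), max_eq_right (sub_nonpos.2 l)]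
      nlinarith [mul_nonneg (sub_nonneg.2 l) s0, mul_nonneg (mul_nonneg h0 s0) hu.le]
    · rw [max_eq_right (sub_nonpos.2 l), max_eq_left (sub_nonneg.2 l)]
      nlinarith [mul_nonneg (mul_nonneg (mul_nonneg h0 h0) hu.le) (add_nonneg s0 hu.le)]

/-- the potential -/
def pot (xs u0 r0 e x : ℝ) : ℝ :=
  log (P1 xs u0 x) + log (1 + 1 / u0) - log (max (1 - x) (e / 2)) + x / r0

variable {xs u0 r0 e : ℝ}

theorem pot_nonneg (hu : 0 < u0) (hr : 0 < r0) (he : 0 < e) (he1 : e ≤ 1) (h1 : xs ≤ 1) {x : ℝ}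
    (hx : 0 ≤ x) : 0 ≤ pot xs u0 r0 e x := by
  have a1 : log (max (1 - x) (e / 2)) ≤ 0 :=
    log_nonpos (by positivity) (max_le (by linarith) (by linarith))
  have a2 : 0 ≤ log (P1 xs u0 x) + log (1 + 1 / u0) := by
    rw [← log_mul (P1_pos hu x).ne' (by positivity)]
    refine log_nonneg ?_
    have m1 : max (xs - x) 0 ≤ 1 := max_le (by linarith) zero_le_one
    have m2 := le_max_right (x - xs) 0
    rw [P1, div_mul_eq_mul_div, le_div_iff₀ (by positivity), one_mul, mul_add, mul_one,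
      add_mul, mul_one_div_cancel hu.ne']
    have : 0 ≤ max (x - xs) 0 * (1 / u0) := by positivity
    linarith
  have a3 : 0 ≤ x / r0 := by positivity
  unfold pot
  linarith

theorem pot_le (hu : 0 < u0) (hr : 0 < r0) (he : 0 < e) (h0 : 0 ≤ xs) {x : ℝ} (hx : x ≤ 1) :
    pot xs u0 r0 e x ≤ 2 * log (1 + 1 / u0) + log (2 / e) + 1 / r0 := by
  have a1 : log (P1 xs u0 x) ≤ log (1 + 1 / u0) := by
    refine log_le_log (P1_pos hu x) ?_
    have m1 : max (x - xs) 0 ≤ 1 := max_le (by linarith) zero_le_one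
    have m2 := le_max_right (xs - x) 0
    rw [P1, div_le_iff₀ (by positivity), add_mul, one_mul, mul_add, one_div_mul_cancel hu.ne']
    have : 0 ≤ 1 / u0 * max (xs - x) 0 := by positivity
    linarith
  have a2 : -log (max (1 - x) (e / 2)) ≤ log (2 / e) := by
    rw [← inv_div e 2, log_inv, neg_le_neg_iff]
    exact log_le_log (by positivity) (le_max_right _ _)
  have a3 : x / r0 ≤ 1 / r0 := div_le_div_of_nonneg_right hx hr.le
  unfold pot
  linarith

theorem pot_gain (hu : 0 < u0) (hr : 0 < r0) (he : 0 < e) {δ x y : ℝ} (h0 : 0 ≤ δ) (h1 : δ ≤ 1 / 2)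
    (hx : x ≤ 1 - e) (h : x + δ * rh xs u0 r0 x ≤ y) :
    pot xs u0 r0 e x + δ / 2 ≤ pot xs u0 r0 e y := by
  have r : 0 ≤ rh xs u0 r0 x := le_min (le_min (by positivity) (by linarith)) hr.le
  have xy : x ≤ y := by nlinarith
  have l : δ / 2 ≤ log (1 + δ) := by
    have := one_sub_inv_le_log_of_pos (by linarith : 0 < 1 + δ)
    have e : (1 + δ)⁻¹ ≤ 1 - δ / 2 := by
      rw [inv_le_iff_one_le_mul₀ (by linarith)]; nlinarith
    linarith
  have m1 := log_le_log (P1_pos (xs := xs) hu x) (P1_mono hu xy)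
  have m2 : log (max (1 - y) (e / 2)) ≤ log (max (1 - x) (e / 2)) :=
    log_le_log (by positivity) (max_le_max (by linarith) le_rfl)
  have m3 : x / r0 ≤ y / r0 := div_le_div_of_nonneg_right xy hr.le
  unfold pot
  unfold rh at h
  rcases min_choice (min (|x - xs| + u0) (1 - x)) r0 with c | c
  · rw [c] at h
    rcases min_choice (|x - xs| + u0) (1 - x) with c | c
    · rw [c] at h
      have := log_le_log (mul_pos (by linarith) (P1_pos hu x)) (P1_gain hu h0 h1 h)
      rw [log_mul (by linarith) (P1_pos hu x).ne'] at this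
      linarith
    · rw [c] at h
      have : log ((1 + δ) * max (1 - y) (e / 2)) ≤ log (max (1 - x) (e / 2)) := by
        refine log_le_log (by positivity) (le_trans ?_ (le_max_left _ _))
        rw [mul_max_of_nonneg _ _ (by linarith : 0 ≤ 1 + δ)]
        have x1 : 0 ≤ 1 - x := by linarith
        refine max_le ?_ (by nlinarith)
        nlinarith [mul_nonneg (mul_nonneg h0 h0) x1]
      rw [log_mul (by linarith) (by positivity)] at this
      linarith
  · rw [c] at h
    have : x / r0 + δ ≤ y / r0 := by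
      rw [div_add' _ _ _ hr.ne']; exact div_le_div_of_nonneg_right h hr.le
    linarith

end Crest.Agent.T156.Sg17

end
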