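import Crest.Agent.T156.SRDef_19
import Crest.Agent.T156.GuB_71
import Crest.Agent.T156.ClReg_29

/-!
# Row 156 (helper16): the rule of SR is legal and keeps the class
-/

set_option autoImplicit false
set_option linter.unusedSectionVars false

noncomputable section

namespace Crest.Agent.T156.Alt.Sr

open MeasureTheory Real Finset Filter
open Crest.Agent.T156.Alt.Gu71
open Crest.Agent.T156.Alt.Md67 (Lg)

/-- the error of the cap -/
def CapS : Prop := SR fun E Λ S M m a Y _ _ => ∀ u F, Lg (sh M u F) m a →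
  (sh M u F).Phi S m a ≤ 2 * (E ^ 100 * Y) →
  M.sq S (fun k => (sh M u F).rb m a k - cp E S m a (sh M u F) k) ≤ Λ * E ^ 92 * Y

namespace Inv16

/-- the facts used -/
structure Bs (E : ℝ) (S : Sc) (M : Md) (m : ℕ) (a Y : ℝ) (c : ℕ → ℝ) (D : ℝ) : Prop where
  cl : Cl S M
  lg : Lg M m a
  ax : Ax E S M Y c
  E2 : 2 ≤ E
  CE : S.C ≤ E
  z1 : M.z (S.jl + 1) ≤ 1 / (2 * S.C)
  ckT : M.ck S.Jp ≤ E
  ckY : M.sq S (fun k => M.ck k - M.q k) ≤ Y
  Y0 : 0 ≤ Y
  D0 : 0 ≤ D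
  D1 : D ≤ 1
  cap : ∀ u F, Lg (sh M u F) m a → (sh M u F).Phi S m a ≤ 2 * (E ^ 100 * Y) →
    M.sq S (fun k => (sh M u F).rb m a k - cp E S m a (sh M u F) k) ≤ E ^ 100 * Y

/-- `L²` norm on the nodes `jl < k ≤ Jp` -/
def nm (S : Sc) (M : Md) (f : ℕ → ℝ) : ℝ := nrm M.dx (Ioc S.jl S.Jp) f

/-- deposits of total time `u` -/
structure Rt (E : ℝ) (S : Sc) (M : Md) (Y : ℝ) (c : ℕ → ℝ) (u : ℝ) (r : ℕ → ℝ) : Prop where
  lo : ∀ k ≤ S.jl, r k = 0
  f0 : 0 ≤ r (S.jl + 1)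
  f1 : r (S.jl + 1) ≤ E ^ 8 * u * M.s (S.jl + 1)
  flr : ∀ k, S.jl < k → k < S.Jp → u / E ^ 4 * (c (k + 1) - c k) ≤ r (k + 1) - r k
  cei : ∀ k, S.jl < k → k < S.J → r (k + 1) - r k ≤ E ^ 8 * u * S.v
  top : ∀ k, S.Jp ≤ k → r k - u * M.ct S k = r S.Jp - u * M.ct S S.Jp
  le : r S.Jp ≤ u * E ^ 51
  res : nm S M (fun k => r k - u * M.q k) ≤ 3 * u * √(E ^ 100 * Y)

/-- the adaptive part -/
structure Ph (E : ℝ) (S : Sc) (M : Md) (Y : ℝ) (φ : ℕ → ℝ) : Prop where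
  f0 : 0 ≤ φ (S.jl + 1)
  f1 : φ (S.jl + 1) ≤ E ^ 8 * M.s (S.jl + 1)
  up : ∀ k, S.jl < k → k < S.Jp → φ k ≤ φ (k + 1)
  cei : ∀ k, S.jl < k → k < S.J → φ (k + 1) - φ k ≤ E ^ 8 * S.v
  le : φ S.Jp ≤ E
  res : nm S M (fun k => φ k - M.q k) ≤ 3 * √(E ^ 100 * Y)

variable {E : ℝ} {S : Sc} {M : Md} {m : ℕ} {a Y D u h : ℝ} {c F G r r' φ : ℕ → ℝ}

theorem mono_of (h0 : ∀ k ≤ S.jl, r k = 0) (h1 : 0 ≤ r (S.jl + 1))
    (h2 : ∀ k, S.jl < k → r k ≤ r (k + 1)) : Monotone r :=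
  monotone_nat_of_le_succ fun k => by
    rcases lt_trichotomy k S.jl with hk | hk | hk
    · rw [h0 k hk.le, h0 (k + 1) hk]
    · rw [h0 k hk.le, hk]; exact h1
    · exact h2 k hk

namespace Bs

variable (B : Bs E S M m a Y c D)
include B

theorem E0 : 0 < E := by linarith [B.E2]
theorem E1 : 1 ≤ E := by linarith [B.E2]
theorem E8 : E ≤ E ^ 8 := le_self_pow₀ B.E1 (by norm_num)
theorem jJ : S.jl + 1 < S.Jp := B.cl.i2.trans_le B.cl.i3
theorem dx0 (k : ℕ) : 0 ≤ M.dx k := sub_nonneg.2 (B.cl.leg.zm (Nat.sub_le k 1))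
theorem w0 : ∀ k ∈ Ioc S.jl S.Jp, 0 ≤ M.dx k := fun k _ => B.dx0 k
theorem P0 : 0 ≤ E ^ 100 * Y := mul_nonneg (pow_nonneg B.E0.le _) B.Y0

theorem nm_le {f : ℕ → ℝ} {b : ℝ} (hb : 0 ≤ b) (h : M.sq S f ≤ b ^ 2 * (E ^ 100 * Y)) :
    nm S M f ≤ b * √(E ^ 100 * Y) :=
  nrm_le (by positivity) (by rw [mul_pow, sq_sqrt B.P0]; exact h)

theorem sq_le {f : ℕ → ℝ} {b : ℝ} (h : nm S M f ≤ b * √(E ^ 100 * Y)) :
    M.sq S f ≤ b ^ 2 * (E ^ 100 * Y) := by
  have := sq_le_of_nrm B.w0 h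
  rwa [mul_pow, sq_sqrt B.P0] at this

theorem dck {k : ℕ} (h1 : S.jl < k) (h2 : k < S.Jp) :
    0 ≤ M.ck (k + 1) - M.ck k ∧ M.ck (k + 1) - M.ck k ≤ E ^ 8 * S.v := by
  have := B.cl.ckm k (B.cl.i1.trans h1.le) h2
  exact ⟨(div_pos B.cl.v0 B.cl.C0).le.trans this.1,
    this.2.trans (mul_le_mul_of_nonneg_right (B.CE.trans B.E8) B.cl.v0.le)⟩

theorem dc {k : ℕ} (h1 : S.jl < k) (h2 : k < S.Jp) : 0 ≤ c (k + 1) - c k := by
  linarith [B.ax.inc k h1 h2, (B.dck h1 h2).1]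

omit B in
theorem ct_lo {k : ℕ} (hk : k ≤ S.jl) : M.ct S k = 0 := if_pos hk

theorem ct_mid {k : ℕ} (h1 : S.jl < k) (h2 : k ≤ S.Jp) : M.ct S k = M.ck k := by
  rw [Md.ct, if_neg (by omega), min_eq_left h2, min_eq_left (h2.trans B.cl.i4.le), sub_self,
    add_zero]

theorem ct_hi {k : ℕ} (h : S.Jp ≤ k) :
    M.ct S k = M.ck S.Jp + (M.q (min k M.N) - M.q S.Jp) := by
  rw [Md.ct, if_neg (by have := B.jJ; omega), min_eq_right h]

theorem ct_one : M.ct S (S.jl + 1) = M.q (S.jl + 1) := by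
  rw [B.ct_mid (by omega) B.jJ.le, B.cl.ckq _ B.z1]

theorem ct_up {k : ℕ} (h : S.jl < k) : M.ct S k ≤ M.ct S (k + 1) := by
  rcases lt_or_ge k S.Jp with h2 | h2
  · rw [B.ct_mid h h2.le, B.ct_mid (by omega) h2]
    linarith [(B.dck h h2).1]
  · rw [B.ct_hi h2, B.ct_hi (by omega)]
    linarith [B.cl.q_mono (i := min k M.N) (j := min (k + 1) M.N) (by omega) (min_le_right _ _)]

theorem jN : S.jl + 1 ≤ M.N := B.jJ.le.trans B.cl.i4.le

theorem ct_mono : Monotone (M.ct S) :=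
  mono_of (fun _ hk => ct_lo hk) (B.ct_one ▸ B.cl.q_nn B.jN) fun _ hk => B.ct_up hk

theorem ct_top {k : ℕ} (h : S.Jp ≤ k) : M.ct S k - M.ct S S.Jp ≤ 1 := by
  rw [B.ct_hi h, B.ct_hi le_rfl, min_eq_left B.cl.i4.le]
  linarith [Cl.q_le_one (M := M) (min k M.N), B.cl.q_nn B.cl.i4.le]

theorem ct_Jp : M.ct S S.Jp ≤ E := (B.ct_mid (by have := B.jJ; omega) le_rfl).trans_le B.ckT

theorem E51 : E ^ 47 + E + 1 ≤ E ^ 51 := by
  have h1 : E ≤ E ^ 47 := le_self_pow₀ B.E1 (by norm_num)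
  have h2 : 2 ^ 4 ≤ E ^ 4 := pow_le_pow_left₀ (by norm_num) B.E2 4
  have : E ^ 51 = E ^ 47 * E ^ 4 := by ring
  nlinarith [B.E1]

theorem ct_dp : Dp (M.ct S) (E ^ 51) :=
  ⟨ct_lo (Nat.zero_le _), B.ct_mono, fun k => by
    have h1 := B.ct_mono (le_max_left k S.Jp)
    have h2 := B.ct_top (le_max_right k S.Jp)
    linarith [B.ct_Jp, B.E51, pow_pos B.E0 47]⟩

theorem s1 : 0 ≤ M.s (S.jl + 1) := B.cl.s_nn _

theorem ph_ct : Ph E S M Y (M.ct S) := by
  refine ⟨B.ct_dp.nn _, ?_, fun k h _ => B.ct_up h, fun k h1 h2 => ?_, B.ct_Jp, ?_⟩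
  · rw [B.ct_one]
    exact (B.cl.q_le_s B.jN).trans (le_mul_of_one_le_left B.s1 (B.E1.trans B.E8))
  · have h3 : k + 1 ≤ S.Jp := (Nat.succ_le_of_lt h2).trans B.cl.i3
    rw [B.ct_mid h1 (by omega), B.ct_mid (by omega) h3]
    exact (B.dck h1 h3).2
  · rw [nm, nrm_congr (g := fun k => M.ck k - M.q k) fun k hk => by
      rw [B.ct_mid (mem_Ioc.1 hk).1 (mem_Ioc.1 hk).2]]
    refine B.nm_le (by norm_num) (B.ckY.trans ?_)
    have : 1 ≤ E ^ 100 := one_le_pow₀ B.E1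
    nlinarith [B.Y0]

theorem ph_cp (L : Lg (sh M u F) m a) (hP : (sh M u F).Phi S m a ≤ 2 * (E ^ 100 * Y)) :
    Ph E S M Y (cp E S m a (sh M u F)) := by
  set N := sh M u F with hN
  have hl : ∀ k, 0 ≤ lam E S N k := fun k => by
    have := B.s1
    have := B.cl.v0
    have := B.E0
    unfold lam
    split_ifs
    exacts [le_rfl, by show 0 ≤ E ^ 8 * M.s (S.jl + 1); positivity, by positivity, zero_le_one]
  have hf : ∀ k, 0 ≤ (if k ≤ S.jl then 0 else N.rb m a k) := fun k => by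
    split_ifs
    exacts [le_rfl, Md67.rb_nonneg L.m0 k]
  have c0 : cp E S m a N S.jl ≤ 0 := (Cap64.cap_le _).trans_eq (if_pos le_rfl)
  refine ⟨Cap64.cap_nonneg hf hl _, ?_, fun k h1 _ => Cap64.cap_step ?_ (hl k), fun k h1 h2 => ?_,
    ?_, ?_⟩
  · have := Cap64.cap_inc (f := fun k => if k ≤ S.jl then 0 else N.rb m a k) (lam := lam E S N) S.jl
    rw [lam, if_neg (lt_irrefl _), if_pos rfl] at this
    exact (sub_le_iff_le_add.1 this).trans (add_le_of_nonpos_right c0)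
  · simp only [if_neg (show ¬k ≤ S.jl by omega), if_neg (show ¬k + 1 ≤ S.jl by omega)]
    exact Md67.rb_mono L.m0 k.le_succ
  · have := Cap64.cap_inc (f := fun k => if k ≤ S.jl then 0 else N.rb m a k) (lam := lam E S N) k
    rwa [lam, if_neg (by omega), if_neg (by omega), if_pos h2] at this
  · refine (Cap64.cap_le _).trans ?_
    simp only [if_neg (show ¬S.Jp ≤ S.jl by have := B.jJ; omega)]
    exact (Md67.rb_le_one L.m0 _).trans B.E1
  · have h1 : nm S M (N.del m a) ≤ 2 * √(E ^ 100 * Y) :=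
      B.nm_le (by norm_num) (hP.trans (by nlinarith [B.P0]))
    have h2 := B.nm_le (b := 1) zero_le_one ((B.cap u F L hP).trans_eq (by ring))
    have h3 := nrm_sub (f := N.del m a) (g := fun k => N.rb m a k - cp E S m a N k) B.w0
    rw [nm, nrm_congr (g := fun k => N.del m a k - (N.rb m a k - cp E S m a N k)) fun k _ => by
      simp only [Md.del, hN, sh_q]; ring]
    simp only [nm] at h1 h2
    linarith

theorem ph_ph (L : Lg (sh M u F) m a) : Ph E S M Y (ph E S Y m a (sh M u F)) := by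
  unfold ph
  split_ifs with h
  exacts [B.ph_cp L h, B.ph_ct]

theorem th : 0 < 1 / E ^ 4 ∧ 1 / E ^ 4 ≤ 1 :=
  ⟨by have := B.E0; positivity, (div_le_one (pow_pos B.E0 4)).2 (one_le_pow₀ B.E1)⟩

theorem rul_mid (N : Md) {k : ℕ} (h1 : S.jl < k) (h2 : k ≤ S.Jp) : rul E S Y c m a N k =
    1 / E ^ 4 * c k + (1 - 1 / E ^ 4) * ph E S Y m a N k := by
  rw [rul, if_neg (by omega), min_eq_left h2, sub_self, add_zero]

theorem rul_hi (N : Md) {k : ℕ} (h : S.Jp ≤ k) : rul E S Y c m a N k =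
    rul E S Y c m a N S.Jp + (N.ct S k - N.ct S S.Jp) := by
  rw [B.rul_mid N (k := S.Jp) (by have := B.jJ; omega) le_rfl, rul,
    if_neg (by have := B.jJ; omega), min_eq_right h]

theorem rul_Jp (L : Lg (sh M u F) m a) : rul E S Y c m a (sh M u F) S.Jp ≤ E ^ 47 + E := by
  have H := B.ph_ph L
  have t := B.th
  have j : S.jl < S.Jp := by have := B.jJ; omega
  rw [B.rul_mid _ j le_rfl]
  have a1 := mul_le_mul_of_nonneg_left (B.ax.le _ j le_rfl) t.1.le
  have a2 := mul_le_mul_of_nonneg_left H.le (sub_nonneg.2 t.2)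
  have a3 : 1 / E ^ 4 * E ^ 51 = E ^ 47 := by have := B.E0; field_simp
  nlinarith [B.E0]

/-- the rule is a deposit of rate one -/
theorem rt_rul (L : Lg (sh M u F) m a) : Rt E S M Y c 1 (rul E S Y c m a (sh M u F)) := by
  have H := B.ph_ph L
  have t := B.th
  have t1 := sub_nonneg.2 t.2
  have j := B.jJ
  refine ⟨fun k hk => if_pos hk, ?_, ?_, fun k h1 h2 => ?_, fun k h1 h2 => ?_, fun k hk => ?_,
    by linarith [B.rul_Jp L, B.E51], ?_⟩
  · rw [B.rul_mid _ (by omega) j.le]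
    exact add_nonneg (mul_nonneg t.1.le B.ax.nn.1) (mul_nonneg t1 H.f0)
  · rw [B.rul_mid _ (by omega) j.le]
    have a1 := mul_le_mul_of_nonneg_left
      (B.ax.nn.2.trans (le_mul_of_one_le_left B.s1 (B.E1.trans B.E8))) t.1.le
    have a2 := mul_le_mul_of_nonneg_left H.f1 t1
    linarith
  · rw [B.rul_mid _ h1 h2.le, B.rul_mid _ (by omega) h2]
    have := mul_le_mul_of_nonneg_left (H.up k h1 h2) t1
    linarith
  · have h3 : k + 1 ≤ S.Jp := (Nat.succ_le_of_lt h2).trans B.cl.i3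
    rw [B.rul_mid _ h1 (by omega), B.rul_mid _ (by omega) h3]
    have a1 := mul_le_mul_of_nonneg_left ((B.ax.bas k h1 (by omega)).trans (B.dck h1 h3).2) t.1.le
    have a2 := mul_le_mul_of_nonneg_left (H.cei k h1 h2) t1
    linarith
  · rw [B.rul_hi _ hk]
    show _ + (M.ct S k - M.ct S S.Jp) - _ = _
    ring
  · have h1 := B.nm_le (b := 1) zero_le_one (B.ax.sq.trans_eq (by ring))
    have h2 := H.res
    have h3 := nrm_add (f := fun k => 1 / E ^ 4 * (c k - M.q k))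
      (g := fun k => (1 - 1 / E ^ 4) * (ph E S Y m a (sh M u F) k - M.q k)) B.w0
    rw [nrm_mul, nrm_mul, abs_of_pos t.1, abs_of_nonneg t1] at h3
    rw [nm, nrm_congr (g := fun k => 1 / E ^ 4 * (c k - M.q k) +
      (1 - 1 / E ^ 4) * (ph E S Y m a (sh M u F) k - M.q k)) fun k hk => by
        rw [B.rul_mid _ (mem_Ioc.1 hk).1 (mem_Ioc.1 hk).2]; ring]
    simp only [nm] at h1 h2
    have a1 := mul_le_mul_of_nonneg_left h1 t.1.le
    have a2 := mul_le_mul_of_nonneg_left h2 t1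
    have a3 := mul_nonneg t.1.le (sqrt_nonneg (E ^ 100 * Y))
    linarith

theorem dp_rul (L : Lg (sh M u F) m a) : Dp (rul E S Y c m a (sh M u F)) (E ^ 51) := by
  have R := B.rt_rul L
  have hm : Monotone (rul E S Y c m a (sh M u F)) := mono_of R.lo R.f0 fun k hk => by
    rcases lt_or_ge k S.Jp with h2 | h2
    · have := mul_nonneg B.th.1.le (B.dc hk h2)
      linarith [R.flr k hk h2]
    · linarith [R.top k h2, R.top (k + 1) (by omega), B.ct_up hk]
  refine ⟨R.lo 0 (Nat.zero_le _), hm, fun k => ?_⟩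
  have h1 := hm (le_max_left k S.Jp)
  have h2 := R.top _ (le_max_right k S.Jp)
  linarith [B.ct_top (le_max_right k S.Jp), B.rul_Jp L, B.E51]

theorem rt_zero : Rt E S M Y c 0 fun _ => 0 :=
  ⟨fun _ _ => rfl, le_rfl, by simp, fun _ _ _ => by simp, fun _ _ _ => by simp,
    fun _ _ => by simp, by simp, by simp [nm, nrm_zero]⟩

theorem rt_add (R : Rt E S M Y c u r) (R' : Rt E S M Y c 1 r') (h0 : 0 ≤ h) :
    Rt E S M Y c (u + h) fun k => r k + h * r' k := by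
  refine ⟨fun k hk => by rw [R.lo k hk, R'.lo k hk, mul_zero, add_zero],
    add_nonneg R.f0 (mul_nonneg h0 R'.f0), ?_, fun k h1 h2 => ?_, fun k h1 h2 => ?_,
    fun k hk => ?_, ?_, ?_⟩
  · linarith [R.f1, mul_le_mul_of_nonneg_left R'.f1 h0]
  · have := mul_le_mul_of_nonneg_left (R'.flr k h1 h2) h0
    have e : (u + h) / E ^ 4 * (c (k + 1) - c k) =
      u / E ^ 4 * (c (k + 1) - c k) + h * (1 / E ^ 4 * (c (k + 1) - c k)) := by ring
    linarith [R.flr k h1 h2]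
  · linarith [R.cei k h1 h2, mul_le_mul_of_nonneg_left (R'.cei k h1 h2) h0]
  · linear_combination R.top k hk + h * R'.top k hk
  · linarith [R.le, mul_le_mul_of_nonneg_left R'.le h0]
  · have h3 := nrm_add (f := fun k => r k - u * M.q k) (g := fun k => h * (r' k - 1 * M.q k)) B.w0
    rw [nrm_mul, abs_of_nonneg h0] at h3
    rw [nm, nrm_congr (g := fun k => r k - u * M.q k + h * (r' k - 1 * M.q k)) fun k _ => by ring]
    have a1 := R.res
    have a2 := mul_le_mul_of_nonneg_left R'.res h0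
    simp only [nm] at a1 a2
    linarith

theorem mo_zero : Mo E S M Y c 0 fun _ => 0 :=
  ⟨fun _ _ => rfl, fun _ _ => rfl, fun _ _ _ => by simp, fun _ _ _ => by simp, by simp [Md.sq]⟩

theorem k0_add {u' : ℝ} (K : K0 E S M Y c u F) (O : Mo E S M Y c u' G) (R : Rt E S M Y c h r)
    (hu : 0 ≤ u) (h0 : 0 ≤ u') (h1 : u' ≤ h) :
    K0 E S M Y c (u + h) fun k => F k + G k + r k := by
  have e8 := pow_pos B.E0 8
  have hh := h0.trans h1
  refine ⟨fun k hk => by rw [K.lo k hk, O.lo k (by omega), R.lo k hk]; ring, ?_, ?_,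
    fun k h1 h2 => ?_, fun k h1 h2 => ?_, fun k hk => ?_, ?_, ?_⟩
  · rw [O.lo _ le_rfl]; linarith [K.f0, R.f0]
  · rw [O.lo _ le_rfl]
    have := mul_nonneg (mul_nonneg e8.le hh) B.s1
    linarith [K.f1, R.f1]
  · have a0 := mul_nonneg B.th.1.le (B.dc h1 h2)
    have a1 := K.flr k h1 h2
    have a2 := O.flr k h1 h2
    have a3 := R.flr k h1 h2
    have e : ∀ x : ℝ, x / E ^ 4 * (c (k + 1) - c k) = x * (1 / E ^ 4 * (c (k + 1) - c k)) :=
      fun x => by ring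
    rw [e] at a1 a2 a3 ⊢
    nlinarith
  · have a0 := mul_nonneg e8.le B.cl.v0.le
    nlinarith [K.cei k h1 h2, O.cei k h1 h2, R.cei k h1 h2]
  · rw [O.hi k hk, O.hi _ le_rfl]
    linear_combination K.top k hk + R.top k hk
  · rw [O.hi _ le_rfl]; linarith [K.le, R.le]
  · have a1 := B.nm_le (b := 4 * u) (by positivity) (K.res.trans_eq (by ring))
    have a2 := B.nm_le h0 O.res
    have a3 := R.res
    have a4 := nrm_add (f := fun k => F k - u * M.q k) (g := G) B.w0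
    have a5 := nrm_add (f := fun k => F k - u * M.q k + G k) (g := fun k => r k - h * M.q k) B.w0
    refine (B.sq_le (b := 4 * (u + h)) ?_).trans_eq (by ring)
    rw [nm, nrm_congr (g := fun k => F k - u * M.q k + G k + (r k - h * M.q k)) fun k _ => by ring]
    simp only [nm] at a1 a2 a3
    have a6 := mul_le_mul_of_nonneg_right h1 (sqrt_nonneg (E ^ 100 * Y))
    linarith

theorem k0_mono {u' : ℝ} (K : K0 E S M Y c u F) (O : Mo E S M Y c u' G) (hu : 0 ≤ u)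
    (h1 : u' ≤ u) : Monotone fun k => F k + G k :=
  mono_of (fun k hk => by rw [K.lo k hk, O.lo k (by omega), add_zero])
    (by rw [O.lo _ le_rfl, add_zero]; exact K.f0) fun k hk => by
    rcases lt_or_ge k S.Jp with h2 | h2
    · have a0 := mul_nonneg B.th.1.le (B.dc hk h2)
      have a1 := K.flr k hk h2
      have a2 := O.flr k hk h2
      have e : ∀ x : ℝ, x / E ^ 4 * (c (k + 1) - c k) = x * (1 / E ^ 4 * (c (k + 1) - c k)) :=
        fun x => by ring
      rw [e] at a1 a2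
      nlinarith
    · rw [O.hi k h2, O.hi _ (by omega)]
      have := mul_le_mul_of_nonneg_left (B.ct_up hk) hu
      linarith [K.top k h2, K.top (k + 1) (by omega)]

theorem kc_lg {N : Md} (K : KC E S M Y c D u N) : Lg N m a := by
  obtain ⟨h0, h1, F, K, rfl⟩ := K
  have hm := B.k0_mono K B.mo_zero (le_min h0 B.D0) (le_min h0 B.D0)
  refine sh_lg B.lg h1 (by rw [K.lo 0 (Nat.zero_le _), ct_lo (Nat.zero_le _)]; ring) ?_
  simp only [add_zero] at hm
  exact hm.add (B.ct_mono.const_mul (sub_nonneg.2 (min_le_left _ _)))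

omit B in
theorem kc_lo {N : Md} (K : KC E S M Y c D u N) (h : u ≤ D) :
    ∃ F, K0 E S M Y c u F ∧ N = sh M u F := by
  obtain ⟨_, _, F, K, e⟩ := K
  rw [min_eq_left h] at K e
  exact ⟨F, K, by simpa using e⟩

theorem kc_of (K : K0 E S M Y c u F) (h0 : 0 ≤ u) (h : u ≤ D) : KC E S M Y c D u (sh M u F) :=
  ⟨h0, h.trans (B.D1.trans B.cl.b0), F, by rwa [min_eq_left h], by simp [min_eq_left h]⟩

theorem kc_zero : KC E S M Y c D 0 M := by
  have := B.kc_of (u := 0) (F := fun _ => 0) ⟨fun _ _ => rfl, le_rfl, by simp, fun _ _ _ => by simp,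
    fun _ _ _ => by simp, fun _ _ => by simp, by simp, by simp [Md.sq]⟩ le_rfl B.D0
  rwa [sh_zero] at this

theorem kc_rt {N : Md} (K : KC E S M Y c D u N) : Rt E S M Y c 1 (rul E S Y c m a N) := by
  have L := B.kc_lg K
  obtain ⟨_, _, F, _, rfl⟩ := K
  exact B.rt_rul L

theorem kc_step {N : Md} (h0 : 0 ≤ h) (h1 : u + h ≤ D) (K : KC E S M Y c D u N) :
    KC E S M Y c D (u + h) (dep N (rul E S Y c m a N) h) := by
  have R := B.rt_add B.rt_zero (B.kc_rt K) h0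
  obtain ⟨F, K', rfl⟩ := kc_lo K (by linarith)
  rw [zero_add] at R
  have := B.kc_of (B.k0_add K' B.mo_zero R K.1 le_rfl h0) (add_nonneg K.1 h0) h1
  rw [dep, sh_sh]
  simpa using this

omit B in
theorem kc_lin {N : Md} (h0 : 0 ≤ h) (h1 : D ≤ u) (h2 : u + h ≤ M.d 0)
    (K : KC E S M Y c D u N) : KC E S M Y c D (u + h) (dep N (M.ct S) h) := by
  obtain ⟨a0, _, F, K, rfl⟩ := K
  rw [min_eq_right h1] at K ⊢
  refine ⟨by linarith, h2, F, by rwa [min_eq_right (by linarith)], ?_⟩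
  rw [dep, sh_sh, min_eq_right (by linarith : D ≤ u + h)]
  congr 1
  funext k
  ring

theorem kc_eu {N : Md} (h0 : 0 ≤ h) (K : KC E S M Y c D u N) : ∀ i : ℕ, u + i * h ≤ D →
    KC E S M Y c D (u + i * h) (eu (rul E S Y c m a) h N i) ∧
      Rt E S M Y c (i * h) (acc (rul E S Y c m a) h N i)
  | 0, _ => by
      refine ⟨by simpa [eu] using K, ?_⟩
      have : acc (rul E S Y c m a) h N 0 = fun _ => 0 := funext fun _ => Finset.sum_range_zero _
      rw [this, Nat.cast_zero, zero_mul]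
      exact B.rt_zero
  | i + 1, hi => by
      push_cast at hi ⊢
      obtain ⟨a1, a2⟩ := kc_eu h0 K i (by linarith)
      have a3 := B.kc_step h0 (by linarith) a1
      have a4 := B.rt_add a2 (B.kc_rt a1) h0
      refine ⟨by rw [add_mul, one_mul, ← add_assoc]; exact a3, ?_⟩
      have : acc (rul E S Y c m a) h N (i + 1) = fun k => acc (rul E S Y c m a) h N i k +
          h * rul E S Y c m a (eu (rul E S Y c m a) h N i) k :=
        funext fun _ => Finset.sum_range_succ _ _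
      rw [this, add_mul, one_mul]
      exact a4

theorem kc_co {N : Md} {i : ℕ} (h0 : 0 ≤ h) (h1 : u ≤ i * h) (h2 : u + i * h ≤ D)
    (K : KC E S M Y c D u N) (O : Mo E S M Y c u G) : Lg (sh N 0 G) m a ∧
      KC E S M Y c D (u + i * h) (co (rul E S Y c m a) h N (sh N 0 G) i) := by
  have R := (B.kc_eu h0 K i h2).2
  have i0 : 0 ≤ i * h := by positivity
  obtain ⟨F, K', rfl⟩ := kc_lo K (by linarith)
  constructor
  · rw [sh_sh]
    exact sh_lg B.lg (by linarith [K.2.1])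
      (by rw [K'.lo 0 (Nat.zero_le _), O.lo 0 (Nat.zero_le _), add_zero])
      (B.k0_mono K' O K.1 le_rfl)
  · rw [co, sh_sh, sh_sh, zero_add]
    have := B.kc_of (B.k0_add K' O R K.1 K.1 h1) (add_nonneg K.1 i0) h2
    simpa only [add_assoc] using this

end Bs

theorem bs_of {l Ys : ℝ} (cl : Cl S M) (hi : S.In m a) (H : SH E S M l Ys Y)
    (ax : Ax E S M Y c) (hD : Dr E S D) (E3 : 3 ≤ E) (CE : S.C ≤ E) (A1 : 1 ≤ S.A)
    (cap : ∀ u F, Lg (sh M u F) m a → (sh M u F).Phi S m a ≤ 2 * (E ^ 100 * Y) →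
      M.sq S (fun k => (sh M u F).rb m a k - cp E S m a (sh M u F) k) ≤ E ^ 100 * Y) :
    Bs E S M m a Y c D := by
  have n1 : (1 : ℝ) ≤ S.n := by exact_mod_cast cl.n1
  have E0 : 0 < E := by linarith
  have E1 : 1 ≤ E := by linarith
  have Y0 : 0 < Y := (rpow_pos_of_pos cl.N0 _).trans_le H.Y0
  have y1 : E ^ 200 * Y ≤ 1 := H.Y1.trans (rpow_le_one_of_one_le_of_nonpos n1 (by norm_num))
  have y2 : 1 / (S.n : ℝ) ≤ Y := le_trans (by
    rw [one_div, ← rpow_neg_one]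
    exact rpow_le_rpow_of_exponent_le n1 (by norm_num)) H.Y0
  have en : E ^ 200 ≤ S.n := by
    have := (mul_le_mul_of_nonneg_left y2 (pow_pos E0 200).le).trans y1
    rwa [mul_one_div, div_le_one cl.N0] at this
  have nu0 : 0 < nu S := rpow_pos_of_pos cl.N0 _
  have nu3 : nu S ^ 3 = 1 / S.n := by
    rw [nu, ← rpow_natCast, ← rpow_mul cl.N0.le, one_div, ← rpow_neg_one]; norm_num
  refine ⟨cl, Md67.lg_cl cl cl.n1 hi, ax, by linarith, CE, ?_, H.ckT, H.ck, Y0.le,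
    le_trans (by positivity) hD.1, ?_, cap⟩
  · have l4 : l ≤ 1 / E ^ 4 := by
      refine le_of_pow_le_pow_left₀ three_ne_zero (by positivity) (H.l3.trans ?_)
      rw [div_pow, one_pow, le_div_iff₀ (by positivity), mul_comm]
      refine le_trans (mul_le_mul_of_nonneg_right ?_ Y0.le) y1
      rw [← pow_mul]
      exact pow_le_pow_right₀ E1 (by norm_num)
    have v1 : S.v * E ^ 200 ≤ E := by
      refine le_trans (mul_le_mul_of_nonneg_left (en.trans ?_) cl.v0.le) (cl.v2.trans CE)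
      exact le_self_pow₀ n1 (by omega)
    have v2 : S.v * E ^ 6 ≤ 1 := by
      have : E ^ 6 * E ≤ E ^ 200 := by
        rw [← pow_succ]; exact pow_le_pow_right₀ E1 (by norm_num)
      have h2 := mul_le_mul_of_nonneg_left this cl.v0.le
      exact le_of_mul_le_mul_right (by linarith) E0
    have z := (cl.z_s (cl.i1.trans (Nat.le_succ _)) cl.i2).2
    have s := (cl.ss S.jl cl.jl_lt).2
    have l5 : l * E ^ 4 ≤ 1 := by rwa [le_div_iff₀ (by positivity)] at l4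
    have C0 := cl.C0
    have v0 := cl.v0
    have s2 : M.s (S.jl + 1) + 2 * S.v ≤ 1 / E ^ 4 + 2 * E * S.v := by nlinarith [H.jl]
    have s3 : 2 * E * S.v ≤ 1 / E ^ 4 := by
      rw [le_div_iff₀ (by positivity)]
      have : 2 * E * S.v * E ^ 4 * E = 2 * (S.v * E ^ 6) := by ring
      exact le_of_mul_le_mul_right (by linarith) E0
    refine z.trans ?_
    rw [le_div_iff₀ (by positivity)]
    have s4 : S.C * (M.s (S.jl + 1) + 2 * S.v) * (2 * S.C) ≤ E * (2 * (1 / E ^ 4)) * (2 * E) := by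
      have := cl.s_nn (S.jl + 1)
      gcongr
      linarith
    refine s4.trans ?_
    rw [show E * (2 * (1 / E ^ 4)) * (2 * E) = 4 / E ^ 2 by field_simp; ring,
      div_le_one (by positivity)]
    nlinarith
  · have d0 : 0 ≤ D := le_trans (by positivity) hD.1
    exact ((le_mul_of_one_le_left d0 (one_le_pow₀ E1)).trans hD.2).trans
      (rpow_le_one_of_one_le_of_nonpos n1 (by norm_num))

end Inv16

open Inv16

/-- the facts `Bs` hold under the prefix -/
theorem bsS (H : CapS) : SR fun E _ S M m a Y c D => Bs E S M m a Y c D := by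
  unfold CapS SR at H
  unfold SR
  refine CL.glue H fun C => ⟨2, fun A hA ε _ hε _ => ⟨ε, ε, C, hε, hε, ?_⟩⟩
  intro S M m a G cl hi H l Ys Y c D h1 hv h2 h3
  have e1 := G.Λ1
  refine bs_of cl hi h1 h2 h3 (by linarith [G.num_le]) (G.hC ▸ G.K_le) (by rw [G.hA]; omega)
    fun u F L hP => (H l Ys Y c D h1 hv h2 h3 u F L hP).trans ?_
  refine mul_le_mul_of_nonneg_right ?_ ((rpow_pos_of_pos cl.N0 _).le.trans h1.Y0)
  rw [← pow_succ']
  exact pow_le_pow_right₀ e1 (by norm_num)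

/-- **`InvS` from the error of the cap** -/
theorem invS_of (H : CapS) : InvS := by
  have H := bsS H
  unfold SR at H
  unfold InvS SR
  refine CL.mono H ?_
  intro _ _ _ _ _ _ _ _ _ _ B l Ys Y c D h1 hv h2 h3
  have B := B l Ys Y c D h1 hv h2 h3
  exact ⟨fun _ _ L => B.dp_rul L, fun _ _ K => B.kc_lg K, B.kc_zero,
    fun _ _ _ a b K => B.kc_step a b K, fun _ _ _ a b e K => ⟨B.ct_dp, Bs.kc_lin a b e K⟩,
    fun _ _ _ _ _ a b e K O => B.kc_co (h := _) a b e K O⟩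

end Crest.Agent.T156.Alt.Sr

end
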