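import Crest.Agent.T156.Ht_31
import Crest.Agent.T156.SrMem_29

/-!
# Row 156, SR (helper31): the static linear step
-/

set_option autoImplicit false

noncomputable section

namespace Crest.Agent.T156.Alt.Sr

open Real Finset Filter
open Crest.Agent.T156.Alt.Gu71 (sh sh_G sh_e sh_lg sh_dz Fl)
open Crest.Agent.T156.Alt.Md67 Crest.Agent.T156.Alt.Ht31

namespace L31

variable {E T Y a u : ℝ} {S : Sc} {M : Md} {m : ℕ} {F : ℕ → ℝ}

theorem vp_le (G : Lg M m a) {j : ℕ} (hj : j ≤ M.N) : Vp M m a 2 ≤ Fl M m a j := by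
  have h1 : Vp M m a 2 ≤ ∑ k ∈ range (M.N + 1),
      M.dz m a k * M.E2 m a (fun r => (r - M.rb m a k) ^ 2) k :=
    sum_le_sum_of_subset_of_nonneg (range_mono (Nat.le_succ _)) fun k _ _ =>
      mul_nonneg (G.dz_nonneg k) (E2_nonneg (fun _ _ => sq_nonneg _) k)
  refine h1.trans ?_
  rw [Fl, range_eq_Ico, ← sum_Ico_consecutive _ (Nat.zero_le (j + 1)) (Nat.add_le_add_right hj 1),
    ← range_eq_Ico, Ico_add_one_add_one_eq_Ioc]
  refine add_le_add (sum_le_sum fun k _ => mul_le_mul_of_nonneg_left ?_ (G.dz_nonneg k)) le_rfl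
  rw [E2_sq_expand]
  nlinarith [sq_nonneg (M.rb m a k)]

theorem sq_eq (G : Lg M m a) (f : ℕ → ℝ) :
    ∑ k ∈ Ioc S.jl S.Jp, M.dz m a k * f k ^ 2 = M.sq S f :=
  sum_congr rfl fun k hk => by
    rw [dz_up G.toLeg ((Nat.zero_le _).trans_lt (mem_Ioc.1 hk).1)]; rfl

/-- what the linear step uses -/
structure Hy (E T : ℝ) (S : Sc) (M : Md) (m : ℕ) (a Y : ℝ) : Prop where
  cl : Cl S M
  lg : Lg M m a
  a0 : 0 < a
  jj : S.j0 = S.jl
  noW : M.d 0 = M.b
  var : VarH E S M m a Y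
  CT : S.C ≤ T
  CE : S.C ≤ E
  EY : E ^ 200 * Y ≤ 1
  Y0 : 0 ≤ Y
  G : M.sq S M.G ≤ 4 * E * Y
  s3 : M.s S.jl ^ 3 ≤ Y
  z : M.z S.jl ≤ E * M.s S.jl
  m1 : 1 / (m : ℝ) ≤ Y
  HJ : M.H S.Jp ≤ T

theorem small {E Y k : ℝ} {i j : ℕ} (E1 : 1 ≤ E) (hk : k ≤ E) (Y0 : 0 ≤ Y) (EY : E ^ 200 * Y ≤ 1)
    (h : i + j + 1 ≤ 200) : k * (E ^ i * Y) ≤ 1 / E ^ j := by
  have E0 : 0 < E := by linarith
  rw [le_div_iff₀ (by positivity)]
  calc k * (E ^ i * Y) * E ^ j ≤ E * (E ^ i * Y) * E ^ j := by gcongr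
    _ = E ^ (i + j + 1) * Y := by ring
    _ ≤ E ^ 200 * Y := by gcongr
    _ ≤ 1 := EY

theorem root {x E : ℝ} (E0 : 0 < E) (h : x ≤ 1 / E ^ 8) : √x ≤ 1 / E ^ 4 :=
  Real.sqrt_le_iff.2 ⟨by positivity, h.trans_eq (by ring)⟩

/-- **the static step** -/
theorem core (T : ℝ) : ∃ K : ℝ, ∀ (E Y a : ℝ) (S : Sc) (M : Md) (m : ℕ), Hy E T S M m a Y → K ≤ E →
    ∀ (u : ℝ) (F : ℕ → ℝ), 1 / E ≤ u → 1 / 4 ≤ M.d 0 - u → F 0 = 0 → Monotone F → F S.Jp ≤ T →
    M.sq S (fun k => F k - u * M.q k) ≤ E * Y →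
    ((sh M u F).Phi S m a ≤ 2 * (E ^ 100 * Y) ∨ M.d 0 - u ≤ 1 / 2) →
    (sh M u F).Phi S m a ≤ 4 * E ^ 33 * Y := by
  obtain ⟨C1, p1, h1⟩ := ht
  obtain ⟨C2, p2, h2⟩ := lin (2 * T)
  refine ⟨1024 * (C1 + C2) + 20, fun E Y a S M m H hK u F u1 u2 F0 Fm FT res hP => ?_⟩
  have E1 : 1 ≤ E := by linarith
  have E0 : 0 < E := by linarith
  have u0 : 0 ≤ u := le_trans (by positivity) u1
  have cl := H.cl
  have Y0 := H.Y0
  have C0 := cl.C0
  set N := sh M u F with hN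
  have G : Lg N m a := sh_lg H.lg (by linarith) F0 Fm
  have R : Rg N S.jl S.Jp := H.jj ▸ (rg_cl cl).congr rfl rfl rfl rfl
  have eP : Ph N m a S.jl S.Jp = N.Phi S m a := sq_eq G _
  have d0 : N.d 0 = M.d 0 - u := rfl
  have b0 : N.b = M.d 0 - u := by rw [H.noW]; rfl
  have g2 : G2 N m a S.jl S.Jp ≤ 10 * (E ^ 1 * Y) := by
    have : G2 N m a S.jl S.Jp ≤ 2 * M.sq S M.G + 2 * M.sq S (fun k => F k - u * M.q k) := by
      rw [G2, sq_eq G]
      simp only [Md.sq, mul_sum, ← sum_add_distrib]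
      refine sum_le_sum fun k _ => ?_
      rw [hN, sh_G]
      have x : (M.G k + (F k - u * M.q k)) ^ 2 ≤ 2 * M.G k ^ 2 + 2 * (F k - u * M.q k) ^ 2 := by
        nlinarith [sq_nonneg (M.G k - (F k - u * M.q k))]
      have := mul_le_mul_of_nonneg_left x (M29.dx_nn cl k)
      change M.dx k * _ ≤ _
      linarith
    linarith [H.G]
  have s0 := cl.s_nn S.jl
  have l1 : lw N S.jl ≤ E * Y := by
    have := mul_le_mul_of_nonneg_right H.z (sq_nonneg (M.s S.jl))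
    have := mul_le_mul_of_nonneg_left H.s3 E0.le
    change M.z S.jl * M.s S.jl ^ 2 ≤ _
    linarith
  have m0 : (1 : ℝ) ≤ m := by exact_mod_cast G.m0
  have m2 : 1 / (m : ℝ) ^ 2 ≤ E * Y :=
    (one_div_le_one_div_of_le (by linarith) (by nlinarith)).trans
      (H.m1.trans (le_mul_of_one_le_left Y0 E1))
  have v := (vp_le G (R.i0.trans R.i4.le)).trans (H.var (E ^ 8) u F (one_le_pow₀ E1)
      (pow_le_pow_right₀ E1 (by norm_num)) u0 (by linarith) F0 Fm)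
  have P0 : 0 ≤ N.Phi S m a :=
    eP ▸ sum_nonneg fun k _ => mul_nonneg (G.dz_nonneg k) (sq_nonneg _)
  have r : Rh N m a S.jl S.Jp 2 ≤ 2 * E ^ 28 * Y + N.Phi S m a / E ^ 7 := by
    have e : E * N.Phi S m a / E ^ 8 = N.Phi S m a / E ^ 7 := by field_simp
    have : 12 * E * Y ≤ E ^ 28 * Y := mul_le_mul_of_nonneg_right (by
      calc 12 * E ≤ E * E := by gcongr; linarith
        _ = E ^ 2 := by ring
        _ ≤ _ := pow_le_pow_right₀ E1 (by norm_num)) Y0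
    rw [Rh]
    rw [← hN, e] at v
    linarith
  have r0 : 0 ≤ 2 * E ^ 28 * Y + N.Phi S m a / E ^ 7 := by positivity
  have fin : ∀ x, 0 ≤ x → x ≤ E ^ 5 → N.Phi S m a ≤ x * Rh N m a S.jl S.Jp 2 →
      N.Phi S m a ≤ 4 * E ^ 33 * Y := fun x x0 x1 h => by
    have y := h.trans ((mul_le_mul_of_nonneg_left r x0).trans (mul_le_mul_of_nonneg_right x1 r0))
    have e : E ^ 5 * (2 * E ^ 28 * Y + N.Phi S m a / E ^ 7) =
        2 * E ^ 33 * Y + N.Phi S m a / E ^ 2 := by field_simp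
    have : N.Phi S m a / E ^ 2 ≤ N.Phi S m a / 2 :=
      div_le_div_of_nonneg_left P0 two_pos (by nlinarith)
    linarith
  have E5 : E ≤ E ^ 5 := le_self_pow₀ E1 (by norm_num)
  rcases hP with hP | hP
  · have bC := cl.b1
    have b1 : 0 < M.b := by linarith [H.noW]
    have q := h2 N m S.jl S.Jp a (1 / 4) (1 / (2 * E ^ 2)) (2 * (E ^ 100 * Y)) G H.a0 R
      (by norm_num) u2 (by norm_num) (by positivity)
      ((div_le_one (by positivity)).2 (by nlinarith)) (by linarith [H.CT, H.noW])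
      (by change M.s _ ≤ _; linarith [cl.sT, H.CT]) (by change M.H _ + F _ ≤ _; linarith [H.HJ])
      (fun t ht => ?_) (eP ▸ hP) ?_ 2 (by simp)
    · refine fin _ (by positivity) ?_ (eP ▸ q)
      rw [div_le_iff₀ (by positivity)]
      have : E ^ 5 * ((1 / (2 * E ^ 2)) ^ 2 * (1 / 4) ^ 4) = E / 1024 := by field_simp; norm_num
      linarith
    · have e0 : 0 ≤ M.e t := le_trans (div_pos (cl.ms_pos ht.1) C0).le (cl.crit t ht).1
      have e1 : M.b * N.e t = (M.b - u) * M.e t + u := by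
        rw [hN, sh_e]; unfold Md.e; ring
      have e2 : M.b * (2 * (1 / (2 * E ^ 2))) ≤ 1 / E := by
        calc _ ≤ E * (2 * (1 / (2 * E ^ 2))) := by gcongr; linarith [H.CE]
          _ = _ := by field_simp
      have e3 : 0 ≤ (M.b - u) * M.e t := mul_nonneg (by linarith [H.noW]) e0
      exact le_of_mul_le_mul_left (by linarith) b1
    · have a1 := root E0 (small (k := 2) (i := 100) (j := 8) E1 (by linarith) Y0 H.EY (by norm_num))
      have a2 := root E0 (g2.trans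
        (small (i := 1) (j := 8) E1 (by linarith) Y0 H.EY (by norm_num)))
      have a3 : M.s S.jl ≤ 1 / E ^ 5 := le_of_pow_le_pow_left₀ three_ne_zero (by positivity)
        (H.s3.trans (by
          have := small (k := 1) (i := 0) (j := 15) E1 E1 Y0 H.EY (by norm_num)
          rw [div_pow, ← pow_mul]; simpa using this))
      have a4 : N.z S.jl ≤ 1 / E ^ 4 :=
        H.z.trans ((mul_le_mul_of_nonneg_left a3 E0.le).trans_eq (by field_simp))
      have a5 : 1 / (m : ℝ) ≤ 1 / E ^ 4 := H.m1.trans (by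
        simpa using small (k := 1) (i := 0) (j := 4) E1 E1 Y0 H.EY (by norm_num))
      calc _ ≤ C2 * (4 * (1 / E ^ 4)) := mul_le_mul_of_nonneg_left (by linarith) p2
        _ ≤ E ^ 2 / 8 * (4 * (1 / E ^ 4)) := by gcongr; nlinarith
        _ = _ := by field_simp; norm_num
  · have q := h1 N m S.jl S.Jp a (1 / 4) (1 / 2) G H.a0 R (by norm_num) u2 (by norm_num)
      (by linarith) 2 (by simp)
    refine fin _ (by positivity) ?_ (eP ▸ q)
    rw [div_le_iff₀ (by positivity)]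
    linarith

end L31

open L31 M29

namespace M29.Cx

variable {E : ℝ} {S : Sc} {M : Md} {l Ys Y : ℝ} (X : Cx E S M l Ys Y)
include X

/-- the marks at the end of the plateau are bounded -/
theorem HJ_le (h : E * S.θ ≤ 1) : M.H S.Jp ≤ 2 * S.C ^ 2 := by
  have cl := X.cl
  have C0 := cl.C0
  have v0 := cl.v0
  have t0 := cl.θ0
  have a : ∀ k, S.jl + 1 ≤ k → k ≤ S.Jp → M.H k - M.H (S.jl + 1) ≤
      S.C ^ 2 * S.θ * (M.ck k - M.ck (S.jl + 1)) := fun k hk => by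
    induction k, hk using Nat.le_induction with
    | base => simp
    | succ k hk ih =>
      intro h'
      have b1 := X.sh.cei.up k hk h'
      have b2 := (cl.ckm k (by have := cl.i1; omega) h').1
      rw [X.sh.F1, mul_one] at b1
      rw [div_le_iff₀ C0] at b2
      have b3 : S.C * S.ms (M.s k) * S.v ≤ S.C * S.θ * ((M.ck (k + 1) - M.ck k) * S.C) := by
        have := cl.ms1 (M.s k)
        gcongr
      linarith [ih (by omega)]
  have b := a _ X.jp1 le_rfl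
  have c := X.sh.cei.bot
  rw [X.sh.F1, mul_one] at c
  have θ1 : S.θ ≤ 1 := by nlinarith [X.E1]
  have d : S.C * S.ms (M.s S.jl) * M.s S.jl ≤ S.C * 1 * S.C := by
    have := (cl.ms1 (M.s S.jl)).trans θ1
    have := cl.s_nn S.jl
    have := cl.s_le_C (k := S.jl) (by have := X.jp1; omega)
    gcongr
  have e : S.C ^ 2 * S.θ * (M.ck S.Jp - M.ck (S.jl + 1)) ≤ S.C ^ 2 * S.θ * E := by
    have := X.ck1 ▸ q_nonneg (M := M) (S.jl + 1)
    gcongr
    linarith [X.sh.ckT]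
  nlinarith [mul_le_mul_of_nonneg_left h (sq_nonneg S.C)]

theorem hy {m : ℕ} {a : ℝ} (h : E * S.θ ≤ 1) (hi : S.In m a) (hv : VarH E S M m a Y) :
    Hy E (2 * S.C ^ 2 + S.C + 4) S M m a Y := by
  have cl := X.cl
  have C0 := cl.C0
  have n0 := cl.N0
  refine ⟨cl, lg_cl cl cl.n1 hi, lt_of_lt_of_le (by positivity) hi.a1, X.sh.jj, X.sh.noW, hv,
    by nlinarith, by linarith [X.CE1], X.EY, X.Y0.le, X.sq_G.trans ?_,
    (pow_le_pow_left₀ (cl.s_nn _) X.sh.jl 3).trans X.sh.l3, ?_, ?_, by linarith [X.HJ_le h]⟩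
  · have a1 : S.θ ≤ 1 := by nlinarith [X.E1, cl.θ0]
    have a2 : nu S ≤ 1 := (le_mul_of_one_le_left X.nu0.le (one_le_pow₀ X.E1)).trans X.nuE
    have a3 : (S.θ + nu S) ^ 2 ≤ 4 := by nlinarith [cl.θ0, X.nu0]
    nlinarith [mul_le_mul_of_nonneg_left a3 (mul_pos X.E0 X.Y0).le]
  · have a1 := (cl.z_s cl.i1 cl.jl_lt).2
    have a2 : S.v ≤ M.s S.jl := (le_mul_of_one_le_left cl.v0.le X.E1).trans X.Ev_le
    nlinarith [X.CE1, cl.s_nn S.jl]
  · refine le_trans ?_ X.sh.Y0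
    have : (S.n : ℝ) ≤ m := by exact_mod_cast hi.m1
    refine (one_div_le_one_div_of_le n0 this).trans ?_
    rw [one_div, ← rpow_neg_one]
    exact rpow_le_rpow_of_exponent_le X.N1 (by norm_num)

end M29.Cx

/-- **the static linear step** -/
theorem linA : SR fun E _ S M m a Y _ _ => E * S.θ ≤ 1 → ∀ (u : ℝ) (F : ℕ → ℝ), 1 / E ≤ u →
    1 / 4 ≤ M.d 0 - u → F 0 = 0 → Monotone F → F S.Jp ≤ 4 + S.C →
    M.sq S (fun k => F k - u * M.q k) ≤ E * Y →
    ((sh M u F).Phi S m a ≤ 2 * (E ^ 100 * Y) ∨ M.d 0 - u ≤ 1 / 2) →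
    (sh M u F).Phi S m a ≤ E ^ 99 * Y := by
  choose K hK using L31.core
  refine intro (fun C => K (2 * C ^ 2 + C + 4))
    fun E _ S M m a l Ys Y _ _ X h1 _ _ hi hv _ _ h u F a1 a2 a3 a4 a5 a6 a7 => ?_
  refine (hK _ E Y a S M m (X.hy h hi hv) h1 u F a1 a2 a3 a4 (by nlinarith) a6 a7).trans
    (mul_le_mul_of_nonneg_right ?_ X.Y0.le)
  calc 4 * E ^ 33 ≤ E * E ^ 33 := by have := X.E0; gcongr; linarith [X.E3]
    _ = E ^ 34 := by ring
    _ ≤ _ := X.Ep (by norm_num)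

end Crest.Agent.T156.Alt.Sr

end
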