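import Mathlib

/-!
# Row 156 (helper25): the Lipschitz minorant of a monotone profile

`lm f c` is the largest sequence below `f` with increments `≤ c k`.  It is used as the deposit of
the soft recursion, so that the marks keep a ceiling.
-/

set_option autoImplicit false

noncomputable section

namespace Crest.Agent.T156.Sr25

open Finset

/-- the minorant of `f` with increments at most `c k` -/
def lm (f c : ℕ → ℝ) : ℕ → ℝ
  | 0 => f 0
  | k + 1 => min (f (k + 1)) (lm f c k + c k)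

/-- the defect -/
def df (f c : ℕ → ℝ) (k : ℕ) : ℝ := f k - lm f c k

variable {f g c q : ℕ → ℝ}

theorem lm_zero : lm f c 0 = f 0 := rfl

theorem lm_succ (k : ℕ) : lm f c (k + 1) = min (f (k + 1)) (lm f c k + c k) := rfl

theorem lm_le (k : ℕ) : lm f c k ≤ f k := by
  cases k with
  | zero => exact le_rfl
  | succ k => exact min_le_left _ _

theorem df_nonneg (k : ℕ) : 0 ≤ df f c k := sub_nonneg.2 (lm_le k)

theorem df_zero : df f c 0 = 0 := sub_self _

/-- **ceiling** -/
theorem lm_step (k : ℕ) : lm f c (k + 1) - lm f c k ≤ c k := by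
  have := min_le_right (f (k + 1)) (lm f c k + c k)
  rw [lm_succ]; linarith

theorem lm_le_succ {k : ℕ} (hf : f k ≤ f (k + 1)) (hc : 0 ≤ c k) : lm f c k ≤ lm f c (k + 1) :=
  le_min ((lm_le k).trans hf) (by linarith)

theorem lm_mono (hf : Monotone f) (hc : ∀ k, 0 ≤ c k) : Monotone (lm f c) :=
  monotone_nat_of_le_succ fun k => lm_le_succ (hf k.le_succ) (hc k)

/-- monotone up to `N` -/
theorem lm_mono_le {N : ℕ} (hf : ∀ k < N, f k ≤ f (k + 1)) (hc : ∀ k < N, 0 ≤ c k) {i j : ℕ}
    (hij : i ≤ j) (hj : j ≤ N) : lm f c i ≤ lm f c j := by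
  induction j, hij using Nat.le_induction with
  | base => exact le_rfl
  | succ j _ ih => exact (ih (by omega)).trans (lm_le_succ (hf j (by omega)) (hc j (by omega)))

theorem lm_sub_le {i j : ℕ} (hij : i ≤ j) : lm f c j - lm f c i ≤ ∑ k ∈ Ico i j, c k := by
  induction j, hij using Nat.le_induction with
  | base => simp
  | succ j h ih => rw [sum_Ico_succ_top h]; linarith [lm_step (f := f) (c := c) j]

/-- where the increments of `f` are allowed from the start, nothing is cut -/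
theorem lm_eq {j : ℕ} (h : ∀ k < j, f (k + 1) - f k ≤ c k) : ∀ k ≤ j, lm f c k = f k := by
  intro k
  induction k with
  | zero => exact fun _ => rfl
  | succ k ih =>
    intro hk
    rw [lm_succ, ih (by omega)]
    exact min_eq_left (by linarith [h k (by omega)])

theorem lm_le_add {ε : ℝ} {N : ℕ} (h : ∀ k ≤ N, f k ≤ g k + ε) :
    ∀ k ≤ N, lm f c k ≤ lm g c k + ε := by
  intro k
  induction k with
  | zero => exact h 0
  | succ k ih =>
    intro hk
    have h1 := ih (by omega)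
    have h2 := h (k + 1) hk
    rw [lm_succ, lm_succ, ← min_add_add_right]
    exact min_le_min h2 (by linarith)

/-- **stability** in the sup norm -/
theorem lm_stab {ε : ℝ} {N : ℕ} (h : ∀ k ≤ N, |f k - g k| ≤ ε) :
    ∀ k ≤ N, |lm f c k - lm g c k| ≤ ε := fun k hk => by
  have h1 := lm_le_add (c := c) (fun k hk => by linarith [(abs_le.1 (h k hk)).2] :
    ∀ k ≤ N, f k ≤ g k + ε) k hk
  have h2 := lm_le_add (c := c) (fun k hk => by linarith [(abs_le.1 (h k hk)).1] :
    ∀ k ≤ N, g k ≤ f k + ε) k hk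
  exact abs_le.2 ⟨by linarith, by linarith⟩

/-- the anchor of `k` -/
theorem exists_anchor (k : ℕ) : ∃ j ≤ k, lm f c k = f j + ∑ i ∈ Ico j k, c i := by
  induction k with
  | zero => exact ⟨0, le_rfl, by simp [lm_zero]⟩
  | succ k ih =>
    obtain ⟨j, hj, e⟩ := ih
    rcases le_total (f (k + 1)) (lm f c k + c k) with h | h
    · exact ⟨k + 1, le_rfl, by simp [lm_succ, min_eq_left h]⟩
    · exact ⟨j, by omega, by rw [lm_succ, min_eq_right h, e, sum_Ico_succ_top hj]; ring⟩

theorem df_le {k : ℕ} {B : ℝ} (h : ∀ j ≤ k, f k - f j - ∑ i ∈ Ico j k, c i ≤ B) :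
    df f c k ≤ B := by
  obtain ⟨j, hj, e⟩ := exists_anchor (f := f) (c := c) k
  have := h j hj
  rw [df, e]; linarith

/-- a tolerance `ψ` around a clock `q`; `q - ψ` rises by at most `c` -/
theorem df_le_tol {ψ : ℕ → ℝ} {k : ℕ} (h : ∀ j ≤ k, |f j - q j| ≤ ψ j)
    (hs : ∀ i < k, q (i + 1) - q i + (ψ i - ψ (i + 1)) ≤ c i) : df f c k ≤ 2 * ψ k := by
  refine df_le fun j hj => ?_
  have e : ∑ i ∈ Ico j k, (q (i + 1) - ψ (i + 1) - (q i - ψ i)) = q k - ψ k - (q j - ψ j) :=
    sum_Ico_sub (fun i => q i - ψ i) hj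
  have l : ∑ i ∈ Ico j k, (q (i + 1) - ψ (i + 1) - (q i - ψ i)) ≤ ∑ i ∈ Ico j k, c i :=
    sum_le_sum fun i hi => by linarith [hs i (mem_Ico.1 hi).2]
  linarith [(abs_le.1 (h j hj)).1, (abs_le.1 (h k le_rfl)).2]

theorem df_succ_le {k : ℕ} (hf : f k ≤ f (k + 1)) (hc : 0 ≤ c k) :
    df f c (k + 1) ≤ df f c k + (f (k + 1) - f k) := by
  have := lm_le_succ hf hc
  simp only [df]; linarith

/-- **local cubic bound** on any window of indices -/
theorem win_le {a b : ℕ} (hab : a ≤ b) (hf : ∀ k, a ≤ k → k < b → f k ≤ f (k + 1))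
    (hc : ∀ k, a ≤ k → k < b → 0 ≤ c k) :
    ∑ i ∈ Ico a b, c i * df f c (i + 1) ^ 2 ≤ (df f c a + (f b - f a)) ^ 3 := by
  have key : f a ≤ f b ∧ df f c b ≤ df f c a + (f b - f a) ∧
      ∑ i ∈ Ico a b, c i * df f c (i + 1) ^ 2 ≤
        (df f c a + (f b - f a) - df f c b) * (df f c a + (f b - f a)) ^ 2 := by
    induction b, hab using Nat.le_induction with
    | base => simp
    | succ b h ih =>
      obtain ⟨h0, h1, h2⟩ := ih (fun k x y => hf k x (by omega)) fun k x y => hc k x (by omega)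
      have f1 := hf b h b.lt_succ_self
      have c1 := hc b h b.lt_succ_self
      have d1 := df_succ_le f1 c1
      have d0 := df_nonneg (f := f) (c := c) (b + 1)
      have da := df_nonneg (f := f) (c := c) a
      have db := df_nonneg (f := f) (c := c) b
      refine ⟨h0.trans f1, by linarith, ?_⟩
      rw [sum_Ico_succ_top h]
      set R := df f c a + (f b - f a) with hR
      set R' := df f c a + (f (b + 1) - f a) with hR'
      have hRR : R ≤ R' := by linarith
      have R0 : 0 ≤ R := by linarith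
      have s1 : (R - df f c b) * R ^ 2 ≤ (R - df f c b) * R' ^ 2 :=
        mul_le_mul_of_nonneg_left (pow_le_pow_left₀ R0 hRR 2) (by linarith)
      have s2 : c b * df f c (b + 1) ^ 2 ≤
          (df f c b + (f (b + 1) - f b) - df f c (b + 1)) * R' ^ 2 := by
        rcases le_total (f (b + 1)) (lm f c b + c b) with h' | h'
        · have z : df f c (b + 1) = 0 := by rw [df, lm_succ, min_eq_left h', sub_self]
          rw [z]
          have : 0 ≤ (df f c b + (f (b + 1) - f b) - 0) * R' ^ 2 :=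
            mul_nonneg (by linarith) (sq_nonneg _)
          simpa using this
        · have z : df f c b + (f (b + 1) - f b) - df f c (b + 1) = c b := by
            simp only [df, lm_succ, min_eq_right h']; ring
          rw [z]
          exact mul_le_mul_of_nonneg_left (pow_le_pow_left₀ d0 (by linarith) 2) c1
      have e : (R' - df f c (b + 1)) * R' ^ 2 = (R - df f c b) * R' ^ 2 +
          (df f c b + (f (b + 1) - f b) - df f c (b + 1)) * R' ^ 2 := by
        rw [hR, hR']; ring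
      linarith
  obtain ⟨h0, -, h2⟩ := key
  have da := df_nonneg (f := f) (c := c) a
  have db := df_nonneg (f := f) (c := c) b
  refine h2.trans ?_
  have : 0 ≤ df f c b * (df f c a + (f b - f a)) ^ 2 := by positivity
  nlinarith

theorem cube_sub {x y : ℝ} (h : y ≤ x) : (x - y) ^ 3 ≤ 4 * (x ^ 3 - y ^ 3) := by
  nlinarith [mul_nonneg (sub_nonneg.2 h) (sq_nonneg (x + y))]

theorem cube_dec {x y e : ℝ} (he : 0 ≤ e) (h : x - e ≤ y) :
    x ^ 3 - y ^ 3 ≤ 2 * e * (x ^ 2 + y ^ 2) := by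
  rcases le_total x y with h' | h'
  · have h3 := cube_sub h'
    have h4 : 0 ≤ (y - x) ^ 3 := pow_nonneg (sub_nonneg.2 h') 3
    have : 0 ≤ 2 * e * (x ^ 2 + y ^ 2) := by positivity
    linarith
  · have e1 : x ^ 3 - y ^ 3 = (x - y) * (x ^ 2 + x * y + y ^ 2) := by ring
    have e2 : x ^ 2 + x * y + y ^ 2 ≤ 2 * (x ^ 2 + y ^ 2) := by nlinarith [sq_nonneg (x - y)]
    have e3 : 0 ≤ x ^ 2 + x * y + y ^ 2 := by nlinarith [sq_nonneg (x + y)]
    rw [e1]
    calc (x - y) * (x ^ 2 + x * y + y ^ 2) ≤ e * (x ^ 2 + x * y + y ^ 2) :=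
          mul_le_mul_of_nonneg_right (by linarith) e3
      _ ≤ e * (2 * (x ^ 2 + y ^ 2)) := mul_le_mul_of_nonneg_left e2 he
      _ = _ := by ring

/-- the potential: cube of `f - q` plus a majorant of its decrements -/
def pot (f q : ℕ → ℝ) (k : ℕ) : ℝ := (f k - q k) ^ 3 +
  ∑ i ∈ range k, 2 * (q (i + 1) - q i) * ((f i - q i) ^ 2 + (f (i + 1) - q (i + 1)) ^ 2)

theorem pot_sub {j k : ℕ} (hjk : j ≤ k) (hq : ∀ i < k, q i ≤ q (i + 1)) :
    (f k - q k) ^ 3 - (f j - q j) ^ 3 ≤ pot f q k - pot f q j := by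
  have : ∑ i ∈ range j, 2 * (q (i + 1) - q i) * ((f i - q i) ^ 2 + (f (i + 1) - q (i + 1)) ^ 2) ≤
      ∑ i ∈ range k, 2 * (q (i + 1) - q i) * ((f i - q i) ^ 2 + (f (i + 1) - q (i + 1)) ^ 2) :=
    sum_le_sum_of_subset_of_nonneg (range_mono hjk) fun i hi _ =>
      mul_nonneg (by linarith [hq i (mem_range.1 hi)]) (by positivity)
  simp only [pot]; linarith

theorem pot_succ {k : ℕ} (hf : f k ≤ f (k + 1)) (hq : q k ≤ q (k + 1)) :
    pot f q k ≤ pot f q (k + 1) := by
  have := cube_dec (x := f k - q k) (y := f (k + 1) - q (k + 1)) (sub_nonneg.2 hq) (by linarith)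
  simp only [pot, sum_range_succ]; linarith

/-- **the defect is paid by `∑ dq (f - q)²`** -/
theorem base_le {N : ℕ} (hf : ∀ k < N, f k ≤ f (k + 1)) (hq : ∀ k < N, q k ≤ q (k + 1))
    (hc : ∀ k < N, 3 * (q (k + 1) - q k) ≤ c k) :
    ∑ i ∈ range N, c i * df f c (i + 1) ^ 2 ≤ 14 * (pot f q N - pot f q 0) := by
  have key : ∀ k ≤ N, ∑ i ∈ range k, c i * df f c (i + 1) ^ 2 ≤ 14 * (pot f q k - pot f q 0) := by
    intro k
    induction k using Nat.strong_induction_on with
    | _ k ih =>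
      intro hk
      obtain ⟨j, hj, e⟩ := exists_anchor (f := f) (c := c) k
      have c0 : ∀ i < N, 0 ≤ c i := fun i hi => by linarith [hc i hi, hq i hi]
      rcases hj.eq_or_lt with rfl | hlt
      · cases j with
        | zero => simp
        | succ j =>
          have z : df f c (j + 1) = 0 := by rw [df, e]; simp
          rw [sum_range_succ, z]
          have := ih j j.lt_succ_self (by omega)
          have := pot_succ (hf j (by omega)) (hq j (by omega))
          linarith
      · have dj : df f c j = 0 := by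
          have h1 := lm_sub_le (f := f) (c := c) hj
          have h2 := df_nonneg (f := f) (c := c) j
          simp only [df] at h2 ⊢
          linarith
        have w := win_le (f := f) (c := c) hj (fun i _ y => hf i (by omega))
          fun i _ y => c0 i (by omega)
        rw [dj, zero_add] at w
        have s1 : ∑ i ∈ Ico j k, c i ≤ f k - f j := by linarith [lm_le (f := f) (c := c) k]
        have s2 : 3 * (q k - q j) ≤ ∑ i ∈ Ico j k, c i := by
          rw [← sum_Ico_sub q hj, mul_sum]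
          exact sum_le_sum fun i hi => hc i (by have := mem_Ico.1 hi; omega)
        have s0 : 0 ≤ ∑ i ∈ Ico j k, c i :=
          sum_nonneg fun i hi => c0 i (by have := mem_Ico.1 hi; omega)
        have s3 := cube_sub (x := f k - q k) (y := f j - q j) (by linarith)
        have s4 := pot_sub (f := f) hj (fun i hi => hq i (by omega) : ∀ i < k, q i ≤ q (i + 1))
        have s5 : (f k - f j) ^ 3 ≤ (3 / 2 * (f k - q k - (f j - q j))) ^ 3 :=
          pow_le_pow_left₀ (by linarith) (by linarith) 3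
        have s6 : 0 ≤ (f k - q k - (f j - q j)) ^ 3 := pow_nonneg (by linarith) 3
        rw [← sum_range_add_sum_Ico _ hj]
        have := ih j hlt (by omega)
        rw [mul_pow] at s5
        linarith
  exact key N le_rfl

/-- weighted form: weights `ω`, `ω (k + 1) ≤ ρ c k`, `dq k ≤ A ω k, A ω (k + 1)` -/
theorem base_w {N : ℕ} {ω : ℕ → ℝ} {ρ A : ℝ} (hρ : 0 ≤ ρ) (hf : ∀ k < N, f k ≤ f (k + 1))
    (hq : ∀ k < N, q k ≤ q (k + 1)) (hc : ∀ k < N, 3 * (q (k + 1) - q k) ≤ c k)
    (hω : ∀ k < N, ω (k + 1) ≤ ρ * c k) (hω0 : ∀ k ≤ N, 0 ≤ ω k) (hA : 0 ≤ A)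
    (h1 : ∀ k < N, q (k + 1) - q k ≤ A * ω k) (h2 : ∀ k < N, q (k + 1) - q k ≤ A * ω (k + 1)) :
    ∑ i ∈ range (N + 1), ω i * df f c i ^ 2 ≤ 14 * ρ * ((f N - q N) ^ 3 - (f 0 - q 0) ^ 3 +
      4 * A * ∑ i ∈ range (N + 1), ω i * (f i - q i) ^ 2) := by
  have b := base_le hf hq hc
  have l1 : ∑ i ∈ range (N + 1), ω i * df f c i ^ 2 ≤
      ρ * ∑ i ∈ range N, c i * df f c (i + 1) ^ 2 := by
    rw [sum_range_succ', df_zero, mul_sum]
    simp only [ne_eq, OfNat.ofNat_ne_zero, not_false_eq_true, zero_pow, mul_zero, add_zero]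
    exact sum_le_sum fun i hi => by
      have := mul_le_mul_of_nonneg_right (hω i (mem_range.1 hi)) (sq_nonneg (df f c (i + 1)))
      linarith
  have l2 : ∑ i ∈ range N, 2 * (q (i + 1) - q i) *
      ((f i - q i) ^ 2 + (f (i + 1) - q (i + 1)) ^ 2) ≤
      2 * A * ∑ i ∈ range N, ω i * (f i - q i) ^ 2 +
      2 * A * ∑ i ∈ range N, ω (i + 1) * (f (i + 1) - q (i + 1)) ^ 2 := by
    rw [mul_sum, mul_sum, ← sum_add_distrib]
    refine sum_le_sum fun i hi => ?_
    have a1 := mul_le_mul_of_nonneg_right (h1 i (mem_range.1 hi)) (sq_nonneg (f i - q i))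
    have a2 := mul_le_mul_of_nonneg_right (h2 i (mem_range.1 hi))
      (sq_nonneg (f (i + 1) - q (i + 1)))
    linarith
  have l3 : ∑ i ∈ range N, ω i * (f i - q i) ^ 2 ≤ ∑ i ∈ range (N + 1), ω i * (f i - q i) ^ 2 := by
    rw [sum_range_succ]
    have := mul_nonneg (hω0 N le_rfl) (sq_nonneg (f N - q N))
    linarith
  have l4 : ∑ i ∈ range N, ω (i + 1) * (f (i + 1) - q (i + 1)) ^ 2 ≤
      ∑ i ∈ range (N + 1), ω i * (f i - q i) ^ 2 := by
    rw [sum_range_succ' (fun i => ω i * (f i - q i) ^ 2)]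
    have := mul_nonneg (hω0 0 (Nat.zero_le N)) (sq_nonneg (f 0 - q 0))
    linarith
  have l5 := mul_le_mul_of_nonneg_left l3 (by positivity : 0 ≤ 2 * A)
  have l6 := mul_le_mul_of_nonneg_left l4 (by positivity : 0 ≤ 2 * A)
  have l7 : pot f q N - pot f q 0 ≤ (f N - q N) ^ 3 - (f 0 - q 0) ^ 3 +
      4 * A * ∑ i ∈ range (N + 1), ω i * (f i - q i) ^ 2 := by
    simp only [pot, range_zero, sum_empty]
    linarith
  calc _ ≤ ρ * ∑ i ∈ range N, c i * df f c (i + 1) ^ 2 := l1
    _ ≤ ρ * (14 * ((f N - q N) ^ 3 - (f 0 - q 0) ^ 3 +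
      4 * A * ∑ i ∈ range (N + 1), ω i * (f i - q i) ^ 2)) :=
        mul_le_mul_of_nonneg_left (by linarith) hρ
    _ = _ := by ring

/-- one window (shell) with a tolerance: weights `ω (k + 1) ≤ ρ c k` on the window -/
theorem shell_w {a b : ℕ} {ω ψ : ℕ → ℝ} {ρ : ℝ} (hab : a ≤ b) (hρ : 0 ≤ ρ)
    (hf : ∀ k, a ≤ k → k < b → f k ≤ f (k + 1)) (hc : ∀ k, a ≤ k → k < b → 0 ≤ c k)
    (hω : ∀ k, a ≤ k → k < b → ω (k + 1) ≤ ρ * c k) (h : ∀ j ≤ b, |f j - q j| ≤ ψ j)
    (hs : ∀ i < a, q (i + 1) - q i + (ψ i - ψ (i + 1)) ≤ c i) :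
    ∑ i ∈ Ico a b, ω (i + 1) * df f c (i + 1) ^ 2 ≤ ρ * (3 * ψ a + ψ b + (q b - q a)) ^ 3 := by
  have w := win_le hab hf hc
  have d := df_le_tol (c := c) (fun j hj => h j (hj.trans hab)) hs
  have d0 := df_nonneg (f := f) (c := c) a
  have m : f a ≤ f b := by
    clear w h
    induction b, hab using Nat.le_induction with
    | base => exact le_rfl
    | succ b h ih =>
      exact (ih (fun k x y => hf k x (by omega)) (fun k x y => hc k x (by omega))
        fun k x y => hω k x (by omega)).trans (hf b h b.lt_succ_self)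
  have p : (df f c a + (f b - f a)) ^ 3 ≤ (3 * ψ a + ψ b + (q b - q a)) ^ 3 :=
    pow_le_pow_left₀ (by linarith)
      (by linarith [(abs_le.1 (h a hab)).1, (abs_le.1 (h b le_rfl)).2]) 3
  calc _ ≤ ρ * ∑ i ∈ Ico a b, c i * df f c (i + 1) ^ 2 := by
        rw [mul_sum]
        exact sum_le_sum fun i hi => by
          have := mul_le_mul_of_nonneg_right (hω i (mem_Ico.1 hi).1 (mem_Ico.1 hi).2)
            (sq_nonneg (df f c (i + 1)))
          linarith
    _ ≤ _ := mul_le_mul_of_nonneg_left (w.trans p) hρ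

end Crest.Agent.T156.Sr25

end
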