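import Crest.Agent.T156.SrZ_74
import Crest.Agent.T156.SrM_63
import Crest.Agent.T156.GuC_71
import Crest.Agent.T156.CeiG_88

/-!
# Row 156, SR: the plateau step on `Md` (helper74)
-/

set_option autoImplicit false

noncomputable section

namespace Crest.Agent.T156.Alt.SrT74

open Finset Real
open Crest.Agent.T156.Sr74 Crest.Agent.T156.Alt.Gu71 Crest.Agent.T156.Alt.Mv63
open Crest.Agent.T156.SrP26 (Pt rho)
open Crest.Agent.T156.Alt.Md67 (Lg)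
open Crest.Agent.T156.Alt.SrB72 (G G_succ)

variable {M N N1 : Md} {m : ℕ} {a : ℝ}

/-- the density `g ρ^{-3/2}` on the level `k` -/
def om (z : ℕ → ℝ) (J : ℕ) (u0 ue g : ℝ) (k : ℕ) : ℝ :=
  g * (z (k + 1) - z k) / (rho (z (J - 1)) u0 ue (z k) * √(rho (z (J - 1)) u0 ue (z k)))

/-- the plateau energy around `q` -/
def Pp (N : Md) (m : ℕ) (a q : ℝ) (J Jp : ℕ) : ℝ :=
  ∑ k ∈ Icc J Jp, (N.z k - N.z (k - 1)) * (N.rb m a k - q) ^ 2

theorem lg_mov (L : Lg N m a) {F : ℕ → ℝ} (h0 : F 0 = 0)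
    (hF : ∀ k, -(N.H (k + 1) - N.H k) ≤ F (k + 1) - F k) : Lg (sh N 0 F) m a :=
  ⟨⟨L.zm, L.z0, L.z1, L.zN, by simpa [sh] using L.d0, fun i j hij => by simpa [sh] using L.dm hij,
    by simp [sh, L.H0, h0], monotone_nat_of_le_succ fun k => by
      show N.H k + F k ≤ N.H (k + 1) + F (k + 1)
      linarith [hF k]⟩, L.m0, L.a0⟩

theorem lg_G (L : Lg N m a) {w : ℕ → ℝ} {A : Finset ℕ} {ξ : ℕ → ℕ}
    (hA : ∀ k ∈ A, 0 ≤ w k ∧ w k ≤ N.H (k + 1) - N.H k) : Lg (sh N 0 (G w A ξ)) m a :=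
  lg_mov L (by simp [G]) fun k => by
    rw [G_succ]
    have h1 : 0 ≤ ∑ i ∈ A with ξ i = k, w i :=
      Finset.sum_nonneg fun i hi => (hA i (mem_filter.1 hi).1).1
    have h2 := sub_nonneg.2 (L.Hm k.le_succ)
    split_ifs with c
    · linarith [(hA k c).2]
    · linarith

/-- **the two moves** at the two ends of a path -/
theorem two (L : Lg N m a) (L1 : Lg N1 m a) (ha : 0 < a) (eN : N1.N = N.N) (ez : N1.z = N.z)
    {w : ℕ → ℝ} {A : Finset ℕ} {ξ : ℕ → ℕ} (hA : ∀ k ∈ A, k < N.N ∧ ξ k < N.N ∧ 0 ≤ w k ∧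
      w k ≤ N.H (k + 1) - N.H k ∧ w k ≤ N1.H (k + 1) - N1.H k) {X : ℝ}
    (h : (sh N 0 (G w A ξ)).V m a - N.V m a ≤
      (sh N1 0 (G w A ξ)).V m a - N1.V m a + m * (X / 2)) :
    ∑ k ∈ A, w k * (N.z (ξ k) - N.z k) * N.rb m a (if k ≤ ξ k then k else k + 1) ≤
      ∑ k ∈ A, w k * (N.z (ξ k) - N.z k) *
        (sh N1 0 (G w A ξ)).rb m a (if ξ k ≤ k then ξ k else ξ k + 1) + X := by
  have e : ∀ (P : Md) (j : ℕ), (sh P 0 (G w A ξ)).H (j + 1) - (sh P 0 (G w A ξ)).H j =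
      P.H (j + 1) - P.H j + (∑ k ∈ A with ξ k = j, w k - if j ∈ A then w j else 0) :=
    fun P j => by rw [← G_succ]; simp only [sh]; ring
  have s : ∀ P : Md, Sm P (sh P 0 (G w A ξ)) := fun P => ⟨rfl, rfl, by simp [sh]⟩
  have a1 := (mv_map L.m0 L.toLeg (lg_G L fun k hk => ⟨(hA k hk).2.2.1, (hA k hk).2.2.2.1⟩).toLeg
    ha ha.le (s N) (fun k hk => ⟨(hA k hk).1, (hA k hk).2.1, (hA k hk).2.2.1, (hA k hk).2.2.2.1⟩)
    fun j _ => e N j).1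
  have a2 := (mv_map L.m0 L1.toLeg (lg_G L1 fun k hk => ⟨(hA k hk).2.2.1, (hA k hk).2.2.2.2⟩).toLeg
    ha ha.le (s N1) (fun k hk => ⟨eN ▸ (hA k hk).1, eN ▸ (hA k hk).2.1, (hA k hk).2.2.1,
      (hA k hk).2.2.2.2⟩) fun j _ => e N1 j).2
  rw [ez] at a2
  have hm : (0 : ℝ) < m := by exact_mod_cast L.m0
  refine le_of_mul_le_mul_left ?_ (half_pos hm)
  linarith

variable {J Jp : ℕ} {u0 ue g q B X : ℝ}

/-- **`Mvs` from a pair of models** (any path from `N` to `N1`) -/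
theorem mvs_of (L : Lg N m a) (L1 : Lg N1 m a) (ha : 0 < a) (eN : N1.N = N.N) (ez : N1.z = N.z)
    (hJ : Jp ≤ N.N) (fl : ∀ k, J ≤ k → k + 1 < Jp → om N.z J u0 ue g k ≤ N.H (k + 1) - N.H k ∧
      om N.z J u0 ue g k ≤ N1.H (k + 1) - N1.H k)
    (H : ∀ b n η, Aw N.z J Jp u0 ue g b n η → ∀ F, F = GU η b n ∨ F = GD η b n →
      (sh N 0 F).V m a - N.V m a ≤ (sh N1 0 F).V m a - N1.V m a + m * (X / 2) ∧
        Pp (sh N1 0 F) m a q J Jp ≤ B) : Mvs N.z (N.rb m a) q J Jp u0 ue g B X := by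
  have w1 : ∀ {b n η}, Aw N.z J Jp u0 ue g b n η → ∀ k, b ≤ k → k < b + 2 * n →
      0 ≤ η ∧ η ≤ N.H (k + 1) - N.H k ∧ η ≤ N1.H (k + 1) - N1.H k := fun A k k1 k2 => by
    have := A.hi
    obtain ⟨f1, f2⟩ := fl k (A.lo.trans k1) (by omega)
    exact ⟨A.e0.le, (A.le k k1 k2).trans f1, (A.le k k1 k2).trans f2⟩
  constructor
  · intro b n η A
    obtain ⟨h1, h2⟩ := H b n η A _ (Or.inl rfl)
    have := A.hi
    refine ⟨_, Md67.rb_mono L.m0, by rw [← ez]; exact h2, ?_⟩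
    have key := two L L1 ha eN ez (w := fun _ => η) (A := lo b n) (ξ := fun k => k + n)
      (fun k hk => by
        have := mem_Ico.1 hk
        exact ⟨by omega, by omega, w1 A k this.1 (by omega)⟩) h1
    refine le_trans (le_of_eq (Finset.sum_congr rfl fun k _ => by rw [if_pos (by omega)]))
      (key.trans (le_of_eq ?_))
    congr 1
    refine Finset.sum_congr rfl fun k hk => ?_
    have := mem_Ico.1 hk
    rw [if_neg (by omega)]
    rfl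
  · intro b n η A
    obtain ⟨h1, h2⟩ := H b n η A _ (Or.inr rfl)
    have := A.hi
    refine ⟨_, Md67.rb_mono L.m0, by rw [← ez]; exact h2, ?_⟩
    have key := two L L1 ha eN ez (w := fun _ => η) (A := hi b n) (ξ := fun k => k - n)
      (fun k hk => by
        have := mem_Ico.1 hk
        exact ⟨by omega, by omega, w1 A k (by omega) this.2⟩) h1
    refine le_trans (le_of_eq (Finset.sum_congr rfl fun k hk => ?_)) (key.trans (le_of_eq ?_))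
    · have := mem_Ico.1 hk
      rw [if_neg (by omega)]
    congr 1
    refine Finset.sum_congr rfl fun k hk => ?_
    rw [if_pos (by omega)]
    rfl

/-- an admissible window gives a move in the sense of `AB` (any rates `lo`, `hi`) -/
theorem ab_of_aw {z : ℕ → ℝ} (zm : Monotone z) {b n j : ℕ} {η : ℝ} (A : Aw z J Jp u0 ue g b n η)
    (hg : 0 ≤ g) (hj : j ≤ J) (c : ℕ → ℝ) {ω f : ℕ → ℝ} {S : Finset ℕ}
    (hω : ∀ k ∈ S, ω k ≤ z k - z (k - 1)) (f0 : ∀ k, 0 ≤ f k)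
    (fl : ∀ k, J ≤ k → k + 1 < Jp → om z J u0 ue g k ≤ f k) {F : ℕ → ℝ}
    (hF : F = GU η b n ∨ F = GD η b n) : AB j c ω S 0 (fun k => -f k) f g F := by
  have := A.hi
  have := A.lo
  have i1 : ∀ k, 0 ≤ (if k ∈ lo b n then η else 0) ∧ (if k ∈ lo b n then η else 0) ≤ f k :=
    fun k => by
      split_ifs with c
      · have := mem_Ico.1 c
        exact ⟨A.e0.le, (A.le k this.1 (by omega)).trans (fl k (by omega) (by omega))⟩
      · exact ⟨le_rfl, f0 k⟩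
  have i2 : ∀ k, 0 ≤ (if k ∈ hi b n then η else 0) ∧ (if k ∈ hi b n then η else 0) ≤ f k :=
    fun k => by
      split_ifs with c
      · have := mem_Ico.1 c
        exact ⟨A.e0.le, (A.le k (by omega) this.2).trans (fl k (by omega) (by omega))⟩
      · exact ⟨le_rfl, f0 k⟩
  rcases hF with rfl | rfl
  · refine ⟨fun k hk => GU_zero η (Or.inl (by omega)), fun k => ?_, fun k => ?_, nrm_le hg ?_⟩
    · rw [GU_succ]; linarith [i1 k, i2 k]
    · rw [GU_succ]; linarith [i1 k, i2 k]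
    · refine le_trans (Finset.sum_le_sum fun k hk => ?_) (A.sqU zm S)
      rw [zero_mul, sub_zero]
      exact mul_le_mul_of_nonneg_right (hω k hk) (sq_nonneg _)
  · refine ⟨fun k hk => GD_zero η (Or.inl (by omega)), fun k => ?_, fun k => ?_, nrm_le hg ?_⟩
    · rw [GD_succ]; linarith [i1 k, i2 k]
    · rw [GD_succ]; linarith [i1 k, i2 k]
    · refine le_trans (Finset.sum_le_sum fun k hk => ?_) (A.sqD zm S)
      rw [zero_mul, sub_zero]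
      exact mul_le_mul_of_nonneg_right (hω k hk) (sq_nonneg _)

theorem co_eq (ρ : Md → ℕ → ℝ) (h : ℝ) (N : Md) (F : ℕ → ℝ) (i : ℕ) :
    co ρ h N (sh N 0 F) i = sh (eu ρ h N i) 0 F := by
  rw [eu_eq, co, co, sh_sh, sh_sh, zero_add, add_zero]
  congr 1
  funext k
  ring

variable {D : KD} {u : ℝ}

theorem mov_of_aw {z : ℕ → ℝ} (zm : Monotone z) {b n : ℕ} {η : ℝ} (A : Aw z J Jp u0 ue g b n η)
    (H : D.Ok) (hu : 0 ≤ u) (hg : 0 ≤ g) (hg' : g ≤ u * D.g) (hj : D.j ≤ J)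
    (hω : ∀ k ∈ D.S, D.ω k ≤ z k - z (k - 1)) (fc : ∀ k, D.fl k ≤ 2 * D.ce k)
    (fl : ∀ k, J ≤ k → k + 1 < Jp → om z J u0 ue g k ≤ u / 2 * D.fl k) {F : ℕ → ℝ}
    (hF : F = GU η b n ∨ F = GD η b n) : D.Mov u F :=
  (ab_of_aw zm A hg hj D.c hω (f := fun k => u / 2 * D.fl k)
    (fun k => mul_nonneg (by positivity) (H.fl0 k)) fl hF).mono (fun k => by simp)
    (fun k => by nlinarith [mul_le_mul_of_nonneg_left (fc k) hu]) hg'

theorem fl_le_ce {θ R : ℝ} {lam : ℕ → ℝ} (H : D.Rk θ R lam) (k : ℕ) : D.fl k ≤ 2 * D.ce k := by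
  have c0 := H.ce0 k
  rcases le_or_gt k D.j with h | h
  · linarith [H.f0 k h]
  · have := H.ck.up k h
    nlinarith [H.f1 k h, H.c1 k h, H.θ0, H.θ1]

/-- **`Mvs` on the class `K(u)` of `GuB_71`** -/
theorem mvs_K {θ R h : ℝ} {lam : ℕ → ℝ} (H : D.Rk θ R lam) (L : Lg M m a) (ha : 0 < a)
    (hN : D.K M u N) (h0 : 0 ≤ h) (hu : 0 ≤ u) (hs : m * h * (5 + 10 * R) ≤ 1) {i : ℕ}
    (hi : u + i * h ≤ M.d 0) (hiu : u ≤ i * h) (hX0 : 0 ≤ X)
    (hX : ∀ l, 0 < l → l < i → Rem (eu (D.rule θ lam m a) h N l) m a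
      (D.rule θ lam m a (eu (D.rule θ lam m a) h N l)) ≤ X) (hJ : Jp ≤ M.N) (hj : D.j ≤ J)
    (hg : 0 ≤ g) (hg' : g ≤ u * D.g) (hω : ∀ k ∈ D.S, D.ω k ≤ M.z k - M.z (k - 1))
    (fl : ∀ k, J ≤ k → k + 1 < Jp → om M.z J u0 ue g k ≤ u / 2 * D.fl k)
    (hB : ∀ N', D.K M (u + i * h) N' → Pp N' m a q J Jp ≤ B) :
    Mvs M.z (N.rb m a) q J Jp u0 ue g B (2 * (h * (1 + R) ^ 2 + i * h * X)) := by
  have ih : 0 ≤ i * h := by positivity
  have K1 := H.eu (a := a) L.m0 hN h0 i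
  rw [← hN.z_eq] at fl hω ⊢
  refine mvs_of (hN.lg H.toOk L hu (by linarith)) (K1.lg H.toOk L (by linarith) hi) ha
    (K1.N_eq.trans hN.N_eq.symm) (K1.z_eq.trans hN.z_eq.symm) (hN.N_eq ▸ hJ)
    (fun k k1 k2 => ?_) fun b n η A F hF => ?_
  · have a1 := (hN.dH k).1
    have a2 := (K1.dH k).1
    have a3 := sub_nonneg.2 (L.Hm k.le_succ)
    have a4 := fl k k1 k2
    have a5 := mul_nonneg ih (H.fl0 k)
    simp only [Nat.succ_eq_add_one] at a3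
    constructor <;> nlinarith
  · have mv := mov_of_aw (hN.z_eq ▸ L.zm) A H.toOk hu hg hg' hj hω (fl_le_ce H) fl hF
    rw [← co_eq]
    refine ⟨(H.step L hN mv h0 hu hs hi hX0 hX).trans (le_of_eq (by ring)),
      hB _ (H.co L.m0 hN mv h0 hu hiu)⟩

/-! ### the plateau of the class `Cl` -/

theorem pq_of_cl {S : Sc} (H : Cl S M) {h : ℝ} (h0 : 0 < h)
    (mesh : ∀ k, S.J ≤ k → k < S.Jp → M.z k - M.z (k - 1) ≤ h) (he : S.ue ≤ ue) (u00 : 0 ≤ S.u0)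
    (h1 : 16 * S.C ^ 6 * h ≤ u0) (h2 : 16 * S.C ^ 6 * h ≤ ue) (h3 : 2 * u0 + 2 * ue ≤ 1 / S.C) :
    Pq M.z S.J S.Jp u0 ue h (S.C ^ 3) := by
  have C1 := H.C1
  have c6 : 1 ≤ S.C ^ 6 := one_le_pow₀ C1
  have i2 := H.i2
  have v0 : 0 < S.v := by
    have := H.v1
    by_contra hc
    have h1 : S.v * (S.n : ℝ) ^ S.A ≤ 0 := mul_nonpos_of_nonpos_of_nonneg (not_lt.1 hc) (by positivity)
    have : 0 < 1 / S.C := by positivity
    linarith
  have pl : ∀ k, S.J ≤ k + 1 → k + 1 < S.Jp → S.v / S.C ≤ (M.z (k + 1) - M.z k) * S.den (M.z k) ∧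
      (M.z (k + 1) - M.z k) * S.den (M.z k) ≤ S.C * S.v := fun k k1 k2 => by
    simpa using H.plat (k + 1) k1 k2
  have pos : ∀ k, S.J ≤ k + 1 → k + 1 < S.Jp → M.z k < M.z (k + 1) := fun k k1 k2 => by
    have := (pl k k1 k2).1
    have : 0 < (M.z (k + 1) - M.z k) * S.den (M.z k) := lt_of_lt_of_le (by positivity) this
    exact sub_pos.1 ((mul_pos_iff_of_pos_right (H.den0 _)).1 this)
  have cmp : ∀ i j, S.J ≤ i + 1 → i + 1 < S.Jp → S.J ≤ j + 1 → j + 1 < S.Jp →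
      S.den (M.z j) ≤ S.C * S.den (M.z i) →
      M.z (i + 1) - M.z i ≤ S.C ^ 3 * (M.z (j + 1) - M.z j) := fun i j a1 a2 a3 a4 a5 => by
    have b1 := (pl i a1 a2).2
    have b2 := (pl j a3 a4).1
    have b3 := sub_pos.2 (pos j a3 a4)
    rw [div_le_iff₀ (by positivity)] at b2
    refine le_of_mul_le_mul_right (b1.trans ?_) (H.den0 (M.z i))
    calc S.C * S.v ≤ S.C * ((M.z (j + 1) - M.z j) * S.den (M.z j) * S.C) := by gcongr
      _ ≤ S.C * ((M.z (j + 1) - M.z j) * (S.C * S.den (M.z i)) * S.C) := by gcongr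
      _ = _ := by ring
  refine ⟨⟨by omega, H.i3, H.leg.zm, le_trans (by positivity) H.atom.1, H.top _ le_rfl, mesh,
    H.last.trans he, h0, by nlinarith, by nlinarith⟩, one_le_pow₀ C1, by nlinarith, by nlinarith,
    by linarith [H.atom.2], pos, fun i j a1 a2 a3 a4 => ?_⟩
  have b1 : M.z j < 1 := (pos j (by omega) a3).trans_le (H.leg.z1 _)
  obtain ⟨d1, d2⟩ := H.dens (M.z i) (M.z j) (H.leg.zm (by omega)) (H.leg.zm a2) b1
    (a4.trans (min_le_min (by linarith) le_rfl))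
  exact ⟨cmp i j a1 (by omega) (by omega) a3 d2, cmp j i (by omega) a3 a1 (by omega) d1⟩

/-! ### the plateau step -/

theorem Pp_nonneg (zm : Monotone N.z) : 0 ≤ Pp N m a q J Jp :=
  Finset.sum_nonneg fun k _ => mul_nonneg (sub_nonneg.2 (zm (Nat.sub_le k 1))) (sq_nonneg _)

/-- change of the reference on the plateau (spread `γ`) -/
theorem ref_le {z r c c' : ℕ → ℝ} {h γ : ℝ} (P : Pt z J Jp u0 ue h)
    (hc : ∀ k, J ≤ k → k ≤ Jp → |c k - c' k| ≤ γ) :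
    ∑ k ∈ Icc J Jp, (z k - z (k - 1)) * (r k - c k) ^ 2 ≤
      2 * ∑ k ∈ Icc J Jp, (z k - z (k - 1)) * (r k - c' k) ^ 2 + 2 * γ ^ 2 := by
  have t : ∑ k ∈ Icc J Jp, (z k - z (k - 1)) ≤ 1 := by
    have e : Icc J Jp = Ioc (J - 1) Jp := by
      have := P.J1
      ext k; simp only [mem_Icc, mem_Ioc]; omega
    rw [e, SrP26.tele (J - 1) Jp (by have := P.JJ; omega), P.top]
    linarith [P.z0]
  have : ∑ k ∈ Icc J Jp, (z k - z (k - 1)) * (r k - c k) ^ 2 ≤ ∑ k ∈ Icc J Jp,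
      (2 * ((z k - z (k - 1)) * (r k - c' k) ^ 2) + (z k - z (k - 1)) * (2 * γ ^ 2)) :=
    Finset.sum_le_sum fun k hk => by
      have h1 := sq_le_sq' (abs_le.1 (hc k (mem_Icc.1 hk).1 (mem_Icc.1 hk).2)).1
        (abs_le.1 (hc k (mem_Icc.1 hk).1 (mem_Icc.1 hk).2)).2
      have h2 : (r k - c k) ^ 2 ≤ 2 * (r k - c' k) ^ 2 + 2 * γ ^ 2 := by
        nlinarith [sq_nonneg (r k - c' k + (c k - c' k))]
      nlinarith [mul_le_mul_of_nonneg_left h2 (P.dm_nn k)]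
  rw [Finset.sum_add_distrib, ← Finset.mul_sum, ← Finset.sum_mul] at this
  nlinarith [sq_nonneg γ]

/-- `Pp` from `Ph` against a reference `c` with spread `γ` around `q` -/
theorem Pp_le_Ph {h γ : ℝ} (P : Pt N.z J Jp u0 ue h) {c ω : ℕ → ℝ} {S : Finset ℕ}
    (hS : Icc J Jp ⊆ S) (hω : ∀ k ∈ S, 0 ≤ ω k)
    (hz : ∀ k, J ≤ k → k ≤ Jp → N.z k - N.z (k - 1) ≤ ω k)
    (hc : ∀ k, J ≤ k → k ≤ Jp → |q - c k| ≤ γ) :
    Pp N m a q J Jp ≤ 2 * Ph N m a c ω S + 2 * γ ^ 2 := by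
  refine (ref_le (c := fun _ => q) P hc).trans ?_
  have : ∑ k ∈ Icc J Jp, (N.z k - N.z (k - 1)) * (N.rb m a k - c k) ^ 2 ≤ Ph N m a c ω S :=
    (Finset.sum_le_sum fun k hk => mul_le_mul_of_nonneg_right
      (hz k (mem_Icc.1 hk).1 (mem_Icc.1 hk).2) (sq_nonneg _)).trans
      (Finset.sum_le_sum_of_subset_of_nonneg hS fun k hk _ => mul_nonneg (hω k hk) (sq_nonneg _))
  linarith

/-- the right side of the plateau step -/
def Rs (u0 ue K g B X d0 : ℝ) : ℝ := (log (1 + 1 / u0) + 2 * log (1 + 1 / ue)) *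
  (36 * B + 4 * (1024 * K ^ 4 * X / g) ^ 2 + 8 * u0 * d0 ^ 2 + 12 * ue)

/-- **the plateau step from `Mvs`** -/
theorem plat_of {η K d0 : ℝ} (hm : 0 < m) (P : Pq M.z J Jp u0 ue η K) (ez : N.z = M.z) (hg : 0 < g)
    (hX : 0 ≤ X) (hB : 0 ≤ B) (q0 : 0 ≤ q) (q1 : q ≤ 1) (hd : 0 ≤ d0)
    (h0 : q - N.rb m a J ≤ d0) (H : Mvs M.z (N.rb m a) q J Jp u0 ue g B X) :
    Pp N m a q J Jp ≤ Rs u0 ue K g B X d0 := by
  have := P.phi_le (M := 1) hg (Md67.rb_mono hm) hX hd h0 (fun k _ _ => abs_le.2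
    ⟨by linarith [Md67.rb_nonneg (M := N) (a := a) hm k],
      by linarith [Md67.rb_le_one (M := N) (a := a) hm k]⟩) H hB
  rw [one_pow, mul_one] at this
  rw [Pp, ez]
  exact this

/-- **the plateau step on `K(u)`** -/
theorem plat_K {θ R h η K d0 : ℝ} {lam : ℕ → ℝ} (H : D.Rk θ R lam) (L : Lg M m a) (ha : 0 < a)
    (hN : D.K M u N) (h0 : 0 ≤ h) (hu : 0 ≤ u) (hs : m * h * (5 + 10 * R) ≤ 1) {i : ℕ}
    (hi : u + i * h ≤ M.d 0) (hiu : u ≤ i * h) (hX0 : 0 ≤ X)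
    (hX : ∀ l, 0 < l → l < i → Rem (eu (D.rule θ lam m a) h N l) m a
      (D.rule θ lam m a (eu (D.rule θ lam m a) h N l)) ≤ X) (hJ : Jp ≤ M.N) (hj : D.j ≤ J)
    (hg : 0 < g) (hg' : g ≤ u * D.g) (hω : ∀ k ∈ D.S, D.ω k ≤ M.z k - M.z (k - 1))
    (fl : ∀ k, J ≤ k → k + 1 < Jp → om M.z J u0 ue g k ≤ u / 2 * D.fl k) (hB0 : 0 ≤ B)
    (hB : ∀ N', D.K M (u + i * h) N' → Pp N' m a q J Jp ≤ B) (P : Pq M.z J Jp u0 ue η K)
    (q0 : 0 ≤ q) (q1 : q ≤ 1) (hd : 0 ≤ d0) (hc : q - N.rb m a J ≤ d0) :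
    Pp N m a q J Jp ≤ Rs u0 ue K g B (2 * (h * (1 + R) ^ 2 + i * h * X)) d0 :=
  plat_of L.m0 P hN.z_eq hg (by positivity) hB0 q0 q1 hd hc
    (mvs_K H L ha hN h0 hu hs hi hiu hX0 hX hJ hj hg.le hg' hω fl hB)

/-- **the plateau step on the grid of `K2`** -/
theorem plat_K2 {θ R h η K d0 : ℝ} {lam r : ℕ → ℝ} (H : D.Rk θ R lam) (L : Lg M m a) (ha : 0 < a)
    {d j i : ℕ} (hN : D.K2 (d * h) r M (j * h) N) (h0 : 0 ≤ h) (hs : m * h * (5 + 10 * R) ≤ 1)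
    (hji : j ≤ i) (hid : j + i ≤ d) (hi : (j + i : ℕ) * h ≤ M.d 0) (hX0 : 0 ≤ X)
    (hX : ∀ l, 0 < l → l < i → Rem (eu (D.rule θ lam m a) h N l) m a
      (D.rule θ lam m a (eu (D.rule θ lam m a) h N l)) ≤ X) (hJ : Jp ≤ M.N) (hj : D.j ≤ J)
    (hg : 0 < g) (hg' : g ≤ j * h * D.g) (hω : ∀ k ∈ D.S, D.ω k ≤ M.z k - M.z (k - 1))
    (fl : ∀ k, J ≤ k → k + 1 < Jp → om M.z J u0 ue g k ≤ j * h / 2 * D.fl k) (hB0 : 0 ≤ B)
    (hB : ∀ N', D.K2 (d * h) r M ((j + i : ℕ) * h) N' → Pp N' m a q J Jp ≤ B)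
    (P : Pq M.z J Jp u0 ue η K) (q0 : 0 ≤ q) (q1 : q ≤ 1) (hd : 0 ≤ d0)
    (hc : q - N.rb m a J ≤ d0) :
    Pp N m a q J Jp ≤ Rs u0 ue K g B (2 * (h * (1 + R) ^ 2 + i * h * X)) d0 := by
  have e : ((j + i : ℕ) : ℝ) * h = j * h + i * h := by push_cast; ring
  have l1 : ((j + i : ℕ) : ℝ) * h ≤ d * h := mul_le_mul_of_nonneg_right (by exact_mod_cast hid) h0
  have l2 : (j : ℝ) * h ≤ d * h :=
    mul_le_mul_of_nonneg_right (by exact_mod_cast (by omega : j ≤ d)) h0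
  exact plat_K H L ha ((KD.K2_iff l2).1 hN) h0 (by positivity) hs (e ▸ hi)
    (mul_le_mul_of_nonneg_right (by exact_mod_cast hji) h0) hX0 hX hJ hj hg hg' hω fl hB0
    (fun N' h' => hB N' ((KD.K2_iff l1).2 (e ▸ h'))) P q0 q1 hd hc

/-! ### the shape of the deposit clock on the plateau -/

/-- `1/√(1 - z + ue) - 1/√(z - x* + u0)` -/
def ck (z : ℕ → ℝ) (J : ℕ) (u0 ue : ℝ) (k : ℕ) : ℝ :=
  1 / √(1 - z k + ue) - 1 / √(z k - z (J - 1) + u0)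

theorem inv_sqrt_sub {x y : ℝ} (hx : 0 < x) (h1 : x ≤ y) (h2 : y ≤ 2 * x) :
    (y - x) / (4 * (x * √x)) ≤ 1 / √x - 1 / √y ∧ (y - x) / (2 * (y * √y)) ≤ 1 / √x - 1 / √y ∧
      1 / √x - 1 / √y ≤ (y - x) / (2 * (x * √x)) ∧ 1 / √x - 1 / √y ≤ 3 * (y - x) / (2 * (y * √y)) := by
  have hy : 0 < y := hx.trans_le h1
  obtain ⟨s, s0, rfl⟩ : ∃ s, 0 < s ∧ x = s ^ 2 := ⟨√x, sqrt_pos.2 hx, (sq_sqrt hx.le).symm⟩
  obtain ⟨t, t0, rfl⟩ : ∃ t, 0 < t ∧ y = t ^ 2 := ⟨√y, sqrt_pos.2 hy, (sq_sqrt hy.le).symm⟩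
  rw [sqrt_sq s0.le, sqrt_sq t0.le]
  have st : s ≤ t := by nlinarith
  have ts : t ≤ 3 / 2 * s := by nlinarith
  have e : 1 / s - 1 / t = (t - s) / (s * t) := by field_simp
  have e2 : t ^ 2 - s ^ 2 = (t - s) * (t + s) := by ring
  have d0 : 0 ≤ t - s := sub_nonneg.2 st
  have p1 : (t + s) * t ≤ 4 * s ^ 2 := by nlinarith
  have p2 : (t + s) * s ≤ 2 * t ^ 2 := by nlinarith
  have p3 : 2 * s ^ 2 ≤ (t + s) * t := by nlinarith
  have p4 : 2 * t ^ 2 ≤ 3 * ((t + s) * s) := by nlinarith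
  rw [e, e2]
  refine ⟨?_, ?_, ?_, ?_⟩ <;> rw [div_le_div_iff₀ (by positivity) (by positivity)]
  · nlinarith [mul_le_mul_of_nonneg_left p1 (mul_nonneg d0 s0.le)]
  · nlinarith [mul_le_mul_of_nonneg_left p2 (mul_nonneg d0 t0.le)]
  · nlinarith [mul_le_mul_of_nonneg_left p3 (mul_nonneg d0 s0.le)]
  · nlinarith [mul_le_mul_of_nonneg_left p4 (mul_nonneg d0 t0.le)]

/-- **floor and ceiling of the clock shape** -/
theorem ck_inc {z : ℕ → ℝ} {h : ℝ} (P : Pt z J Jp u0 ue h) {k : ℕ} (h1 : J ≤ k + 1)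
    (h2 : k + 1 < Jp) : om z J u0 ue 1 k ≤ 4 * (ck z J u0 ue (k + 1) - ck z J u0 ue k) ∧
      ck z J u0 ue (k + 1) - ck z J u0 ue k ≤ 2 * om z J u0 ue 1 k := by
  have hh := P.h0
  have m1 : z (k + 1) - z k ≤ h := by simpa using P.mesh (k + 1) h1 h2
  have m0 : z k ≤ z (k + 1) := P.mono k.le_succ
  have a0 : z (J - 1) ≤ z k := P.mono (by omega)
  have b0 : z (k + 1) ≤ 1 := P.top ▸ P.mono h2.le
  have hu := P.hu
  have he := P.he
  obtain ⟨a1, -, a3, -⟩ := inv_sqrt_sub (x := z k - z (J - 1) + u0) (y := z (k + 1) - z (J - 1) + u0)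
    (by linarith) (by linarith) (by linarith)
  obtain ⟨-, b2, -, b4⟩ := inv_sqrt_sub (x := 1 - z (k + 1) + ue) (y := 1 - z k + ue)
    (by linarith) (by linarith) (by linarith)
  rw [show z (k + 1) - z (J - 1) + u0 - (z k - z (J - 1) + u0) = z (k + 1) - z k by ring] at a1 a3
  rw [show 1 - z k + ue - (1 - z (k + 1) + ue) = z (k + 1) - z k by ring] at b2 b4
  have d0 : 0 ≤ z (k + 1) - z k := sub_nonneg.2 m0
  have pa : 0 < z k - z (J - 1) + u0 := by linarith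
  have pb : 0 < 1 - z k + ue := by linarith
  simp only [om, ck, rho, one_mul]
  generalize z k - z (J - 1) + u0 = x at *
  generalize 1 - z k + ue = y at *
  generalize z (k + 1) - z k = d at *
  have mono : ∀ {s t : ℝ}, 0 < s → s ≤ t → d / (t * √t) ≤ d / (s * √s) := fun hs hst =>
    div_le_div_of_nonneg_left d0 (by positivity)
      (mul_le_mul hst (sqrt_le_sqrt hst) (sqrt_nonneg _) (hs.le.trans hst))
  have e1 : d / (4 * (x * √x)) = d / (x * √x) / 4 := by ring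
  have e2 : d / (2 * (x * √x)) = d / (x * √x) / 2 := by ring
  have e3 : d / (2 * (y * √y)) = d / (y * √y) / 2 := by ring
  have e4 : 3 * d / (2 * (y * √y)) = 3 * (d / (y * √y)) / 2 := by ring
  have n1 : 0 ≤ d / (x * √x) := by positivity
  have n2 : 0 ≤ d / (y * √y) := by positivity
  rcases le_total x y with c | c
  · rw [min_eq_left c]
    have := mono pa c
    constructor <;> linarith
  · rw [min_eq_right c]
    have := mono pb c
    constructor <;> linarith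

theorem om_eq (z : ℕ → ℝ) (k : ℕ) : om z J u0 ue g k = g * om z J u0 ue 1 k := by
  simp only [om]; ring

theorem ck_mono {z : ℕ → ℝ} (zm : Monotone z) (z1 : ∀ k, z k ≤ 1) (hu : 0 < u0) (he : 0 < ue)
    {k k' : ℕ} (h1 : J ≤ k + 1) (h2 : k ≤ k') : ck z J u0 ue k ≤ ck z J u0 ue k' := by
  have a0 : z (J - 1) ≤ z k := zm (by omega)
  have a1 := zm h2
  have a2 := z1 k'
  have b1 : 1 / √(1 - z k + ue) ≤ 1 / √(1 - z k' + ue) :=
    one_div_le_one_div_of_le (sqrt_pos.2 (by linarith)) (sqrt_le_sqrt (by linarith))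
  have b2 : 1 / √(z k' - z (J - 1) + u0) ≤ 1 / √(z k - z (J - 1) + u0) :=
    one_div_le_one_div_of_le (sqrt_pos.2 (by linarith)) (sqrt_le_sqrt (by linarith))
  unfold ck
  linarith

/-- total size of the clock shape -/
theorem ck_bd {z : ℕ → ℝ} (zm : Monotone z) (z1 : ∀ k, z k ≤ 1) (hu : 0 < u0) (he : 0 < ue)
    {k : ℕ} (h1 : J ≤ k + 1) : -(1 / √u0) ≤ ck z J u0 ue k ∧ ck z J u0 ue k ≤ 1 / √ue := by
  have a0 : z (J - 1) ≤ z k := zm (by omega)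
  have a2 := z1 k
  have b1 : 1 / √(1 - z k + ue) ≤ 1 / √ue :=
    one_div_le_one_div_of_le (sqrt_pos.2 he) (sqrt_le_sqrt (by linarith))
  have b2 : 1 / √(z k - z (J - 1) + u0) ≤ 1 / √u0 :=
    one_div_le_one_div_of_le (sqrt_pos.2 hu) (sqrt_le_sqrt (by linarith))
  have c1 : 0 ≤ 1 / √(1 - z k + ue) := by positivity
  have c2 : 0 ≤ 1 / √(z k - z (J - 1) + u0) := by positivity
  unfold ck
  constructor <;> linarith

/-- the clock shape is below the envelope of `CeiG` -/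
theorem ck_env {S : Sc} {h : ℝ} (P : Pt M.z S.J S.Jp u0 ue h) (s0 : 0 < S.u0) (hu : S.u0 ≤ u0)
    {k k' : ℕ} (h1 : S.J ≤ k) (h2 : k ≤ k') (h3 : k' ≤ S.Jp) (lt : M.z (k' - 1) < 1) :
    ck M.z S.J u0 ue k' - ck M.z S.J u0 ue k ≤ M.env S k k' := by
  have a0 : M.z (S.J - 1) ≤ M.z (k - 1) := P.mono (by omega)
  have a1 : M.z (k - 1) ≤ M.z k := P.mono (Nat.sub_le k 1)
  have a2 : M.z k' - M.z (k' - 1) ≤ ue := by
    rcases h3.eq_or_lt with e | e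
    · rw [e, P.top]; exact P.last
    · linarith [P.mesh k' (h1.trans h2) e, P.he, P.h0]
  have b1 : 1 / √(1 - M.z k' + ue) ≤ 1 / √(1 - M.z (k' - 1)) :=
    one_div_le_one_div_of_le (sqrt_pos.2 (by linarith)) (sqrt_le_sqrt (by linarith))
  have b2 : 1 / √(M.z k - M.z (S.J - 1) + u0) ≤ 1 / √(M.z (k - 1) - M.z (S.J - 1) + S.u0) :=
    one_div_le_one_div_of_le (sqrt_pos.2 (by linarith)) (sqrt_le_sqrt (by linarith))
  have c1 : 0 ≤ 1 / √(1 - M.z k + ue) := by positivity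
  have c2 : 0 ≤ 1 / √(M.z k' - M.z (S.J - 1) + u0) := by positivity
  unfold ck Md.env
  linarith

end Crest.Agent.T156.Alt.SrT74
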