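import Crest.Agent.T156.SrMvD_74
import Crest.Agent.T156.SrT_74
import Crest.Agent.T156.MdOne_67

/-!
# Row 156, SR: `MovS` from its base part (helper74)
-/

set_option autoImplicit false

noncomputable section

namespace Crest.Agent.T156.Alt.Mov74

open Finset Real
open Crest.Agent.T156.Sr74 Crest.Agent.T156.Alt.SrT74 Crest.Agent.T156.Alt.Sr
open Crest.Agent.T156.SrP26 (Pt rho rho_lip)
open Crest.Agent.T156.Alt.SrB72 (G G_succ)

/-- the weight of a window against the increment of the clock shape one level below -/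
theorem eta_le {z : ℕ → ℝ} {J Jp b n : ℕ} {u0 ue h K g η : ℝ} (P : Pq z J Jp u0 ue h K)
    (hg : 0 ≤ g) (A : Aw z J Jp u0 ue g b n η) {k : ℕ} (k1 : b ≤ k) (k2 : k < b + 2 * n) :
    η ≤ 12 * K * g * (ck z J u0 ue k - ck z J u0 ue (k - 1)) := by
  have a1 := A.lo
  have a2 := A.hi
  have J1 := P.J1
  have h0 := P.h0
  have K1 := P.K1
  obtain ⟨j, rfl⟩ : ∃ j, k = j + 1 := ⟨k - 1, by omega⟩
  rw [Nat.add_sub_cancel]
  have m4 : 4 * h ≤ min u0 ue / 4 := by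
    have := le_min P.hu P.he
    linarith
  have s1 := P.step (k := j) (by omega) (by omega)
  have f1 := A.far.1
  have f2 := A.far.2
  have z1 := P.mono k1
  have z2 := P.mono k2.le
  obtain ⟨-, q2⟩ := P.qu j (j + 1) (by omega) (by omega) (by omega)
    (le_min (by linarith) (by linarith))
  have c1 := (ck_inc P.toPt (k := j) (by omega) (by omega)).1
  have e1 := A.le _ k1 k2
  have r1 : 16 * h ≤ rho (z (J - 1)) u0 ue (z (j + 1)) := P.toPt.r_ge (by omega) (by omega)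
  have d0 : 0 ≤ z (j + 1) - z j := sub_nonneg.2 (P.mono j.le_succ)
  have r2 : rho (z (J - 1)) u0 ue (z j) ≤ rho (z (J - 1)) u0 ue (z (j + 1)) + h :=
    rho_lip _ _ _ (by linarith) (by linarith)
  have r3 : rho (z (J - 1)) u0 ue (z (j + 1)) ≤ rho (z (J - 1)) u0 ue (z j) + h :=
    rho_lip _ _ _ (by linarith) (by linarith)
  simp only [om, one_mul] at c1
  generalize rho (z (J - 1)) u0 ue (z (j + 1)) = x at *
  generalize rho (z (J - 1)) u0 ue (z j) = y at *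
  have x0 : 0 < x := by linarith
  have y0 : 0 < y := by linarith
  have sx := sqrt_pos.2 x0
  have sy := sqrt_pos.2 y0
  have s2 : √y ≤ 3 / 2 * √x := by
    refine sqrt_le_iff.2 ⟨by positivity, ?_⟩
    rw [mul_pow, sq_sqrt x0.le]
    linarith
  have s3 : y * √y ≤ 2 * x * (3 / 2 * √x) := mul_le_mul (by linarith) s2 sy.le (by positivity)
  have key : g * (z (j + 1 + 1) - z (j + 1)) / (x * √x) ≤
      3 * K * g * ((z (j + 1) - z j) / (y * √y)) := by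
    calc _ ≤ g * (K * (z (j + 1) - z j)) / (x * √x) := by gcongr
      _ = 3 * K * g * ((z (j + 1) - z j) / (2 * x * (3 / 2 * √x))) := by field_simp
      _ ≤ _ := by gcongr
  have : 0 ≤ 3 * K * g := by positivity
  nlinarith [mul_le_mul_of_nonneg_left c1 this]

variable {E Y u B X l Ys : ℝ} {S : Sc} {M N : Md} {m : ℕ} {a : ℝ} {c : ℕ → ℝ}

theorem q_pl (H : Cl S M) {k : ℕ} (h1 : S.J ≤ k) (h2 : k ≤ S.Jp) :
    |M.q S.J - M.q k| ≤ M.s S.Jp - M.s S.J := by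
  have i4 := H.i4
  have a1 := H.q_mono h1 (by omega)
  have a2 := Md67.q_lip H h1 (by omega)
  have a3 := H.sm h2
  rw [abs_sub_comm, abs_of_nonneg (sub_nonneg.2 a1)]
  linarith

theorem sq_pl (H : Cl S M) (f : ℕ → ℝ) :
    ∑ k ∈ Icc S.J S.Jp, (M.z k - M.z (k - 1)) * f k ^ 2 ≤ M.sq S f :=
  Finset.sum_le_sum_of_subset_of_nonneg (fun k hk => by
    have := H.i2
    simp only [mem_Icc, mem_Ioc] at hk ⊢
    omega) fun k _ _ => mul_nonneg (sub_nonneg.2 (H.leg.zm (Nat.sub_le k 1))) (sq_nonneg _)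

theorem dc_nn (H : Cl S M) (X : Ax E S M Y c) {k : ℕ} (h1 : S.jl < k) (h2 : k < S.Jp) :
    0 ≤ c (k + 1) - c k := by
  have a1 := X.inc k h1 h2
  have a2 := (H.ckm k (H.i1.trans h1.le) h2).1
  have := div_pos H.v0 H.C0
  linarith

/-- **`Mvs` from `Dbl`** -/
theorem mvs_dbl (H : Cl S M) (hE : 1 ≤ E) (hu : 0 < u) (hY : 0 < Y) (Xc : Ax E S M Y c) {h : ℝ}
    (P : Pq M.z S.J S.Jp ((E ^ 99 * Y) ^ ((1 : ℝ) / 3)) Y h (S.C ^ 3))
    (fl : (M.s S.Jp - M.s S.J) ^ 2 ≤ Y) (D : Dbl E S M m a Y c u N B X) :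
    Mvs M.z (N.rb m a) (M.q S.J) S.J S.Jp ((E ^ 99 * Y) ^ ((1 : ℝ) / 3)) Y
      (u * √(E ^ 99 * Y) / (48 * S.C ^ 3 * E ^ 4)) (2 * B + 2 * Y) X := by
  have C1 := H.C1
  have i2 := H.i2
  set g := u * √(E ^ 99 * Y) / (48 * S.C ^ 3 * E ^ 4) with hg
  have g0 : 0 ≤ g := by positivity
  have g2 : g ^ 2 ≤ u ^ 2 * (E ^ 100 * Y) := by
    have c3 : 1 ≤ S.C ^ 3 * E ^ 4 := one_le_mul_of_one_le_of_one_le (one_le_pow₀ C1) (one_le_pow₀ hE)
    have a1 : g ≤ u * √(E ^ 99 * Y) := div_le_self (by positivity) (by linarith)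
    have a2 := pow_le_pow_left₀ g0 a1 2
    rw [mul_pow, sq_sqrt (by positivity)] at a2
    refine a2.trans ?_
    gcongr
    norm_num
  have w : ∀ {b n η}, Aw M.z S.J S.Jp ((E ^ 99 * Y) ^ ((1 : ℝ) / 3)) Y g b n η → ∀ k, b ≤ k →
      k < b + 2 * n → η ≤ u / E ^ 4 * (c (k + 1) - c k) / 4 := fun {b n η} A k k1 k2 => by
    have a1 := eta_le P g0 A k1 k2
    have a2 := Xc.pla k (A.lo.trans k1) (k2.trans A.hi)
    have e : 12 * S.C ^ 3 * g * (ck M.z S.J ((E ^ 99 * Y) ^ ((1 : ℝ) / 3)) Y k -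
        ck M.z S.J ((E ^ 99 * Y) ^ ((1 : ℝ) / 3)) Y (k - 1)) = u / E ^ 4 *
        (shp (E ^ 99 * Y) Y (M.xs S) (M.z k) - shp (E ^ 99 * Y) Y (M.xs S) (M.z (k - 1))) / 4 := by
      simp only [hg, ck, shp, Md.xs]
      field_simp
      ring
    refine a1.trans (e.trans_le ?_)
    gcongr
  have mo : ∀ {b n η}, Aw M.z S.J S.Jp ((E ^ 99 * Y) ^ ((1 : ℝ) / 3)) Y g b n η → ∀ F,
      F = GU η b n ∨ F = GD η b n → Sr.Mo E S M Y c u F := fun {b n η} A F hF => by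
    have a1 := A.lo
    have a2 := A.hi
    have e0 := A.e0
    have v0 := H.v0
    have i1 : ∀ k, S.jl < k → k < S.Jp → 0 ≤ (if k ∈ lo b n then η else 0) ∧
        (if k ∈ lo b n then η else 0) ≤ u / E ^ 4 * (c (k + 1) - c k) / 4 ∧
        0 ≤ (if k ∈ hi b n then η else 0) ∧
        (if k ∈ hi b n then η else 0) ≤ u / E ^ 4 * (c (k + 1) - c k) / 4 := fun k k1 k2 => by
      have d := dc_nn H Xc k1 k2
      refine ⟨by split_ifs <;> linarith, ?_, by split_ifs <;> linarith, ?_⟩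
      · split_ifs with h
        · exact w A k (mem_Ico.1 h).1 (by have := (mem_Ico.1 h).2; omega)
        · positivity
      · split_ifs with h
        · exact w A k (by have := (mem_Ico.1 h).1; omega) (mem_Ico.1 h).2
        · positivity
    rcases hF with rfl | rfl
    · refine ⟨fun k hk => GU_zero η (Or.inl (by omega)), fun k hk => GU_zero η (Or.inr (by omega)),
        fun k k1 k2 => ?_, fun k k1 k2 => ?_, (A.sqU H.leg.zm _).trans g2⟩
      · rw [GU_succ]; linarith [i1 k k1 k2]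
      · rw [GU_zero η (Or.inl (by omega)), GU_zero η (Or.inl (by omega)), sub_zero]; positivity
    · refine ⟨fun k hk => GD_zero η (Or.inl (by omega)), fun k hk => GD_zero η (Or.inr (by omega)),
        fun k k1 k2 => ?_, fun k k1 k2 => ?_, (A.sqD H.leg.zm _).trans g2⟩
      · rw [GD_succ]; linarith [i1 k k1 k2]
      · rw [GD_zero η (Or.inl (by omega)), GD_zero η (Or.inl (by omega)), sub_zero]; positivity
  have en : ∀ r : ℕ → ℝ, M.sq S (fun k => r k - M.q k) ≤ B →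
      ∑ k ∈ Icc S.J S.Jp, (M.z k - M.z (k - 1)) * (r k - M.q S.J) ^ 2 ≤ 2 * B + 2 * Y :=
    fun r hr => by
      have a1 := ref_le (r := r) (c := fun _ => M.q S.J) (c' := M.q) P.toPt fun k => q_pl H
      have a2 := sq_pl H fun k => r k - M.q k
      linarith
  constructor
  · intro b n η A
    have a1 := A.lo
    have a2 := A.hi
    obtain ⟨r, r1, -, r3, r4⟩ := D (lo b n) (fun _ => η) (fun k => k + n) _ (mo A _ (Or.inl rfl))
      (fun k hk => by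
        have := mem_Ico.1 hk
        exact ⟨by omega, by omega, by omega, by omega, A.e0.le, w A k this.1 (by omega)⟩)
      fun j => G_succ _ _ _ j
    refine ⟨r, r1, en r r3, le_trans (le_of_eq (Finset.sum_congr rfl fun k _ => by
      rw [if_pos (by omega)])) (r4.trans (le_of_eq ?_))⟩
    congr 1
    refine Finset.sum_congr rfl fun k hk => ?_
    have := mem_Ico.1 hk
    rw [if_neg (by omega)]
  · intro b n η A
    have a1 := A.lo
    have a2 := A.hi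
    obtain ⟨r, r1, -, r3, r4⟩ := D (hi b n) (fun _ => η) (fun k => k - n) _ (mo A _ (Or.inr rfl))
      (fun k hk => by
        have := mem_Ico.1 hk
        exact ⟨by omega, by omega, by omega, by omega, A.e0.le, w A k (by omega) this.2⟩)
      fun j => G_succ _ _ _ j
    refine ⟨r, r1, en r r3, le_trans (le_of_eq (Finset.sum_congr rfl fun k hk => ?_))
      (r4.trans (le_of_eq ?_))⟩
    · have := mem_Ico.1 hk
      rw [if_neg (by omega)]
    congr 1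
    refine Finset.sum_congr rfl fun k hk => ?_
    rw [if_pos (by omega)]

theorem q_z (H : Cl S M) {i k : ℕ} (h0 : S.j0 ≤ i) (hik : i ≤ k) (hk : k < S.J) :
    M.q k - M.q i ≤ S.C ^ 2 * (M.z k - M.z i) := by
  have a1 := Md67.q_lip H hik (hk.trans H.J_lt).le
  have a2 := (H.s_tel hik hk.le).2
  have a3 := (H.z_tel h0 hik hk).1
  have C0 := H.C0
  have e : ((k : ℝ) - i) * (S.C * S.v) = S.C ^ 2 * (((k : ℝ) - i) * (S.v / S.C)) := by field_simp
  nlinarith [mul_le_mul_of_nonneg_left a3 (sq_nonneg S.C)]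

/-- **the corner** -/
theorem corner_le (H : Cl S M) {r : ℕ → ℝ} (hr : Monotone r) {u0 Φ : ℝ} (hu : 0 < u0)
    (h1 : M.z S.jl + u0 ≤ M.z (S.J - 1))
    (hΦ : ∑ k ∈ Ioc S.jl (S.J - 1), (M.z k - M.z (k - 1)) * (r k - M.q k) ^ 2 ≤ Φ) :
    M.q S.J - r S.J ≤ S.C * S.v + S.C ^ 2 * u0 + √(Φ / u0) := by
  classical
  have i1 := H.i1
  have i2 := H.i2
  set e := Nat.findGreatest (fun k => M.z k + u0 ≤ M.z (S.J - 1)) (S.J - 1) with he
  have e1 : S.jl ≤ e := Nat.le_findGreatest (by omega) h1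
  have e2 : M.z e + u0 ≤ M.z (S.J - 1) :=
    Nat.findGreatest_spec (P := fun k => M.z k + u0 ≤ M.z (S.J - 1)) (m := S.jl) (by omega) h1
  have e3 : e ≤ S.J - 1 := Nat.findGreatest_le _
  have key := corner (r := r) (q := M.q) H.leg.zm hr e3 (t := S.C ^ 2 * u0) (Φ := Φ)
    (B := Ioc S.jl (S.J - 1)) (Ioc_subset_Ioc_left e1) (fun j j1 j2 => by
      have a1 := Nat.findGreatest_is_greatest (P := fun k => M.z k + u0 ≤ M.z (S.J - 1)) j1 j2
      refine (q_z H (by omega) j2 (by omega)).trans ?_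
      gcongr
      linarith [not_le.1 a1]) hΦ hu (by linarith)
  have a1 := Md67.q_lip H (Nat.sub_le S.J 1) H.J_lt.le
  have a2 := (H.ss (S.J - 1) (by omega)).2
  rw [show S.J - 1 + 1 = S.J by omega] at a2
  have a3 := hr (Nat.sub_le S.J 1)
  linarith

/-- the numbers -/
structure Nb (E Λ : ℝ) (S : Sc) (Y : ℝ) : Prop where
  E1 : 1 ≤ E
  big : 10 ^ 12 * S.C ^ 30 ≤ Λ
  Λn : Λ ≤ S.n
  lg : log S.n ≤ Λ
  n2 : (2 : ℝ) ≤ S.n
  Yn : 1 / (S.n : ℝ) ≤ Y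
  TΛ : E ^ 102 * Y * Λ ^ 3 ≤ 1
  v : S.v * (S.n : ℝ) ^ 2 ≤ S.C

theorem nb_of {C ε η : ℝ} {A : ℕ} (R : RgC C A η (10 ^ 12 * C ^ 30) S) (hε : 0 < ε)
    (hη : ((30 : ℕ) : ℝ) * η ≤ 1) (H : Cl S M) (h : SH ((S.n : ℝ) ^ ε) S M l Ys Y) :
    Nb ((S.n : ℝ) ^ ε) ((S.n : ℝ) ^ η) S Y := by
  have N1 := R.N1.le
  have N0 := R.N0
  have η0 := R.η_pos
  push_cast at hη
  have E1 : 1 ≤ (S.n : ℝ) ^ ε := one_le_rpow N1 hε.le
  have Y0 : 0 < Y := (rpow_pos_of_pos N0 _).trans_le h.Y0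
  refine ⟨E1, R.hC ▸ R.K_le, ?_, R.log_le, by linarith [R.N3], le_trans ?_ h.Y0, ?_, ?_⟩
  · exact (rpow_le_rpow_of_exponent_le N1 (by linarith)).trans_eq (rpow_one _)
  · rw [one_div, ← rpow_neg_one]
    exact rpow_le_rpow_of_exponent_le N1 (by norm_num)
  · have a1 : ((S.n : ℝ) ^ ε) ^ 102 * Y ≤ (S.n : ℝ) ^ (-(1 : ℝ) / 10) :=
      le_trans (by gcongr; norm_num) h.Y1
    calc _ ≤ (S.n : ℝ) ^ (-(1 : ℝ) / 10) * ((S.n : ℝ) ^ η) ^ 3 := by gcongr
      _ = (S.n : ℝ) ^ (-(1 : ℝ) / 10 + η * 3) := by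
        rw [rpow_add N0, rpow_mul N0.le]; norm_num
      _ ≤ 1 := rpow_le_one_of_one_le_of_nonpos N1 (by linarith)
  · refine le_trans ?_ H.v2
    have := H.v0
    gcongr
    exact R.hA ▸ R.A2

theorem phi_split (H : Cl S M) (ez : N.z = M.z) (eq : N.q = M.q) : N.Phi S m a =
    ∑ k ∈ Ioc S.jl (S.J - 1), M.dx k * N.del m a k ^ 2 +
      ∑ k ∈ Icc S.J S.Jp, (M.z k - M.z (k - 1)) * (N.rb m a k - M.q k) ^ 2 := by
  have i2 := H.i2
  have i3 := H.i3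
  have e : Icc S.J S.Jp = Ioc (S.J - 1) S.Jp := by
    ext k; simp only [mem_Icc, mem_Ioc]; omega
  simp only [Md.Phi, Md.sq, Md.dx, Md.del, ez, eq, e]
  exact (Finset.sum_Ioc_consecutive _ (by omega) (by omega)).symm

/-- consequences of the numbers; `u0 = T^{1/3}` -/
structure Nc (E Λ : ℝ) (S : Sc) (Y u0 : ℝ) : Prop where
  Y0 : 0 < Y
  Λ1 : 1000 ≤ Λ
  YT : Y ≤ E ^ 99 * Y
  u00 : 0 < u0
  u3 : u0 ^ 3 = E ^ 99 * Y
  Tu : E ^ 99 * Y ≤ u0
  ms : 16 * S.C ^ 6 * (1 / (S.n : ℝ) ^ 2) ≤ Y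
  Cv : S.C * S.v ≤ Y
  uC : 4 * S.C * u0 ≤ 1 / S.C
  lg : ∀ x, Y ≤ x → log (1 + 1 / x) ≤ 2 * Λ

theorem Nb.nc {Λ : ℝ} (n : Nb E Λ S Y) (C1 : 1 ≤ S.C) :
    Nc E Λ S Y ((E ^ 99 * Y) ^ ((1 : ℝ) / 3)) := by
  have E1 := n.E1
  have n2 := n.n2
  have n0 : (0 : ℝ) < S.n := by linarith
  have Y0 : 0 < Y := lt_of_lt_of_le (by positivity) n.Yn
  have c30 : ∀ i ≤ 30, S.C ^ i ≤ S.C ^ 30 := fun i hi => pow_le_pow_right₀ C1 hi
  have c1 := c30 0 (by norm_num)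
  have big := n.big
  rw [pow_zero] at c1
  have Λ1 : 1000 ≤ Λ := by linarith
  have YT : Y ≤ E ^ 99 * Y := le_mul_of_one_le_left Y0.le (one_le_pow₀ E1)
  have TΛ : E ^ 99 * Y * Λ ^ 3 ≤ 1 := le_trans (by gcongr; norm_num) n.TΛ
  have T0 : 0 < E ^ 99 * Y := by positivity
  have u00 : 0 < (E ^ 99 * Y) ^ ((1 : ℝ) / 3) := rpow_pos_of_pos T0 _
  have u3 : ((E ^ 99 * Y) ^ ((1 : ℝ) / 3)) ^ 3 = E ^ 99 * Y := by
    rw [← rpow_natCast, ← rpow_mul T0.le]; norm_num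
  generalize (E ^ 99 * Y) ^ ((1 : ℝ) / 3) = u0 at *
  have uΛ : u0 * Λ ≤ 1 := by
    refine pow_le_one_iff_of_nonneg (n := 3) (by positivity) (by norm_num) |>.1 ?_
    rw [mul_pow, u3]; exact TΛ
  have u1 : u0 ≤ 1 := by nlinarith
  have nY : 1 ≤ S.n * Y := by have := n.Yn; rwa [div_le_iff₀' n0] at this
  have ms : 16 * S.C ^ 6 * (1 / (S.n : ℝ) ^ 2) ≤ Y := by
    rw [mul_one_div, div_le_iff₀ (by positivity)]
    have := c30 6 (by norm_num)
    have := n.Λn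
    nlinarith
  refine ⟨Y0, Λ1, YT, u00, u3, by rw [← u3]; exact pow_le_of_le_one u00.le u1 (by norm_num), ms,
    le_trans ?_ ms, ?_, fun x hx => ?_⟩
  · rw [mul_one_div, le_div_iff₀ (by positivity)]
    have := mul_le_mul_of_nonneg_left n.v (zero_le_one.trans C1)
    have : S.C ^ 2 ≤ S.C ^ 6 := pow_le_pow_right₀ C1 (by norm_num)
    nlinarith [sq_nonneg S.C]
  · rw [le_div_iff₀ (by positivity)]
    have := mul_le_mul_of_nonneg_left (c30 2 (by norm_num)) u00.le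
    have := mul_le_mul_of_nonneg_left big u00.le
    have : 0 ≤ u0 * S.C ^ 30 := by positivity
    linarith
  · have x0 := Y0.trans_le hx
    have a1 : 1 / x ≤ S.n := by rw [div_le_iff₀ x0]; nlinarith
    have a2 : log (1 + 1 / x) ≤ log ((S.n : ℝ) ^ 2) := log_le_log (by positivity) (by nlinarith)
    rw [log_pow] at a2
    push_cast at a2
    linarith [n.lg]

theorem rs_le {Λ u0 : ℝ} (n : Nc E Λ S Y u0) (C1 : 1 ≤ S.C) (E1 : 1 ≤ E) (v0 : 0 < S.v)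
    (big : 10 ^ 12 * S.C ^ 30 ≤ Λ) (hu : 0 < u) (hB : E ^ 99 * Y ≤ B) :
    Rs u0 Y (S.C ^ 3) (u * √(E ^ 99 * Y) / (48 * S.C ^ 3 * E ^ 4)) (2 * B + 2 * Y)
      (4 * u * E ^ 95 * Y) (S.C * S.v + S.C ^ 2 * u0 + √(Λ * B / u0)) ≤ 6 * Λ * (18 * (Λ * B)) := by
  obtain ⟨Y0, Λ1, YT, u00, u3, Tu, -, Cv, -, lg⟩ := n
  have T0 : 0 < E ^ 99 * Y := by positivity
  have B0 : 0 < B := T0.trans_le hB
  have e1 : 1024 * (S.C ^ 3) ^ 4 * (4 * u * E ^ 95 * Y) /
      (u * √(E ^ 99 * Y) / (48 * S.C ^ 3 * E ^ 4)) = 196608 * S.C ^ 15 * √(E ^ 99 * Y) := by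
    have s0 := sqrt_pos.2 T0
    have e2 : E ^ 99 * Y = √(E ^ 99 * Y) * √(E ^ 99 * Y) := (mul_self_sqrt T0.le).symm
    generalize √(E ^ 99 * Y) = s at *
    field_simp
    linear_combination (1024 * 4 * 48 : ℝ) * e2
  rw [Rs, e1, mul_pow, sq_sqrt T0.le]
  generalize E ^ 99 * Y = T at *
  have d2 : u0 * (S.C * S.v + S.C ^ 2 * u0 + √(Λ * B / u0)) ^ 2 ≤ 8 * S.C ^ 4 * T + 2 * (Λ * B) := by
    have a1 : S.C * S.v ≤ S.C ^ 2 * u0 :=
      (Cv.trans (YT.trans Tu)).trans (le_mul_of_one_le_left u00.le (one_le_pow₀ C1))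
    have a2 : √(Λ * B / u0) ^ 2 = Λ * B / u0 := sq_sqrt (by positivity)
    have a3 : (S.C * S.v + S.C ^ 2 * u0 + √(Λ * B / u0)) ^ 2 ≤
        (2 * (S.C ^ 2 * u0) + √(Λ * B / u0)) ^ 2 := by gcongr; linarith
    have a4 : (2 * (S.C ^ 2 * u0) + √(Λ * B / u0)) ^ 2 ≤
        8 * (S.C ^ 2 * u0) ^ 2 + 2 * (Λ * B / u0) := by
      nlinarith [sq_nonneg (2 * (S.C ^ 2 * u0) - √(Λ * B / u0))]
    calc _ ≤ u0 * (8 * (S.C ^ 2 * u0) ^ 2 + 2 * (Λ * B / u0)) := by gcongr; exact a3.trans a4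
      _ = 8 * S.C ^ 4 * u0 ^ 3 + 2 * (Λ * B) := by field_simp
      _ = _ := by rw [u3]
  have a1 := lg u0 (YT.trans Tu)
  have a2 := lg Y le_rfl
  have a3 := mul_le_mul_of_nonneg_left hB (by positivity : 0 ≤ S.C ^ 30)
  have a4 := mul_le_mul (pow_le_pow_right₀ C1 (by norm_num : 4 ≤ 30)) hB T0.le (by positivity)
  have a5 := mul_le_mul_of_nonneg_right big B0.le
  have a6 := mul_le_mul_of_nonneg_right Λ1 B0.le
  have a7 : 0 ≤ S.C ^ 30 * B := by positivity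
  refine mul_le_mul (by linarith) ?_ (by positivity) (by positivity)
  have e3 : (196608 * S.C ^ 15) ^ 2 * T = 196608 ^ 2 * (S.C ^ 30 * T) := by ring
  rw [e3]
  linarith

/-- **the plateau part and the sum** -/
theorem plat_pt {Λ : ℝ} (H : Cl S M) (h : SH E S M l Ys Y) (Xc : Ax E S M Y c) (n : Nb E Λ S Y)
    (hu : 0 < u) (hm : 0 < m) (ez : N.z = M.z) (eq : N.q = M.q) (hB : E ^ 99 * Y ≤ B)
    (D : Dbl E S M m a Y c u N B (4 * u * E ^ 95 * Y))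
    (hb : ∑ k ∈ Ioc S.jl (S.J - 1), M.dx k * N.del m a k ^ 2 ≤ Λ * B) :
    N.Phi S m a ≤ Λ ^ 3 * B := by
  have C1 := H.C1
  have E1 := n.E1
  have v0 := H.v0
  have n0 := H.N0
  have nc := n.nc C1
  have rs := rs_le nc C1 E1 v0 n.big hu hB
  obtain ⟨Y0, Λ1, YT, u00, u3, Tu, ms, Cv, uC, -⟩ := nc
  have B0 : 0 < B := lt_of_lt_of_le (by positivity) hB
  have mv := fun P => mvs_dbl (h := 1 / (S.n : ℝ) ^ 2) H E1 hu Y0 Xc P h.flat D
  generalize (E ^ 99 * Y) ^ ((1 : ℝ) / 3) = u0 at *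
  have lu : l ≤ u0 := le_of_pow_le_pow_left₀ (n := 3) (by norm_num) u00.le
    (by rw [u3]; exact h.l3.trans YT)
  have Cu : u0 ≤ S.C * u0 := le_mul_of_one_le_left u00.le C1
  have P := pq_of_cl (u0 := u0) (ue := Y) H (h := 1 / (S.n : ℝ) ^ 2) (by positivity)
    (fun k k1 k2 => h.mesh k k1 k2.le) h.ue h.u0.1.le (by linarith) ms (by linarith)
  have zj : M.z S.jl + u0 ≤ M.z (S.J - 1) := by
    have a1 := (H.z_s H.i1 H.jl_lt).2
    have a2 := mul_le_mul_of_nonneg_left (h.jl.trans lu) H.C0.le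
    linarith [H.atom.1]
  have co := corner_le H (r := N.rb m a) (Md67.rb_mono hm) u00 zj (Φ := Λ * B)
    (by simpa only [Md.dx, Md.del, eq] using hb)
  have pl := (plat_of hm P ez (by positivity) (by positivity) (by positivity)
    (H.q_nn H.J_lt.le) (Cl.q_le_one _) (by positivity) co (mv P)).trans rs
  have fin := ref_le (r := N.rb m a) (c := M.q) (c' := fun _ => M.q S.J) P.toPt
    fun k k1 k2 => (abs_sub_comm _ _).trans_le (q_pl H k1 k2)
  rw [Pp, ez] at pl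
  rw [phi_split H ez eq]
  have a6 := mul_le_mul_of_nonneg_right Λ1 B0.le
  have a7 := mul_le_mul_of_nonneg_right Λ1 (by positivity : 0 ≤ Λ * B)
  have a8 := mul_le_mul_of_nonneg_right Λ1 (by positivity : 0 ≤ Λ * (Λ * B))
  have := h.flat
  linarith

/-- the losses -/
theorem cube_le {C η η' K : ℝ} {A : ℕ} (R : RgC C A η' K S) (h : 3 * η' ≤ η) :
    ((S.n : ℝ) ^ η') ^ 3 ≤ (S.n : ℝ) ^ η := by
  rw [← rpow_natCast, ← rpow_mul R.N0.le]
  exact rpow_le_rpow_of_exponent_le R.N1.le (by push_cast; linarith)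

/-- **`MovS` from its base part** -/
theorem movS_of (hB : MovB) : MovS := by
  unfold MovB SR at hB
  unfold MovS SR
  refine CL.glue hB fun C => ⟨2, fun A _ ε η hε hη => ⟨ε, min (η / 3) (1 / 30), 10 ^ 12 * C ^ 30,
    hε, by positivity, ?_⟩⟩
  intro S M m a R H _ hb l Ys Y c D a1 a2 a3 a4 u N B b1 b2 b3 b4 b5 b6 b7 b8 b9
  have n := nb_of R hε (by push_cast; linarith [min_le_right (η / 3) (1 / 30)]) H a1
  refine (plat_pt H a1 a3 n b1 b2 b4 b5 b7 b9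
    (hb l Ys Y c D a1 a2 a3 a4 u N B b1 b2 b3 b4 b5 b6 b7 b8 b9)).trans
    (mul_le_mul_of_nonneg_right (cube_le R (by linarith [min_le_left (η / 3) (1 / 30)])) ?_)
  have := (n.nc H.C1).Y0
  have := R.rp0 ε
  exact le_trans (by positivity) b7

end Crest.Agent.T156.Alt.Mov74

end
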