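import Crest.Agent.T156.SrMvD_74
import Crest.Agent.T156.SrB_72
import Crest.Agent.T156.ClReg_29

/-!
# Row 156, SR: the base moves `MovB` (helper33)
-/

set_option autoImplicit false

noncomputable section

namespace Crest.Agent.T156.Alt.Sr

open Finset

namespace B33

theorem tel_Ioc (f : ℕ → ℝ) {a b : ℕ} (h : a ≤ b) :
    ∑ k ∈ Ioc a b, (f k - f (k - 1)) = f b - f a := by
  induction h with
  | refl => simp
  | @step b h ih => rw [sum_Ioc_succ_top h, ih, Nat.add_sub_cancel]; ring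

/-- weight of the nodes with labels in `[x, y]` -/
theorem wt_le {z : ℕ → ℝ} (zm : Monotone z) {a b : ℕ} (hab : a ≤ b) {x y : ℝ} (hxy : x ≤ y)
    {T : Finset ℕ} (hT : ∀ k ∈ T, k ∈ Ioc a b ∧ x ≤ z (k - 1) ∧ z k ≤ y) :
    ∑ k ∈ T, (z k - z (k - 1)) ≤ y - x := by
  have fm : Monotone fun k => max x (min y (z k)) := fun i j h =>
    max_le_max le_rfl (min_le_min le_rfl (zm h))
  calc ∑ k ∈ T, (z k - z (k - 1))
      = ∑ k ∈ T, (max x (min y (z k)) - max x (min y (z (k - 1)))) :=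
        sum_congr rfl fun k hk => by
          obtain ⟨_, a1, a2⟩ := hT k hk
          have a3 := zm (Nat.sub_le k 1)
          rw [min_eq_right a2, min_eq_right (a3.trans a2), max_eq_right a1,
            max_eq_right (a1.trans a3)]
    _ ≤ ∑ k ∈ Ioc a b, (max x (min y (z k)) - max x (min y (z (k - 1)))) :=
        sum_le_sum_of_subset_of_nonneg (fun k hk => (hT k hk).1) fun k _ _ =>
          sub_nonneg.2 (fm (Nat.sub_le k 1))
    _ ≤ y - x := by
        rw [tel_Ioc (fun k => max x (min y (z k))) hab]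
        exact sub_le_sub (max_le hxy (min_le_left _ _)) (le_max_left _ _)

/-- the numbers used -/
structure Nb (E Y l : ℝ) (S : Sc) (M : Md) (r : ℕ → ℝ) : Prop where
  cl : Cl S M
  th : S.C * S.θ ≤ 1 / 2
  E1 : 1 ≤ E
  CE : S.C ≤ E ^ 12
  vY : S.C * S.v ≤ Y
  P1 : E ^ 102 * Y ≤ 1
  jl : M.s S.jl ≤ l
  l3 : l ^ 3 ≤ Y
  flat : (M.s S.Jp - M.s S.J) ^ 2 ≤ Y
  rm : Monotone r
  r0 : ∀ k, 0 ≤ r k
  r1 : ∀ k, r k ≤ 1
  phi : M.sq S (fun k => r k - M.q k) ≤ 2 * (E ^ 100 * Y)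

namespace Nb

variable {E Y l : ℝ} {S : Sc} {M : Md} {r : ℕ → ℝ} (H : Nb E Y l S M r)
include H

theorem Cv0 : 0 < S.C * S.v := mul_pos H.cl.C0 H.cl.v0
theorem Y0 : 0 < Y := H.Cv0.trans_le H.vY
theorem YE (i : ℕ) : Y ≤ E ^ i * Y := le_mul_of_one_le_left H.Y0.le (one_le_pow₀ H.E1)
theorem Y1 : Y ≤ 1 := (H.YE 102).trans H.P1

theorem dx0 (k : ℕ) : 0 ≤ M.dx k := sub_nonneg.2 (H.cl.leg.zm (Nat.sub_le k 1))

theorem dx_b {k : ℕ} (h1 : S.jl < k) (h2 : k < S.J) :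
    S.v / S.C ≤ M.dx k ∧ M.dx k ≤ S.C * S.v := by
  have := H.cl.zs (k - 1) (by have := H.cl.i1; omega) (by omega)
  rwa [Nat.sub_add_cancel (by omega)] at this

theorem zs {k : ℕ} (h1 : S.jl ≤ k) (h2 : k + 1 < S.J) :
    S.v / S.C ≤ M.z (k + 1) - M.z k ∧ M.z (k + 1) - M.z k ≤ S.C * S.v :=
  H.cl.zs k (H.cl.i1.trans h1) h2

theorem Cv_eq : S.C * S.v = S.C ^ 2 * (S.v / S.C) := by
  have := H.cl.C0
  field_simp

theorem ql {i j : ℕ} (h0 : S.jl ≤ i) (hij : i ≤ j) (hj : j < S.J) :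
    M.q j - M.q i ≤ S.C ^ 2 * (M.z j - M.z i) := by
  have a := (H.cl.q_tel H.th hij (hj.le.trans H.cl.i3)).2
  have b := (H.cl.s_tel hij hj.le).2
  have d := mul_le_mul_of_nonneg_left (H.cl.z_tel (H.cl.i1.trans h0) hij hj).1 (sq_nonneg S.C)
  rw [H.Cv_eq] at b
  linarith

theorem del1 {k : ℕ} (hk : k < S.J) : (r k - M.q k) ^ 2 ≤ 1 := by
  have a := H.cl.q_nn (hk.le.trans H.cl.J_lt.le)
  have b := Cl.q_le_one (M := M) k
  exact (sq_le_one_iff_abs_le_one _).2 (abs_le.2 ⟨by linarith [H.r0 k], by linarith [H.r1 k]⟩)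

/-- the bottom nodes -/
theorem bot {T : Finset ℕ} (hT : ∀ k ∈ T, S.jl < k ∧ k < S.J ∧
    M.z k + 1 / (2 * S.C ^ 2) * (r k - M.q k) ≤ M.z (S.jl + 1)) :
    ∑ k ∈ T, M.dx k * (r k - M.q k) ^ 2 ≤ 900 * S.C ^ 11 * Y := by
  have h := H.cl
  have C1 := h.C1
  have C0 := h.C0
  have v0 := h.v0
  have l0 : 0 ≤ l := (h.s_nn _).trans H.jl
  have vl : S.v ≤ S.C * l := by
    have a := (h.s_bds h.jl_lt.le).1
    have b : (1 : ℝ) ≤ S.jl := by exact_mod_cast h.i0.trans h.i1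
    have d := mul_le_mul_of_nonneg_right b (div_pos v0 C0).le
    rw [← div_le_iff₀' C0]
    linarith [H.jl]
  have C2 : S.C ≤ S.C ^ 2 := by nlinarith
  have C3 : S.C ^ 2 ≤ S.C ^ 3 := pow_le_pow_right₀ C1 (by norm_num)
  have C4 : S.C ^ 3 ≤ S.C ^ 4 := pow_le_pow_right₀ C1 (by norm_num)
  have z0 : 2 * M.z (S.jl + 1) + S.v ≤ 9 * S.C ^ 3 * l := by
    have a := (h.z_s (k := S.jl + 1) (h.i1.trans (Nat.le_succ _)) h.i2).2
    have b := (h.ss S.jl h.jl_lt).2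
    have d : S.C * M.s (S.jl + 1) ≤ S.C * (l + S.C * S.v) :=
      mul_le_mul_of_nonneg_left (by linarith [H.jl]) C0.le
    have e1 := mul_le_mul_of_nonneg_left vl C0.le
    have e2 := mul_le_mul_of_nonneg_left vl (sq_nonneg S.C)
    have e3 := mul_le_mul_of_nonneg_right (C2.trans C3) l0
    have e4 := mul_le_mul_of_nonneg_right C3 l0
    nlinarith
  have key : ∀ k ∈ T, M.z k ≤ 9 * S.C ^ 3 * l ∧ (r k - M.q k) ^ 2 ≤ (10 * S.C ^ 4 * l) ^ 2 := by
    intro k hk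
    obtain ⟨a1, a2, a3⟩ := hT k hk
    have b1 := (h.z_s (h.i1.trans a1.le) a2).1
    have b2 := h.q_le_s (a2.le.trans h.J_lt.le)
    have b3 := h.leg.zm (show S.jl + 1 ≤ k from a1)
    have b4 := h.z_pos k
    have b5 : M.s k ≤ S.C * M.z k + S.C ^ 2 * S.v := by
      have : M.s k / S.C ≤ M.z k + S.C * S.v := by linarith
      rw [div_le_iff₀ C0] at this
      linarith
    have a4 : r k - M.q k ≤ 2 * S.C ^ 2 * (M.z (S.jl + 1) - M.z k) := by
      rw [← div_le_iff₀' (by positivity), div_eq_inv_mul, ← one_div]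
      linarith
    have b6 := mul_le_mul_of_nonneg_right C2 b4.le
    have c1 : M.z k ≤ 2 * M.z (S.jl + 1) + S.v := by
      refine le_of_mul_le_mul_left ?_ (show 0 < S.C ^ 2 by positivity)
      linarith [H.r0 k]
    have c2 := c1.trans z0
    refine ⟨c2, sq_le_sq' ?_ ?_⟩
    · have e1 := mul_le_mul_of_nonneg_left c2 C0.le
      have e2 := mul_le_mul_of_nonneg_left vl (sq_nonneg S.C)
      have e4 := mul_le_mul_of_nonneg_right C4 l0
      nlinarith [H.r0 k]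
    · have : 0 ≤ S.C ^ 2 * (M.z k - M.z (S.jl + 1)) := mul_nonneg (sq_nonneg _) (by linarith)
      have : 0 ≤ 10 * S.C ^ 4 * l := by positivity
      linarith
  have w := wt_le h.leg.zm (a := S.jl) (b := S.J) h.jl_lt.le
    (show (0 : ℝ) ≤ 9 * S.C ^ 3 * l by positivity) (T := T) fun k hk =>
      ⟨mem_Ioc.2 ⟨(hT k hk).1, (hT k hk).2.1.le⟩, (h.z_pos _).le, (key k hk).1⟩
  calc ∑ k ∈ T, M.dx k * (r k - M.q k) ^ 2 ≤ ∑ k ∈ T, M.dx k * (10 * S.C ^ 4 * l) ^ 2 :=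
        sum_le_sum fun k hk => mul_le_mul_of_nonneg_left (key k hk).2 (H.dx0 k)
    _ ≤ (9 * S.C ^ 3 * l - 0) * (10 * S.C ^ 4 * l) ^ 2 := by
        rw [← sum_mul]; exact mul_le_mul_of_nonneg_right w (sq_nonneg _)
    _ = 900 * S.C ^ 11 * l ^ 3 := by ring
    _ ≤ _ := mul_le_mul_of_nonneg_left H.l3 (by positivity)

/-- the top nodes -/
theorem top {T : Finset ℕ} (hT : ∀ k ∈ T, S.jl < k ∧ k < S.J ∧
    M.z (S.J - 1) < M.z k + 1 / (2 * S.C ^ 2) * (r k - M.q k)) :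
    ∑ k ∈ T, M.dx k * (r k - M.q k) ^ 2 ≤ 320 * S.C ^ 2 * (E ^ 99 * Y) := by
  have h := H.cl
  have C1 := h.C1
  have C0 := h.C0
  have Y0 := H.Y0
  have E0 : 0 < E := lt_of_lt_of_le one_pos H.E1
  have J1 := h.i2
  obtain ⟨p, p0, pp⟩ : ∃ p : ℝ, 0 ≤ p ∧ p ^ 2 = E ^ 100 * Y :=
    ⟨√(E ^ 100 * Y), Real.sqrt_nonneg _, Real.sq_sqrt (by positivity)⟩
  have Ep : E * p ≤ 1 := by
    refine (abs_le_one_iff_mul_self_le_one.2 ?_ |> (le_abs_self _).trans)
    calc E * p * (E * p) = E ^ 2 * p ^ 2 := by ring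
      _ = E ^ 102 * Y := by rw [pp]; ring
      _ ≤ 1 := H.P1
  have gp : M.s S.Jp - M.s S.J ≤ p :=
    (abs_le_of_sq_le_sq' (by rw [pp]; exact H.flat.trans (H.YE 100)) p0).2
  have vp : S.C * S.v ≤ p := by
    refine (abs_le_of_sq_le_sq' ?_ p0).2
    rw [pp]
    have := H.Cv0
    nlinarith [H.vY, H.Y1, H.YE 100]
  have wt : 1 / S.C ≤ ∑ j ∈ Ioc (S.J - 1) S.Jp, M.dx j := by
    have := tel_Ioc M.z (show S.J - 1 ≤ S.Jp by have := h.i3; omega)
    rw [h.top _ le_rfl] at this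
    change _ ≤ ∑ j ∈ Ioc (S.J - 1) S.Jp, (M.z j - M.z (j - 1))
    linarith [h.atom.2]
  have key : ∀ k ∈ T, M.z (S.J - 1) - 5 * p ≤ M.z (k - 1) ∧
      (r k - M.q k) ^ 2 ≤ (8 * S.C * p) ^ 2 := by
    intro k hk
    obtain ⟨a1, a2, a3⟩ := hT k hk
    have kJ : k ≤ S.J - 1 := by omega
    have b3 := h.leg.zm kJ
    have a4 : 2 * S.C ^ 2 * (M.z (S.J - 1) - M.z k) < r k - M.q k := by
      rw [← lt_div_iff₀' (by positivity), div_eq_inv_mul, ← one_div]
      linarith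
    have D0 : 0 ≤ S.C ^ 2 * (M.z (S.J - 1) - M.z k) := mul_nonneg (sq_nonneg _) (by linarith)
    have D1 : r k - M.q k ≤ 8 * S.C * p := by
      by_contra hc
      have hc := not_le.1 hc
      have Cp := mul_le_mul_of_nonneg_right C1 p0
      have c1 := H.ql a1.le kJ (by omega)
      have c2 := (h.q_tel H.th (Nat.sub_le S.J 1) h.i3).2
      have c3 := (h.ss (S.J - 1) (by omega)).2
      rw [Nat.sub_add_cancel (by omega)] at c3
      have lw : ∀ j ∈ Ioc (S.J - 1) S.Jp,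
          M.dx j * ((r k - M.q k) / 2 - 2 * p) ^ 2 ≤ M.dx j * (r j - M.q j) ^ 2 := by
        intro j hj
        obtain ⟨j1, j2⟩ := mem_Ioc.1 hj
        have d1 := (h.q_tel H.th (show S.J ≤ j by omega) j2).2
        have d2 := h.sm j2
        have d3 := H.rm (show k ≤ j by omega)
        exact mul_le_mul_of_nonneg_left
          (pow_le_pow_left₀ (by linarith) (by linarith) 2) (H.dx0 j)
      have s1 := sum_le_sum lw
      rw [← sum_mul] at s1
      have s2 : ∑ j ∈ Ioc (S.J - 1) S.Jp, M.dx j * (r j - M.q j) ^ 2 ≤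
          M.sq S fun k => r k - M.q k :=
        sum_le_sum_of_subset_of_nonneg (Ioc_subset_Ioc_left (by omega)) fun j _ _ =>
          mul_nonneg (H.dx0 j) (sq_nonneg _)
      have s3 := mul_le_mul_of_nonneg_right wt (sq_nonneg ((r k - M.q k) / 2 - 2 * p))
      have s4 : (2 * S.C * p) ^ 2 < ((r k - M.q k) / 2 - 2 * p) ^ 2 :=
        pow_lt_pow_left₀ (by linarith) (by positivity) two_ne_zero
      have s5 : ((r k - M.q k) / 2 - 2 * p) ^ 2 ≤ S.C * (2 * p ^ 2) := by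
        rw [← div_le_iff₀' C0, div_eq_inv_mul, ← one_div, pp]
        linarith [H.phi]
      nlinarith [mul_le_mul_of_nonneg_right C1 (mul_nonneg C0.le (sq_nonneg p)),
        mul_nonneg C0.le (sq_nonneg p)]
    refine ⟨?_, pow_le_pow_left₀ (by linarith) D1 2⟩
    have e1 : M.z (S.J - 1) - M.z k ≤ 4 * p := by
      refine le_of_mul_le_mul_left ?_ (show 0 < 2 * S.C ^ 2 by positivity)
      nlinarith [mul_le_mul_of_nonneg_right C1 (mul_nonneg C0.le p0)]
    have e2 := (H.dx_b a1 a2).2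
    unfold Md.dx at e2
    linarith
  have w := wt_le h.leg.zm (a := S.jl) (b := S.J) h.jl_lt.le
    (show M.z (S.J - 1) - 5 * p ≤ M.z (S.J - 1) by linarith) (T := T) fun k hk =>
      ⟨mem_Ioc.2 ⟨(hT k hk).1, (hT k hk).2.1.le⟩, (key k hk).1,
        h.leg.zm (by have := (hT k hk).2.1; omega)⟩
  calc ∑ k ∈ T, M.dx k * (r k - M.q k) ^ 2 ≤ ∑ k ∈ T, M.dx k * (8 * S.C * p) ^ 2 :=
        sum_le_sum fun k hk => mul_le_mul_of_nonneg_left (key k hk).2 (H.dx0 k)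
    _ ≤ (M.z (S.J - 1) - (M.z (S.J - 1) - 5 * p)) * (8 * S.C * p) ^ 2 := by
        rw [← sum_mul]; exact mul_le_mul_of_nonneg_right w (sq_nonneg _)
    _ = 320 * S.C ^ 2 * p ^ 2 * p := by ring
    _ = 320 * S.C ^ 2 * (E ^ 99 * Y) * (E * p) := by rw [pp]; ring
    _ ≤ _ := mul_le_of_le_one_right (by positivity) Ep

omit H in
/-- the moved nodes -/
theorem mid {m : ℕ} {a u B : ℝ} {c : ℕ → ℝ} {N : Md} (H : Nb E Y l S M (N.rb m a))
    (X : Ax E S M Y c) (u0 : 0 < u) (hB : E ^ 99 * Y ≤ B)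
    (D : Dbl E S M m a Y c u N B (4 * u * E ^ 95 * Y)) {A : Finset ℕ}
    (hA : ∀ k ∈ A, S.jl + 1 ≤ k ∧ k < S.J - 1 ∧
      M.z (S.jl + 1) < M.z k + 1 / (2 * S.C ^ 2) * (N.rb m a k - M.q k) ∧
      M.z k + 1 / (2 * S.C ^ 2) * (N.rb m a k - M.q k) ≤ M.z (S.J - 1)) :
    ∑ k ∈ A, M.dx k * (N.rb m a k - M.q k) ^ 2 ≤ 1320 * S.C ^ 6 * B := by
  have h := H.cl
  have C1 := h.C1
  have C0 := h.C0
  have v0 := h.v0
  have Y0 := H.Y0
  have E0 : 0 < E := lt_of_lt_of_le one_pos H.E1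
  have YB : Y ≤ B := (H.YE 99).trans hB
  have B0 : 0 ≤ B := Y0.le.trans YB
  have i3 := h.i3
  have i4 := h.i4
  rcases A.eq_empty_or_nonempty with rfl | ⟨k₀, hk₀⟩
  · rw [sum_empty]; positivity
  have hj : S.jl + 1 < S.J - 1 := (hA k₀ hk₀).1.trans_lt (hA k₀ hk₀).2.1
  obtain ⟨ξ, hξ⟩ := SrB72.exists_xi h.leg.zm
    (t := fun k => M.z k + 1 / (2 * S.C ^ 2) * (N.rb m a k - M.q k)) (A := A) fun k hk =>
      (hA k hk).2.2
  obtain ⟨wb, wb0, hwb⟩ : ∃ wb : ℝ, 0 < wb ∧ u = wb * (8 * S.C ^ 2 * E ^ 4) :=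
    ⟨u / (8 * S.C ^ 2 * E ^ 4), by positivity, by field_simp⟩
  obtain ⟨w, hw⟩ : ∃ w : ℕ → ℝ, ∀ k, w k = wb * (M.z (k + 1) - M.z k) := ⟨_, fun _ => rfl⟩
  have V : SrB72.Mv M.z M.q (N.rb m a) w A ξ (S.jl + 1) (S.J - 1) (1 / (2 * S.C ^ 2)) (S.C ^ 2)
      (S.C * S.v) (S.C ^ 2) wb :=
    { zm := h.leg.zm
      rm := fun _ _ _ b _ => H.rm b
      qm := fun _ _ _ b d => h.q_mono b (by omega)
      ql := fun _ _ b d e => H.ql (by omega) d (by omega)
      e0 := by positivity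
      eL := le_of_eq (by field_simp)
      c0 := by positivity
      wb0 := wb0.le
      sub := fun k hk => ⟨(hA k hk).1, (hA k hk).2.1⟩
      w0 := fun k _ => by
        rw [hw]; exact mul_nonneg wb0.le (sub_nonneg.2 (h.leg.zm k.le_succ))
      w1 := fun k _ => (hw k).le
      hi := fun j b d => (H.zs (by omega) (by omega)).2
      lo := fun k hk => by
        obtain ⟨b, d, _⟩ := hA k hk
        obtain ⟨⟨e, f⟩, _⟩ := hξ k hk
        refine (H.zs (by omega) (by omega)).2.trans ?_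
        rw [H.Cv_eq]
        exact mul_le_mul_of_nonneg_left (H.dx_b (by omega) (by omega)).1 (sq_nonneg _)
      x0 := fun k hk => (hξ k hk).1
      x1 := fun k hk => (hξ k hk).2.1
      x2 := fun k hk => (hξ k hk).2.2 }
  have dc : ∀ k, S.jl < k → k < S.Jp → wb * (S.C * S.v) ≤ u / E ^ 4 * (c (k + 1) - c k) / 4 := by
    intro k b d
    have e1 := X.inc k b d
    have e2 := (h.ckm k (h.i1.trans b.le) d).1
    have e3 : u / E ^ 4 = wb * (8 * S.C ^ 2) := by rw [hwb]; field_simp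
    have e4 := mul_le_mul_of_nonneg_left (show S.v / S.C / 2 ≤ c (k + 1) - c k by linarith)
      (show 0 ≤ wb * S.C ^ 2 by positivity)
    rw [e3, H.Cv_eq]
    linarith
  have wc : ∀ k ∈ A, w k ≤ u / E ^ 4 * (c (k + 1) - c k) / 4 := fun k hk => by
    obtain ⟨b, d, _⟩ := hA k hk
    refine le_trans ?_ (dc k (by omega) (by omega))
    rw [hw]
    exact mul_le_mul_of_nonneg_left (H.zs (by omega) (by omega)).2 wb0.le
  have z01 : ∀ i j, M.z j - M.z i ≤ 1 := fun i j => by linarith [h.leg.z1 j, h.z_pos i]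
  have vv : (S.C * S.v) ^ 2 ≤ Y := by nlinarith [H.Cv0, H.vY, H.Y1]
  have C2 : 1 ≤ S.C ^ 2 := one_le_pow₀ C1
  have mo : Mo E S M Y c u (SrB72.G w A ξ) :=
    { lo := fun k hk => V.G_low hk
      hi := fun k hk => V.G_high (by omega)
      flr := fun k b d => by
        refine le_trans (neg_le_neg ?_) (V.G_floor k)
        split_ifs with e
        exacts [wc k e, (mul_pos wb0 H.Cv0).le.trans (dc k b d)]
      cei := fun k b d => by
        rw [SrB72.G_succ]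
        have e1 := V.land k
        have e2 : 0 ≤ if k ∈ A then w k else 0 := by
          split_ifs with e
          exacts [V.w0 k e, le_rfl]
        have e3 := mul_le_mul_of_nonneg_left (H.dx_b b d).2
          (show 0 ≤ wb * (2 + S.C ^ 2) by positivity)
        have e4 : wb * (2 + S.C ^ 2) * (S.C * S.v) ≤ wb * (8 * S.C ^ 2) * (E ^ 12 * S.v) :=
          mul_le_mul (mul_le_mul_of_nonneg_left (by linarith) wb0.le)
            (mul_le_mul_of_nonneg_right H.CE v0.le) H.Cv0.le (by positivity)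
        have e5 : E ^ 8 * u * S.v = wb * (8 * S.C ^ 2) * (E ^ 12 * S.v) := by rw [hwb]; ring
        unfold Md.dx at e3
        linarith
      res := by
        have e1 := V.sq_G (B := Ioc S.jl S.Jp) (d := M.dx) (fun j _ => H.dx0 j) H.Cv0.le
        have e2 : ∑ j ∈ Ioc S.jl S.Jp, M.dx j ≤ 1 := by
          refine le_trans (le_of_eq (tel_Ioc M.z (by omega))) (z01 _ _)
        have e3 : (1 / (2 * S.C ^ 2)) ^ 2 ≤ (1 / 2) ^ 2 :=
          pow_le_pow_left₀ (by positivity)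
            (one_div_le_one_div_of_le two_pos (by linarith)) 2
        have e4 := mul_le_mul e3 H.phi (sum_nonneg fun j _ => mul_nonneg (H.dx0 j) (sq_nonneg _))
          (by positivity)
        have e5 := mul_le_mul vv e2 (sum_nonneg fun j _ => H.dx0 j) Y0.le
        have e6 : (8 * wb) ^ 2 ≤ u ^ 2 := by
          refine pow_le_pow_left₀ (by positivity) ?_ 2
          have := mul_le_mul C2 (one_le_pow₀ (n := 4) H.E1) zero_le_one (by positivity)
          rw [hwb]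
          nlinarith
        have e7 := H.YE 100
        refine le_trans e1 ?_
        unfold Md.sq at e4
        calc _ ≤ 8 * wb ^ 2 * (8 * (E ^ 100 * Y)) :=
              mul_le_mul_of_nonneg_left (by linarith) (by positivity)
          _ = (8 * wb) ^ 2 * (E ^ 100 * Y) := by ring
          _ ≤ _ := mul_le_mul_of_nonneg_right e6 (by positivity) }
  obtain ⟨r', m', b', s', x'⟩ := D A w ξ _ mo (fun k hk => by
    obtain ⟨b, d, _⟩ := hA k hk
    obtain ⟨⟨e, f⟩, _⟩ := hξ k hk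
    exact ⟨by omega, by omega, by omega, by omega, V.w0 k hk, wc k hk⟩) (SrB72.G_succ w A ξ)
  have x1 := V.main (V.of_exact (r' := r') (X := 4 * u * E ^ 95 * Y) (Z := 1) (R := 1) (R' := 1)
    (z01 _ _) (fun j _ _ => m' j.le_succ) (by linarith [H.r0 (S.jl + 1), H.r1 (S.J - 1)])
    (by linarith [(b' (S.jl + 1 + 1)).1, (b' (S.J - 1 + 1)).2]) hj (by
      refine le_trans (le_of_eq (sum_congr rfl fun k _ => ?_)) (x'.trans (le_of_eq ?_))
      · rw [apply_ite (N.rb m a)]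
      · congr 1
        refine sum_congr rfl fun k _ => ?_
        rcases lt_trichotomy k (ξ k) with e | e | e
        · rw [if_neg (by omega), if_pos e.le]
        · rw [← e, sub_self, mul_zero, zero_mul, zero_mul]
        · rw [if_pos e.le, if_neg (by omega)]))
  have s1 : ∑ j ∈ Ioc (S.jl + 1) (S.J - 1), (M.z j - M.z (j - 1)) * (r' j - M.q j) ^ 2 ≤ B :=
    le_trans (sum_le_sum_of_subset_of_nonneg (Ioc_subset_Ioc (by omega) (by omega)) fun j _ _ =>
      mul_nonneg (H.dx0 j) (sq_nonneg _)) s'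
  have s2 : ∑ k ∈ A, w k ≤ wb * 1 :=
    (V.wsum subset_rfl hj.le V.sub).trans (mul_le_mul_of_nonneg_left (z01 _ _) wb0.le)
  have C4 : S.C ^ 2 ≤ S.C ^ 4 := pow_le_pow_right₀ C1 (by norm_num)
  have t1 : 32 * (wb * (2 + S.C ^ 2)) *
      ∑ j ∈ Ioc (S.jl + 1) (S.J - 1), (M.z j - M.z (j - 1)) * (r' j - M.q j) ^ 2 ≤
      32 * (wb * (3 * S.C ^ 4)) * B :=
    mul_le_mul (mul_le_mul_of_nonneg_left (mul_le_mul_of_nonneg_left (by linarith) wb0.le)
      (by norm_num)) s1 (sum_nonneg fun j _ => mul_nonneg (H.dx0 j) (sq_nonneg _)) (by positivity)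
  have t2 : 16 * (4 * u * E ^ 95 * Y + 1 * (wb * (S.C * S.v) * 1 +
      wb * (2 + S.C ^ 2) * (S.C * S.v) * 1)) / (1 / (2 * S.C ^ 2)) ≤ 1152 * wb * S.C ^ 4 * B := by
    have e1 := mul_le_mul_of_nonneg_left hB (show 0 ≤ wb * S.C ^ 4 by positivity)
    have e2 : wb * S.C ^ 2 * (3 + S.C ^ 2) * (S.C * S.v) ≤ wb * S.C ^ 2 * (4 * S.C ^ 2) * B :=
      mul_le_mul (mul_le_mul_of_nonneg_left (by linarith) (by positivity)) (H.vY.trans YB)
        H.Cv0.le (by positivity)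
    rw [div_div_eq_mul_div, div_one, hwb]
    nlinarith
  have t3 : 18 * (S.C * S.v / (1 / (2 * S.C ^ 2))) ^ 2 * ∑ k ∈ A, w k ≤ 72 * wb * S.C ^ 4 * B := by
    rw [div_div_eq_mul_div, div_one]
    have e1 := mul_le_mul (vv.trans YB) s2 (sum_nonneg V.w0) B0
    have e2 := mul_le_mul_of_nonneg_left e1 (show 0 ≤ S.C ^ 4 by positivity)
    nlinarith
  have t4 : wb * ∑ k ∈ A, M.dx k * (N.rb m a k - M.q k) ^ 2 ≤
      S.C ^ 2 * ∑ k ∈ A, w k * (N.rb m a k - M.q k) ^ 2 := by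
    rw [mul_sum, mul_sum]
    refine sum_le_sum fun k hk => ?_
    obtain ⟨b, d, _⟩ := hA k hk
    have e1 := (H.dx_b (k := k) (by omega) (by omega)).2
    have e2 := mul_le_mul_of_nonneg_left (H.zs (k := k) (by omega) (by omega)).1 (sq_nonneg S.C)
    rw [H.Cv_eq] at e1
    have e3 := mul_le_mul_of_nonneg_right (e1.trans e2)
      (mul_nonneg wb0.le (sq_nonneg (N.rb m a k - M.q k)))
    rw [hw]
    linarith
  have t5 := mul_le_mul_of_nonneg_left
    (show ∑ k ∈ A, w k * (N.rb m a k - M.q k) ^ 2 ≤ 1320 * wb * S.C ^ 4 * B by linarith)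
    (sq_nonneg S.C)
  refine le_of_mul_le_mul_left ?_ wb0
  linarith

end Nb

theorem core {E Y l : ℝ} {S : Sc} {M N : Md} {m : ℕ} {a u B : ℝ} {c : ℕ → ℝ}
    (H : Nb E Y l S M (N.rb m a)) (X : Ax E S M Y c) (u0 : 0 < u) (hB : E ^ 99 * Y ≤ B)
    (D : Dbl E S M m a Y c u N B (4 * u * E ^ 95 * Y)) :
    ∑ k ∈ Ioc S.jl (S.J - 1), M.dx k * (N.rb m a k - M.q k) ^ 2 ≤ 2541 * S.C ^ 11 * B := by
  have h := H.cl
  have C1 := h.C1
  have i2 := h.i2
  have YB : Y ≤ B := (H.YE 99).trans hB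
  have B0 : 0 ≤ B := H.Y0.le.trans YB
  obtain ⟨t, ht⟩ : ∃ t : ℕ → ℝ, ∀ k, t k = M.z k + 1 / (2 * S.C ^ 2) * (N.rb m a k - M.q k) :=
    ⟨_, fun _ => rfl⟩
  have e : Ioc S.jl (S.J - 1) = insert (S.J - 1) (Ico (S.jl + 1) (S.J - 1)) := by
    ext k; simp only [mem_Ioc, mem_insert, mem_Ico]; omega
  rw [e, sum_insert (by simp), ← sum_filter_add_sum_filter_not _ fun k => t k ≤ M.z (S.jl + 1),
    ← sum_filter_add_sum_filter_not (filter (fun k => ¬t k ≤ M.z (S.jl + 1)) _)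
      fun k => t k ≤ M.z (S.J - 1)]
  have a0 : M.dx (S.J - 1) * (N.rb m a (S.J - 1) - M.q (S.J - 1)) ^ 2 ≤ B :=
    (mul_le_of_le_one_right (H.dx0 _) (H.del1 (by omega))).trans
      ((H.dx_b (by omega) (by omega)).2.trans (H.vY.trans YB))
  have a1 := H.bot (T := (Ico (S.jl + 1) (S.J - 1)).filter fun k => t k ≤ M.z (S.jl + 1))
    fun k hk => by
      obtain ⟨b, d⟩ := mem_filter.1 hk
      rw [mem_Ico] at b
      exact ⟨by omega, by omega, ht k ▸ d⟩
  have a2 := H.mid X u0 hB D (A := ((Ico (S.jl + 1) (S.J - 1)).filter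
    fun k => ¬t k ≤ M.z (S.jl + 1)).filter fun k => t k ≤ M.z (S.J - 1)) fun k hk => by
      obtain ⟨b, d⟩ := mem_filter.1 hk
      obtain ⟨b, f⟩ := mem_filter.1 b
      rw [mem_Ico] at b
      exact ⟨b.1, b.2, ht k ▸ not_le.1 f, ht k ▸ d⟩
  have a3 := H.top (T := ((Ico (S.jl + 1) (S.J - 1)).filter
    fun k => ¬t k ≤ M.z (S.jl + 1)).filter fun k => ¬t k ≤ M.z (S.J - 1)) fun k hk => by
      obtain ⟨b, d⟩ := mem_filter.1 hk
      obtain ⟨b, f⟩ := mem_filter.1 b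
      rw [mem_Ico] at b
      exact ⟨by omega, by omega, ht k ▸ not_le.1 d⟩
  have c0 := mul_le_mul_of_nonneg_right (one_le_pow₀ (n := 11) C1) B0
  have c1 := mul_le_mul_of_nonneg_left YB (show 0 ≤ S.C ^ 11 by positivity)
  have c2 := mul_le_mul_of_nonneg_right (pow_le_pow_right₀ C1 (show 6 ≤ 11 by norm_num)) B0
  have c3 := mul_le_mul (pow_le_pow_right₀ C1 (show 2 ≤ 11 by norm_num)) hB
    (H.Y0.le.trans (H.YE 99)) (by positivity)
  linarith

end B33

open B33 Real in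
/-- **base moves** -/
theorem movB : MovB := by
  unfold MovB SR
  refine CL.triv.glue fun C => ⟨2, fun A hA ε η hε hη => ⟨1, min (min ε η) (1 / 2), 2541 * C ^ 11,
    one_pos, by positivity, fun S M m a G h _ _ => ?_⟩⟩
  intro l Ys Y c D b1 _ b3 _ u N B c1 c2 _ c4 c5 c6 c7 _ c9
  have n1 := G.N1.le
  have E1 : 1 ≤ (S.n : ℝ) ^ ε := one_le_rpow n1 hε.le
  have e1 : (S.n : ℝ) ^ min (min ε η) (1 / 2) ≤ (S.n : ℝ) ^ ε :=
    rpow_le_rpow_of_exponent_le n1 ((min_le_left _ _).trans (min_le_left _ _))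
  have e2 : (S.n : ℝ) ^ min (min ε η) (1 / 2) ≤ (S.n : ℝ) ^ η :=
    rpow_le_rpow_of_exponent_le n1 ((min_le_left _ _).trans (min_le_right _ _))
  have Y0 : 0 < Y := (G.rp0 _).trans_le b1.Y0
  have ed : N.del m a = fun k => N.rb m a k - M.q k := by funext k; rw [Md.del, c5]
  have H : Nb ((S.n : ℝ) ^ ε) Y l S M (N.rb m a) :=
    { cl := h
      th := G.Cθ h
      E1 := E1
      CE := ((G.C_le h).trans e1).trans (le_self_pow₀ E1 (by norm_num))
      vY := by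
        refine le_trans (G.le_of_lg (mul_pos h.C0 h.v0) (G.rp0 _) ?_) b1.Y0
        have a1 := (G.lg_C h).2
        have a2 := (G.lg_v h).2
        have a3 : (2 : ℝ) ≤ A := by exact_mod_cast hA
        rw [logb_mul h.C0.ne' h.v0.ne', G.lg_rp]
        linarith [min_le_right (min ε η) (1 / 2)]
      P1 := (mul_le_mul_of_nonneg_right (pow_le_pow_right₀ E1 (by norm_num)) Y0.le).trans
        (b1.Y1.trans (rpow_le_one_of_one_le_of_nonpos n1 (by norm_num)))
      jl := b1.jl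
      l3 := b1.l3
      flat := b1.flat
      rm := Md67.rb_mono c2
      r0 := Md67.rb_nonneg c2
      r1 := Md67.rb_le_one c2
      phi := by
        rw [← ed]
        refine le_trans (le_of_eq ?_) c6
        unfold Md.Phi Md.sq Md.dx
        rw [c4] }
  have k := core H b3 c1 c7 c9
  have B0 : 0 ≤ B := (H.Y0.le.trans (H.YE 99)).trans c7
  rw [ed]
  refine k.trans (mul_le_mul_of_nonneg_right ?_ B0)
  rw [G.hC]
  exact G.K_le.trans e2

end Crest.Agent.T156.Alt.Sr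

end
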