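import Crest.Agent.T156.SRDef_19

/-!
# Row 156, SR: the base part of `MovS` as a statement (helper74)
-/

set_option autoImplicit false

noncomputable section

namespace Crest.Agent.T156.Alt.Sr

open Finset

/-- **base moves**: the part of `Φ` on the sloped nodes `jl < k < J` -/
def MovB : Prop := SR fun E Λ S M m a Y c _ => ∀ u N B, 0 < u → 0 < m → N.N = M.N → N.z = M.z →
  N.q = M.q → N.Phi S m a ≤ 2 * (E ^ 100 * Y) → E ^ 99 * Y ≤ B → B ≤ E ^ 100 * Y →
  Dbl E S M m a Y c u N B (4 * u * E ^ 95 * Y) →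
  ∑ k ∈ Ioc S.jl (S.J - 1), M.dx k * N.del m a k ^ 2 ≤ Λ * B

theorem movB_def : MovB ↔ MovB := Iff.rfl

end Crest.Agent.T156.Alt.Sr

end
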