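import Mathlib

/-!
# Row 156, soft recursion (docs/T156_19G.md), leaf S6: the move on the plateau (helper17)

Frame-free.  Labels `x A < … < x B`, distance `ρ` to the ends, movable slices `w`.  The slice `k`
goes up (by about `ρ k / 4`) if `r k ≥ q` and down (by about `ρ k / 8`) otherwise.
-/

set_option autoImplicit false

noncomputable section

namespace Crest.Agent.T156.Sr17

open Finset

/-- the grid of the plateau -/
structure Gd (x ρ w : ℕ → ℝ) (A B : ℕ) (C η : ℝ) : Prop where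
  C1 : 1 ≤ C
  η0 : 0 < η
  inc : ∀ i, A ≤ i → i < B → x i < x (i + 1)
  msh : ∀ i, A ≤ i → i < B → x (i + 1) - x i ≤ η
  r0 : ∀ k, A ≤ k → k ≤ B → 0 ≤ ρ k
  lo : ∀ k, A ≤ k → k ≤ B → x A ≤ x k - ρ k
  hi : ∀ k, A ≤ k → k ≤ B → x k + ρ k ≤ x B
  lip : ∀ i k, A ≤ i → i ≤ B → A ≤ k → k ≤ B → ρ k - ρ i ≤ |x i - x k|
  w0 : ∀ k, 0 ≤ w k
  cmp : ∀ i k, A ≤ i → i < B → A ≤ k → k < B → |x i - x k| ≤ ρ k / 4 →
    w k ≤ C * w i ∧ x (k + 1) - x k ≤ C * (x (i + 1) - x i) ∧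
      x (i + 1) - x i ≤ C * (x (k + 1) - x k)

/-- the weighted `L¹` deviation -/
def Zp (ρ w : ℕ → ℝ) (A B : ℕ) (q : ℝ) (r : ℕ → ℝ) : ℝ := ∑ k ∈ Ico A B, w k * ρ k * |r k - q|

/-- change of the cumulated marks at the node `j` -/
def Gm (w : ℕ → ℝ) (φ : ℕ → ℕ) (A B j : ℕ) : ℝ :=
  ∑ k ∈ Ico A B, w k * ((if φ k < j then 1 else 0) - if k < j then 1 else 0)

/-- the distance to the ends -/
def dst (x : ℕ → ℝ) (A B k : ℕ) : ℝ := min (x k - x A) (x B - x k)

/-- the target label -/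
def tg (x ρ : ℕ → ℝ) (q : ℝ) (r : ℕ → ℝ) (k : ℕ) : ℝ :=
  if q ≤ r k then x k + ρ k / 4 else x k - ρ k / 8

open Classical in
/-- the grid map -/
def mp (x ρ : ℕ → ℝ) (A B : ℕ) (η q : ℝ) (r : ℕ → ℝ) (k : ℕ) : ℕ :=
  if A ≤ k ∧ k < B ∧ 16 * η ≤ ρ k then
    Nat.findGreatest (fun i => A ≤ i ∧ x i ≤ tg x ρ q r k) B else k

theorem dst_lip (x : ℕ → ℝ) (A B i k : ℕ) : dst x A B k - dst x A B i ≤ |x i - x k| := by
  have h1 := le_abs_self (x i - x k)
  have h2 := neg_abs_le (x i - x k)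
  have h3 := min_le_left (x k - x A) (x B - x k)
  have h4 := min_le_right (x k - x A) (x B - x k)
  unfold dst
  rcases le_total (x i - x A) (x B - x i) with h | h
  · rw [min_eq_left h]; linarith
  · rw [min_eq_right h]; linarith

theorem dst_lo (x : ℕ → ℝ) (A B k : ℕ) : x A ≤ x k - dst x A B k := by
  have := min_le_left (x k - x A) (x B - x k)
  unfold dst; linarith

theorem dst_hi (x : ℕ → ℝ) (A B k : ℕ) : x k + dst x A B k ≤ x B := by
  have := min_le_right (x k - x A) (x B - x k)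
  unfold dst; linarith

theorem mono_of_inc {x : ℕ → ℝ} {A B : ℕ} (inc : ∀ i, A ≤ i → i < B → x i < x (i + 1))
    {i k : ℕ} (hi : A ≤ i) (hik : i ≤ k) (hk : k ≤ B) : x i ≤ x k := by
  induction k, hik using Nat.le_induction with
  | base => exact le_rfl
  | succ k h ih => exact (ih (by omega)).trans (inc k (by omega) (by omega)).le

theorem dst_nonneg {x : ℕ → ℝ} {A B : ℕ} (inc : ∀ i, A ≤ i → i < B → x i < x (i + 1))
    {k : ℕ} (h1 : A ≤ k) (h2 : k ≤ B) : 0 ≤ dst x A B k :=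
  le_min (sub_nonneg.2 (mono_of_inc inc le_rfl h1 h2)) (sub_nonneg.2 (mono_of_inc inc h1 h2 le_rfl))

namespace Gd

variable {x ρ w : ℕ → ℝ} {A B : ℕ} {C η : ℝ} (H : Gd x ρ w A B C η)
include H

theorem mono {i k : ℕ} (hi : A ≤ i) (hik : i ≤ k) (hk : k ≤ B) : x i ≤ x k :=
  mono_of_inc H.inc hi hik hk

/-- counting nodes -/
theorem cnt (T : Finset ℕ) {d D E : ℝ} (hD : 0 ≤ D) (hE : 0 ≤ E) (hT : ∀ k ∈ T, A ≤ k ∧ k < B)
    (h1 : ∀ k ∈ T, d ≤ C * (x (k + 1) - x k) ∧ x (k + 1) - x k ≤ E)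
    (h2 : ∀ k ∈ T, ∀ k' ∈ T, k ≤ k' → x k' - x k ≤ D) : T.card * d ≤ C * (D + E) := by
  have hC := H.C1
  rcases T.eq_empty_or_nonempty with rfl | hne
  · simp only [card_empty, Nat.cast_zero, zero_mul]; positivity
  set a := T.min' hne
  set b := T.max' hne
  have ha : a ∈ T := T.min'_mem hne
  have hb : b ∈ T := T.max'_mem hne
  have hab : a ≤ b := T.min'_le _ hb
  have s1 : (T.card : ℝ) * d ≤ ∑ k ∈ T, C * (x (k + 1) - x k) := by
    rw [← nsmul_eq_mul, ← sum_const]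
    exact sum_le_sum fun k hk => (h1 k hk).1
  have s2 : ∑ k ∈ T, (x (k + 1) - x k) ≤ ∑ k ∈ Ico a (b + 1), (x (k + 1) - x k) := by
    refine sum_le_sum_of_subset_of_nonneg (fun k hk => mem_Ico.2
      ⟨T.min'_le _ hk, Nat.lt_succ_of_le (T.le_max' _ hk)⟩) fun k hk _ => ?_
    have := mem_Ico.1 hk
    have := hT a ha
    have := hT b hb
    exact (sub_pos.2 (H.inc k (by omega) (by omega))).le
  rw [sum_Ico_sub x (by omega)] at s2
  rw [← mul_sum] at s1
  have := h2 a ha b hb hab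
  have := (h1 b hb).2
  exact s1.trans (mul_le_mul_of_nonneg_left (by linarith) (by linarith))

variable (q : ℝ) (r : ℕ → ℝ)

omit H in
theorem mp_fix {k : ℕ} (h : ¬(A ≤ k ∧ k < B ∧ 16 * η ≤ ρ k)) : mp x ρ A B η q r k = k := if_neg h

/-- the image of a movable node -/
theorem mp_spec {k : ℕ} (h : A ≤ k ∧ k < B ∧ 16 * η ≤ ρ k) :
    A ≤ mp x ρ A B η q r k ∧ mp x ρ A B η q r k < B ∧ x (mp x ρ A B η q r k) ≤ tg x ρ q r k ∧
      tg x ρ q r k < x (mp x ρ A B η q r k + 1) := by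
  classical
  have hη := H.η0
  have l1 := H.lo k h.1 h.2.1.le
  have l2 := H.hi k h.1 h.2.1.le
  have t1 : x A ≤ tg x ρ q r k := by unfold tg; split_ifs <;> linarith [h.2.2]
  have t2 : tg x ρ q r k < x B := by unfold tg; split_ifs <;> linarith [h.2.2]
  have e : mp x ρ A B η q r k = Nat.findGreatest (fun i => A ≤ i ∧ x i ≤ tg x ρ q r k) B := by
    unfold mp; rw [if_pos h]
  have s := Nat.findGreatest_spec (P := fun i => A ≤ i ∧ x i ≤ tg x ρ q r k) (m := A) (n := B)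
    (by omega) ⟨le_rfl, t1⟩
  have l := Nat.findGreatest_le (P := fun i => A ≤ i ∧ x i ≤ tg x ρ q r k) B
  rw [← e] at s l
  have hlt : mp x ρ A B η q r k < B := lt_of_le_of_ne l fun h' => by
    have := s.2; rw [h'] at this; linarith
  refine ⟨s.1, hlt, s.2, lt_of_not_ge fun h' => ?_⟩
  have := Nat.le_findGreatest (P := fun i => A ≤ i ∧ x i ≤ tg x ρ q r k)
    (m := mp x ρ A B η q r k + 1) (n := B) hlt ⟨by omega, h'⟩
  rw [← e] at this
  omega

theorem mp_mem {k : ℕ} (h1 : A ≤ k) (h2 : k < B) :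
    A ≤ mp x ρ A B η q r k ∧ mp x ρ A B η q r k < B := by
  by_cases h : A ≤ k ∧ k < B ∧ 16 * η ≤ ρ k
  · exact ⟨(H.mp_spec q r h).1, (H.mp_spec q r h).2.1⟩
  · rw [mp_fix q r h]; exact ⟨h1, h2⟩

/-- size and sign of the move -/
theorem mp_move {k : ℕ} (h : A ≤ k ∧ k < B ∧ 16 * η ≤ ρ k) :
    |x (mp x ρ A B η q r k) - x k| ≤ ρ k / 4 ∧
      ρ k / 8 * |r k - q| ≤ (x (mp x ρ A B η q r k) - x k) * (r k - q) := by
  obtain ⟨a1, a2, a3, a4⟩ := H.mp_spec q r h
  have m := H.msh _ a1 a2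
  have hη := H.η0
  have h3 := h.2.2
  unfold tg at a3 a4
  split_ifs at a3 a4 with hq
  · refine ⟨abs_le.2 ⟨by linarith, by linarith⟩, ?_⟩
    rw [abs_of_nonneg (sub_nonneg.2 hq)]
    exact mul_le_mul_of_nonneg_right (by linarith) (sub_nonneg.2 hq)
  · refine ⟨abs_le.2 ⟨by linarith, by linarith⟩, ?_⟩
    have hq' : r k - q < 0 := by linarith [not_le.1 hq]
    rw [abs_of_neg hq']
    nlinarith

theorem abs_move {k : ℕ} (h1 : A ≤ k) (h2 : k < B) :
    |x (mp x ρ A B η q r k) - x k| ≤ ρ k / 4 := by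
  by_cases h : A ≤ k ∧ k < B ∧ 16 * η ≤ ρ k
  · exact (H.mp_move q r h).1
  · rw [mp_fix q r h, sub_self, abs_zero]
    linarith [H.r0 k h1 h2.le]

/-- bounded multiplicity of the grid map -/
theorem mult {i : ℕ} (h1 : A ≤ i) (h2 : i < B) :
    ((((Ico A B).filter fun k => 16 * η ≤ ρ k ∧ mp x ρ A B η q r k = i).card : ℕ) : ℝ) ≤
      2 * (C * (2 + C)) := by
  classical
  have hC := H.C1
  have hδ : 0 < x (i + 1) - x i := sub_pos.2 (H.inc i h1 h2)
  have key : ∀ (P : Prop) [Decidable P], ((((Ico A B).filter fun k =>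
      (16 * η ≤ ρ k ∧ mp x ρ A B η q r k = i) ∧ (q ≤ r k ↔ P)).card : ℕ) : ℝ) ≤ C * (2 + C) := by
    intro P _
    have := H.cnt ((Ico A B).filter fun k =>
      (16 * η ≤ ρ k ∧ mp x ρ A B η q r k = i) ∧ (q ≤ r k ↔ P)) (d := x (i + 1) - x i)
      (D := 2 * (x (i + 1) - x i)) (E := C * (x (i + 1) - x i)) (by positivity) (by positivity)
      (fun k hk => mem_Ico.1 (mem_filter.1 hk).1) (fun k hk => ?_) (fun k hk k' hk' hkk => ?_)
    · refine le_of_mul_le_mul_right (this.trans (le_of_eq ?_)) hδ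
      ring
    · obtain ⟨hk1, ⟨hk2, hk3⟩, -⟩ := mem_filter.1 hk
      have hk1 := mem_Ico.1 hk1
      have := H.abs_move q r hk1.1 hk1.2
      rw [hk3] at this
      have c := H.cmp i k h1 h2 hk1.1 hk1.2 this
      exact ⟨c.2.2, c.2.1⟩
    · obtain ⟨hk1, ⟨hk2, hk3⟩, hk4⟩ := mem_filter.1 hk
      obtain ⟨hl1, ⟨hl2, hl3⟩, hl4⟩ := mem_filter.1 hk'
      have hk1 := mem_Ico.1 hk1
      have hl1 := mem_Ico.1 hl1
      have s1 := (H.mp_spec q r ⟨hk1.1, hk1.2, hk2⟩).2.2.1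
      have s2 := (H.mp_spec q r ⟨hl1.1, hl1.2, hl2⟩).2.2.2
      rw [hk3] at s1
      rw [hl3] at s2
      have m := H.mono hk1.1 hkk hl1.2.le
      have l1 := H.lip k k' hk1.1 hk1.2.le hl1.1 hl1.2.le
      have l2 := H.lip k' k hl1.1 hl1.2.le hk1.1 hk1.2.le
      rw [abs_of_nonpos (by linarith)] at l1
      rw [abs_of_nonneg (by linarith)] at l2
      unfold tg at s1 s2
      by_cases hP : P
      · rw [if_pos (hk4.2 hP)] at s1
        rw [if_pos (hl4.2 hP)] at s2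
        linarith
      · rw [if_neg fun h => hP (hk4.1 h)] at s1
        rw [if_neg fun h => hP (hl4.1 h)] at s2
        linarith
  have sub : ((Ico A B).filter fun k => 16 * η ≤ ρ k ∧ mp x ρ A B η q r k = i) ⊆
      ((Ico A B).filter fun k => (16 * η ≤ ρ k ∧ mp x ρ A B η q r k = i) ∧ (q ≤ r k ↔ True)) ∪
      ((Ico A B).filter fun k => (16 * η ≤ ρ k ∧ mp x ρ A B η q r k = i) ∧ (q ≤ r k ↔ False)) := by
    intro k hk
    obtain ⟨a, b⟩ := mem_filter.1 hk
    by_cases hq : q ≤ r k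
    · exact mem_union_left _ (mem_filter.2 ⟨a, b, by simp [hq]⟩)
    · exact mem_union_right _ (mem_filter.2 ⟨a, b, by simp [hq]⟩)
  have c1 := (card_le_card sub).trans (card_union_le _ _)
  have c2 : ((((Ico A B).filter fun k => 16 * η ≤ ρ k ∧ mp x ρ A B η q r k = i).card : ℕ) : ℝ) ≤
    _ := Nat.cast_le.2 c1
  push_cast at c2
  have k1 := key True
  have k2 := key False
  linarith

/-- **the plateau step**: from the two (MV) inequalities and the double step -/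
theorem step (r' : ℕ → ℝ) {X M : ℝ} (hM : ∀ k, A ≤ k → k < B → |r k - q| ≤ M)
    (h : ∑ k ∈ Ico A B, w k * (x (mp x ρ A B η q r k) - x k) * r k ≤
      ∑ k ∈ Ico A B, w k * (x (mp x ρ A B η q r k) - x k) * r' (mp x ρ A B η q r k) + X) :
    Zp ρ w A B q r ≤ 6 * C ^ 2 * (2 + C) * Zp ρ w A B q r' + 8 * X +
      16 * η * M * ∑ k ∈ Ico A B, w k := by
  classical
  have hC := H.C1
  have hη := H.η0
  set φ := mp x ρ A B η q r with hφ
  have h' : ∑ k ∈ Ico A B, w k * (x (φ k) - x k) * (r k - q) ≤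
      ∑ k ∈ Ico A B, w k * (x (φ k) - x k) * (r' (φ k) - q) + X := by
    simp only [mul_sub (w _ * _), sum_sub_distrib]
    linarith
  have low : Zp ρ w A B q r ≤ 8 * ∑ k ∈ Ico A B, w k * (x (φ k) - x k) * (r k - q) +
      16 * η * M * ∑ k ∈ Ico A B, w k := by
    unfold Zp
    rw [mul_sum, mul_sum, ← sum_add_distrib]
    refine sum_le_sum fun k hk => ?_
    have hk := mem_Ico.1 hk
    have w0 := H.w0 k
    have M0 := (abs_nonneg _).trans (hM k hk.1 hk.2)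
    by_cases hS : A ≤ k ∧ k < B ∧ 16 * η ≤ ρ k
    · have := mul_le_mul_of_nonneg_left (H.mp_move q r hS).2 w0
      have : 0 ≤ 16 * η * M * w k := by positivity
      rw [← hφ] at *
      nlinarith
    · have e : φ k = k := mp_fix q r hS
      have hρ : ρ k ≤ 16 * η := le_of_not_ge fun h => hS ⟨hk.1, hk.2, h⟩
      rw [e, sub_self, mul_zero, zero_mul, mul_zero, zero_add]
      calc w k * ρ k * |r k - q| ≤ w k * (16 * η) * M :=
            mul_le_mul (mul_le_mul_of_nonneg_left hρ w0) (hM k hk.1 hk.2) (abs_nonneg _)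
              (by positivity)
        _ = _ := by ring
  have up : ∑ k ∈ Ico A B, w k * (x (φ k) - x k) * (r' (φ k) - q) ≤
      2 / 3 * C ^ 2 * (2 + C) * Zp ρ w A B q r' := by
    have s1 : ∑ k ∈ Ico A B, w k * (x (φ k) - x k) * (r' (φ k) - q) ≤
        ∑ k ∈ (Ico A B).filter fun k => 16 * η ≤ ρ k,
          C / 3 * (w (φ k) * ρ (φ k) * |r' (φ k) - q|) := by
      rw [sum_filter]
      refine sum_le_sum fun k hk => ?_
      have hk := mem_Ico.1 hk
      split_ifs with hS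
      · have m := H.mp_mem q r hk.1 hk.2
        have a := H.abs_move q r hk.1 hk.2
        rw [← hφ] at m a
        have c := (H.cmp (φ k) k m.1 m.2 hk.1 hk.2 a).1
        have l := H.lip (φ k) k m.1 m.2.le hk.1 hk.2.le
        have w0 := H.w0 k
        have w1 := H.w0 (φ k)
        calc w k * (x (φ k) - x k) * (r' (φ k) - q) ≤ w k * (|x (φ k) - x k| * |r' (φ k) - q|) := by
              rw [mul_assoc, ← abs_mul]
              exact mul_le_mul_of_nonneg_left (le_abs_self _) w0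
          _ ≤ C * w (φ k) * (ρ (φ k) / 3 * |r' (φ k) - q|) :=
              mul_le_mul c (mul_le_mul_of_nonneg_right (by linarith) (abs_nonneg _))
                (by positivity) (by positivity)
          _ = _ := by ring
      · have e : φ k = k := mp_fix q r fun h => hS h.2.2
        rw [e, sub_self, mul_zero, zero_mul]
    have s2 : ∑ k ∈ (Ico A B).filter fun k => 16 * η ≤ ρ k,
          C / 3 * (w (φ k) * ρ (φ k) * |r' (φ k) - q|) =
        ∑ i ∈ Ico A B, (((Ico A B).filter fun k => 16 * η ≤ ρ k ∧ φ k = i).card : ℝ) *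
          (C / 3 * (w i * ρ i * |r' i - q|)) := by
      rw [← sum_fiberwise_of_maps_to (s := (Ico A B).filter fun k => 16 * η ≤ ρ k) (t := Ico A B)
        (g := φ) fun k hk => by
          have hk := mem_Ico.1 (mem_filter.1 hk).1
          exact mem_Ico.2 (H.mp_mem q r hk.1 hk.2)]
      refine sum_congr rfl fun i _ => ?_
      rw [filter_filter, ← nsmul_eq_mul, ← sum_const]
      exact sum_congr rfl fun k hk => by rw [(mem_filter.1 hk).2.2]
    refine s1.trans (s2.trans_le ?_)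
    unfold Zp
    rw [mul_sum]
    refine sum_le_sum fun i hi => ?_
    have hi := mem_Ico.1 hi
    have w0 := H.w0 i
    have r0 := H.r0 i hi.1 hi.2.le
    refine (mul_le_mul_of_nonneg_right (H.mult q r hi.1 hi.2) (by positivity)).trans (le_of_eq ?_)
    ring
  have Z0 : 0 ≤ C ^ 2 * (2 + C) * Zp ρ w A B q r' := by
    refine mul_nonneg (by positivity) (sum_nonneg fun k hk => ?_)
    have hk := mem_Ico.1 hk
    have := H.w0 k
    have := H.r0 k hk.1 hk.2.le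
    positivity
  nlinarith

/-- the marks do not change outside the plateau -/
theorem Gm_out {j : ℕ} (hj : j ≤ A ∨ B ≤ j) : Gm w (mp x ρ A B η q r) A B j = 0 := by
  refine sum_eq_zero fun k hk => ?_
  have hk := mem_Ico.1 hk
  have m := H.mp_mem q r hk.1 hk.2
  rcases hj with hj | hj
  · rw [if_neg (by omega), if_neg (by omega), sub_self, mul_zero]
  · rw [if_pos (by omega), if_pos (by omega), sub_self, mul_zero]

/-- **size of the moved marks** -/
theorem abs_Gm_le {j : ℕ} (h1 : A ≤ j) (h2 : j < B) :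
    |Gm w (mp x ρ A B η q r) A B j| * (x (j + 1) - x j) ≤
      C ^ 2 * w j * (ρ j + C * (x (j + 1) - x j)) := by
  classical
  have hC := H.C1
  have hδ : 0 < x (j + 1) - x j := sub_pos.2 (H.inc j h1 h2)
  have wj := H.w0 j
  have rj := H.r0 j h1 h2.le
  set φ := mp x ρ A B η q r with hφ
  set T := (Ico A B).filter fun k => |x j - x k| ≤ ρ k / 4 with hT
  have s1 : |Gm w φ A B j| ≤ ∑ _k ∈ T, C * w j := by
    refine (abs_sum_le_sum_abs _ _).trans ?_
    rw [hT, sum_filter]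
    refine sum_le_sum fun k hk => ?_
    have hk := mem_Ico.1 hk
    have w0 := H.w0 k
    have m := H.mp_mem q r hk.1 hk.2
    have a := abs_le.1 (H.abs_move q r hk.1 hk.2)
    rw [← hφ] at m a
    by_cases hc : |x j - x k| ≤ ρ k / 4
    · rw [if_pos hc]
      refine le_trans ?_ (H.cmp j k h1 h2 hk.1 hk.2 hc).1
      rw [abs_mul, abs_of_nonneg w0]
      refine mul_le_of_le_one_right w0 ?_
      split_ifs <;> norm_num
    · rw [if_neg hc]
      have e : (φ k < j) ↔ (k < j) := by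
        constructor
        · intro h
          by_contra h'
          have := H.mono m.1 h.le h2.le
          have := H.mono h1 (not_lt.1 h') hk.2.le
          exact hc (abs_le.2 ⟨by linarith, by linarith [H.r0 k hk.1 hk.2.le]⟩)
        · intro h
          by_contra h'
          have := H.mono h1 (not_lt.1 h') m.2.le
          have := H.mono hk.1 h.le h2.le
          exact hc (abs_le.2 ⟨by linarith [H.r0 k hk.1 hk.2.le], by linarith⟩)
      simp only [e, sub_self, mul_zero, abs_zero, le_refl]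
  have nb : ∀ k ∈ T, |x j - x k| ≤ ρ j / 3 := fun k hk => by
    obtain ⟨a, b⟩ := mem_filter.1 hk
    have a := mem_Ico.1 a
    have := H.lip j k h1 h2.le a.1 a.2.le
    linarith
  have c := H.cnt T (d := x (j + 1) - x j) (D := ρ j) (E := C * (x (j + 1) - x j)) rj
    (by positivity) (fun k hk => mem_Ico.1 (mem_filter.1 hk).1) (fun k hk => by
      obtain ⟨a, b⟩ := mem_filter.1 hk
      have a := mem_Ico.1 a
      have c := H.cmp j k h1 h2 a.1 a.2 b
      exact ⟨c.2.2, c.2.1⟩) fun k hk k' hk' _ => by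
      have := abs_le.1 (nb k hk)
      have := abs_le.1 (nb k' hk')
      linarith
  rw [sum_const, nsmul_eq_mul] at s1
  calc |Gm w φ A B j| * (x (j + 1) - x j) ≤ T.card * (C * w j) * (x (j + 1) - x j) :=
        mul_le_mul_of_nonneg_right s1 hδ.le
    _ = C * w j * (T.card * (x (j + 1) - x j)) := by ring
    _ ≤ C * w j * (C * (ρ j + C * (x (j + 1) - x j))) :=
        mul_le_mul_of_nonneg_left c (by positivity)
    _ = _ := by ring

end Gd

/-! ### from `Zp` to the quadratic deviation and back -/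

section quad

variable {a dz f : ℕ → ℝ} {A B : ℕ}

/-- negative deviations persist downwards -/
theorem neg_le (ha : ∀ k, A ≤ k → k < B → 0 ≤ a k)
    (hf : ∀ i k, A ≤ i → i ≤ k → k < B → f i ≤ f k) {k : ℕ} (h2 : k < B) :
    -f k * ∑ i ∈ Icc A k, a i ≤ ∑ i ∈ Ico A B, a i * |f i| := by
  rw [mul_sum]
  refine (sum_le_sum fun i hi => ?_).trans (sum_le_sum_of_subset_of_nonneg
    (fun i hi => mem_Ico.2 ⟨(mem_Icc.1 hi).1, by have := mem_Icc.1 hi; omega⟩) fun i hi _ =>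
      mul_nonneg (ha i (mem_Ico.1 hi).1 (mem_Ico.1 hi).2) (abs_nonneg _))
  have hi := mem_Icc.1 hi
  rw [mul_comm]
  exact mul_le_mul_of_nonneg_left (by linarith [neg_abs_le (f i), hf i k hi.1 hi.2 h2])
    (ha i hi.1 (by omega))

/-- positive deviations persist upwards -/
theorem pos_le (ha : ∀ k, A ≤ k → k < B → 0 ≤ a k)
    (hf : ∀ i k, A ≤ i → i ≤ k → k < B → f i ≤ f k) {k : ℕ} (h1 : A ≤ k) :
    f k * ∑ i ∈ Ico k B, a i ≤ ∑ i ∈ Ico A B, a i * |f i| := by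
  rw [mul_sum]
  refine (sum_le_sum fun i hi => ?_).trans (sum_le_sum_of_subset_of_nonneg
    (Ico_subset_Ico h1 le_rfl) fun i hi _ =>
      mul_nonneg (ha i (mem_Ico.1 hi).1 (mem_Ico.1 hi).2) (abs_nonneg _))
  have hi := mem_Ico.1 hi
  rw [mul_comm]
  exact mul_le_mul_of_nonneg_left (by linarith [le_abs_self (f i), hf k i h1 hi.1 hi.2])
    (ha i (by omega) hi.2)

/-- one node: `f k ² g ≤ Z²` if `g ≤ Lo²` and `g ≤ Up²` -/
theorem sq_le_node (ha : ∀ k, A ≤ k → k < B → 0 ≤ a k)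
    (hf : ∀ i k, A ≤ i → i ≤ k → k < B → f i ≤ f k) {k : ℕ} (h1 : A ≤ k) (h2 : k < B) {g : ℝ}
    (hL : f k ≤ 0 → g ≤ (∑ i ∈ Icc A k, a i) ^ 2) (hU : 0 ≤ f k → g ≤ (∑ i ∈ Ico k B, a i) ^ 2) :
    f k ^ 2 * g ≤ (∑ i ∈ Ico A B, a i * |f i|) ^ 2 := by
  rcases le_total (f k) 0 with h | h
  · have s0 : 0 ≤ ∑ i ∈ Icc A k, a i :=
      sum_nonneg fun i hi => ha i (mem_Icc.1 hi).1 (by have := mem_Icc.1 hi; omega)
    calc f k ^ 2 * g ≤ f k ^ 2 * (∑ i ∈ Icc A k, a i) ^ 2 :=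
          mul_le_mul_of_nonneg_left (hL h) (sq_nonneg _)
      _ = (-f k * ∑ i ∈ Icc A k, a i) ^ 2 := by ring
      _ ≤ _ := pow_le_pow_left₀ (mul_nonneg (by linarith) s0) (neg_le ha hf h2) 2
  · have s0 : 0 ≤ ∑ i ∈ Ico k B, a i :=
      sum_nonneg fun i hi => ha i (by have := mem_Ico.1 hi; omega) (mem_Ico.1 hi).2
    calc f k ^ 2 * g ≤ f k ^ 2 * (∑ i ∈ Ico k B, a i) ^ 2 :=
          mul_le_mul_of_nonneg_left (hU h) (sq_nonneg _)
      _ = (f k * ∑ i ∈ Ico k B, a i) ^ 2 := by ring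
      _ ≤ _ := pow_le_pow_left₀ (mul_nonneg h s0) (pos_le ha hf h1) 2

/-- **the quadratic deviation on the plateau**.  Nodes `[A, k0)` (bottom, weight `≤ u0`, `-f A ≤ D`),
`[k0, k1)` (bulk), `[k1, B']` (top, weight `≤ u1`, `|f| ≤ M`). -/
theorem phi_le (ha : ∀ k, A ≤ k → k < B → 0 ≤ a k)
    (hf : ∀ i k, A ≤ i → i ≤ k → k < B → f i ≤ f k) (hz : ∀ k, 0 ≤ dz k) {k0 k1 B' : ℕ}
    (h0 : A ≤ k0) (h01 : k0 < k1) (h1 : k1 ≤ B) (hB : k1 ≤ B') {g : ℕ → ℝ} {u0 u1 D M Lg : ℝ}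
    (hg : ∀ k, k0 ≤ k → k < k1 → 0 < g k ∧ g k ≤ (∑ i ∈ Icc A k, a i) ^ 2 ∧
      g k ≤ (∑ i ∈ Ico k B, a i) ^ 2)
    (hLg : u0 / g k0 + ∑ k ∈ Ico k0 k1, dz k / g k ≤ Lg) (hu0 : ∑ k ∈ Ico A k0, dz k ≤ u0)
    (hu1 : ∑ k ∈ Ico k1 B', dz k ≤ u1) (hD : -f A ≤ D) (hD0 : 0 ≤ D)
    (hM : ∀ k, k1 ≤ k → k < B' → |f k| ≤ M) :
    ∑ k ∈ Ico A B', dz k * f k ^ 2 ≤
      Lg * (∑ i ∈ Ico A B, a i * |f i|) ^ 2 + u0 * D ^ 2 + u1 * M ^ 2 := by
  set Z := ∑ i ∈ Ico A B, a i * |f i| with hZ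
  have nd : ∀ k, k0 ≤ k → k < k1 → f k ^ 2 ≤ Z ^ 2 / g k := fun k a1 a2 =>
    (le_div_iff₀ (hg k a1 a2).1).2 (sq_le_node ha hf (by omega) (by omega)
      (fun _ => (hg k a1 a2).2.1) fun _ => (hg k a1 a2).2.2)
  have g0 := (hg k0 le_rfl h01).1
  rw [← sum_Ico_consecutive _ h0 (by omega : k0 ≤ B'),
    ← sum_Ico_consecutive _ h01.le hB]
  have p1 : ∑ k ∈ Ico A k0, dz k * f k ^ 2 ≤ u0 * (D ^ 2 + Z ^ 2 / g k0) := by
    refine (sum_le_sum fun k hk => mul_le_mul_of_nonneg_left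
      (show f k ^ 2 ≤ D ^ 2 + Z ^ 2 / g k0 from ?_) (hz k)).trans ?_
    · have hk := mem_Ico.1 hk
      have b1 := hf A k le_rfl hk.1 (by omega)
      have b2 := hf k k0 hk.1 hk.2.le (by omega)
      have b3 := nd k0 le_rfl h01
      have b4 : 0 ≤ Z ^ 2 / g k0 := by positivity
      rcases le_total (f k) 0 with h | h
      · nlinarith
      · nlinarith [sq_nonneg D]
    · rw [← sum_mul]
      exact mul_le_mul_of_nonneg_right hu0 (by positivity)
  have p2 : ∑ k ∈ Ico k0 k1, dz k * f k ^ 2 ≤ (∑ k ∈ Ico k0 k1, dz k / g k) * Z ^ 2 := by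
    rw [sum_mul]
    refine sum_le_sum fun k hk => ?_
    have hk := mem_Ico.1 hk
    refine (mul_le_mul_of_nonneg_left (nd k hk.1 hk.2) (hz k)).trans (le_of_eq ?_)
    ring
  have p3 : ∑ k ∈ Ico k1 B', dz k * f k ^ 2 ≤ u1 * M ^ 2 := by
    refine (sum_le_sum fun k hk => mul_le_mul_of_nonneg_left
      (show f k ^ 2 ≤ M ^ 2 from ?_) (hz k)).trans ?_
    · have hk := mem_Ico.1 hk
      exact sq_le_sq' (abs_le.1 (hM k hk.1 hk.2)).1 (abs_le.1 (hM k hk.1 hk.2)).2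
    · rw [← sum_mul]
      exact mul_le_mul_of_nonneg_right hu1 (sq_nonneg _)
  have p4 := mul_le_mul_of_nonneg_right hLg (sq_nonneg Z)
  have e : u0 * (D ^ 2 + Z ^ 2 / g k0) = u0 * D ^ 2 + u0 / g k0 * Z ^ 2 := by ring
  linarith

/-- Cauchy–Schwarz: `Z² ≤ (∑ a² / dz) Φ` -/
theorem z_sq_le (S : Finset ℕ) (hz : ∀ k ∈ S, 0 < dz k) :
    (∑ k ∈ S, a k * |f k|) ^ 2 ≤ (∑ k ∈ S, a k ^ 2 / dz k) * ∑ k ∈ S, dz k * f k ^ 2 :=
  sum_sq_le_sum_mul_sum_of_sq_le_mul S (fun k hk => div_nonneg (sq_nonneg _) (hz k hk).le)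
    (fun k hk => mul_nonneg (hz k hk).le (sq_nonneg _)) fun k hk => le_of_eq (by
      have := (hz k hk).ne'
      rw [mul_pow, sq_abs]
      field_simp)

end quad

/-! ### closing -/

/-- **backward induction along one path** with the threshold `l` -/
theorem back {z : ℕ → ℝ} {N : ℕ} {l : ℝ} (hl : 0 ≤ l) (hN : z N ≤ l)
    (hs : ∀ i < N, z i ≤ z (i + 1) + l)
    (h : ∀ i < N, (∀ j, i ≤ j → j ≤ N → z j ≤ 2 * l) → z i ≤ l) : ∀ i ≤ N, z i ≤ l := by
  have key : ∀ d i, i + d = N → ∀ j, i ≤ j → j ≤ N → z j ≤ l := by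
    intro d
    induction d with
    | zero => intro i hi j h1 h2; rw [show j = N by omega]; exact hN
    | succ d ih =>
      intro i hi j h1 h2
      have ih' := ih (i + 1) (by omega)
      rcases h1.eq_or_lt with rfl | h1
      · refine h i (by omega) fun j' a1 a2 => ?_
        rcases a1.eq_or_lt with rfl | a1
        · linarith [hs i (by omega), ih' (i + 1) le_rfl (by omega)]
        · linarith [ih' j' a1 a2]
      · exact ih' j h1 h2
  exact fun i hi => key (N - i) i (by omega) i le_rfl hi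

/-- the same with a quadratic right side -/
theorem back_sq {z : ℕ → ℝ} {N : ℕ} {l b β : ℝ} (hl : 0 ≤ l) (hN : z N ≤ l)
    (hs : ∀ i < N, z i ≤ z (i + 1) + l) (hb : b + β * (2 * l) ^ 2 ≤ l)
    (h : ∀ i < N, ∀ y, 0 ≤ y → (∀ j, i ≤ j → j ≤ N → z j ≤ y) → z i ≤ b + β * y ^ 2) :
    ∀ i ≤ N, z i ≤ l :=
  back hl hN hs fun i hi hy => (h i hi (2 * l) (by linarith) hy).trans hb

/-- **linear chain on a class** (rounds form): `J` steps to the terminal time -/
theorem chain {σ : Type*} (In : σ → Prop) (u Z : σ → ℝ) {K C X ZT d u0 : ℝ} (hK : 0 ≤ K)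
    (hC : 1 ≤ C) (hX : 0 ≤ X) (hT0 : 0 ≤ ZT)
    (hs : ∀ s, In s → u0 ≤ u s → u s < d → ∃ s', In s' ∧ u0 ≤ u s' ∧ K * u s ≤ u s' ∧
      Z s ≤ C * Z s' + X)
    (hT : ∀ s, In s → d ≤ u s → Z s ≤ ZT) :
    ∀ (J : ℕ) (s : σ), In s → u0 ≤ u s → d ≤ K ^ J * u s → Z s ≤ C ^ J * (ZT + J * X)
  | 0, s, h1, _, h3 => by simpa using hT s h1 (by simpa using h3)
  | J + 1, s, h1, h2, h3 => by
    have c1 : 1 ≤ C ^ J := one_le_pow₀ hC
    have c2 : 1 ≤ C ^ (J + 1) := one_le_pow₀ hC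
    rcases le_or_gt d (u s) with h | h
    · refine (hT s h1 h).trans ?_
      have : 0 ≤ ((J + 1 : ℕ) : ℝ) * X := by positivity
      nlinarith
    · obtain ⟨s', a1, a2, a3, a4⟩ := hs s h1 h2 h
      have ih := chain In u Z hK hC hX hT0 hs hT J s' a1 a2 (h3.trans (by
        rw [pow_succ, mul_assoc]
        exact mul_le_mul_of_nonneg_left a3 (by positivity)))
      have := mul_le_mul_of_nonneg_left ih (by linarith : 0 ≤ C)
      have e : C ^ (J + 1) * (ZT + ((J + 1 : ℕ) : ℝ) * X) =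
          C * (C ^ J * (ZT + J * X)) + C ^ (J + 1) * X := by push_cast; ring
      rw [e]
      nlinarith

end Crest.Agent.T156.Sr17

end
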