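import Crest.Agent.T156.SrB_72

/-!
# Row 156, SR: the plateau move as a SHIFT of one window (helper74)

Slices of constant weight `η` on `N` consecutive levels are moved by `N` levels (up or down); the
map is injective, so floor and ceiling of the marks change by `η` only.
-/

set_option autoImplicit false

noncomputable section

namespace Crest.Agent.T156.Sr74

open Finset Real
open Crest.Agent.T156.Alt.SrB72 (G G_succ G_eq)

/-- quasi-uniform mesh on the levels `[b, b + 2 N)` -/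
structure Wn (z : ℕ → ℝ) (b N : ℕ) (δ C : ℝ) : Prop where
  zm : Monotone z
  d0 : 0 < δ
  ms : ∀ k, b ≤ k → k < b + 2 * N → δ ≤ z (k + 1) - z k ∧ z (k + 1) - z k ≤ C * δ

/-- lower half of the window -/
def lo (b N : ℕ) : Finset ℕ := Ico b (b + N)
/-- upper half of the window -/
def hi (b N : ℕ) : Finset ℕ := Ico (b + N) (b + 2 * N)
/-- marks moved up -/
def GU (η : ℝ) (b N : ℕ) : ℕ → ℝ := G (fun _ => η) (lo b N) (fun k => k + N)
/-- marks moved down -/
def GD (η : ℝ) (b N : ℕ) : ℕ → ℝ := G (fun _ => η) (hi b N) (fun k => k - N)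

variable {z : ℕ → ℝ} {b N : ℕ} {δ C η : ℝ}

theorem Wn.inc (H : Wn z b N δ C) {i : ℕ} (hi : b ≤ i) : ∀ t : ℕ, i + t ≤ b + 2 * N →
    t * δ ≤ z (i + t) - z i ∧ z (i + t) - z i ≤ t * (C * δ)
  | 0, _ => by simp
  | t + 1, h => by
    obtain ⟨a1, a2⟩ := H.inc hi t (by omega)
    obtain ⟨a3, a4⟩ := H.ms (i + t) (by omega) (by omega)
    rw [← add_assoc]
    push_cast
    constructor <;> linarith

theorem GU_succ (η : ℝ) (b N j : ℕ) : GU η b N (j + 1) - GU η b N j =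
    (if j ∈ hi b N then η else 0) - if j ∈ lo b N then η else 0 := by
  rw [GU, G_succ]
  congr 1
  split_ifs with h
  · have h' := mem_Ico.1 h
    rw [Finset.sum_eq_single_of_mem (j - N)]
    · simp only [lo, mem_filter, mem_Ico]; omega
    · intro k hk hne
      simp only [lo, mem_filter, mem_Ico] at hk; omega
  · refine Finset.sum_eq_zero fun k hk => ?_
    simp only [lo, hi, mem_filter, mem_Ico] at hk h; omega

theorem GD_succ (η : ℝ) (b N j : ℕ) : GD η b N (j + 1) - GD η b N j =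
    (if j ∈ lo b N then η else 0) - if j ∈ hi b N then η else 0 := by
  rw [GD, G_succ]
  congr 1
  split_ifs with h
  · have h' := mem_Ico.1 h
    rw [Finset.sum_eq_single_of_mem (j + N)]
    · simp only [hi, mem_filter, mem_Ico]; omega
    · intro k hk hne
      simp only [hi, mem_filter, mem_Ico] at hk; omega
  · refine Finset.sum_eq_zero fun k hk => ?_
    simp only [lo, hi, mem_filter, mem_Ico] at hk h; omega

theorem GD_eq (η : ℝ) (b N : ℕ) : ∀ j, GD η b N j = -GU η b N j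
  | 0 => by simp [GD, GU, G]
  | j + 1 => by
    have := GD_succ η b N j
    have := GU_succ η b N j
    have := GD_eq η b N j
    linarith

theorem GU_eq (η : ℝ) (b N j : ℕ) :
    GU η b N j = -(((lo b N).filter fun k => k < j ∧ j ≤ k + N).card * η) := by
  rw [GU, G_eq, Finset.sum_eq_zero fun k hk => by simp only [mem_filter] at hk; omega]
  simp

theorem GU_zero (η : ℝ) {b N j : ℕ} (h : j ≤ b ∨ b + 2 * N ≤ j) : GU η b N j = 0 := by
  rw [GU_eq, Finset.filter_eq_empty_iff.2 fun k hk => by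
    simp only [lo, mem_Ico] at hk; omega]
  simp

theorem GD_zero (η : ℝ) {b N j : ℕ} (h : j ≤ b ∨ b + 2 * N ≤ j) : GD η b N j = 0 := by
  rw [GD_eq, GU_zero η h, neg_zero]

theorem abs_GU (hη : 0 ≤ η) (b N j : ℕ) : |GU η b N j| ≤ N * η := by
  rw [GU_eq, abs_neg, abs_of_nonneg (by positivity)]
  refine mul_le_mul_of_nonneg_right (Nat.cast_le.2 ((card_filter_le _ _).trans ?_)) hη
  simp [lo]

theorem abs_GD (hη : 0 ≤ η) (b N j : ℕ) : |GD η b N j| ≤ N * η := by
  rw [GD_eq, abs_neg]; exact abs_GU hη b N j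

theorem tel (z : ℕ → ℝ) {a c : ℕ} (h : a ≤ c) : ∑ j ∈ Ioc a c, (z j - z (j - 1)) = z c - z a := by
  induction c, h using Nat.le_induction with
  | base => simp
  | succ c hc ih => rw [Finset.sum_Ioc_succ_top hc, ih]; simp

theorem dz_nonneg (zm : Monotone z) (j : ℕ) : 0 ≤ z j - z (j - 1) :=
  sub_nonneg.2 (zm (Nat.sub_le _ _))

theorem sq_GU (zm : Monotone z) (hη : 0 ≤ η) (b N : ℕ) (B : Finset ℕ) :
    ∑ j ∈ B, (z j - z (j - 1)) * GU η b N j ^ 2 ≤ (N * η) ^ 2 * (z (b + 2 * N) - z b) := by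
  have h0 : ∀ j, 0 ≤ (z j - z (j - 1)) * GU η b N j ^ 2 := fun j =>
    mul_nonneg (dz_nonneg zm j) (sq_nonneg _)
  rw [← Finset.sum_filter_of_ne (p := fun j => j ∈ Ioc b (b + 2 * N)) fun j _ hj => by
    by_contra h
    rw [GU_zero η (by simp only [mem_Ioc] at h; omega)] at hj
    simp at hj]
  refine (Finset.sum_le_sum_of_subset_of_nonneg (t := Ioc b (b + 2 * N))
    (fun j hj => (mem_filter.1 hj).2) fun j _ _ => h0 j).trans ?_
  rw [← tel z (by omega : b ≤ b + 2 * N), Finset.mul_sum]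
  refine Finset.sum_le_sum fun j _ => ?_
  rw [mul_comm]
  refine mul_le_mul_of_nonneg_right ?_ (dz_nonneg zm j)
  rw [← sq_abs]
  exact pow_le_pow_left₀ (abs_nonneg _) (abs_GU hη b N j) 2

theorem sq_GD (zm : Monotone z) (hη : 0 ≤ η) (b N : ℕ) (B : Finset ℕ) :
    ∑ j ∈ B, (z j - z (j - 1)) * GD η b N j ^ 2 ≤ (N * η) ^ 2 * (z (b + 2 * N) - z b) := by
  simp only [GD_eq, neg_sq]; exact sq_GU zm hη b N B

theorem gain {A : Finset ℕ} {c s s' : ℕ → ℝ} {m R R' X : ℝ} (hm : 0 < m) (hX : 0 ≤ X)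
    (c0 : ∀ k ∈ A, 0 ≤ c k) (hc : m ≤ ∑ k ∈ A, c k) (h1 : ∀ k ∈ A, R ≤ s k)
    (h2 : ∀ k ∈ A, s' k ≤ R') (h : ∑ k ∈ A, c k * s k ≤ ∑ k ∈ A, c k * s' k + X) :
    R - R' ≤ X / m := by
  rcases le_total R R' with h3 | h3
  · exact (sub_nonpos.2 h3).trans (by positivity)
  have a1 : ∑ k ∈ A, c k * R ≤ ∑ k ∈ A, c k * s k :=
    Finset.sum_le_sum fun k hk => mul_le_mul_of_nonneg_left (h1 k hk) (c0 k hk)
  have a2 : ∑ k ∈ A, c k * s' k ≤ ∑ k ∈ A, c k * R' :=
    Finset.sum_le_sum fun k hk => mul_le_mul_of_nonneg_left (h2 k hk) (c0 k hk)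
  rw [← Finset.sum_mul] at a1 a2
  rw [le_div_iff₀ hm]
  nlinarith [mul_le_mul_of_nonneg_right hc (sub_nonneg.2 h3)]

theorem Wn.gainU (H : Wn z b N δ C) (hN : 0 < N) (hη : 0 < η) {s s' : ℕ → ℝ} {R R' X : ℝ}
    (hX : 0 ≤ X) (h1 : ∀ k ∈ lo b N, R ≤ s k) (h2 : ∀ k ∈ lo b N, s' k ≤ R')
    (h : ∑ k ∈ lo b N, η * (z (k + N) - z k) * s k ≤
      ∑ k ∈ lo b N, η * (z (k + N) - z k) * s' k + X) : R - R' ≤ X / (N * (η * (N * δ))) := by
  have := H.d0
  refine gain (by positivity) hX (fun k _ => mul_nonneg hη.le (sub_nonneg.2 (H.zm (by omega))))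
    ?_ h1 h2 h
  have := Finset.card_nsmul_le_sum (lo b N) (fun k => η * (z (k + N) - z k)) (η * (N * δ))
    fun k hk => by
      have hk' := mem_Ico.1 hk
      exact mul_le_mul_of_nonneg_left (H.inc hk'.1 N (by omega)).1 hη.le
  simpa [lo] using this

theorem Wn.gainD (H : Wn z b N δ C) (hN : 0 < N) (hη : 0 < η) {s s' : ℕ → ℝ} {R R' X : ℝ}
    (hX : 0 ≤ X) (h1 : ∀ k ∈ hi b N, s k ≤ R) (h2 : ∀ k ∈ hi b N, R' ≤ s' k)
    (h : ∑ k ∈ hi b N, η * (z (k - N) - z k) * s k ≤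
      ∑ k ∈ hi b N, η * (z (k - N) - z k) * s' k + X) : R' - R ≤ X / (N * (η * (N * δ))) := by
  have := H.d0
  have key := gain (A := hi b N) (c := fun k => η * (z k - z (k - N))) (s := fun k => -s k)
    (s' := fun k => -s' k) (m := N * (η * (N * δ))) (R := -R) (R' := -R') (by positivity) hX
    (fun k _ => mul_nonneg hη.le (sub_nonneg.2 (H.zm (by omega)))) ?_
    (fun k hk => neg_le_neg (h1 k hk)) (fun k hk => neg_le_neg (h2 k hk)) ?_
  · linarith
  · have := Finset.card_nsmul_le_sum (hi b N) (fun k => η * (z k - z (k - N))) (η * (N * δ))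
      fun k hk => by
        have hk' := mem_Ico.1 hk
        have := (H.inc (i := k - N) (by omega) N (by omega)).1
        rw [show k - N + N = k by omega] at this
        exact mul_le_mul_of_nonneg_left this hη.le
    simpa [hi, show b + 2 * N - (b + N) = N by omega] using this
  · have e : ∀ f : ℕ → ℝ, ∑ k ∈ hi b N, η * (z k - z (k - N)) * -f k =
        ∑ k ∈ hi b N, η * (z (k - N) - z k) * f k := fun f =>
      Finset.sum_congr rfl fun k _ => by ring
    rw [e, e]; exact h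

/-! ### the choice of the window -/

/-- a window of total length `≤ u / 2` and the weight `η = g δ / u^{3/2}` -/
structure Sh (z : ℕ → ℝ) (b N : ℕ) (δ C u g η : ℝ) : Prop extends Wn z b N δ C where
  C1 : 1 ≤ C
  u0 : 0 < u
  g0 : 0 < g
  N1 : 4 * N * (C * δ) ≤ u
  N2 : u ≤ 8 * N * (C * δ)
  e : η = g * δ / (u * √u)

theorem exists_N {δ C u : ℝ} (hδ : 0 < δ) (hC : 1 ≤ C) (hu : 4 * (C * δ) ≤ u) :
    ∃ N : ℕ, 4 * N * (C * δ) ≤ u ∧ u ≤ 8 * N * (C * δ) := by
  have h0 : 0 < C * δ := by positivity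
  have h1 : 1 ≤ u / (4 * (C * δ)) := by rwa [le_div_iff₀ (by positivity), one_mul]
  refine ⟨⌊u / (4 * (C * δ))⌋₊, ?_, ?_⟩
  · have := Nat.floor_le (show 0 ≤ u / (4 * (C * δ)) by linarith)
    rw [le_div_iff₀ (by positivity)] at this
    linarith
  · have a1 := Nat.lt_floor_add_one (u / (4 * (C * δ)))
    have a2 : (1 : ℝ) ≤ ⌊u / (4 * (C * δ))⌋₊ := by exact_mod_cast Nat.one_le_floor_iff _ |>.2 h1
    rw [div_lt_iff₀ (by positivity)] at a1
    nlinarith

/-- a window starting at `a` -/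
theorem exists_up (zm : Monotone z) {a : ℕ} {u g : ℝ} (hδ : 0 < δ) (hC : 1 ≤ C) (hg : 0 < g)
    (hu : 4 * (C * δ) ≤ u) (ms : ∀ k, a ≤ k → z k < z a + u / 2 →
      δ ≤ z (k + 1) - z k ∧ z (k + 1) - z k ≤ C * δ) : ∃ N η, Sh z a N δ C u g η := by
  obtain ⟨N, h1, h2⟩ := exists_N hδ hC hu
  have h0 : 0 < C * δ := by positivity
  have key : ∀ t : ℕ, t ≤ 2 * N → z (a + t) ≤ z a + t * (C * δ) := by
    intro t
    induction t with
    | zero => simp
    | succ t ih =>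
      intro ht
      have a1 := ih (by omega)
      have a2 : (t : ℝ) + 1 ≤ 2 * N := by exact_mod_cast ht
      have := (ms (a + t) (by omega) (by nlinarith)).2
      rw [← add_assoc]
      push_cast
      linarith
  refine ⟨N, _, ⟨zm, hδ, fun k k1 k2 => ms k k1 ?_⟩, hC, by linarith, hg, h1, h2, rfl⟩
  obtain ⟨t, rfl⟩ := Nat.exists_eq_add_of_le k1
  have a1 := key t (by omega)
  have a2 : (t : ℝ) + 1 ≤ 2 * N := by exact_mod_cast (by omega : t + 1 ≤ 2 * N)
  nlinarith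

/-- a window ending at `a`, above the index `J` -/
theorem exists_down (zm : Monotone z) {a J : ℕ} {u g : ℝ} (hδ : 0 < δ) (hC : 1 ≤ C) (hg : 0 < g)
    (hu : 4 * (C * δ) ≤ u) (hJ : z J ≤ z a - u / 2) (ms : ∀ k, k < a → z a - u / 2 < z (k + 1) →
      δ ≤ z (k + 1) - z k ∧ z (k + 1) - z k ≤ C * δ) :
    ∃ b N η, J ≤ b ∧ b + 2 * N = a ∧ Sh z b N δ C u g η := by
  obtain ⟨N, h1, h2⟩ := exists_N hδ hC hu
  have h0 : 0 < C * δ := by positivity
  have hJa : J ≤ a := by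
    by_contra h
    have := zm (not_le.1 h).le
    linarith
  have key : ∀ t : ℕ, t ≤ 2 * N → J + t ≤ a ∧ z a - t * (C * δ) ≤ z (a - t) := by
    intro t
    induction t with
    | zero => simpa using hJa
    | succ t ih =>
      intro ht
      obtain ⟨a0, a1⟩ := ih (by omega)
      have a2 : (t : ℝ) + 1 ≤ 2 * N := by exact_mod_cast ht
      have a3 : z a - u / 2 < z (a - t) := by nlinarith
      have a4 : J < a - t := by
        by_contra h
        have := zm (not_lt.1 h)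
        linarith
      have := (ms (a - (t + 1)) (by omega) (by rwa [show a - (t + 1) + 1 = a - t by omega])).2
      rw [show a - (t + 1) + 1 = a - t by omega] at this
      refine ⟨by omega, ?_⟩
      push_cast
      linarith
  have k0 := (key (2 * N) le_rfl).1
  refine ⟨a - 2 * N, N, _, by omega, by omega,
    ⟨zm, hδ, fun k k1 k2 => ms k (by omega) ?_⟩, hC, by linarith, hg, h1, h2, rfl⟩
  have a1 := (key (a - (k + 1)) (by omega)).2
  rw [show a - (a - (k + 1)) = k + 1 by omega] at a1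
  have a2 : ((a - (k + 1) : ℕ) : ℝ) + 1 ≤ 2 * N := by
    exact_mod_cast (by omega : a - (k + 1) + 1 ≤ 2 * N)
  nlinarith

namespace Sh

variable {u g : ℝ} (H : Sh z b N δ C u g η)
include H

theorem N_pos : 0 < N := by
  rcases Nat.eq_zero_or_pos N with rfl | h
  · have := H.N2; have := H.u0; simp at *; linarith
  · exact h

theorem eta_pos : 0 < η := by
  have := H.u0; have := H.g0; have := H.d0
  rw [H.e]; positivity

theorem len : z (b + 2 * N) - z b ≤ u / 2 := by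
  have := (H.toWn.inc le_rfl (2 * N) le_rfl).2
  have := H.N1
  push_cast at *
  linarith

/-- floor and ceiling: the weight against the density `g u^{-3/2}` -/
theorem eta_le {k : ℕ} (h1 : b ≤ k) (h2 : k < b + 2 * N) :
    η ≤ g * (z (k + 1) - z k) / (u * √u) := by
  have := H.u0; have := H.g0
  rw [H.e]
  gcongr
  exact (H.ms k h1 h2).1

theorem mass : N * η ≤ g / (4 * √u) := by
  have hu := H.u0; have := H.g0; have := H.d0
  have hs : 0 < √u := sqrt_pos.2 hu
  have a1 : 4 * N * δ ≤ u := le_trans (by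
    have := H.C1
    gcongr
    exact le_mul_of_one_le_left H.d0.le this) H.N1
  rw [H.e, ← mul_div_assoc, div_le_div_iff₀ (by positivity) (by positivity)]
  nlinarith [mul_le_mul_of_nonneg_left a1 (by positivity : 0 ≤ g * √u)]

theorem mass_sq : (N * η) ^ 2 * (z (b + 2 * N) - z b) ≤ g ^ 2 / 32 := by
  have hu := H.u0; have := H.eta_pos
  have a1 : (N * η) ^ 2 ≤ (g / (4 * √u)) ^ 2 := pow_le_pow_left₀ (by positivity) H.mass 2
  rw [div_pow, mul_pow, mul_pow, sq_sqrt hu.le, ← mul_pow] at a1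
  refine (mul_le_mul a1 H.len (sub_nonneg.2 (H.zm (by omega))) (by positivity)).trans (le_of_eq ?_)
  field_simp
  ring

theorem sqU (B : Finset ℕ) : ∑ j ∈ B, (z j - z (j - 1)) * GU η b N j ^ 2 ≤ g ^ 2 / 32 :=
  (sq_GU H.zm H.eta_pos.le b N B).trans H.mass_sq

theorem sqD (B : Finset ℕ) : ∑ j ∈ B, (z j - z (j - 1)) * GD η b N j ^ 2 ≤ g ^ 2 / 32 :=
  (sq_GD H.zm H.eta_pos.le b N B).trans H.mass_sq

theorem den {X : ℝ} (hX : 0 ≤ X) : X / (N * (η * (N * δ))) ≤ 64 * C ^ 2 * X / (g * √u) := by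
  have hu := H.u0; have := H.g0; have := H.d0; have := H.eta_pos
  have hN : (0 : ℝ) < N := by exact_mod_cast H.N_pos
  have hs : 0 < √u := sqrt_pos.2 hu
  have a1 : u ^ 2 ≤ (8 * N * (C * δ)) ^ 2 := pow_le_pow_left₀ hu.le H.N2 2
  rw [div_le_div_iff₀ (by positivity) (by positivity), mul_assoc, mul_comm X, mul_assoc,
    mul_comm X, ← mul_assoc, ← mul_assoc]
  refine mul_le_mul_of_nonneg_right ?_ hX
  have e : 64 * C ^ 2 * (N * (η * (N * δ))) = g * (8 * N * (C * δ)) ^ 2 / (u * √u) := by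
    rw [H.e]; ring
  have e2 : g * √u = g * u ^ 2 / (u * √u) := by
    rw [eq_div_iff (by positivity)]
    linear_combination (g * u) * mul_self_sqrt hu.le
  rw [e, e2]
  gcongr

/-- **gain of the move up** -/
theorem gainU {s s' : ℕ → ℝ} {R R' X : ℝ} (hX : 0 ≤ X) (h1 : ∀ k ∈ lo b N, R ≤ s k)
    (h2 : ∀ k ∈ lo b N, s' k ≤ R') (h : ∑ k ∈ lo b N, η * (z (k + N) - z k) * s k ≤
      ∑ k ∈ lo b N, η * (z (k + N) - z k) * s' k + X) : R - R' ≤ 64 * C ^ 2 * X / (g * √u) :=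
  (H.toWn.gainU H.N_pos H.eta_pos hX h1 h2 h).trans (H.den hX)

/-- **gain of the move down** -/
theorem gainD {s s' : ℕ → ℝ} {R R' X : ℝ} (hX : 0 ≤ X) (h1 : ∀ k ∈ hi b N, s k ≤ R)
    (h2 : ∀ k ∈ hi b N, R' ≤ s' k) (h : ∑ k ∈ hi b N, η * (z (k - N) - z k) * s k ≤
      ∑ k ∈ hi b N, η * (z (k - N) - z k) * s' k + X) : R' - R ≤ 64 * C ^ 2 * X / (g * √u) :=
  (H.toWn.gainD H.N_pos H.eta_pos hX h1 h2 h).trans (H.den hX)

end Sh

/-! ### monotone profiles -/

/-- a monotone profile is bounded by its energy above the node -/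
theorem top_le (zm : Monotone z) {r : ℕ → ℝ} {q P : ℝ} {B : Finset ℕ} {c e : ℕ} (hce : c ≤ e)
    (hB : Ioc c e ⊆ B) (hr : ∀ j, c < j → j ≤ e → r c ≤ r j)
    (hP : ∑ j ∈ B, (z j - z (j - 1)) * (r j - q) ^ 2 ≤ P) {u : ℝ} (hu : 0 < u)
    (h : u ≤ z e - z c) : r c - q ≤ √(P / u) := by
  rcases le_total (r c) q with h0 | h0
  · exact (sub_nonpos.2 h0).trans (sqrt_nonneg _)
  refine le_sqrt_of_sq_le ?_
  rw [le_div_iff₀ hu]
  refine (mul_le_mul_of_nonneg_left h (sq_nonneg _)).trans (le_trans ?_ hP)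
  rw [← tel z hce, Finset.mul_sum]
  refine le_trans (Finset.sum_le_sum fun j hj => ?_) (Finset.sum_le_sum_of_subset_of_nonneg hB
    fun j _ _ => mul_nonneg (dz_nonneg zm j) (sq_nonneg _))
  rw [mul_comm]
  have := hr j (mem_Ioc.1 hj).1 (mem_Ioc.1 hj).2
  exact mul_le_mul_of_nonneg_left (pow_le_pow_left₀ (by linarith) (by linarith) 2) (dz_nonneg zm j)

/-- and below the node -/
theorem bot_le (zm : Monotone z) {r : ℕ → ℝ} {q P : ℝ} {B : Finset ℕ} {c e : ℕ} (hce : e ≤ c)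
    (hB : Ioc e c ⊆ B) (hr : ∀ j, e < j → j ≤ c → r j ≤ r c)
    (hP : ∑ j ∈ B, (z j - z (j - 1)) * (r j - q) ^ 2 ≤ P) {u : ℝ} (hu : 0 < u)
    (h : u ≤ z c - z e) : q - r c ≤ √(P / u) := by
  rcases le_total q (r c) with h0 | h0
  · exact (sub_nonpos.2 h0).trans (sqrt_nonneg _)
  refine le_sqrt_of_sq_le ?_
  rw [le_div_iff₀ hu]
  refine (mul_le_mul_of_nonneg_left h (sq_nonneg _)).trans (le_trans ?_ hP)
  rw [← tel z hce, Finset.mul_sum]
  refine le_trans (Finset.sum_le_sum fun j hj => ?_) (Finset.sum_le_sum_of_subset_of_nonneg hB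
    fun j _ _ => mul_nonneg (dz_nonneg zm j) (sq_nonneg _))
  rw [mul_comm, ← neg_sq (r j - q), neg_sub]
  have := hr j (mem_Ioc.1 hj).1 (mem_Ioc.1 hj).2
  exact mul_le_mul_of_nonneg_left (pow_le_pow_left₀ (by linarith) (by linarith) 2) (dz_nonneg zm j)

end Crest.Agent.T156.Sr74
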