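import Crest.Agent.T156.SrV_79
import Crest.Agent.T156.QCl_33
import Crest.Agent.T156.ClReg_29

/-!
# Row 156, soft recursion, leaf (VAR): sloped blocks and low levels on the class (helper79)
-/

set_option autoImplicit false
set_option linter.unusedSectionVars false

noncomputable section

namespace Crest.Agent.T156.Alt.V79

open Real Finset
open Crest.Agent.T157.E Crest.Agent.T157.Casc Crest.Agent.T157.SL
open Crest.Agent.T157.G1 (ov)
open Crest.Agent.T156.Cas Crest.Agent.T156.Cas.Sy41 Crest.Agent.T156.Cas.Q33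
open Crest.Agent.T156.Cas.Wr5 Crest.Agent.T156.Cas.SrD79 Crest.Agent.T156.Alt.Md67

/-- a member `M` of the class, a legal model `N` on the same grid with the floor of `M`, numbers -/
structure Pair (S : Sc) (M N : Md) (m : ℕ) (a lam : ℝ) : Prop where
  cl : Cl S M
  mem : S.In m a
  lg : Md67.Lg N m a
  eN : N.N = M.N
  ez : N.z = M.z
  flr : ∀ k, S.jl ≤ k → k < S.Jp → S.ms (M.s k) * S.v / (S.C * S.F) ≤ N.H (k + 1) - N.H k
  big : 1000 * S.C ^ 6 ≤ lam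
  n30 : lam ^ 30 ≤ S.n
  A2 : 2 ≤ S.A
  lN : log M.N ≤ 2 * lam ^ 2
  th : S.C * S.θ ≤ 1 / 2

/-- the level `l` and the size `Y` -/
structure Lev (S : Sc) (M : Md) (lam L l Y : ℝ) : Prop where
  L1 : 1 ≤ L
  jj : S.j0 = S.jl
  jl : M.s S.jl ≤ l
  l3 : l ^ 3 ≤ Y
  wl : (lam * L) ^ 3 * S.w3 l ≤ l ^ 3
  bas : ∀ t, l ≤ t → t ≤ S.C → t ^ 3 * S.w3 t ^ 2 ≤ Y ^ 3
  sm : lam * L * l ≤ 1

theorem sl_arith {C t w x y Y N : ℝ} (hC : 1 ≤ C) (t0 : 0 < t) (w0 : 0 < w) (x0 : 0 < x)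
    (y0 : 0 < y) (hy : y ≤ 2 * C ^ 2 * w ^ 3) (hx : t ≤ 2 * C * x) (hw : w ≤ t) (hY : t * w ^ 2 ≤ Y)
    (h1 : t ≤ 16 * C * N) (h2 : N ≤ C * t) :
    4 * C ^ 3 * t * y / w ≤ 256 * C ^ 6 * Y ∧ 4 * C ^ 3 * t * (y / (C * x)) ≤ 256 * C ^ 6 * Y ∧
    N / C * w ^ 2 ≤ 256 * C ^ 6 * Y ∧ (y / w) ^ 2 ≤ 256 * C ^ 6 * Y * (N / C) ∧
    (y / (C * x)) ^ 2 ≤ 256 * C ^ 6 * Y * (N / C) := by
  have C0 : 0 < C := by linarith
  have Y0 : 0 < Y := lt_of_lt_of_le (by positivity) hY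
  have a1 : y / w ≤ 2 * C ^ 2 * w ^ 2 := by rw [div_le_iff₀ w0]; linarith
  have a2 : y / (C * x) ≤ 4 * C ^ 2 * w ^ 2 := by
    rw [div_le_iff₀ (by positivity)]
    calc y ≤ 2 * C ^ 2 * w ^ 2 * w := by linarith
      _ ≤ 2 * C ^ 2 * w ^ 2 * (2 * C * x) := by gcongr; linarith
      _ = _ := by ring
  have c5 : C ^ 5 * Y ≤ C ^ 6 * Y := by gcongr; norm_num
  have c0 : Y ≤ C ^ 6 * Y := le_mul_of_one_le_left Y0.le (one_le_pow₀ hC)
  have a3 : (4 * C ^ 2 * w ^ 2) ^ 2 ≤ 256 * C ^ 6 * Y * (N / C) := by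
    calc _ = 16 * C ^ 4 * (w ^ 2 * (w * w)) := by ring
      _ ≤ 16 * C ^ 4 * (w ^ 2 * (t * t)) := by gcongr
      _ = 16 * C ^ 4 * (t * w ^ 2) * t := by ring
      _ ≤ 16 * C ^ 4 * Y * (16 * C * N) := by gcongr
      _ = _ := by field_simp; ring
  have p5 : C ^ 5 * (t * w ^ 2) ≤ C ^ 5 * Y := by gcongr
  refine ⟨?_, ?_, ?_, le_trans (by gcongr; nlinarith [sq_nonneg (C * w)]) a3,
    le_trans (by gcongr) a3⟩
  · have := mul_le_mul_of_nonneg_left a1 (by positivity : 0 ≤ 4 * C ^ 3 * t)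
    rw [mul_div_assoc]; nlinarith
  · have := mul_le_mul_of_nonneg_left a2 (by positivity : 0 ≤ 4 * C ^ 3 * t)
    nlinarith
  · have : N / C * w ^ 2 ≤ t * w ^ 2 := by gcongr; rwa [div_le_iff₀' C0]
    nlinarith

theorem cube_ge {x : ℝ} (h : 1000 ≤ x) : x + x ^ 2 ≤ x ^ 3 := by nlinarith [sq_nonneg x]

theorem pos_of_mul_pos_of_nonneg_right' {x y : ℝ} (h : 0 < x * y) (hy : 0 ≤ y) : 0 < x := by
  by_contra e
  nlinarith

namespace Pair

variable {S : Sc} {M N : Md} {m : ℕ} {a lam L l Y Φ : ℝ} (P : Pair S M N m a lam)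
include P

theorem C1 : 1 ≤ S.C := P.cl.C1
theorem C6 : 1 ≤ S.C ^ 6 := one_le_pow₀ P.C1
theorem l1000 : 1000 ≤ lam := by linarith [P.big, P.C6]
theorem Cp {i : ℕ} (hi : i ≤ 6) : 1000 * S.C ^ i ≤ lam :=
  le_trans (by have := P.C1; gcongr) P.big
theorem lp {i : ℕ} (hi : i ≤ 30) : lam ^ i ≤ S.n :=
  (pow_le_pow_right₀ (by linarith [P.l1000]) hi).trans P.n30

theorem vn2 : S.v * (S.n : ℝ) ^ 2 ≤ S.C :=
  (mul_le_mul_of_nonneg_left (pow_le_pow_right₀ (by exact_mod_cast P.cl.n1) P.A2)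
    P.cl.v0.le).trans P.cl.v2

/-- `v n λ ≤ 1` -/
theorem vn : S.v * S.n * lam ≤ 1 := by
  have n0 := P.cl.N0
  have h1 := P.lp (i := 2) (by norm_num)
  have h2 := P.Cp (i := 1) (by norm_num)
  have h3 := P.l1000
  have h4 := P.vn2
  have v0 := P.cl.v0
  refine le_of_mul_le_mul_right ?_ n0
  have : S.C * lam ≤ S.n := by nlinarith
  nlinarith [mul_le_mul_of_nonneg_right h4 (by linarith : 0 ≤ lam)]

theorem fn : C33.Fn S M m a := by
  have n0 := P.cl.N0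
  have n1 : (1 : ℝ) ≤ S.n := by exact_mod_cast P.cl.n1
  have h2 := P.Cp (i := 1) (by norm_num)
  have h3 := P.l1000
  have v0 := P.cl.v0
  refine ⟨P.cl, P.mem, ?_, by have := P.A2; omega, ?_⟩
  · have : (3 : ℝ) ≤ S.n := by linarith [P.lp (i := 1) (by norm_num)]
    exact_mod_cast this
  have b2 : S.C * S.v ≤ (S.n : ℝ)⁻¹ := by
    rw [← one_div, le_div_iff₀ n0]
    nlinarith [P.vn, mul_pos v0 n0, P.C1]
  have b3 : (S.n : ℝ)⁻¹ ≤ (S.n : ℝ) ^ (-(1 : ℝ) / 6) := by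
    rw [← rpow_neg_one]
    exact rpow_le_rpow_of_exponent_le n1 (by norm_num)
  linarith [P.mem.a1, P.mem.a2, P.cl.leg.z0]

theorem vm : S.v * m ≤ 1 := by
  have : (m : ℝ) ≤ 2 * S.n := by exact_mod_cast P.mem.m2
  nlinarith [P.vn, mul_pos P.cl.v0 P.cl.N0, P.l1000, P.cl.v0]

theorem dz_eq {k : ℕ} (hk : 0 < k) : N.dz m a k = M.z k - M.z (k - 1) := by
  rw [dz_up P.lg.toLeg hk, P.ez]

theorem dz_sl {k : ℕ} (h1 : S.j0 < k) (h2 : k < S.J) :
    S.v / S.C ≤ N.dz m a k ∧ N.dz m a k ≤ S.C * S.v := by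
  obtain ⟨i, rfl⟩ : ∃ i, k = i + 1 := ⟨k - 1, by omega⟩
  rw [P.dz_eq (by omega), Nat.add_sub_cancel]
  exact P.cl.zs i (by omega) h2

theorem q_inc {k : ℕ} (hk : k < S.J) : M.q (k + 1) - M.q k ≤ S.C * S.v :=
  (P.cl.q_tel P.th (Nat.le_succ k) (hk.trans_le P.cl.i3)).2.trans (P.cl.ss k hk).2

theorem q_le {k : ℕ} (hk : k ≤ S.J) : M.q k ≤ S.C * (k * S.v) :=
  (P.cl.q_le_s (hk.trans P.cl.J_lt.le)).trans (P.fn.s_mem hk).2

theorem w3_anti {t t' : ℝ} (h0 : 0 < t) (h : t ≤ t') : S.w3 t' ≤ S.w3 t := by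
  have := P.cl.N0
  have := P.cl.ms_pos h0.le
  have := P.cl.msm h
  have := P.fn.F0
  have := h0.trans_le h
  unfold Sc.w3
  gcongr

/-- `(λ v)³ ≤ w³` -/
theorem w3_ge {t : ℝ} (h0 : 0 < t) (h : t ≤ S.C) : (lam * S.v) ^ 3 ≤ S.w3 t := by
  have n0 := P.cl.N0
  have n1 : (1 : ℝ) ≤ S.n := by exact_mod_cast P.cl.n1
  have m0 := P.cl.ms_pos h0.le
  have m1 := P.fn.ms_le_one t
  have v0 := P.cl.v0
  have l0 : 0 < lam := by linarith [P.l1000]
  have h1 : lam * S.v * S.n ≤ 1 := by linarith [P.vn]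
  have h2 : S.C ≤ S.n := by linarith [P.Cp (i := 1) (by norm_num), P.lp (i := 1) (by norm_num), P.C1]
  rw [Sc.w3, le_div_iff₀ (by positivity)]
  calc _ ≤ (lam * S.v) ^ 3 * (S.n * S.n * S.n) := by gcongr <;> linarith
    _ = (lam * S.v * S.n) ^ 3 := by ring
    _ ≤ 1 := pow_le_one₀ (by positivity) h1
    _ ≤ _ := P.cl.F1

theorem lg_log {n : ℕ} (h0 : 1 ≤ n) (hn : n ≤ M.N) :
    ((Nat.log 2 n : ℝ) + 2) * (Nat.log 2 n + 13) ≤ lam ^ 5 := by
  have l0 := P.l1000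
  have a1 : (Nat.log 2 n : ℝ) * log 2 ≤ 2 * lam ^ 2 := by
    rw [← log_pow]
    refine le_trans (log_le_log (by positivity) ?_) P.lN
    exact_mod_cast (Nat.pow_log_le_self 2 (by omega)).trans hn
  have a2 : (Nat.log 2 n : ℝ) ≤ 4 * lam ^ 2 := by
    nlinarith [log_two_gt_d9, Nat.cast_nonneg (α := ℝ) (Nat.log 2 n)]
  calc _ ≤ (5 * lam ^ 2) * (5 * lam ^ 2) := by gcongr <;> nlinarith
    _ = 25 * lam ^ 4 := by ring
    _ ≤ lam * lam ^ 4 := by gcongr; linarith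
    _ = _ := by ring

variable (V : Lev S M lam L l Y)
include V

theorem l0 : 0 < l := (P.cl.s_pos (P.cl.i0.trans P.cl.i1)).trans_le V.jl

theorem lC : l ≤ 1 := by
  have := P.l0 V
  have := one_le_mul_of_one_le_of_one_le (by linarith [P.l1000] : 1 ≤ lam) V.L1
  nlinarith [V.sm]

theorem Y0 : 0 < Y := (pow_pos (P.l0 V) 3).trans_le V.l3

/-- the width at the time `t` -/
theorem exists_w {t : ℝ} (h1 : l ≤ t) (h2 : t ≤ S.C) : ∃ w, 0 < w ∧ w ^ 3 = S.w3 t ∧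
    lam * S.v ≤ w ∧ lam * L * w ≤ t ∧ t * w ^ 2 ≤ Y := by
  have l0 := P.l0 V
  have t0 := l0.trans_le h1
  have p := P.fn.w3_pos t0
  have L0 : 0 < lam * L := mul_pos (by linarith [P.l1000]) (by linarith [V.L1])
  obtain ⟨w, w0, e⟩ : ∃ w : ℝ, 0 < w ∧ w ^ 3 = S.w3 t :=
    ⟨S.w3 t ^ ((3 : ℕ) : ℝ)⁻¹, rpow_pos_of_pos p _, rpow_inv_natCast_pow p.le (by norm_num)⟩
  refine ⟨w, w0, e, le_of_pow_le_pow_left₀ (n := 3) (by norm_num) w0.le (e ▸ P.w3_ge t0 h2),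
    le_of_pow_le_pow_left₀ (n := 3) (by norm_num) t0.le ?_,
    le_of_pow_le_pow_left₀ (n := 3) (by norm_num) (P.Y0 V).le ?_⟩
  · rw [mul_pow, e]
    exact ((mul_le_mul_of_nonneg_left (P.w3_anti l0 h1) (by positivity)).trans V.wl).trans
      (by gcongr)
  · rw [show (t * w ^ 2) ^ 3 = t ^ 3 * (w ^ 3) ^ 2 by ring, e]; exact V.bas t h1 h2

theorem v_le : lam * S.v ≤ l := by
  obtain ⟨w, w0, -, h1, h2, -⟩ := P.exists_w V le_rfl ((P.lC V).trans P.C1)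
  have := one_le_mul_of_one_le_of_one_le (by linarith [P.l1000] : 1 ≤ lam) V.L1
  nlinarith

theorem jl_le : S.jl * S.v ≤ S.C * l :=
  (P.fn.s_mem P.cl.jl_lt.le).1.trans (mul_le_mul_of_nonneg_left V.jl P.cl.C0.le)

set_option maxHeartbeats 400000 in
/-- **sloped blocks** -/
theorem vl {k : ℕ} (h1 : 4 * S.C * l ≤ k * S.v) (h2 : 2 * k ≤ S.J) :
    16 ≤ k ∧ S.jl < k - 3 * (k / 8) ∧ k + 5 * (k / 8) < S.J ∧ ∃ δ x μ ω T,
      VL N m a S.v (S.C ^ 2) L (256 * S.C ^ 6 * Y) M.q k (k / 8) δ x μ ω T := by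
  have C1 := P.C1
  have C0 := P.cl.C0
  have v0 := P.cl.v0
  have l0 := P.l0 V
  have hl := P.l1000
  have F := P.fn
  have k16 : 16 ≤ k := by
    have : (16 : ℝ) * S.v ≤ k * S.v := by
      linarith [P.v_le V, le_mul_of_one_le_left l0.le C1,
        mul_le_mul_of_nonneg_right (by linarith : 16 ≤ lam) v0.le]
    exact_mod_cast le_of_mul_le_mul_right this v0
  have kj : 4 * S.jl ≤ k := by
    have : (4 * S.jl : ℝ) * S.v ≤ k * S.v := by linarith [P.jl_le V]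
    exact_mod_cast le_of_mul_le_mul_right this v0
  set n := k / 8 with hn
  set i := k - 3 * n with hi
  have i1 : S.jl < i := by omega
  have i2 : k + 5 * n < S.J := by omega
  have j0 : S.j0 = S.jl := V.jj
  have J1 := P.cl.i3
  have J2 := P.cl.J_lt
  have r1 : (k : ℝ) ≤ 2 * i := by exact_mod_cast (by omega : k ≤ 2 * i)
  have r2 : (i : ℝ) ≤ 16 * n := by exact_mod_cast (by omega : i ≤ 16 * n)
  have r3 : (n : ℝ) ≤ i := by exact_mod_cast (by omega : n ≤ i)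
  have r4 : ((k + 4 * n : ℕ) : ℝ) ≤ 3 * i := by exact_mod_cast (by omega : k + 4 * n ≤ 3 * i)
  obtain ⟨s1, s2⟩ := F.s_mem (k := i) (by omega)
  set t := M.s i with ht
  have t1 : l ≤ t := by
    refine le_of_mul_le_mul_left ?_ C0
    linarith [mul_le_mul_of_nonneg_right r1 v0.le, mul_pos C0 l0]
  have t0 := l0.trans_le t1
  have t2 : t ≤ S.C := P.cl.s_le_C (by omega)
  obtain ⟨w, w0, w3, w1, w2, w4⟩ := P.exists_w V t1 t2
  have x0 := F.z_pos i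
  have x1 : t ≤ 2 * S.C * M.z i := F.s_le_z (by omega) (by omega)
  have ms0 := P.cl.ms_pos t0.le
  have F0 := F.F0
  have m0 : (0 : ℝ) < m := by exact_mod_cast P.lg.m0
  have n0 := P.cl.N0
  have L1 := V.L1
  have LL := one_le_mul_of_one_le_of_one_le (by linarith : 1 ≤ lam) L1
  set μ := S.ms t / (S.C * S.F) with hμ
  have μ0 : 0 < μ := by positivity
  have hy : 1 / (M.z i * μ * m) ≤ 2 * S.C ^ 2 * w ^ 3 := by
    rw [w3, Sc.w3, hμ, show 2 * S.C ^ 2 * (S.F / (S.n * t * S.ms t)) =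
      1 / (t / (2 * S.C) * (S.ms t / (S.C * S.F)) * S.n) by field_simp]
    have := F.nm
    have : t / (2 * S.C) ≤ M.z i := by rwa [div_le_iff₀' (by positivity)]
    gcongr
  have n1 : t ≤ 16 * S.C * (n * S.v) := by
    linarith [mul_le_mul_of_nonneg_left (mul_le_mul_of_nonneg_right r2 v0.le) C0.le]
  have n2 : n * S.v ≤ S.C * t := (mul_le_mul_of_nonneg_right r3 v0.le).trans s1
  obtain ⟨b1, b2, b3, b4, b5⟩ := sl_arith C1 t0 w0 x0 (by positivity) hy x1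
    ((le_mul_of_one_le_left w0.le LL).trans w2) w4 n1 n2
  refine ⟨k16, i1, i2, S.v / S.C, M.z i, μ, w, 4 * S.C ^ 3 * t, by omega, by rw [P.eN]; omega,
    by positivity, x0, μ0, fun j e e' => ?_, fun j e e' => ?_, fun j e e' => ?_, by rw [P.ez], ?_,
    (le_mul_of_one_le_left v0.le (by linarith)).trans w1, ?_, ?_, ?_, ?_, .inr ⟨?_, ?_, ?_⟩⟩
  · obtain ⟨a1, a2⟩ := P.dz_sl (k := j) (by omega) (by omega)
    exact ⟨a1, a2.trans (le_of_eq (by field_simp))⟩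
  · refine le_trans ?_ (P.flr j (by omega) (by omega))
    have := P.cl.msm (P.cl.sm (show i ≤ j by omega))
    rw [hμ, div_mul_eq_mul_div]
    gcongr
  · exact (P.q_inc (by omega)).trans 
      (mul_le_mul_of_nonneg_right (le_self_pow₀ C1 two_ne_zero) v0.le)
  · have : μ ≤ 1 := by
      rw [hμ, div_le_one (by positivity)]
      exact (F.ms_le_one t).trans (one_le_mul_of_one_le_of_one_le C1 P.cl.F1)
    rw [mul_assoc]
    exact mul_le_one₀ this (by positivity) P.vm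
  · have := P.Cp (i := 1) (by norm_num)
    refine le_of_mul_le_mul_left ?_ (by positivity : 0 < 16 * S.C)
    linarith [mul_le_mul_of_nonneg_right (by linarith : 64 * S.C ≤ lam)
      (mul_pos (by linarith : 0 < L) w0).le]
  · exact le_trans (le_of_eq (by ring)) b1
  · exact le_trans (le_of_eq (by field_simp)) b2
  · exact le_trans (le_of_eq (by ring)) b3
  · have a1 := P.q_le (k := k + 4 * n) (by omega)
    have a2 : ((k + 4 * n : ℕ) : ℝ) * S.v ≤ 3 * (S.C * t) := by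
      linarith [mul_le_mul_of_nonneg_right r4 v0.le]
    have a3 : S.C ^ 2 * t ≤ S.C ^ 3 * t := by gcongr; norm_num
    linarith [mul_le_mul_of_nonneg_left a2 C0.le, mul_le_mul_of_nonneg_left n2 (sq_nonneg S.C)]
  · exact b4.trans (le_of_eq (by ring))
  · exact (le_of_eq (by field_simp)).trans (b5.trans (le_of_eq (by ring)))

/-- the cost of one sloped block -/
theorem blk {k : ℕ} (h1 : 4 * S.C * l ≤ k * S.v) (h2 : 2 * k ≤ S.J)
    (hΦ : Phi N m a M.q (Ioc S.jl S.Jp) ≤ Φ) :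
    ∑ j ∈ Ico k (k + k / 8), N.dz m a j * Vr N m a j ≤ lam ^ 14 * L * Y + lam * Φ / L := by
  obtain ⟨k16, i1, i2, δ, x, μ, ω, T, H⟩ := P.vl V h1 h2
  have J1 := P.cl.i3
  have J2 := P.cl.J_lt
  have Φ0 := (Phi_nonneg P.lg _).trans hΦ
  have C1 := P.C1
  have hl := P.l1000
  have L0 : 0 < L := by linarith [V.L1]
  have Y0 := P.Y0 V
  refine (H.bound P.lg P.cl.v0 (one_le_pow₀ C1) V.L1 (P.lg_log (by omega) (by omega))
    ((Phi_mono P.lg fun j hj => ?_).trans hΦ)).trans (add_le_add ?_ ?_)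
  · rw [mem_Ico] at hj; rw [mem_Ioc]; omega
  · have a1 := P.Cp (i := 6) le_rfl
    have a2 := P.Cp (i := 2) (by norm_num)
    calc _ = 1024 / 1000 ^ 2 * ((1000 * S.C ^ 6) * (1000 * S.C ^ 6) * (1000 * S.C ^ 2)) *
          (lam ^ 10 * L * Y) := by ring
      _ ≤ lam * (lam * lam * lam) * (lam ^ 10 * L * Y) := by gcongr; linarith
      _ = _ := by ring
  · have a2 := P.Cp (i := 2) (by norm_num)
    gcongr
    nlinarith [sq_nonneg S.C]

/-- **the sloped part** -/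
theorem slope {k1 : ℕ} (h1 : 4 * S.C * l ≤ k1 * S.v) (hΦ : Phi N m a M.q (Ioc S.jl S.Jp) ≤ Φ) :
    ∑ j ∈ Ico k1 (S.J / 2), N.dz m a j * Vr N m a j ≤
      lam ^ 3 * (lam ^ 14 * L * Y + lam * Φ / L) := by
  have Φ0 := (Phi_nonneg P.lg _).trans hΦ
  have hl := P.l1000
  have L0 : 0 < L := by linarith [V.L1]
  have Y0 := P.Y0 V
  have v0 := P.cl.v0
  have J2 := P.cl.J_lt
  have k0 : (0 : ℝ) < k1 := pos_of_mul_pos_of_nonneg_right' (by linarith [mul_pos P.cl.C0 (P.l0 V)]) v0.le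
  have hP : ∀ k : ℕ, 1 ≤ k → k ≤ M.N → 32 * log k ≤ 64 * lam ^ 2 := fun k e e' => by
    have := log_le_log (by exact_mod_cast e : (0 : ℝ) < k) (by exact_mod_cast e' : (k : ℝ) ≤ M.N)
    linarith [P.lN]
  have k1' : 1 ≤ k1 := by exact_mod_cast k0
  rcases le_or_gt (S.J / 2) k1 with e | e
  · rw [Ico_eq_empty_of_le e, sum_empty]; positivity
  have cov : Cov (fun k n => ∑ j ∈ Ico k (k + n), N.dz m a j * Vr N m a j ≤
      lam ^ 14 * L * Y + lam * Φ / L) k1 (S.J / 2) (64 * lam ^ 2 - 32 * log k1 + 1) := by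
    refine Cov.of_pot (ψ := fun k => 32 * log k) (fun k e1 e2 => ⟨hP k (by omega) (by omega), ?_⟩)
      (hP k1 k1' (by omega))
    have a1 : 4 * S.C * l ≤ k * S.v :=
      h1.trans (mul_le_mul_of_nonneg_right (by exact_mod_cast e1) v0.le)
    have k16 := (P.vl V a1 (by omega)).1
    refine ⟨k / 8, by omega, P.blk V a1 (by omega) hΦ, fun _ => ?_⟩
    have p0 : (0 : ℝ) < k := by exact_mod_cast (by omega : 0 < k)
    have a2 : (17 / 16 : ℝ) * k ≤ ((k + k / 8 : ℕ) : ℝ) := by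
      have : ((17 * k : ℕ) : ℝ) ≤ ((16 * (k + k / 8) : ℕ) : ℝ) := by exact_mod_cast (by omega)
      rw [Nat.cast_mul, Nat.cast_mul] at this
      norm_num at this ⊢
      linarith
    have a3 := log_le_log (by positivity) a2
    rw [log_mul (by norm_num) p0.ne'] at a3
    have a4 := one_sub_inv_le_log_of_pos (by norm_num : (0 : ℝ) < 17 / 16)
    norm_num at a4
    linarith
  refine (cov.sum (fun k => mul_nonneg (P.lg.dz_nonneg k) (Vr_nonneg k)) (by positivity)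
    fun _ _ h => h).trans (mul_le_mul_of_nonneg_right ?_ (by positivity))
  have := log_nonneg (by exact_mod_cast k1' : (1 : ℝ) ≤ k1)
  nlinarith [sq_nonneg lam]

/-- the first block -/
theorem exists_k1 : ∃ k1 : ℕ, 4 * S.C * l ≤ k1 * S.v ∧ k1 * S.v ≤ 5 * S.C * l ∧
    8 * L * k1 ≤ S.J := by
  have v0 := P.cl.v0
  have l0 := P.l0 V
  have C1 := P.C1
  have hl := P.l1000
  have L1 := V.L1
  have a1 := Nat.le_ceil (4 * S.C * l / S.v)
  have a2 := (Nat.ceil_lt_add_one (by positivity : 0 ≤ 4 * S.C * l / S.v)).le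
  rw [div_le_iff₀ v0] at a1
  have a3 : (⌈4 * S.C * l / S.v⌉₊ : ℝ) * S.v ≤ 5 * S.C * l := by
    have := mul_le_mul_of_nonneg_right a2 v0.le
    rw [add_mul, div_mul_cancel₀ _ v0.ne'] at this
    nlinarith [P.v_le V]
  refine ⟨_, a1, a3, le_of_mul_le_mul_right ?_ (by positivity : 0 < 3 * S.C ^ 3 * S.v)⟩
  have a4 := P.Cp (i := 4) (by norm_num)
  calc _ = 24 * S.C ^ 3 * L * ((⌈4 * S.C * l / S.v⌉₊ : ℝ) * S.v) := by ring
    _ ≤ 24 * S.C ^ 3 * L * (5 * S.C * l) := by gcongr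
    _ = 120 * S.C ^ 4 * (L * l) := by ring
    _ ≤ lam * (L * l) := by gcongr; nlinarith [pow_pos P.cl.C0 4]
    _ ≤ 1 := by linarith [V.sm]
    _ ≤ _ := by linarith [P.fn.J_lo]

set_option maxHeartbeats 400000 in
/-- **the low levels** -/
theorem low {k1 : ℕ} (h1 : 4 * S.C * l ≤ k1 * S.v) (h2 : k1 * S.v ≤ 5 * S.C * l)
    (h3 : 8 * L * k1 ≤ S.J) (hΦ : Phi N m a M.q (Ioc S.jl S.Jp) ≤ Φ) :
    ∑ k ∈ range k1, N.dz m a k * N.E2 m a (fun R => R ^ 2) k ≤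
      lam ^ 16 * L ^ 2 * Y + lam ^ 3 * Φ / L := by
  have Φ0 := (Phi_nonneg P.lg _).trans hΦ
  have hl := P.l1000
  have L1 := V.L1
  have L0 : 0 < L := by linarith
  have Y0 := P.Y0 V
  have v0 := P.cl.v0
  have C0 := P.cl.C0
  have C1 := P.C1
  have l0 := P.l0 V
  have J1 := P.cl.i3
  have J2 := P.cl.J_lt
  have j0 := V.jj
  have G := P.lg
  set W := ⌈L * k1⌉₊ with hW
  have k8 : 8 * k1 ≤ S.J := by
    have : ((8 * k1 : ℕ) : ℝ) ≤ S.J := by
      push_cast; linarith [le_mul_of_one_le_left (Nat.cast_nonneg (α := ℝ) k1) L1]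
    exact_mod_cast this
  obtain ⟨k16, i1, i2, -⟩ := P.vl V h1 (by omega)
  have k0 : (16 : ℝ) ≤ k1 := by exact_mod_cast k16
  have W1 : L * k1 ≤ W := Nat.le_ceil _
  have kL : (k1 : ℝ) ≤ L * k1 := le_mul_of_one_le_left (by linarith) L1
  have W2 : (W : ℝ) ≤ 2 * (L * k1) := by
    linarith [Nat.ceil_lt_add_one (by positivity : 0 ≤ L * k1)]
  have W0 : (0 : ℝ) < W := by linarith
  have W4 : 4 * W ≤ S.J := by
    have : ((4 * W : ℕ) : ℝ) ≤ S.J := by push_cast; linarith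
    exact_mod_cast this
  have X := P.blk V h1 (by omega) hΦ
  set n := k1 / 8 with hn
  have t := top_le (rb_mono (M := N) (a := a) G.m0) (i := k1 + n) (U := W) (q := M.q)
    (d := N.dz m a) (g := S.C * S.v) (δ := S.v / S.C) (Φ := Φ) (by exact_mod_cast W0)
    (by positivity) (by positivity) (fun j e e' => P.q_inc (by omega))
    (fun j hj => (P.dz_sl (by have := mem_Ico.1 hj; omega) (by have := mem_Ico.1 hj; omega)).1)
    ((Phi_mono G (S := Ico (k1 + n) (k1 + n + W)) fun j hj => by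
      rw [mem_Ico] at hj; rw [mem_Ioc]; omega).trans hΦ)
  set s := √(Φ / (W * (S.v / S.C))) with hs
  have s2 : s ^ 2 = Φ / (W * (S.v / S.C)) := sq_sqrt (by positivity)
  have s0 : 0 ≤ s := sqrt_nonneg _
  have n1 : (k1 : ℝ) ≤ 16 * n := by exact_mod_cast (by omega : k1 ≤ 16 * n)
  have n2 : ((k1 + n : ℕ) : ℝ) ≤ 2 * k1 := by exact_mod_cast (by omega : k1 + n ≤ 2 * k1)
  have n0 : (0 : ℝ) < n := by linarith
  have t1 : N.rb m a (k1 + n) ≤ 20 * S.C ^ 2 * L * l + s := by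
    have a1 := P.q_le (k := k1 + n) (by omega)
    have a2 : ((k1 + n : ℕ) : ℝ) * S.v + W * S.v ≤ 4 * L * (5 * S.C * l) := by
      have : ((k1 + n : ℕ) : ℝ) + W ≤ 4 * L * k1 := by linarith
      linarith [mul_le_mul_of_nonneg_right this v0.le, mul_le_mul_of_nonneg_left h2 L0.le]
    linarith [mul_le_mul_of_nonneg_left a2 C0.le]
  set T := 20 * S.C ^ 2 * L * l + s with hT
  set B := lam ^ 14 * L * Y + lam * Φ / L with hB
  have B0 : 0 ≤ B := by positivity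
  have e : ∀ k ∈ range k1, N.E2 m a (fun R => R ^ 2) k ≤ 2 * T ^ 2 + 2 * B / (n * (S.v / S.C)) := by
    intro k hk
    have := low_le Link33.wt1 G.monoL (sl m) 0 (j := k + 1) (S := Ico (k1 + 1) (k1 + n + 1))
      (fun j hj => by rw [mem_Ico] at hj; rw [len_L, P.eN]; have := mem_range.1 hk; omega)
      (M := n * (S.v / S.C)) (top := T) (X := B) (by positivity) ?_
      (q := fun j => N.rb m a (j - 1)) (fun j hj => ?_) ?_
    · simp only [sl_cov G.m0] at this; exact this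
    · rw [← sum_Ico_add']
      have := card_nsmul_le_sum (Ico k1 (k1 + n)) (fun j => dm (N.L m a) 0 (j + 1)) (S.v / S.C)
        fun j hj => (P.dz_sl (by have := mem_Ico.1 hj; omega) (by have := mem_Ico.1 hj; omega)).1
      rwa [Nat.card_Ico, Nat.add_sub_cancel_left, nsmul_eq_mul] at this
    · exact pow_le_pow_left₀ (rb_nonneg G.m0 _)
        ((rb_mono G.m0 (by have := mem_Ico.1 hj; omega)).trans t1) 2
    · rw [← sum_Ico_add']
      simp only [sl_cov G.m0, Nat.add_sub_cancel]; exact X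
  have z1 : ∑ k ∈ range k1, N.dz m a k ≤ 3 * S.C ^ 2 * (k1 * S.v) := by
    have a1 := sum_dz_range (m := m) (a := a) G.toLeg k1
    rw [sum_range_succ, P.ez] at a1
    linarith [G.dz_nonneg k1, G.a0, P.fn.z_hi (k := k1) (by omega) (by omega)]
  refine (sum_le_sum fun k hk => mul_le_mul_of_nonneg_left (e k hk) (G.dz_nonneg k)).trans ?_
  rw [← sum_mul]
  refine (mul_le_mul_of_nonneg_right z1 (by positivity)).trans ?_
  have c6 := P.Cp (i := 6) le_rfl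
  have c3 := P.Cp (i := 3) (by norm_num)
  have c1 := P.Cp (i := 1) (by norm_num)
  have p0 : 0 ≤ Φ / L := by positivity
  have b1 : 3 * S.C ^ 2 * (k1 * S.v) * (2 * B / (n * (S.v / S.C))) ≤ lam * B := by
    rw [show 3 * S.C ^ 2 * (k1 * S.v) * (2 * B / (n * (S.v / S.C))) = 6 * S.C ^ 3 * (k1 / n) * B by
      field_simp; ring]
    have : (k1 : ℝ) / n ≤ 16 := by rwa [div_le_iff₀ n0]
    exact mul_le_mul_of_nonneg_right (by
      linarith [pow_pos C0 3, mul_le_mul_of_nonneg_left this (pow_pos C0 3).le]) B0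
  have b2 : 3 * S.C ^ 2 * (k1 * S.v) * (4 * s ^ 2) ≤ lam * (Φ / L) := by
    rw [s2, show 3 * S.C ^ 2 * (k1 * S.v) * (4 * (Φ / (W * (S.v / S.C)))) =
      12 * S.C ^ 3 * (L * k1 / W) * (Φ / L) by field_simp; ring]
    have : L * k1 / W ≤ 1 := (div_le_one W0).2 W1
    exact mul_le_mul_of_nonneg_right (by
      linarith [pow_pos C0 3, mul_le_mul_of_nonneg_left this (pow_pos C0 3).le]) p0
  have b3 : 3 * S.C ^ 2 * (k1 * S.v) * (4 * (20 * S.C ^ 2 * L * l) ^ 2) ≤ lam ^ 2 * L ^ 2 * Y := by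
    have := V.l3
    calc _ ≤ 3 * S.C ^ 2 * (5 * S.C * l) * (4 * (20 * S.C ^ 2 * L * l) ^ 2) := by gcongr
      _ = 24 / 1000 * ((1000 * S.C ^ 6) * (1000 * S.C ^ 1)) * L ^ 2 * l ^ 3 := by ring
      _ ≤ 1 * (lam * lam) * L ^ 2 * Y := by gcongr; norm_num
      _ = _ := by ring
  have b4 : 3 * S.C ^ 2 * (k1 * S.v) * (2 * T ^ 2) ≤
      3 * S.C ^ 2 * (k1 * S.v) * (4 * (20 * S.C ^ 2 * L * l) ^ 2 + 4 * s ^ 2) :=
    mul_le_mul_of_nonneg_left (by rw [hT]; linarith [sq_nonneg (20 * S.C ^ 2 * L * l - s)])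
      (by positivity)
  have b5 : lam * B ≤ lam ^ 15 * L ^ 2 * Y + lam ^ 2 * (Φ / L) := by
    have : lam ^ 15 * L ^ 1 * Y ≤ lam ^ 15 * L ^ 2 * Y := by gcongr; norm_num
    rw [hB, show lam * (lam ^ 14 * L * Y + lam * Φ / L) =
      lam ^ 15 * L ^ 1 * Y + lam ^ 2 * (Φ / L) by ring]
    linarith
  have b6 : lam ^ 2 * L ^ 2 * Y ≤ lam ^ 15 * L ^ 2 * Y := by gcongr <;> linarith
  have b7 : 2 * (lam ^ 15 * L ^ 2 * Y) ≤ lam * (lam ^ 15 * L ^ 2 * Y) := by gcongr; linarith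
  have b8 : (lam + lam ^ 2) * (Φ / L) ≤ lam ^ 3 * (Φ / L) :=
    mul_le_mul_of_nonneg_right (cube_ge hl) p0
  rw [mul_div_assoc (lam ^ 3)]
  linarith

end Pair

end Crest.Agent.T156.Alt.V79

end
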