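import Crest.Agent.T156.SrV_79
import Crest.Agent.T156.SrG_17
import Crest.Agent.T156.QCl_33

/-!
# Row 156, soft recursion, leaf (VAR): the covering of the top window and of the plateau (helper17)

Pair form: the base `M` is in the class and gives the grid, `N` lives on the same grid.
-/

set_option autoImplicit false

noncomputable section

namespace Crest.Agent.T156.Alt.V17

open Real Finset
open Crest.Agent.T156.Alt.Md67 Crest.Agent.T156.Alt.C33 Crest.Agent.T156.Alt.V79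
open Crest.Agent.T156.Sg17

/-- the data of the top covering -/
structure TH (S : Sc) (M N : Md) (m : ℕ) (K Λ B lm μ : ℝ) (c : ℕ → ℝ) : Prop where
  eN : N.N = M.N
  ez : N.z = M.z
  leg : ∃ x, N.Leg x
  K1 : 1 ≤ K
  L1 : 1 ≤ Λ
  B0 : 0 < B
  j4 : S.j0 ≤ S.J / 4
  dj : 1 / K ≤ S.den (M.z (S.J - 1)) ∧ S.den (M.z (S.J - 1)) ≤ K
  lm1 : ∀ x, M.z (S.J - 1) ≤ x → x ≤ 1 - B →
    lm ≤ S.den x * min (x - M.z (S.J - 1) + S.u0) (1 - x)
  ue : S.ue ≤ B
  μ0 : 0 < μ
  flr : ∀ j, S.J / 4 ≤ j → j < S.Jp → μ * S.v ≤ N.H (j + 1) - N.H j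
  clk : ∀ j, S.J / 4 ≤ j → j < S.Jp → c (j + 1) - c j ≤ K * S.v
  fine : μ * S.v * m ≤ 1
  y1 : 1 / (μ * m) ≤ K * (B * lm)
  y2 : (1 / (μ * m)) ^ 2 ≤ K ^ 2 * B ^ 3
  v1 : 9600 * S.C ^ 7 * K ^ 2 * Λ * S.v ≤ lm
  v2 : S.v ^ 2 ≤ B

/-- the constant of the covering -/
def K2 (C K : ℝ) : ℝ := 320 * (30 * C ^ 5) ^ 3 * (C * K) ^ 4

variable {S : Sc} {M N : Md} {m : ℕ} {a K Λ B lm μ : ℝ} {c : ℕ → ℝ}

theorem cmp_den (H : Cl S M) (hu : 0 < S.u0) {r0 x y : ℝ} (hx : x < 1)
    (h : |x - y| ≤ rh (M.z (S.J - 1)) S.u0 r0 x / 4) :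
    S.den (max x (M.z (S.J - 1))) ≤ S.C * S.den (max y (M.z (S.J - 1))) ∧
      S.den (max y (M.z (S.J - 1))) ≤ S.C * S.den (max x (M.z (S.J - 1))) := by
  set xs := M.z (S.J - 1)
  have C0 : 0 < S.C := zero_lt_one.trans_le H.C1
  have xs1 : xs < 1 := by linarith [H.atom.2, one_div_pos.2 C0]
  have a1 : rh xs S.u0 r0 x ≤ |x - xs| + S.u0 := (min_le_left _ _).trans (min_le_left _ _)
  have a2 : rh xs S.u0 r0 x ≤ 1 - x := (min_le_left _ _).trans (min_le_right _ _)
  obtain ⟨h1, h2⟩ := abs_le.1 h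
  rcases le_total x xs with k | k
  · rw [abs_of_nonpos (sub_nonpos.2 k)] at a1
    rw [max_eq_right k]
    rcases le_total y xs with l | l
    · rw [max_eq_right l]
      exact H.dens xs xs le_rfl le_rfl xs1 (le_min (by linarith) (by linarith))
    · rw [max_eq_left l]
      exact H.dens xs y le_rfl l (by linarith) (le_min (by linarith) (by linarith))
  · rw [abs_of_nonneg (sub_nonneg.2 k)] at a1
    rw [max_eq_left k]
    rcases le_total x y with l | l
    · rw [max_eq_left (k.trans l)]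
      exact H.dens x y k l (by linarith) (le_min (by linarith) (by linarith))
    · have b1 := le_max_left y xs
      have b2 := le_max_right y xs
      exact (H.dens (max y xs) x b2 (max_le l k) hx (le_min (by linarith) (by linarith))).symm

namespace TH

variable (T : TH S M N m K Λ B lm μ c) (F : Fn S M m a) (hB : 4 * B ≤ 1 / S.C)
include T F hB

theorem base : lm ≤ S.den (M.z (S.J - 1)) * min S.u0 (1 - M.z (S.J - 1)) := by
  have := T.lm1 _ le_rfl (by linarith [F.atom.2, T.B0])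
  rwa [sub_self, zero_add] at this

omit hB in
theorem lm0 : 0 < lm := lt_of_lt_of_le (by
  have := F.C0; have := F.v0; have := T.K1; have := T.L1; positivity) T.v1

theorem u0 : 0 < S.u0 ∧ lm ≤ K * S.u0 ∧ lm ≤ K := by
  have h := T.base F hB
  have d0 := F.den0 (M.z (S.J - 1))
  have p : 0 < min S.u0 (1 - M.z (S.J - 1)) :=
    pos_of_mul_pos_left ((T.lm0 F).trans_le (h.trans_eq (mul_comm _ _))) d0.le
  have K0 : 0 ≤ K := zero_le_one.trans T.K1
  have h2 := h.trans (mul_le_mul_of_nonneg_right T.dj.2 p.le)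
  refine ⟨p.trans_le (min_le_left _ _), h2.trans (mul_le_mul_of_nonneg_left (min_le_left _ _) K0),
    h2.trans (mul_le_of_le_one_right K0 ((min_le_right _ _).trans ?_))⟩
  linarith [F.z_pos (S.J - 1)]

theorem J16 : 16 ≤ S.J := by
  by_contra h
  have j : (S.J : ℝ) ≤ 16 := by exact_mod_cast (by omega : S.J ≤ 16)
  have C1 := F.C1
  have K1 := T.K1
  have v0 := F.v0
  have a1 := F.J_lo
  have a2 : 9600 * S.C ^ 7 * K ^ 2 * S.v ≤ K := by
    refine le_trans ?_ (T.v1.trans (T.u0 F hB).2.2)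
    rw [mul_right_comm _ Λ]
    exact le_mul_of_one_le_right (by positivity) T.L1
  have a3 : 9600 * S.C ^ 3 * S.v * K ≤ 1 * K := by
    refine le_trans ?_ (a2.trans_eq (one_mul K).symm)
    calc _ = 9600 * S.C ^ 3 * K ^ 1 * S.v := by ring
      _ ≤ _ := by gcongr <;> norm_num
  have a4 := le_of_mul_le_mul_right a3 (by linarith)
  nlinarith [mul_le_mul_of_nonneg_right j (by positivity : 0 ≤ S.C ^ 3 * S.v)]

theorem gm : Gm M.z (fun x => S.den (max x (M.z (S.J - 1))))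
    (rh (M.z (S.J - 1)) S.u0 (1 / (30 * S.C ^ 5))) S.v (S.C * K) (lm / (30 * S.C ^ 5)) (4 * B)
    (S.J / 4) S.Jp := by
  have C1 := F.C1
  have C0 := F.C0
  have K1 := T.K1
  have v0 := F.v0
  have B0 := T.B0
  have CK : S.C ≤ S.C * K := le_mul_of_one_le_right C0.le K1
  obtain ⟨u0, -⟩ := T.u0 F hB
  refine ⟨F.leg.zm, C1.trans CK, v0, fun _ => F.den0 _, fun j j1 j2 => ?_, rh_lip _ _ _,
    fun x y hx h => ?_, fun x hx => ?_, ?_⟩
  · rcases lt_or_ge (j + 1) S.J with h | h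
    · obtain ⟨s1, s2⟩ := F.zs j (T.j4.trans j1) h
      rw [max_eq_right (F.leg.zm (by omega))]
      constructor
      · rw [← div_div, div_eq_mul_one_div]
        exact mul_le_mul s1 T.dj.1 (by positivity) ((div_pos v0 C0).le.trans s1)
      · rw [mul_right_comm]
        exact mul_le_mul s2 T.dj.2 (F.den0 _).le (by positivity)
    · obtain ⟨s1, s2⟩ := F.plat (j + 1) h j2
      rw [Nat.add_sub_cancel] at s1 s2
      rw [max_eq_left (F.leg.zm (by omega))]
      exact ⟨(div_le_div_of_nonneg_left v0.le C0 CK).trans s1,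
        s2.trans (mul_le_mul_of_nonneg_right CK v0.le)⟩
  · obtain ⟨c1, c2⟩ := cmp_den F.toCl u0 (by linarith) h
    exact ⟨c1.trans (mul_le_mul_of_nonneg_right CK (F.den0 _).le),
      c2.trans (mul_le_mul_of_nonneg_right CK (F.den0 _).le)⟩
  · have X1 : 1 ≤ 30 * S.C ^ 5 := by linarith [one_le_pow₀ (n := 5) C1]
    have r1 : 1 / (30 * S.C ^ 5) ≤ 1 := (div_le_one (by positivity)).2 X1
    have key : ∀ p q : ℝ, 0 ≤ p → p ≤ 1 → p ≤ q → ∀ d, 0 < d → lm ≤ d * p →
        lm / (30 * S.C ^ 5) ≤ d * min q (1 / (30 * S.C ^ 5)) := fun p q p0 p1 pq d d0 h => by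
      rw [div_eq_mul_one_div]
      refine (mul_le_mul_of_nonneg_right h (by positivity)).trans ?_
      rw [mul_assoc]
      exact mul_le_mul_of_nonneg_left (le_min ((mul_le_of_le_one_right p0 r1).trans pq)
        (mul_le_of_le_one_left (by positivity) p1)) d0.le
    have z0 := F.z_pos (S.J - 1)
    rcases le_total x (M.z (S.J - 1)) with k | k
    · simp only [max_eq_right k]
      exact key _ _ (le_min u0.le (by linarith [F.leg.z1 (S.J - 1)]))
        ((min_le_right _ _).trans (by linarith))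
        (min_le_min (by linarith [abs_nonneg (x - M.z (S.J - 1))]) (by linarith)) _ (F.den0 _)
        (T.base F hB)
    · simp only [max_eq_left k]
      exact key _ _ (le_min (by linarith) (by linarith)) ((min_le_right _ _).trans (by linarith))
        (min_le_min (by linarith [le_abs_self (x - M.z (S.J - 1))]) le_rfl) _ (F.den0 _)
        (T.lm1 x k (by linarith))
  · rw [le_div_iff₀ (by positivity)]
    refine le_trans ?_ T.v1
    have : 0 ≤ S.C ^ 7 * K ^ 2 * S.v := by positivity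
    nlinarith [mul_le_mul_of_nonneg_left T.L1 this]

theorem low : 1 / (30 * S.C ^ 5) ≤ M.z (S.J / 4) ∧
    1 / (30 * S.C ^ 5) ≤ M.z (S.J / 2 - 1) - M.z (S.J / 4) := by
  have J := T.J16 F hB
  have C1 := F.C1
  have C0 := F.C0
  have v0 := F.v0
  have a1 := F.J_lo
  constructor
  · have a2 := F.z_lo T.j4 (by omega)
    have a3 : (S.J : ℝ) ≤ 5 * (S.J / 4 : ℕ) := by exact_mod_cast (by omega : S.J ≤ 5 * (S.J / 4))
    rw [div_le_iff₀ (by positivity)]
    nlinarith [mul_le_mul_of_nonneg_left a2 (by positivity : 0 ≤ 15 * S.C ^ 3),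
      mul_le_mul_of_nonneg_right a3 (by positivity : 0 ≤ 3 * S.C ^ 3 * S.v)]
  · have s := card_nsmul_le_sum (Ico (S.J / 4) (S.J / 2 - 1)) (fun j => M.z (j + 1) - M.z j)
      (S.v / S.C) fun j hj => by
        have := mem_Ico.1 hj
        exact (F.zs j (T.j4.trans this.1) (by omega)).1
    rw [sum_Ico_sub M.z (by omega), Nat.card_Ico, nsmul_eq_mul] at s
    refine le_trans ?_ s
    have a3 : (S.J : ℝ) ≤ 8 * (S.J / 2 - 1 - S.J / 4 : ℕ) := by
      exact_mod_cast (by omega : S.J ≤ 8 * (S.J / 2 - 1 - S.J / 4))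
    have d0 : (0 : ℝ) ≤ (S.J / 2 - 1 - S.J / 4 : ℕ) := Nat.cast_nonneg _
    generalize ((S.J / 2 - 1 - S.J / 4 : ℕ) : ℝ) = d at a3 d0
    rw [← mul_div_assoc, div_le_div_iff₀ (by positivity) C0]
    have a4 : 1 ≤ 24 * S.C ^ 3 * (d * S.v) := by
      nlinarith [mul_le_mul_of_nonneg_right a3 (by positivity : 0 ≤ 3 * S.C ^ 3 * S.v)]
    have a5 : S.C ^ 4 ≤ S.C ^ 5 := pow_le_pow_right₀ C1 (by norm_num)
    have a6 : 0 ≤ d * S.v := by positivity
    nlinarith [mul_le_mul_of_nonneg_right a4 C0.le, mul_le_mul_of_nonneg_left a5 a6,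
      mul_nonneg a6 (pow_nonneg C0.le 5)]

/-- one block -/
theorem blk {k : ℕ} (h1 : S.J / 2 ≤ k + 1) (h2 : k < S.Jp) (hx : M.z k ≤ 1 - 4 * B) :
    ∃ n, 1 ≤ n ∧ ((S.J / 4 + 3 * n < k + 1 ∧ k + 1 + 5 * n ≤ S.Jp) ∧
      ∃ δ x ω, VL N m a S.v (K2 S.C K) Λ (K2 S.C K * Λ * B) c (k + 1) n δ x μ ω 1) ∧
      M.z k + 1 / (80 * (S.C * K) ^ 4) *
        rh (M.z (S.J - 1)) S.u0 (1 / (30 * S.C ^ 5)) (M.z k) ≤ M.z (k + n) := by
  have G := T.gm F hB
  have J := T.J16 F hB
  obtain ⟨l1, l2⟩ := T.low F hB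
  have C1 := F.C1
  have C0 := F.C0
  have K1 := T.K1
  have L1 := T.L1
  have v0 := F.v0
  have B0 := T.B0
  have μ0 := T.μ0
  have lm0 := T.lm0 F
  have m0 : (0 : ℝ) < m := (zero_lt_one.trans_le F.n1).trans_le F.nm
  set X := 30 * S.C ^ 5 with hX
  have X1 : 1 ≤ X := by linarith [one_le_pow₀ (n := 5) C1]
  have r1 : rh (M.z (S.J - 1)) S.u0 (1 / X) (M.z k) ≤ 1 - M.z k :=
    (min_le_left _ _).trans (min_le_right _ _)
  obtain ⟨n, δ, d0, n1, n2, n3, n4, n5, n6, n7⟩ := G.blk hx (by omega) h2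
    ((min_le_right _ _).trans (l2.trans (sub_le_sub_right (F.leg.zm (by omega)) _)))
    (by linarith [F.last, T.ue])
  have CK : 1 ≤ S.C * K := G.C1
  have k1 : (S.C * K) ^ 4 ≤ K2 S.C K :=
    le_mul_of_one_le_left (by positivity) (by linarith [one_le_pow₀ (n := 3) X1])
  have k0 : K ≤ S.C * K := le_mul_of_one_le_left (by linarith) C1
  have k2 : K ≤ K2 S.C K := (k0.trans (le_self_pow₀ CK (by norm_num))).trans k1
  have k3 : ∀ i ≤ 3, ∀ j ≤ 3, 320 * X ^ i * (S.C * K) ^ j * K ≤ K2 S.C K := fun i hi j hj => by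
    calc _ ≤ 320 * X ^ 3 * (S.C * K) ^ 3 * (S.C * K) := by gcongr
      _ = _ := by rw [K2]; ring
  have dzN : ∀ j, N.dz m a (j + 1) = M.z (j + 1) - M.z j := fun j => by
    obtain ⟨x, hx⟩ := T.leg
    rw [dz_succ hx, T.ez]
  have k4 : ∀ i ≤ 3, ∀ j ≤ 3, 320 * X ^ i * (S.C * K) ^ j * K * B ≤ K2 S.C K * Λ * B :=
    fun i hi j hj => mul_le_mul_of_nonneg_right ((k3 i hi j hj).trans
      (le_mul_of_one_le_right (by linarith) L1)) B0.le
  have ρ1 : n * δ ≤ 1 := by linarith [F.z_pos k]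
  have y0 : 0 < 1 / (μ * m) := by positivity
  have ey : 1 / (1 / X * μ * m) = X * (1 / (μ * m)) := by field_simp
  have Jp := F.i4
  refine ⟨n, ?_, ⟨⟨by omega, by omega⟩, δ, 1 / X, min (√B) (lm / (320 * X * (S.C * K) ^ 2 * Λ)), by omega,
    by rw [T.eN]; omega, d0, by positivity, μ0, fun j j1 j2 => ?_,
    fun j j1 j2 => T.flr j (by omega) (by omega),
    fun j j1 j2 => (T.clk j (by omega) (by omega)).trans (mul_le_mul_of_nonneg_right k2 v0.le),
    ?_, T.fine, le_min (le_sqrt_of_sq_le T.v2) ?_, ?_, ?_, ?_, ?_, Or.inl le_rfl⟩, ?_⟩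
  · rcases Nat.eq_zero_or_pos n with h | h
    · rw [h, Nat.cast_zero, zero_mul, mul_zero] at n1
      exact absurd n1 (not_le.2 (by positivity))
    · exact h
  · obtain ⟨i, rfl⟩ : ∃ i, j = i + 1 := ⟨j - 1, by omega⟩
    rw [dzN]
    obtain ⟨e1, e2⟩ := n6 i (by omega) (by omega)
    exact ⟨e1, e2.trans (mul_le_mul_of_nonneg_right k1 d0.le)⟩
  · rw [T.ez]
    exact l1.trans (F.leg.zm (by omega))
  · rw [le_div_iff₀ (by positivity)]
    refine le_of_eq_of_le ?_ T.v1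
    rw [hX]; ring
  · refine (mul_le_mul_of_nonneg_left (min_le_right _ _) (by positivity)).trans
      (le_of_mul_le_mul_left (le_of_eq_of_le ?_ n1) (by positivity))
    field_simp
    ring
  · rw [ey, div_le_iff₀ (lt_min (sqrt_pos.2 B0) (by positivity)),
      mul_min_of_nonneg _ _ (by have := k2.trans' K1; positivity)]
    refine le_min ?_ ?_
    · have a1 : 1 / (μ * m) ≤ K * B * √B := by
        refine (pow_le_pow_iff_left₀ y0.le (by positivity) two_ne_zero).1 ?_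
        rw [mul_pow, mul_pow, sq_sqrt B0.le]
        exact T.y2.trans_eq (by ring)
      have a2 := mul_le_mul_of_nonneg_right (k4 1 (by norm_num) 0 (by norm_num)) (sqrt_nonneg B)
      have a3 : 0 ≤ X * (K * B * √B) := by positivity
      nlinarith [mul_le_mul_of_nonneg_left a1 (by positivity : 0 ≤ X)]
    · rw [← mul_div_assoc _ lm, le_div_iff₀ (by positivity)]
      have a2 := mul_le_mul_of_nonneg_right (k3 2 (by norm_num) 2 (by norm_num))
        (by positivity : 0 ≤ Λ * B * lm)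
      nlinarith [mul_le_mul_of_nonneg_left T.y1
        (by positivity : 0 ≤ X * (320 * X * (S.C * K) ^ 2 * Λ))]
  · have a1 : lm / X ≤ S.den (max (M.z k) (M.z (S.J - 1))) :=
      (G.lm1 _ hx).trans (mul_le_of_le_one_right (F.den0 _).le (by linarith [F.z_pos k]))
    have a2 : δ * (lm / X) ≤ S.v := by
      rw [← n2]
      exact mul_le_mul_of_nonneg_left (a1.trans (le_mul_of_one_le_right (F.den0 _).le
        (one_le_pow₀ CK))) d0.le
    rw [← mul_div_assoc, div_le_iff₀ (by positivity)] at a2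
    rw [ey, div_le_iff₀ (by positivity)]
    refine le_trans ?_ (mul_le_mul_of_nonneg_right (k4 3 le_rfl 0 (by norm_num)) (by positivity))
    have e : 320 * X ^ 3 * (S.C * K) ^ 0 * K * B * (S.v * (1 / X)) =
        320 * (X * (K * B) * (S.v * X)) := by field_simp
    have a3 : 0 ≤ X * (K * B) * (S.v * X) := by positivity
    rw [e]
    nlinarith [mul_le_mul_of_nonneg_left T.y1 (by positivity : 0 ≤ X * δ),
      mul_le_mul_of_nonneg_left a2 (by positivity : 0 ≤ X * (K * B))]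
  · have a1 : min (√B) (lm / (320 * X * (S.C * K) ^ 2 * Λ)) ^ 2 ≤ B :=
      (pow_le_pow_left₀ (by positivity) (min_le_left _ _) 2).trans_eq (sq_sqrt B0.le)
    refine (mul_le_mul ρ1 a1 (sq_nonneg _) zero_le_one).trans (mul_le_mul_of_nonneg_right ?_ B0.le)
    exact one_le_mul_of_one_le_of_one_le (K1.trans k2) L1
  · rw [one_div_mul_eq_div]
    exact n7

end TH

/-- **the covering of the top window, the junction and the plateau** -/
theorem top_cov' (T : TH S M N m K Λ B lm μ c) (F : Fn S M m a) : ∃ ke, S.J / 2 ≤ ke ∧ ke ≤ S.Jp ∧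
    1 - M.z (ke - 1) ≤ 4 * S.C * B ∧
    Cov (fun k n => (S.J / 4 + 3 * n < k ∧ k + 5 * n ≤ S.Jp) ∧
      ∃ δ x ω, VL N m a S.v (K2 S.C K) Λ (K2 S.C K * Λ * B) c k n δ x μ ω 1)
      (S.J / 2) ke (K2 S.C K * (1 + log (1 + K / lm) + log (1 + 1 / B))) := by
  have C1 := F.C1
  have C0 := F.C0
  have K1 := T.K1
  have B0 := T.B0
  have lm0 := T.lm0 F
  have i3 := F.i3
  have X1 : 1 ≤ 30 * S.C ^ 5 := by linarith [one_le_pow₀ (n := 5) C1]
  have CK : 1 ≤ S.C * K := one_le_mul_of_one_le_of_one_le C1 K1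
  have g1 : 0 ≤ log (1 + K / lm) := log_nonneg (le_add_of_nonneg_right (by positivity))
  have g2 : 0 ≤ log (1 + 1 / B) := log_nonneg (le_add_of_nonneg_right (by positivity))
  rcases le_or_gt (4 * B) (1 / S.C) with hB | hB
  swap
  · refine ⟨S.J / 2, le_rfl, by omega, ?_, Cov.nil le_rfl (by unfold K2; positivity)⟩
    rw [div_lt_iff₀ C0] at hB
    linarith [F.z_pos (S.J / 2 - 1)]
  have J := T.J16 F hB
  obtain ⟨u0, u1, -⟩ := T.u0 F hB
  have hp : S.J / 2 ≤ S.Jp ∧ 1 - M.z (S.Jp - 1) < 4 * B := ⟨by omega, by linarith [F.last, T.ue]⟩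
  classical
  have ex : ∃ k, S.J / 2 ≤ k ∧ 1 - M.z (k - 1) < 4 * B := ⟨_, hp⟩
  have h1 := Nat.find_spec ex
  have h2 : Nat.find ex ≤ S.Jp := Nat.find_min' ex hp
  refine ⟨Nat.find ex, h1.1, h2, h1.2.le.trans (by nlinarith), ?_⟩
  set X := 30 * S.C ^ 5 with hX
  set c4 := (S.C * K) ^ 4 with hc
  have c1 : 1 ≤ c4 := one_le_pow₀ CK
  set ψ := fun k => 160 * c4 * pot (M.z (S.J - 1)) S.u0 (1 / X) (4 * B) (M.z (k - 1)) with hψ
  have e1 : 4 * B ≤ 1 := hB.trans ((div_le_one C0).2 C1)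
  have up : ∀ k, ψ k ≤ 160 * c4 * (2 * log (1 + K / lm) + log (1 + 1 / B) + X) := fun k => by
    refine mul_le_mul_of_nonneg_left ((pot_le u0 (by positivity) (by positivity) (F.z_pos _).le
      (F.leg.z1 _)).trans ?_) (by positivity)
    have a1 : log (1 + 1 / S.u0) ≤ log (1 + K / lm) := log_le_log (by positivity)
      (add_le_add_right ((div_le_div_iff₀ u0 lm0).2 (by linarith)) _)
    have a2 : log (2 / (4 * B)) ≤ log (1 + 1 / B) := log_le_log (by positivity) (by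
      have : 2 / (4 * B) ≤ 1 / B := (div_le_div_iff₀ (by positivity) B0).2 (by linarith)
      linarith)
    rw [one_div_one_div]
    linarith
  refine (Cov.of_pot (ψ := ψ) (fun k k1 k2 => ⟨up k, ?_⟩) (up _)).mono (fun _ _ q => q) ?_
  · have hx : M.z (k - 1) ≤ 1 - 4 * B := by
      by_contra h
      exact Nat.find_min ex k2 ⟨k1, by linarith⟩
    obtain ⟨n, n1, n2, n3⟩ := T.blk F hB (k := k - 1) (by omega) (by omega) hx
    rw [show k - 1 + 1 = k by omega] at n2
    refine ⟨n, n1, n2, fun _ => ?_⟩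
    have := pot_gain u0 (by positivity) (by positivity) (by positivity)
      ((div_le_div_iff₀ (by positivity) two_pos).2 (by linarith)) hx n3
    have := mul_le_mul_of_nonneg_left this (by positivity : 0 ≤ 160 * c4)
    rw [mul_add, show 160 * c4 * (1 / (80 * c4) / 2) = 1 by field_simp; norm_num] at this
    simp only [hψ]
    rwa [show k + n - 1 = k - 1 + n by omega]
  · have p : 0 ≤ ψ (S.J / 2) := mul_nonneg (by positivity) (pot_nonneg u0 (by positivity)
      (by positivity) e1 (F.leg.z1 _) (F.z_pos _).le)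
    have x3 : X ≤ X ^ 3 := le_self_pow₀ X1 (by norm_num)
    have e : K2 S.C K = 320 * X ^ 3 * c4 := rfl
    have a1 : c4 * X ≤ c4 * X ^ 3 := mul_le_mul_of_nonneg_left x3 (by linarith)
    have a2 : c4 ≤ c4 * X ^ 3 := le_mul_of_one_le_right (by linarith) (X1.trans x3)
    rw [e]
    nlinarith [mul_le_mul_of_nonneg_right a2 g1, mul_le_mul_of_nonneg_right a2 g2,
      mul_nonneg (by linarith : 0 ≤ c4) g2]

theorem top_cov (T : TH S M N m K Λ B lm μ c) (F : Fn S M m a) : ∃ ke, S.J / 2 ≤ ke ∧ ke ≤ S.Jp ∧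
    1 - M.z (ke - 1) ≤ 4 * S.C * B ∧
    Cov (fun k n => ∃ δ x ω, VL N m a S.v (K2 S.C K) Λ (K2 S.C K * Λ * B) c k n δ x μ ω 1)
      (S.J / 2) ke (K2 S.C K * (1 + log (1 + K / lm) + log (1 + 1 / B))) :=
  let ⟨ke, h1, h2, h3, h4⟩ := top_cov' T F
  ⟨ke, h1, h2, h3, h4.mono (fun _ _ q => q.2) le_rfl⟩

end Crest.Agent.T156.Alt.V17

end
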