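import Crest.Agent.T156.SrD_79
import Crest.Agent.T156.MdDic_67

/-!
# Row 156, soft recursion, leaf (VAR): one block and coverings (helper79)
-/

set_option autoImplicit false
set_option linter.unusedSectionVars false

noncomputable section

namespace Crest.Agent.T156.Alt.V79

open Real Finset
open Crest.Agent.T157.E Crest.Agent.T157.Casc Crest.Agent.T157.SL
open Crest.Agent.T157.G1 (ov)
open Crest.Agent.T156.Cas Crest.Agent.T156.Cas.Sy41 Crest.Agent.T156.Cas.Q33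
open Crest.Agent.T156.Cas.Wr5 Crest.Agent.T156.Cas.SrD79 Crest.Agent.T156.Alt.Md67

/-! ### coverings -/

/-- at most `r` consecutive blocks `[k, k + n)` with `Q k n` cover `[k0, k1)` -/
def Cov (Q : ℕ → ℕ → Prop) (k0 k1 : ℕ) (r : ℝ) : Prop :=
  ∃ (b : ℕ → ℕ) (i : ℕ), (i : ℝ) ≤ r ∧ b 0 = k0 ∧ k1 ≤ b i ∧
    ∀ j < i, b j ≤ b (j + 1) ∧ Q (b j) (b (j + 1) - b j)

section cov
variable {Q Q' : ℕ → ℕ → Prop} {k0 k1 : ℕ} {r r' : ℝ}

theorem Cov.nil (h : k1 ≤ k0) (hr : 0 ≤ r) : Cov Q k0 k1 r :=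
  ⟨fun _ => k0, 0, by simpa using hr, rfl, h, fun _ hj => absurd hj (Nat.not_lt_zero _)⟩

theorem Cov.cons {n : ℕ} (h : Q k0 n) (H : Cov Q (k0 + n) k1 r) : Cov Q k0 k1 (r + 1) := by
  obtain ⟨b, i, h1, h2, h3, h4⟩ := H
  refine ⟨fun j => Nat.casesOn j k0 b, i + 1, by push_cast; linarith, rfl, h3, fun j hj => ?_⟩
  cases j with
  | zero => simpa [h2] using h
  | succ j => exact h4 j (by omega)

theorem Cov.mono (H : Cov Q k0 k1 r) (hQ : ∀ k n, Q k n → Q' k n) (hr : r ≤ r') :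
    Cov Q' k0 k1 r' := by
  obtain ⟨b, i, h1, h2, h3, h4⟩ := H
  exact ⟨b, i, h1.trans hr, h2, h3, fun j hj => ⟨(h4 j hj).1, hQ _ _ (h4 j hj).2⟩⟩

/-- coverings from a potential -/
theorem Cov.of_pot {ψ : ℕ → ℝ} {P : ℝ} (h : ∀ k, k0 ≤ k → k < k1 → ψ k ≤ P ∧
    ∃ n, 1 ≤ n ∧ Q k n ∧ (k + n < k1 → ψ k + 1 ≤ ψ (k + n))) (h0 : ψ k0 ≤ P) :
    Cov Q k0 k1 (P - ψ k0 + 1) := by
  have key : ∀ d k, k0 ≤ k → k1 ≤ k + d → ψ k ≤ P → Cov Q k k1 (P - ψ k + 1) := by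
    intro d
    induction d with
    | zero => exact fun k _ h2 h3 => Cov.nil h2 (by linarith)
    | succ d ih =>
      intro k h1 h2 h3
      rcases le_or_gt k1 k with e | e
      · exact Cov.nil e (by linarith)
      obtain ⟨-, n, n1, hQ, hψ⟩ := h k h1 e
      rcases le_or_gt k1 (k + n) with e' | e'
      · exact (Cov.cons hQ (Cov.nil e' le_rfl)).mono (fun _ _ q => q) (by linarith)
      · exact (Cov.cons hQ (ih (k + n) (by omega) (by omega) (h _ (by omega) e').1)).mono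
          (fun _ _ q => q) (by linarith [hψ e'])
  exact key k1 k0 le_rfl (by omega) h0

theorem Cov.sum (H : Cov Q k0 k1 r) {F : ℕ → ℝ} (hF : ∀ k, 0 ≤ F k) {c : ℝ} (hc : 0 ≤ c)
    (h : ∀ k n, Q k n → ∑ j ∈ Ico k (k + n), F j ≤ c) : ∑ j ∈ Ico k0 k1, F j ≤ r * c := by
  obtain ⟨b, i, h1, rfl, h3, h4⟩ := H
  have key : ∀ j ≤ i, b 0 ≤ b j ∧ ∑ k ∈ Ico (b 0) (b j), F k ≤ j * c := by
    intro j
    induction j with
    | zero => simp
    | succ j ih =>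
      intro hj
      obtain ⟨a1, a2⟩ := ih (by omega)
      obtain ⟨a3, a4⟩ := h4 j (by omega)
      have a5 := h _ _ a4
      rw [Nat.add_sub_cancel' a3] at a5
      refine ⟨a1.trans a3, ?_⟩
      rw [← sum_Ico_consecutive _ a1 a3]
      push_cast
      linarith
  exact (sum_le_sum_of_subset_of_nonneg (Ico_subset_Ico_right h3) fun k _ _ => hF k).trans
    ((key i le_rfl).2.trans (mul_le_mul_of_nonneg_right h1 hc))

end cov

/-! ### one block -/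

/-- `E (R - E R)²` at the node `k` -/
def Vr (M : Md) (m : ℕ) (a : ℝ) (k : ℕ) : ℝ := M.E2 m a (fun r => (r - M.rb m a k) ^ 2) k

/-- `∑_S dz (rb - c)²` -/
def Phi (M : Md) (m : ℕ) (a : ℝ) (c : ℕ → ℝ) (S : Finset ℕ) : ℝ :=
  ∑ k ∈ S, M.dz m a k * (M.rb m a k - c k) ^ 2

/-- local data of the block `[k, k + n)`, enlarged block `[k - 3 n, k + 5 n)` -/
structure VL (M : Md) (m : ℕ) (a v K Λ B : ℝ) (c : ℕ → ℝ) (k n : ℕ) (δ x μ ω T : ℝ) : Prop where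
  lo : 3 * n ≤ k
  hi : k + 5 * n ≤ M.N
  δ0 : 0 < δ
  x0 : 0 < x
  μ0 : 0 < μ
  dz : ∀ j, k - 3 * n ≤ j → j < k + 5 * n → δ ≤ M.dz m a j ∧ M.dz m a j ≤ K * δ
  flr : ∀ j, k - 3 * n ≤ j → j < k + 5 * n → μ * v ≤ M.H (j + 1) - M.H j
  clk : ∀ j, k - 3 * n ≤ j → j < k + 5 * n → c (j + 1) - c j ≤ K * v
  tilt : x ≤ M.z (k - 3 * n)
  fine : μ * v * m ≤ 1
  ω1 : v ≤ ω
  ω2 : 4 * Λ * ω ≤ n * v
  b1 : T / (x * μ * m) / ω ≤ B
  b2 : T / (x * μ * m) * δ / (v * x) ≤ B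
  b3 : n * δ * ω ^ 2 ≤ B
  top : 1 ≤ T ∨ (c (k + 4 * n) + K * v * n ≤ T ∧ (1 / (x * μ * m) / ω) ^ 2 ≤ B * (n * δ) ∧
    (1 / (x * μ * m) * δ / (v * x)) ^ 2 ≤ B * (n * δ))

/-- `tr C²` on a block, no ceiling on the rates -/
theorem tc_sum {Ω : Type} [Fintype Ω] {w : Ω → ℝ} {L : List (Lv Ω)} {l₀ : Lv Ω} {τ : ℕ → ℝ}
    (H : Dt w L l₀ τ 1) (h : Ω → ℝ) {lo hi : ℕ} (hl : lo ≤ hi) (hh : hi ≤ L.length)
    {c : ℕ → ℝ} {κ σ x : ℝ} (hκ : 0 ≤ κ) (hσ : 0 < σ) (σ1 : σ ≤ 1)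
    (hc : ∀ j ∈ Ico lo hi, c j ≤ κ) (hτ : ∀ j ∈ Ico lo hi, σ ≤ τ j) (hx : 0 < x)
    (hx' : ∀ j ∈ Ico lo hi, x ≤ ex L j) :
    ∑ j ∈ Ico lo hi, c j * tc w L l₀ h j ≤
      4 * κ / σ * (rho w L l₀ h hi - rho w L l₀ h lo) / x ^ 2 := by
  rw [← sum_Ico_sub (rho w L l₀ h) hl, mul_sum, sum_div]
  refine sum_le_sum fun j hj => ?_
  have t0 := hσ.trans_le (hτ j hj)
  have a1 := H.tc_win h (lo := j) (hi := j + 1) (Nat.le_succ j) ((mem_Ico.1 hj).2.trans_le hh)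
    (c := c) (κ := κ / τ j) (t := τ j) (x := x) (by positivity)
    (fun i hi => by
      rw [Nat.Ico_succ_singleton, mem_singleton] at hi
      rw [hi, div_mul_cancel₀ _ t0.ne']; exact hc j hj)
    (fun i hi => by rw [Nat.Ico_succ_singleton, mem_singleton] at hi; rw [hi, mul_one]) hx
    (fun i hi => by rw [Nat.Ico_succ_singleton, mem_singleton] at hi; rw [hi]; exact hx' j hj)
  rw [Nat.Ico_succ_singleton, sum_singleton] at a1
  refine a1.trans (div_le_div_of_nonneg_right (mul_le_mul_of_nonneg_right ?_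
    (sub_nonneg.2 (rho_mono H.wt L l₀ h (Nat.le_succ j)))) (sq_nonneg x))
  have a2 : κ / τ j ≤ κ / σ := div_le_div_of_nonneg_left hκ hσ (hτ j hj)
  have a3 : κ ≤ κ / σ := le_div_self hκ hσ σ1
  have a4 : κ / τ j * (2 + 2 * τ j) = 2 * (κ / τ j) + 2 * κ := by field_simp
  rw [a4, mul_div_assoc]
  linarith

theorem qb_le {σ T : ℝ} {D n : ℕ} (hσ : 0 < σ) (σ1 : σ ≤ 1) (hT : 0 ≤ T) (hn : n ≤ 2 * 2 ^ D) :
    qb 1 σ D (6 * n) T T ≤ ((D : ℝ) + 2) * (D + 13) * (T / σ) := by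
  have a1 : ((6 * n : ℕ) : ℝ) * T / (σ * 2 ^ D) ≤ 12 * (T / σ) := by
    have : (n : ℝ) ≤ 2 * 2 ^ D := by exact_mod_cast hn
    rw [div_le_iff₀ (by positivity), show 12 * (T / σ) * (σ * 2 ^ D) = 6 * (2 * 2 ^ D) * T by
      field_simp; ring]
    push_cast
    gcongr
  have a2 : T ≤ T / σ := le_div_self hT hσ σ1
  have a3 : ((D : ℝ) / σ + 1) * T = D * (T / σ) + T := by ring
  rw [qb, a3, mul_assoc]
  exact mul_le_mul_of_nonneg_left (by linarith) (by positivity)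

theorem arith {K δ Lg T x μ v m ω Λ Φ : ℝ} {u U n : ℕ} (δ0 : 0 < δ) (x0 : 0 < x) (μ0 : 0 < μ)
    (hv : 0 < v) (m0 : 0 < m) (ω0 : 0 < ω) (T0 : 0 ≤ T) (Φ0 : 0 ≤ Φ) (hK : 1 ≤ K) (hΛ : 1 ≤ Λ)
    (L1 : 1 ≤ Lg) (u3 : (1 : ℝ) ≤ u) (U1 : Λ * u ≤ U) (u4 : u * v ≤ 2 * ω) (u5 : ω ≤ u * v)
    (U4 : U * v ≤ 4 * Λ * ω) (U5 : (U : ℝ) ≤ n) :
    K * δ * (vb n u U δ (K * δ * (Lg * (T / (x * (μ * v * m))))) x (K * v) Φ +
      2 * (K * δ * (Lg * (T / (x * (μ * v * m)))) / (x * δ))) +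
      4 * K * (T / (x * μ * m) * δ / (v * x)) ≤
      16 * K ^ 2 * Lg * (T / (x * μ * m) / ω) + 22 * K ^ 2 * Lg * (T / (x * μ * m) * δ / (v * x)) +
        3072 * K ^ 3 * Λ * (n * δ * ω ^ 2) + 24 * K * Φ / Λ := by
  have u0 : (0 : ℝ) < u := by linarith
  have U3 : (0 : ℝ) < U := by nlinarith
  have K0 : 0 < K := by linarith
  have c1 : K * δ * (16 * (K * δ * (Lg * (T / (x * (μ * v * m))))) / (u * δ ^ 2)) ≤
      16 * K ^ 2 * Lg * (T / (x * μ * m) / ω) := by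
    rw [show K * δ * (16 * (K * δ * (Lg * (T / (x * (μ * v * m))))) / (u * δ ^ 2)) =
      16 * K ^ 2 * Lg * (T / (x * μ * m) / (u * v)) by field_simp]
    gcongr
  have c2 : K * δ * (K * δ * (Lg * (T / (x * (μ * v * m)))) / (x * δ)) =
      K ^ 2 * Lg * (T / (x * μ * m) * δ / (v * x)) := by field_simp
  have c3 : K * δ * (4 * u * (48 * (((n + U : ℕ) : ℝ) * U * (K * v) ^ 2))) ≤
      3072 * K ^ 3 * Λ * (n * δ * ω ^ 2) := by
    have : ((n + U : ℕ) : ℝ) ≤ 2 * n := by push_cast; linarith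
    calc _ = 192 * K ^ 3 * δ * ((n + U : ℕ) : ℝ) * (u * v) * (U * v) := by ring
      _ ≤ 192 * K ^ 3 * δ * (2 * n) * (2 * ω) * (4 * Λ * ω) := by gcongr
      _ = _ := by ring
  have c4 : K * δ * (4 * u * (6 * Φ / (U * δ))) ≤ 24 * K * Φ / Λ := by
    rw [show K * δ * (4 * u * (6 * Φ / (U * δ))) = 24 * K * Φ * u / U by field_simp; ring,
      div_le_div_iff₀ U3 (by linarith)]
    nlinarith [mul_le_mul_of_nonneg_left U1 (by positivity : 0 ≤ 24 * K * Φ)]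
  have c5 : K * (T / (x * μ * m) * δ / (v * x)) ≤ K ^ 2 * Lg * (T / (x * μ * m) * δ / (v * x)) :=
    mul_le_mul_of_nonneg_right (by nlinarith) (by positivity)
  rw [vb, mul_div_assoc 16 _ (x * δ)]
  linarith

variable {M : Md} {m : ℕ} {a v K Λ B δ x μ ω T Φ Lg : ℝ} {c : ℕ → ℝ} {k n : ℕ}

theorem Vr_nonneg (k : ℕ) : 0 ≤ Vr M m a k := E2_nonneg (fun _ _ => sq_nonneg _) k

theorem Phi_mono (G : Md67.Lg M m a) {S S' : Finset ℕ} (e : S ⊆ S') :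
    Phi M m a c S ≤ Phi M m a c S' :=
  sum_le_sum_of_subset_of_nonneg e fun k _ _ => mul_nonneg (G.dz_nonneg k) (sq_nonneg _)

theorem Phi_nonneg (G : Md67.Lg M m a) (S : Finset ℕ) : 0 ≤ Phi M m a c S :=
  sum_nonneg fun k _ => mul_nonneg (G.dz_nonneg k) (sq_nonneg _)

theorem VL.n4 (H : VL M m a v K Λ B c k n δ x μ ω T) (hv : 0 < v) (hΛ : 1 ≤ Λ) : 4 ≤ n := by
  have : (4 : ℝ) * v ≤ n * v := by nlinarith [H.ω1, H.ω2]
  exact_mod_cast le_of_mul_le_mul_right this hv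

/-- the block bound for any upper bound `T'` of the mean profile -/
theorem VL.core (H : VL M m a v K Λ B c k n δ x μ ω T) (G : Md67.Lg M m a) (hv : 0 < v)
    (hK : 1 ≤ K) (hΛ : 1 ≤ Λ) (hL : ((Nat.log 2 n : ℝ) + 2) * (Nat.log 2 n + 13) ≤ Lg)
    (hΦ : Phi M m a c (Ico (k - 3 * n) (k + 5 * n)) ≤ Φ) {T' : ℝ} (hT : M.rb m a (k + 4 * n) ≤ T') :
    ∑ j ∈ Ico k (k + n), M.dz m a j * Vr M m a j ≤
      16 * K ^ 2 * Lg * (T' / (x * μ * m) / ω) + 22 * K ^ 2 * Lg * (T' / (x * μ * m) * δ / (v * x)) +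
        3072 * K ^ 3 * Λ * (n * δ * ω ^ 2) + 24 * K * Φ / Λ := by
  have n4 := H.n4 hv hΛ
  have lo := H.lo
  have hi := H.hi
  have m0 : (0 : ℝ) < m := by exact_mod_cast G.m0
  have δ0 := H.δ0
  have x0 := H.x0
  have μ0 := H.μ0
  have ω0 : 0 < ω := hv.trans_le H.ω1
  have T0 : 0 ≤ T' := (rb_nonneg G.m0 _).trans hT
  have Φ0 : 0 ≤ Φ := (Phi_nonneg G _).trans hΦ
  have x1 : x ≤ 1 := H.tilt.trans (G.z1 _)
  have L1 : (1 : ℝ) ≤ Lg := le_trans (by nlinarith [Nat.cast_nonneg (α := ℝ) (Nat.log 2 n)]) hL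
  have hρ := rho_mono Link33.wt1 (M.L m a) (sl m) 0
  have eρ : ∀ j, rho (fun _ => 1) (M.L m a) (sl m) 0 (j + 1) = M.rb m a j :=
    fun j => (rb_eq (sl_cov G.m0) j).symm
  have ρ0 : ∀ j, 0 ≤ rho (fun _ => 1) (M.L m a) (sl m) 0 j := fun j => rho_nonneg _ _ _ j
  have hex : ∀ j, k - 3 * n + 1 ≤ j → x ≤ ex (M.L m a) j := fun j hj => by
    obtain ⟨i, rfl⟩ : ∃ i, j = i + 1 := ⟨j - 1, by omega⟩
    rw [ex_succ G.toLeg]; exact H.tilt.trans (G.zm (by omega))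
  have hτ : ∀ j, k - 3 * n + 1 ≤ j → j < k + 5 * n + 1 → μ * v * m ≤ dh M j * m := fun j h1 h2 => by
    obtain ⟨i, rfl⟩ : ∃ i, j = i + 1 := ⟨j - 1, by omega⟩
    rw [dh_succ (by omega)]
    exact mul_le_mul_of_nonneg_right (H.flr i (by omega) (by omega)) m0.le
  have hd : ∀ j, k - 3 * n + 1 ≤ j → j < k + 5 * n + 1 →
      δ ≤ dm (M.L m a) 0 j ∧ dm (M.L m a) 0 j ≤ K * δ := fun j h1 h2 => by
    obtain ⟨i, rfl⟩ : ∃ i, j = i + 1 := ⟨j - 1, by omega⟩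
    exact H.dz i (by omega) (by omega)
  set σ := x * (μ * v * m) with hσ
  have σ0 : 0 < σ := by positivity
  have σ1 : σ ≤ 1 := mul_le_one₀ x1 (by positivity) H.fine
  have bl : Blk (fun _ => 1) (M.L m a) (sl m) (fun k => dh M k * m) 1 σ (k - 3 * n + 1)
      (k + 4 * n) := ⟨G.dt, by rw [len_L]; omega, σ0, fun j h1 h2 =>
        mul_le_mul (hex j h1) (hτ j h1 (by omega)) (by positivity) (x0.le.trans (hex j h1))⟩
  have D1 : 2 ^ Nat.log 2 n ≤ n := Nat.pow_log_le_self 2 (by omega)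
  have D2 : n ≤ 2 * 2 ^ Nat.log 2 n := by
    have := Nat.lt_pow_succ_log_self (b := 2) (by norm_num) n
    rw [pow_succ] at this; omega
  have t1 : rho (fun _ => 1) (M.L m a) (sl m) 0 (k + 4 * n + 1 - 1) ≤ T' :=
    (hρ (Nat.sub_le _ _)).trans ((eρ _).trans_le hT)
  have hA : al (fun _ => 1) (M.L m a) (sl m) 0 (Ico (k - 2 * n + 1) (k + 4 * n + 1)) ≤
      K * δ * (Lg * (T' / σ)) := by
    refine (bl.q1 0 (D := Nat.log 2 n) (lo := k - 2 * n + 1) (hi := k + 4 * n + 1) (by omega)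
      (by omega) le_rfl t1 (rise := T') (by linarith [ρ0 (k - 2 * n + 1 - 2 ^ Nat.log 2 n)])
      (c := dm (M.L m a) 0) (κ := K * δ) (by positivity)
      fun j hj => (hd j (by have := mem_Ico.1 hj; omega) (by have := mem_Ico.1 hj; omega)).2).trans
      (mul_le_mul_of_nonneg_left ?_ (by positivity))
    rw [show k + 4 * n + 1 - (k - 2 * n + 1) = 6 * n by omega]
    exact (qb_le σ0 σ1 T0 D2).trans (mul_le_mul_of_nonneg_right hL (by positivity))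
  have hZ := tc_sum G.dt 0 (lo := k + 1) (hi := k + n + 1) (by omega) (by rw [len_L]; omega)
    (c := dm (M.L m a) 0) (κ := K * δ) (σ := μ * v * m) (x := x) (by positivity) (by positivity)
    H.fine (fun j hj => (hd j (by have := mem_Ico.1 hj; omega) (by have := mem_Ico.1 hj; omega)).2)
    (fun j hj => hτ j (by have := mem_Ico.1 hj; omega) (by have := mem_Ico.1 hj; omega)) x0
    fun j hj => hex j (by have := mem_Ico.1 hj; omega)
  have hZ' : 4 * (K * δ) / (μ * v * m) * (rho (fun _ => 1) (M.L m a) (sl m) 0 (k + n + 1) -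
      rho (fun _ => 1) (M.L m a) (sl m) 0 (k + 1)) / x ^ 2 ≤
      4 * K * (T' / (x * μ * m) * δ / (v * x)) := by
    have e1 : rho (fun _ => 1) (M.L m a) (sl m) 0 (k + n + 1) -
        rho (fun _ => 1) (M.L m a) (sl m) 0 (k + 1) ≤ T' := by
      linarith [ρ0 (k + 1), eρ (k + 4 * n), hρ (by omega : k + n + 1 ≤ k + 4 * n + 1)]
    refine (div_le_div_of_nonneg_right (mul_le_mul_of_nonneg_left e1 (by positivity))
      (sq_nonneg x)).trans (le_of_eq ?_)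
    field_simp
  -- window sizes
  set u := ⌈ω / v⌉₊ with hu
  have u1 : ω / v ≤ u := Nat.le_ceil _
  have w1 : 1 ≤ ω / v := (one_le_div hv).2 H.ω1
  have u2 : (u : ℝ) ≤ 2 * (ω / v) := by linarith [Nat.ceil_lt_add_one (zero_le_one.trans w1)]
  have u3 : (1 : ℝ) ≤ u := w1.trans u1
  set U := ⌈Λ * u⌉₊ with hU
  have U1 : Λ * u ≤ U := Nat.le_ceil _
  have U0 : 1 ≤ Λ * u := one_le_mul_of_one_le_of_one_le hΛ u3
  have U2 : (U : ℝ) ≤ 2 * (Λ * u) := by linarith [Nat.ceil_lt_add_one (zero_le_one.trans U0)]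
  have u4 : u * v ≤ 2 * ω := by rwa [← mul_div_assoc, le_div_iff₀ hv] at u2
  have u5 : ω ≤ u * v := by rwa [div_le_iff₀ hv] at u1
  have U4 : U * v ≤ 4 * Λ * ω := by
    nlinarith [mul_le_mul_of_nonneg_right U2 hv.le, mul_le_mul_of_nonneg_left u4 (by linarith : 0 ≤ Λ)]
  have U5 : (U : ℝ) ≤ n := le_of_mul_le_mul_right (U4.trans H.ω2) hv
  have U6 : U ≤ n := by exact_mod_cast U5
  have uU : u ≤ U := by
    have : (u : ℝ) ≤ U := le_trans (le_mul_of_one_le_left (by linarith) hΛ) U1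
    exact_mod_cast this
  have hP : SrD79.Ph (fun _ => 1) (M.L m a) (sl m) 0 (fun j => c (j - 1))
      (Ico (k - 2 * n + 1) (k + 4 * n + 1)) ≤ Φ := by
    rw [SrD79.Ph, ← sum_Ico_add']
    refine le_trans (le_of_eq (sum_congr rfl fun j _ => ?_)) ((Phi_mono G (S := Ico (k - 2 * n)
      (k + 4 * n)) (Ico_subset_Ico (by omega) (by omega))).trans hΦ)
    rw [eρ, dm_succ, Nat.add_sub_cancel]
  have key := pair_phi Link33.wt1 G.monoL 0 G.sym ts_trans (ts_cov (sl_cov G.m0))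
    (lo := k + 1) (hi := k + n + 1) (lo' := k - 2 * n + 1) (hi' := k + 4 * n + 1) (u := u) (U := U)
    (by exact_mod_cast u3) uU (by omega) (by omega) (by omega) (by omega) (by rw [len_L]; omega) δ0
    (fun j hj => (hd j (by have := mem_Ico.1 hj; omega) (by have := mem_Ico.1 hj; omega)).1) x0
    (fun j hj => hex j (by have := mem_Ico.1 hj; omega)) hA (q := fun j => c (j - 1))
    (g := K * v) (by positivity) (fun j h1 h2 => by
      obtain ⟨i, rfl⟩ : ∃ i, j = i + 1 := ⟨j - 1, by omega⟩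
      exact H.clk i (by omega) (by omega)) hP (c := dm (M.L m a) 0) (κ := K * δ) (by positivity)
    (fun j hj => ⟨dm_nonneg G.monoL j,
      (hd j (by have := mem_Ico.1 hj; omega) (by have := mem_Ico.1 hj; omega)).2⟩)
    (hZ.trans hZ') (rho (fun _ => 1) (M.L m a) (sl m) 0)
  rw [← sum_Ico_add', ← sum_Ico_add'] at key
  simp only [sub_self, sq, mul_zero, sum_const_zero, zero_add, eρ, dm_succ, sl_cov G.m0] at key
  have e0 : ∑ j ∈ Ico k (k + n), M.dz m a j * Vr M m a j = ∑ j ∈ Ico k (k + n), M.dz m a j *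
      pi2 (fun _ => 1) (M.L m a) (j + 1)
        (fun x y => (ov x y - M.rb m a j) * (ov x y - M.rb m a j)) 0 := by
    simp only [Vr, Md.E2, sq]
  rw [e0]
  refine key.trans ?_
  rw [show k + n + 1 - (k + 1) = n by omega]
  exact arith δ0 x0 μ0 hv m0 ω0 T0 Φ0 hK hΛ L1 u3 U1 u4 u5 U4 U5

/-- **one block** -/
theorem VL.bound (H : VL M m a v K Λ B c k n δ x μ ω T) (G : Md67.Lg M m a) (hv : 0 < v)
    (hK : 1 ≤ K) (hΛ : 1 ≤ Λ) (hL : ((Nat.log 2 n : ℝ) + 2) * (Nat.log 2 n + 13) ≤ Lg)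
    (hΦ : Phi M m a c (Ico (k - 3 * n) (k + 5 * n)) ≤ Φ) :
    ∑ j ∈ Ico k (k + n), M.dz m a j * Vr M m a j ≤
      4000 * K ^ 4 * Lg ^ 2 * Λ * B + 26 * K * Φ / Λ := by
  have n4 := H.n4 hv hΛ
  have n0 : (0 : ℝ) < n := by exact_mod_cast (by omega : 0 < n)
  have m0 : (0 : ℝ) < m := by exact_mod_cast G.m0
  have δ0 := H.δ0
  have x0 := H.x0
  have μ0 := H.μ0
  have ω0 : 0 < ω := hv.trans_le H.ω1
  have Φ0 : 0 ≤ Φ := (Phi_nonneg G _).trans hΦ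
  have L1 : (1 : ℝ) ≤ Lg := le_trans (by nlinarith [Nat.cast_nonneg (α := ℝ) (Nat.log 2 n)]) hL
  have B0 : 0 ≤ B := le_trans (by positivity) H.b3
  have K0 : 0 < K := by linarith
  have Λ0 : 0 < Λ := by linarith
  set W := K ^ 4 * Lg ^ 2 * Λ * B with hW
  have a1 : K ^ 2 * Lg * B ≤ W := by
    have : K ^ 2 * Lg ^ 1 * 1 ≤ K ^ 4 * Lg ^ 2 * Λ := by gcongr <;> norm_num
    rw [pow_one, mul_one] at this
    exact mul_le_mul_of_nonneg_right this B0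
  have a2 : K ^ 3 * Λ * B ≤ W := by
    have : K ^ 3 * Lg ^ 0 * Λ ≤ K ^ 4 * Lg ^ 2 * Λ := by gcongr <;> norm_num
    rw [pow_zero, mul_one] at this
    exact mul_le_mul_of_nonneg_right this B0
  have b1 := mul_le_mul_of_nonneg_left H.b1 (by positivity : 0 ≤ K ^ 2 * Lg)
  have b2 := mul_le_mul_of_nonneg_left H.b2 (by positivity : 0 ≤ K ^ 2 * Lg)
  have b3 := mul_le_mul_of_nonneg_left H.b3 (by positivity : 0 ≤ K ^ 3 * Λ)
  have W0 : 0 ≤ W := by positivity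
  have p0 : 0 ≤ Φ / Λ := by positivity
  have p1 : Φ / Λ ≤ K * (Φ / Λ) := le_mul_of_one_le_left p0 hK
  have p2 : 24 * K * Φ / Λ = 24 * (K * (Φ / Λ)) := by ring
  rw [show 4000 * K ^ 4 * Lg ^ 2 * Λ * B + 26 * K * Φ / Λ = 4000 * W + 26 * (K * (Φ / Λ)) by
    rw [hW]; ring]
  rcases H.top with h | ⟨h1, h2, h3⟩
  · have := H.core G hv hK hΛ hL hΦ ((rb_le_one G.m0 _).trans h)
    linarith
  have lo := H.lo
  have t := top_le (rb_mono (M := M) (a := a) G.m0) (i := k + 4 * n) (U := n) (q := c)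
    (d := M.dz m a) (g := K * v) (Φ := Φ) (by omega) (by positivity) δ0
    (fun j e e' => H.clk j (by omega) (by omega))
    (fun j hj => (H.dz j (by have := mem_Ico.1 hj; omega) (by have := mem_Ico.1 hj; omega)).1)
    ((Phi_mono G (S := Ico (k + 4 * n) (k + 4 * n + n)) (Ico_subset_Ico (by omega)
      (by omega))).trans hΦ)
  have key := H.core G hv hK hΛ hL hΦ (T' := T + √(Φ / (n * δ))) (by linarith)
  set s := √(Φ / (n * δ)) with hs
  have s2 : s ^ 2 * (n * δ) = Φ := by rw [hs, sq_sqrt (by positivity)]; field_simp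
  have yg : ∀ {e y : ℝ}, y ^ 2 ≤ B * (n * δ) →
      e * K ^ 2 * Lg * (s * y) ≤ Φ / Λ + e ^ 2 / 4 * W := fun {e y} hy => by
    have hn : 0 < n * δ := by positivity
    have q1 : e ^ 2 / 4 * (K ^ 4 * Lg ^ 2 * Λ) * (y ^ 2 / (n * δ)) ≤ e ^ 2 / 4 * W := by
      rw [hW, ← mul_assoc (e ^ 2 / 4) _ B]
      exact mul_le_mul_of_nonneg_left ((div_le_iff₀ hn).2 hy) (by positivity)
    refine le_trans ?_ (add_le_add le_rfl q1)
    rw [← s2, ← sub_nonneg, show s ^ 2 * (n * δ) / Λ + e ^ 2 / 4 * (K ^ 4 * Lg ^ 2 * Λ) *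
      (y ^ 2 / (n * δ)) - e * K ^ 2 * Lg * (s * y) =
      (s * (n * δ) - e / 2 * K ^ 2 * Lg * Λ * y) ^ 2 / (Λ * (n * δ)) by field_simp; ring]
    positivity
  have y1 := yg (e := 16) h2
  have y2 := yg (e := 22) h3
  have e1 : (T + s) / (x * μ * m) / ω = T / (x * μ * m) / ω + s * (1 / (x * μ * m) / ω) := by ring
  have e2 : (T + s) / (x * μ * m) * δ / (v * x) =
      T / (x * μ * m) * δ / (v * x) + s * (1 / (x * μ * m) * δ / (v * x)) := by ring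
  rw [e1, e2] at key
  linarith

end Crest.Agent.T156.Alt.V79

end
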