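import Crest.Agent.T156.SrSh_74
import Crest.Agent.T156.SrP_26

/-!
# Row 156, SR: the plateau step, frame-free (helper74)

Every node of the plateau is controlled by one shifted window (`SrSh_74`).
-/

set_option autoImplicit false

noncomputable section

namespace Crest.Agent.T156.Sr74

open Finset Real
open Crest.Agent.T156.SrP26 (Pt rho)

variable {z : ℕ → ℝ} {J Jp : ℕ} {u0 ue h K g : ℝ}

/-- plateau with a mesh that is quasi-uniform on shells (`Cl.plat`, `Cl.dens` give `K = C³`) -/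
structure Pq (z : ℕ → ℝ) (J Jp : ℕ) (u0 ue h K : ℝ) : Prop extends Pt z J Jp u0 ue h where
  K1 : 1 ≤ K
  hu' : 8 * K ^ 2 * h ≤ u0
  he' : 4 * K ^ 2 * h ≤ ue
  gap : z (J - 1) + 2 * u0 + 2 * ue ≤ 1
  pos : ∀ k, J ≤ k + 1 → k + 1 < Jp → z k < z (k + 1)
  qu : ∀ i j, J ≤ i + 1 → i ≤ j → j + 1 < Jp →
    z j - z i ≤ min (z i - z (J - 1)) (1 - z j) →
    z (i + 1) - z i ≤ K * (z (j + 1) - z j) ∧ z (j + 1) - z j ≤ K * (z (i + 1) - z i)

/-- an admissible window for the density `g ρ^{-3/2}` -/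
structure Aw (z : ℕ → ℝ) (J Jp : ℕ) (u0 ue g : ℝ) (b N : ℕ) (η : ℝ) : Prop where
  lo : J ≤ b
  hi : b + 2 * N < Jp
  e0 : 0 < η
  le : ∀ k, b ≤ k → k < b + 2 * N → η ≤ g * (z (k + 1) - z k) /
    (rho (z (J - 1)) u0 ue (z k) * √(rho (z (J - 1)) u0 ue (z k)))
  env : ∀ k, b ≤ k → k ≤ b + 2 * N → N * η * √(rho (z (J - 1)) u0 ue (z k)) ≤ g
  sq : (N * η) ^ 2 * (z (b + 2 * N) - z b) ≤ g ^ 2
  far : min u0 ue / 4 ≤ z b - z (J - 1) ∧ min u0 ue / 4 ≤ 1 - z (b + 2 * N)

theorem Aw.sqU {b N : ℕ} {η : ℝ} (zm : Monotone z) (H : Aw z J Jp u0 ue g b N η) (B : Finset ℕ) :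
    ∑ j ∈ B, (z j - z (j - 1)) * GU η b N j ^ 2 ≤ g ^ 2 := (sq_GU zm H.e0.le b N B).trans H.sq

theorem Aw.sqD {b N : ℕ} {η : ℝ} (zm : Monotone z) (H : Aw z J Jp u0 ue g b N η) (B : Finset ℕ) :
    ∑ j ∈ B, (z j - z (j - 1)) * GD η b N j ^ 2 ≤ g ^ 2 := (sq_GD zm H.e0.le b N B).trans H.sq

theorem aw_of {b N : ℕ} {δ C u η : ℝ} (P : Pt z J Jp u0 ue h) (S : Sh z b N δ C u (g / 8) η)
    (h1 : J ≤ b) (h2 : b + 2 * N < Jp)
    (hr : ∀ k, b ≤ k → k ≤ b + 2 * N → P.r k ≤ 4 * u)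
    (far : min u0 ue / 4 ≤ z b - z (J - 1) ∧ min u0 ue / 4 ≤ 1 - z (b + 2 * N)) :
    Aw z J Jp u0 ue g b N η := by
  have hu := S.u0
  have hg : 0 < g := by linarith [S.g0]
  have hs : 0 < √u := sqrt_pos.2 hu
  have sq : ∀ k, b ≤ k → k ≤ b + 2 * N → √(P.r k) ≤ 2 * √u := fun k a1 a2 => by
    refine sqrt_le_iff.2 ⟨by positivity, ?_⟩
    rw [mul_pow, sq_sqrt hu.le]
    linarith [hr k a1 a2]
  refine ⟨h1, h2, S.eta_pos, fun k a1 a2 => (S.eta_le a1 a2).trans ?_, fun k a1 a2 => ?_,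
    S.mass_sq.trans (by nlinarith), far⟩
  · have r0 := P.r_pos (h1.trans a1) (by omega : k ≤ Jp)
    have d0 : 0 ≤ z (k + 1) - z k := sub_nonneg.2 (P.mono k.le_succ)
    have a3 : P.r k * √(P.r k) ≤ 4 * u * (2 * √u) :=
      mul_le_mul (hr k a1 a2.le) (sq k a1 a2.le) (sqrt_nonneg _) (by positivity)
    show _ ≤ g * (z (k + 1) - z k) / (P.r k * √(P.r k))
    have := sqrt_pos.2 r0
    rw [div_le_div_iff₀ (by positivity) (by positivity)]
    nlinarith [mul_le_mul_of_nonneg_left a3 (by positivity : 0 ≤ g / 8 * (z (k + 1) - z k))]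
  · have a3 : N * η * √(P.r k) ≤ g / 8 / (4 * √u) * (2 * √u) :=
      mul_le_mul S.mass (sq k a1 a2) (sqrt_nonneg _) (by positivity)
    have e : g / 8 / (4 * √u) * (2 * √u) = g / 16 := by field_simp; ring
    show N * η * √(P.r k) ≤ g
    linarith

namespace Pq

variable (P : Pq z J Jp u0 ue h K)
include P

theorem lt_top {k : ℕ} (hk : z k < 1 - ue) : k + 1 < Jp := by
  by_contra hc
  have := P.mono (show Jp - 1 ≤ k by omega)
  linarith [P.last]

theorem step {k : ℕ} (h1 : J ≤ k + 1) (h2 : k + 1 < Jp) : z (k + 1) - z k ≤ h := by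
  simpa using P.mesh (k + 1) h1 h2

/-- the window above a node -/
theorem winU (hg : 0 < g) {a : ℕ} (h0' : u0 ≤ z a - z (J - 1)) (h2 : 2 * ue ≤ 1 - z a) :
    ∃ N η δ u, Sh z a N δ (K ^ 2) u (g / 8) η ∧ Aw z J Jp u0 ue g a N η ∧ P.toPt.r a ≤ 4 * u ∧
      u / 2 ≤ 1 - z (a + 2 * N) ∧ u = min (z a - z (J - 1)) (1 - z a) := by
  have hK := P.K1
  have h0 := P.h0
  have hue : 0 < ue := by linarith [P.he]
  have hu0 := P.hu
  have h1 : J ≤ a := by
    by_contra hc
    have := P.mono (show a ≤ J - 1 by omega)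
    linarith
  have K0 : 0 < K ^ 2 * h := by positivity
  set u := min (z a - z (J - 1)) (1 - z a) with hu
  have u1 : u ≤ z a - z (J - 1) := min_le_left _ _
  have u2 : u ≤ 1 - z a := min_le_right _ _
  have u3 : 4 * K ^ 2 * h ≤ u := le_min (by linarith [P.hu']) (by linarith [P.he'])
  have a1 : a + 1 < Jp := P.lt_top (by linarith)
  have d0 := sub_pos.2 (P.pos a (by omega) a1)
  have d1 := P.step (k := a) (by omega) a1
  obtain ⟨N, η, S⟩ := exists_up (δ := (z (a + 1) - z a) / K) (C := K ^ 2) (u := u) (g := g / 8)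
    (a := a) P.mono (by positivity) (one_le_pow₀ hK) (by positivity)
    (le_trans (by
      rw [mul_assoc]
      gcongr
      exact (div_le_self d0.le hK).trans d1) u3) fun k k1 k2 => by
      obtain ⟨b1, b2⟩ := P.qu a k (by omega) k1 (P.lt_top (by linarith))
        (le_min (by nlinarith) (by linarith))
      refine ⟨by rwa [div_le_iff₀' (by positivity)], b2.trans (le_of_eq ?_)⟩
      field_simp
  have hl := S.len
  have hr : ∀ k, a ≤ k → k ≤ a + 2 * N → P.toPt.r k ≤ 4 * u := fun k k1 k2 => by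
    have c1 := P.mono k1
    have c2 := P.mono k2
    have := S.u0
    rcases min_choice (z a - z (J - 1)) (1 - z a) with e | e
    · exact (min_le_left _ _).trans (by rw [← hu] at e; linarith)
    · exact (min_le_right _ _).trans (by rw [← hu] at e; linarith)
  have m1 := min_le_left u0 ue
  have m2 := min_le_right u0 ue
  have m3 : min u0 ue ≤ u := le_min (by linarith) (by linarith)
  refine ⟨N, η, _, u, S, aw_of P.toPt S h1 ?_ hr ⟨by linarith, by linarith [S.u0]⟩,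
    hr a le_rfl (by omega), by linarith, rfl⟩
  by_contra hc
  have := P.mono (not_lt.1 hc)
  rw [P.top] at this
  linarith

/-- the window below a node -/
theorem winD (hg : 0 < g) {a : ℕ} (h1 : u0 ≤ z a - z (J - 1)) (h2 : 2 * ue ≤ 1 - z a) :
    ∃ b N η δ u, b + 2 * N = a ∧ Sh z b N δ (K ^ 2) u (g / 8) η ∧ Aw z J Jp u0 ue g b N η ∧
      P.toPt.r a ≤ 4 * u ∧ u / 2 ≤ z b - z (J - 1) := by
  have hK := P.K1
  have h0 := P.h0
  have hue := P.he
  have hu0 := P.hu
  set u := min ((z a - z (J - 1)) / 2) (1 - z a) with hu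
  have u1 : u ≤ (z a - z (J - 1)) / 2 := min_le_left _ _
  have u2 : u ≤ 1 - z a := min_le_right _ _
  have u3 : 4 * K ^ 2 * h ≤ u := le_min (by linarith [P.hu']) (by linarith [P.he'])
  have u4 : 8 * h ≤ u := le_min (by linarith) (by linarith)
  have a1 : a + 1 < Jp := P.lt_top (by linarith)
  have aJ : J ≤ a := by
    by_contra hc
    have := P.mono (show a ≤ J - 1 by omega)
    linarith
  have J1 := P.J1
  have d0 := sub_pos.2 (P.pos (a - 1) (by omega) (by omega))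
  have d1 := P.step (k := a - 1) (by omega) (by omega)
  have xa : z (a - 1) ≤ z a := P.mono (by omega)
  obtain ⟨b, N, η, -, hb, S⟩ := exists_down (δ := (z (a - 1 + 1) - z (a - 1)) / K) (C := K ^ 2)
    (u := u) (g := g / 8) (a := a) (J := J - 1) P.mono (by positivity) (one_le_pow₀ hK)
    (by positivity) (le_trans (by
      rw [mul_assoc]
      gcongr
      exact (div_le_self d0.le hK).trans d1) u3) (by linarith) fun k k1 k2 => by
      have k3 : J ≤ k + 1 := by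
        by_contra hc
        have := P.mono (show k + 1 ≤ J - 1 by omega)
        linarith
      have k4 := P.step k3 (by omega)
      obtain ⟨b1, b2⟩ := P.qu k (a - 1) k3 (by omega) (by omega)
        (le_min (by linarith) (by linarith))
      refine ⟨by rwa [div_le_iff₀' (by positivity)], b1.trans (le_of_eq ?_)⟩
      field_simp
  have hl := S.len
  rw [hb] at hl
  have hr : ∀ k, b ≤ k → k ≤ b + 2 * N → P.toPt.r k ≤ 4 * u := fun k k1 k2 => by
    have c1 := P.mono k1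
    have c2 := P.mono (k2.trans hb.le)
    rcases min_choice ((z a - z (J - 1)) / 2) (1 - z a) with e | e
    · exact (min_le_left _ _).trans (by rw [← hu] at e; linarith)
    · exact (min_le_right _ _).trans (by rw [← hu] at e; linarith)
  have m1 := min_le_left u0 ue
  have m2 := min_le_right u0 ue
  have m3 : min u0 ue / 2 ≤ u := le_min (by linarith) (by linarith)
  refine ⟨b, N, η, _, u, hb, S, aw_of P.toPt S ?_ (by omega) hr
    ⟨by linarith, by rw [hb]; linarith⟩, hr a (by omega) hb.ge, by linarith⟩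
  by_contra hc
  have := P.mono (show b ≤ J - 1 by omega)
  linarith

end Pq

/-- what the moves give: for every admissible window a monotone profile `r'` of energy `≤ B` -/
structure Mvs (z r : ℕ → ℝ) (q : ℝ) (J Jp : ℕ) (u0 ue g B X : ℝ) : Prop where
  up : ∀ b N η, Aw z J Jp u0 ue g b N η → ∃ r' : ℕ → ℝ, Monotone r' ∧
    ∑ k ∈ Icc J Jp, (z k - z (k - 1)) * (r' k - q) ^ 2 ≤ B ∧
    ∑ k ∈ lo b N, η * (z (k + N) - z k) * r k ≤
      ∑ k ∈ lo b N, η * (z (k + N) - z k) * r' (k + N + 1) + X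
  dn : ∀ b N η, Aw z J Jp u0 ue g b N η → ∃ r' : ℕ → ℝ, Monotone r' ∧
    ∑ k ∈ Icc J Jp, (z k - z (k - 1)) * (r' k - q) ^ 2 ≤ B ∧
    ∑ k ∈ hi b N, η * (z (k - N) - z k) * r (k + 1) ≤
      ∑ k ∈ hi b N, η * (z (k - N) - z k) * r' (k - N) + X

theorem fin_le {ρ u D B Y : ℝ} (hu : 0 < u) (hρ : ρ ≤ 4 * u) (hB : 0 ≤ B) (hY : 0 ≤ Y)
    (h : D ≤ √(B / (u / 2)) + Y / √u) : √ρ * D ≤ 3 * √B + 2 * Y := by
  have hs : 0 < √u := sqrt_pos.2 hu
  have s2 : √2 ≤ 3 / 2 := sqrt_le_iff.2 ⟨by norm_num, by norm_num⟩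
  have s0 : 0 < √2 := by positivity
  have a1 : √ρ ≤ 2 * √u := by
    refine sqrt_le_iff.2 ⟨by positivity, ?_⟩
    rw [mul_pow, sq_sqrt hu.le]
    linarith
  have e : √(B / (u / 2)) = √2 * √B / √u := by
    rw [show B / (u / 2) = 2 * B / u by field_simp, sqrt_div (by positivity), sqrt_mul (by norm_num)]
  rw [e] at h
  refine (mul_le_mul_of_nonneg_left h (sqrt_nonneg _)).trans
    ((mul_le_mul_of_nonneg_right a1 (by positivity)).trans ?_)
  have : 2 * √u * (√2 * √B / √u + Y / √u) = 2 * √2 * √B + 2 * Y := by field_simp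
  rw [this]
  nlinarith [sqrt_nonneg B]

/-- **the plateau step**, weak norm -/
theorem Pq.Z_le (P : Pq z J Jp u0 ue h K) (hg : 0 < g) {r : ℕ → ℝ} {q B X d0 M : ℝ}
    (hr : Monotone r) (hX : 0 ≤ X) (hd : 0 ≤ d0) (h0 : q - r J ≤ d0)
    (hM : ∀ k, J ≤ k → k ≤ Jp → |r k - q| ≤ M) (H : Mvs z r q J Jp u0 ue g B X) (hB : 0 ≤ B)
    {k : ℕ} (h1 : J ≤ k) (h2 : k ≤ Jp) : √(P.toPt.r k) * |r k - q| ≤
      3 * √B + 1024 * K ^ 4 * X / g + √(2 * u0) * d0 + √(3 * ue) * M := by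
  have hK := P.K1
  have M0 : 0 ≤ M := (abs_nonneg _).trans (hM k h1 h2)
  have p1 : 0 ≤ 1024 * K ^ 4 * X / g := by positivity
  have p2 : 0 ≤ √(2 * u0) * d0 := by positivity
  have p3 : 0 ≤ √(3 * ue) * M := by positivity
  have p4 : 0 ≤ √B := sqrt_nonneg _
  have eY : ∀ u : ℝ, 64 * (K ^ 2) ^ 2 * X / (g / 8 * √u) = 512 * K ^ 4 * X / g / √u := fun u => by
    ring
  have eZ : 2 * (512 * K ^ 4 * X / g) = 1024 * K ^ 4 * X / g := by ring
  rcases lt_or_ge (1 - z k) (2 * ue) with t | t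
  · have : √(P.toPt.r k) * |r k - q| ≤ √(3 * ue) * M :=
      mul_le_mul (sqrt_le_sqrt ((min_le_right _ _).trans (by linarith))) (hM k h1 h2)
        (abs_nonneg _) (sqrt_nonneg _)
    linarith
  rcases le_total q (r k) with s | s
  · rw [abs_of_nonneg (by linarith)]
    have key : ∀ a, u0 ≤ z a - z (J - 1) → 2 * ue ≤ 1 - z a → k ≤ a →
        (k = a ∨ P.toPt.r k ≤ 4 * min (z a - z (J - 1)) (1 - z a)) →
        √(P.toPt.r k) * (r k - q) ≤ 3 * √B + 2 * (512 * K ^ 4 * X / g) := fun a a1 a2 a3 a4 => by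
      obtain ⟨N, η, δ, u, S, A, c1, c2, c3⟩ := P.winU hg a1 a2
      obtain ⟨r', m', e', hx⟩ := H.up a N η A
      have g1 := S.gainU (R := r a) (R' := r' (a + 2 * N)) hX
        (fun j hj => hr (mem_Ico.1 hj).1)
        (fun j hj => m' (by have := (mem_Ico.1 hj).2; omega)) hx
      have g2 := top_le P.mono (c := a + 2 * N) (e := Jp) A.hi.le
        (fun j hj => by simp only [mem_Ioc, mem_Icc] at hj ⊢; omega) (fun j hj _ => m' hj.le) e'
        (half_pos S.u0) (by rw [P.top]; exact c2)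
      refine fin_le (D := r k - q) S.u0 ?_ hB (by positivity)
        (by rw [eY] at g1; linarith [hr a3])
      rcases a4 with rfl | a4
      · exact c1
      · rwa [c3]
    rcases le_or_gt u0 (z k - z (J - 1)) with t' | t'
    · linarith [key k t' t le_rfl (Or.inl rfl)]
    have ex : ∃ a, u0 ≤ z a - z (J - 1) := ⟨Jp, by rw [P.top]; linarith [P.gap, P.hu, P.he, P.h0]⟩
    have a1 := Nat.find_spec ex
    have a2 : k < Nat.find ex := by
      by_contra hc
      have := P.mono (not_lt.1 hc)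
      linarith
    have a3 := not_le.1 (Nat.find_min ex (show Nat.find ex - 1 < Nat.find ex by omega))
    have a4 : Nat.find ex - 1 + 1 < Jp := P.lt_top (by linarith [P.gap, P.hu, P.he, P.h0])
    have a5 := P.mesh (Nat.find ex) (by omega) (by omega)
    have := key (Nat.find ex) a1 (by linarith [P.gap, P.hu, P.he, P.h0]) a2.le (Or.inr
      ((min_le_left _ _).trans (by
        rcases min_choice (z (Nat.find ex) - z (J - 1)) (1 - z (Nat.find ex)) with e | e <;>
          rw [e] <;> linarith [P.gap, P.hu, P.he, P.h0])))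
    linarith
  rw [abs_of_nonpos (by linarith), neg_sub]
  rcases lt_or_ge (z k - z (J - 1)) u0 with t' | t'
  · have : √(P.toPt.r k) * (q - r k) ≤ √(2 * u0) * d0 :=
      mul_le_mul (sqrt_le_sqrt ((min_le_left _ _).trans (by linarith)))
        (by linarith [hr h1]) (by linarith) (sqrt_nonneg _)
    linarith
  obtain ⟨b, N, η, δ, u, hb, S, A, c1, c2⟩ := P.winD hg t' t
  obtain ⟨r', m', e', hx⟩ := H.dn b N η A
  have g1 := S.gainD (R := r k) (R' := r' b) hX
    (fun j hj => hr (by have := (mem_Ico.1 hj).2; omega))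
    (fun j hj => m' (by have := (mem_Ico.1 hj).1; omega)) hx
  have J1 := P.J1
  have lb := A.lo
  have g2 := bot_le P.mono (c := b) (e := J - 1) (by omega)
    (fun j hj => by simp only [mem_Ioc, mem_Icc] at hj ⊢; omega) (fun j _ hj => m' hj) e'
    (half_pos S.u0) c2
  have := fin_le (D := q - r k) (Y := 512 * K ^ 4 * X / g) S.u0 c1 hB (by positivity)
    (by rw [eY] at g1; linarith)
  linarith

/-- **the plateau step**, energy -/
theorem Pq.phi_le (P : Pq z J Jp u0 ue h K) (hg : 0 < g) {r : ℕ → ℝ} {q B X d0 M : ℝ}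
    (hr : Monotone r) (hX : 0 ≤ X) (hd : 0 ≤ d0) (h0 : q - r J ≤ d0)
    (hM : ∀ k, J ≤ k → k ≤ Jp → |r k - q| ≤ M) (H : Mvs z r q J Jp u0 ue g B X) (hB : 0 ≤ B) :
    ∑ k ∈ Icc J Jp, (z k - z (k - 1)) * (r k - q) ^ 2 ≤
      (log (1 + 1 / u0) + 2 * log (1 + 1 / ue)) *
        (36 * B + 4 * (1024 * K ^ 4 * X / g) ^ 2 + 8 * u0 * d0 ^ 2 + 12 * ue * M ^ 2) := by
  have u0p : 0 < u0 := by linarith [P.hu, P.h0]
  have uep : 0 < ue := by linarith [P.he, P.h0]
  refine (P.toPt.phi_le fun k h1 h2 => P.Z_le hg hr hX hd h0 hM H hB h1 h2).trans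
    (mul_le_mul_of_nonneg_left ?_ (add_nonneg (log_nonneg (le_add_of_nonneg_right (by positivity)))
      (mul_nonneg zero_le_two (log_nonneg (le_add_of_nonneg_right (by positivity))))))
  have e1 : (3 * √B) ^ 2 = 9 * B := by rw [mul_pow, sq_sqrt hB]; ring
  have e2 : (√(2 * u0) * d0) ^ 2 = 2 * u0 * d0 ^ 2 := by rw [mul_pow, sq_sqrt (by positivity)]
  have e3 : (√(3 * ue) * M) ^ 2 = 3 * ue * M ^ 2 := by rw [mul_pow, sq_sqrt (by positivity)]
  generalize 3 * √B = x1 at *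
  generalize 1024 * K ^ 4 * X / g = x2 at *
  generalize √(2 * u0) * d0 = x3 at *
  generalize √(3 * ue) * M = x4 at *
  nlinarith [sq_nonneg (x1 - x2), sq_nonneg (x1 - x3), sq_nonneg (x1 - x4), sq_nonneg (x2 - x3),
    sq_nonneg (x2 - x4), sq_nonneg (x3 - x4)]

/-- **corner**: the defect at the junction from the energy of the sloped part below it -/
theorem corner {r q : ℕ → ℝ} (zm : Monotone z) (hr : Monotone r) {e J : ℕ} (he : e ≤ J) {t Φ : ℝ}
    {B : Finset ℕ} (hB : Ioc e J ⊆ B) (hq : ∀ j, e < j → j ≤ J → q J - q j ≤ t)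
    (hΦ : ∑ j ∈ B, (z j - z (j - 1)) * (r j - q j) ^ 2 ≤ Φ) {u : ℝ} (hu : 0 < u)
    (h : u ≤ z J - z e) : q J - r J ≤ t + √(Φ / u) := by
  rcases le_total (q J - r J) t with h0 | h0
  · linarith [sqrt_nonneg (Φ / u)]
  suffices q J - r J - t ≤ √(Φ / u) by linarith
  refine le_sqrt_of_sq_le ?_
  rw [le_div_iff₀ hu]
  refine (mul_le_mul_of_nonneg_left h (sq_nonneg _)).trans (le_trans ?_ hΦ)
  rw [← tel z he, Finset.mul_sum]
  refine le_trans (Finset.sum_le_sum fun j hj => ?_) (Finset.sum_le_sum_of_subset_of_nonneg hB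
    fun j _ _ => mul_nonneg (dz_nonneg zm j) (sq_nonneg _))
  rw [mul_comm, ← neg_sq (r j - q j), neg_sub]
  have := hr (mem_Ioc.1 hj).2
  have := hq j (mem_Ioc.1 hj).1 (mem_Ioc.1 hj).2
  exact mul_le_mul_of_nonneg_left (pow_le_pow_left₀ (by linarith) (by linarith) 2) (dz_nonneg zm j)

end Crest.Agent.T156.Sr74
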