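import Crest.Agent.T156.CKit_32
import Crest.Agent.T156.CErr_54

/-!
# Row 156, block C: `tU [aU, aU]`, objects and pieces (helper67)

The marked pair is `(a, b) = (old k 1, old k 0)`, split at `j`; the two edges are `(p, q)` and
`(p', q')`.  `Ex` is the exception: a double edge at a level `t < j` between two clusters, one of
which carries the marked pair.
-/

set_option autoImplicit false
set_option linter.all false

noncomputable section

namespace Crest.Agent.T156.Cas.Su67

open MeasureTheory Real Set Filter Topology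
open Crest.Agent.T157.E Crest.Agent.T157.Casc Crest.Agent.T157.SL
open Mul55 C40 G90 Nu87

section defs
variable (D : CD) {r : ℕ}

/-- `τ / 2` on UP -/
def tu (t : ℕ) : ℝ := if D.J < t then D.τ t / 2 else 0

/-- the site coefficient of two edges -/
def cf (σ : SM r) (p q p' q' : Fin r) : ℝ := tu D (σ p q) * tu D (σ p' q') *
  Ck32.TS D σ fun x => oE D.q (σ p q) (x p) (x q) * oE D.q (σ p' q') (x p') (x q')

/-- the bulk factor: marked pair and two edges -/
def T3 (σ : SM r) (a b p q p' q' : Fin r) : ℝ := Ck32.TB D σ fun x =>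
  oU D.q (σ a b) (x a) (x b) * (oU D.q (σ p q) (x p) (x q) * oU D.q (σ p' q') (x p') (x q'))

/-- the compensator (its graph sum is exactly zero) -/
def kp (σ : SM r) (a b p q p' q' : Fin r) : ℝ :=
  if σ p q = σ a b ∧ σ p' q' = σ a b then D.u3 (σ a b) else 0

/-- the compensated term -/
def Ph (σ : SM r) (a b p q p' q' : Fin r) : ℝ :=
  cf D σ p q p' q' * (T3 D σ a b p q p' q' - kp D σ a b p q p' q')

/-- the exception, oriented: `p, p'` in the cluster of the marked pair, `q, q'` in another one -/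
def Ex (σ : SM r) (a b p q p' q' : Fin r) : Prop :=
  σ p' q' = σ p q ∧ σ p q < σ a b ∧ σ p q < σ a p ∧ σ p q < σ a p' ∧ σ p q < σ q q'

instance (σ : SM r) (a b p q p' q' : Fin r) : Decidable (Ex σ a b p q p' q') := by
  unfold Ex; infer_instance

/-- the four orientations -/
def Ex4 (σ : SM r) (a b p q p' q' : Fin r) : Prop :=
  Ex σ a b p q p' q' ∨ Ex σ a b q p p' q' ∨ Ex σ a b p q q' p' ∨ Ex σ a b q p q' p'

instance (σ : SM r) (a b p q p' q' : Fin r) : Decidable (Ex4 σ a b p q p' q') := by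
  unfold Ex4; infer_instance

/-- the exceptional term -/
def EE (σ : SM r) (a b p q p' q' : Fin r) : ℝ :=
  if Ex σ a b p q p' q' then cf D σ p q p' q' * T3 D σ a b p q p' q' else 0

/-- the test measure on the upper nodes -/
def mo (j : ℕ) : ℝ := if j ∈ D.up then D.om j else 0

/-- the signed law of the split matrix -/
def aw (k : ℕ) (φ : SM (1 + k + 1) → ℝ) : ℝ := avt D.B (mo D) k φ

end defs

/-- the marked pair -/
abbrev ma (k : ℕ) : Fin (1 + k + 1) := old k 1
abbrev mb (k : ℕ) : Fin (1 + k + 1) := old k 0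

/-- the frame: the word is bounded by its compensated graphs -/
def FrameS : Prop := ∀ (τ0 : ℝ) (D : CD), D.Ok τ0 → D.W.isSome = true → ∀ B : ℝ,
  (∀ k ≤ 4, ∀ p q p' q' : Fin (1 + k + 1), p ≠ q → p' ≠ q' →
    |aw D k fun σ => Ph D σ (ma k) (mb k) p q p' q'| ≤ B) → |D.tU [C40.aU, C40.aU]| ≤ cG 2 * B

/-- both edges at or above the marked node -/
def RegHi : Prop := ∀ (k : ℕ) (p q p' q' : Fin (1 + k + 1)), p ≠ q → p' ≠ q' →
  Bd true fun D => aw D k fun σ =>
    if σ (ma k) (mb k) ≤ σ p q ∧ σ (ma k) (mb k) ≤ σ p' q' then Ph D σ (ma k) (mb k) p q p' q'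
    else 0

/-- an edge below the marked node, not the exception -/
def RegLo : Prop := ∀ (k : ℕ) (p q p' q' : Fin (1 + k + 1)), p ≠ q → p' ≠ q' →
  Bd true fun D => aw D k fun σ =>
    if ¬(σ (ma k) (mb k) ≤ σ p q ∧ σ (ma k) (mb k) ≤ σ p' q') ∧ ¬Ex4 σ (ma k) (mb k) p q p' q'
    then cf D σ p q p' q' * T3 D σ (ma k) (mb k) p q p' q' else 0

/-- the exception -/
def ExcS : Prop := ∀ (k : ℕ) (p q p' q' : Fin (1 + k + 1)), p ≠ q → p' ≠ q' →
  Bd true fun D => aw D k fun σ => EE D σ (ma k) (mb k) p q p' q'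

/-- glue -/
def GlueS : Prop := FrameS → RegHi → RegLo → ExcS → Bd true fun D => D.tU [C40.aU, C40.aU]

/-! ### the pieces of the exception -/

/-- **Ghirlanda–Guerra given the marked node**: forget `b` -/
def GGS : Prop := ∀ k : ℕ, ∃ (ι : Fin (1 + k + 1) → Fin (1 + (k + 1) + 1))
  (pm : Fin (k + 1) → Equiv.Perm (Fin (1 + k + 1))), Function.Injective ι ∧
    (∀ c, ι c ≠ mb (k + 1)) ∧ ι (ma k) = ma (k + 1) ∧ (∀ c, pm c (ma k) = ma k) ∧
    ∀ (Θ : Type) [Fintype Θ] (L : List (Lv Θ)), ∀ j ≤ L.length, ∀ φ : SM (1 + k + 1) → ℝ,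
      (k + 2 : ℝ) * avc L (tw L.length j) (k + 1) (fun σ => φ fun a b => σ (ι a) (ι b)) =
        avm L (1 + k) φ +
          ∑ c, avc L (tw L.length j) k fun σ => φ fun a b => σ (pm c a) (pm c b)

/-- the marked pair is symmetric -/
def SwS : Prop := ∀ k : ℕ, ∃ μ : Equiv.Perm (Fin (1 + k + 1)), μ (ma k) = mb k ∧ μ (mb k) = ma k ∧
  ∀ (Θ : Type) [Fintype Θ] (L : List (Lv Θ)) (j : ℕ) (φ : SM (1 + k + 1) → ℝ),
    avc L (tw L.length j) k (fun σ => φ fun a b => σ (μ a) (μ b)) = avc L (tw L.length j) k φ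

/-- a fresh partner of `a` at the marked node -/
def FreshS : Prop := ∀ (k : ℕ) (p q p' q' : Fin (1 + k + 1)), p ≠ q → p' ≠ q' →
  Bd true fun D => aw D k fun σ => EE D σ (ma k) (mb k) p q p' q' -
    EE D (gr D.B.length σ (ma k) (σ (ma k) (mb k))) (ma k).succ 0 p.succ q.succ p'.succ q'.succ

/-- the free part, `b` carries no edge -/
def Free1 : Prop := ∀ (k : ℕ) (a p q p' q' : Fin (k + 1)), p ≠ q → p' ≠ q' →
  Bd true fun D => ∑ j ∈ Finset.range (D.B.length + 1), mo D j * avm D.B k fun ρ =>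
    EE D (gr D.B.length ρ a j) a.succ 0 p.succ q.succ p'.succ q'.succ

/-- the free part, edges `(a, q)` and `(b, q')` -/
def Free3 : Prop := ∀ (k : ℕ) (a q q' : Fin (k + 1)), a ≠ q →
  Bd true fun D => ∑ j ∈ Finset.range (D.B.length + 1), mo D j * avm D.B k fun ρ =>
    EE D (gr D.B.length ρ a j) a.succ 0 a.succ q.succ 0 q'.succ

/-- induction on the number of replicas -/
def IndS : Prop := GGS → SwS → FreshS → Free1 → Free3 → ExcS

end Crest.Agent.T156.Cas.Su67

end
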