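import Crest.Agent.T156.StUD_67
import Crest.Agent.T156.CWk2_40
import Crest.Agent.T156.CY2A_44
import Crest.Agent.T156.CGl_31
import Crest.Agent.T156.EcB_52

/-!
# Row 156, block C: `tU [aU, aU]`, the free parts of the exception (helper22)
-/

set_option autoImplicit false
set_option linter.all false

noncomputable section

namespace Crest.Agent.T156.Cas.Su67

open MeasureTheory Real Set Filter Topology
open Crest.Agent.T157.E Crest.Agent.T157.Casc Crest.Agent.T157.SL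
open Crest.Agent.T157.G1 (ov)
open Mul55 C40 G90 Nu87 OneP
open Ck32 (TB upF)

namespace F22

variable {D : CD} {τ0 : ℝ} {r : ℕ}

theorem abs_tu (h : D.Ok τ0) (t : ℕ) : |tu D t| ≤ τ0 / 2 := by
  have := h.tau_mem t
  unfold tu
  split_ifs
  · rw [abs_of_nonneg (by linarith)]; linarith
  · rw [abs_zero]; linarith

theorem abs_tu2 (h : D.Ok τ0) (t t' : ℕ) : |tu D t * tu D t'| ≤ τ0 ^ 2 / 4 := by
  rw [abs_mul]
  exact (mul_le_mul (abs_tu h t) (abs_tu h t') (abs_nonneg _) (by linarith [h.tau0])).trans_eq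
    (by ring)

theorem abs_mul4 {x y : ℝ} (hx : |x| ≤ 2) (hy : |y| ≤ 2) : |x * y| ≤ 4 := by
  rw [abs_mul]
  exact (mul_le_mul hx hy (abs_nonneg _) zero_le_two).trans_eq (by norm_num)

theorem abs_TS {σ : SM r} (hσ : Rz D.B.length σ) {F : (Fin r → Bool) → ℝ} {b : ℝ}
    (e : ∀ x, |F x| ≤ b) : |Ck32.TS D σ F| ≤ b := by
  rw [← Ck32.lenS] at hσ
  have h1 := TM_mono (h := 0) wt_one90 hσ (G := fun _ => b) fun x => (abs_le.1 (e x)).2
  have h2 := TM_mono (h := 0) wt_one90 hσ (F := fun _ => -b) fun x => (abs_le.1 (e x)).1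
  rw [TM_const wt_one90 hσ] at h1 h2
  exact abs_le.2 ⟨h2, h1⟩

theorem TB_u {σ : SM r} (hσ : Rz D.B.length σ) {a b : Fin r} (hab : a ≠ b) (p : ℕ) :
    TB D σ (fun x => |oU D.q (σ a b) (x a) (x b)| ^ p) = D.u p (σ a b) :=
  TM_pair (h := 0) wt_one90 hσ hab fun x y => |oU D.q (σ a b) x y| ^ p

/-- the free partner of `a` along its path -/
theorem path_fr (h : D.Ok τ0) {ρ : SM r} (hρ : Rz D.B.length ρ) (a : Fin r) {t : ℕ}
    (ht : D.J ≤ t) {c : ℕ → ℝ} {B A : ℝ} (hc : Cw55.DV D.dv t D.K B 0 c)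
    {G : (Fin r → Cube D.n) → ℝ} (hA : 0 ≤ A) (HA : TB D ρ (fun x => G x ^ 2) ≤ A ^ 2) :
    |∑ j ∈ Finset.range (D.B.length + 1), mo D j * if t < j then c j *
      TB D (gr D.B.length ρ a j) (fun x => oU D.q j (x a.succ) (x 0) * G fun b => x b.succ)
        else 0| ≤ 2 * B * (A * D.fs D.F1 t) := by
  obtain ⟨s, e, rfl⟩ := hρ
  rw [TB, TM_sm wt_one90 s D.B 0 e.injective] at HA
  have := (Cw55.path_sq h h.wk1 ht (e a) (G := fun _ x => G fun b => x (e b))
    (fun _ => Eg.const _) hc le_rfl hA HA).2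
  rw [Nat.cast_zero, zero_add, one_mul] at this
  refine le_of_eq_of_le (congrArg _ (Eq.symm ?_)) this
  refine (Finset.sum_congr rfl fun j hj => ?_).trans
    (Finset.sum_subset (fun j hj => ?_) fun j _ hj => ?_)
  · rw [Finset.mem_Ico] at hj
    rw [mo, if_pos (Finset.mem_Ioo.2 ⟨by omega, hj.2⟩), if_pos (by omega), mul_left_comm]
    simp only [mul_comm (oU _ _ _ _)]
    rw [TB, Ec52.tm_leaf wt_one90 e a j G (oU D.q j)]
    rfl
  · rw [Finset.mem_Ico] at hj
    rw [Finset.mem_range, Ck32.lenB]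
    omega
  · rw [Finset.mem_Ico] at hj
    by_cases x : t < j
    · rw [mo, if_neg fun y => by have := Finset.mem_Ioo.1 y; omega, zero_mul]
    · rw [if_neg x, mul_zero]

/-- a double edge at one level, a free partner above it -/
theorem bd_free {k : ℕ} (a : Fin (k + 1)) {p q : Fin (k + 1)} (p' q' : Fin (k + 1)) (hpq : p ≠ q)
    (P : SM (k + 1) → Prop) [DecidablePred P] (c : CD → SM (k + 1) → ℕ → ℝ)
    (hP : ∀ K ρ, Rz K ρ → P ρ → p' ≠ q' ∧ ρ p' q' = ρ p q)
    (h0 : ∀ D ρ j, ρ p q ≤ D.J → c D ρ j = 0)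
    (H : ∀ τ0, ∃ B, ∀ D : CD, D.Ok τ0 → ∀ ρ, Rz D.B.length ρ → D.J < ρ p q →
      Cw55.DV D.dv (ρ p q) D.K B 0 (c D ρ)) :
    Bd true fun D => ∑ j ∈ Finset.range (D.B.length + 1), mo D j * avm D.B k fun ρ =>
      if P ρ ∧ ρ p q < j then c D ρ j * TB D (gr D.B.length ρ a j) (fun x =>
        oU D.q j (x a.succ) (x 0) * (oU D.q (ρ p q) (x p.succ) (x q.succ) *
          oU D.q (ρ p q) (x p'.succ) (x q'.succ))) else 0 := Bd.mk' fun τ0 => by
  obtain ⟨B, H⟩ := H τ0
  refine ⟨2 * |B|, fun D h hW => ?_⟩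
  have B0 := abs_nonneg B
  have f0 : ∀ t, 0 ≤ √(D.u 4 t) * D.fs D.F1 t := fun t =>
    mul_nonneg (sqrt_nonneg _) (h.fs0 h.F10 t)
  simp only [← avm_mul]
  rw [← avm_sum]
  refine (Site94.abs_avm_le h.mono (g := fun ρ => 2 * |B| *
    upF D (fun t => √(D.u 4 t) * D.fs D.F1 t) (ρ p q)) fun ρ hρ => ?_).trans ?_
  · have z : 0 ≤ 2 * |B| * upF D (fun t => √(D.u 4 t) * D.fs D.F1 t) (ρ p q) :=
      mul_nonneg (by positivity) (Ck32.upF_nonneg f0 _)
    by_cases x : P ρ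
    swap
    · simpa [x] using z
    rcases le_or_gt (ρ p q) D.J with y | y
    · simpa [h0 D ρ _ y] using z
    obtain ⟨n, e⟩ := hP _ ρ hρ x
    simp only [x, true_and, upF, if_pos y]
    refine path_fr h hρ a y.le ((H D h ρ hρ y).mono (fun t _ b => h.dv0 b.le) (le_abs_self B)
      le_rfl) (G := fun x => oU D.q (ρ p q) (x p) (x q) * oU D.q (ρ p q) (x p') (x q'))
      (sqrt_nonneg _) ?_
    have e1 := TB_u hρ hpq 4
    have e2 := TB_u hρ n 4
    rw [e] at e2
    have e3 := TM_mono (h := 0) wt_one90 hρ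
      (F := fun x => (oU D.q (ρ p q) (x p) (x q) * oU D.q (ρ p q) (x p') (x q')) ^ 2)
      (G := fun x => 1 / 2 * (|oU D.q (ρ p q) (x p) (x q)| ^ 4 +
        |oU D.q (ρ p q) (x p') (x q')| ^ 4)) fun x => by
      rw [Even.pow_abs (by decide), Even.pow_abs (by decide)]
      nlinarith [sq_nonneg (oU D.q (ρ p q) (x p) (x q) ^ 2 - oU D.q (ρ p q) (x p') (x q') ^ 2)]
    rw [TM_mul, TM_add] at e3
    rw [sq_sqrt (D.u0 _ _)]
    unfold TB at e1 e2 ⊢
    linarith
  · have e := avm_pair D.B (upF D fun t => √(D.u 4 t) * D.fs D.F1 t) k hpq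
    rw [avm_mul, e]
    have e2 := Ck32.Br_upF h fun t => √(D.u 4 t) * D.fs D.F1 t
    rw [Wp52.Br] at e2
    rw [e2]
    exact mul_le_mul_of_nonneg_left (h.u4F_Z.trans (h.Z_le.trans (h.E1_le hW))) (by positivity)

theorem cf_gr {ρ : SM r} (hρ : Rz D.B.length ρ) (a : Fin r) (j : ℕ) (p q p' q' : Fin r) :
    cf D (gr D.B.length ρ a j) p.succ q.succ p'.succ q'.succ = cf D ρ p q p' q' := by
  have h1 : Rz D.S.length (gr D.B.length ρ a j) := by rw [Ck32.lenS]; exact hρ.gr a j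
  have := TM_inj (h := 0) wt_one90 h1 (Fin.succ_injective r)
    fun x => oE D.q (ρ p q) (x p) (x q) * oE D.q (ρ p' q') (x p') (x q')
  exact congrArg (tu D (ρ p q) * tu D (ρ p' q') * ·) this

theorem abs_cf (h : D.Ok τ0) {σ : SM r} (hσ : Rz D.B.length σ) (p q p' q' : Fin r) :
    |cf D σ p q p' q'| ≤ τ0 ^ 2 := by
  have l : ∀ a b, σ a b ≤ D.M.length := fun a b => (hσ.le a b).trans_eq Ck32.lenB
  rw [cf, abs_mul]
  exact (mul_le_mul (abs_tu2 h _ _) (abs_TS hσ fun x => abs_mul4 (abs_oE_le h.ook (l _ _) _ _)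
    (abs_oE_le h.ook (l _ _) _ _)) (abs_nonneg _) (by positivity)).trans_eq (by ring)

/-- the site expectation moves with the clock -/
theorem dv_TS (h : D.Ok τ0) {ρ : SM r} (hρ : Rz D.B.length ρ) (a : Fin r) {t : ℕ} (ht : D.J ≤ t)
    {F : (Fin r → Bool) → Bool → ℝ} (hF : ∀ x y, |F x y| ≤ 4) :
    Cw55.DV D.dv t D.K (8 * ((r : ℝ) + 1) ^ 2) 0 fun j =>
      Ck32.TS D (gr D.B.length ρ a j) fun x => F (fun b => x b.succ) (x 0) := by
  have r0 : (0 : ℝ) ≤ r := Nat.cast_nonneg r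
  refine ⟨by positivity, fun j _ _ => (abs_TS (hρ.gr a j) fun _ => hF _ _).trans (by nlinarith),
    ∅, le_rfl, fun j x y _ => ?_⟩
  obtain ⟨s, e, rfl⟩ := hρ
  obtain ⟨j, rfl⟩ : ∃ u, j = u + 1 := ⟨j - 1, by omega⟩
  have l : D.S.length = D.K := opS_length
  have := Cw55.graft_mv wt_one90 (Cw55.monoS h.mono) s (e a) (by omega : j < D.S.length) 0
    (F := fun x y => F (fun b => x (e b)) y) (fun _ _ => hF _ _)
    (Cw55.cv_S h.ook h.mono (by omega : D.J + 1 < j + 1) y.le)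
  rw [← Fintype.card_congr e, Fintype.card_fin] at this
  simp only [Nat.add_sub_cancel, Ck32.TS, ← Ck32.lenS, ← sm_gr]
  rw [TM_sm wt_one90 _ D.S 0 (grE e (e a) _).injective,
    TM_sm wt_one90 _ D.S 0 (grE e (e a) _).injective]
  exact this.trans_eq (by ring)

/-- moving one end of an edge inside the marked cluster -/
theorem mv_end {σ : SM r} (hσ : Rz D.B.length σ) {a b c d : Fin r} (hab : a ≠ b) (hac : a ≠ c)
    (had : a ≠ d) (hy : σ a d < σ a b) (y : ℕ) :
    |(TB D σ fun x => oU D.q (σ a b) (x a) (x b) * (oU D.q (σ a c) (x a) (x c) *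
        oU D.q y (x b) (x d))) - TB D σ fun x => oU D.q (σ a b) (x a) (x b) *
          (oU D.q (σ a c) (x a) (x c) * oU D.q y (x a) (x d))| ≤
      D.u 4 (σ a b) + D.u 4 (σ a c) + D.v (σ a d) (σ a b) := by
  have e3 : TB D σ (fun x => (ov (x a) (x d) - ov (x b) (x d)) ^ 2) =
      2 * D.v (σ a d) (σ a b) := by
    obtain ⟨s, e, rfl⟩ := hσ
    rw [TB, TM_sm wt_one90 s D.B 0 e.injective]
    refine (Y44.sq3 (h := 0) wt_one90 (R := ov) (fun x y => Cw55.oU_comm (fun _ => 0) 0 x y |>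
      fun z => by simpa [oU] using z) s (e.injective.ne had) hy).trans ?_
    rw [Y44.vm, if_neg (e.injective.ne hab)]
    rfl
  have e4 := Ck32.abs_TB_le hσ (F := fun x => oU D.q (σ a b) (x a) (x b) *
      (oU D.q (σ a c) (x a) (x c) * oU D.q y (x b) (x d)) - oU D.q (σ a b) (x a) (x b) *
        (oU D.q (σ a c) (x a) (x c) * oU D.q y (x a) (x d)))
    (G := fun x => |oU D.q (σ a b) (x a) (x b)| ^ 4 + |oU D.q (σ a c) (x a) (x c)| ^ 4 +
      1 / 2 * (ov (x a) (x d) - ov (x b) (x d)) ^ 2) fun x => by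
    rw [Even.pow_abs (by decide), Even.pow_abs (by decide), oU, oU, oU, oU]
    generalize ov (x a) (x b) - D.q (σ a b) = u
    generalize ov (x a) (x c) - D.q (σ a c) = v
    generalize ov (x a) (x d) = z
    generalize ov (x b) (x d) = z'
    rw [abs_le]
    constructor <;> nlinarith [sq_nonneg (u * v + (z - z')), sq_nonneg (u * v - (z - z')),
      sq_nonneg (u ^ 2 - v ^ 2), sq_nonneg (u ^ 2), sq_nonneg (v ^ 2)]
  have e1 := TB_u hσ hab 4
  have e2 := TB_u hσ hac 4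
  unfold TB at *
  rw [TM_sub, TM_add, TM_add, TM_mul, e1, e2, e3] at e4
  linarith

/-- the site coefficient of `Free3` -/
def c3 (a q q' : Fin r) (D : CD) (ρ : SM r) (j : ℕ) : ℝ := tu D (ρ a q) * tu D (ρ a q) *
  Ck32.TS D (gr D.B.length ρ a j) fun x =>
    oE D.q (ρ a q) (x a.succ) (x q.succ) * oE D.q (ρ a q) (x 0) (x q'.succ)

theorem iso3 {K : ℕ} {ρ : SM r} (hρ : Rz K ρ) {a q q' : Fin r} (x : ρ a q < ρ q q') :
    a ≠ q' ∧ ρ a q' = ρ a q := by
  have h1 := hρ.ultra a q q'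
  have h2 := hρ.ultra a q' q
  rw [hρ.comm q' q] at h2
  refine ⟨?_, by omega⟩
  rintro rfl
  rw [hρ.comm q a] at x
  omega

end F22

open F22

/-- **the free part, `b` carries no edge** -/
theorem free1 : Free1 := fun k a p q p' q' hpq hpq' =>
  (bd_free a p' q' hpq (fun ρ => ρ p' q' = ρ p q ∧ ρ p q < ρ a p ∧ ρ p q < ρ a p' ∧ ρ p q < ρ q q')
    (fun D ρ _ => cf D ρ p q p' q') (fun _ _ _ x => ⟨hpq', x.1⟩)
    (fun D ρ j x => by rw [cf, tu, if_neg (by omega), zero_mul, zero_mul])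
    fun τ0 => ⟨τ0 ^ 2, fun D h ρ hρ _ => (Cw55.dv_const (fun t _ b => h.dv0 b.le) _).mono
      (fun t _ b => h.dv0 b.le) (abs_cf h hρ _ _ _ _) le_rfl⟩).congr fun τ0 D h _ =>
    Finset.sum_congr rfl fun j hj => congrArg _ (avm_congr _ _ fun ρ hρ => by
      have e : min j (ρ a a) = j := by
        rw [hρ.self]; exact min_eq_left (Nat.lt_succ_iff.1 (Finset.mem_range.1 hj))
      rw [EE, cf_gr hρ]
      refine if_ctx_congr ?_ (fun x => ?_) fun _ => rfl
      · simp only [Ex, gr_ss, gr_s0, e]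
        tauto
      · simp only [T3, gr_ss, gr_s0, e, x.1.1])

/-- **the free part, edges `(a, q)` and `(b, q')`** -/
theorem free3 : Free3 := fun k a q q' haq => by
  have main := bd_free a a q' haq (fun ρ => ρ a q < ρ q q') (c3 a q q')
    (fun _ _ hρ x => iso3 hρ x)
    (fun D ρ j x => by rw [c3, tu, if_neg (by omega), zero_mul, zero_mul])
    fun τ0 => ⟨τ0 ^ 2 / 4 * (8 * ((k + 1 : ℕ) + 1 : ℝ) ^ 2), fun D h ρ hρ x => by
      have hK : ρ a q ≤ D.M.length := (hρ.le a q).trans_eq Ck32.lenB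
      exact ((dv_TS h hρ a x.le (F := fun x y => oE D.q (ρ a q) (x a) (x q) *
        oE D.q (ρ a q) y (x q')) fun _ _ => abs_mul4 (abs_oE_le h.ook hK _ _)
          (abs_oE_le h.ook hK _ _)).smul _).mono (fun t _ b => h.dv0 b.le)
        (mul_le_mul_of_nonneg_right (abs_tu2 h _ _) (by positivity)) le_rfl⟩
  refine ((Bd.mk' fun τ0 => ⟨τ0 ^ 2 * (1 + 2), fun D h hW => ?_⟩ : Bd true fun D =>
    ∑ j ∈ D.up, D.om j * avm D.B k fun ρ =>
      EE D (gr D.B.length ρ a j) a.succ 0 a.succ q.succ 0 q'.succ -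
      if ρ a q < ρ q q' ∧ ρ a q < j then c3 a q q' D ρ j * TB D (gr D.B.length ρ a j) (fun x =>
        oU D.q j (x a.succ) (x 0) * (oU D.q (ρ a q) (x a.succ) (x q.succ) *
          oU D.q (ρ a q) (x a.succ) (x q'.succ))) else 0).add main).congr fun τ0 D h _ => ?_
  · refine (D.abs_sum_om (b := fun j => τ0 ^ 2 * ((D.u 4 j + (D.e j * D.v j j +
      ∑ y ∈ Finset.Ico 1 j, D.dx y * D.v y j)) + D.I (D.u 4))) fun j hj => ?_).trans ?_
    · obtain ⟨hJ, hK⟩ := Finset.mem_Ioo.1 hj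
      have g0 : ∀ t, 0 ≤ D.u 4 j + D.u 4 t + if t < j then D.v t j else 0 := fun t =>
        add_nonneg (add_nonneg (D.u0 _ _) (D.u0 _ _)) (by split_ifs; exacts [D.v0 _ _, le_rfl])
      refine (Site94.abs_avm_le h.mono (g := fun ρ => τ0 ^ 2 * upF D
        (fun t => D.u 4 j + D.u 4 t + if t < j then D.v t j else 0) (ρ a q))
          fun ρ hρ => ?_).trans ?_
      · have z := mul_nonneg (sq_nonneg τ0) (Ck32.upF_nonneg (D := D) g0 (ρ a q))
        have e : min j (ρ a a) = j := by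
          rw [hρ.self, Ck32.lenB]; exact min_eq_left hK.le
        have hE : Ex (gr D.B.length ρ a j) a.succ 0 a.succ q.succ 0 q'.succ ↔
            ρ a q < ρ q q' ∧ ρ a q < j := by
          simp only [Ex, gr_ss, gr_s0, gr_0s, e]
          refine ⟨fun x => ⟨x.2.2.2.2, x.2.1⟩, fun x => ⟨?_, x.2, ?_, x.2, x.1⟩⟩
          · rw [hρ.comm q' a, (iso3 hρ x.1).2]; omega
          · rw [hρ.self, Ck32.lenB]; omega
        rw [EE]
        by_cases x : ρ a q < ρ q q' ∧ ρ a q < j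
        swap
        · rwa [if_neg (mt hE.1 x), if_neg x, sub_self, abs_zero]
        obtain ⟨n, e1⟩ := iso3 hρ x.1
        have e2 : min j (ρ q' a) = ρ a q := by rw [hρ.comm q' a, e1]; omega
        have e3 : cf D (gr D.B.length ρ a j) a.succ q.succ 0 q'.succ = c3 a q q' D ρ j := by
          simp only [cf, c3, gr_ss, gr_0s, e2]
        rw [if_pos (hE.2 x), if_pos x, ← e3, ← mul_sub, abs_mul]
        rcases le_or_gt (ρ a q) D.J with y | y
        · rwa [e3, c3, tu, if_neg (by omega), zero_mul, zero_mul, abs_zero, zero_mul]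
        have := mv_end (hρ.gr a j) (Fin.succ_ne_zero a) ((Fin.succ_injective _).ne haq)
          ((Fin.succ_injective _).ne n) (by rw [gr_ss, gr_s0, e, e1]; exact x.2) (ρ a q)
        simp only [gr_ss, gr_s0, e, e1] at this
        simp only [T3, gr_ss, gr_s0, gr_0s, e, e2, upF, if_pos y, if_pos x.2]
        exact mul_le_mul (abs_cf h (hρ.gr a j) _ _ _ _) this (abs_nonneg _) (sq_nonneg _)
      · have e := avm_pair D.B
          (upF D fun t => D.u 4 j + D.u 4 t + if t < j then D.v t j else 0) k haq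
        have e2 := Ck32.Br_upF h fun t => D.u 4 j + D.u 4 t + if t < j then D.v t j else 0
        rw [Wp52.Br] at e2
        rw [avm_mul, e, e2, D.I_add, D.I_add]
        refine mul_le_mul_of_nonneg_left ?_ (sq_nonneg _)
        have h1 := h.I_le (a := fun _ => D.u 4 j) (D.u0 _ _) fun _ _ => le_rfl
        have h2 : D.I (fun t => if t < j then D.v t j else 0) ≤
            ∑ y ∈ Finset.Ico 1 j, D.dx y * D.v y j := by
          simp only [CD.I, mul_ite, mul_zero, ← Finset.sum_filter]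
          exact Finset.sum_le_sum_of_subset_of_nonneg (fun t ht => by
            rw [Finset.mem_filter, Finset.mem_Ioo] at ht; rw [Finset.mem_Ico]; omega)
            fun t _ _ => mul_nonneg (h.dx0 t) (D.v0 _ _)
        linarith [mul_nonneg (h.e0 j) (D.v0 j j)]
    · rw [D.Iw_mul, mul_assoc]
      refine mul_le_mul_of_nonneg_left (h.Iw_split hW zero_le_one zero_le_two
        (by linarith [h.Iu4_le]) ?_) (sq_nonneg _)
      rw [D.Iw_add]
      have := h.Lad1_le
      rw [CD.Lad1] at this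
      linarith [h.Iwu4_le]
  · rw [Ck32.sum_up h, ← Finset.sum_add_distrib]
    refine Finset.sum_congr rfl fun j _ => ?_
    rw [avm_sub, mo]
    split_ifs <;> ring

end Crest.Agent.T156.Cas.Su67

end
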