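import Crest.Agent.T156.StUD_67
import Crest.Agent.T156.Ec_52

/-!
# Row 156, block C: `tU [aU, aU]`, the exception by induction on the replicas (helper67)
-/

set_option autoImplicit false
set_option linter.all false

noncomputable section

namespace Crest.Agent.T156.Cas.Su67

open MeasureTheory Real Set Filter Topology
open Crest.Agent.T157.E Crest.Agent.T157.Casc Crest.Agent.T157.SL
open Mul55 C40 G90 Nu87

/-- the law of some replicas only depends on their pattern and their split matrix -/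
theorem TM_ker {Ω : Type} [Fintype Ω] {w : Ω → ℝ} (hw : Wt w) {L : List (Lv Ω)} {h : Ω → ℝ}
    {r r' m : ℕ} {σ : SM r} {σ' : SM r'} (hσ : Rz L.length σ) (hσ' : Rz L.length σ')
    {v : Fin m → Fin r} {v' : Fin m → Fin r'} (hk : ∀ i i', v i = v i' ↔ v' i = v' i')
    (hm : ∀ i i', σ (v i) (v i') = σ' (v' i) (v' i')) (F : (Fin m → Ω) → ℝ) :
    TM w L h σ (fun x => F fun i => x (v i)) = TM w L h σ' fun x => F fun i => x (v' i) := by
  classical
  set S : Finset (Fin r) := Finset.univ.image v with hS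
  have ex : ∀ s : S, ∃ i, v i = s.1 := fun s => by
    obtain ⟨i, -, hi⟩ := Finset.mem_image.1 s.2
    exact ⟨i, hi⟩
  choose g hg using ex
  set e := S.equivFin.symm
  set c : Fin m → Fin S.card := fun i => e.symm ⟨v i, Finset.mem_image_of_mem _ (Finset.mem_univ i)⟩
  have h1 : ∀ i, v (g (e (c i))) = v i := fun i => by
    rw [hg]; simp only [c, Equiv.apply_symm_apply]
  have h2 : ∀ i, v' (g (e (c i))) = v' i := fun i => (hk _ _).1 (h1 i)
  have i1 : Function.Injective fun t => v (g (e t)) := fun t t' ht =>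
    e.injective (Subtype.ext (by simpa only [hg] using ht))
  have i2 : Function.Injective fun t => v' (g (e t)) := fun t t' ht => i1 ((hk _ _).2 ht)
  have e1 := TM_inj (h := h) hw hσ i1 fun y => F fun i => y (c i)
  have e2 := TM_inj (h := h) hw hσ' i2 fun y => F fun i => y (c i)
  simp only [h1, h2] at e1 e2
  rw [e1, e2]
  simp only [hm]

variable {D : CD} {r r' : ℕ}

theorem EE_ker {σ : SM r} {σ' : SM r'} (hσ : Rz D.B.length σ) (hσ' : Rz D.B.length σ')
    (v : Fin 6 → Fin r) (v' : Fin 6 → Fin r') (hk : ∀ i i', v i = v i' ↔ v' i = v' i')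
    (hm : ∀ i i', σ (v i) (v i') = σ' (v' i) (v' i')) :
    EE D σ (v 0) (v 1) (v 2) (v 3) (v 4) (v 5) =
      EE D σ' (v' 0) (v' 1) (v' 2) (v' 3) (v' 4) (v' 5) := by
  have e1 := TM_ker (h := 0) wt_one90 hσ hσ' hk hm fun y : Fin 6 → Cube D.n =>
    oU D.q (σ' (v' 0) (v' 1)) (y 0) (y 1) * (oU D.q (σ' (v' 2) (v' 3)) (y 2) (y 3) *
      oU D.q (σ' (v' 4) (v' 5)) (y 4) (y 5))
  have e2 := TM_ker (h := 0) wt_one90 (Ck32.lenS (D := D) ▸ hσ) (Ck32.lenS (D := D) ▸ hσ') hk hm
    fun y : Fin 6 → Bool =>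
      oE D.q (σ' (v' 2) (v' 3)) (y 2) (y 3) * oE D.q (σ' (v' 4) (v' 5)) (y 4) (y 5)
  simp only [EE, Ex, cf, T3, Ck32.TB, Ck32.TS, hm, e1, e2]

theorem EE_inj {σ : SM r} (hσ : Rz D.B.length σ) {ι : Fin (r' + 1) → Fin r}
    (hι : Function.Injective ι) (a b p q p' q' : Fin (r' + 1)) :
    EE D (fun c d => σ (ι c) (ι d)) a b p q p' q' =
      EE D σ (ι a) (ι b) (ι p) (ι q) (ι p') (ι q') :=
  EE_ker (Ec52.rz_res hσ ι) hσ ![a, b, p, q, p', q'] (fun i => ι (![a, b, p, q, p', q'] i))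
    (fun _ _ => hι.eq_iff.symm) fun _ _ => rfl

/-- an injection, extended to the fresh replica -/
def lf (ι : Fin r' → Fin r) : Fin (r' + 1) → Fin (r + 1) := Fin.cons 0 fun c => (ι c).succ

theorem lf_inj {ι : Fin r' → Fin r} (hι : Function.Injective ι) : Function.Injective (lf ι) :=
  Fin.cons_injective_iff.2 ⟨fun ⟨c, hc⟩ => Fin.succ_ne_zero _ hc,
    (Fin.succ_injective _).comp hι⟩

theorem gr_lf (K : ℕ) (σ : SM r) (ι : Fin r' → Fin r) (a : Fin r') (j : ℕ) :
    gr K (fun c d => σ (ι c) (ι d)) a j = fun c d => gr K σ (ι a) j (lf ι c) (lf ι d) := by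
  funext c d
  refine Fin.cases ?_ (fun c => ?_) c <;> refine Fin.cases ?_ (fun d => ?_) d <;> rfl

theorem EE_gr {σ : SM r} (hσ : Rz D.B.length σ) {ι : Fin r' → Fin r} (hι : Function.Injective ι)
    (c : Fin r') (j : ℕ) (a b p q p' q' : Fin (r' + 1)) :
    EE D (gr D.B.length (fun c d => σ (ι c) (ι d)) c j) a b p q p' q' =
      EE D (gr D.B.length σ (ι c) j) (lf ι a) (lf ι b) (lf ι p) (lf ι q) (lf ι p') (lf ι q') := by
  rw [gr_lf, EE_inj (hσ.gr _ _) (lf_inj hι)]

theorem oU_comm' (q : ℕ → ℝ) {n : ℕ} (t : ℕ) (x y : Cube n) : oU q t x y = oU q t y x := by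
  simp only [oU, Crest.Agent.T157.G1.ov, dotProduct_comm]

variable {K : ℕ} {σ : SM r} {a b p q p' q' : Fin r}

theorem Ex.sw (hσ : Rz K σ) (h : Ex σ a b p q p' q') : Ex σ b a p q p' q' := by
  obtain ⟨h1, h2, h3, h4, h5⟩ := h
  have u1 := hσ.ultra b a p
  have u2 := hσ.ultra b a p'
  rw [hσ.comm b a] at u1 u2
  exact ⟨h1, hσ.comm a b ▸ h2, by omega, by omega, h5⟩

theorem Ex.ex (hσ : Rz K σ) (h : Ex σ a b p q p' q') : Ex σ a b p' q' p q := by
  obtain ⟨h1, h2, h3, h4, h5⟩ := h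
  rw [← h1] at h2 h3 h4 h5
  exact ⟨h1.symm, h2, h4, h3, hσ.comm q q' ▸ h5⟩

theorem Ex.ne (hσ : Rz K σ) (h : Ex σ a b p q p' q') : p ≠ q ∧ p' ≠ q' ∧ q ≠ b ∧ q' ≠ b := by
  obtain ⟨h1, h2, h3, h4, h5⟩ := h
  have := hσ.le a b
  refine ⟨?_, ?_, ?_, ?_⟩
  · rintro rfl
    rw [hσ.self] at h2
    omega
  · rintro rfl
    rw [hσ.self] at h1
    omega
  · rintro rfl
    have u := hσ.ultra p a q
    rw [hσ.comm p a] at u
    omega
  · rintro rfl
    have u := hσ.ultra p' a q'
    rw [hσ.comm p' a] at u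
    omega

theorem EE_sw (hσ : Rz K σ) : EE D σ a b p q p' q' = EE D σ b a p q p' q' := by
  unfold EE
  rw [if_congr (⟨Ex.sw hσ, Ex.sw hσ⟩ : _ ↔ Ex σ b a p q p' q') rfl rfl]
  simp only [T3, hσ.comm a b, fun x : Fin r → Cube D.n => oU_comm' D.q (σ b a) (x a) (x b)]

theorem EE_ex (hσ : Rz K σ) : EE D σ a b p q p' q' = EE D σ a b p' q' p q := by
  unfold EE
  rw [if_congr (⟨Ex.ex hσ, Ex.ex hσ⟩ : _ ↔ Ex σ a b p' q' p q) rfl rfl]
  simp only [T3, cf, mul_comm (tu D (σ p q)), mul_comm (oE D.q (σ p q) _ _),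
    mul_comm (oU D.q (σ p q) _ _)]

theorem EE_zero (h : ¬Ex σ a b p q p' q') : EE D σ a b p q p' q' = 0 := if_neg h

/-- edges `(a, q)` and `(b, q')`: the partner `b` may be replaced exactly -/
theorem EE_three (hσ : Rz D.B.length σ) (hab : a ≠ b) : EE D σ a b a q b q' =
    EE D (gr D.B.length σ a (σ a b)) a.succ 0 a.succ q.succ 0 q'.succ := by
  have u1 := hσ.ultra a b q'
  have u2 := hσ.ultra b a q'
  have u3 := hσ.ultra a b q
  have u4 := hσ.ultra b a q
  have hK := hσ.le a b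
  rw [hσ.comm b a] at u2 u4
  by_cases h : σ a q < σ a b ∧ σ a q' < σ a b
  · have n1 : q ≠ b := fun e => by rw [e] at h; omega
    have n2 : q' ≠ b := fun e => by rw [e] at h; omega
    have z : ∀ c : Fin r, c.succ ≠ 0 := Fin.succ_ne_zero
    have e1 : σ b q = min (σ a b) (σ q a) := by rw [hσ.comm q a]; omega
    have e2 : σ b q' = min (σ a b) (σ q' a) := by rw [hσ.comm q' a]; omega
    have e3 : σ b a = min (σ a b) (σ a a) := by rw [hσ.self, hσ.comm b a]; omega
    refine EE_ker hσ (hσ.gr a _) ![a, b, a, q, b, q'] ![a.succ, 0, a.succ, q.succ, 0, q'.succ]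
      (fun i i' => ?_) fun i i' => ?_
    · fin_cases i <;> fin_cases i' <;>
        simp [hab, hab.symm, n1, n1.symm, n2, n2.symm, z, fun c => (z c).symm]
    · fin_cases i <;> fin_cases i' <;>
        simp only [Fin.zero_eta, Fin.mk_one, Fin.reduceFinMk, Matrix.cons_val, gr_00, gr_0s, gr_s0,
          gr_ss] <;>
        first | exact hσ.self _ | exact e1 | exact e2 | exact e3 | exact (hσ.comm _ _).trans e1 |
          exact (hσ.comm _ _).trans e2 | exact (hσ.comm _ _).trans e3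
  · rw [EE_zero, EE_zero]
    · simp only [Ex, gr_0s, gr_s0, gr_ss, hσ.self, hσ.comm q' a]
      omega
    · unfold Ex
      omega

/-! ### the averages -/

/-- the signed law, with a function that reads the marked level -/
def aj (D : CD) (k : ℕ) (φ : ℕ → SM (1 + k + 1) → ℝ) : ℝ :=
  ∑ j ∈ Finset.range (D.B.length + 1), mo D j * avc D.B (tw D.B.length j) k (φ j)

theorem aj_congr {k : ℕ} {φ ψ : ℕ → SM (1 + k + 1) → ℝ}
    (e : ∀ j σ, Rz D.B.length σ → σ (ma k) (mb k) = j → φ j σ = ψ j σ) : aj D k φ = aj D k ψ :=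
  Finset.sum_congr rfl fun j hj => congrArg _ (avc_congr' (rz_tw _ j) k fun σ hσ h =>
    e j σ hσ ((h 1 0).trans (Ck32.tw_old _ j (Nat.lt_succ_iff.1 (Finset.mem_range.1 hj)))))

theorem aw_aj {k : ℕ} (φ : SM (1 + k + 1) → ℝ) : aw D k φ = aj D k fun _ => φ := rfl

theorem aw_sub {k : ℕ} (φ ψ : SM (1 + k + 1) → ℝ) :
    aw D k (fun σ => φ σ - ψ σ) = aw D k φ - aw D k ψ := by
  simp only [aw, avt, avc_sub, mul_sub, Finset.sum_sub_distrib]

theorem ma_ne (k : ℕ) : ma k ≠ mb k := Ck32.mk_ne k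

theorem bd_zero {k : ℕ} {p q p' q' : Fin (1 + k + 1)}
    (h : ∀ K σ, Rz K σ → ¬Ex σ (ma k) (mb k) p q p' q') :
    Bd true fun D => aw D k fun σ => EE D σ (ma k) (mb k) p q p' q' :=
  (Bd.zero true).congr fun _ D _ _ => by
    rw [aw_aj, aj_congr (ψ := fun _ _ => 0) fun j σ hσ _ => EE_zero (h _ σ hσ)]
    simp [aj, avc_const]

/-- **one step**: free part and one replica less -/
theorem bd_step {k : ℕ} {ι : Fin (1 + k + 1) → Fin (1 + (k + 1) + 1)}
    {pm : Fin (k + 1) → Equiv.Perm (Fin (1 + k + 1))}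
    (G : ∀ (Θ : Type) [Fintype Θ] (L : List (Lv Θ)), ∀ j ≤ L.length, ∀ φ : SM (1 + k + 1) → ℝ,
      (k + 2 : ℝ) * avc L (tw L.length j) (k + 1) (fun σ => φ fun a b => σ (ι a) (ι b)) =
        avm L (1 + k) φ +
          ∑ c, avc L (tw L.length j) k fun σ => φ fun a b => σ (pm c a) (pm c b))
    {φ : CD → ℕ → SM (1 + k + 1) → ℝ}
    (h1 : Bd true fun D => ∑ j ∈ Finset.range (D.B.length + 1), mo D j * avm D.B (1 + k) (φ D j))
    (h2 : ∀ c, Bd true fun D => aj D k fun j σ => φ D j fun a b => σ (pm c a) (pm c b)) :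
    Bd true fun D => aj D (k + 1) fun j σ => φ D j fun a b => σ (ι a) (ι b) :=
  ((h1.add (Bd.sum Finset.univ fun c _ => h2 c)).div_const (k + 2)).congr fun _ D _ _ => by
    rw [eq_div_iff (by positivity), mul_comm, aj, Finset.mul_sum]
    simp only [aj]
    rw [Finset.sum_comm, ← Finset.sum_add_distrib]
    refine Finset.sum_congr rfl fun j hj => ?_
    rw [mul_left_comm, G _ D.B j (Nat.lt_succ_iff.1 (Finset.mem_range.1 hj)), mul_add,
      Finset.mul_sum]

theorem pre {n : ℕ} {ι : Fin n → Fin (n + 1)} (hι : Function.Injective ι) {b : Fin (n + 1)}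
    (hb : ∀ c, ι c ≠ b) {x : Fin (n + 1)} (hx : x ≠ b) : ∃ c, ι c = x := by
  have : Function.Injective (Fin.cons b ι : Fin (n + 1) → Fin (n + 1)) :=
    Fin.cons_injective_iff.2 ⟨fun ⟨c, hc⟩ => hb c hc, hι⟩
  obtain ⟨c, hc⟩ := Finite.injective_iff_surjective.1 this x
  revert hc
  refine Fin.cases (fun hc => absurd hc.symm hx) (fun c hc => ⟨c, hc⟩) c

/-- **the exception** -/
theorem indS : IndS := fun GG Sw Fr F1 F3 k => by
  suffices H : ∀ p q p' q' : Fin (1 + k + 1),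
      Bd true fun D => aw D k fun σ => EE D σ (ma k) (mb k) p q p' q' from
    fun p q p' q' _ _ => H p q p' q'
  induction k with
  | zero =>
    intro p q p' q'
    refine bd_zero fun K σ hσ h => ?_
    have h1 := (h.ne hσ).2.2.1
    have h2 := ((h.sw hσ).ne hσ).2.2.1
    have h3 := q.2
    rw [Ne, Fin.ext_iff] at h1 h2
    change ¬(q : ℕ) = 0 at h1
    change ¬(q : ℕ) = 1 at h2
    omega
  | succ k ih =>
    obtain ⟨ι, pm, hι, hb, ha, hp, G⟩ := GG k
    -- `b` carries no edge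
    have c1 : ∀ p q p' q' : Fin (1 + (k + 1) + 1), p ≠ mb (k + 1) → p' ≠ mb (k + 1) →
        Bd true fun D => aw D (k + 1) fun σ => EE D σ (ma (k + 1)) (mb (k + 1)) p q p' q' := by
      intro p q p' q' h1 h2
      by_cases h : p ≠ q ∧ p' ≠ q' ∧ q ≠ mb (k + 1) ∧ q' ≠ mb (k + 1)
      swap
      · exact bd_zero fun K σ hσ e => h (e.ne hσ)
      obtain ⟨p, rfl⟩ := pre hι hb h1
      obtain ⟨p', rfl⟩ := pre hι hb h2
      obtain ⟨q, rfl⟩ := pre hι hb h.2.2.1
      obtain ⟨q', rfl⟩ := pre hι hb h.2.2.2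
      have n1 : p ≠ q := fun e => h.1 (congrArg ι e)
      have n2 : p' ≠ q' := fun e => h.2.1 (congrArg ι e)
      have s := bd_step G (φ := fun D j ρ =>
        EE D (gr D.B.length ρ (ma k) j) (ma k).succ 0 p.succ q.succ p'.succ q'.succ)
        (F1 (1 + k) (ma k) p q p' q' n1 n2) fun c =>
          ((ih (pm c p) (pm c q) (pm c p') (pm c q')).sub (Fr k (pm c p) (pm c q) (pm c p')
            (pm c q') ((pm c).injective.ne n1) ((pm c).injective.ne n2))).congr fun _ D _ _ => by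
            rw [aw_sub, sub_sub_cancel, aw_aj]
            refine aj_congr fun j σ hσ hj => ?_
            rw [EE_gr hσ (pm c).injective, hj]
            change EE D _ (pm c (ma k)).succ 0 _ _ _ _ = _
            rw [hp]
            rfl
      refine ((Fr (k + 1) _ _ _ _ h.1 h.2.1).add s).congr fun _ D _ _ => ?_
      rw [aw_sub, aw_aj fun σ => EE D (gr _ _ _ _) _ _ _ _ _ _, aj_congr (ψ := fun j σ =>
        EE D (gr D.B.length (fun a b => σ (ι a) (ι b)) (ma k) j) (ma k).succ 0 p.succ q.succ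
          p'.succ q'.succ) fun j σ hσ hj => ?_, sub_add_cancel]
      rw [EE_gr hσ hι, hj]
      change _ = EE D _ (ι (ma k)).succ 0 _ _ _ _
      rw [ha]
      rfl
    -- edges `(a, q)` and `(b, q')`
    have c3 : ∀ q q' : Fin (1 + (k + 1) + 1), Bd true fun D => aw D (k + 1) fun σ =>
        EE D σ (ma (k + 1)) (mb (k + 1)) (ma (k + 1)) q (mb (k + 1)) q' := by
      intro q q'
      by_cases h : ma (k + 1) ≠ q ∧ mb (k + 1) ≠ q' ∧ q ≠ mb (k + 1) ∧ q' ≠ mb (k + 1)
      swap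
      · exact bd_zero fun K σ hσ e => h (e.ne hσ)
      obtain ⟨q, rfl⟩ := pre hι hb h.2.2.1
      obtain ⟨q', rfl⟩ := pre hι hb h.2.2.2
      have n1 : ma k ≠ q := fun e => h.1 (ha.symm.trans (congrArg ι e))
      have s := bd_step G (φ := fun D j ρ =>
        EE D (gr D.B.length ρ (ma k) j) (ma k).succ 0 (ma k).succ q.succ 0 q'.succ)
        (F3 (1 + k) (ma k) q q' n1) fun c =>
          (ih (ma k) (pm c q) (mb k) (pm c q')).congr fun _ D _ _ => by
            rw [aw_aj]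
            refine aj_congr fun j σ hσ hj => ?_
            rw [EE_gr hσ (pm c).injective, EE_three hσ (ma_ne k), hj]
            change EE D _ (pm c (ma k)).succ 0 (pm c (ma k)).succ _ _ _ = _
            rw [hp]
            rfl
      refine s.congr fun _ D _ _ => ?_
      rw [aw_aj]
      refine aj_congr fun j σ hσ hj => ?_
      rw [EE_gr hσ hι, EE_three hσ (ma_ne _), hj]
      change _ = EE D _ (ι (ma k)).succ 0 (ι (ma k)).succ _ _ _
      rw [ha]
      rfl
    intro p q p' q'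
    by_cases h1 : p ≠ mb (k + 1) ∧ p' ≠ mb (k + 1)
    · exact c1 p q p' q' h1.1 h1.2
    by_cases h2 : p ≠ ma (k + 1) ∧ p' ≠ ma (k + 1)
    · obtain ⟨μ, m1, m2, S⟩ := Sw (k + 1)
      refine (c1 (μ p) (μ q) (μ p') (μ q') (fun e => h2.1 (μ.injective (e.trans m1.symm)))
        fun e => h2.2 (μ.injective (e.trans m1.symm))).congr fun _ D _ _ => ?_
      simp only [aw, avt]
      refine Finset.sum_congr rfl fun j _ => congrArg _ ?_
      rw [← S _ D.B j]
      refine avc_congr (rz_tw _ j) _ fun σ hσ => ?_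
      rw [EE_inj hσ μ.injective, m1, m2, EE_sw hσ]
    have n := ma_ne (k + 1)
    rcases not_and_or.1 h1 with e | e <;> rcases not_and_or.1 h2 with e' | e' <;>
      rw [not_not] at e e'
    · exact absurd (e'.symm.trans e) n
    · subst e e'
      exact (c3 q' q).congr fun _ D _ _ => by
        rw [aw_aj, aw_aj]
        exact aj_congr fun j σ hσ _ => EE_ex hσ
    · subst e e'
      exact c3 q q'
    · exact absurd (e'.symm.trans e) n

end Crest.Agent.T156.Cas.Su67

end
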