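import Crest.Agent.T156.StUI_67
import Crest.Agent.T156.EcB_52
import Crest.Agent.T156.CWk2_40
import Crest.Agent.T156.C3nB_47
import Crest.Agent.T156.SFReg_97

/-!
# Row 156, block C: `tU [aU, aU]`, the free parts of the exception (helper67)
-/

set_option autoImplicit false
set_option linter.all false

noncomputable section

namespace Crest.Agent.T156.Cas.Su67

open MeasureTheory Real Set Filter Topology
open Crest.Agent.T157.E Crest.Agent.T157.Casc Crest.Agent.T157.SL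
open Mul55 C40 G90 Nu87
open Cw55 (DV)

variable {D : CD} {τ0 : ℝ} {k : ℕ}

theorem tu_le (H : D.Ok τ0) (t : ℕ) : |tu D t| ≤ τ0 := by
  have := H.tau_mem t
  unfold tu
  split_ifs
  · rw [abs_of_nonneg (by linarith)]; linarith
  · rw [abs_zero]; linarith

theorem abs_oE_le' (H : D.Ok τ0) {t : ℕ} (ht : t ≤ D.B.length) (a b : Bool) : |oE D.q t a b| ≤ 2 := by
  have h1 := Ck32.abs_q_le H ht
  have h2 : |Crest.ProbabilityR.SpinGlassDynamics.spin a *
      Crest.ProbabilityR.SpinGlassDynamics.spin b| = 1 := by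
    cases a <;> cases b <;> simp [Crest.ProbabilityR.SpinGlassDynamics.spin]
  exact (abs_sub _ _).trans (by linarith)

theorem abs_oU' (H : D.Ok τ0) {t : ℕ} (ht : t ≤ D.B.length) (x y : Cube D.n) :
    |oU D.q t x y| ≤ 2 := abs_oU_le H.ook (ht.trans_eq Ck32.lenB) x y

/-- **the weak form on a fixed tree** -/
theorem weak1 (H : D.Ok τ0) {ρ : SM (k + 1)} (hρ : Rz D.B.length ρ) (a : Fin (k + 1)) {t : ℕ}
    (ht : D.J ≤ t) {G : (Fin (k + 1) → Cube D.n) → ℝ} {A B : ℝ} (hA0 : 0 ≤ A)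
    (hA : Ck32.TB D ρ (fun x => G x ^ 2) ≤ A ^ 2) {c : ℕ → ℝ} (hc : DV D.dv t D.K B 0 c) :
    |∑ j ∈ Finset.Ico (t + 1) D.K, c j * (D.om j * Ck32.TB D (gr D.B.length ρ a j) fun x =>
      G (fun b => x b.succ) * oU D.q j (x a.succ) (x 0))| ≤ 2 * B * (A * D.fs D.F1 t) := by
  obtain ⟨s, e, rfl⟩ := hρ
  rw [Ck32.TB, TM_sm wt_one90 s D.B 0 e.injective] at hA
  have := (Cw55.path_sq (G := fun _ x => G fun b => x (e b)) H H.wk1 ht (e a)
    (fun _ => Eg.const _) hc le_rfl hA0 hA).2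
  simp only [Ck32.TB, Ec52.tm_leaf wt_one90 e a]
  simpa only [Nat.cast_zero, zero_add, one_mul, Cw55.Yl] using this

/-- the error of a fixed tree, `t` the level of the double edge -/
def eT (D : CD) (c : ℝ) (t : ℕ) : ℝ := if t ∈ D.up then
  c * (√(D.u 4 t) * D.fs D.F1 t + ∑ j ∈ D.up, |D.om j| *
    if t < j then D.u 4 j + D.u 4 t + D.v t j else 0) else 0

theorem tlZ (H : D.Ok τ0) : ((D.K : ℝ) + 1) * D.tl ≤ D.Z := by
  have h1 := H.stw
  have h2 : 0 ≤ D.Iw fun j => D.g j * (D.gq j * D.g j + D.I fun t => D.gq t * D.g t) :=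
    D.Iw0 fun j _ => mul_nonneg (D.g0 j) (add_nonneg (mul_nonneg (abs_nonneg _) (D.g0 j))
      (H.I0 fun t _ => mul_nonneg (abs_nonneg _) (D.g0 t)))
  have h3 : (0 : ℝ) ≤ D.K := Nat.cast_nonneg _
  nlinarith [H.tl0, mul_nonneg (mul_nonneg h3 (add_nonneg h3 zero_le_one)) H.tl0]

theorem sum_eT (H : D.Ok τ0) (hW : D.W.isSome = true) {c : ℝ} (hc : 0 ≤ c) :
    ∑ t ∈ Finset.range (D.B.length + 1), dm D.B 0 t * eT D c t ≤ 8 * c * D.Err := by
  have e1 : ∑ t ∈ Finset.range (D.B.length + 1), dm D.B 0 t * eT D c t =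
      c * (D.I (fun t => √(D.u 4 t) * D.fs D.F1 t) +
        D.Iw fun j => D.I fun t => if t < j then D.u 4 j + D.u 4 t + D.v t j else 0) := by
    simp only [eT, mul_ite, mul_zero]
    rw [← Ck32.sum_up H]
    simp only [CD.I, CD.Iw, mul_add, Finset.mul_sum, Finset.sum_add_distrib, mul_ite, mul_zero]
    rw [Finset.sum_comm (s := D.up) (t := D.up)]
    simp only [mul_left_comm c, mul_left_comm (dm D.B 0 _) |D.om _|]
  have h3 : D.Iw (fun j => D.I fun t => if t < j then D.u 4 j + D.u 4 t + D.v t j else 0) ≤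
      D.Iw fun j => (D.u 4 j + (D.e j * D.v j j + ∑ y ∈ Finset.Ico 1 j, D.dx y * D.v y j)) +
        D.I (D.u 4) := D.Iw_mono fun j hj => by
    have a1 : D.I (fun t => if t < j then D.u 4 j + D.u 4 t + D.v t j else 0) ≤
        D.I fun t => D.u 4 j + (D.u 4 t + if t < j then D.v t j else 0) := H.I_mono fun t _ => by
      have := D.u0 4 j
      have := D.u0 4 t
      split_ifs <;> linarith
    rw [D.I_add, D.I_add] at a1
    have a2 : D.I (fun _ => D.u 4 j) ≤ D.u 4 j := H.I_le (D.u0 4 j) fun _ _ => le_rfl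
    have a3 : D.I (fun t => if t < j then D.v t j else 0) ≤
        ∑ y ∈ Finset.Ico 1 j, D.dx y * D.v y j := by
      simp only [CD.I, mul_ite, mul_zero]
      rw [← Finset.sum_filter]
      refine Finset.sum_le_sum_of_subset_of_nonneg (fun y hy => ?_) fun y _ _ =>
        mul_nonneg (H.dx0 y) (D.v0 y j)
      simp only [Finset.mem_filter, Finset.mem_Ioo, Finset.mem_Ico] at hy ⊢
      omega
    have a4 := mul_nonneg (H.e0 j) (D.v0 j j)
    change _ ≤ _ + D.I fun t => D.u 4 t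
    linarith
  have h4 := H.Iw_split hW (A := D.I (D.u 4)) (c := 1) (c' := 2)
    (a := fun j => D.u 4 j + (D.e j * D.v j j + ∑ y ∈ Finset.Ico 1 j, D.dx y * D.v y j))
    zero_le_one zero_le_two (by linarith [H.Iu4_le]) (by
      rw [D.Iw_add]
      have := H.Lad1_le
      rw [CD.Lad1] at this
      linarith [H.Iwu4_le])
  have h5 := H.E1_le hW
  rw [e1, mul_comm 8 c, mul_assoc]
  refine mul_le_mul_of_nonneg_left ?_ hc
  linarith [H.u4F_Z, H.Z_le, H.E10]

/-- from fixed trees to the average -/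
theorem bd_free {a q : Fin (k + 1)} (haq : a ≠ q) {φ : CD → ℕ → SM (k + 1) → ℝ} {c : ℝ → ℝ}
    (hc : ∀ τ0, 0 ≤ c τ0) (h : ∀ τ0 D, CD.Ok D τ0 → ∀ ρ, Rz D.B.length ρ →
      |∑ j ∈ Finset.range (D.B.length + 1), mo D j * φ D j ρ| ≤ eT D (c τ0) (ρ a q)) :
    Bd true fun D => ∑ j ∈ Finset.range (D.B.length + 1), mo D j * avm D.B k (φ D j) :=
  Bd.mk' fun τ0 => ⟨8 * c τ0, fun D H hW => by
    simp only [← avm_mul]
    rw [← avm_sum]
    refine (Site94.abs_avm_le H.mono (h τ0 D H)).trans ?_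
    rw [avm_pair D.B (eT D (c τ0)) k haq]
    exact sum_eT H hW (hc τ0)⟩

theorem eT_nonneg (H : D.Ok τ0) {c : ℝ} (hc : 0 ≤ c) (t : ℕ) : 0 ≤ eT D c t := by
  unfold eT
  split_ifs
  · refine mul_nonneg hc (add_nonneg (mul_nonneg (sqrt_nonneg _) (H.fs0 H.F10 t))
      (Finset.sum_nonneg fun j _ => mul_nonneg (abs_nonneg _) ?_))
    split_ifs
    exacts [add_nonneg (add_nonneg (D.u0 4 j) (D.u0 4 t)) (D.v0 t j), le_rfl]
  · exact le_rfl

/-- a fixed tree: coefficient `c j`, bulk factor `T j` close to the weak form -/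
theorem tree_le (H : D.Ok τ0) {ρ : SM (k + 1)} (hρ : Rz D.B.length ρ) (a : Fin (k + 1)) {t : ℕ}
    (ht : t ∈ D.up) {G : (Fin (k + 1) → Cube D.n) → ℝ} {B : ℝ}
    (hA : Ck32.TB D ρ (fun x => G x ^ 2) ≤ D.u 4 t) {c T φ : ℕ → ℝ} (hc : DV D.dv t D.K B 0 c)
    (hT : ∀ j, t < j → j < D.K → |T j - Ck32.TB D (gr D.B.length ρ a j) fun x =>
      G (fun b => x b.succ) * oU D.q j (x a.succ) (x 0)| ≤ D.u 4 j + D.u 4 t + D.v t j)
    (hφ : ∀ j < D.K, φ j = if t < j then c j * T j else 0) :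
    |∑ j ∈ Finset.range (D.B.length + 1), mo D j * φ j| ≤ eT D (2 * B) t := by
  obtain ⟨h1, h2⟩ := CD.mem_up.1 ht
  set Y := fun j => Ck32.TB D (gr D.B.length ρ a j) fun x =>
    G (fun b => x b.succ) * oU D.q j (x a.succ) (x 0) with hY
  have e1 : ∑ j ∈ Finset.range (D.B.length + 1), mo D j * φ j =
      ∑ j ∈ Finset.Ico (t + 1) D.K, c j * (D.om j * Y j) +
        ∑ j ∈ D.up, D.om j * if t < j then c j * (T j - Y j) else 0 := by
    simp only [mo, ite_mul, zero_mul]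
    rw [← Ck32.sum_up H, show Finset.Ico (t + 1) D.K = D.up.filter (t < ·) from
      Finset.ext fun j => by
        simp only [Finset.mem_filter, Finset.mem_Ioo, Finset.mem_Ico]; omega,
      Finset.sum_filter, ← Finset.sum_add_distrib]
    refine Finset.sum_congr rfl fun j hj => ?_
    rw [hφ j (CD.mem_up.1 hj).2]
    split_ifs <;> ring
  have h3 := weak1 H hρ a h1.le (sqrt_nonneg _) (hA.trans_eq (sq_sqrt (D.u0 4 t)).symm) hc
  have h6 := mul_nonneg hc.nn (mul_nonneg (sqrt_nonneg (D.u 4 t)) (H.fs0 H.F10 t))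
  have h4 := D.abs_sum_om (a := fun j => if t < j then c j * (T j - Y j) else 0)
    (b := fun j => B * if t < j then D.u 4 j + D.u 4 t + D.v t j else 0) fun j hj => by
      split_ifs with h
      · rw [abs_mul]
        exact mul_le_mul (hc.bd j h (CD.mem_up.1 hj).2) (hT j h (CD.mem_up.1 hj).2) (abs_nonneg _)
          hc.nn
      · simp
  rw [D.Iw_mul] at h4
  have h5 : 0 ≤ D.Iw fun j => if t < j then D.u 4 j + D.u 4 t + D.v t j else 0 :=
    D.Iw0 fun j _ => by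
      split_ifs
      exacts [add_nonneg (add_nonneg (D.u0 4 j) (D.u0 4 t)) (D.v0 t j), le_rfl]
  rw [e1, eT, if_pos ht]
  refine (abs_add_le _ _).trans ((add_le_add h3 h4).trans ?_)
  rw [CD.Iw] at h5 ⊢
  nlinarith [mul_nonneg hc.nn h5]

theorem TB_two (H : D.Ok τ0) {r : ℕ} {ρ : SM r} (hρ : Rz D.B.length ρ) {p q p' q' : Fin r}
    (h1 : p ≠ q) (h2 : p' ≠ q') (e : ρ p' q' = ρ p q) : Ck32.TB D ρ (fun x =>
      (oU D.q (ρ p q) (x p) (x q) * oU D.q (ρ p q) (x p') (x q')) ^ 2) ≤ D.u 4 (ρ p q) := by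
  have a1 := Ck32.TB_pow (D := D) hρ h1 4
  have a2 := Ck32.TB_pow (D := D) hρ h2 4
  rw [e] at a2
  have := TM_mono (h := 0) wt_one90 hρ (F := fun x =>
    (oU D.q (ρ p q) (x p) (x q) * oU D.q (ρ p q) (x p') (x q')) ^ 2) (G := fun x =>
      1 / 2 * |oU D.q (ρ p q) (x p) (x q)| ^ 4 + 1 / 2 * |oU D.q (ρ p q) (x p') (x q')| ^ 4)
    fun x => by
      rw [Even.pow_abs (by norm_num), Even.pow_abs (by norm_num)]
      nlinarith [sq_nonneg (oU D.q (ρ p q) (x p) (x q) ^ 2 - oU D.q (ρ p q) (x p') (x q') ^ 2)]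
  rw [TM_add, TM_mul, TM_mul] at this
  unfold Ck32.TB at a1 a2 ⊢
  rw [a1, a2] at this
  linarith

theorem abs_two {u v : ℝ} (h1 : |u| ≤ 2) (h2 : |v| ≤ 2) : |u * v| ≤ 4 := by
  rw [abs_mul]
  nlinarith [abs_nonneg u, abs_nonneg v]

theorem abs_TS_le (H : D.Ok τ0) {r : ℕ} {σ : SM r} (hσ : Rz D.B.length σ)
    {F : (Fin r → Bool) → ℝ} {b : ℝ} (hF : ∀ x, |F x| ≤ b) : |Ck32.TS D σ F| ≤ b :=
  SF97.abs_TM (SF97.um_of_rz (Ck32.lenS (D := D) ▸ hσ)) 0 hF

theorem rzS {r : ℕ} {σ : SM r} (hσ : Rz D.B.length σ) : Rz D.S.length σ := by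
  rw [Ck32.lenS]; exact hσ

theorem zero_le_eT (H : D.Ok τ0) {c : ℝ} (hc : 0 ≤ c) {t : ℕ} {φ : ℕ → ℝ}
    (h : ∀ j ∈ D.up, φ j = 0) : |∑ j ∈ Finset.range (D.B.length + 1), mo D j * φ j| ≤ eT D c t := by
  rw [Finset.sum_eq_zero fun j _ => ?_, abs_zero]
  · exact eT_nonneg H hc t
  · unfold mo
    split_ifs with hj
    · rw [h j hj, mul_zero]
    · exact zero_mul _

theorem free1' : Free1 := fun k a p q p' q' h1 h2 =>
  bd_free h1 (c := fun τ0 => 2 * |4 * τ0 ^ 2|) (fun _ => by positivity) fun τ0 D H ρ hρ => by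
    have hK : ∀ j < D.K, min j (ρ a a) = j := fun j hj => by
      rw [hρ.self, Ck32.lenB]; omega
    by_cases h : D.J < ρ p q ∧ ρ p q < D.K ∧ ρ p' q' = ρ p q ∧ ρ p q < ρ a p ∧ ρ p q < ρ a p' ∧
      ρ p q < ρ q q'
    swap
    · refine zero_le_eT H (by positivity) fun j hj => ?_
      obtain ⟨j1, j2⟩ := CD.mem_up.1 hj
      unfold EE
      split_ifs with e
      · simp only [Ex, gr_ss, gr_s0, hK j j2] at e
        rw [cf, gr_ss, tu, if_neg (by omega), zero_mul, zero_mul, zero_mul]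
      · rfl
    obtain ⟨a1, a2, a3, a4, a5, a6⟩ := h
    have hc : |cf D ρ p q p' q'| ≤ |4 * τ0 ^ 2| := by
      rw [cf, abs_mul, abs_mul, abs_of_nonneg (by positivity : 0 ≤ 4 * τ0 ^ 2)]
      have := mul_le_mul (mul_le_mul (tu_le H (ρ p q)) (tu_le H (ρ p' q')) (abs_nonneg _) H.tau0)
        (abs_TS_le H hρ fun x => abs_two (abs_oE_le' H (hρ.le p q) (x p) (x q))
          (abs_oE_le' H (hρ.le p' q') (x p') (x q'))) (abs_nonneg _) (mul_nonneg H.tau0 H.tau0)
      linarith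
    refine tree_le H hρ a (CD.mem_up.2 ⟨a1, a2⟩)
      (G := fun x => oU D.q (ρ p q) (x p) (x q) * oU D.q (ρ p q) (x p') (x q'))
      (TB_two H hρ h1 h2 a3) (c := fun _ => cf D ρ p q p' q')
      ((Cw55.dv_const (fun t _ b => H.dv0 b.le) _).mono (fun t _ b => H.dv0 b.le) hc le_rfl)
      (T := fun j => Ck32.TB D (gr D.B.length ρ a j) fun x =>
        oU D.q (ρ p q) (x p.succ) (x q.succ) * oU D.q (ρ p q) (x p'.succ) (x q'.succ) *
          oU D.q j (x a.succ) (x 0)) (fun j j1 _ => ?_) fun j hj => ?_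
    · rw [sub_self, abs_zero]
      exact add_nonneg (add_nonneg (D.u0 4 j) (D.u0 4 _)) (D.v0 _ j)
    · have e := TM_inj (h := 0) wt_one90 (rzS (hρ.gr a j)) (Fin.succ_injective _)
        fun x : Fin (k + 1) → Bool =>
          oE D.q (ρ p q) (x p) (x q) * oE D.q (ρ p' q') (x p') (x q')
      simp only [EE, Ex, cf, T3, gr_ss, gr_s0, hK j hj, a3, a4, a5, a6, true_and, and_true,
        mul_comm (oU D.q j _ _)] at e ⊢
      split_ifs
      · rw [Ck32.TS, e]
        rfl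
      · rfl

theorem free3' : Free3 := fun k a q q' h1 =>
  bd_free h1 (c := fun τ0 => 2 * (τ0 ^ 2 * (8 * (k + 2) ^ 2))) (fun _ => by positivity)
    fun τ0 D H ρ hρ => by
    have hK : ∀ j < D.K, min j (ρ a a) = j := fun j hj => by
      rw [hρ.self, Ck32.lenB]; omega
    by_cases h : D.J < ρ a q ∧ ρ a q < D.K ∧ ρ q' a = ρ a q ∧ ρ a q < ρ q q'
    swap
    · refine zero_le_eT H (by positivity) fun j hj => ?_
      obtain ⟨j1, j2⟩ := CD.mem_up.1 hj
      unfold EE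
      split_ifs with e
      · simp only [Ex, gr_ss, gr_s0, gr_0s, hK j j2] at e
        rw [cf, gr_ss, tu, if_neg (by omega), zero_mul, zero_mul, zero_mul]
      · rfl
    obtain ⟨a1, a2, a3, a4⟩ := h
    have h2 : a ≠ q' := fun e => by
      rw [← e, hρ.self, Ck32.lenB] at a3
      omega
    have a5 : ρ a q' = ρ a q := (hρ.comm a q').trans a3
    set t := ρ a q with ht
    have hF : ∀ x : Fin (k + 2) → Bool,
        |oE D.q t (x a.succ) (x q.succ) * oE D.q t (x 0) (x q'.succ)| ≤ 4 := fun x =>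
      abs_two (abs_oE_le' H (hρ.le a q) _ _) (abs_oE_le' H (hρ.le a q) _ _)
    have k2 : (1 : ℝ) ≤ (k + 2) ^ 2 := by nlinarith [(Nat.cast_nonneg k : (0 : ℝ) ≤ k)]
    have hS : DV D.dv t D.K (8 * (k + 2) ^ 2) 0 fun j => Ck32.TS D (gr D.B.length ρ a j) fun x =>
        oE D.q t (x a.succ) (x q.succ) * oE D.q t (x 0) (x q'.succ) := by
      refine ⟨by positivity, fun j _ _ => (abs_TS_le H (hρ.gr a j) hF).trans (by linarith), ∅,
        le_rfl, fun j j1 j2 _ => ?_⟩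
      have := SF97.mvF (N := k + 2) (Cw55.r1_S H.ook) (Cw55.monoS H.mono) (by omega) le_rfl
        (j := j - 1) (by rw [Ck32.lenS, Ck32.lenB]; omega)
        (SF97.um_of_rz (rzS (hρ.gr a (j - 1)))) (SF97.um_of_rz (rzS (hρ.gr a j))) (fun c d => by
          refine Fin.cases ?_ (fun c => ?_) c <;> refine Fin.cases ?_ (fun d => ?_) d <;>
            simp only [gr_00, gr_0s, gr_s0, gr_ss, true_or] <;> omega) 0 hF
      rw [SF97.vv, show j - 1 + 1 = j by omega, Cw55.tm_S H.ook j2.le,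
        Cw55.tm_S H.ook (by omega)] at this
      have h3 := (le_abs_self _).trans (Cw55.dv_dom H.ook H.mono (by omega) j2.le).1
      push_cast at this
      refine this.trans ?_
      nlinarith
    refine tree_le H hρ a (CD.mem_up.2 ⟨a1, a2⟩)
      (G := fun x => oU D.q t (x a) (x q) * oU D.q t (x a) (x q'))
      (TB_two H hρ h1 h2 a5) ((hS.smul (tu D t * tu D t)).mono (fun t _ b => H.dv0 b.le) ?_ le_rfl)
      (T := fun j => Ck32.TB D (gr D.B.length ρ a j) fun x => oU D.q j (x a.succ) (x 0) *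
        (oU D.q t (x a.succ) (x q.succ) * oU D.q t (x 0) (x q'.succ))) (fun j j1 j2 => ?_)
      fun j hj => ?_
    · rw [abs_mul, sq τ0]
      exact mul_le_mul_of_nonneg_right (mul_le_mul (tu_le H t) (tu_le H t) (abs_nonneg _) H.tau0)
        (by positivity)
    · have g := hρ.gr a j
      have b1 := Ck32.TB_pow (D := D) g (Fin.succ_ne_zero a) 4
      have b2 := Ck32.TB_pow (D := D) g ((Fin.succ_injective _).ne h1) 4
      have b3 := C3n47.tri_U D g (u := 0) (u' := a.succ) (z := q'.succ) (y := t) (t := j)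
        (by rw [Ck32.lenB]; exact a2) (by rw [gr_0s]; omega) a5 j1.le (by rw [gr_0s, hK j j2]) t
      rw [gr_s0, hK j j2] at b1
      rw [gr_ss, ← ht] at b2
      rw [Ck32.TB, Ck32.TB, ← TM_sub]
      refine (Ck32.abs_TB_le g (G := fun x => 1 / 4 * |oU D.q j (x a.succ) (x 0)| ^ 4 +
        1 / 4 * |oU D.q t (x a.succ) (x q.succ)| ^ 4 + 1 / 2 *
          (oU D.q t (x 0) (x q'.succ) - oU D.q t (x a.succ) (x q'.succ)) ^ 2) fun x => ?_).trans ?_
      · set A := oU D.q j (x a.succ) (x 0)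
        set B := oU D.q t (x a.succ) (x q.succ)
        set C := oU D.q t (x 0) (x q'.succ)
        set C' := oU D.q t (x a.succ) (x q'.succ)
        rw [show A * (B * C) - B * C' * A = A * B * (C - C') by ring, abs_mul, abs_mul,
          ← sq_abs (C - C')]
        nlinarith [sq_nonneg (|A| * |B| - |C - C'|), sq_nonneg (|A| ^ 2 - |B| ^ 2)]
      · unfold Ck32.TB at b1 b2 b3 ⊢
        rw [TM_add, TM_add, TM_mul, TM_mul, TM_mul, b1, b2]
        linarith [D.u0 4 j, D.u0 4 t]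
    · have hKt : t < ρ a a := by rw [hρ.self, Ck32.lenB]; exact a2
      by_cases e : t < j
      · simp only [EE, Ex, cf, T3, gr_ss, gr_s0, gr_0s, hK j hj, a3, ← ht, min_eq_right e.le, e, a4,
          hKt, and_self, if_true]
      · rw [if_neg e, EE_zero]
        simp only [Ex, gr_ss, gr_s0, gr_0s, hK j hj, ← ht]
        omega

end Crest.Agent.T156.Cas.Su67

end
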