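import Crest.Agent.T156.StartM_56
import Crest.Agent.T156.AltReg_29
import Crest.Agent.T156.GrDef_62

/-!
# Row 156, ALT route: the START stage in gain form (helper56)
-/

set_option autoImplicit false

noncomputable section

namespace Crest.Agent.T156.Alt.St56

open Real Set Filter Topology

variable {β c0 C0 c η K : ℝ} {A : ℕ} {p : Pm} {M : Md}

theorem am0 (H : Reg β c0 C0 A c η K p) : 0 < p.am := mul_pos H.s0 (Pre29.rp_pos H.n1 _)

theorem lg_am (H : Reg β c0 C0 A c η K p) :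
    logb p.n p.am = logb p.n p.s + c / 100 - 1 / 6 := by
  rw [Pm.am, logb_mul H.s0.ne' (Pre29.rp_pos H.n1 _).ne', H.lg_rp, Pm.ga, H.hc]
  ring

/-- **START for one `p`**: mass at most `μ0 / κ` below the tilt `1` -/
theorem go_sk (H : Reg β c0 C0 A c η K p) (hη : 10 * η ≤ c) (hM : M.Leg (2 * p.am))
    (hd : M.d 0 ≤ p.β ^ 2) (h1 : p.β ^ 2 - M.d 0 ≤ p.μ0 / p.κ) (h2 : low M ≤ p.μ0 / p.κ) :
    Go ((p.n : ℝ) ^ η)⁻¹ p (Md.sk p.β) M := by
  have a0 := am0 H
  have s0 := H.s0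
  have n0 := H.N0
  have m0 := H.μ00
  have k0 := H.κ0
  have L0 := H.Λ0
  have l2 := H.lg_num (x := 2) (by norm_num) (by norm_num)
  have l4 := H.lg_num (x := 4) (by norm_num) (by norm_num)
  have l6 := H.lg_num (x := 6) (by norm_num) (by norm_num)
  have a1 : p.am ≤ 1 / 4 := H.le_of_lg a0 (by norm_num) (by
    lg_norm
    linarith [lg_am H, H.lg_s.2, H.c_le, H.η_le])
  obtain ⟨J, hJ, hJ'⟩ := Cas.exists_J a0 (by linarith)
  have a2 : log p.am⁻¹ ≤ log p.n := log_le_log (inv_pos.2 a0) (H.le_of_lg (inv_pos.2 a0) n0 (by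
    lg_norm
    linarith [lg_am H, H.lg_s.1, H.c_pos, H.lg_n]))
  have a3 : (J : ℝ) ≤ 3 * (p.n : ℝ) ^ η := by linarith [H.log1, H.log_le]
  refine start H.n1 rfl a0 a1 hM hd le_rfl h1 h2 hJ (H.le_of_lg (by positivity) (by positivity) ?_)
    (le_trans (b := 6 * (p.n : ℝ) ^ η * √(6 * (2 * p.n * (p.μ0 / p.κ)))) ?_
      (H.le_of_lg (by positivity) (by positivity) ?_))
  · lg_norm
    rw [H.lg_n, Pm.ga, H.hc]
    linarith [H.lg_s.1, H.lg_μ0, H.lg_κ, H.η_pos]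
  · exact mul_le_mul_of_nonneg_right (by linarith) (sqrt_nonneg _)
  · lg_norm
    rw [H.lg_n]
    linarith [H.lg_s.1, H.lg_μ0, H.lg_κ, H.η_pos]

end Crest.Agent.T156.Alt.St56

end
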