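import Crest.Agent.T156.SegC_56
import Crest.Agent.T156.LiftB_72
import Crest.Agent.T156.AltFam_88

/-!
# Row 156: START and segments as stages (helper56)
-/

set_option autoImplicit false
set_option linter.unusedSectionVars false

noncomputable section

namespace Crest.Agent.T156.Alt.St56

open MeasureTheory Real Set Filter Topology
open Crest.Agent.T157.E Crest.Agent.T157.Casc Crest.Agent.T157.SL
open Crest.Agent.T157.G1 (ov fl FL)
open Crest.Agent.T156.Cas Crest.Agent.T156.Cas.Ann56 Crest.Agent.T156.Alt.Sg56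

variable {M : Md} {m n : ℕ} {a a' x u Q s γ C δ : ℝ}

theorem Leg.le (H : M.Leg x) {x' : ℝ} (h : x' ≤ x) : M.Leg x' :=
  ⟨H.zm, h.trans H.z0, H.z1, H.zN, H.d0, H.dm, H.H0, H.Hm⟩

theorem ov_mx (hm : 0 < m) {p : ℝ × ℝ × ℝ} (hd : 0 ≤ p.2.1) (hf : 0 ≤ p.2.2) :
    OvLv (mxL m 1 p) :=
  ⟨fun r => p.2.1 * (1 ^ 2 * m / 2 * r ^ 2) + p.2.2 * m * r, mxL_cov hm 1 hd hf⟩

theorem ov_sq (x y : Cube m) : ov x y ^ 2 ≤ 1 := by
  rcases Nat.eq_zero_or_pos m with rfl | hm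
  · simp [ov]
  have h := Finset.sum_mul_sq_le_sq_mul_sq Finset.univ ((Q33.sl m).A x) ((Q33.sl m).A y)
  have e1 := Q33.sl_cov hm x x
  have e2 := Q33.sl_cov hm y y
  have e3 := Q33.sl_cov hm x y
  rw [Q33.ov_self hm] at e1 e2
  simp only [Lv.cov, ← sq] at e1 e2 e3
  rwa [e1, e2, e3, mul_one] at h

theorem ov_root (H : M.Leg x) (hm : 0 < m) (a : ℝ) : OvLv (M.root m a) := ov_mx hm H.d0 le_rfl

theorem ov_up (H : M.Leg x) (hm : 0 < m) : ∀ k ∈ M.up m, OvLv k := fun k hk => by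
  obtain ⟨i, hi, rfl⟩ := List.getElem_of_mem hk
  rw [up_get]
  exact ov_mx hm (sub_nonneg.2 (H.dm i.le_succ)) (sub_nonneg.2 (H.Hm i.le_succ))

theorem mono_up' (H : M.Leg x) (m : ℕ) : Mono x (M.up m) :=
  mono_aux (M.up m) M.z x H.zm H.z1 H.z0 fun k hk => by rw [up_get]; rfl

theorem sum_up (M : Md) (m : ℕ) (F : Lv (Cube m) → ℝ) : ((M.up m).map F).sum =
    ∑ k ∈ Finset.range M.N, F (mxL m 1 (M.z k, M.d (k + 1) - M.d k, M.H (k + 1) - M.H k)) := by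
  rw [Md.up, Md.Mu, List.map_map, List.map_ofFn, List.sum_ofFn]
  exact Fin.sum_univ_eq_sum_range
    (fun k => F (mxL m 1 (M.z k, M.d (k + 1) - M.d k, M.H (k + 1) - M.H k))) M.N

/-- all tilts move affinely to `1` -/
def tz (M : Md) (x u : ℝ) : Md := { M with z := fun k => upm x (M.z k) u }

theorem tz_self (M : Md) (hx : x < 1) : tz M x x = M := by
  cases M
  simp only [tz, upm_self hx]

theorem tz_up (M : Md) (m : ℕ) (x u : ℝ) : (tz M x u).up m = upT (M.up m) x u := by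
  simp only [Md.up, Md.Mu, upT, List.map_ofFn]
  rfl

theorem tz_leg (H : M.Leg x) (hx : x < 1) (hu : u ∈ Icc x 1) : (tz M x u).Leg x :=
  ⟨fun _ _ h => upm_mono hx hu.2 (H.zm h), H.z0.trans (le_upm hx hu.1 (H.z1 0)),
    fun k => (upm_mono hx hu.2 (H.z1 k)).trans_eq (upm_top hx),
    (congrArg (upm x · u) H.zN).trans (upm_top hx), H.d0, H.dm, H.H0, H.Hm⟩

/-- the variance below the tilt `1` -/
def low (M : Md) : ℝ :=
  ∑ k ∈ Finset.range M.N, (1 - M.z k) * ((M.d (k + 1) - M.d k) / 2 + (M.H (k + 1) - M.H k))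

/-- small marks are free -/
theorem ann (H : M.Leg x) (hm : 0 < m) (ha : 0 < a) (haa : a ≤ a') (hx : a' < x) (hx1 : x ≤ 1 / 2)
    (hu : u ∈ Icc x 1) {J : ℕ} (hJ : 1 - a' ≤ 2 ^ J * (x - a')) {S : ℝ} (hS : m * low M ≤ S)
    (hS0 : 0 ≤ S) (hQ : 0 ≤ Q) (hW : ∀ v ∈ Icc x 1, (a' - a) * (tz M x v).W m a a' ≤ Q ^ 2) :
    |(tz M x u).DV m a a' - Seg56.DV (fun _ => 1) (M.root m 0) [] 0 a a'| ≤ J * Q * √(6 * S) := by
  rcases haa.eq_or_lt with rfl | hlt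
  · simp only [Md.DV, Seg56.DV, sub_self, abs_zero]; positivity
  have hO : ∀ k ∈ M.root m 0 :: [] ++ M.up m, OvLv k := fun k hk => by
    rcases List.mem_cons.1 hk with rfl | hk
    exacts [ov_root H hm 0, ov_up H hm k hk]
  have := anneal Link33.wt1 (l := M.root m 0) (M := []) (N := M.up m) (h := 0)
    (x₀ := fun _ => true) (u := u) (W := Q ^ 2 / (a' - a)) (S := S) (J := J) (sym_act₀ hO)
    (fun y _ => TS_trans _ y) (fun k hk y => ov_diag (ov_up H hm k hk) _ y) ha haa hx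
    (by linarith) hu (Trf.mono_le (mono_up' H m) hx.le) (mono_up' H m) hJ ?_ fun v hv => ?_
  · rw [Lift72.sqrt_Q hlt hQ, ← mul_assoc, ← tz_up] at this
    exact this
  · rw [sum_up]
    refine le_trans (le_of_eq ?_) (hS.trans (by nlinarith))
    rw [low, Finset.mul_sum]
    refine Finset.sum_congr rfl fun k _ => ?_
    rw [mxL_cov hm 1 (sub_nonneg.2 (H.dm k.le_succ)) (sub_nonneg.2 (H.Hm k.le_succ)),
      Q33.ov_self hm, mxL_m]
    ring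
  · rw [le_div_iff₀ (sub_pos.2 hlt), mul_comm, List.nil_append, ← tz_up]
    exact hW v hv

/-- root variance `d₀` and one slice `d₁ - d₀` at the tilt `x` -/
def sl1 (d₀ d₁ x : ℝ) : Md :=
  ⟨1, fun k => if k = 0 then x else 1, fun k => if k = 0 then d₀ else d₁, 0, [], 0, 0⟩

theorem ite_mono {c c' : ℝ} (h : c ≤ c') : Monotone fun k : ℕ => if k = 0 then c else c' :=
  monotone_nat_of_le_succ fun k => by cases k <;> simp [h]

theorem sl1_leg {d₀ d₁ : ℝ} (h0 : 0 ≤ d₀) (h1 : d₀ ≤ d₁) (hx : x ≤ 1) : (sl1 d₀ d₁ x).Leg x :=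
  ⟨ite_mono hx, le_rfl, fun k => by cases k <;> simp [sl1, hx], rfl, h0, ite_mono h1, rfl,
    monotone_const⟩

theorem sk_leg (β : ℝ) (hx : x ≤ 1) : (Md.sk β).Leg x :=
  ⟨monotone_const, hx, fun _ => le_rfl, rfl, sq_nonneg β, monotone_const, rfl, monotone_const⟩

theorem sl1_sk {β d₀ : ℝ} (hm : 0 < m) (h0 : 0 ≤ d₀) (h1 : d₀ ≤ β ^ 2) (ha : 0 < a) (haa : a ≤ a')
    (hx : a' < x) (hx1 : x ≤ 1) {S : ℝ} (hS : m * (β ^ 2 - d₀) ≤ 4 * S) :
    |(sl1 d₀ (β ^ 2) x).DV m a a' - (Md.sk β).DV m a a'| ≤ x * S := by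
  have h2 : 0 ≤ β ^ 2 - d₀ := sub_nonneg.2 h1
  set k := mxL m 1 (x, β ^ 2 - d₀, 0 - 0) with hk
  have ck : ∀ y y', k.cov y y' = (β ^ 2 - d₀) * (1 ^ 2 * m / 2 * ov y y' ^ 2) + (0 - 0) * m * ov y y' :=
    mxL_cov hm 1 h2 (by simp)
  have hO : ∀ j ∈ [mxL m 1 (0, d₀, 0), k], OvLv j := fun j hj => by
    simp only [List.mem_cons, List.not_mem_nil, or_false] at hj
    rcases hj with rfl | rfl
    exacts [ov_mx hm h0 le_rfl, ov_mx hm h2 (by simp)]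
  have := Lift72.lift_split Link33.wt1 (l := mxL m 1 (0, β ^ 2, 0)) (l₁ := mxL m 1 (0, d₀, 0))
    (k := k) (N := []) (h := 0) (x₀ := fun _ => true) (a := a) (a' := a') (x := x) (β := x)
    (W := Wd (fun _ => 1) (mxL m 1 (0, d₀, 0)) [rt k x] 0 a a') (S := S) (J := 0)
    (fun y y' => by
      rw [ck, mxL_cov hm 1 (sq_nonneg β) le_rfl, mxL_cov hm 1 h0 le_rfl]; ring)
    (sym_act₀ hO) (fun y _ => TS_trans _ y) ha haa hx le_rfl (by simp) hx1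
    (fun t ht => by rw [le_antisymm ht.2 ht.1]) fun s _ => by
      refine (pi2_mono Link33.wt1 _ _ (K' := fun _ _ => 2 * S) (fun y y' => ?_) _).trans_eq
        (pi2_const Link33.wt1 _ _ _ _)
      have e1 := ov_sq y y'
      have e2 : (0 : ℝ) ≤ m := Nat.cast_nonneg m
      rw [ck]
      nlinarith [mul_le_mul_of_nonneg_left e1 (mul_nonneg h2 e2)]
  simp only [Nat.cast_zero, zero_mul, add_zero] at this
  exact this

theorem win_pos (hn : 1 ≤ n) (H : Win n s γ a a') : 0 < a :=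
  lt_of_lt_of_le (by have : (0 : ℝ) < n := by exact_mod_cast hn
                     positivity) H.lo

/-- **START**: a legal model with small marks below the tilt `1` is reached from SK -/
theorem start {β e am : ℝ} {J : ℕ} (hn : 1 ≤ n) (ham : am = s * (n : ℝ) ^ (γ - 1 / 6))
    (h0 : 0 < am) (h1 : am ≤ 1 / 4) (hM : M.Leg (2 * am)) (hd : M.d 0 ≤ β ^ 2) (hC : β ^ 2 ≤ C)
    (he1 : β ^ 2 - M.d 0 ≤ e) (he2 : low M ≤ e) (hJ : 1 ≤ 2 ^ J * am)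
    (c1 : 2 * am * (2 * n * e) ≤ δ * (n : ℝ) ^ ((1 : ℝ) / 6) * s ^ 5)
    (c2 : 2 * J * √(6 * (2 * n * e)) ≤ δ * (n : ℝ) ^ ((1 : ℝ) / 6) * s ^ 2) :
    ∃ T, Stage n s γ C δ (Md.sk β) T ∧ M ∈ T := by
  have x1 : 2 * am < 1 := by linarith
  have xx : 2 * am ∈ Icc (2 * am) 1 := ⟨le_rfl, x1.le⟩
  have hL := sl1_leg hM.d0 hd x1.le
  have e0 : 0 ≤ e := (sub_nonneg.2 hd).trans he1
  refine ⟨{M' | M' = Md.sk β ∨ ∃ u ∈ Icc (2 * am) 1, M' = tz M (2 * am) u ∨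
    M' = tz (sl1 (M.d 0) (β ^ 2) (2 * am)) (2 * am) u}, ⟨.inl rfl, ?_, ?_⟩,
    .inr ⟨_, xx, .inl (tz_self M x1).symm⟩⟩
  · rw [← ham]
    rintro M' (rfl | ⟨u, hu, rfl | rfl⟩)
    · exact ⟨sk_leg β (by linarith), hC⟩
    · exact ⟨Leg.le (tz_leg hM x1 hu) (by linarith), hd.trans hC⟩
    · exact ⟨Leg.le (tz_leg hL x1 hu) (by linarith), hd.trans hC⟩
  intro a a' Q hw hQ hT m m1 m2 M' hM'
  have ha := win_pos hn hw
  have a2 : a' ≤ am := ham ▸ hw.hi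
  have hx : a' < 2 * am := by linarith
  have hm : 0 < m := by omega
  have mn : (m : ℝ) ≤ 2 * n := by exact_mod_cast m2
  have S0 : 0 ≤ 2 * (n : ℝ) * e := by positivity
  have hJ' : 1 - a' ≤ 2 ^ J * (2 * am - a') := by
    have : (0 : ℝ) < 2 ^ J := by positivity
    nlinarith [hw.le]
  have mS : ∀ t, t ≤ e → m * t ≤ 2 * n * e := fun t ht =>
    (mul_le_mul_of_nonneg_left ht (Nat.cast_nonneg m)).trans (mul_le_mul_of_nonneg_right mn e0)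
  have k1 : ∀ u ∈ Icc (2 * am) 1, _ := fun u hu => ann hM hm ha hw.le hx (by linarith) hu hJ'
    (mS _ he2) S0 hQ fun v hv => hT _ (.inr ⟨v, hv, .inl rfl⟩) m m1 m2
  have k2 : ∀ u ∈ Icc (2 * am) 1, _ := fun u hu => ann hL hm ha hw.le hx (by linarith) hu hJ'
    (mS _ (by
      have : 0 ≤ β ^ 2 - M.d 0 := sub_nonneg.2 hd
      simp [low, sl1]
      nlinarith)) S0 hQ fun v hv => hT _ (.inr ⟨v, hv, .inr rfl⟩) m m1 m2
  have k3 := sl1_sk hm hM.d0 hd ha hw.le hx x1.le (S := 2 * n * e) (by linarith [mS _ he1])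
  have k4 := k2 _ xx
  rw [tz_self _ x1] at k4
  have c3 := mul_le_mul_of_nonneg_left c2 hQ
  have p : 0 ≤ J * Q * √(6 * (2 * n * e)) := by positivity
  have p' : 0 ≤ 2 * am * (2 * n * e) := by positivity
  have er : (sl1 (M.d 0) (β ^ 2) (2 * am)).root m 0 = M.root m 0 := rfl
  simp only [er] at k2 k4
  have b3 := abs_le.1 k3
  have b4 := abs_le.1 k4
  show |M'.DV m a a' - (Md.sk β).DV m a a'| ≤ _
  have fin : 2 * (J * Q * √(6 * (2 * n * e))) + 2 * am * (2 * n * e) ≤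
      δ * (n : ℝ) ^ ((1 : ℝ) / 6) * (Q * s ^ 2 + s ^ 5) := by linarith
  refine le_trans ?_ fin
  rcases hM' with rfl | ⟨u, hu, rfl | rfl⟩
  · rw [sub_self, abs_zero]; linarith
  · have b := abs_le.1 (k1 u hu)
    exact abs_le.2 ⟨by linarith, by linarith⟩
  · have b := abs_le.1 (k2 u hu)
    exact abs_le.2 ⟨by linarith, by linarith⟩

/-- **a segment is a stage** -/
theorem seg_stage {F : ℝ → Md} {d' H' : ℕ → ℝ} {am : ℝ} (hn : 1 ≤ n)
    (ham : am = s * (n : ℝ) ^ (γ - 1 / 6)) (H : MS F d' H' am) (hC : (F 0).d 0 ≤ C)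
    {V₂ V₁ B A : ℝ} (hb : ∀ a a' Q, Win n s γ a a' → ∀ m, n ≤ m → m ≤ 2 * n → ∀ t ∈ Ioo (0 : ℝ) 1,
      (a' - a) * (F t).W m a a' ≤ Q ^ 2 → BM (F t) m a a' d' H' Q V₂ V₁ B A)
    (h2 : 0 ≤ V₂) (h1 : 0 ≤ V₁) (hB : 0 ≤ B) (hA : 0 ≤ A)
    (c1 : 2 * n * (V₂ / 4 + V₁ / 2) ≤ δ * (n : ℝ) ^ ((1 : ℝ) / 6) * s ^ 2)
    (c2 : 2 * n * (B / 2 + A) ≤ δ * (n : ℝ) ^ ((1 : ℝ) / 6) * s ^ 5) :
    Stage n s γ C δ (F 0) (F '' Icc 0 1) := by
  refine ⟨⟨0, ⟨le_rfl, zero_le_one⟩, rfl⟩, ?_, ?_⟩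
  · rintro _ ⟨t, ht, rfl⟩
    refine ⟨ham ▸ H.leg t ht, ?_⟩
    rw [H.d t ht 0 (Nat.zero_le _), H.d0, mul_zero, add_zero]
    exact hC
  rintro a a' Q hw hQ hT m m1 m2 _ ⟨t, ht, rfl⟩
  have mn : (m : ℝ) ≤ 2 * n := by exact_mod_cast m2
  refine (H.seg_const (by omega) (win_pos hn hw).le hw.le (ham ▸ hw.hi) hQ (fun t ht =>
    hb a a' Q hw m m1 m2 t ht (hT _ ⟨t, Ioo_subset_Icc_self ht, rfl⟩ m m1 m2)) ht).trans ?_
  refine (mul_le_mul_of_nonneg_right mn (by positivity)).trans ?_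
  nlinarith [mul_le_mul_of_nonneg_left c1 hQ]

end Crest.Agent.T156.Alt.St56

end
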