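import Crest.Agent.T156.Pder_69

/-!
Row 156 (helper62): **strict no-gap**.  For every admissible profile of total length `≤ T` and at
every time, `E[Φ₄² - 12 m Φ₂ Φ₃² + 6 m² Φ₂⁴] ≥ κ(T) E Φ₂⁴` (`m` = current tilt), with
`κ(T) = e^{-6T}/260`: the slack of the certificate of row 339 is `≥ (Φ₃/(xΦ₂))²/1040`.
Consequence: two-sided slope bounds for the tilt profile from second differences of `E Φ₂²`.
-/

set_option autoImplicit false

namespace Crest.Agent.T156.Str

open MeasureTheory ProbabilityTheory Filter Topology Set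
open Crest.Agent.R164.GC Crest.Agent.R339.B Crest.Agent.R339.Var Crest.Agent.T157.Pf
open Crest.Agent.T156.Pp
open Crest.ProbabilityR.InvariantGlass (gaussOp)

noncomputable section

theorem aux1 (a u t : ℝ) :
    (a + 2 * (u + t)) ^ 2 / 1040 ≤ a ^ 2 / 400 + (1 / 10 * t ^ 2 + 1 / 150 * u ^ 2) := by
  have e : a ^ 2 / 400 + (1 / 10 * t ^ 2 + 1 / 150 * u ^ 2) - (a + 2 * (u + t)) ^ 2 / 1040 =
      (4 * a - 5 * (u + t)) ^ 2 / 10400 + (15 * t - u) ^ 2 / 2400 := by ring
  have : 0 ≤ (4 * a - 5 * (u + t)) ^ 2 / 10400 + (15 * t - u) ^ 2 / 2400 := by positivity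
  linarith

theorem aux2 (A u r : ℝ) (hu : 0 ≤ u) (hr : 0 ≤ r) : A ^ 2 / 4 + 1 / 150 * u ^ 2 ≤
    (A + (1 / 5 * u + 7 / 10 * r)) ^ 2 + (1 / 50 * u ^ 2 + 19 / 10 * (r * u) + 87 / 100 * r ^ 2) := by
  have e : (A + (1 / 5 * u + 7 / 10 * r)) ^ 2 +
      (1 / 50 * u ^ 2 + 19 / 10 * (r * u) + 87 / 100 * r ^ 2) - (A ^ 2 / 4 + 1 / 150 * u ^ 2) =
      (3 / 2 * A + 2 * (1 / 5 * u + 7 / 10 * r)) ^ 2 / 3 + 271 / 150 * (r * u) +
        53 / 75 * r ^ 2 := by ring
  have : 0 ≤ (3 / 2 * A + 2 * (1 / 5 * u + 7 / 10 * r)) ^ 2 / 3 + 271 / 150 * (r * u) +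
        53 / 75 * r ^ 2 := by positivity
  linarith

theorem aux3 (k l y : ℝ) (hk : 0 ≤ k) (hl : 0 ≤ l) (hy : 0 ≤ y) : (k * y) ^ 2 / 400 ≤
    (-(1 / 5) * k ^ 2 - 3 / 10 * (k * y) + 2 / 5 * (k * l)) ^ 2 / 4 + 1 / 10 * (k ^ 2 * l * y) := by
  rcases le_total (2 * l) y with hc | hc
  · have b1 := mul_le_mul_of_nonneg_left hc hk
    have b2 : k * y / 10 ≤ -(-(1 / 5) * k ^ 2 - 3 / 10 * (k * y) + 2 / 5 * (k * l)) := by
      have := sq_nonneg k
      linarith
    have b3 := pow_le_pow_left₀ (by positivity) b2 2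
    rw [neg_sq, div_pow] at b3
    have b4 : 0 ≤ k ^ 2 * l * y := by positivity
    linarith
  · have b1 := mul_le_mul_of_nonneg_left hc (by positivity : 0 ≤ k ^ 2 * y)
    have b2 := sq_nonneg (-(1 / 5) * k ^ 2 - 3 / 10 * (k * y) + 2 / 5 * (k * l))
    have b3 := sq_nonneg (k * y)
    have e1 : (k * y) ^ 2 = k ^ 2 * y * y := by ring
    have e2 : k ^ 2 * y * (2 * l) = 2 * (k ^ 2 * l * y) := by ring
    linarith

theorem cert_cone' (p k l e z o w : ℝ) (hp : 0 ≤ p) (hk : 0 ≤ k) (hl : 0 ≤ l) (he : 0 ≤ e)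
    (hz : 0 ≤ z) (ho : 0 ≤ o) :
    ((k + 2 * p) * (e + z)) ^ 2 / 1040 ≤ Qc p k l (p * e) (e + z) w (l * (e + z) - o) := by
  have key : Qc p k l (p * e) (e + z) w (l * (e + z) - o) =
      ((-(1 / 5) * k ^ 2 - 3 / 10 * (k * (e + z)) + 2 / 5 * (k * l))
        + (1 / 5 * (p * e) + 7 / 10 * (p * l))) ^ 2
      + (1 / 50 * (p * e) ^ 2 + 19 / 10 * ((p * l) * (p * e)) + 87 / 100 * (p * l) ^ 2)
      + 1 / 10 * (k ^ 2 * l * (e + z)) + 1 / 10 * (p * z) ^ 2
      + ((w - (2 / 5 * k ^ 2 + 11 / 10 * p * k + 3 / 5 * p ^ 2 + 1 / 5 * (p * e)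
        + 1 / 10 * k * (e + z) + 1 / 5 * k * l + 4 / 5 * p * l)) ^ 2
        + (1 / 5 * k ^ 2 * o + 7 / 10 * p * z * o + 8 / 5 * p * k * o + 2 * p ^ 2 * o
        + 7 / 10 * p * l ^ 2 * z
        + 2 / 25 * p * k * e * z + 2 / 25 * p * k * e ^ 2 + 3 / 50 * p * k * l * z
        + 13 / 25 * p * k * l * e + 18 / 25 * p * k * l ^ 2 + 2 / 25 * p * k ^ 2 * z
        + 1 / 10 * p * k ^ 2 * e + 1 / 10 * p * k ^ 2 * l + 3 / 25 * p * k ^ 3
        + 1 / 5 * p ^ 2 * l * z + 2 / 25 * p ^ 2 * k * z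
        + 16 / 25 * p ^ 2 * k * e + 1 / 100 * p ^ 2 * k ^ 2 + 3 / 10 * p ^ 3 * z
        + 3 / 50 * p ^ 3 * e + 1 / 25 * p ^ 3 * l + 7 / 25 * p ^ 3 * k
        + 16 / 25 * p ^ 4)) := by
    unfold Qc chi chi'
    ring
  have e1 : (k + 2 * p) * (e + z) = k * (e + z) + 2 * (p * e + p * z) := by ring
  have h1 := aux1 (k * (e + z)) (p * e) (p * z)
  have h2 := aux2 (-(1 / 5) * k ^ 2 - 3 / 10 * (k * (e + z)) + 2 / 5 * (k * l)) (p * e) (p * l)
    (by positivity) (by positivity)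
  have h3 := aux3 k l (e + z) hk hl (by positivity)
  rw [key, e1]
  refine le_add_of_le_of_nonneg ?_ (by positivity)
  generalize (-(1 / 5) * k ^ 2 - 3 / 10 * (k * (e + z)) + 2 / 5 * (k * l)) = A at h2 h3 ⊢
  generalize k ^ 2 * l * (e + z) = B at h3 ⊢
  generalize k * (e + z) = a at h1 h3 ⊢
  generalize p * e = u at h1 h2 ⊢
  generalize p * z = t at h1 ⊢
  generalize p * l = r at h2 ⊢
  linarith

theorem cert' {p k l v y w o : ℝ} (hp : 0 < p) (hk : 0 ≤ k) (hl : 0 ≤ l) (hv : 0 ≤ v)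
    (hvy : v ≤ p * y) (ho : o ≤ l * y) : ((k + 2 * p) * y) ^ 2 / 1040 ≤ Qc p k l v y w o := by
  have h := cert_cone' p k l (v / p) (y - v / p) (l * y - o) w hp.le hk hl (by positivity)
    (by rw [sub_nonneg, div_le_iff₀ hp]; linarith) (by linarith)
  have e1 : p * (v / p) = v := by field_simp
  have e2 : v / p + (y - v / p) = y := by ring
  have e3 : l * y - (l * y - o) = o := by ring
  rw [e1, e2, e3] at h
  exact h

/-- the integrand with a margin -/
def phiJ (m κ : ℝ) (R f : ℝ → ℝ) (x : ℝ) : ℝ :=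
  R x * (Real.exp (m * f x) * (deriv (deriv (deriv (deriv f))) x ^ 2
    - 12 * m * deriv (deriv f) x * deriv (deriv (deriv f)) x ^ 2
    + (6 * m ^ 2 - κ) * deriv (deriv f) x ^ 4))

/-- **the strict no-gap inequality** -/
theorem core' {m c : ℝ} {f R : ℝ → ℝ} (h : Inv 1 m f) (hm : 0 < m) (hR : GW R) (hc : 0 ≤ c)
    (hH : Hop c f) : 0 ≤ ∫ x, phiJ m (c ^ 2 / 1040) R f x := by
  -- basic functions
  have hE : EG fun x => Real.exp (m * f x) := (h.prof.exp_egs m).eg
  have h2 := h.prof.bd.deriv.eg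
  have h3 := h.prof.bd.deriv.deriv.eg
  have h4 := h.prof.bd.deriv.deriv.deriv.eg
  have hI : EG fun x => Real.exp (m * f x) * (deriv (deriv (deriv (deriv f))) x ^ 2
      - 12 * m * deriv (deriv f) x * deriv (deriv (deriv f)) x ^ 2
      + (6 * m ^ 2 - c ^ 2 / 1040) * deriv (deriv f) x ^ 4) := by
    refine hE.mul (((h4.pow 2).sub (((h2.const_mul (12 * m)).mul (h3.pow 2)))).add
      ((h2.pow 4).const_mul (6 * m ^ 2 - c ^ 2 / 1040)))
  have hφ : SD (phiJ m (c ^ 2 / 1040) R f) := hR.sds.sd.mul hI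
  set p := fM m f with hp
  set k : ℝ → ℝ := fun x => fb f x - 2 * fM m f x with hk
  set l := fr R with hl
  set v := fa m f with hv
  set W : ℝ → ℝ := fun x => R x * (Real.exp (m * f x) * deriv (deriv f) x ^ 2) with hW
  have dp : ∀ x, HasDerivAt p (v x) x := fM_d h
  have dk : ∀ x, HasDerivAt k (fE m f x) x := fun x =>
    ((fb_d h x).fun_sub ((fM_d h x).const_mul 2)).congr_deriv (by ring)
  have dl : ∀ x, HasDerivAt l (fo R x) x := fr_d hR
  have dv : ∀ x, HasDerivAt v (-((k x + 2 * p x) * v x)) x := fun x =>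
    (fa_d h x).congr_deriv (by simp only [hk, hp, hv]; ring)
  have dy : ∀ x : ℝ, x ≠ 0 → HasDerivAt (fun x : ℝ => 1 / x) (-(1 / x) ^ 2) x := fun x hx => by
    have := hasDerivAt_inv hx
    refine (this.congr_deriv ?_).congr_of_eventuallyEq ?_
    · field_simp
    · exact Eventually.of_forall fun y => one_div y
  have dW : ∀ x, HasDerivAt W (-(W x * (l x + 3 * p x + 2 * k x))) x := fun x => by
    have e1 := ((h.prof.d1 x).const_mul m).exp
    have e2 := (h.prof.bd.deriv.hasDerivAt x).fun_pow 2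
    refine ((Rd hR x).fun_mul (e1.fun_mul e2)).congr_deriv ?_
    simp only [hW, hl, hp, hk]
    rw [u3_eq h]
    unfold fM
    norm_num
    ring
  have hWpos : ∀ x, 0 < W x := fun x =>
    mul_pos (hR.pos x) (mul_pos (Real.exp_pos _) (pow_pos (u2_pos h x) 2))
  set G : ℝ → ℝ := fun x => W x * chi (p x) (k x) (l x) (v x) (1 / x) with hG
  refine integral_nonneg_of_cert (G := G)
    (G' := fun x => -(W x * (l x + 3 * p x + 2 * k x)) * chi (p x) (k x) (l x) (v x) (1 / x) +
      W x * chi' (p x) (k x) (l x) (v x) (1 / x) (fE m f x) (fo R x))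
    hφ.cont hφ.integrable ?_ ?_ ?_ ?_ ?_
  · -- evenness
    intro x
    unfold phiJ
    rw [hR.even, h.even, u4_even h, u3_odd h, u2_even h]
    ring
  · intro x hx
    exact (dW x).fun_mul (chi_hasDerivAt (y := fun x => 1 / x) (dp x) (dk x) (dl x) (dv x)
      (dy x hx.ne'))
  · intro x hx
    have hq := cert' (p := p x) (k := k x) (l := l x) (v := v x) (y := 1 / x) (w := fE m f x)
      (o := fo R x) ?_ ?_ (fr_nonneg hR hx) (fa_pos h hm x).le ?_ (fo_le hR hx)
    · have e : phiJ m (c ^ 2 / 1040) R f x + (-(W x * (l x + 3 * p x + 2 * k x)) *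
          chi (p x) (k x) (l x) (v x) (1 / x) +
          W x * chi' (p x) (k x) (l x) (v x) (1 / x) (fE m f x) (fo R x)) =
          W x * (Qc (p x) (k x) (l x) (v x) (1 / x) (fE m f x) (fo R x) -
            c ^ 2 / 1040 * deriv (deriv f) x ^ 2) := by
        have e1 : phiJ m (c ^ 2 / 1040) R f x =
            W x * (((k x + 2 * p x) ^ 2 - 2 * v x - fE m f x) ^ 2 -
            12 * (k x + 2 * p x) ^ 2 * v x + 6 * v x ^ 2 -
            c ^ 2 / 1040 * deriv (deriv f) x ^ 2) := by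
          unfold phiJ
          rw [u4_eq h, u3_eq h]
          simp only [hW, hk, hp, hv]
          unfold fa
          ring
        rw [e1]
        unfold Qc
        ring
      rw [e]
      refine mul_nonneg (hWpos x).le ?_
      have a0 := u2_pos h x
      have a1 : c * deriv f x ≤ fb f x := by
        unfold fb
        rw [le_div_iff₀ a0]
        have := hH x hx.le
        linarith
      have a2 : x * deriv (deriv f) x ≤ deriv f x := by
        have := fa_le h hm hx.le
        unfold fa fM at this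
        refine le_of_mul_le_mul_left ?_ hm
        linarith
      have a3 : c * deriv (deriv f) x ≤ (k x + 2 * p x) * (1 / x) := by
        have e2 : k x + 2 * p x = fb f x := by simp only [hk, hp]; ring
        rw [e2, mul_one_div, le_div_iff₀ hx]
        nlinarith [mul_le_mul_of_nonneg_left a2 hc]
      have a4 := pow_le_pow_left₀ (mul_nonneg hc a0.le) a3 2
      rw [mul_pow] at a4
      linarith
    · -- `p x > 0`
      have := h.strictMono hx
      rw [h.d0] at this
      exact mul_pos hm this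
    · have := fb_ge h hx.le (m := m)
      simp only [hk]
      linarith
    · have := fa_le h hm hx.le
      rw [mul_one_div, le_div_iff₀ hx]
      simp only [hp, hv]
      linarith
  · -- limit at zero
    have tp : Tendsto p (𝓝[>] 0) (𝓝 0) := by
      have := (dp 0).continuousAt.tendsto
      rw [hp, fM0 h] at this
      exact this.mono_left nhdsWithin_le_nhds
    have tk : Tendsto k (𝓝[>] 0) (𝓝 0) := by
      have := (dk 0).continuousAt.tendsto
      have e : k 0 = 0 := by simp only [hk]; rw [fb0 h, fM0 h]; ring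
      rw [e] at this
      exact this.mono_left nhdsWithin_le_nhds
    have tl : Tendsto l (𝓝[>] 0) (𝓝 0) := by
      have := (dl 0).continuousAt.tendsto
      rw [hl, fr0 hR] at this
      exact this.mono_left nhdsWithin_le_nhds
    have tv : Tendsto v (𝓝[>] 0) (𝓝 (v 0)) :=
      (dv 0).continuousAt.tendsto.mono_left nhdsWithin_le_nhds
    have tW : Tendsto W (𝓝[>] 0) (𝓝 (W 0)) :=
      (dW 0).continuousAt.tendsto.mono_left nhdsWithin_le_nhds
    have tpy : Tendsto (fun x => p x * (1 / x)) (𝓝[>] 0) (𝓝 (v 0)) :=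
      slope_tendsto (fM0 h) (dp 0)
    have tky : Tendsto (fun x => k x * (1 / x)) (𝓝[>] 0) (𝓝 (fE m f 0)) := by
      refine slope_tendsto ?_ (dk 0)
      simp only [hk]; rw [fb0 h, fM0 h]; ring
    have e : G = fun x => W x * (5 * (p x) ^ 3 + 34 / 5 * ((p x) ^ 2 * k x)
      + 29 / 10 * (p x * (k x) ^ 2)
      + 2 / 5 * (k x) ^ 3 + (-(49 / 5)) * (p x * v x) + (-(22 / 5)) * (k x * v x)
      + 7 / 10 * (l x * v x) + (-(7 / 10)) * (l x * (p x * (1 / x))) + (-2) * ((p x) ^ 2 * l x)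
      + (-(8 / 5)) * (p x * k x * l x) + (-(1 / 5)) * ((k x) ^ 2 * l x)
      + (-(1 / 10)) * (p x * (p x * (1 / x))) + (-(1 / 10)) * (k x * (k x * (1 / x)))) := by
      funext x
      simp only [hG]
      unfold chi
      ring
    rw [e]
    have t := tW.mul (((((((((((((((tp.pow 3).const_mul 5).add
      (((tp.pow 2).mul tk).const_mul (34 / 5))).add
      ((tp.mul (tk.pow 2)).const_mul (29 / 10))).add
      ((tk.pow 3).const_mul (2 / 5))).add
      ((tp.mul tv).const_mul (-(49 / 5)))).add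
      ((tk.mul tv).const_mul (-(22 / 5)))).add
      ((tl.mul tv).const_mul (7 / 10))).add
      ((tl.mul tpy).const_mul (-(7 / 10)))).add
      (((tp.pow 2).mul tl).const_mul (-2))).add
      (((tp.mul tk).mul tl).const_mul (-(8 / 5)))).add
      (((tk.pow 2).mul tl).const_mul (-(1 / 5)))).add
      ((tp.mul tpy).const_mul (-(1 / 10)))).add
      ((tk.mul tky).const_mul (-(1 / 10)))))
    refine t.congr' ?_ |>.trans ?_
    · exact Eventually.of_forall fun x => rfl
    · norm_num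
  · -- limit at infinity
    have hEp : EG p := (h.prof.bd.const_mul m).eg
    have hEv : EG v := (h.prof.bd.deriv.const_mul m).eg
    have hEk : EG k := (fb_eg h).sub (hEp.const_mul 2)
    have hS0 : SD W := hR.sds.sd.mul (hE.mul (h2.pow 2))
    have hS1 : SD (fun x => W x * l x) := by
      have : SD fun x => deriv R x * (-1 * (Real.exp (m * f x) * deriv (deriv f) x ^ 2)) :=
        hR.sds.deriv.sd.mul ((hE.mul (h2.pow 2)).const_mul (-1))
      refine this.congr fun x => ?_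
      simp only [hW, hl]
      unfold fr
      have := (hR.pos x).ne'
      field_simp
    have hA : SD fun x => W x * (5 * (p x) ^ 3 + 34 / 5 * ((p x) ^ 2 * k x)
        + 29 / 10 * (p x * (k x) ^ 2) + 2 / 5 * (k x) ^ 3 + (-(49 / 5)) * (p x * v x)
        + (-(22 / 5)) * (k x * v x)) :=
      hS0.mul (((((((hEp.pow 3).const_mul 5).add (((hEp.pow 2).mul hEk).const_mul (34 / 5))).add
        ((hEp.mul (hEk.pow 2)).const_mul (29 / 10))).add ((hEk.pow 3).const_mul (2 / 5))).add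
        ((hEp.mul hEv).const_mul (-(49 / 5)))).add ((hEk.mul hEv).const_mul (-(22 / 5))))
    have hB : SD fun x => (W x * l x) * (7 / 10 * v x + (-2) * (p x) ^ 2 +
        (-(8 / 5)) * (p x * k x) + (-(1 / 5)) * (k x) ^ 2) :=
      hS1.mul ((((hEv.const_mul (7 / 10)).add ((hEp.pow 2).const_mul (-2))).add
        ((hEp.mul hEk).const_mul (-(8 / 5)))).add ((hEk.pow 2).const_mul (-(1 / 5))))
    have hC : SD fun x => W x * ((-(1 / 10)) * (p x) ^ 2 + (-(1 / 10)) * (k x) ^ 2) :=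
      hS0.mul (((hEp.pow 2).const_mul (-(1 / 10))).add ((hEk.pow 2).const_mul (-(1 / 10))))
    have hD : SD fun x => (W x * l x) * ((-(7 / 10)) * p x) :=
      hS1.mul (hEp.const_mul (-(7 / 10)))
    have ty : Tendsto (fun x : ℝ => 1 / x) atTop (𝓝 0) := by
      simpa using tendsto_inv_atTop_zero (𝕜 := ℝ)
    have t := ((hA.tendsto.add hB.tendsto).add ((hC.tendsto.add hD.tendsto).mul ty))
    have e0 : (0 : ℝ) + 0 + (0 + 0) * 0 = 0 := by norm_num
    rw [e0] at t
    refine t.congr fun x => ?_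
    simp only [hG]
    unfold chi
    ring


end

end Crest.Agent.T156.Str
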