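import Crest.Agent.T156.SwGA_2
import Crest.Agent.T156.GrMem_37

/-!
# Row 156: the switch on the graded path from its location input (helper2)
-/

set_option autoImplicit false

namespace Crest.Agent.T156.Alt

open Real Set Filter

theorem memSw {β : ℝ} (hβ : 1 < β) : Cst β MemSw :=
  (grM hβ).mono fun _ _ _ ⟨_, _, _, H⟩ σ σ' P P' t o hP hP' ht =>
    ⟨_, _, _, _, _, _, _, _, ((H σ σ' o P hP).2 P' hP' t ht).memD⟩

/-- **`SwG` from the location on the top window** -/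
theorem swG_of_loc {β : ℝ} (hβ : 1 < β) (hL : Loss β SwL) : Gain β SwG :=
  swG_cst hβ (memSw hβ) hL

theorem swG_of_lo {β : ℝ} (hβ : 1 < β) (hL : Loss β SwLo) : Gain β SwG :=
  swG_lo hβ (MemSw.loss (memSw hβ)) hL

/-- the location input with the class constant exposed -/
def SwT (K : ℝ) (p : Pm) : Prop := ∀ c0 C0 η σ σ' P P' t, p.OctR σ σ' → p.PlG (p.muG σ) P →
  p.PlG (p.muG σ') P' → t ∈ Icc (0 : ℝ) 1 → GrD K c0 C0 η p σ σ' (P.mix P' t) →
    ∀ m a, p.InW m a → p.tw2 P (p.gst (P.mix P' t) σ') m a ≤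
      p.s ^ 8 * (p.n : ℝ) ^ (-(2 : ℝ) / 3) / p.muG σ'

theorem swG_of_K {β : ℝ} (hβ : 1 < β) (hL : ∀ K, 1 ≤ K → Ev β (SwT K)) : Gain β SwG := by
  refine swG_of_lo hβ fun c0 C0 h0 h1 => ?_
  obtain ⟨K, hK, h⟩ := (grM hβ).par c0 C0 h0 h1
  filter_upwards [h, hL K hK c0 C0 h0 h1] with A h hL
  filter_upwards [h, hL] with c h hL η hη
  filter_upwards [h, hL, ev_one_le] with n g a n1 p e1 e2 e3 e4 ok σ σ' P P' t o hP hP' ht m x w
  obtain ⟨_, _, _, H⟩ := g p e1 e2 e3 e4 ok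
  have D := (H σ σ' o P hP).2 P' hP' t ht
  refine (a p e1 e2 e3 e4 ok _ _ _ σ σ' P P' t o hP hP' ht D m x w).trans ?_
  have m0 : 0 < p.muG σ' := D.top ▸ D.memD.msp zero_le_one
  rw [mul_assoc]
  exact div_le_div_of_nonneg_right (le_mul_of_one_le_left (by positivity)
    (one_le_rpow n1 hη.le)) m0.le

end Crest.Agent.T156.Alt
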