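import Crest.Agent.T156.GrDef_62
import Crest.Agent.T156.TestDef_82
import Crest.Agent.T156.Snap_59
import Crest.Agent.T156.PlEx_13

/-!
# Row 156: the switch of the plateau data on the graded path (helper2)

`SwG` = field segment on the old grid (`SwGA`) + snap of the grid (`SwGB`).
-/

set_option autoImplicit false

noncomputable section

namespace Crest.Agent.T156.Alt

open Real Set Filter Topology

/-- legality of the mixed members (`t = 0`: `gst P σ'`; `P = P'`, `σ = σ'`: `gst P' σ'`) -/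
def LegSw (Λ : ℝ) (p : Pm) : Prop := ∀ σ σ' P P' t, p.OctR σ σ' →
  p.PlG (p.muG σ) P → p.PlG (p.muG σ') P' → t ∈ Icc (0 : ℝ) 1 →
    p.jf < p.J ∧ (p.gst (P.mix P' t) σ').Leg p.am ∧ p.bG σ' ≤ p.β ^ 2 ∧
      (p.gst (P.mix P' t) σ').H (p.NP P) ≤ Λ

/-- the static field is switched on the old grid -/
def SwGA (δ : ℝ) (p : Pm) : Prop := ∀ σ σ' P P', p.OctR σ σ' → p.PlG (p.muG σ) P →
  p.PlG (p.muG σ') P' → Go δ p (p.gst P σ') (p.gst (P.mix P' 1) σ')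

/-- the grid is switched -/
def SwGB (δ : ℝ) (p : Pm) : Prop := ∀ σ σ' P P', p.OctR σ σ' → p.PlG (p.muG σ) P →
  p.PlG (p.muG σ') P' → Go δ p (p.gst (P.mix P' 1) σ') (p.gst P' σ')

namespace Sw2

open Mem37

theorem mix_zero {P : Pl} (h : P.γ = 0) (P' : Pl) : P.mix P' 0 = P := by
  cases P; simp only [Pl.mix] at *; simp [h]

theorem mix_self {P : Pl} (h : P.γ = 0) (t : ℝ) : P.mix P t = P := by
  cases P; simp only [Pl.mix] at *
  congr 1
  · funext x; ring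
  · funext x; ring
  · exact h.symm

theorem mix_one_hs (P P' : Pl) : (P.mix P' 1).hs = P'.hs := by
  funext x; simp [Pl.mix]

theorem octR_self {p : Pm} {σ σ' : ℝ} (o : p.OctR σ σ') (h : 0 ≤ p.sg0) : p.OctR σ' σ' :=
  ⟨o.1.trans o.2.1, le_rfl, by linarith [o.1, o.2.1], o.2.2.2⟩

/-- a static grid with label mesh `η` -/
structure Gd (p : Pm) (η : ℝ) (P : Pl) : Prop where
  g : P.γ = 0
  x0 : P.x 0 = p.xs
  st : ∀ i < P.I, P.x (i + 1) ≤ P.x i + η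
  e : 1 ≤ P.x P.I + η

variable {p : Pm} {η : ℝ} {P P' : Pl} {om : ℕ → ℝ} {b : ℝ}

theorem Gd.zx (h : Gd p η P) (hJ : 0 < p.J) {i : ℕ} (hi : i ≤ P.I) :
    p.zP P (p.J + i - 1) = P.x i := by
  rcases Nat.eq_zero_or_pos i with e | e
  · rw [e, add_zero, zP_lo (by omega), h.x0]; rfl
  · rw [zP_mid (by omega) (by unfold Pm.Jp; omega)]
    congr 1; omega

theorem Gd.step (h : Gd p η P) (hJ : 0 < p.J) (hη : 0 ≤ η) {k : ℕ} (hk : p.J ≤ k + 1) :
    p.zP P (k + 1) ≤ p.zP P k + η := by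
  rcases lt_or_ge (k + 1) (p.Jp P) with a | a
  · obtain ⟨i, e⟩ : ∃ i, k + 1 = p.J + i := ⟨k + 1 - p.J, by omega⟩
    have hi : i < P.I := by unfold Pm.Jp at a; omega
    rw [show k = p.J + i - 1 by omega, show p.J + i - 1 + 1 = p.J + (i + 1) - 1 by omega,
      h.zx hJ hi.le, h.zx hJ hi]
    exact h.st i hi
  · rw [zP_hi a]
    rcases a.eq_or_lt with e | e
    · rw [show k = p.J + P.I - 1 by unfold Pm.Jp at e; omega, h.zx hJ le_rfl]
      exact h.e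
    · rw [zP_hi (by omega)]; linarith

theorem H_lo (g : P.γ = 0) (g' : P'.γ = 0) (e : P'.hs = P.hs) (hJ : 0 < p.J) {k : ℕ}
    (hk : k ≤ p.J) : p.HO P' om b k = p.HO P om b k := by
  unfold Pm.HO Pm.qO Pm.lO
  rw [if_pos g, if_pos g', sP_lo hk, sP_lo hk, xP_lo (hk.trans J_le), xP_lo (hk.trans J_le),
    zP_lo (by omega), zP_lo (by omega), e]

theorem H_mid (g : P.γ = 0) (hj : p.jf < p.J) {k : ℕ} (h1 : p.J ≤ k) (h2 : k < p.Jp P) :
    p.HO P om b (k + 1) = p.J * p.v -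
      b * Pr.Gam (Pr.lo p.z p.v om (p.J + p.Nr)) (p.J * p.v) + P.hs (p.zP P k) := by
  have s : p.sO P om (k + 1) = p.J * p.v := by
    unfold Pm.sO
    rw [if_neg (by omega), g, Nat.sub_eq_zero_of_le h2]; simp
  unfold Pm.HO Pm.qO Pm.lO
  rw [if_neg (by omega), if_pos g, s, xP_lo (k := k + 1) h2, Nat.add_sub_cancel]

theorem fle {x x' : ℝ} (h : Gd p η P) (h' : Gd p η P') (e : P'.hs = P.hs) (hj : p.jf < p.J)
    (hη : 0 ≤ η) (hm : MonotoneOn P.hs (Ico p.xs 1)) (L : (p.famO P om p.jf b 0 0).Leg x)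
    (L' : (p.famO P' om p.jf b 0 0).Leg x') :
    FLe p.J 0 η (p.famO P om p.jf b 0 0) (p.famO P' om p.jf b 0 0) := by
  have hJ : 0 < p.J := by omega
  have z : ∀ (P : Pl) k, p.J ≤ k + 1 → (p.famO P om p.jf b 0 0).z k = p.zP P k := fun P k hk => by
    show p.zP P (max k p.jf) = _
    rw [max_eq_left (by omega)]
  have lt : ∀ (P : Pl) k, p.zP P k < 1 → k < p.Jp P := fun P k hk => by
    by_contra hc
    rw [zP_hi (not_lt.1 hc)] at hk
    exact lt_irrefl _ hk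
  have xs : ∀ P : Pl, p.zP P (p.J - 1) = p.xs := fun P => by rw [zP_lo (by omega)]; rfl
  have x1 : p.xs ≤ (p.famO P om p.jf b 0 0).z p.J := by
    have := L.zm (Nat.sub_le p.J 1)
    rwa [z P (p.J - 1) (by omega), xs] at this
  have := FLe.of_fun (k0 := p.J) (δ₁ := 0) (δ₂ := 0) (η := η) L L'
    (φ := fun y => p.J * p.v - (b + 0) * Pr.Gam (Pr.lo p.z p.v om (p.J + p.Nr)) (p.J * p.v) +
      P.hs y)
    (fun s t h1 h2 h3 => by
      have := hm ⟨x1.trans h1, h2.trans_lt h3⟩ ⟨(x1.trans h1).trans h2, h3⟩ h2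
      linarith)
    (fun k h1 _ h3 => by
      rw [z P k (by omega)] at h3 ⊢
      show p.HO P om (b + 0) (k + 1) + 0 ≤ _
      rw [H_mid h.g hj h1 (lt P k h3)])
    (fun k h1 _ h3 => by
      rw [z P' k (by omega)] at h3 ⊢
      show _ ≤ p.HO P' om (b + 0) (k + 1) + 0 + 0
      rw [H_mid h'.g hj h1 (lt P' k h3), e]; linarith)
    (fun k h1 _ => by
      rw [z P' k (by omega), z P' (k + 1) (by omega)]
      exact h'.step hJ hη (by omega))
    (by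
      have := h'.step hJ hη (k := p.J - 1) (by omega)
      rw [Nat.sub_add_cancel hJ, xs] at this
      rw [z P' p.J (by omega)]
      linarith)
  rwa [add_zero] at this

/-- two static grids with the same field -/
theorem snp {x x' T : ℝ} (h : Gd p η P) (h' : Gd p η P') (e : P'.hs = P.hs) (hj : p.jf < p.J)
    (hη : 0 ≤ η) (hm : MonotoneOn P.hs (Ico p.xs 1)) (L : (p.famO P om p.jf b 0 0).Leg x)
    (L' : (p.famO P' om p.jf b 0 0).Leg x') (t : (p.famO P om p.jf b 0 0).H (p.NP P) ≤ T)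
    (t' : (p.famO P' om p.jf b 0 0).H (p.NP P') ≤ T) :
    Snp p.J 0 η T (p.famO P om p.jf b 0 0) (p.famO P' om p.jf b 0 0) where
  n := J_le.trans (Nat.le_add_right _ _)
  n' := J_le.trans (Nat.le_add_right _ _)
  z k hk := by
    show p.zP P' (max k p.jf) = p.zP P (max k p.jf)
    rw [zP_lo (max_lt hk hj), zP_lo (max_lt hk hj)]
  d _ _ := rfl
  H k hk := by
    show p.HO P' om (b + 0) k + 0 = p.HO P om (b + 0) k + 0
    rw [H_lo h.g h'.g e (by omega) hk]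
  dc k _ := by simp [Pm.famO]
  dc' k _ := by simp [Pm.famO]
  d0 := le_rfl
  e0 := hη
  t := t
  t' := t'
  A := fle h h' e hj hη hm L L'
  B := fle h' h e.symm hj hη (e ▸ hm) L' L

theorem gd_of {μ : ℝ} (h : Plt13.Nm p (p.mt μ)) (H : p.PlG μ P) :
    Gd p (624 * p.n * p.v + (p.n : ℝ) ^ (-(2 : ℝ))) P := by
  have a : 0 ≤ 624 * p.n * p.v := by have := h.v0; positivity
  have b : 0 ≤ (p.n : ℝ) ^ (-(2 : ℝ)) := by positivity
  have c : 1 - P.x P.I ≤ _ := H.ok.e2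
  refine ⟨H.g, H.ok.x0, fun i hi => ?_, by linarith⟩
  have d : P.x (i + 1) - P.x i ≤ _ := Plt13.x_mesh h H.ok hi
  linarith

theorem Gd.mix (h : Gd p η P) (P' : Pl) (t : ℝ) : Gd p η (P.mix P' t) := ⟨rfl, h.x0, h.st, h.e⟩

theorem hs_mono {μ : ℝ} (h : Plt13.Nm p (p.mt μ)) (H : p.PlG μ P) (μ0 : 0 ≤ μ) :
    MonotoneOn P.hs (Ico p.xs 1) := fun s hs t ht hst => by
  rw [H.hs]
  exact mul_le_mul_of_nonneg_left (h.clw.le hs.1 hst ht.2) μ0

variable {β c0 C0 K η' : ℝ}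

theorem sg0_pos (x : Ctx β c0 C0 K η' p) : 0 < p.sg0 := by
  have := x.κ_pos; have := x.ye_pos; have := x.μ0_pos
  unfold Pm.sg0; positivity

theorem muG_mem (x : Ctx β c0 C0 K η' p) {σ : ℝ} (h : p.sg0 ≤ σ) :
    p.μ0 ≤ p.muG σ ∧ p.muG σ ≤ p.κ := by
  have a := x.κ_pos; have b := x.ye_pos; have c := sqrt_pos.2 x.ye_pos
  have s0 := sg0_pos x
  have y1 := x.ye_le_one
  have m0 : p.μ0 ≤ p.κ * p.ye ^ 2 :=
    x.μ0_le.trans (mul_le_mul_of_nonneg_left (pow_le_pow_left₀ x.r_pos.le x.r_le_ye 2) a.le)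
  have m1 : p.κ * p.ye * (p.sg0 * √p.ye) = p.μ0 := by unfold Pm.sg0; field_simp
  have ky : 0 < p.κ * p.ye := by positivity
  constructor
  · unfold Pm.muG
    rcases le_total √p.ye σ with e | e
    · rw [gS_lo e]; linarith
    · rw [gS_hi b.le e, ← m1]
      refine mul_le_mul_of_nonneg_left ?_ ky.le
      nlinarith
  · have : gS σ p.ye ≤ p.ye := sub_le_self _ (sq_nonneg _)
    have := mul_le_mul_of_nonneg_left this ky.le
    unfold Pm.muG
    nlinarith [mul_le_mul_of_nonneg_left (mul_le_one₀ y1 b.le y1) a.le]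

theorem mt_mem (x : Ctx β c0 C0 K η' p) {μ : ℝ} (h0 : p.μ0 ≤ μ) (h1 : μ ≤ p.κ) :
    p.μ0 ≤ p.mt μ ∧ p.mt μ ≤ p.κ :=
  ⟨h0.trans (Pm.le_mt x.κ_pos x.κ_le_one (x.μ0_pos.le.trans h0)), (Pm.mt_le' μ).trans (max_le h1
    (mul_le_of_le_one_right x.κ_pos.le (rpow_le_one_of_one_le_of_nonpos x.one_le_n (by norm_num))))⟩

end Sw2

open Sw2

/-- **the snap of the grid** -/
theorem swGB_of {β : ℝ} (hβ : 1 < β) (hL : Loss β LegSw) : Gain β SwGB :=
  hL.gainF (Par.intro' 3 one_pos fun c0 C0 A c h0 h1 hA _ _ => by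
    obtain ⟨K, c2, -, H⟩ := Plt13.fin_nm hβ c0 C0 h0 h1
    refine ⟨1 / 4, by norm_num, 1 / 2, by norm_num, max K (2 * (624 * β ^ 2 + 1)),
      fun p hpA _ x hL σ σ' P P' o hP hP' => ?_⟩
    have N := (H p (x.mono (le_max_left _ _) (by norm_num))).2
    have k := (le_max_right _ _).trans x.big.le_rpow
    have m := muG_mem x o.1
    have m' := muG_mem x (o.1.trans o.2.1)
    have n := N _ (mt_mem x m.1 m.2).1 (mt_mem x m.1 m.2).2
    have n' := N _ (mt_mem x m'.1 m'.2).1 (mt_mem x m'.1 m'.2).2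
    obtain ⟨hj, L, hb, t⟩ := hL σ σ' P P' 1 o hP hP' ⟨zero_le_one, le_rfl⟩
    obtain ⟨-, L', -, t'⟩ := hL σ' σ' P' P' 1 (octR_self o (sg0_pos x).le) hP' hP'
      ⟨zero_le_one, le_rfl⟩
    rw [mix_self hP'.g] at L' t'
    have np := x.n_pos
    have v0 := n.v0
    have S := snp (om := p.omG σ') (b := p.bG σ') ((gd_of n hP).mix P' 1) (gd_of n' hP')
      (mix_one_hs P P').symm hj (by positivity)
      (by rw [mix_one_hs]; exact hs_mono n' hP' (x.μ0_pos.le.trans m'.1)) L L' t t'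
    refine ⟨_, stage_snap S (by exact_mod_cast np) x.ok.s1 L L' (by simpa [Pm.gst, Pm.famO] using hb) ?_,
      Or.inr rfl⟩
    have v := x.v_le (k := 3) (by rw [hpA]; exact_mod_cast hA)
    have e1 : (p.n : ℝ) * (p.n : ℝ) ^ (-(3 : ℝ)) = (p.n : ℝ) ^ (-(2 : ℝ)) := by
      rw [← rpow_one_add' np.le (by norm_num)]; norm_num
    have e2 : (p.n : ℝ) * (p.n : ℝ) ^ (-(2 : ℝ)) * (p.n : ℝ) ^ ((1 : ℝ) / 4) *
        (p.n : ℝ) ^ ((1 : ℝ) / 4) = (p.n : ℝ) ^ (-(1 / 2 : ℝ)) := by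
      rw [← rpow_one_add' np.le (by norm_num), ← rpow_add np, ← rpow_add np]; norm_num
    have e3 : 1 ≤ (p.n : ℝ) ^ ((1 : ℝ) / 6) := one_le_rpow x.one_le_n (by norm_num)
    have p2 : 0 < (p.n : ℝ) ^ (-(2 : ℝ)) := by positivity
    have p4 : 0 < (p.n : ℝ) ^ ((1 : ℝ) / 4) := by positivity
    have a1 : 624 * p.n * p.v + (p.n : ℝ) ^ (-(2 : ℝ)) ≤
        (624 * β ^ 2 + 1) * (p.n : ℝ) ^ (-(2 : ℝ)) := by
      have := mul_le_mul_of_nonneg_left v np.le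
      rw [mul_left_comm, e1] at this
      linarith
    calc _ ≤ 2 * p.n * ((624 * β ^ 2 + 1) * (p.n : ℝ) ^ (-(2 : ℝ)) * (p.n : ℝ) ^ ((1 : ℝ) / 4)) := by
          rw [mul_zero, zero_add]; gcongr
      _ = p.n * (p.n : ℝ) ^ (-(2 : ℝ)) * (p.n : ℝ) ^ ((1 : ℝ) / 4) * (2 * (624 * β ^ 2 + 1)) := by
          ring
      _ ≤ p.n * (p.n : ℝ) ^ (-(2 : ℝ)) * (p.n : ℝ) ^ ((1 : ℝ) / 4) * (p.n : ℝ) ^ ((1 : ℝ) / 4) := by
          gcongr
      _ ≤ _ := by rw [e2]; exact le_mul_of_one_le_right (by positivity) e3)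

/-- **the switch from its two halves** -/
theorem swG_of {β : ℝ} (hA : Gain β SwGA) (hB : Gain β SwGB) : Gain β SwG := by
  have mA : Mo fun δ p => 0 ≤ p.s → SwGA δ p := fun x x' p _ h H hs σ σ' P P' o hP hP' =>
    (H hs σ σ' P P' o hP hP').mono82 hs h
  have mB : Mo fun δ p => 0 ≤ p.s → SwGB δ p := fun x x' p _ h H hs σ σ' P P' o hP hP' =>
    (H hs σ σ' P P' o hP hP').mono82 hs h
  have k := (hA.mono fun _ p _ _ H (_ : 0 ≤ p.s) => H).and
    (hB.mono fun _ p _ _ H (_ : 0 ≤ p.s) => H) mA mB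
  refine k.impF (Loss.triv β) (Par.triv.mono fun c0 C0 _ _ _ _ _ _ _ _ c1 h1 =>
    ⟨c1 / 2, by positivity, c1 / 2, by positivity, 2, fun p _ _ x ⟨a, b⟩ _ σ σ' P P' o hP hP' => ?_⟩)
  have hs := x.s_pos.le
  have np := x.n_pos
  have d0 : 0 ≤ (p.n : ℝ) ^ (-c1) := by positivity
  refine ((a hs σ σ' P P' o hP hP').trans82 hs d0 d0 (b hs σ σ' P P' o hP hP')).mono82 hs ?_
  have e : (p.n : ℝ) ^ (c1 / 2) * (p.n : ℝ) ^ (-c1) = (p.n : ℝ) ^ (-(c1 / 2)) := by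
    rw [← rpow_add np]; congr 1; ring
  rw [← e, ← two_mul]
  exact mul_le_mul_of_nonneg_right x.big.le_rpow d0

end Crest.Agent.T156.Alt

end
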