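import Crest.Agent.T156.SwG_2
import Crest.Agent.T156.PlO_13
import Crest.Agent.T156.AltPG_3

/-!
# Row 156: the size of the switch of the static field (helper2)
-/

set_option autoImplicit false

noncomputable section

namespace Crest.Agent.T156.Alt.Sw2

open Real Set Crest.Agent.T157.Nm Plt13

variable {p : Pm} {β c0 C0 K η μ μ' ν ν' x : ℝ}

theorem gS_sg {σ σ' : ℝ} (y : ℝ) (h : σ ≤ σ') : gS σ y ≤ gS σ' y := by
  have a : max 0 (√y - σ') ≤ max 0 (√y - σ) := max_le_max le_rfl (by linarith)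
  have := pow_le_pow_left₀ (le_max_left _ _) a 2
  unfold gS; linarith

theorem gS_four {σ σ' y : ℝ} (h0 : 0 ≤ σ) (h1 : 0 ≤ σ') (h : σ' ≤ 2 * σ) (hy : 0 ≤ y) :
    gS σ' y ≤ 4 * gS σ y := by
  have a := PG3.gS_ge h0 hy
  have b := PG3.gS_le σ' y
  have c := PG3.gS_le_two h1 hy
  have d := mul_le_mul_of_nonneg_right h (sqrt_nonneg y)
  rcases min_cases y (σ * √y) with ⟨e, _⟩ | ⟨e, _⟩ <;> rw [e] at a <;> nlinarith

theorem muG_oct (X : Ctx β c0 C0 K η p) {σ σ' : ℝ} (o : p.OctR σ σ') :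
    p.muG σ ≤ p.muG σ' ∧ p.muG σ' ≤ 4 * p.muG σ := by
  have k : 0 ≤ p.κ * p.ye := mul_nonneg X.κ_pos.le X.ye_pos.le
  have s := (sg0_pos X).le.trans o.1
  have a := mul_le_mul_of_nonneg_left (gS_sg p.ye o.2.1) k
  have b := mul_le_mul_of_nonneg_left (gS_four s (s.trans o.2.1) o.2.2.1 X.ye_pos.le) k
  unfold Pm.muG
  exact ⟨a, by linarith⟩

theorem mt_oct (hκ : 0 < p.κ) (h1 : μ ≤ μ') (h2 : μ' ≤ 4 * μ) :
    p.mt μ ≤ p.mt μ' ∧ p.mt μ' ≤ 4 * p.mt μ := by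
  have k : 0 < p.κ ^ 3 := pow_pos hκ 3
  have w : 0 ≤ p.κ * (p.n : ℝ) ^ (-(1 : ℝ) / 3) := by positivity
  refine ⟨min_le_min (div_le_div_of_nonneg_right h1 k.le) (max_le_max h1 le_rfl), ?_⟩
  unfold Pm.mt
  rw [mul_min_of_nonneg _ _ (by norm_num), mul_max_of_nonneg _ _ (by norm_num), ← mul_div_assoc]
  exact min_le_min (div_le_div_of_nonneg_right h2 k.le) (max_le_max h2 (by linarith))

theorem la_anti (hn : (0 : ℝ) < p.n) (h0 : 0 < ν) (h : ν ≤ ν') : p.la ν' ≤ p.la ν := by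
  have a : 0 < p.mu' ν := mul_pos h0 (rpow_pos_of_pos hn _)
  have b : p.mu' ν ≤ p.mu' ν' := mul_le_mul_of_nonneg_right h (by positivity)
  exact mul_le_mul_of_nonneg_left (min_le_min (rpow_le_rpow_of_nonpos a b (by norm_num))
    (rpow_le_rpow_of_nonpos a b (by norm_num))) (by positivity)

theorem la_sq (hn : (0 : ℝ) < p.n) (h0 : 0 < ν) :
    ν * p.la ν ^ 2 ≤ (p.n : ℝ) ^ (-(2 / 3) - p.c) := by
  have En := Eb.log hn
  have Eν := Eb.log h0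
  have Em : Eb (p.mu' ν) _ := Eν.mul En.rpow
  have El : Eb (p.la ν) _ := En.rpow.mul (Em.rpow.min Em.rpow)
  rw [(Eν.mul El.pow).le_iff En.rpow]
  have := min_le_right (-(1 : ℝ) / 3 * (log ν + (1 : ℝ) / 3 * log p.n))
    (-(1 : ℝ) / 2 * (log ν + (1 : ℝ) / 3 * log p.n))
  push_cast
  linarith

theorem u0_small (X : Ctx β c0 C0 K η p) (h : p.μ0 ≤ ν) :
    u0 p ν ≤ (p.n : ℝ) ^ (-(1 / 30 : ℝ)) := by
  have En := X.En
  have Eν := Eb.log (X.μ0_pos.trans_le h)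
  have a0 := (X.Eμ0.le_iff Eν).1 h
  have Em : Eb (p.mu' ν) _ := Eν.mul En.rpow
  have El : Eb (p.la ν) _ := En.rpow.mul (Em.rpow.min Em.rpow)
  have Eu : Eb (u0 p ν) _ := El.rpow
  rw [Eu.le_iff En.rpow]
  have := min_le_left (-(1 : ℝ) / 3 * (log ν + (1 : ℝ) / 3 * log p.n))
    (-(1 : ℝ) / 2 * (log ν + (1 : ℝ) / 3 * log p.n))
  linarith [X.cl_le, X.cl_pos, X.l2]

/-- below `xs` -/
theorem rF_lo (h : Nm p ν) (K1 : 1 ≤ K) (hK : p.xs ≤ 1 - 1 / K) (hx : x ≤ p.xs) :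
    |p.rF ν x| ≤ 2 * K * u0 p ν ∧
      (x + log p.n * u0 p ν ≤ p.xs → |p.rF ν x| ≤ 2 * K * p.la ν) := by
  have K0 : 0 < K := by linarith
  have i := one_div_pos.2 K0
  have i1 : 1 / K ≤ 1 := (div_le_one K0).2 K1
  have x1 : x < 1 := by linarith
  have a := h.rF_bd x1
  have s : 1 / K ≤ √(1 - x) := le_sqrt_of_sq_le (by nlinarith)
  have b := div_le_div_of_nonneg_left h.lp.le i s
  rw [div_div_eq_mul_div, div_one] at b
  have c := mul_le_mul_of_nonneg_left h.l_le_u0 K0.le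
  have d := mul_le_mul_of_nonneg_right K1 h.u0p.le
  have e := mul_pos K0 h.lp
  refine ⟨abs_le.2 ⟨by linarith [a.1, h.u0p], by linarith [a.2.2]⟩, fun hz =>
    abs_le.2 ⟨?_, by linarith [a.2.2]⟩⟩
  have t := (h.top_bd x1).1
  unfold Pm.rF
  rw [rB_eq, Rs13.r1_zero h.lp (by linarith [h.l1]) hz]
  linarith

/-- two masses on an octave -/
structure Tm (p : Pm) (μ μ' ν ν' : ℝ) : Prop where
  n : Nm p ν
  n' : Nm p ν'
  c : Cp p ν ν'
  l : p.la ν' ≤ p.la ν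
  m0 : 0 ≤ μ
  m1 : μ ≤ μ'

/-- the switch -/
def ps (p : Pm) (μ μ' ν ν' x : ℝ) : ℝ := μ' * p.rF ν' x - μ * p.rF ν x

namespace Tm

variable (T : Tm p μ μ' ν ν')
include T

theorem u : u0 p ν' ≤ u0 p ν := rpow_le_rpow T.n'.lp.le T.l (by norm_num)

theorem abs_ps {a b : ℝ} (h1 : |p.rF ν x| ≤ a) (h2 : |p.rF ν' x| ≤ b) :
    |ps p μ μ' ν ν' x| ≤ μ' * (a + b) := by
  have m := T.m0.trans T.m1
  have d := abs_sub (μ' * p.rF ν' x) (μ * p.rF ν x)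
  rw [abs_mul, abs_mul, abs_of_nonneg T.m0, abs_of_nonneg m] at d
  have a1 := mul_le_mul T.m1 h1 (abs_nonneg _) m
  have a2 := mul_le_mul_of_nonneg_left h2 m
  unfold ps; linarith

theorem p0 (h1 : x ≤ 1 / 2) (h2 : x + log p.n * u0 p ν ≤ p.xs) : ps p μ μ' ν ν' x = 0 := by
  have := mul_le_mul_of_nonneg_left T.u (zero_le_one.trans T.n.l1)
  rw [ps, T.n.rF_zero h1 h2, T.n'.rF_zero h1 (by linarith)]; ring

theorem p1 (K1 : 1 ≤ K) (hK : p.xs ≤ 1 - 1 / K) (hx : x ≤ p.xs) :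
    |ps p μ μ' ν ν' x| ≤ 9 * K * μ' * u0 p ν := by
  refine (T.abs_ps (rF_lo T.n K1 hK hx).1 (rF_lo T.n' K1 hK hx).1).trans ?_
  have m := T.m0.trans T.m1
  have a := mul_le_mul_of_nonneg_left T.u (by positivity : 0 ≤ K * μ')
  have b : 0 ≤ K * μ' * u0 p ν := by have := T.n.u0p; positivity
  linarith

theorem p2 (K1 : 1 ≤ K) (hK : p.xs ≤ 1 - 1 / K) (hx : x ≤ p.xs)
    (h2 : x + log p.n * u0 p ν ≤ p.xs) : |ps p μ μ' ν ν' x| ≤ 9 * K * μ' * p.la ν := by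
  have := mul_le_mul_of_nonneg_left T.u (zero_le_one.trans T.n.l1)
  refine (T.abs_ps ((rF_lo T.n K1 hK hx).2 h2) ((rF_lo T.n' K1 hK hx).2 (by linarith))).trans ?_
  have m := T.m0.trans T.m1
  have a := mul_le_mul_of_nonneg_left T.l (by positivity : 0 ≤ K * μ')
  have b : 0 ≤ K * μ' * p.la ν := by have := T.n.lp; positivity
  linarith

theorem p3 (K1 : 1 ≤ K) (hx : p.xs ≤ x) (h1 : x < 1) :
    |ps p μ μ' ν ν' x| ≤ 9 * K * μ' * env p ν x := by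
  refine (T.abs_ps (T.n.abs_rF_env hx h1) (abs_rF_cp T.n T.n' T.c hx h1)).trans ?_
  have a := mul_le_mul_of_nonneg_right K1 (mul_nonneg (T.m0.trans T.m1) (T.n.env_nn x))
  linarith

theorem p4 (m1 : μ' ≤ 1) (hx : (p.n : ℝ) ^ (-(3 : ℝ)) ≤ 1 - x) :
    |ps p μ μ' ν ν' x| ≤ 12 * log p.n := by
  refine (T.abs_ps (T.n.abs_rF_log hx) (T.n'.abs_rF_log hx)).trans ?_
  have := mul_le_mul_of_nonneg_right m1 (zero_le_one.trans T.n.l1)
  linarith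

end Tm

theorem tm_of (X : Ctx β c0 C0 K η p) (N : ∀ μ, p.μ0 ≤ μ → μ ≤ p.κ → Nm p μ) {σ σ' : ℝ}
    (o : p.OctR σ σ') :
    Tm p (p.muG σ) (p.muG σ') (p.mt (p.muG σ)) (p.mt (p.muG σ')) := by
  have m := muG_mem X o.1
  have m' := muG_mem X (o.1.trans o.2.1)
  have t := mt_mem X m.1 m.2
  have t' := mt_mem X m'.1 m'.2
  have a := muG_oct X o
  have b := mt_oct X.κ_pos a.1 a.2
  have p0 := X.μ0_pos.trans_le t.1
  exact ⟨N _ t.1 t.2, N _ t'.1 t'.2, cp_of X.n_pos p0 (p0.trans_le b.1) b.2 (by linarith [b.1]),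
    la_anti X.n_pos p0 b.1, X.μ0_pos.le.trans m.1, a.1⟩

theorem shg_congr {y y' : ℕ → ℝ} {N : ℕ} (G : Shg p ν y N) (e : ∀ i ≤ N, y' i = y i) :
    Shg p ν y' N :=
  ⟨by rw [e 0 (Nat.zero_le _)]; exact G.lo,
    fun i hi => by rw [e i hi.le, e (i + 1) hi]; exact G.mono i hi,
    by rw [e N le_rfl]; exact G.hi,
    fun i hi => by rw [e i hi.le, e (i + 1) hi]; exact G.sh i hi⟩

end Crest.Agent.T156.Alt.Sw2

end
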