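import Crest.Agent.T156.Swp_99
import Crest.Agent.T156.CWk_55
import Crest.Agent.T156.Mv_7

/-!
# Row 156: a spin-free marked pair against low letters (helper99)
-/

set_option autoImplicit false
set_option linter.all false

noncomputable section

namespace Crest.Agent.T156.Cas.Swp99

open MeasureTheory Real Set Filter Topology
open Crest.Agent.T157.E Crest.Agent.T157.Casc Crest.Agent.T157.SL
open Wt87 Nu87 R90 Mul55

variable {Ω S : Type} [Fintype Ω] [Fintype S]

/-- the low levels -/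
def lo (J y : ℕ) : ℝ := if 1 ≤ y ∧ y ≤ J then 1 else 0

theorem lo_nn (J y : ℕ) : 0 ≤ lo J y := by unfold lo; split_ifs <;> norm_num

theorem lo_le (J y : ℕ) : lo J y ≤ 1 := by unfold lo; split_ifs <;> norm_num

theorem sum_lo {Θ : Type} (L : List (Lv Θ)) {J : ℕ} (hJ : J ≤ L.length) (g : ℕ → ℝ) :
    ∑ y ∈ Finset.range (L.length + 1), dm L 0 y * (lo J y * g y) =
      ∑ y ∈ Finset.Icc 1 J, dm L 0 y * g y := by
  simp only [lo, ite_mul, one_mul, zero_mul, mul_ite, mul_zero]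
  rw [← Finset.sum_filter]
  refine Finset.sum_congr (Finset.ext fun y => ?_) fun _ _ => rfl
  simp only [Finset.mem_filter, Finset.mem_range, Finset.mem_Icc]
  omega

theorem minj {s : Sh} {n : ℕ} {τ : GT s} (H : τ.Mem s n) : Function.Injective τ.e := by
  cases H with
  | g0 => exact Function.injective_id
  | g1 => exact Tay38.emb_inj _ _ _
  | g1' => exact Tay38.emb_inj _ _ _
  | g2 => exact (Tay38.emb_inj _ _ _).comp (Tay38.emb_inj _ _ _)
  | g3 => exact (Tay38.emb_inj _ _ _).comp (Tay38.emb_inj _ _ _)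

theorem twoR_ne (j : ℕ) : Sh.twoR j ≠ Sh.twoL j := (Tay38.emb_ne .one () j ()).symm

/-- the data of the bulk -/
structure Hy (w : Ω → ℝ) (L : List (Lv Ω)) (h : Ω → ℝ) (R : Ω → Ω → ℝ) (q ω c : ℕ → ℝ)
    (A : Finset ℕ) (J : ℕ) (c₀ X tl Fm x₁ : ℝ) : Prop where
  wt : Wt w
  mono : Mono 0 L
  sy : ∀ x y, R x y = R y x
  r1 : ∀ x y, |R x y| ≤ 1
  q1 : ∀ j ∈ A, |q j| ≤ 1
  lt : J < L.length
  up : ∀ j ∈ A, J < j ∧ j ≤ L.length
  c0 : 0 ≤ c₀
  cl : ∀ y, |c y| ≤ c₀ * lo J y
  X0 : 0 ≤ X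
  X1 : X ≤ 1
  t0 : 0 ≤ tl
  env : ∀ y, 1 ≤ y → y ≤ J → pi2 w L y (fun x z => max (|R x z| - X) 0) h ≤ tl
  fm0 : 0 ≤ Fm
  fm : pE w L h (fun g x =>
    (∑ j ∈ A, ω j * Pf w (L.drop j) (st L j h g) fun z => R z x - q j) ^ 2) ≤ Fm ^ 2
  x1 : ∑ y ∈ Finset.Icc 1 J, dm L 0 y ≤ x₁

variable {w : Ω → ℝ} {L : List (Lv Ω)} {h : Ω → ℝ} {R : Ω → Ω → ℝ} {q ω c : ℕ → ℝ}
  {A : Finset ℕ} {J : ℕ} {c₀ X tl Fm x₁ : ℝ}

/-- the marked pair with a fresh partner -/
def Fr (w : Ω → ℝ) (L : List (Lv Ω)) (h : Ω → ℝ) (R : Ω → Ω → ℝ) (q : ℕ → ℝ) (j : ℕ) (s : Sh)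
    (a : s.Lf) (G : (s.Lf → Ω) → ℝ) : ℝ :=
  TE w (s.graft a j) L h fun x =>
    (R (x (s.nw a j)) (x (s.emb a j a)) - q j) * G fun b => x (s.emb a j b)

namespace Hy
variable (H : Hy w L h R q ω c A J c₀ X tl Fm x₁)
include H

theorem x0 : 0 ≤ x₁ := (Finset.sum_nonneg fun y _ => dm_nonneg H.mono y).trans H.x1

theorem low {y : ℕ} (e : c y ≠ 0) : 1 ≤ y ∧ y ≤ J ∧ lo J y = 1 := by
  have := H.cl y
  unfold lo at this ⊢
  split_ifs at this ⊢ with h1
  · exact ⟨h1.1, h1.2, rfl⟩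
  · exact absurd (abs_nonpos_iff.1 (by simpa using this)) e

/-- one tail -/
theorem tail (s : Sh) (a : s.Lf) {G : (s.Lf → Ω) → ℝ} (hG : ∀ x, |G x| ≤ 1) {ε : ℝ}
    (hε : TE w s L h (fun x => max (|G x| - X ^ 2) 0) ≤ ε) :
    |∑ j ∈ A, ω j * Fr w L h R q j s a G| ≤ X ^ 2 * Fm + ε * (2 * ∑ j ∈ A, |ω j|) := by
  have hw := H.wt
  have X2 := sq_nonneg X
  have e1 : ∀ j (G : (s.Lf → Ω) → ℝ), Fr w L h R q j s a G = tX w s L h fun g x =>
      G x * Pf w (L.drop j) (stT s L h g a j) fun z => R z (x a) - q j := fun j G => by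
    rw [← (Cw55.three hw s L h (fun _ x z => R z x - q j) G a).1 j]
    exact congrArg _ (funext fun x => mul_comm _ _)
  have e2 : ∀ j, Fr w L h R q j s a G = Fr w L h R q j s a (fun x => clp (X ^ 2) (G x)) +
      Fr w L h R q j s a fun x => G x - clp (X ^ 2) (G x) := fun j => by
    rw [Fr, Fr, Fr, ← Law.TE_add hw]
    exact congrArg _ (funext fun x => by ring)
  have eg : ∀ j x, Eg fun z => Pf w (L.drop j) z fun z => R z x - q j := fun j x =>
    Eg.sum _ fun x _ => (eg_P hw _ x).mul_const _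
  have b1 := Cw55.tail_cen hw s a L h (G := fun _ x => clp (X ^ 2) (G x)) (fun _ => Eg.const _) A ω
    (Y := fun j x z => Pf w (L.drop j) z fun z => R z x - q j) eg X2 H.fm0
    ((Law.TE_mono hw s L h fun x => sq_le_sq' (neg_le_of_abs_le (clp_le X2 (G x)).1)
      (le_of_abs_le (clp_le X2 (G x)).1)).trans (Law.TE_const hw s L h _).le) H.fm
  have b2 := Cw55.tail_env hw s a L h (G := fun _ x => G x - clp (X ^ 2) (G x)) (fun _ => Eg.const _)
    A ω (Y := fun j x z => Pf w (L.drop j) z fun z => R z x - q j) eg (A := ε) (A' := 1)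
    (F := 2 * ∑ j ∈ A, |ω j|) (ε := 0) (by positivity) zero_le_one
    ((Law.TE_mono hw s L h fun x => (clp_le X2 (G x)).2.2).trans hε)
    (fun _ x => (clp_le X2 (G x)).2.2.trans (max_le (by linarith [hG x]) zero_le_one))
    (by
      refine le_of_eq ((congrArg _ (funext fun g => funext fun x => max_eq_right ?_)).trans
        (show pE w L h (fun _ _ => 0) = 0 by simp [pE]))
      rw [sub_nonpos, Finset.mul_sum]
      refine (Finset.abs_sum_le_sum_abs _ _).trans (Finset.sum_le_sum fun j hj => ?_)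
      rw [abs_mul, mul_comm]
      refine mul_le_mul_of_nonneg_right ((Finset.abs_sum_le_sum_abs _ _).trans
        ((Finset.sum_le_sum (g := fun y => P w (L.drop j) (st L j h g) y * 2) fun z _ => ?_).trans_eq
          (by rw [← Finset.sum_mul, sum_P hw, one_mul]))) (abs_nonneg _)
      rw [abs_mul, abs_of_nonneg (P_nonneg hw _ _ z)]
      exact mul_le_mul_of_nonneg_left (by linarith [abs_sub (R z x) (q j), H.r1 z x, H.q1 j hj])
        (P_nonneg hw _ _ z))
  simp only [e2, mul_add, Finset.sum_add_distrib]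
  simp only [e1]
  linarith [abs_add_le (∑ j ∈ A, ω j * tX w s L h fun g x => clp (X ^ 2) (G x) *
    Pf w (L.drop j) (stT s L h g a j) fun z => R z (x a) - q j) (∑ j ∈ A, ω j * tX w s L h fun g x =>
      (G x - clp (X ^ 2) (G x)) * Pf w (L.drop j) (stT s L h g a j) fun z => R z (x a) - q j)]

/-- two low edges: the excess -/
theorem exc2 (s : Sh) {p₁ q₁ p₂ q₂ : s.Lf} (n₁ : p₁ ≠ q₁) (n₂ : p₂ ≠ q₂)
    (c₁ : c (s.shr p₁ q₁ L.length) ≠ 0) (c₂ : c (s.shr p₂ q₂ L.length) ≠ 0) :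
    TE w s L h (fun x => max (|R (x p₁) (x q₁) * R (x p₂) (x q₂)| - X ^ 2) 0) ≤ 2 * tl := by
  have a1 := H.env _ (H.low c₁).1 (H.low c₁).2.1
  have a2 := H.env _ (H.low c₂).1 (H.low c₂).2.1
  rw [← TE_pair H.wt s L h n₁] at a1
  rw [← TE_pair H.wt s L h n₂] at a2
  refine (Law.TE_mono H.wt s L h (G := fun x => max (|R (x p₁) (x q₁)| - X) 0 +
    max (|R (x p₂) (x q₂)| - X) 0) fun x => ?_).trans (by rw [Law.TE_add H.wt]; linarith)
  have h1 := H.r1 (x p₂) (x q₂)
  have h2 := abs_nonneg (R (x p₂) (x q₂))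
  have h3 := le_max_left (|R (x p₁) (x q₁)| - X) 0
  have h4 := le_max_right (|R (x p₁) (x q₁)| - X) 0
  have h5 := le_max_left (|R (x p₂) (x q₂)| - X) 0
  have h6 := le_max_right (|R (x p₂) (x q₂)| - X) 0
  rw [abs_mul]
  refine max_le ?_ (by linarith)
  nlinarith [mul_le_mul_of_nonneg_right h3 h2, mul_le_mul_of_nonneg_left h5 H.X0,
    mul_le_mul_of_nonneg_left h1 h4, mul_le_mul_of_nonneg_right H.X1 h6]

/-- two low edges: the replacement -/
theorem rep2 (s : Sh) {a b p₁ q₁ p₂ q₂ : s.Lf} {j : ℕ} (hJ : J < j) (hab : a ≠ b)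
    (e : s.shr a b L.length = j) (n₁ : p₁ ≠ q₁) (n₂ : p₂ ≠ q₂)
    (c₁ : c (s.shr p₁ q₁ L.length) ≠ 0) (c₂ : c (s.shr p₂ q₂ L.length) ≠ 0) :
    |TE w s L h (fun x => (R (x b) (x a) - q j) * (R (x p₁) (x q₁) * R (x p₂) (x q₂))) -
      Fr w L h R q j s a fun x => R (x p₁) (x q₁) * R (x p₂) (x q₂)| ≤ 4 * vU w L h R j j +
        2 * vU w L h R (s.shr p₁ q₁ L.length) j + 2 * vU w L h R (s.shr p₂ q₂ L.length) j := by
  have l₁ := (H.low c₁).2.1
  have l₂ := (H.low c₂).2.1
  have := rep (L := L) (h := h) H.wt R R (pt := fun i : Bool × Bool => (i.1, !i.2))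
    (fun i => by rcases i with ⟨_ | _, _ | _⟩ <;> decide)
    (G := fun y => R (y (false, false)) (y (false, true)) * R (y (true, false)) (y (true, true)))
    (c := 1) one_pos (fun y i z => by
      have k : ∀ u v t : ℝ, |t| ≤ 1 → |u * t - v * t| ≤ 1 * |u - v| ∧ |t * u - t * v| ≤ 1 * |u - v| :=
        fun u v t ht => by
          rw [← sub_mul, ← mul_sub, abs_mul, abs_mul, mul_comm |t|, one_mul, and_self]
          exact mul_le_of_le_one_right (abs_nonneg _) ht
      rcases i with ⟨_ | _, _ | _⟩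
      · simpa using (k _ _ _ (H.r1 _ _)).1
      · simpa [H.sy (y (false, false))] using (k _ _ _ (H.r1 _ _)).1
      · simpa using (k _ _ _ (H.r1 _ _)).2
      · simpa [H.sy (y (true, false))] using (k _ _ _ (H.r1 _ _)).2) s hab e
    (mk := fun i => cond i.1 (cond i.2 q₂ p₂) (cond i.2 q₁ p₁))
    (fun i => by
      rcases i with ⟨_ | _, _ | _⟩
      exacts [n₁, n₁.symm, n₂, n₂.symm])
    fun i => by
      rcases i with ⟨_ | _, _ | _⟩ <;> simp only [cond, Bool.not_true, Bool.not_false, shr_comm s q₁,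
        shr_comm s q₂] <;> omega
  simp only [Fintype.sum_prod_type, Fintype.sum_bool, cond, Bool.not_true, Bool.not_false,
    shr_comm s q₁ p₁, shr_comm s q₂ p₂] at this
  simp only [Fr, sub_mul, Law.TE_sub H.wt, Law.TE_const_mul H.wt]
  rw [TE_emb H.wt s a j L h fun x => R (x p₁) (x q₁) * R (x p₂) (x q₂), sub_sub_sub_cancel_right]
  linarith

/-- weights of one low edge -/
theorem w1 (s : Sh) (hs : ∀ a b : s.Lf, a ≠ b → J < s.shr a b L.length) (hc : Fintype.card s.Lf ≤ 2)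
    {g : ℕ → ℝ} (hg : ∀ y, 0 ≤ g y) : Nv L (fun y => lo J y * g y) s =
      ∑ y ∈ Finset.Icc 1 J, dm L 0 y * g y := by
  rw [Nv, sum_lo L H.lt.le, prs, Finset.sum_eq_zero fun a _ => Finset.sum_eq_zero fun b _ => ?_,
    zero_add]
  split_ifs with e
  · rfl
  · have := hs a b e
    rw [lo, if_neg (by omega), zero_mul]

theorem two_hi {j : ℕ} (hj : j ∈ A) (a b : (Sh.two j).Lf) (e : a ≠ b) :
    J < (Sh.two j).shr a b L.length := by
  have := H.up j hj
  rcases two_cases j a with rfl | rfl <;> rcases two_cases j b with rfl | rfl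
  · exact absurd rfl e
  · rw [shr_two]; omega
  · rw [shr_comm, shr_two]; omega
  · exact absurd rfl e

end Hy

/-- the valuation of two low letters -/
def V2 (w : Ω → ℝ) (L : List (Lv Ω)) (h : Ω → ℝ) (R : Ω → Ω → ℝ) (q c : ℕ → ℝ) (w₂ : S → ℝ)
    (T : List (Lv S)) (h₂ : S → ℝ) (Z : ℕ → S → S → ℝ) (j : ℕ) :
    Val (Option (Option (Option (Option Unit)))) := fun s m =>
  c (s.shr (m (some (some (some none)))) (m (some (some none))) L.length) *
    c (s.shr (m (some none)) (m none) L.length) *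
  Fr w L h R q j s (m (some (some (some (some ())))))
    (fun x => R (x (m (some (some (some none))))) (x (m (some (some none)))) *
      R (x (m (some none))) (x (m none))) *
  TE w₂ s T h₂ fun x => Z (s.shr (m (some (some (some none)))) (m (some (some none))) T.length)
    (x (m (some (some (some none))))) (x (m (some (some none)))) *
      Z (s.shr (m (some none)) (m none) T.length) (x (m (some none))) (x (m none))

variable {w₂ : S → ℝ} {T : List (Lv S)} {h₂ : S → ℝ} {Z : ℕ → S → S → ℝ} {z : ℝ}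

theorem inv_V2 (hw : Wt w) (hw₂ : Wt w₂) (hT : T.length = L.length) (j : ℕ) :
    Inv L.length (V2 w L h R q c w₂ T h₂ Z j) :=
  (((inv_lev _ _ _ c).mul (inv_lev _ _ _ c)).mul (inv_gr hw (some (some (some (some ())))) j
    fun _ y => (R (y none) (y (some (some (some (some (some ())))))) - q j) *
      (R (y (some (some (some (some none))))) (y (some (some (some none)))) *
        R (y (some (some none))) (y (some none))))).mul (hT ▸ inv_TE hw₂ fun σ y =>
          Z (σ (some (some (some none))) (some (some none))) (y (some (some (some none))))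
            (y (some (some none))) * Z (σ (some none) none) (y (some none)) (y none))

theorem abs_site (hw₂ : Wt w₂) (hZ : ∀ y, c y ≠ 0 → ∀ a b, |Z y a b| ≤ z) (s : Sh) {y y' : ℕ}
    (hy : c y ≠ 0) (hy' : c y' ≠ 0) (a b a' b' : s.Lf) :
    |TE w₂ s T h₂ fun x => Z y (x a) (x b) * Z y' (x a') (x b')| ≤ z ^ 2 :=
  (abs_TE_le' hw₂ s T h₂ fun x => by
    rw [abs_mul, sq]
    exact mul_le_mul (hZ _ hy _ _) (hZ _ hy' _ _) (abs_nonneg _)
      ((abs_nonneg _).trans (hZ y hy (x a) (x b)))).trans (Law.TE_const hw₂ s T h₂ _).le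

/-- **a spin-free marked pair against two low letters** -/
theorem Hy.two_le (H : Hy w L h R q ω c A J c₀ X tl Fm x₁) (hw₂ : Wt w₂) (hT : T.length = L.length)
    (hZ : ∀ y, c y ≠ 0 → ∀ a b, |Z y a b| ≤ z) :
    |∑ j ∈ A, ω j * wB (-1) L (fun s G ξ => TE w s L h G * TE w₂ s T h₂ ξ)
      [(fun y x x' => c y * R x x', Z), (fun y x x' => c y * R x x', Z)] (Sh.two j)
        (pr2 j fun x x' => R x x' - q j) fun _ => 1| ≤ 10 ^ 5 * (c₀ ^ 2 * z ^ 2) *
      (x₁ * (X ^ 2 * Fm + tl * ∑ j ∈ A, |ω j|) + ∑ j ∈ A, |ω j| * (x₁ * vU w L h R j j +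
        ∑ y ∈ Finset.Icc 1 J, dm L 0 y * vU w L h R y j)) := by
  have hw := H.wt
  have cK : c L.length = 0 := by_contra fun e => by have := (H.low e).2.1; have := H.lt; omega
  have cz : 0 ≤ c₀ ^ 2 * z ^ 2 := by positivity
  have cc : ∀ y y', |c y * c y'| ≤ c₀ ^ 2 * (lo J y * lo J y') := fun y y' => by
    rw [abs_mul, sq, mul_mul_mul_comm]
    exact mul_le_mul (H.cl y) (H.cl y') (abs_nonneg _) (mul_nonneg H.c0 (lo_nn J y))
  have d2 : ∀ j s m, m none = m (some none) → V2 w L h R q c w₂ T h₂ Z j s m = 0 := fun j s m e => by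
    simp only [V2, e, shr_self, cK, mul_zero, zero_mul]
  have d1 : ∀ j s m, m (some (some none)) = m (some (some (some none))) →
      V2 w L h R q c w₂ T h₂ Z j s m = 0 := fun j s m e => by
    simp only [V2, e, shr_self, cK, zero_mul]
  have I : ∀ j, Inv L.length (SG L (SG L (V2 w L h R q c w₂ T h₂ Z j))) := fun j =>
    ((inv_V2 hw hw₂ hT j).sg (d2 j)).sg (SG_zero (d1 j))
  have v0 := fun y t => vU_nonneg (L := L) (h := h) hw R y t
  -- the replacement
  have E : ∀ j ∈ A, |wB (-1) L (fun s G ξ => TE w s L h G * TE w₂ s T h₂ ξ)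
      [(fun y x x' => c y * R x x', Z), (fun y x x' => c y * R x x', Z)] (Sh.two j)
        (pr2 j fun x x' => R x x' - q j) (fun _ => 1) -
      SG L (SG L (V2 w L h R q c w₂ T h₂ Z j)) .one fun _ => ()| ≤ 10 ^ 5 * (c₀ ^ 2 * z ^ 2) *
        (x₁ * vU w L h R j j + ∑ y ∈ Finset.Icc 1 J, dm L 0 y * vU w L h R y j) := fun j hj => by
    have hj' := H.up j hj
    rw [← I j (Sh.two j) (fun _ => Sh.twoR j) .one (fun _ => ())
      ⟨fun _ _ => iff_of_true rfl rfl, fun _ _ => (shr_self _ _ _).trans (shr_self _ _ _).symm⟩,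
      wB, SG, ← sg_sub]
    have g1 : ∀ y, 0 ≤ lo J y * (4 * vU w L h R j j + 2 * vU w L h R y j) := fun y =>
      mul_nonneg (lo_nn J y) (by linarith [v0 j j, v0 y j])
    have g2 : ∀ y, 0 ≤ lo J y * (2 * vU w L h R y j) := fun y =>
      mul_nonneg (lo_nn J y) (by linarith [v0 y j])
    refine (abs_sg_le H.mono _ (Ψ := fun τ => c₀ ^ 2 * z ^ 2 *
      (64 * (lo J τ.j * (4 * vU w L h R j j + 2 * vU w L h R τ.j j)) +
        160 * Nv L (fun y => lo J y * (2 * vU w L h R y j)) τ.sh)) fun τ hτ => ?_).trans ?_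
    · have cd : Fintype.card τ.sh.Lf ≤ 4 := hτ.card.trans (by rw [card_two])
      rw [wB, SG, ← sg_sub]
      refine (abs_sg_le H.mono _ (Ψ := fun τ' => c₀ ^ 2 * z ^ 2 *
        (lo J τ.j * (4 * vU w L h R j j + 2 * vU w L h R τ.j j) +
          lo J τ'.j * (2 * vU w L h R τ'.j j))) fun τ' hτ' => ?_).trans ?_
      · have s1 : τ'.sh.shr (τ'.e τ.p) (τ'.e τ.q) L.length = τ.j := (hτ'.shr_e _ _ _).trans hτ.shr
        have s2 := hτ'.shr
        have e1 : TE w τ'.sh L h (τ'.ev (fun y x x' => c y * R x x') (τ.ev (fun y x x' => c y * R x x')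
            (pr2 j fun x x' => R x x' - q j))) = c τ.j * c τ'.j * TE w τ'.sh L h fun x =>
              (R (x (τ'.e (τ.e (Sh.twoL j)))) (x (τ'.e (τ.e (Sh.twoR j)))) - q j) *
                (R (x (τ'.e τ.p)) (x (τ'.e τ.q)) * R (x τ'.p) (x τ'.q)) := by
          rw [← Law.TE_const_mul hw]
          exact congrArg _ (funext fun x => by simp only [GT.ev, pr2]; ring)
        have e2 : TE w₂ τ'.sh T h₂ (τ'.ev Z (τ.ev Z fun _ => 1)) = TE w₂ τ'.sh T h₂ fun x =>
            Z τ.j (x (τ'.e τ.p)) (x (τ'.e τ.q)) * Z τ'.j (x τ'.p) (x τ'.q) :=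
          congrArg _ (funext fun x => by simp only [GT.ev, one_mul])
        simp only [wB, V2, tmk, ad_none, ad_some, hT, s1, s2, e1, e2]
        rw [← sub_mul, ← mul_sub, abs_mul, abs_mul]
        by_cases c1 : c τ.j = 0
        · rw [c1, zero_mul, abs_zero, zero_mul, zero_mul]
          exact mul_nonneg cz (add_nonneg (g1 _) (g2 _))
        by_cases c2 : c τ'.j = 0
        · rw [c2, mul_zero, abs_zero, zero_mul, zero_mul]
          exact mul_nonneg cz (add_nonneg (g1 _) (g2 _))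
        have r := H.rep2 τ'.sh (a := τ'.e (τ.e (Sh.twoR j))) (b := τ'.e (τ.e (Sh.twoL j)))
          (p₁ := τ'.e τ.p) (q₁ := τ'.e τ.q) hj'.1 ((minj hτ').ne ((minj hτ).ne (twoR_ne j)))
          (by rw [hτ'.shr_e, hτ.shr_e, shr_comm, shr_two, min_eq_left hj'.2])
          ((minj hτ').ne hτ.ne) hτ'.ne (s1 ▸ c1) (s2 ▸ c2)
        rw [s1, s2] at r
        have k := cc τ.j τ'.j
        rw [(H.low c1).2.2, (H.low c2).2.2] at k ⊢
        refine (mul_le_mul (mul_le_mul k r (abs_nonneg _) (by positivity))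
          (abs_site hw₂ hZ _ c1 c2 _ _ _ _) (abs_nonneg _)
          (mul_nonneg (by positivity) ((abs_nonneg _).trans r))).trans_eq (by ring)
      · rw [sg_const_mul, sg_add]
        refine mul_le_mul_of_nonneg_left (add_le_add ((Ker15.sg_le L _ cd (g1 _)).trans_eq
          (by norm_num)) ((Ker15.sg_lvl H.mono _ g2).trans (mul_le_mul_of_nonneg_right ?_
            (Tay38.Nv_nonneg H.mono g2 _)))) cz
        have : (Fintype.card τ.sh.Lf : ℝ) ≤ 4 := by exact_mod_cast cd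
        nlinarith [(Nat.cast_nonneg (Fintype.card τ.sh.Lf) : (0 : ℝ) ≤ _)]
    · have a1 := Ker15.sg_lvl H.mono (Sh.two j) g1
      have a2 := Apt7.sg_Nv H.mono j g2
      rw [H.w1 _ (H.two_hi hj) (card_two j).le fun y => by linarith [v0 j j, v0 y j], card_two] at a1
      rw [H.w1 _ (H.two_hi hj) (card_two j).le fun y => by linarith [v0 y j]] at a2
      simp only [mul_add, mul_left_comm (dm L 0 _), Finset.sum_add_distrib, ← Finset.mul_sum,
        ← Finset.sum_mul] at a1 a2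
      have a3 := mul_le_mul_of_nonneg_right H.x1 (v0 j j)
      have a4 : 0 ≤ ∑ y ∈ Finset.Icc 1 J, dm L 0 y * vU w L h R y j :=
        Finset.sum_nonneg fun y _ => mul_nonneg (dm_nonneg H.mono y) (v0 y j)
      have a5 := mul_nonneg H.x0 (v0 j j)
      rw [sg_const_mul, sg_add, sg_const_mul, sg_const_mul, mul_comm (10 ^ 5 : ℝ),
        mul_assoc (c₀ ^ 2 * z ^ 2)]
      refine mul_le_mul_of_nonneg_left ?_ cz
      simp only [mul_add]
      push_cast at a1
      linarith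
  -- the main part
  have M : |∑ j ∈ A, ω j * SG L (SG L (V2 w L h R q c w₂ T h₂ Z j)) .one fun _ => ()| ≤
      10 ^ 5 * (c₀ ^ 2 * z ^ 2) * (x₁ * (X ^ 2 * Fm + tl * ∑ j ∈ A, |ω j|)) := by
    have sw : 0 ≤ ∑ j ∈ A, |ω j| := Finset.sum_nonneg fun _ _ => abs_nonneg _
    have B0 : 0 ≤ X ^ 2 * Fm + 2 * tl * (2 * ∑ j ∈ A, |ω j|) :=
      add_nonneg (mul_nonneg (sq_nonneg _) H.fm0) (mul_nonneg (by linarith [H.t0]) (by linarith))
    generalize hB : X ^ 2 * Fm + 2 * tl * (2 * ∑ j ∈ A, |ω j|) = B at B0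
    have g1 : ∀ y, 0 ≤ lo J y * B := fun y => mul_nonneg (lo_nn J y) B0
    refine (congrArg abs (SG_sum L A ω _ .one _)).trans_le ?_
    simp only [SG_sum]
    refine (abs_sg_le H.mono _ (Ψ := fun τ => c₀ ^ 2 * z ^ 2 * 36 * (lo J τ.j * B))
      fun τ hτ => ?_).trans ?_
    · have cd : Fintype.card τ.sh.Lf ≤ 3 := hτ.card
      refine (abs_sg_le H.mono _ (Ψ := fun _ => c₀ ^ 2 * z ^ 2 * (lo J τ.j * B))
        fun τ' hτ' => ?_).trans ((Ker15.sg_le L _ cd (mul_nonneg cz (g1 _))).trans_eq (by ring))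
      have s1 : τ'.sh.shr (τ'.e τ.p) (τ'.e τ.q) L.length = τ.j := (hτ'.shr_e _ _ _).trans hτ.shr
      have s2 := hτ'.shr
      simp only [V2, tmk, ad_none, ad_some, hT, s1, s2]
      rw [show ∀ (u v : ℝ) (F : ℕ → ℝ), ∑ j ∈ A, ω j * (u * F j * v) = u * (∑ j ∈ A, ω j * F j) * v
        from fun u v F => by
          rw [Finset.mul_sum, Finset.sum_mul]
          exact Finset.sum_congr rfl fun _ _ => by ring]
      by_cases c1 : c τ.j = 0
      · rw [c1, zero_mul, zero_mul, zero_mul, abs_zero]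
        exact mul_nonneg cz (g1 _)
      by_cases c2 : c τ'.j = 0
      · rw [c2, mul_zero, zero_mul, zero_mul, abs_zero]
        exact mul_nonneg cz (g1 _)
      have r := H.tail τ'.sh (τ'.e (τ.e ())) (fun x => by
        rw [abs_mul]; exact mul_le_one₀ (H.r1 _ _) (abs_nonneg _) (H.r1 _ _))
        (H.exc2 τ'.sh ((minj hτ').ne hτ.ne) hτ'.ne (s1 ▸ c1) (s2 ▸ c2))
      have k := cc τ.j τ'.j
      rw [(H.low c1).2.2, (H.low c2).2.2] at k
      rw [hB] at r
      rw [(H.low c1).2.2, abs_mul, abs_mul]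
      exact (mul_le_mul (mul_le_mul k r (abs_nonneg _) (by positivity))
        (abs_site hw₂ hZ _ c1 c2 _ _ _ _) (abs_nonneg _) (by positivity)).trans_eq (by ring)
    · have a1 := Ker15.sg_lvl H.mono .one g1
      rw [H.w1 _ (fun a b e => absurd rfl e) (by decide) fun _ => B0, ← Finset.sum_mul] at a1
      have a2 := mul_le_mul_of_nonneg_right H.x1 B0
      have a3 : x₁ * B ≤ 4 * (x₁ * (X ^ 2 * Fm + tl * ∑ j ∈ A, |ω j|)) := by
        have := mul_nonneg H.x0 (mul_nonneg (sq_nonneg X) H.fm0)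
        rw [← hB]
        linarith
      have a4 := mul_nonneg H.x0 B0
      rw [sg_const_mul, mul_comm (10 ^ 5 : ℝ), mul_assoc (c₀ ^ 2 * z ^ 2), mul_assoc (c₀ ^ 2 * z ^ 2)]
      refine mul_le_mul_of_nonneg_left ?_ cz
      rw [show (Fintype.card Sh.one.Lf : ℝ) = 1 from Nat.cast_one] at a1
      linarith
  calc _ = |∑ j ∈ A, ω j * SG L (SG L (V2 w L h R q c w₂ T h₂ Z j)) .one (fun _ => ()) +
        ∑ j ∈ A, ω j * (wB (-1) L (fun s G ξ => TE w s L h G * TE w₂ s T h₂ ξ)
      [(fun y x x' => c y * R x x', Z), (fun y x x' => c y * R x x', Z)] (Sh.two j)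
        (pr2 j fun x x' => R x x' - q j) (fun _ => 1) -
          SG L (SG L (V2 w L h R q c w₂ T h₂ Z j)) .one fun _ => ())| := by
        rw [← Finset.sum_add_distrib]
        exact congrArg _ (Finset.sum_congr rfl fun j _ => by ring)
    _ ≤ _ := by
        rw [mul_add, Finset.mul_sum A _ (10 ^ 5 * (c₀ ^ 2 * z ^ 2))]
        refine (abs_add_le _ _).trans (add_le_add M ((Finset.abs_sum_le_sum_abs _ _).trans
          (Finset.sum_le_sum fun j hj => ?_)))
        rw [abs_mul, mul_left_comm]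
        exact mul_le_mul_of_nonneg_left (E j hj) (abs_nonneg _)

/-- the valuation of one low letter of degree two -/
def V1 (w : Ω → ℝ) (L : List (Lv Ω)) (h : Ω → ℝ) (R : Ω → Ω → ℝ) (q c : ℕ → ℝ) (j : ℕ) :
    Val (Option (Option Unit)) := fun s m => c (s.shr (m (some none)) (m none) L.length) *
  Fr w L h R q j s (m (some (some ())))
    fun x => R (x (m (some none))) (x (m none)) * R (x (m (some none))) (x (m none))

theorem inv_V1 (hw : Wt w) (j : ℕ) : Inv L.length (V1 w L h R q c j) :=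
  (inv_lev _ _ _ c).mul (inv_gr hw (some (some ())) j fun _ y =>
    (R (y none) (y (some (some (some ())))) - q j) *
      (R (y (some (some none))) (y (some none)) * R (y (some (some none))) (y (some none))))

/-- **a spin-free marked pair against one low letter of degree two** -/
theorem Hy.one_le (H : Hy w L h R q ω c A J c₀ X tl Fm x₁) :
    |∑ j ∈ A, ω j * sg (-1) L (Sh.two j) fun τ => TE w τ.sh L h
      (τ.ev (fun y x x' => c y * R x x' ^ 2) (pr2 j fun x x' => R x x' - q j))| ≤ 200 * c₀ *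
      (x₁ * (X ^ 2 * Fm + tl * ∑ j ∈ A, |ω j|) + ∑ j ∈ A, |ω j| * (x₁ * vU w L h R j j +
        ∑ y ∈ Finset.Icc 1 J, dm L 0 y * vU w L h R y j)) := by
  have hw := H.wt
  have cK : c L.length = 0 := by_contra fun e => by have := (H.low e).2.1; have := H.lt; omega
  have cz := H.c0
  have I : ∀ j, Inv L.length (SG L (V1 w L h R q c j)) := fun j =>
    (inv_V1 hw j).sg fun s m e => by simp only [V1, e, shr_self, cK, zero_mul]
  have v0 := fun y t => vU_nonneg (L := L) (h := h) hw R y t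
  have E : ∀ j ∈ A, |(sg (-1) L (Sh.two j) fun τ => TE w τ.sh L h
      (τ.ev (fun y x x' => c y * R x x' ^ 2) (pr2 j fun x x' => R x x' - q j))) -
      SG L (V1 w L h R q c j) .one fun _ => ()| ≤ 200 * c₀ *
        (x₁ * vU w L h R j j + ∑ y ∈ Finset.Icc 1 J, dm L 0 y * vU w L h R y j) := fun j hj => by
    have hj' := H.up j hj
    rw [← I j (Sh.two j) (fun _ => Sh.twoR j) .one (fun _ => ())
      ⟨fun _ _ => iff_of_true rfl rfl, fun _ _ => (shr_self _ _ _).trans (shr_self _ _ _).symm⟩,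
      SG, ← sg_sub]
    have g1 : ∀ y, 0 ≤ lo J y * (4 * vU w L h R j j + 4 * vU w L h R y j) := fun y =>
      mul_nonneg (lo_nn J y) (by linarith [v0 j j, v0 y j])
    refine (abs_sg_le H.mono _ (Ψ := fun τ => c₀ *
      (lo J τ.j * (4 * vU w L h R j j + 4 * vU w L h R τ.j j))) fun τ hτ => ?_).trans ?_
    · have s1 := hτ.shr
      have e1 : TE w τ.sh L h (τ.ev (fun y x x' => c y * R x x' ^ 2)
          (pr2 j fun x x' => R x x' - q j)) = c τ.j * TE w τ.sh L h fun x =>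
            (R (x (τ.e (Sh.twoL j))) (x (τ.e (Sh.twoR j))) - q j) *
              (R (x τ.p) (x τ.q) * R (x τ.p) (x τ.q)) := by
        rw [← Law.TE_const_mul hw]
        exact congrArg _ (funext fun x => by simp only [GT.ev, pr2]; ring)
      simp only [V1, tmk, ad_none, ad_some, s1, e1]
      rw [← mul_sub, abs_mul]
      by_cases c1 : c τ.j = 0
      · rw [c1, abs_zero, zero_mul]
        exact mul_nonneg cz (g1 _)
      have r := H.rep2 τ.sh (a := τ.e (Sh.twoR j)) (b := τ.e (Sh.twoL j)) hj'.1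
        ((minj hτ).ne (twoR_ne j)) (by rw [hτ.shr_e, shr_comm, shr_two, min_eq_left hj'.2])
        hτ.ne hτ.ne (s1 ▸ c1) (s1 ▸ c1)
      rw [s1] at r
      have k := H.cl τ.j
      rw [(H.low c1).2.2] at k ⊢
      exact (mul_le_mul k r (abs_nonneg _) (by positivity)).trans_eq (by ring)
    · have a1 := Ker15.sg_lvl H.mono (Sh.two j) g1
      rw [H.w1 _ (H.two_hi hj) (card_two j).le fun y => by linarith [v0 j j, v0 y j], card_two] at a1
      simp only [mul_add, mul_left_comm (dm L 0 _), Finset.sum_add_distrib, ← Finset.mul_sum,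
        ← Finset.sum_mul] at a1
      have a3 := mul_le_mul_of_nonneg_right H.x1 (v0 j j)
      have a4 : 0 ≤ ∑ y ∈ Finset.Icc 1 J, dm L 0 y * vU w L h R y j :=
        Finset.sum_nonneg fun y _ => mul_nonneg (dm_nonneg H.mono y) (v0 y j)
      have a5 := mul_nonneg H.x0 (v0 j j)
      rw [sg_const_mul, mul_comm (200 : ℝ), mul_assoc c₀]
      refine mul_le_mul_of_nonneg_left ?_ cz
      simp only [mul_add]
      push_cast at a1
      linarith
  have M : |∑ j ∈ A, ω j * SG L (V1 w L h R q c j) .one fun _ => ()| ≤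
      200 * c₀ * (x₁ * (X ^ 2 * Fm + tl * ∑ j ∈ A, |ω j|)) := by
    have sw : 0 ≤ ∑ j ∈ A, |ω j| := Finset.sum_nonneg fun _ _ => abs_nonneg _
    have B0 : 0 ≤ X ^ 2 * Fm + 2 * tl * (2 * ∑ j ∈ A, |ω j|) :=
      add_nonneg (mul_nonneg (sq_nonneg _) H.fm0) (mul_nonneg (by linarith [H.t0]) (by linarith))
    generalize hB : X ^ 2 * Fm + 2 * tl * (2 * ∑ j ∈ A, |ω j|) = B at B0
    have g1 : ∀ y, 0 ≤ lo J y * B := fun y => mul_nonneg (lo_nn J y) B0
    refine (congrArg abs (SG_sum L A ω _ .one _)).trans_le ?_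
    refine (abs_sg_le H.mono _ (Ψ := fun τ => c₀ * (lo J τ.j * B)) fun τ hτ => ?_).trans ?_
    · have s1 := hτ.shr
      simp only [V1, tmk, ad_none, ad_some, s1, mul_left_comm (ω _), ← Finset.mul_sum]
      by_cases c1 : c τ.j = 0
      · rw [c1, zero_mul, abs_zero]
        exact mul_nonneg cz (g1 _)
      have r := H.tail τ.sh (τ.e ()) (fun x => by
        rw [abs_mul]; exact mul_le_one₀ (H.r1 _ _) (abs_nonneg _) (H.r1 _ _))
        (H.exc2 τ.sh hτ.ne hτ.ne (s1 ▸ c1) (s1 ▸ c1))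
      have k := H.cl τ.j
      rw [hB] at r
      rw [(H.low c1).2.2] at k ⊢
      rw [abs_mul]
      exact (mul_le_mul k r (abs_nonneg _) (by positivity)).trans_eq (by ring)
    · have a1 := Ker15.sg_lvl H.mono .one g1
      rw [H.w1 _ (fun a b e => absurd rfl e) (by decide) fun _ => B0, ← Finset.sum_mul] at a1
      have a2 := mul_le_mul_of_nonneg_right H.x1 B0
      have a3 : x₁ * B ≤ 4 * (x₁ * (X ^ 2 * Fm + tl * ∑ j ∈ A, |ω j|)) := by
        have := mul_nonneg H.x0 (mul_nonneg (sq_nonneg X) H.fm0)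
        rw [← hB]
        linarith
      have a4 := mul_nonneg H.x0 B0
      rw [sg_const_mul, mul_comm (200 : ℝ), mul_assoc c₀]
      refine mul_le_mul_of_nonneg_left ?_ cz
      rw [show (Fintype.card Sh.one.Lf : ℝ) = 1 from Nat.cast_one] at a1
      linarith
  calc _ = |∑ j ∈ A, ω j * SG L (V1 w L h R q c j) .one (fun _ => ()) +
        ∑ j ∈ A, ω j * ((sg (-1) L (Sh.two j) fun τ => TE w τ.sh L h
      (τ.ev (fun y x x' => c y * R x x' ^ 2) (pr2 j fun x x' => R x x' - q j))) -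
          SG L (V1 w L h R q c j) .one fun _ => ())| := by
        rw [← Finset.sum_add_distrib]
        exact congrArg _ (Finset.sum_congr rfl fun j _ => by ring)
    _ ≤ _ := by
        rw [mul_add, Finset.mul_sum A _ (200 * c₀)]
        refine (abs_add_le _ _).trans (add_le_add M ((Finset.abs_sum_le_sum_abs _ _).trans
          (Finset.sum_le_sum fun j hj => ?_)))
        rw [abs_mul, mul_left_comm]
        exact mul_le_mul_of_nonneg_left (E j hj) (abs_nonneg _)

end Crest.Agent.T156.Cas.Swp99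

end
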