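import Crest.Agent.T156.Env_96

/-!
# Row 156 (helper96): block data of the cone envelope, abstract form

Sequences only: times `s`, labels `z`, weights `dz`, reference `q`, monotone profile `f`.
-/

set_option autoImplicit false

noncomputable section

namespace Crest.Agent.T156.Q96

open Real Finset
open Crest.Agent.T156.Env96

/-- **layer cake**: `u ≤ α i + e i` for every `i < I`, `u ≤ 2 α I` -/
theorem cake {ι : Type} (s : Finset ι) {w u : ι → ℝ} {α B : ℕ → ℝ} {e : ℕ → ι → ℝ} {I : ℕ} {X : ℝ}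
    (hw : ∀ k ∈ s, 0 ≤ w k) (h0 : ∀ k ∈ s, 0 ≤ u k) (hα : ∀ i, 0 < α i)
    (hX : ∑ k ∈ s, w k ≤ X) (hu : ∀ k ∈ s, ∀ i < I, u k ≤ α i + e i k)
    (hI : ∀ k ∈ s, u k ≤ 2 * α I) (hB : ∀ i < I, ∑ k ∈ s, w k * e i k ^ 2 ≤ B i) (p : ℕ) :
    ∑ k ∈ s, w k * u k ^ p ≤
      (2 * α 0) ^ p * X + ∑ i ∈ range I, (2 * α (i + 1)) ^ p / α i ^ 2 * B i := by
  have c0 : ∀ i, 0 ≤ (2 * α (i + 1)) ^ p / α i ^ 2 := fun i => by
    have := hα (i + 1); positivity
  have key : ∀ k ∈ s, u k ^ p ≤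
      (2 * α 0) ^ p + ∑ i ∈ range I, (2 * α (i + 1)) ^ p / α i ^ 2 * e i k ^ 2 := by
    intro k hk
    have ex : ∃ i, u k ≤ 2 * α i := ⟨I, hI k hk⟩
    have n0 : 0 ≤ ∑ i ∈ range I, (2 * α (i + 1)) ^ p / α i ^ 2 * e i k ^ 2 :=
      sum_nonneg fun i _ => mul_nonneg (c0 i) (sq_nonneg _)
    have a1 := Nat.find_spec ex
    have a2 : Nat.find ex ≤ I := Nat.find_min' ex (hI k hk)
    rcases hj : Nat.find ex with _ | j
    · rw [hj] at a1
      exact (pow_le_pow_left₀ (h0 k hk) a1 p).trans (le_add_of_nonneg_right n0)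
    · rw [hj] at a1 a2
      have a3 := not_le.1 (Nat.find_min ex (show j < Nat.find ex by omega))
      have a4 := hu k hk j (by omega)
      have a5 : α j ^ 2 ≤ e j k ^ 2 := pow_le_pow_left₀ (hα j).le (by linarith) 2
      have a6 : (2 * α (j + 1)) ^ p ≤ (2 * α (j + 1)) ^ p / α j ^ 2 * e j k ^ 2 := by
        have := mul_le_mul_of_nonneg_left a5 (c0 j)
        rwa [div_mul_cancel₀ _ (pow_pos (hα j) 2).ne'] at this
      have a7 := single_le_sum (f := fun i => (2 * α (i + 1)) ^ p / α i ^ 2 * e i k ^ 2)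
        (fun i _ => mul_nonneg (c0 i) (sq_nonneg _)) (mem_range.2 (show j < I by omega))
      have a8 : 0 ≤ (2 * α 0) ^ p := by have := hα 0; positivity
      linarith [pow_le_pow_left₀ (h0 k hk) a1 p]
  refine (sum_le_sum fun k hk => mul_le_mul_of_nonneg_left (key k hk) (hw k hk)).trans ?_
  simp only [mul_add, sum_add_distrib, mul_sum]
  rw [← sum_mul, sum_comm, mul_comm]
  refine add_le_add (mul_le_mul_of_nonneg_left hX (by have := hα 0; positivity))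
    (sum_le_sum fun i hi => ?_)
  refine le_trans (le_of_eq ?_) (mul_le_mul_of_nonneg_left (hB i (mem_range.1 hi)) (c0 i))
  rw [mul_sum]
  exact sum_congr rfl fun _ _ => by ring

/-- dyadic summation: every block starts at a member -/
theorem dyad (s : Finset ℕ) {F : ℕ → ℝ} {N : ℕ} {B : ℝ} (hs : ∀ k ∈ s, 1 ≤ k ∧ k ≤ N)
    (F0 : ∀ k ∈ s, 0 ≤ F k) (B0 : 0 ≤ B)
    (h : ∀ p ∈ s, ∑ k ∈ s.filter fun k => p ≤ k ∧ k < 2 * p, F k ≤ B) :
    ∑ k ∈ s, F k ≤ ((Nat.log 2 N : ℝ) + 1) * B := by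
  rw [← sum_fiberwise_of_maps_to (s := s) (t := range (Nat.log 2 N + 1)) (g := Nat.log 2)
    fun k hk => mem_range.2 (Nat.lt_succ_of_le (Nat.log_mono_right (hs k hk).2))]
  refine (sum_le_card_nsmul _ _ B fun i _ => ?_).trans (by simp)
  rcases (s.filter fun k => Nat.log 2 k = i).eq_empty_or_nonempty with e | e
  · rw [e]; simpa using B0
  obtain ⟨p, hp, hm⟩ := exists_min_image _ id e
  obtain ⟨p1, p2⟩ := mem_filter.1 hp
  refine le_trans (sum_le_sum_of_subset_of_nonneg (fun k hk => ?_) fun k hk _ =>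
    F0 k (mem_filter.1 hk).1) (h p p1)
  obtain ⟨k1, k2⟩ := mem_filter.1 hk
  have a1 := Nat.lt_pow_succ_log_self (b := 2) one_lt_two k
  have a2 := Nat.pow_log_le_self 2 (x := p) (by have := (hs p p1).1; omega)
  rw [k2, Nat.succ_eq_add_one, pow_succ] at a1
  rw [p2] at a2
  exact mem_filter.2 ⟨k1, hm k hk, by omega⟩

theorem log2_le {n : ℝ} {N A : ℕ} (N1 : 1 ≤ N) (h : (N : ℝ) ≤ n ^ (A + 1)) :
    (Nat.log 2 N : ℝ) ≤ 2 * ((A + 1) * log n) := by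
  have a1 : ((2 : ℝ)) ^ Nat.log 2 N ≤ N := by
    exact_mod_cast Nat.pow_log_le_self 2 (x := N) (by omega)
  have a2 := log_le_log (by positivity) (a1.trans h)
  rw [log_pow, log_pow] at a2
  push_cast at a2
  have a3 := log_two_gt_d9
  have a4 : (0 : ℝ) ≤ Nat.log 2 N := Nat.cast_nonneg _
  nlinarith

/-- a monotone profile against a Lipschitz one: the deviation at a node with room `ρ` -/
theorem dev {f q : ℕ → ℝ} {g Y : ℝ} {lo hi i ρ : ℕ} (g0 : 0 < g) (hf : Monotone f)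
    (hq : ∀ k, lo ≤ k → k < hi → 0 ≤ q (k + 1) - q k ∧ q (k + 1) - q k ≤ g)
    (h1 : lo + ρ ≤ i) (h2 : i + ρ ≤ hi) (hY : ∑ k ∈ Icc lo hi, (f k - q k) ^ 2 ≤ Y) :
    |f i - q i| ^ 3 ≤ 8 * g * Y ∨ ((ρ : ℝ) + 1) * |f i - q i| ^ 2 ≤ 4 * Y := by
  set D := |f i - q i| with hD
  have D0 : 0 ≤ D := abs_nonneg _
  have key : ∀ j : ℕ, j ≤ ρ → g * j ≤ D / 2 → ((j : ℝ) + 1) * D ^ 2 ≤ 4 * Y := fun j hj hg => by
    have sub : ∀ T : Finset ℕ, T ⊆ Icc lo hi → T.card = j + 1 →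
        (∀ k ∈ T, (D / 2) ^ 2 ≤ (f k - q k) ^ 2) → ((j : ℝ) + 1) * D ^ 2 ≤ 4 * Y :=
      fun T t1 t2 t3 => by
        have b1 := card_nsmul_le_sum T _ _ t3
        have b2 := sum_le_sum_of_subset_of_nonneg (f := fun k => (f k - q k) ^ 2) t1
          fun _ _ _ => sq_nonneg _
        rw [t2, nsmul_eq_mul] at b1
        push_cast at b1
        nlinarith
    rcases le_total 0 (f i - q i) with c | c
    · rw [abs_of_nonneg c] at hD
      refine sub (Icc i (i + j)) (Icc_subset_Icc (by omega) (by omega)) (by simp; omega)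
        fun k hk => pow_le_pow_left₀ (by positivity) ?_ 2
      obtain ⟨k1, k2⟩ := mem_Icc.1 hk
      have b1 := (tele hq (show lo ≤ i by omega) k1 (by omega)).2
      have b2 : (k : ℝ) ≤ i + j := by exact_mod_cast k2
      have b3 := hf k1
      nlinarith
    · rw [abs_of_nonpos c] at hD
      refine sub (Icc (i - j) i) (Icc_subset_Icc (by omega) (by omega)) (by simp; omega)
        fun k hk => ?_
      obtain ⟨k1, k2⟩ := mem_Icc.1 hk
      have b1 := (tele hq (show lo ≤ k by omega) k2 (by omega)).2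
      have b2 : (i : ℝ) ≤ k + j := by exact_mod_cast (show i ≤ k + j by omega)
      have b3 := hf k2
      rw [← neg_sq (f k - q k)]
      exact pow_le_pow_left₀ (by positivity) (by nlinarith) 2
  have f1 := Nat.floor_le (show 0 ≤ D / 2 / g by positivity)
  have f2 := Nat.lt_floor_add_one (D / 2 / g)
  rw [le_div_iff₀ g0] at f1
  rw [div_lt_iff₀ g0] at f2
  rcases le_total ⌊D / 2 / g⌋₊ ρ with c | c
  · left
    have b1 := key _ c (by linarith)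
    have b2 := mul_le_mul_of_nonneg_left b1 g0.le
    have b3 := mul_le_mul_of_nonneg_right f2.le (sq_nonneg D)
    nlinarith
  · right
    have c' : (ρ : ℝ) ≤ ⌊D / 2 / g⌋₊ := by exact_mod_cast c
    exact key ρ le_rfl (by nlinarith)

/-- **quartic layer cake** -/
theorem cake4 {ι : Type} (s : Finset ι) {ω u : ι → ℝ} {e : ℝ → ι → ℝ} {τ w y0 D X : ℝ}
    (hω : ∀ k ∈ s, 0 ≤ ω k) (h0 : ∀ k ∈ s, 0 ≤ u k) (hτ : ∑ k ∈ s, ω k ≤ τ) (w0 : 0 < w)
    (y1 : 0 < y0) (X0 : 0 ≤ X) (hu0 : ∀ k ∈ s, u k ≤ y0 ^ 2 * w + D)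
    (hu : ∀ y, y0 ≤ y → y ^ 2 * w < D →
      (∀ k ∈ s, u k ≤ y ^ 2 * w + e y k) ∧ ∑ k ∈ s, ω k * e y k ^ 2 ≤ X / y ^ 3) :
    ∑ k ∈ s, ω k * u k ^ 4 ≤ 16 * (y0 ^ 2 * w) ^ 4 * τ + 8192 * (w ^ 2 * X * √(D / w)) := by
  have yy : ∀ i : ℕ, y0 ≤ y0 * 2 ^ i := fun i =>
    le_mul_of_one_le_right y1.le (one_le_pow₀ one_le_two)
  have ex : ∃ i : ℕ, D ≤ (y0 * 2 ^ i) ^ 2 * w := by
    obtain ⟨i, hi⟩ := pow_unbounded_of_one_lt (D / (y0 ^ 2 * w)) (one_lt_two (α := ℝ))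
    rw [div_lt_iff₀ (by positivity)] at hi
    have b1 : (2 : ℝ) ^ i ≤ (2 ^ i) ^ 2 := le_self_pow₀ (one_le_pow₀ one_le_two) two_ne_zero
    exact ⟨i, by nlinarith [mul_le_mul_of_nonneg_right b1 (show 0 ≤ y0 ^ 2 * w by positivity)]⟩
  have e1 := Nat.find_spec ex
  have e2 : ∀ i < Nat.find ex, (y0 * 2 ^ i) ^ 2 * w < D := fun i hi => not_le.1 (Nat.find_min ex hi)
  have c := cake s (α := fun i => (y0 * 2 ^ i) ^ 2 * w) (B := fun i => X / (y0 * 2 ^ i) ^ 3)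
    (e := fun i => e (y0 * 2 ^ i)) (I := Nat.find ex) hω h0 (fun i => by positivity) hτ
    (fun k hk i hi => (hu _ (yy i) (e2 i hi)).1 k hk)
    (fun k hk => by
      have := mul_le_mul_of_nonneg_right (pow_le_pow_left₀ y1.le (yy (Nat.find ex)) 2) w0.le
      linarith [hu0 k hk])
    (fun i hi => (hu _ (yy i) (e2 i hi)).2) 4
  have s1 : ∑ i ∈ range (Nat.find ex), y0 * 2 ^ i ≤ 2 * √(D / w) := by
    rcases hI : Nat.find ex with _ | j
    · simp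
    · have b1 := e2 j (by omega)
      have b2 : y0 * 2 ^ j ≤ √(D / w) := le_sqrt_of_sq_le (by rw [le_div_iff₀ w0]; exact b1.le)
      rw [← mul_sum, geom_sum_eq (by norm_num), pow_succ]
      nlinarith
  have s2 : ∀ i : ℕ, (2 * ((y0 * 2 ^ (i + 1)) ^ 2 * w)) ^ 4 / ((y0 * 2 ^ i) ^ 2 * w) ^ 2 *
      (X / (y0 * 2 ^ i) ^ 3) = 4096 * (w ^ 2 * X) * (y0 * 2 ^ i) := fun i => by
    rw [pow_succ (2 : ℝ) i]
    generalize (2 : ℝ) ^ i = z at *
    by_cases z0 : z = 0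
    · simp [z0]
    field_simp
    ring
  simp only [s2, pow_zero, mul_one] at c
  rw [← mul_sum] at c
  have s3 := mul_le_mul_of_nonneg_left s1 (show 0 ≤ 4096 * (w ^ 2 * X) by positivity)
  calc _ ≤ _ := c
    _ ≤ _ := by nlinarith


/-- the sloped part of a member -/
structure Ab (C v : ℝ) (j0 J : ℕ) (s z q f dz : ℕ → ℝ) : Prop where
  C1 : 1 ≤ C
  v0 : 0 < v
  sm : Monotone s
  sb : ∀ k ≤ J, k * (v / C) ≤ s k ∧ s k ≤ k * (C * v)
  zb : ∀ k, j0 ≤ k → k < J → z k ≤ C * (s k + 2 * v)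
  db : ∀ k, j0 < k → k < J → v / C ≤ dz k ∧ dz k ≤ C * v
  qi : ∀ k < J, 0 ≤ q (k + 1) - q k ∧ q (k + 1) - q k ≤ C * v
  qb : ∀ k < J, 0 ≤ q k ∧ q k ≤ s k ∧ q k ≤ 1
  fm : Monotone f
  fb : ∀ k, 0 ≤ f k ∧ f k ≤ 1

/-- crude location -/
structure Cr (J : ℕ) (z f : ℕ → ℝ) (l0 : ℝ) (cf : ℝ → ℝ) : Prop where
  mono : ∀ t t', l0 ≤ t → t ≤ t' → cf t ≤ cf t'
  ge : ∀ t, l0 ≤ t → t ≤ cf t
  dbl : ∀ t t', l0 ≤ t → t ≤ t' → cf t' / t' ≤ 2 * (cf t / t)
  cru : ∀ k < J, f k ≤ cf (max (z k) l0)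

/-- the block of base `p` -/
def bl (J p : ℕ) : Finset ℕ := (range J).filter fun k => k + k / 3 < J ∧ p ≤ k ∧ k < 2 * p

/-- **block data** at the level `t = s p`, `κ0 = cf t / t`, `X' = κ0 min X (cf t ^ 3)` -/
structure BD (K v κ0 X' t : ℝ) (B : Finset ℕ) (f dz : ℕ → ℝ) (D : ℝ) (a b : ℕ) : Prop where
  nn : ∀ k ∈ B, 0 ≤ dz k
  wt : ∑ k ∈ B, dz k ≤ K * t
  D0 : 0 ≤ D
  D1 : D ≤ 1
  D3 : D ^ 3 ≤ K * X'
  win : ∀ κ, K * κ0 ≤ κ → ∀ k ∈ B, ev f (κ * v) (k - k / 3) (k + k / 3) k ≤ ev f (κ * v) a b k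
  sup : ∀ κ, K * κ0 ≤ κ → ∀ k ∈ B, ev f (κ * v) a b k ≤ 2 * D
  sq : ∀ κ, K * κ0 ≤ κ → ∑ k ∈ B, dz k * ev f (κ * v) a b k ^ 2 ≤ K * X' / κ

variable {C v l0 X : ℝ} {j0 J p : ℕ} {s z q f dz : ℕ → ℝ} {cf : ℝ → ℝ}

theorem Ab.crude (h : Ab C v j0 J s z q f dz) (c : Cr J z f l0 cf) (p1 : 1 ≤ p) (pJ : p < J)
    (hl : l0 ≤ s p) {i : ℕ} (i0 : j0 ≤ i) (i1 : i < J) (i2 : i ≤ 3 * p) :
    f i ≤ 10 * C ^ 3 * cf (s p) ∧ |f i - q i| ≤ 10 * C ^ 3 * cf (s p) := by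
  have C1 := h.C1
  have v0 := h.v0
  have p1' : (1 : ℝ) ≤ p := by exact_mod_cast p1
  have a1 := (h.sb p pJ.le).1
  have t0 : 0 < s p := lt_of_lt_of_le (by positivity) a1
  rw [← mul_div_assoc, div_le_iff₀ (by positivity)] at a1
  have a2 := (h.sb i i1.le).2
  have a3 : (i : ℝ) ≤ 3 * p := by exact_mod_cast i2
  have a4 : s i ≤ 3 * C ^ 2 * s p := by
    nlinarith [mul_le_mul_of_nonneg_right a3 (show 0 ≤ C * v by positivity),
      mul_le_mul_of_nonneg_left a1 (show 0 ≤ C by positivity)]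
  have a5 : v ≤ C * s p := by nlinarith
  have C2 : C ≤ C ^ 2 := by nlinarith
  have C3 : C ^ 2 ≤ C ^ 3 := by nlinarith
  have a6 : z i ≤ 5 * C ^ 3 * s p := by
    have := mul_le_mul_of_nonneg_left (show s i + 2 * v ≤ 5 * C ^ 2 * s p by nlinarith)
      (show 0 ≤ C by positivity)
    nlinarith [h.zb i i0 i1]
  have a7 : s p ≤ 5 * C ^ 3 * s p := by nlinarith
  have a8 := c.mono _ _ (le_max_right (z i) l0) (max_le a6 (hl.trans a7))
  have a9 := c.dbl _ _ hl a7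
  rw [div_le_iff₀ (by positivity)] at a9
  have b1 : 2 * (cf (s p) / s p) * (5 * C ^ 3 * s p) = 10 * C ^ 3 * cf (s p) := by
    field_simp; ring
  have b2 : f i ≤ 10 * C ^ 3 * cf (s p) := by linarith [c.cru i i1]
  have b3 := c.ge _ hl
  have b4 : 3 * C ^ 2 * s p ≤ 10 * C ^ 3 * cf (s p) := by nlinarith
  exact ⟨b2, abs_le.2 ⟨by linarith [(h.fb i).1, (h.qb i i1).2.1], by linarith [(h.qb i i1).1]⟩⟩

set_option maxHeartbeats 800000 in
theorem Ab.block (h : Ab C v j0 J s z q f dz) (c : Cr J z f l0 cf) (p1 : 12 ≤ p) (p2 : 12 * j0 ≤ p)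
    (pJ : p + p / 3 < J) (hl : l0 ≤ s p) (hX : ∑ k ∈ Ioo j0 J, dz k * (f k - q k) ^ 2 ≤ X) :
    ∃ D a b, BD (10 ^ 8 * C ^ 12) v (cf (s p) / s p) (cf (s p) / s p * min X (cf (s p) ^ 3)) (s p)
      (bl J p) f dz D a b := by
  have C1 := h.C1
  have v0 := h.v0
  have C0 : 0 < C := by linarith
  obtain ⟨ks, hks, hm⟩ := exists_max_image (bl J p) id
    ⟨p, mem_filter.2 ⟨mem_range.2 (by omega), pJ, le_rfl, by omega⟩⟩
  obtain ⟨k1, k2, k3⟩ := (mem_filter.1 hks).2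
  have mem : ∀ k ∈ bl J p, k + k / 3 < J ∧ p ≤ k ∧ k ≤ ks := fun k hk =>
    ⟨(mem_filter.1 hk).2.1, (mem_filter.1 hk).2.2.1, hm k hk⟩
  obtain ⟨a, ha⟩ : ∃ a, a = p - p / 3 := ⟨_, rfl⟩
  obtain ⟨b, hb⟩ : ∃ b, b = ks + ks / 6 := ⟨_, rfl⟩
  obtain ⟨ρ, hρ⟩ : ∃ ρ, ρ = p / 6 := ⟨_, rfl⟩
  have p1' : (12 : ℝ) ≤ p := by exact_mod_cast p1
  obtain ⟨a1, a2⟩ := h.sb p (by omega)
  have tc := c.ge _ hl
  have cr := fun i (i0 : j0 ≤ i) (i1 : i < J) (i2 : i ≤ 3 * p) =>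
    h.crude c (by omega) (by omega) hl i0 i1 i2
  clear hl
  generalize cf (s p) = c0 at *
  generalize s p = t at *
  have t0 : 0 < t := lt_of_lt_of_le (by positivity) a1
  rw [← mul_div_assoc, div_le_iff₀ C0] at a1
  have κ1 : 1 ≤ c0 / t := (one_le_div t0).2 tc
  have eκ : c0 / t * t = c0 := div_mul_cancel₀ _ t0.ne'
  generalize c0 / t = κ0 at *
  obtain ⟨Y, hY⟩ : ∃ Y, ∑ k ∈ Icc (a - ρ) (b + ρ), (f k - q k) ^ 2 = Y := ⟨_, rfl⟩
  have Y0 : 0 ≤ Y := hY ▸ sum_nonneg fun _ _ => sq_nonneg _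
  have y1 : v * Y ≤ C * X := by
    have b1 : ∑ k ∈ Icc (a - ρ) (b + ρ), v / C * (f k - q k) ^ 2 ≤ X :=
      (sum_le_sum fun k hk => mul_le_mul_of_nonneg_right
        (h.db k (by have := mem_Icc.1 hk; omega) (by have := mem_Icc.1 hk; omega)).1
        (sq_nonneg _)).trans ((sum_le_sum_of_subset_of_nonneg (fun k hk => by
          have := mem_Icc.1 hk; exact mem_Ioo.2 ⟨by omega, by omega⟩) fun k hk _ => mul_nonneg
          (le_trans (by positivity) (h.db k (mem_Ioo.1 hk).1 (mem_Ioo.1 hk).2).1)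
          (sq_nonneg _)).trans hX)
    rw [← mul_sum, div_mul_eq_mul_div, div_le_iff₀ C0, hY] at b1
    linarith
  have y2 : v * Y ≤ 300 * C ^ 7 * c0 ^ 3 := by
    have b1 := sum_le_card_nsmul (Icc (a - ρ) (b + ρ)) (fun k => (f k - q k) ^ 2)
      ((10 * C ^ 3 * c0) ^ 2) fun k hk => by
        have := mem_Icc.1 hk
        rw [← sq_abs]
        exact pow_le_pow_left₀ (abs_nonneg _) (cr k (by omega) (by omega) (by omega)).2 2
    have b2 : ((Icc (a - ρ) (b + ρ)).card : ℝ) ≤ 3 * p := by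
      exact_mod_cast (show (Icc (a - ρ) (b + ρ)).card ≤ 3 * p by rw [Nat.card_Icc]; omega)
    rw [nsmul_eq_mul, hY] at b1
    have b3 := mul_le_mul_of_nonneg_left (b1.trans (mul_le_mul_of_nonneg_right b2 (sq_nonneg _)))
      v0.le
    have b4 : p * v ≤ c0 * C := a1.trans (mul_le_mul_of_nonneg_right tc C0.le)
    have b5 := mul_le_mul_of_nonneg_right b4 (sq_nonneg (10 * C ^ 3 * c0))
    linarith
  have pw : ∀ i j : ℕ, i ≤ j → C ^ i ≤ C ^ j := fun i j hij => pow_le_pow_right₀ C1 hij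
  have X0 : 0 ≤ X := by
    have : 0 ≤ C * X := le_trans (by positivity) y1
    exact (mul_nonneg_iff_of_pos_left C0).1 this
  have Xm0 : 0 ≤ min X (c0 ^ 3) := le_min X0 (by have := t0.trans_le tc; positivity)
  have y3 : v * Y ≤ 300 * C ^ 7 * min X (c0 ^ 3) := by
    rcases min_choice X (c0 ^ 3) with e | e <;> rw [e]
    · have b1 := mul_le_mul_of_nonneg_right (pw 1 7 (by norm_num)) X0
      have b2 : 0 ≤ C ^ 7 * X := by positivity
      linarith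
    · exact y2
  generalize min X (c0 ^ 3) = Xm at *
  have XX : Xm ≤ κ0 * Xm := le_mul_of_one_le_left Xm0 κ1
  have hq : ∀ k, a - ρ ≤ k → k < b + ρ → 0 ≤ q (k + 1) - q k ∧ q (k + 1) - q k ≤ C * v :=
    fun k _ _ => h.qi k (by omega)
  obtain ⟨i, hi, hD⟩ := exists_max_image (Icc a b) (fun i => |f i - q i|)
    ⟨p, mem_Icc.2 ⟨by omega, by omega⟩⟩
  obtain ⟨i1, i2⟩ := mem_Icc.1 hi
  have D0 : 0 ≤ |f i - q i| := abs_nonneg _
  have D1 : |f i - q i| ≤ 1 := by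
    have b1 := h.fb i
    have b2 := h.qb i (by omega)
    exact abs_le.2 ⟨by linarith [b2.2.2], by linarith [b2.1]⟩
  have dv := dev (i := i) (ρ := ρ) (show 0 < C * v by positivity) h.fm hq (by omega) (by omega)
    hY.le
  have b3 := (cr i (by omega) (by omega) (by omega)).2
  generalize |f i - q i| = D at *
  have D3 : D ^ 3 ≤ 72000 * C ^ 11 * (κ0 * Xm) := by
    rcases dv with e | e
    · have b1 := mul_le_mul_of_nonneg_left y3 C0.le
      have b2 := mul_le_mul (pw 8 11 (by norm_num)) XX Xm0 (by positivity)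
      have b3 : 0 ≤ C ^ 11 * (κ0 * Xm) := by positivity
      linarith
    · have b0 : (p : ℝ) ≤ 6 * (ρ + 1) := by exact_mod_cast (show p ≤ 6 * (ρ + 1) by omega)
      have b1 : p * D ^ 2 ≤ 24 * Y := by linarith [mul_le_mul_of_nonneg_right b0 (sq_nonneg D)]
      have b2 : t * D ^ 2 ≤ 7200 * C ^ 8 * Xm := by
        have b3 := mul_le_mul_of_nonneg_right a2 (sq_nonneg D)
        have b4 := mul_le_mul_of_nonneg_left b1 (show 0 ≤ C * v by positivity)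
        have b5 := mul_le_mul_of_nonneg_left y3 C0.le
        linarith
      have b4 := mul_le_mul_of_nonneg_right b3 (sq_nonneg D)
      have b5 := mul_le_mul_of_nonneg_left b2 (show 0 ≤ 10 * C ^ 3 * κ0 by positivity)
      rw [← eκ] at b4
      linarith
  have hq' : ∀ k, a ≤ k → k < b → 0 ≤ q (k + 1) - q k ∧ q (k + 1) - q k ≤ C * v :=
    fun k _ _ => h.qi k (by omega)
  have sub : bl J p ⊆ Icc a b := fun k hk => by
    have := mem k hk; exact mem_Icc.2 ⟨by omega, by omega⟩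
  have db : ∀ k ∈ bl J p, 0 ≤ dz k ∧ dz k ≤ C * v := fun k hk => by
    have := mem k hk
    have := h.db k (by omega) (by omega)
    exact ⟨le_trans (by positivity) this.1, this.2⟩
  have big : ∀ κ, 10 ^ 8 * C ^ 12 * κ0 ≤ κ → 60 * C ^ 4 * κ0 ≤ κ ∧ 3 * C ≤ κ := fun κ hκ => by
    have b1 := mul_le_mul_of_nonneg_right (pw 4 12 (by norm_num)) (zero_le_one.trans κ1)
    have b2 := pw 1 4 (by norm_num)
    have b3 := mul_le_mul_of_nonneg_left κ1 (show 0 ≤ C ^ 4 by positivity)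
    have b4 : 0 ≤ C ^ 4 * κ0 := by positivity
    constructor <;> linarith
  have X1 : 0 ≤ κ0 * Xm := by positivity
  refine ⟨D, a, b, fun k hk => (db k hk).1, ?_, D0, D1, ?_, fun κ hκ k hk => ?_,
    fun κ hκ k hk => ?_, fun κ hκ => ?_⟩
  · have b1 := sum_le_card_nsmul _ _ _ fun k hk => (db k hk).2
    have b2 : ((bl J p).card : ℝ) ≤ p := by
      have := card_le_card (show bl J p ⊆ Ico p (2 * p) from fun k hk =>
        mem_Ico.2 (mem_filter.1 hk).2.2)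
      rw [Nat.card_Ico] at this
      exact_mod_cast (show (bl J p).card ≤ p by omega)
    rw [nsmul_eq_mul] at b1
    have b3 := mul_le_mul_of_nonneg_right b2 (show 0 ≤ C * v by positivity)
    have b4 := mul_le_mul_of_nonneg_left a1 C0.le
    have b5 := mul_le_mul_of_nonneg_right (pw 2 12 (by norm_num)) t0.le
    have b6 : 0 ≤ C ^ 12 * t := by positivity
    linarith
  · have b1 := mul_le_mul_of_nonneg_right (pw 11 12 (by norm_num)) X1
    have b2 : 0 ≤ C ^ 12 * (κ0 * Xm) := by positivity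
    linarith
  · obtain ⟨m1, m2, m3⟩ := mem k hk
    obtain ⟨g1, g2⟩ := big κ hκ
    refine ev_le ev_nonneg fun j j1 j2 => ?_
    rcases le_or_gt j b with e | e
    · exact cone (by omega) e
    · have b1 := (cr j (by omega) (by omega) (by omega)).1
      have b2 : (p : ℝ) ≤ 6 * ((j : ℝ) - k) := by
        have : (p : ℝ) + 6 * k ≤ 6 * j := by exact_mod_cast (show p + 6 * k ≤ 6 * j by omega)
        linarith
      have b3 := h.fm (show k ≤ j by omega)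
      have b4 := @ev_nonneg f (κ * v) a b k
      have b5 := mul_le_mul_of_nonneg_left b2 (show 0 ≤ C * v by positivity)
      have b6 : t ≤ 6 * C * (v * ((j : ℝ) - k)) := by linarith
      have b7 : 0 ≤ v * ((j : ℝ) - k) := by
        have : 0 ≤ (j : ℝ) - k := by linarith
        positivity
      have b8 := mul_le_mul_of_nonneg_left b6 (show 0 ≤ 10 * C ^ 3 * κ0 by positivity)
      have b9 := mul_le_mul_of_nonneg_right g1 b7
      rw [abs_of_nonneg (by linarith), abs_of_nonneg (by linarith)]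
      rw [← eκ] at b1
      linarith [(h.fb k).1]
  · obtain ⟨g1, g2⟩ := big κ hκ
    have := mem_Icc.1 (sub hk)
    exact ev_le_sup hq' (mul_le_mul_of_nonneg_right (by linarith) v0.le)
      (fun j j1 j2 => hD j (mem_Icc.2 ⟨j1, j2⟩)) this.1 this.2
  · obtain ⟨g1, g2⟩ := big κ hκ
    have κp : 0 < κ := by linarith
    have ab : a ≤ b := by omega
    have b1 := sum_sq (f := f) (q := q) (c := κ * v) (D := D) ab (by positivity)
      (show 0 ≤ C * v by positivity) (by linarith [mul_le_mul_of_nonneg_right g2 v0.le]) (fun k _ _ => h.fm (Nat.le_succ k)) hq'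
      (hD a (mem_Icc.2 ⟨le_rfl, ab⟩)) (hD b (mem_Icc.2 ⟨ab, le_rfl⟩))
    have b2 : ∑ k ∈ Icc a b, (f k - q k) ^ 2 ≤ Y := hY ▸ sum_le_sum_of_subset_of_nonneg
      (Icc_subset_Icc (by omega) (by omega)) fun _ _ _ => sq_nonneg _
    have b3 : 2 * D ^ 3 + 4 * (C * v) * ∑ k ∈ Icc a b, (f k - q k) ^ 2 ≤
        146000 * C ^ 11 * (κ0 * Xm) := by
      have b4 := mul_le_mul_of_nonneg_left b2 (show 0 ≤ C * v by positivity)
      have b5 := mul_le_mul_of_nonneg_left y3 C0.le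
      have b6 := mul_le_mul (pw 8 11 (by norm_num)) XX Xm0 (by positivity)
      have b7 : 0 ≤ C ^ 11 * (κ0 * Xm) := by positivity
      linarith
    calc _ ≤ ∑ k ∈ bl J p, C * v * ev f (κ * v) a b k ^ 2 :=
          sum_le_sum fun k hk => mul_le_mul_of_nonneg_right (db k hk).2 (sq_nonneg _)
      _ ≤ C * v * (56 / (κ * v) * (146000 * C ^ 11 * (κ0 * Xm))) := by
          rw [← mul_sum]
          exact mul_le_mul_of_nonneg_left ((sum_le_sum_of_subset_of_nonneg sub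
            fun _ _ _ => sq_nonneg _).trans (b1.trans (mul_le_mul_of_nonneg_left b3
              (by positivity)))) (by positivity)
      _ = 8176000 * C ^ 12 * (κ0 * Xm) / κ := by field_simp; ring
      _ ≤ _ := div_le_div_of_nonneg_right (mul_le_mul_of_nonneg_right (by
          have : 0 ≤ C ^ 12 := by positivity
          linarith) X1) κp.le

/-- **quartic sum on a block** -/
theorem BD.four {K κ0 Xm t D w n Λ : ℝ} {B : Finset ℕ} {a b : ℕ} {u : ℕ → ℝ}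
    (h : BD K v κ0 (κ0 * Xm) t B f dz D a b) (K1 : 1 ≤ K) (κ1 : 1 ≤ κ0) (X0 : 0 ≤ Xm) (t0 : 0 ≤ t)
    (w0 : 0 < w) (Λ1 : 1 ≤ Λ) (n0 : 0 < n) (hw : 8 * K ^ 3 ≤ n ^ 2 * w ^ 3)
    (u0 : ∀ k ∈ B, 0 ≤ u k ∧ u k ≤ 2)
    (hu : ∀ κ, K * κ0 ≤ κ → κ ≤ n → ∀ k ∈ B, u k ≤
      Λ * (κ ^ ((2 : ℝ) / 3) * w + ev f (κ * v) (k - k / 3) (k + k / 3) k)) :
    ∑ k ∈ B, dz k * u k ^ 4 ≤ 16384 * K ^ 5 * Λ ^ 4 *
      (t * (κ0 * w) ^ 4 + (κ0 * w) ^ ((3 : ℝ) / 2) * Xm ^ ((7 : ℝ) / 6)) := by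
  have κp : 0 < κ0 := by linarith
  have Kp : 0 < K := by linarith
  have Λp : 0 < Λ := by linarith
  have pw : ∀ i j : ℕ, i ≤ j → K ^ i ≤ K ^ j := fun i j hij => pow_le_pow_right₀ K1 hij
  have L4 : 1 ≤ Λ ^ 4 := one_le_pow₀ Λ1
  obtain ⟨r, hr⟩ : ∃ r, r = (κ0 * w) ^ ((3 : ℝ) / 2) * Xm ^ ((7 : ℝ) / 6) := ⟨_, rfl⟩
  have r0 : 0 ≤ r := by rw [hr]; positivity
  have r6 : r ^ 6 = (κ0 * w) ^ 9 * Xm ^ 7 := by
    rw [hr, mul_pow, ← rpow_natCast, ← rpow_natCast (Xm ^ _), ← rpow_mul (by positivity),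
      ← rpow_mul X0]
    norm_num
  rw [← hr]
  have T0 : 0 ≤ t * (κ0 * w) ^ 4 := by positivity
  rcases le_total (K * κ0) n with c | c
  swap
  · have b1 : 1 ≤ κ0 * w := by
      refine le_of_pow_le_pow_left₀ three_ne_zero (by positivity) ?_
      have b2 := mul_le_mul_of_nonneg_right (pow_le_pow_left₀ n0.le c 2) (pow_pos w0 3).le
      have b3 : K ^ 2 * κ0 ^ 2 ≤ K ^ 3 * κ0 ^ 3 := mul_le_mul (pw 2 3 (by norm_num))
        (pow_le_pow_right₀ κ1 (by norm_num)) (by positivity) (by positivity)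
      have b4 := mul_le_mul_of_nonneg_right b3 (pow_pos w0 3).le
      have b5 : K ^ 3 * 1 ^ 3 ≤ K ^ 3 * (κ0 * w) ^ 3 := by linarith [pow_pos Kp 3]
      exact le_of_mul_le_mul_left b5 (pow_pos Kp 3)
    have b2 : t ≤ t * (κ0 * w) ^ 4 := le_mul_of_one_le_right t0 (one_le_pow₀ b1)
    have b3 : ∑ k ∈ B, dz k * u k ^ 4 ≤ ∑ k ∈ B, dz k * 2 ^ 4 := sum_le_sum fun k hk =>
      mul_le_mul_of_nonneg_left (pow_le_pow_left₀ (u0 k hk).1 (u0 k hk).2 4) (h.nn k hk)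
    rw [← sum_mul] at b3
    have b4 : K * 1 ≤ K ^ 5 * Λ ^ 4 := mul_le_mul (by simpa using pw 1 5 (by norm_num)) L4
      zero_le_one (by positivity)
    have b5 := mul_le_mul b4 (b2.trans (le_add_of_nonneg_right r0)) t0 (by positivity)
    have b6 : 0 ≤ K * t := by positivity
    linarith [h.wt]
  have e23 : ∀ y : ℝ, 0 ≤ y → (y ^ 3) ^ ((2 : ℝ) / 3) = y ^ 2 := fun y y0 => by
    rw [← rpow_natCast, ← rpow_mul y0]; norm_num
  obtain ⟨y0, y1, y3⟩ : ∃ y0 : ℝ, 1 ≤ y0 ∧ y0 ^ 3 = K * κ0 :=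
    ⟨(K * κ0) ^ ((1 : ℝ) / 3), one_le_rpow (by nlinarith) (by norm_num), by
      rw [← rpow_natCast, ← rpow_mul (by positivity)]; norm_num⟩
  have key : ∀ y, y0 ≤ y → y ^ 3 ≤ n → ∀ k ∈ B, u k / Λ ≤ y ^ 2 * w + ev f (y ^ 3 * v) a b k :=
    fun y g1 g2 k hk => by
      have g3 : K * κ0 ≤ y ^ 3 := y3 ▸ pow_le_pow_left₀ (by linarith) g1 3
      have g4 := hu _ g3 g2 k hk
      rw [e23 y (by linarith)] at g4
      rw [div_le_iff₀' Λp]
      exact g4.trans (mul_le_mul_of_nonneg_left (by linarith [h.win _ g3 k hk]) Λp.le)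
  have ck := cake4 B (u := fun k => u k / Λ) (e := fun y k => ev f (y ^ 3 * v) a b k) (w := w)
    (y0 := y0) (D := 2 * D) (X := K * (κ0 * Xm)) h.nn (fun k hk => div_nonneg (u0 k hk).1 Λp.le)
    h.wt w0 (by linarith) (by positivity)
    (fun k hk => (key y0 le_rfl (y3 ▸ c) k hk).trans (by linarith [h.sup _ y3.ge k hk]))
    fun y g1 g2 => by
      have yp : 0 < y := by linarith
      refine ⟨key y g1 ?_, h.sq _ (y3 ▸ pow_le_pow_left₀ (by linarith) g1 3)⟩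
      refine le_of_pow_le_pow_left₀ two_ne_zero n0.le (le_of_mul_le_mul_right ?_ (pow_pos w0 3))
      have g3 := pow_le_pow_left₀ (by positivity) (show y ^ 2 * w ≤ 2 by linarith [h.D1]) 3
      have g4 := one_le_pow₀ (n := 3) K1
      linarith
  have e1 : ∑ k ∈ B, dz k * u k ^ 4 = Λ ^ 4 * ∑ k ∈ B, dz k * (u k / Λ) ^ 4 := by
    rw [mul_sum]; exact sum_congr rfl fun _ _ => by field_simp
  have b1 : (y0 ^ 2 * w) ^ 4 ≤ (K * κ0 * w) ^ 4 := pow_le_pow_left₀ (by positivity)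
    (mul_le_mul_of_nonneg_right (y3 ▸ pow_le_pow_right₀ y1 (by norm_num)) w0.le) 4
  have b2 := mul_le_mul_of_nonneg_right b1 (show 0 ≤ K * t by positivity)
  have b3 : w ^ 2 * (κ0 * Xm) * √(2 * D / w) ≤ 2 * K * r := by
    refine le_of_pow_le_pow_left₀ (n := 6) (by norm_num) (by positivity) ?_
    have D0 := h.D0
    have g1 : √(2 * D / w) ^ 6 = (2 * D / w) ^ 3 := by
      rw [show 6 = 2 * 3 from rfl, pow_mul, sq_sqrt (by positivity)]
    have g2 : (w ^ 2 * (κ0 * Xm) * √(2 * D / w)) ^ 6 = 8 * (w ^ 9 * (κ0 * Xm) ^ 6) * D ^ 3 := by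
      rw [mul_pow, g1]; field_simp; ring
    have g3 := mul_le_mul_of_nonneg_left h.D3 (show 0 ≤ 8 * (w ^ 9 * (κ0 * Xm) ^ 6) by positivity)
    have g4 : K ^ 1 * κ0 ^ 7 ≤ K ^ 6 * κ0 ^ 9 := mul_le_mul (pw 1 6 (by norm_num))
      (pow_le_pow_right₀ κ1 (by norm_num)) (by positivity) (by positivity)
    have g5 := mul_le_mul_of_nonneg_right g4 (show 0 ≤ w ^ 9 * Xm ^ 7 by positivity)
    have g6 : 0 ≤ K ^ 6 * κ0 ^ 9 * (w ^ 9 * Xm ^ 7) := by positivity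
    rw [g2, mul_pow _ r, r6]
    linarith
  have b4 := mul_le_mul_of_nonneg_left b3 Kp.le
  have b5 := mul_le_mul_of_nonneg_right (pw 2 5 (by norm_num)) r0
  have b6 : 0 ≤ K ^ 5 * (t * (κ0 * w) ^ 4) := by positivity
  have b7 : ∑ k ∈ B, dz k * (u k / Λ) ^ 4 ≤ 16384 * K ^ 5 * (t * (κ0 * w) ^ 4 + r) := by
    linarith
  rw [e1]
  linarith [mul_le_mul_of_nonneg_left b7 (show 0 ≤ Λ ^ 4 by positivity)]

end Crest.Agent.T156.Q96

end
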