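import Crest.Agent.T156.CakeS_64
import Crest.Agent.T156.Sun_9

/-!
# Row 156 (helper50): greedy blocks, and the layer cake on a block by the rising sun count
-/

set_option autoImplicit false
set_option linter.unusedVariables false

noncomputable section

namespace Crest.Agent.T156.Alt.S50

open Real Finset Crest.Agent.T156.Sun9

/-- **greedy blocks** -/
theorem greedy {F G : ℕ → ℝ} {P : ℕ → Prop} [DecidablePred P] {J N : ℕ}
    (G0 : ∀ k, J ≤ k → 0 ≤ G k) (hP : ∀ i k, i ≤ k → P k → P i)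
    (h : ∀ k0, J ≤ k0 → k0 < N → P k0 → ∃ k1, k0 < k1 ∧ k1 ≤ N ∧
      ∑ k ∈ (Ico k0 k1).filter P, F k ≤ ∑ k ∈ Ico k0 k1, G k) :
    ∑ k ∈ (Ico J N).filter P, F k ≤ ∑ k ∈ Ico J N, G k := by
  suffices H : ∀ d k0, J ≤ k0 → N ≤ k0 + d →
      ∑ k ∈ (Ico k0 N).filter P, F k ≤ ∑ k ∈ Ico k0 N, G k from H N J le_rfl (by omega)
  intro d
  induction d with
  | zero => intro k0 _ h2; rw [Ico_eq_empty_of_le (by omega)]; simp
  | succ d ih =>
    intro k0 h1 h2
    rcases le_or_gt N k0 with c | c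
    · rw [Ico_eq_empty_of_le c]; simp
    by_cases hp : P k0
    · obtain ⟨k1, a1, a2, a3⟩ := h k0 h1 c hp
      have b := ih k1 (by omega) (by omega)
      rw [sum_filter] at a3 b ⊢
      rw [← sum_Ico_consecutive _ a1.le a2, ← sum_Ico_consecutive G a1.le a2]
      exact add_le_add a3 b
    · rw [filter_false_of_mem fun k hk hk' => hp (hP _ _ (mem_Ico.1 hk).1 hk'), sum_empty]
      exact sum_nonneg fun k hk => G0 k (h1.trans (mem_Ico.1 hk).1)

theorem cone_of {f : ℕ → ℝ} {σ : ℝ} {a b k j : ℕ} (hf : Monotone f)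
    (g : Good (fun i => (i : ℝ)) f σ a b k) (h1 : a ≤ j) (h2 : j ≤ b) :
    |f j - f k| ≤ σ * |(j : ℝ) - k| := by
  rcases le_total j k with c | c
  · have c' : (j : ℝ) ≤ k := by exact_mod_cast c
    rw [abs_sub_comm, abs_of_nonneg (sub_nonneg.2 (hf c)), abs_sub_comm,
      abs_of_nonneg (sub_nonneg.2 c')]
    exact g.2 j h1 c
  · have c' : (k : ℝ) ≤ j := by exact_mod_cast c
    rw [abs_of_nonneg (sub_nonneg.2 (hf c)), abs_of_nonneg (sub_nonneg.2 c')]
    exact g.1 j c h2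

/-- a node with a cone -/
theorem ex_cone {f : ℕ → ℝ} {σ : ℝ} {a b p q : ℕ} (hf : Monotone f) (σ0 : 0 ≤ σ) (h1 : a ≤ p)
    (h2 : p ≤ q) (h3 : q ≤ b) (h : 2 * (f b - f a) < σ * ((q : ℝ) - p + 1)) :
    ∃ k, p ≤ k ∧ k ≤ q ∧ ∀ j, a ≤ j → j ≤ b → |f j - f k| ≤ σ * |(j : ℝ) - k| := by
  obtain ⟨k, a1, a2, g⟩ := exists_good (x := fun i => (i : ℝ)) (μ := 1) hf σ0 h1 h2 h3 zero_le_one
    (fun i _ _ => by push_cast; linarith) (by rwa [mul_one])
  exact ⟨k, a1, a2, fun j => cone_of hf g⟩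

/-- **one block** -/
theorem blk {f w u : ℕ → ℝ} {s : Finset ℕ} {a b : ℕ} {σ μ W α β ρ r : ℝ} (hf : Monotone f)
    (hab : a ≤ b) (hs : s ⊆ Icc a b) (hw : ∀ k ∈ s, 0 ≤ w k ∧ w k ≤ μ) (hW : ∑ k ∈ s, w k ≤ W)
    (σ0 : 0 < σ) (α0 : 0 < α) (β0 : 0 ≤ β) (ρ0 : 0 ≤ ρ) (μ0 : 0 ≤ μ) (hr : f b - f a ≤ r)
    (u0 : ∀ k ∈ s, 0 ≤ u k)
    (hu : ∀ k ∈ s, ∀ i : ℕ, (∀ j, a ≤ j → j ≤ b → |f j - f k| ≤ 8 ^ i * σ * |(j : ℝ) - k|) →
      u k ≤ 4 ^ i * α + β)
    (hD : ∀ k ∈ s, u k ≤ α + β + ρ) (q : ℕ) :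
    ∑ k ∈ s, w k * u k ^ (q + 2) ≤ 4 ^ (q + 2) * (W * (α ^ (q + 2) + β ^ (q + 2)) +
      32 * (μ * r / σ * (α * √α * (√ρ * ρ ^ q)))) := by
  classical
  have r0 : 0 ≤ r := (sub_nonneg.2 (hf hab)).trans hr
  have W0 : 0 ≤ W := (sum_nonneg fun k hk => (hw k hk).1).trans hW
  have K := Ck64.cakeR s (w := w) (u := fun k => max (u k - β) 0) (Y := 2 * (μ * r / σ))
    (good := fun i k => Good (fun i => (i : ℝ)) f (8 ^ i * σ) a b k) (fun k hk => (hw k hk).1)
    (fun k _ => le_max_right _ _) α0 ρ0 (by positivity) hW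
    (fun k hk i g => max_le (by linarith [hu k hk i fun j => cone_of hf g]) (by positivity))
    (fun k hk => max_le (by linarith [hD k hk]) (by positivity)) (fun i => by
      have c := card_bad (x := fun i => (i : ℝ)) (Λ := 8 ^ i * σ) (μ := 1) hf (by positivity) hab
        (fun i _ _ => by push_cast; linarith)
      have c1 := sum_le_card_nsmul (s.filter fun k =>
        ¬Good (fun i => (i : ℝ)) f (8 ^ i * σ) a b k) w μ fun k hk => (hw k (mem_filter.1 hk).1).2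
      have c2 : ((s.filter fun k => ¬Good (fun i => (i : ℝ)) f (8 ^ i * σ) a b k).card : ℝ) ≤
          ((Icc a b).filter fun k => ¬Good (fun i => (i : ℝ)) f (8 ^ i * σ) a b k).card := by
        exact_mod_cast card_le_card (filter_subset_filter _ hs)
      rw [nsmul_eq_mul] at c1
      refine le_trans (by convert c1) ((mul_le_mul_of_nonneg_right c2 μ0).trans ?_)
      rw [le_div_iff₀ (by positivity), ← mul_div_assoc, le_div_iff₀ σ0]
      have c3 := mul_le_mul_of_nonneg_left (c.trans (show _ ≤ 2 * r by linarith)) μ0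
      refine le_trans (le_of_eq ?_) (c3.trans (le_of_eq (by ring)))
      rw [mul_one]; ring) q
  have s1 : ∑ k ∈ s, w k * u k ^ (q + 2) ≤ ∑ k ∈ s, 2 ^ (q + 2) *
      (w k * max (u k - β) 0 ^ (q + 2) + w k * β ^ (q + 2)) := sum_le_sum fun k hk => by
    have e1 : u k ≤ max (u k - β) 0 + β := by linarith [le_max_left (u k - β) 0]
    have e2 := (pow_le_pow_left₀ (u0 k hk) e1 (q + 2)).trans
      (add_pow_le (le_max_right _ _) β0 (q + 2))
    have e3 : (2 : ℝ) ^ (q + 2 - 1) ≤ 2 ^ (q + 2) := pow_le_pow_right₀ one_le_two (by omega)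
    have e4 := e2.trans (mul_le_mul_of_nonneg_right e3 (by positivity))
    have := mul_le_mul_of_nonneg_left e4 (hw k hk).1
    linarith
  rw [← mul_sum, sum_add_distrib, ← sum_mul] at s1
  have s2 := mul_le_mul_of_nonneg_right hW (show 0 ≤ β ^ (q + 2) by positivity)
  have s3 : (1 : ℝ) ≤ 2 ^ (q + 2) := one_le_pow₀ one_le_two
  have s4 := mul_le_mul_of_nonneg_right s3 (show 0 ≤ W * β ^ (q + 2) by positivity)
  have e4 : (4 : ℝ) ^ (q + 2) = 2 ^ (q + 2) * 2 ^ (q + 2) := by rw [← mul_pow]; norm_num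
  rw [e4, mul_assoc]
  refine s1.trans (mul_le_mul_of_nonneg_left ?_ (by positivity))
  linarith

end Crest.Agent.T156.Alt.S50

end
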