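import Crest.Agent.T156.SzGeo_98
import Crest.Agent.T156.QTop_57

/-!
# Row 156, block (L): the escape cone, frame of a plateau node (helper98)
-/

set_option autoImplicit false
set_option maxHeartbeats 400000

noncomputable section

namespace Crest.Agent.T156.Alt.SzT98

open Real Finset
open Crest.Agent.T156.Alt.Md67

/-- `QG` without `w4`, with the weak forms and the forward cone up to the distance `D` -/
structure QF (K Λ₀ : ℝ) (S : Sc) (M : Md) (m : ℕ) (a t : ℝ) (k0 k1 : ℕ) (c ρ τ D : ℕ → ℝ) :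
    Prop where
  blk : TB K S M t k0 k1
  crude : Crude Λ₀ S M m a t k0
  c0 : 0 ≤ c k0
  clk : ∀ k, k0 ≤ k → k < k1 → c k ≤ c (k + 1) ∧ c (k + 1) ≤ c k + K * S.v
  lip : ∀ k, k0 ≤ k → k < k1 → |ρ (k + 1) - ρ k| ≤ K * S.v
  rn : ∀ k, k0 ≤ k → k ≤ k1 → 1 ≤ S.n * ρ k
  ge : ∀ k, k0 ≤ k → k ≤ k1 → ρ k ≤ τ k
  loc : ∀ k, k0 ≤ k → k ≤ k1 → |M.rb m a k - c k| ≤ τ k
  up : ∀ k i : ℕ, k0 ≤ k → k ≤ i → i ≤ k1 → ((i : ℝ) - k) * S.v ≤ ρ k → τ i ≤ K * τ k
  dn : ∀ i k : ℕ, k0 ≤ i → i ≤ k → k ≤ k1 → τ i * ρ k ≤ K * τ k * (ρ k + ((k : ℝ) - i) * S.v)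
  t4 : ∀ k, k0 ≤ k → k ≤ k1 → S.w3 t ≤ τ k * min (ρ k) t * t
  den : ∀ k y : ℕ, k0 ≤ k → k ≤ k1 → k0 < y → y < k1 → |(y : ℝ) - k| * S.v ≤ ρ k →
    1 ≤ τ k ∨ S.w3 t * S.v ≤ K * M.dz m a y * (τ k * min (ρ k) t ^ 2)
  rD : ∀ k, ρ k ≤ D k
  fw : ∀ k i : ℕ, k ≤ i → ((i : ℝ) - k) * S.v ≤ D k →
    τ i * ρ k ≤ K * τ k * (ρ k + ((i : ℝ) - k) * S.v)
  w4 : ∀ k, S.w3 t ≤ τ k ^ 2 * min (D k) t

variable (v l L κ : ℝ) (j : ℕ)

/-- distance above `j` -/
def aa (i : ℕ) : ℝ := max (((i : ℝ) - j) * v) 0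
/-- distance below `j` -/
def bb (i : ℕ) : ℝ := max (((j : ℝ) - i) * v) 0
/-- windows -/
def rr (i : ℕ) : ℝ := min (l + aa v j i) L + bb v j i
/-- tolerance -/
def tt (i : ℕ) : ℝ := κ * (l + aa v j i + bb v j i) * exp (aa v j i / L)
/-- reach of the forward cone -/
def DD (i : ℕ) : ℝ := L + bb v j i

variable {v l L κ j}

theorem aa0 (i : ℕ) : 0 ≤ aa v j i := le_max_right _ _
theorem bb0 (i : ℕ) : 0 ≤ bb v j i := le_max_right _ _
theorem ab (i : ℕ) : aa v j i - bb v j i = ((i : ℝ) - j) * v := by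
  unfold aa bb
  rw [show ((j : ℝ) - i) * v = -(((i : ℝ) - j) * v) by ring]
  exact max_zero_sub_max_neg_zero_eq_self _
theorem ab' (hv : 0 ≤ v) (i : ℕ) : aa v j i + bb v j i = |(i : ℝ) - j| * v := by
  unfold aa bb
  rw [show ((j : ℝ) - i) * v = -(((i : ℝ) - j) * v) by ring, ← abs_of_nonneg hv, ← abs_mul,
    abs_of_nonneg hv]
  exact max_zero_add_max_neg_zero_eq_abs_self _
theorem aa_le {i : ℕ} {x : ℝ} (hx : 0 ≤ x) (h : ((i : ℝ) - j) * v ≤ x) : aa v j i ≤ x := max_le h hx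
theorem bb_le {i : ℕ} {x : ℝ} (hx : 0 ≤ x) (h : ((j : ℝ) - i) * v ≤ x) : bb v j i ≤ x := max_le h hx
theorem rr_self (h : l ≤ L) : rr v l L j j = l := by simp [rr, aa, bb, h]
theorem tt_self : tt v l L κ j j = κ * l := by simp [tt, aa, bb]

theorem mv (hv : 0 ≤ v) {k i : ℕ} (h : k ≤ i) : 0 ≤ ((i : ℝ) - k) * v ∧ aa v j k ≤ aa v j i ∧
    bb v j i ≤ bb v j k ∧ aa v j i ≤ aa v j k + ((i : ℝ) - k) * v ∧
    bb v j k ≤ bb v j i + ((i : ℝ) - k) * v := by
  have d : 0 ≤ ((i : ℝ) - k) * v := mul_nonneg (sub_nonneg.2 (by exact_mod_cast h)) hv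
  have a1 := ab (v := v) (j := j) i
  have a2 := ab (v := v) (j := j) k
  have := aa0 (v := v) (j := j) i
  have := aa0 (v := v) (j := j) k
  have := bb0 (v := v) (j := j) i
  have := bb0 (v := v) (j := j) k
  exact ⟨d, aa_le (by linarith) (by linarith), bb_le (by linarith) (by linarith),
    aa_le (by linarith) (by linarith), bb_le (by linarith) (by linarith)⟩

section fr

variable (hv : 0 ≤ v) (lp : 0 < l) (lL : l ≤ L) (k1 : 1 ≤ κ)
include lp lL

theorem l_rr (i : ℕ) : l ≤ rr v l L j i := by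
  have := le_min (le_add_of_nonneg_right (a := l) (aa0 (v := v) (j := j) i)) lL
  unfold rr
  linarith [bb0 (v := v) (j := j) i]

theorem rr_le (i : ℕ) : rr v l L j i ≤ l + aa v j i + bb v j i :=
  add_le_add (min_le_left _ _) le_rfl

include k1

theorem P_tt (i : ℕ) : κ * (l + aa v j i + bb v j i) ≤ tt v l L κ j i := by
  have := aa0 (v := v) (j := j) i
  have := bb0 (v := v) (j := j) i
  have := lp.trans_le lL
  exact le_mul_of_one_le_right (by positivity) (one_le_exp (by positivity))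

theorem r_tt (i : ℕ) : κ * rr v l L j i ≤ tt v l L κ j i :=
  (mul_le_mul_of_nonneg_left (rr_le lp lL i) (by linarith)).trans (P_tt lp lL k1 i)

theorem l_tt (i : ℕ) : κ * l ≤ tt v l L κ j i :=
  (mul_le_mul_of_nonneg_left (l_rr lp lL i) (by linarith)).trans (r_tt lp lL k1 i)

theorem r_tt' (i : ℕ) : rr v l L j i ≤ tt v l L κ j i :=
  (le_mul_of_one_le_left (lp.le.trans (l_rr lp lL i)) k1).trans (r_tt lp lL k1 i)

/-- growth by one scale -/
theorem tt_cmp {i k : ℕ} {x c : ℝ} (h1 : aa v j i ≤ aa v j k + L) (hx : 0 ≤ x) (hc : 0 ≤ c)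
    (h2 : (l + aa v j i + bb v j i) * x ≤ (l + aa v j k + bb v j k) * c) :
    tt v l L κ j i * x ≤ 3 * tt v l L κ j k * c := by
  have L0 := lp.trans_le lL
  have e : exp (aa v j i / L) ≤ 3 * exp (aa v j k / L) :=
    calc _ ≤ exp (1 + aa v j k / L) := exp_le_exp.2 (by
          rw [div_le_iff₀ L0, add_mul, one_mul, div_mul_cancel₀ _ L0.ne']; linarith)
      _ ≤ _ := by
          rw [exp_add]
          exact mul_le_mul_of_nonneg_right (exp_one_lt_d9.le.trans (by norm_num)) (exp_pos _).le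
  have := aa0 (v := v) (j := j) k
  have := bb0 (v := v) (j := j) k
  have k0 : 0 ≤ κ := by linarith
  calc _ = κ * ((l + aa v j i + bb v j i) * x) * exp (aa v j i / L) := by unfold tt; ring
    _ ≤ κ * ((l + aa v j k + bb v j k) * c) * (3 * exp (aa v j k / L)) := by gcongr
    _ = _ := by unfold tt; ring

theorem big {n : ℝ} (n0 : 0 < n) (nl : 1 ≤ n * l) {i : ℕ} (h : log n * L ≤ aa v j i) :
    1 ≤ tt v l L κ j i := by
  have L0 := lp.trans_le lL
  have a1 : n ≤ exp (aa v j i / L) := by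
    rw [← exp_log n0]
    exact exp_le_exp.2 ((le_div_iff₀ L0).2 h)
  have := aa0 (v := v) (j := j) i
  have := bb0 (v := v) (j := j) i
  have a2 : l ≤ κ * (l + aa v j i + bb v j i) :=
    le_trans (by linarith) (le_mul_of_one_le_left (by positivity) k1)
  have := mul_le_mul a2 a1 n0.le (by positivity)
  unfold tt
  linarith

end fr

/-- **the frame of the escape cone at `j`** -/
theorem frame {K Λ₀ D : ℝ} {S : Sc} {M : Md} {m : ℕ} {a : ℝ} {k0 k1 : ℕ} (B : TB K S M 1 k0 k1)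
    (cr : Crude Λ₀ S M m a 1 k0) (hm : 0 < m) (h : Cl S M) (K6 : 6 ≤ K) (lp : 0 < l) (lL : l ≤ L)
    (L1 : L ≤ 1) (lg : 1 ≤ log S.n) (LD : 2 * log S.n * L ≤ D) (hκ : 1 ≤ κ) (nl : 1 ≤ S.n * l)
    (t4 : S.w3 1 ≤ κ * l * l) (t5 : S.w3 1 ≤ (κ * l) ^ 2 * L)
    (loc : ∀ i : ℕ, k0 ≤ i → ((i : ℝ) - j) * S.v ≤ D →
      |M.rb m a i - M.rb m a j| ≤ κ * (l + |(i : ℝ) - j| * S.v))
    (near : ∀ y : ℕ, k0 < y → |(y : ℝ) - j| * S.v ≤ D →
      S.w3 1 * S.v ≤ K * M.dz m a y * (κ * l * l ^ 2))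
    (far : ∀ y : ℕ, k0 < y → D < ((j : ℝ) - y) * S.v →
      S.w3 1 * S.v ≤ K * M.dz m a y * (κ * (((j : ℝ) - y) * S.v / 2) ^ 3))
    (dz0 : ∀ y, 0 ≤ M.dz m a y) :
    QF K Λ₀ S M m a 1 k0 k1 (fun _ => M.rb m a j) (rr S.v l L j) (tt S.v l L κ j) (DD S.v L j) := by
  have v0 := h.v0
  have L0 := lp.trans_le lL
  have l1 := lL.trans L1
  have rl := l_rr (v := S.v) (j := j) lp lL
  have lt := l_tt (v := S.v) (j := j) lp lL hκ
  have a0 := aa0 (v := S.v) (j := j)
  have b0 := bb0 (v := S.v) (j := j)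
  have e := ab (v := S.v) (j := j)
  have kl : 0 < κ * l := by positivity
  have t0 : ∀ i, 0 < tt S.v l L κ j i := fun i => kl.trans_le (lt i)
  have LD' : log S.n * L ≤ D / 2 := by linarith
  have LD2 : L ≤ D / 2 := (le_mul_of_one_le_left L0.le lg).trans LD'
  have bg := fun i => big (v := S.v) (j := j) (i := i) lp lL hκ h.N0 nl
  have rD : ∀ k, rr S.v l L j k ≤ DD S.v L j k := fun k => add_le_add (min_le_right _ _) le_rfl
  have key : ∀ {P r d : ℝ}, r ≤ P → 0 ≤ d → (P + d) * r ≤ P * (r + d) := fun h1 h2 => by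
    nlinarith
  have fw : ∀ k i : ℕ, k ≤ i → ((i : ℝ) - k) * S.v ≤ DD S.v L j k → tt S.v l L κ j i *
      rr S.v l L j k ≤ 3 * tt S.v l L κ j k * (rr S.v l L j k + ((i : ℝ) - k) * S.v) :=
    fun k i hk d => by
      obtain ⟨c0, -, c2, c3, -⟩ := mv (j := j) v0.le hk
      have r0 := lp.le.trans (rl k)
      refine tt_cmp lp lL hκ (aa_le (by linarith [a0 k]) ?_) r0 (by linarith)
        (le_trans (mul_le_mul_of_nonneg_right (by linarith) r0) (key (rr_le lp lL k) c0))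
      unfold DD at d
      linarith [e k]
  refine ⟨B, cr, rb_nonneg hm j,
    fun _ _ _ => ⟨le_rfl, le_add_of_nonneg_right (by positivity)⟩, fun i _ _ => ?_,
    fun i _ _ => nl.trans (mul_le_mul_of_nonneg_left (rl i) h.N0.le),
    fun i _ _ => r_tt' lp lL hκ i, fun i b _ => ?_, fun k i _ b _ d => ?_, fun i k _ b _ => ?_,
    fun i _ _ => ?_, fun k y _ _ b _ d => ?_, rD, fun k i b d => ?_, fun k => ?_⟩
  · obtain ⟨-, c1, c2, c3, c4⟩ := mv (j := j) v0.le (Nat.le_succ i)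
    have c5 : (((i.succ : ℕ) : ℝ) - i) * S.v = S.v := by push_cast; ring
    rw [c5] at c3 c4
    have c6 : min (l + aa S.v j i) L ≤ min (l + aa S.v j i.succ) L :=
      min_le_min (by linarith) le_rfl
    have c7 : min (l + aa S.v j i.succ) L ≤ min (l + aa S.v j i) L + S.v := by
      rw [← min_add_add_right]
      exact min_le_min (by linarith) (by linarith)
    have : S.v ≤ K * S.v := le_mul_of_one_le_left v0.le (by linarith)
    unfold rr
    exact abs_le.2 ⟨by linarith, by linarith⟩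
  · rcases le_total (((i : ℝ) - j) * S.v) D with d | d
    · refine (loc i b d).trans (le_trans (le_of_eq ?_) (P_tt lp lL hκ i))
      rw [add_assoc, ab' v0.le]
    · refine le_trans (abs_le.2 ⟨?_, ?_⟩) (bg i (by linarith [e i, b0 i]))
      · linarith [rb_nonneg (M := M) (a := a) hm i, rb_le_one (M := M) (a := a) hm j]
      · linarith [rb_nonneg (M := M) (a := a) hm j, rb_le_one (M := M) (a := a) hm i]
  · have c := fw k i b (d.trans (rD k))
    have r0 := lp.trans_le (rl k)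
    refine le_of_mul_le_mul_right (c.trans ?_) r0
    have := mul_le_mul_of_nonneg_left d (t0 k).le
    have := mul_le_mul_of_nonneg_right K6 (mul_pos (t0 k) r0).le
    nlinarith
  · obtain ⟨c0, c1, -, -, c4⟩ := mv (j := j) v0.le b
    have r0 := lp.le.trans (rl k)
    refine (tt_cmp lp lL hκ (by linarith) r0 (by linarith)
      (le_trans (mul_le_mul_of_nonneg_right (by linarith) r0) (key (rr_le lp lL k) c0))).trans ?_
    have := t0 k
    gcongr
    linarith
  · rw [mul_one]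
    exact t4.trans (mul_le_mul (lt i) (le_min (rl i) l1) lp.le (t0 i).le)
  · rcases le_total (D / 2) (aa S.v j k) with c | c
    · exact Or.inl (bg k (by linarith))
    have d1 := (mul_le_mul_of_nonneg_right (le_abs_self _) v0.le).trans d
    have d2 := (mul_le_mul_of_nonneg_right (neg_le_abs _) v0.le).trans d
    have K0 : 0 ≤ K * M.dz m a y := mul_nonneg (by linarith) (dz0 y)
    rcases le_or_gt (((j : ℝ) - y) * S.v) D with f | f
    · right
      have d3 := rD k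
      unfold DD at d3
      refine (near y b ?_).trans (mul_le_mul_of_nonneg_left
        (mul_le_mul (lt k) (pow_le_pow_left₀ lp.le (le_min (rl k) l1) 2) (by positivity)
          (t0 k).le) K0)
      rw [← abs_of_pos v0, ← abs_mul]
      exact abs_le.2 ⟨by linarith, by linarith [e k]⟩
    rcases le_total 1 (rr S.v l L j k) with g | g
    · exact Or.inl (g.trans (r_tt' lp lL hκ k))
    right
    have d4 : bb S.v j k ≤ rr S.v l L j k :=
      le_add_of_nonneg_left (le_min (by linarith [a0 k]) L0.le)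
    have d5 : ((j : ℝ) - y) * S.v / 2 ≤ rr S.v l L j k := by linarith [e k, a0 k]
    have d6 : 0 ≤ ((j : ℝ) - y) * S.v / 2 := by linarith
    refine (far y b f).trans (mul_le_mul_of_nonneg_left ?_ K0)
    rw [min_eq_left g]
    calc _ ≤ κ * rr S.v l L j k ^ 3 := by gcongr
      _ = κ * rr S.v l L j k * rr S.v l L j k ^ 2 := by ring
      _ ≤ _ := mul_le_mul_of_nonneg_right (r_tt lp lL hκ k) (sq_nonneg _)
  · refine (fw k i b d).trans ?_
    have := t0 k
    have := (mv (j := j) v0.le b).1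
    have := lp.le.trans (rl k)
    gcongr
    linarith
  · exact t5.trans (mul_le_mul (pow_le_pow_left₀ kl.le (lt k) 2)
      (le_min (le_add_of_nonneg_right (b0 k)) L1) L0.le (sq_nonneg _))

end Crest.Agent.T156.Alt.SzT98

end
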