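import Crest.Agent.T156.SzL_32
import Crest.Agent.T156.SzGeo_98

/-!
# Row 156, block (L) (helper32): the last window, rise from the energy of the top
-/

set_option autoImplicit false

noncomputable section

namespace Crest.Agent.T156.Alt.SzT98

open Real Finset Filter
open Crest.Agent.T156.Alt.E61 Crest.Agent.T156.Alt.Md67 Crest.Agent.T156.Alt.C33
open Crest.Agent.T156.Alt.L69 Crest.Agent.T156.Alt.Sz9 Crest.Agent.T156.Alt.V32

/-- **the last window**: cone of slope `k0` below the node `p` at distance `d` of the corner -/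
def SzL2 : Prop := CL fun E Λ S M m a => ∀ l0 X Xp Vt γ u1 j Lp, Far E S M Xp Vt γ u1 Lp →
  Ap S M m a l0 X Xp Vt u1 j → ∀ (p : ℕ) (k0 d : ℝ), p < S.J → M.s S.J - M.s p ≤ d → E * d ≤ 1 →
    1 ≤ k0 →
    (∀ i : ℕ, p - p / 3 ≤ i → i ≤ p → M.rb m a p - M.rb m a i ≤ k0 * (((p : ℝ) - i) * S.v)) →
    ∑ k ∈ Ico p S.J, M.dz m a k * E61.u4 M m a k ^ 2 ≤
      Λ * (d * (k0 ^ ((2 : ℝ) / 3) * S.w3 1 ^ ((1 : ℝ) / 3)) ^ 2 +
        √(S.w3 1 * (Xp + d ^ 3 + γ ^ 3)) + Np M S Xp Vt γ u1 Lp 2)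

theorem szL2 : SzL2 := by
  refine ((CL.and szL CL_fn).glue' (R := fun E Λ S M m a => Fn S M m a ∧ _) ?_ 0 le_rfl 1 2
    fun C _ ε η _ _ => ⟨10 ^ 7 * C ^ 17, fun S M m a G _ b1 _ _ _ ⟨H, F⟩ => ⟨F, ?_⟩⟩).mono
    fun _ _ _ _ _ _ _ _ _ _ h => h.2
  · rintro E Λ Λ' S M m a l1 h ⟨F, H⟩
    exact ⟨F, fun l0 X Xp Vt γ u1 j Lp a1 a2 p k0 ρ a3 a4 a5 a6 a7 => le_lam
      (sum_nonneg fun k _ => mul_nonneg (F.lg.dz_nonneg k) (sq_nonneg _)) l1 h
      (H l0 X Xp Vt γ u1 j Lp a1 a2 p k0 ρ a3 a4 a5 a6 a7)⟩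
  have b2 := G.K_le
  have b3 := Pre29.rp_le G.n1 (show _ ≤ _ by simpa using b1)
  have b4 := G.C_log
  rw [← G.hC] at b2 b4
  rw [pow_one]
  generalize (S.n : ℝ) ^ η = lam at H b2 b3 ⊢
  generalize (S.n : ℝ) ^ ε = E at H b3 ⊢
  intro l0 X Xp Vt γ u1 j Lp fa ap p k0 d p1 p2 d1 k1 hc
  have h := F.toCl
  have L := F.lg
  have C0 := F.C0
  have C1 := F.C1
  have v0 := F.v0
  have c : ∀ {i j : ℕ}, i ≤ j → S.C ^ i ≤ S.C ^ j := fun e => pow_le_pow_right₀ C1 e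
  have c1 : ∀ i : ℕ, 1 ≤ S.C ^ i := fun i => one_le_pow₀ C1
  have l1 : 1 ≤ lam := by linarith [c1 17]
  have hE : ∀ (x : ℝ) (i : ℕ), x ≤ 10 ^ 7 → i ≤ 17 → x * S.C ^ i ≤ E := fun x i a1 a2 =>
    (mul_le_mul a1 (c a2) (by positivity) (by positivity)).trans (b2.trans b3)
  have hθ : S.C * S.θ ≤ 1 / 2 := by
    linarith [mul_le_mul_of_nonneg_left b4 h.θ0.le, h.msθ]
  have w3 := F.w3_pos one_pos
  have γ0 : 0 ≤ γ := (sub_nonneg.2 (F.sm F.i3)).trans fa.γ0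
  have Xp0 := fa.Xp0.1
  have x3 := rp3 Xp0.le
  have x0 : 0 < Xp ^ ((1 : ℝ) / 3) := by positivity
  generalize Xp ^ ((1 : ℝ) / 3) = x at x3 x0
  have x1 : 200 * S.C ^ 5 * x ≤ 1 := le_of_pow_le_pow_left₀ three_ne_zero zero_le_one (by
    rw [mul_pow, x3]
    linarith [mul_le_mul_of_nonneg_right (hE 8000000 15 (by norm_num) (by norm_num)) Xp0.le,
      fa.Xp0.2])
  have pJ : (p : ℝ) + 1 ≤ S.J := by exact_mod_cast p1
  obtain ⟨t1, t2⟩ := h.s_tel p1.le le_rfl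
  rw [← mul_div_assoc, div_le_iff₀ C0] at t1
  have d0 : 0 ≤ d := (sub_nonneg.2 (F.sm p1.le)).trans p2
  have t3 : ((S.J : ℝ) - p) * S.v ≤ S.C * d := by
    linarith [mul_le_mul_of_nonneg_right p2 C0.le]
  have t4 : S.v ≤ S.C * d := (le_mul_of_one_le_left v0.le (by linarith)).trans t3
  have d2 : 200 * S.C ^ 6 * d ≤ 1 :=
    (mul_le_mul_of_nonneg_right (hE 200 6 (by norm_num) (by norm_num)) d0).trans d1
  have J1 := F.J_lo
  have J2 : 1 ≤ 3 * S.C ^ 4 * M.s S.J := by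
    linarith [mul_le_mul_of_nonneg_left (F.s_mem le_rfl).1 (pow_pos C0 3).le]
  have cd : ∀ i ≤ 6, 200 * (S.C ^ i * d) ≤ 1 := fun i hi => by
    linarith [mul_le_mul_of_nonneg_right (c hi) d0]
  have p3 : 2 * S.J ≤ 3 * p := by
    have : S.C ^ 3 * S.v * (2 * S.J) ≤ S.C ^ 3 * S.v * (3 * p) := by
      linarith [mul_le_mul_of_nonneg_left t3 (pow_pos C0 3).le, cd 4 (by norm_num)]
    exact_mod_cast le_of_mul_le_mul_left this (by positivity)
  have q4 : 0 < 3 * S.C ^ 4 := by positivity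
  have r1 := del_r (k := p) (r := x + S.C * d) h L.m0 hθ ap.top fa.γ0
    (by
      have : 4 * d ≤ M.s S.J := le_of_mul_le_mul_left (by linarith [cd 4 (by norm_num)]) q4
      linarith) (p1.le.trans h.i3)
    (x3.ge.trans (pow_le_pow_left₀ x0.le (le_add_of_nonneg_right (by positivity)) 3))
    (by linarith) (le_of_mul_le_mul_left (by linarith [cd 6 le_rfl]) q4)
    (lt_of_mul_lt_mul_left (by
      linarith [(mul_le_mul_of_nonneg_right (hE 12 4 (by norm_num) (by norm_num))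
        (F.s_nonneg S.jl)).trans fa.jl]) q4.le)
  have u1' : 1 / S.C ≤ du M S.J := by unfold du; linarith [h.atom.2]
  have u2' : 0 < du M S.J := lt_of_lt_of_le (by positivity) u1'
  have r2 := del_up h L.m0 hθ ap.top fa.γ0 le_rfl h.i3 u2'
  have r3 : √(Xp / du M S.J) ≤ S.C * x := by
    refine sqrt_le_iff.2 ⟨by positivity, ?_⟩
    have x2 : x ≤ 1 := by nlinarith [mul_le_mul_of_nonneg_right (c1 5) x0.le]
    rw [div_le_iff₀ u2', ← x3]
    calc _ = x ^ 2 * x := by ring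
      _ ≤ x ^ 2 * S.C := by gcongr; linarith
      _ = (S.C * x) ^ 2 * (1 / S.C) := by field_simp
      _ ≤ _ := by gcongr
  have r4 := Ap63.q_slow h p1.le h.i3
  have rm := Md67.rb_mono (M := M) (a := a) L.m0
  have r5 := rm (Nat.sub_le S.J 1)
  obtain ⟨y, y1, y2, y3, y4⟩ : ∃ y, x ≤ y ∧ d ≤ y ∧ γ ≤ y ∧ y ^ 3 ≤ Xp + d ^ 3 + γ ^ 3 := by
    have := pow_nonneg d0 3
    have := pow_nonneg γ0 3
    refine ⟨max x (max d γ), le_max_left _ _, (le_max_left _ _).trans (le_max_right _ _),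
      (le_max_right _ _).trans (le_max_right _ _), ?_⟩
    rcases max_choice x (max d γ) with e | e <;> rw [e]
    · linarith
    · rcases max_choice d γ with e | e <;> rw [e] <;> linarith
  have y0 := x0.trans_le y1
  have := H l0 X Xp Vt γ u1 j Lp fa ap p (14 * S.C ^ 3 * k0) (16 * S.C ^ 2 * y) p1 p3
    (one_le_mul_of_one_le_of_one_le (by linarith [c1 3]) k1) (fun i _ a2 => by
      have i2 : 0 ≤ ((p : ℝ) - i) * S.v := mul_nonneg (sub_nonneg.2 (by exact_mod_cast a2)) v0.le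
      rcases le_or_gt (p - p / 3) i with e | e
      · exact (hc i e a2).trans (mul_le_mul_of_nonneg_right
          (le_mul_of_one_le_left (by linarith) (by linarith [c1 3])) i2)
      · have a3 : 2 * (S.J : ℝ) ≤ 9 * ((p : ℝ) - i) := by
          have : ((2 * S.J + 9 * i : ℕ) : ℝ) ≤ (9 * p : ℕ) := by exact_mod_cast (by omega)
          push_cast at this; linarith
        have a4 := mul_le_mul_of_nonneg_left a3 (show 0 ≤ S.C ^ 3 * S.v by positivity)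
        have a5 := mul_le_mul_of_nonneg_left k1 (mul_nonneg (pow_pos C0 3).le i2)
        have a6 := mul_nonneg (pow_pos C0 3).le i2
        linarith [rb_le_one (M := M) (a := a) L.m0 p, rb_nonneg (M := M) (a := a) L.m0 i]) (by
      have a1 : S.C * x ≤ S.C ^ 2 * y := by
        have := le_self_pow₀ C1 two_ne_zero; gcongr
      have a2 : S.C ^ 2 * d ≤ S.C ^ 2 * y := by gcongr
      have a3 := le_mul_of_one_le_left y0.le (c1 2)
      unfold Md.del at r1 r2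
      linarith)
  refine this.trans ?_
  have N0 : 0 ≤ Np M S Xp Vt γ u1 Lp 2 := nonneg_of_mul_nonneg_right
    (le_trans (by positivity) (np_ge F fa (hE 27 3 (by norm_num) (by norm_num)) ap.jn
      (w := S.w3 1 ^ ((1 : ℝ) / 3)) (by positivity) (rp3 w3.le) rfl (Nat.zero_le 2)))
    (by positivity)
  have k0' : 0 < k0 := by linarith
  have a1 : (14 * S.C ^ 3 * k0) ^ ((2 : ℝ) / 3) ≤ 6 * S.C ^ 2 * k0 ^ ((2 : ℝ) / 3) :=
    le_of_pow_le_pow_left₀ three_ne_zero (by positivity) (by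
      rw [rp23 (by positivity), mul_pow _ (k0 ^ _), rp23 k0'.le]
      nlinarith [show 0 ≤ S.C ^ 6 * k0 ^ 2 by positivity])
  have a2 : √(S.w3 1 * (16 * S.C ^ 2 * y) ^ 3) ≤ 64 * S.C ^ 3 * √(S.w3 1 * (Xp + d ^ 3 + γ ^ 3)) := by
    refine sqrt_le_iff.2 ⟨by positivity, ?_⟩
    rw [mul_pow _ (√_), sq_sqrt (by positivity)]
    linarith [mul_le_mul_of_nonneg_left y4 (show 0 ≤ S.C ^ 6 * S.w3 1 by positivity)]
  have a3 : √(S.w3 1 * Xp) ≤ √(S.w3 1 * (Xp + d ^ 3 + γ ^ 3)) := by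
    gcongr; linarith [pow_nonneg d0 3, pow_nonneg γ0 3]
  have a4 : ((S.J : ℝ) - p) * S.v * ((14 * S.C ^ 3 * k0) ^ ((2 : ℝ) / 3) *
      S.w3 1 ^ ((1 : ℝ) / 3)) ^ 2 ≤
      S.C * d * (6 * S.C ^ 2 * k0 ^ ((2 : ℝ) / 3) * S.w3 1 ^ ((1 : ℝ) / 3)) ^ 2 := by gcongr
  have s0 := sqrt_nonneg (S.w3 1 * (Xp + d ^ 3 + γ ^ 3))
  have A0 : 0 ≤ d * (k0 ^ ((2 : ℝ) / 3) * S.w3 1 ^ ((1 : ℝ) / 3)) ^ 2 := by positivity
  rw [sq lam, mul_assoc lam]
  refine mul_le_mul_of_nonneg_left ?_ (by linarith)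
  have e1 : 36 * S.C ^ 5 ≤ lam := by linarith [c (show 5 ≤ 17 by norm_num), c1 17]
  have e2 : 64 * S.C ^ 3 + 1 ≤ lam := by linarith [c (show 3 ≤ 17 by norm_num), c1 17]
  linarith [mul_le_mul_of_nonneg_right e1 A0, mul_le_mul_of_nonneg_right e2 s0,
    mul_le_mul_of_nonneg_right l1 N0]

end Crest.Agent.T156.Alt.SzT98

end
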