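import Crest.Agent.T156.SzGeo_98
import Crest.Agent.T156.SzC_50

/-!
# Row 156, block (L) (helper50): rise and slow variation on the shells of the plateau
-/

set_option autoImplicit false
set_option linter.unusedSectionVars false
set_option linter.unusedVariables false
set_option maxHeartbeats 400000

noncomputable section

namespace Crest.Agent.T156.Alt.S50

open Real Finset
open Crest.Agent.T156.Alt.L69 Crest.Agent.T156.Alt.SzT98 Crest.Agent.T156.Alt.Md67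

theorem rp3 {x : ℝ} (hx : 0 ≤ x) : (x ^ ((1 : ℝ) / 3)) ^ 3 = x := by
  rw [← rpow_natCast, ← rpow_mul hx]; norm_num

theorem sq_div {X a b : ℝ} (X0 : 0 ≤ X) (a0 : 0 < a) (h : a ≤ 4 * b) : √(X / b) ≤ 2 * √(X / a) := by
  have b0 : 0 < b := by linarith
  refine sqrt_le_iff.2 ⟨by positivity, ?_⟩
  rw [mul_pow, sq_sqrt (by positivity), ← mul_div_assoc, div_le_div_iff₀ b0 a0]
  nlinarith [mul_le_mul_of_nonneg_left h X0]

/-- the part of the size that scales with the slope -/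
def af (w d s R x : ℝ) : ℝ :=
  (w * (d + (R + x) ^ 2 / (s ^ 2 * d))) ^ ((1 : ℝ) / 3) + w / (d * s ^ 2)

theorem b_var {w d s d' s' C : ℝ} (w0 : 0 ≤ w) (d0 : 0 < d) (s0 : 0 < s')
    (h1 : d' ≤ C * d) (d1 : 0 < d') (h2 : 3 * s' ≤ 4 * s) : w / (d * s ^ 2) ≤ 2 * C * (w / (d' * s' ^ 2)) := by
  have s1 : 0 < s := by linarith
  have e : s' ^ 2 ≤ 2 * s ^ 2 := by nlinarith
  rw [← mul_div_assoc, div_le_div_iff₀ (by positivity) (by positivity)]
  have := mul_le_mul_of_nonneg_left (mul_le_mul h1 e (by positivity) (d1.le.trans h1)) w0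
  linarith

theorem af_var {w d s R x d' s' R' C : ℝ} (w0 : 0 ≤ w) (d0 : 0 < d) (s0 : 0 < s') (R0 : 0 ≤ R)
    (x0 : 0 ≤ x) (C1 : 1 ≤ C) (h0 : d ≤ C * d') (h1 : d' ≤ C * d) (h2 : 3 * s' ≤ 4 * s)
    (h3 : R ≤ 2 * R') : af w d s R x ≤ 2 * C * af w d' s' R' x := by
  have s1 : 0 < s := by linarith
  have C0 : 0 < C := by linarith
  have d1 : 0 < d' := pos_of_mul_pos_right (d0.trans_le h0) C0.le |> fun h => h
  have R1 : 0 ≤ R' := by linarith
  have e1 := b_var (w := (R + x) ^ 2) (by positivity) d0 s0 h1 d1 h2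
  have e2 : (R + x) ^ 2 / (d' * s' ^ 2) ≤ 4 * (R' + x) ^ 2 / (d' * s' ^ 2) := by
    gcongr; nlinarith
  have e3 : C ≤ C ^ 3 := le_self_pow₀ C1 (by norm_num)
  have e4 : d + (R + x) ^ 2 / (s ^ 2 * d) ≤ (2 * C) ^ 3 * (d' + (R' + x) ^ 2 / (s' ^ 2 * d')) := by
    rw [mul_comm (s ^ 2), mul_comm (s' ^ 2)]
    rw [mul_div_assoc] at e2
    have p : 0 ≤ (R' + x) ^ 2 / (d' * s' ^ 2) := by positivity
    nlinarith [mul_le_mul_of_nonneg_right e3 p, mul_le_mul_of_nonneg_right e3 d1.le,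
      mul_le_mul_of_nonneg_left e2 C0.le, mul_pos C0 d1]
  have e5 : (w * (d + (R + x) ^ 2 / (s ^ 2 * d))) ^ ((1 : ℝ) / 3) ≤
      2 * C * (w * (d' + (R' + x) ^ 2 / (s' ^ 2 * d'))) ^ ((1 : ℝ) / 3) := by
    refine le_of_pow_le_pow_left₀ three_ne_zero (by positivity) ?_
    rw [mul_pow, rp3 (by positivity), rp3 (by positivity), mul_left_comm]
    exact mul_le_mul_of_nonneg_left e4 w0
  have := b_var w0 d0 s0 h1 d1 h2
  unfold af
  linarith

theorem af_pos {w d s R x : ℝ} (w0 : 0 < w) (d0 : 0 < d) (s0 : 0 < s) : 0 < af w d s R x := by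
  unfold af; positivity

theorem num {w d s R x L α : ℝ} (q : ℕ) (w0 : 0 < w) (d0 : 0 < d) (s0 : 0 < s) (R0 : 0 ≤ R)
    (x0 : 0 ≤ x) (L1 : 1 ≤ L) (hα : α = L ^ ((2 : ℝ) / 3) * af w d s R x) :
    R / (L * (d * s + R + x)) * (α * √α * (√R * R ^ q)) ≤ 3 * (α ^ (q + 2) +
      min (R ^ (q + 2) / L) (√(w / (d * s ^ 2)) * R ^ (((q + 2 : ℕ) : ℝ) - 1 / 2))) := by
  have L0 : 0 < L := by linarith
  obtain ⟨t, ht⟩ : ∃ t, t = L ^ ((1 : ℝ) / 3) := ⟨_, rfl⟩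
  have t1 : 1 ≤ t := ht ▸ one_le_rpow L1 (by norm_num)
  have t3 : L = t ^ 3 := by rw [ht, rp3 L0.le]
  have t2 : L ^ ((2 : ℝ) / 3) = t ^ 2 := by
    rw [ht, ← rpow_natCast, ← rpow_mul L0.le]; norm_num
  obtain ⟨r, r0, rfl⟩ : ∃ r, 0 ≤ r ∧ R = r ^ 2 := ⟨√R, sqrt_nonneg _, (sq_sqrt R0).symm⟩
  obtain ⟨y, y0, hy⟩ : ∃ y, 0 ≤ y ∧ af w d s (r ^ 2) x = y ^ 2 :=
    ⟨_, sqrt_nonneg _, (sq_sqrt (af_pos w0 d0 s0).le).symm⟩
  obtain ⟨D, hD⟩ : ∃ D, D = d * s + r ^ 2 + x := ⟨_, rfl⟩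
  have p0 := mul_pos d0 s0
  have D0 : 0 < D := by rw [hD]; positivity
  have D1 : r ^ 2 ≤ D := by linarith
  have key : y ^ 3 ≤ 3 * √(w / (d * s ^ 2)) * D ∨ r ≤ y := by
    obtain ⟨B, hB⟩ : ∃ B, B = w / (d * s ^ 2) := ⟨_, rfl⟩
    obtain ⟨A, hA⟩ : ∃ A, A = (w * (d + (r ^ 2 + x) ^ 2 / (s ^ 2 * d))) ^ ((1 : ℝ) / 3) := ⟨_, rfl⟩
    have B0 : 0 < B := by rw [hB]; positivity
    have A0 : 0 ≤ A := by rw [hA]; positivity
    have A3 : A ^ 3 ≤ B * D ^ 2 := by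
      rw [hA, rp3 (by positivity), show w * (d + (r ^ 2 + x) ^ 2 / (s ^ 2 * d)) =
        B * ((d * s) ^ 2 + (r ^ 2 + x) ^ 2) by rw [hB]; field_simp]
      refine mul_le_mul_of_nonneg_left ?_ B0.le
      rw [hD]; nlinarith [mul_nonneg p0.le (show 0 ≤ r ^ 2 + x by positivity)]
    rw [af, ← hA, ← hB] at hy
    rw [← hB]
    have fin : ∀ Z, 0 ≤ Z → y ^ 2 ≤ 2 * Z → Z ^ 3 ≤ B * D ^ 2 → y ^ 3 ≤ 3 * √B * D :=
      fun Z Z0 a b => by
        refine le_of_pow_le_pow_left₀ two_ne_zero (by positivity) ?_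
        have := pow_le_pow_left₀ (sq_nonneg y) a 3
        rw [mul_pow, mul_pow, sq_sqrt B0.le]
        nlinarith [mul_nonneg B0.le (sq_nonneg D)]
    rcases le_total B A with c | c
    · exact .inl (fin A A0 (by linarith) A3)
    rcases le_total B (r ^ 2) with c' | c'
    · refine .inl (fin B B0.le (by linarith) ?_)
      have := pow_le_pow_left₀ B0.le (c'.trans D1) 2
      nlinarith
    · exact .inr (le_of_pow_le_pow_left₀ two_ne_zero y0 (by linarith))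
  have t0 : 0 < t := by linarith
  have e1 : α = (t * y) ^ 2 := by rw [hα, t2, hy]; ring
  have e2 : (r ^ 2) ^ (((q + 2 : ℕ) : ℝ) - 1 / 2) = r ^ (2 * q + 3) := by
    rw [← rpow_natCast r 2, ← rpow_mul r0, ← rpow_natCast]; congr 1; push_cast; ring
  have e3 : r ^ 2 / (L * D) * (α * √α * (√(r ^ 2) * (r ^ 2) ^ q)) = y ^ 3 * r ^ (2 * q + 3) / D := by
    rw [e1, sqrt_sq (by positivity), sqrt_sq r0, t3]; field_simp; ring
  have e4 : α ^ (q + 2) = (t * y) ^ 3 * (t * y) ^ (2 * q + 1) := by rw [e1]; ring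
  have e5 : y ^ 3 * r ^ (2 * q + 3) / D ≤ y ^ 3 * r ^ (2 * q + 1) := by
    rw [div_le_iff₀ D0]
    have := mul_le_mul_of_nonneg_left D1 (show 0 ≤ y ^ 3 * r ^ (2 * q + 1) by positivity)
    calc _ = y ^ 3 * r ^ (2 * q + 1) * r ^ 2 := by ring
      _ ≤ _ := this
  have yt : y ≤ t * y := le_mul_of_one_le_left y0 t1
  have e6 : r ≤ t * y → y ^ 3 * r ^ (2 * q + 1) ≤ α ^ (q + 2) := fun c => by rw [e4]; gcongr
  rw [← hD, e2, e3]
  have a0 : 0 ≤ α ^ (q + 2) := by rw [e1]; positivity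
  have m0 : 0 ≤ min ((r ^ 2) ^ (q + 2) / L) (√(w / (d * s ^ 2)) * r ^ (2 * q + 3)) :=
    le_min (by positivity) (by positivity)
  rcases le_total r (t * y) with c | c
  · linarith [e6 c]
  rcases key with k | k
  · rcases min_choice ((r ^ 2) ^ (q + 2) / L) (√(w / (d * s ^ 2)) * r ^ (2 * q + 3)) with e | e <;>
      rw [e] at m0 ⊢
    · have : y ^ 3 * r ^ (2 * q + 1) ≤ (r ^ 2) ^ (q + 2) / L := by
        rw [le_div_iff₀ L0, t3]
        calc _ = (t * y) ^ 3 * r ^ (2 * q + 1) := by ring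
          _ ≤ r ^ 3 * r ^ (2 * q + 1) := by gcongr
          _ = _ := by ring
      linarith
    · have : y ^ 3 * r ^ (2 * q + 3) / D ≤ 3 * (√(w / (d * s ^ 2)) * r ^ (2 * q + 3)) := by
        rw [div_le_iff₀ D0]
        have := mul_le_mul_of_nonneg_right k (show 0 ≤ r ^ (2 * q + 3) by positivity)
        linarith
      linarith
  · linarith [e6 (k.trans yt)]

/-- the context at a fixed size, `x = Xp ^ (1/3)` -/
structure DC (S : Sc) (M : Md) (m : ℕ) (a Xp Vt γ u1 : ℝ) : Prop where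
  h : Cl S M
  hm : 0 < m
  hθ : S.C * S.θ ≤ 1 / 2
  w0 : 0 < S.w3 1
  u0 : 0 < S.u0
  X0 : 0 < Xp
  V0 : 0 ≤ Vt
  ue : S.ue ≤ u1
  γ0 : M.s S.Jp - M.s S.J ≤ γ
  top : M.En S m a M.q 2 (M.s S.J / 2) S.C ≤ Xp
  vt : ∀ k, S.J ≤ k → k ≤ S.Jp → u1 ≤ du M k → M.del m a k ≤ Vt
  dj : S.den (M.z (S.J - 1)) ≤ S.C
  u03 : S.u0 ≤ Xp ^ ((1 : ℝ) / 3)
  fine : ∀ k, S.J ≤ k → k ≤ S.Jp → u1 ≤ du M k → 32 * S.C ^ 2 * S.v ≤ ls M S k
  xs : 12 * S.C * Xp ^ ((1 : ℝ) / 3) ≤ M.s S.J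
  jl : M.s S.jl < M.s S.J / 2

/-- density of `Np` -/
def Gp (M : Md) (S : Sc) (Xp Vt γ Lp : ℝ) (p k : ℕ) : ℝ :=
  (Lp ^ ((2 : ℝ) / 3) * ap M S Xp Vt γ k) ^ p + min (Rp M S Xp Vt γ k ^ p / Lp)
    (√(S.w3 1 / (S.den (M.z (k - 1)) * ds M S k ^ 2)) * Rp M S Xp Vt γ k ^ ((p : ℝ) - 1 / 2))

/-- the scaling part of `ap` -/
def a0 (M : Md) (S : Sc) (Xp Vt γ : ℝ) (k : ℕ) : ℝ :=
  af (S.w3 1) (S.den (M.z (k - 1))) (ds M S k) (Rp M S Xp Vt γ k) (Xp ^ ((1 : ℝ) / 3))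

variable {S : Sc} {M : Md} {m : ℕ} {a Xp Vt γ u1 Lp Λ : ℝ}

theorem ap_eq (k : ℕ) : ap M S Xp Vt γ k = a0 M S Xp Vt γ k + √(S.w3 1 / ls M S k) := rfl

namespace DC

variable (D : DC S M m a Xp Vt γ u1)
include D

theorem u1_nn : 0 ≤ u1 := by linarith [D.h.last, D.h.leg.z1 (S.Jp - 1), D.ue]

theorem γn : 0 ≤ γ := by linarith [D.h.sm D.h.i3, D.γ0]

theorem x0 : 0 < Xp ^ ((1 : ℝ) / 3) := rpow_pos_of_pos D.X0 _

theorem R0 (k : ℕ) : 0 ≤ Rp M S Xp Vt γ k :=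
  add_nonneg (add_nonneg (sqrt_nonneg _) (le_min D.V0 (sqrt_nonneg _))) D.γn

theorem G0 (L0 : 0 ≤ Lp) (p k : ℕ) : 0 ≤ Gp M S Xp Vt γ Lp p k := by
  have := D.R0 k
  have := D.w0
  have := D.h.den0 (M.z (k - 1))
  refine add_nonneg (pow_nonneg (mul_nonneg (by positivity) ?_) _)
    (le_min (by positivity) (by positivity))
  unfold ap; positivity

theorem sh {k i : ℕ} (k1 : S.J ≤ k) (k2 : k < S.Jp) (k3 : 2 * u1 ≤ du M k) (i1 : S.J ≤ i)
    (hd : |(i : ℝ) - k| * S.v ≤ ls M S k / (8 * S.C ^ 2)) : Sh S M k i := by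
  have C1 := D.h.C1
  have v0 := D.h.v0
  have u := D.u1_nn
  have p := ls_pos' D.h D.u0 k1 k2
  refine SzT98.sh D.h D.u0 k1 k2 (by linarith [D.ue]) (fun y a b => le_trans ?_
    (D.fine y a (by omega) (by linarith [du_anti D.h D.u0 b]))) i1 (hd.trans ?_)
  · nlinarith [mul_pos (show 0 < S.C by linarith) v0]
  · gcongr; norm_num

theorem R_var {k i : ℕ} (k1 : S.J ≤ k) (k2 : k < S.Jp) (hi : k ≤ i) (s : Sh S M k i) :
    Rp M S Xp Vt γ i ≤ 2 * Rp M S Xp Vt γ k ∧ Rp M S Xp Vt γ k ≤ 2 * Rp M S Xp Vt γ i := by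
  have x0 := D.x0
  have X0 := D.X0.le
  have V0 := D.V0
  have γn := D.γn
  have m1 : M.z (k - 1) ≤ M.z (i - 1) := D.h.leg.zm (by omega)
  have z := (abs_le.1 s.z).2
  have c1 := ds_le_dl (M := M) (S := S) k
  have d1 := (ds_pos D.h D.u0 k1 k2).trans_le (ds_le_du k)
  have d2 := s.du1
  have d3 := du_anti D.h D.u0 hi
  have u03 := D.u03
  have a1 := le_max_left (dl M S k - S.u0) (Xp ^ ((1 : ℝ) / 3))
  have a2 := le_max_right (dl M S k - S.u0) (Xp ^ ((1 : ℝ) / 3))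
  have a3 := le_max_left (dl M S i - S.u0) (Xp ^ ((1 : ℝ) / 3))
  have a4 := le_max_right (dl M S i - S.u0) (Xp ^ ((1 : ℝ) / 3))
  have e : dl M S i = dl M S k + (M.z (i - 1) - M.z (k - 1)) := by unfold dl; ring
  have b1 := sq_div X0 (x0.trans_le a2) (b := max (dl M S i - S.u0) (Xp ^ ((1 : ℝ) / 3)))
    (max_le (by linarith) (by linarith))
  have b2 := sq_div X0 (x0.trans_le a4) (b := max (dl M S k - S.u0) (Xp ^ ((1 : ℝ) / 3)))
    (max_le (by linarith) (by linarith))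
  have mn : ∀ y y' : ℝ, 0 ≤ y' → y ≤ 2 * y' → min Vt y ≤ 2 * min Vt y' := fun y y' h0 h => by
    rcases min_choice Vt y' with e | e <;> rw [e]
    · linarith [min_le_left Vt y]
    · linarith [min_le_right Vt y]
  have b3 := mn _ _ (sqrt_nonneg _) (sq_div X0 d1 (b := du M i) (by linarith))
  have b4 := mn _ _ (sqrt_nonneg _) (sq_div X0 (a := du M i) (b := du M k) (by linarith)
    (by linarith))
  unfold Rp
  constructor <;> linarith

theorem rise {k i i' : ℕ} (k1 : S.J ≤ k) (k2 : k < S.Jp) (k3 : 2 * u1 ≤ du M k) (h1 : i ≤ k)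
    (h2 : k ≤ i') (d1 : ((k : ℝ) - i) * S.v ≤ ls M S k / (8 * S.C ^ 2))
    (d2 : ((i' : ℝ) - k) * S.v ≤ ls M S k / (8 * S.C ^ 2)) :
    M.rb m a i' - M.rb m a i ≤ 11 * S.C * Rp M S Xp Vt γ k := by
  have h := D.h
  have C1 := h.C1
  have C0 := h.C0
  have v0 := h.v0
  have u := D.u1_nn
  have x0 := D.x0
  have X0 := D.X0.le
  have γn := D.γn
  have u0 := D.u0
  have u03 := D.u03
  have r1 : (i : ℝ) ≤ k := by exact_mod_cast h1
  have r2 : (k : ℝ) ≤ i' := by exact_mod_cast h2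
  have s' := D.sh k1 k2 k3 (k1.trans h2) (by rwa [abs_of_nonneg (sub_nonneg.2 r2)])
  have lo : ∀ y, S.J ≤ y → i ≤ y → y ≤ k → Sh S M k y := fun y b1 b2 b3 => by
    have b2' : (i : ℝ) ≤ y := by exact_mod_cast b2
    have b3' : (y : ℝ) ≤ k := by exact_mod_cast b3
    refine D.sh k1 k2 k3 b1 (le_trans ?_ d1)
    rw [abs_of_nonpos (sub_nonpos.2 b3')]
    gcongr; linarith
  have p1 := (ds_pos h u0 k1 k2).trans_le (ds_le_du k)
  have p2 := s'.du1
  have up : M.del m a i' ≤ γ + 4 * min Vt √(Xp / du M k) := by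
    rcases min_choice Vt √(Xp / du M k) with e | e <;> rw [e]
    · linarith [D.vt i' (k1.trans h2) s'.lt.le (by linarith), D.V0]
    · linarith [del_up h D.hm D.hθ D.top D.γ0 (k1.trans h2) s'.lt.le (by linarith),
        sq_div X0 p1 (b := du M i') (by linarith)]
  have dn : M.q i' - M.q i - M.del m a i ≤
      2 * γ + 11 * S.C * √(Xp / max (dl M S k - S.u0) (Xp ^ ((1 : ℝ) / 3))) := by
    generalize hx : Xp ^ ((1 : ℝ) / 3) = x at *
    have x3 : x ^ 3 = Xp := by rw [← hx, rp3 X0]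
    rcases le_or_gt (dl M S k - S.u0) (4 * x) with c | c
    · have t1 : x / 2 ≤ √(Xp / max (dl M S k - S.u0) x) := le_sqrt_of_sq_le (by
        rw [le_div_iff₀ (lt_max_of_lt_right x0), ← x3]
        nlinarith [mul_le_mul_of_nonneg_left (max_le c (by linarith) : max _ x ≤ 4 * x)
          (sq_nonneg x)])
      have lJ : ls M S S.J ≤ S.C * x := by
        have : ds M S S.J ≤ x := (ds_le_dl _).trans (by unfold dl; linarith)
        exact mul_le_mul D.dj this (ds_pos h u0 le_rfl (by omega)).le C0.le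
      have vx : S.v ≤ x := by
        have := (D.fine S.J le_rfl h.i3 (by linarith [du_anti h u0 k1])).trans lJ
        refine le_of_mul_le_mul_left (a := S.C) ?_ C0
        nlinarith [mul_pos C0 v0]
      have t2 : M.s S.J - M.s i ≤ S.C * x / 4 := by
        rcases le_total S.J i with e | e
        · linarith [h.sm e, mul_pos C0 x0]
        · have b1 := (lo S.J le_rfl e k1).ls1
          have b2 := (h.s_tel e le_rfl).2
          have b3 : (S.J : ℝ) ≤ k := by exact_mod_cast k1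
          have b4 : ((S.J : ℝ) - i) * S.v ≤ x / 4 := by
            refine le_trans (by gcongr) (d1.trans ?_)
            rw [div_le_div_iff₀ (by positivity) (by norm_num)]
            nlinarith [mul_le_mul_of_nonneg_left lJ C0.le]
          nlinarith [mul_le_mul_of_nonneg_left b4 C0.le]
      have xs := D.xs
      rw [hx] at xs
      have t3 := del_r h D.hm D.hθ D.top D.γ0 (k := i) (r := x) (by linarith [mul_pos C0 x0])
        (by omega) x3.ge vx xs D.jl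
      have t4 := (h.q_tel D.hθ (h1.trans h2) s'.lt.le).2
      have t5 := h.sm s'.lt.le
      have t6 := mul_le_mul_of_nonneg_left t1 C0.le
      linarith [D.γ0, mul_pos C0 x0]
    · have c1 := ds_le_dl (M := M) (S := S) k
      have iJ : S.J ≤ i := by
        by_contra hc
        have := (abs_le.1 (lo S.J le_rfl (by omega) k1).z).1
        unfold dl at *
        linarith
      have t1 := (lo i iJ le_rfl h1).dl1
      have t2 := del_lo h D.hm D.hθ D.top D.γ0 iJ (by omega) (by linarith)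
      have t3 := sq_div X0 (a := dl M S k - S.u0) (b := dl M S i - S.u0) (by linarith) (by linarith)
      have t4 := q_pl h D.hm D.hθ D.top D.γ0 iJ (h1.trans h2) s'.lt.le
      rw [max_eq_left (by linarith)]
      nlinarith [sqrt_nonneg (Xp / (dl M S k - S.u0))]
  have m0 : 0 ≤ min Vt √(Xp / du M k) := le_min D.V0 (sqrt_nonneg _)
  unfold Rp
  unfold Md.del at up dn
  nlinarith [mul_le_mul_of_nonneg_right C1 m0, mul_le_mul_of_nonneg_right C1 γn]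

theorem a_var {k i : ℕ} (k1 : S.J ≤ k) (k2 : k < S.Jp) (hi : k ≤ i) (s : Sh S M k i) :
    (a0 M S Xp Vt γ i ≤ 2 * S.C * a0 M S Xp Vt γ k ∧ a0 M S Xp Vt γ k ≤ 2 * S.C * a0 M S Xp Vt γ i) ∧
    √(S.w3 1 / ls M S i) ≤ 2 * S.C * √(S.w3 1 / ls M S k) ∧
    √(S.w3 1 / ls M S k) ≤ 2 * S.C * √(S.w3 1 / ls M S i) := by
  have C1 := D.h.C1
  have p := ds_pos D.h D.u0 k1 k2
  have p' := ds_pos D.h D.u0 (k1.trans hi) s.lt
  have w0 := D.w0
  obtain ⟨r1, r2⟩ := D.R_var k1 k2 hi s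
  have key : ∀ l l' : ℝ, 0 < l → 0 < l' → l' ≤ 2 * S.C * l →
      √(S.w3 1 / l) ≤ 2 * S.C * √(S.w3 1 / l') := fun l l' l0 l1 e => by
    refine sqrt_le_iff.2 ⟨by positivity, ?_⟩
    rw [mul_pow, sq_sqrt (by positivity), ← mul_div_assoc, div_le_div_iff₀ l0 l1]
    have e2 : l' ≤ (2 * S.C) ^ 2 * l := e.trans (by gcongr; nlinarith)
    nlinarith [mul_le_mul_of_nonneg_left e2 w0.le]
  have l1 := ls_pos' D.h D.u0 k1 k2
  have l2 := ls_pos' D.h D.u0 (k1.trans hi) s.lt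
  exact ⟨⟨af_var w0.le (D.h.den0 _) p (D.R0 i) D.x0.le C1 s.den2 s.den1 s.ds1 r1,
    af_var w0.le (D.h.den0 _) p' (D.R0 k) D.x0.le C1 s.den1 s.den2 (by linarith [s.ds2]) r2⟩,
    key _ _ l2 l1 s.ls1, key _ _ l1 l2 s.ls2⟩

theorem G_var (L0 : 0 < Lp) {k i p : ℕ} (p4 : p ≤ 4) (k1 : S.J ≤ k) (k2 : k < S.Jp) (hi : k ≤ i)
    (p1 : 1 ≤ p) (s : Sh S M k i) :
    Gp M S Xp Vt γ Lp p k ≤ 32 * S.C ^ 4 * Gp M S Xp Vt γ Lp p i := by
  have C1 := D.h.C1
  have w0 := D.w0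
  have p' := ds_pos D.h D.u0 (k1.trans hi) s.lt
  have p0 := ds_pos D.h D.u0 k1 k2
  have d0 := D.h.den0 (M.z (k - 1))
  have d1 := D.h.den0 (M.z (i - 1))
  obtain ⟨⟨-, a1⟩, -, a2⟩ := D.a_var k1 k2 hi s
  have r2 := (D.R_var k1 k2 hi s).2
  have Rk := D.R0 k
  have Ri := D.R0 i
  have C4 : S.C ≤ S.C ^ 4 := le_self_pow₀ C1 (by norm_num)
  have b0 : ∀ y, 0 < ds M S y → 0 ≤ Lp ^ ((2 : ℝ) / 3) * ap M S Xp Vt γ y := fun y hy =>
    mul_nonneg (by positivity) (add_nonneg (af_pos w0 (D.h.den0 _) hy).le (sqrt_nonneg _))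
  have b1 : (Lp ^ ((2 : ℝ) / 3) * ap M S Xp Vt γ k) ^ p ≤
      32 * S.C ^ 4 * (Lp ^ ((2 : ℝ) / 3) * ap M S Xp Vt γ i) ^ p := by
    have e : Lp ^ ((2 : ℝ) / 3) * ap M S Xp Vt γ k ≤
        2 * S.C * (Lp ^ ((2 : ℝ) / 3) * ap M S Xp Vt γ i) := by
      rw [mul_left_comm, ap_eq, ap_eq]
      exact mul_le_mul_of_nonneg_left (by linarith) (by positivity)
    refine (pow_le_pow_left₀ (b0 k p0) e p).trans ?_
    rw [mul_pow]
    refine mul_le_mul_of_nonneg_right ((pow_le_pow_right₀ (by linarith) p4).trans ?_)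
      (pow_nonneg (b0 i p') _)
    nlinarith [pow_pos (show 0 < S.C by linarith) 4]
  have t16 : (2 : ℝ) ^ p ≤ 16 := (pow_le_pow_right₀ one_le_two p4).trans (by norm_num)
  have b2 : Rp M S Xp Vt γ k ^ p / Lp ≤ 32 * S.C ^ 4 * (Rp M S Xp Vt γ i ^ p / Lp) := by
    rw [← mul_div_assoc]
    refine div_le_div_of_nonneg_right ((pow_le_pow_left₀ Rk r2 p).trans ?_) L0.le
    rw [mul_pow]
    exact mul_le_mul_of_nonneg_right (by linarith) (by positivity)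
  have pp : (0 : ℝ) ≤ (p : ℝ) - 1 / 2 := by
    have : (1 : ℝ) ≤ p := by exact_mod_cast p1
    linarith
  have b3 : Rp M S Xp Vt γ k ^ ((p : ℝ) - 1 / 2) ≤ 16 * Rp M S Xp Vt γ i ^ ((p : ℝ) - 1 / 2) := by
    refine (rpow_le_rpow Rk r2 pp).trans ?_
    rw [mul_rpow zero_le_two Ri]
    refine mul_le_mul_of_nonneg_right (le_trans ?_ t16) (by positivity)
    rw [← rpow_natCast]
    exact rpow_le_rpow_of_exponent_le one_le_two (by linarith)
  have b4 : √(S.w3 1 / (S.den (M.z (k - 1)) * ds M S k ^ 2)) ≤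
      2 * S.C ^ 4 * √(S.w3 1 / (S.den (M.z (i - 1)) * ds M S i ^ 2)) := by
    refine sqrt_le_iff.2 ⟨by positivity, ?_⟩
    rw [mul_pow, sq_sqrt (by positivity)]
    refine (b_var w0.le d0 p' s.den2 d1 (by linarith [s.ds2])).trans
      (mul_le_mul_of_nonneg_right (by nlinarith) (by positivity))
  have b5 := mul_le_mul b4 b3 (by positivity) (by positivity)
  unfold Gp
  rw [mul_add, mul_min_of_nonneg _ _ (by positivity)]
  exact add_le_add b1 (min_le_min b2 (by linarith))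

end DC

end Crest.Agent.T156.Alt.S50

end
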