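import Crest.Agent.T156.SzTG_64

/-!
# Row 156, block (L) (helper64): the cubic top sum is paid by `X3` alone
-/

set_option autoImplicit false

noncomputable section

namespace Crest.Agent.T156.Alt.Tg64

open Real Finset
open Crest.Agent.T156.Alt.E61 Crest.Agent.T156.Alt.L69 Crest.Agent.T156.Alt.Sz9

theorem a3 {w c W Y X3 : ℝ} (w0 : 0 ≤ w) (w1 : w ≤ 1) (c1 : 1 ≤ c) (hW : w ≤ W) (Y0 : 0 ≤ Y)
    (Y1 : Y ≤ 1) (H : min 1 c * min (1 * c ^ 3)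
      (1 * W ^ 3 + (1 * W ^ 3) ^ ((1 : ℝ) / 7) * (W * Y) ^ ((6 : ℝ) / 7)) ≤ X3) :
    w ^ 3 + (w ^ 3) ^ ((1 : ℝ) / 7) * (w * Y) ^ ((6 : ℝ) / 7) ≤ 2 * X3 := by
  rw [min_eq_left c1] at H
  simp only [one_mul] at H
  have W0 := w0.trans hW
  have p0 : 0 ≤ w ^ 3 + (w ^ 3) ^ ((1 : ℝ) / 7) * (w * Y) ^ ((6 : ℝ) / 7) := by positivity
  rcases min_le_iff.1 H with H | H
  · have b1 : w ^ 3 ≤ 1 := pow_le_one₀ w0 w1
    have b2 : (w ^ 3) ^ ((1 : ℝ) / 7) * (w * Y) ^ ((6 : ℝ) / 7) ≤ 1 :=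
      mul_le_one₀ (rpow_le_one (by positivity) b1 (by norm_num)) (by positivity)
        (rpow_le_one (by positivity) (mul_le_one₀ w1 Y0 Y1) (by norm_num))
    linarith [one_le_pow₀ (n := 3) c1]
  · have : w ^ 3 + (w ^ 3) ^ ((1 : ℝ) / 7) * (w * Y) ^ ((6 : ℝ) / 7) ≤
        W ^ 3 + (W ^ 3) ^ ((1 : ℝ) / 7) * (W * Y) ^ ((6 : ℝ) / 7) := by gcongr
    linarith

/-- the cubic sum over the top window and the plateau -/
def SzT3 : Prop := CL fun E Λ S M m a =>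
  ∀ G1 u1 u2 j γ Lc ηc τ l0 l V X Xp Vt Lg Lp X2 X3 G0 η N, LN E S M l0 l V X Lg X2 X3 G0 η →
    LP E S M Xp Vt Lg Lp X2 X3 G0 G1 u1 u2 j γ Lc ηc τ η N → Ap S M m a l0 X Xp Vt u1 j →
    ∑ k ∈ Tp S M, M.dz m a k * u4 M m a k ^ 3 ≤ Λ * X3

theorem szT3_of (hS : SzT98.SzS) (hV : SzT98.SzV) : SzT3 := by
  have key : CL fun E Λ S M m a => ∀ Λ', Λ ≤ Λ' →
      ∀ G1 u1 u2 j γ Lc ηc τ l0 l V X Xp Vt Lg Lp X2 X3 G0 η N, LN E S M l0 l V X Lg X2 X3 G0 η →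
      LP E S M Xp Vt Lg Lp X2 X3 G0 G1 u1 u2 j γ Lc ηc τ η N → Ap S M m a l0 X Xp Vt u1 j →
      ∑ k ∈ Tp S M, M.dz m a k * u4 M m a k ^ 3 ≤ Λ' * X3 := by
    refine (CL.and hS hV).glue' (fun _ _ _ _ _ _ _ _ h H _ h' => H _ (h.trans h')) 0 le_rfl 1 2
      fun C _ ε η' hε _ => ⟨0, fun S M m a G _ _ _ h I ⟨s, v⟩ Λ hΛ G1 u1 u2 j γ Lc ηc τ l0 l V X Xp
        Vt Lg Lp X2 X3 G0 η N B P A => ?_⟩
    rw [pow_one] at B P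
    have E1 : 1 ≤ (S.n : ℝ) ^ ε := one_le_rpow G.N1.le hε.le
    have F := far_LP E1 h B P
    have s3 := s _ _ _ _ _ _ _ _ F A 3 (by norm_num) (by norm_num)
    obtain ⟨-, v3, -⟩ := v _ _ _ _ _ _ _ _ F A B.X0 B.X1 _ rfl
    have L4' := G.num_le
    generalize (S.n : ℝ) ^ η' = L at *
    have L0 : 0 ≤ L := by linarith
    have l1 := l0_pos h E1 B.l0s
    have l2 := B.l0l.trans (le1 E1 B.l1)
    have X1 := le1 E1 B.X1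
    obtain ⟨w0, wW⟩ := w_le h B.V0
    have X30 : 0 ≤ X3 := le_trans (by positivity) B.x3a
    have b3 := B.x3b 1 l2 h.C1
    rw [min_X B.V0 X1] at b3
    have b4 := a3 w0 (w_one h l1 l2 B.l0w) (cl1 B.V0) wW B.X0.le X1 b3
    refine sq4 L4' hΛ X30 ((tp_pow h I 3).trans ?_)
    linarith [mul_le_mul_of_nonneg_left P.n3 L0, mul_le_mul_of_nonneg_left b4 L0]
  exact key.mono fun _ _ _ _ _ _ _ _ _ _ H => H _ le_rfl

end Crest.Agent.T156.Alt.Tg64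

end
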