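import Crest.Agent.T156.SzLP_33
import Crest.Agent.T156.QTop_57

/-!
# Row 156, block (L): pointwise size with the window cut at the corner (helper33)
-/

set_option autoImplicit false

noncomputable section

namespace Crest.Agent.T156.Alt.Sz9

open Real Finset Filter
open Crest.Agent.T156.Alt.E61 Crest.Agent.T156.Alt.C33 Crest.Agent.T156.Alt.Md67 Pre29

/-- the reveal nodes carry the floor (`LP.rev`) -/
def Rev (S : Sc) (M : Md) : Prop := ∃ k1, S.Jp ≤ k1 ∧ k1 ≤ M.N ∧ 1 / S.C ≤ ((k1 : ℝ) - S.Jp) * S.v ∧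
  ∀ k, S.Jp ≤ k → k < k1 → S.θ * S.v / (S.C * S.F) ≤ M.H (k + 1) - M.H k

/-- **(b')** pointwise size at every sloped node, window cut at `J - 1` -/
def SzP' : Prop := CL fun E Λ S M m a => ∀ l0 cf, Cf E S M m a l0 cf → Rev S M → ∀ k κ e,
  l0 ≤ M.s k → k < S.J → cf (M.s k) ≤ κ * M.s k → κ ≤ S.n →
  Env96.ev (M.rb m a) (κ * S.v) (k - k / 3) (min (k + k / 3) (S.J - 1)) k ≤ e →
  (k + k / 3 < S.J ∨
    2 * log S.n * (κ ^ ((2 : ℝ) / 3) * w1 S (M.s k) + e) ≤ κ * (((S.J : ℝ) - k) * S.v)) →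
  u4 M m a k ≤ Λ * (κ ^ ((2 : ℝ) / 3) * w1 S (M.s k) + e)

namespace P33

/-- windows: a cone below `k`, constant above -/
def rT (S : Sc) (l : ℝ) (k i : ℕ) : ℝ := l + max ((k : ℝ) - i) 0 * S.v
/-- growth above `k` -/
def gT (S : Sc) (l : ℝ) (k i : ℕ) : ℝ := exp (max ((i : ℝ) - k) 0 * S.v / l)
/-- tolerance -/
def tT (S : Sc) (κ l : ℝ) (k i : ℕ) : ℝ := κ * rT S l k i * gT S l k i

theorem rT_self (S : Sc) (l : ℝ) (k : ℕ) : rT S l k k = l := by simp [rT]
theorem tT_self (S : Sc) (κ l : ℝ) (k : ℕ) : tT S κ l k k = κ * l := by simp [tT, rT, gT]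

theorem max_id (x : ℝ) : x + max (-x) 0 = max x 0 := by
  rcases le_total x 0 with h | h
  · rw [max_eq_left (by linarith), max_eq_right h]; ring
  · rw [max_eq_right (by linarith), max_eq_left h]; ring

/-- **the frame of a node of the top window** -/
theorem qg_top {S : Sc} {M : Md} {m : ℕ} {a : ℝ} (F : Fn S M m a) (hθ : S.C * S.θ ≤ 1)
    (lg : 1 ≤ log S.n) (R : Rev S M) {k : ℕ} {κ l : ℝ} (jk : 3 * S.jl ≤ k) (h2 : k < S.J)
    (h3 : S.J ≤ k + k / 3) (w : S.w3 (M.s k) ≤ M.s k ^ 3) (k1 : 1 ≤ κ) (h4 : κ ≤ S.n) (lp : 0 < l)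
    (l3 : S.w3 (M.s k) ≤ κ * l ^ 3) (he : ∀ i, k - k / 3 ≤ i → i < S.J →
      |M.rb m a i - M.rb m a k| ≤ κ * (l + |(i : ℝ) - k| * S.v))
    (far : 2 * log S.n * l ≤ ((S.J : ℝ) - k) * S.v) :
    ∃ k', QG (6 * S.C ^ 5) (6 * S.C ^ 5) S M m a (M.s k) (k - k / 3) k' (fun _ => M.rb m a k)
      (rT S l k) (tT S κ l k) ∧ Inn (6 * S.C ^ 5) S (M.s k) (k - k / 3) k' k ∧ S.Jp ≤ k' ∧
        1 / S.C ≤ ((k' : ℝ) - S.Jp) * S.v := by
  obtain ⟨k', r1, r2, r3, r4⟩ := R
  have h := F.toCl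
  have C1 := h.C1
  have C0 := h.C0
  have v0 := h.v0
  have n1 := F.n1
  have m0 : 0 < m := h.n1.trans F.m1
  have i3 := h.i3
  have j1 := h.i0.trans h.i1
  have t0 : 0 < M.s k := h.s_pos (by omega)
  have tC : M.s k ≤ S.C := h.s_le_C (by omega)
  have c4 : S.C ^ 4 ≤ S.C ^ 5 := pow_le_pow_right₀ C1 (by norm_num)
  have c1 : S.C ≤ S.C ^ 5 := le_self_pow₀ C1 (by norm_num)
  have K1 : 1 ≤ 6 * S.C ^ 5 := by linarith
  have s0 : 1 ≤ 6 * S.C ^ 4 * M.s (k - k / 3) := by
    have a1 : (S.J : ℝ) ≤ 2 * ((k - k / 3 : ℕ) : ℝ) := by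
      exact_mod_cast (by omega : S.J ≤ 2 * (k - k / 3))
    have a2 := mul_le_mul_of_nonneg_left (mul_le_mul_of_nonneg_right a1 v0.le)
      (show 0 ≤ 3 * S.C ^ 3 by positivity)
    have a3 := mul_le_mul_of_nonneg_left (F.s_mem (k := k - k / 3) (by omega)).1
      (show 0 ≤ 6 * S.C ^ 3 by positivity)
    linarith [F.J_lo]
  have s1 : 1 ≤ 6 * S.C ^ 5 * M.s k := s0.trans
    (mul_le_mul (by linarith) (h.sm (Nat.sub_le _ _)) (h.s_nn _) (by positivity))
  have nl : 1 ≤ S.n * l := by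
    have a1 : M.s k * S.ms (M.s k) ≤ S.F :=
      (mul_le_mul tC (h.ms1 _) (h.ms_pos t0.le).le C0.le).trans (hθ.trans h.F1)
    have a2 : 1 ≤ S.n * S.w3 (M.s k) := by
      have := h.ms_pos t0.le
      rw [Sc.w3, mul_div_assoc', le_div_iff₀ (by positivity), one_mul, mul_assoc]
      exact mul_le_mul_of_nonneg_left a1 (by positivity)
    have a3 := mul_le_mul_of_nonneg_left (l3.trans
      (mul_le_mul_of_nonneg_right h4 (pow_pos lp 3).le)) h.N0.le
    refine le_of_pow_le_pow_left₀ (by decide : 3 ≠ 0) (by positivity) ?_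
    have a4 := mul_le_mul_of_nonneg_right n1 (show 0 ≤ S.n * (S.n * l ^ 3) by positivity)
    linarith
  have rl : ∀ i, l ≤ rT S l k i := fun i =>
    le_add_of_nonneg_right (mul_nonneg (le_max_right _ _) v0.le)
  have r0 : ∀ i, 0 < rT S l k i := fun i => lp.trans_le (rl i)
  have g1 : ∀ i, 1 ≤ gT S l k i := fun i =>
    one_le_exp (div_nonneg (mul_nonneg (le_max_right _ _) v0.le) lp.le)
  have rt : ∀ i, κ * rT S l k i ≤ tT S κ l k i := fun i =>
    le_mul_of_one_le_right (by have := r0 i; positivity) (g1 i)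
  have lt : ∀ i, κ * l ≤ tT S κ l k i := fun i =>
    (mul_le_mul_of_nonneg_left (rl i) (by linarith)).trans (rt i)
  have ge : ∀ i, rT S l k i ≤ tT S κ l k i := fun i =>
    (le_mul_of_one_le_left (r0 i).le k1).trans (rt i)
  have big : ∀ i : ℕ, log S.n * l ≤ max ((i : ℝ) - k) 0 * S.v → 1 ≤ tT S κ l k i := fun i b => by
    have a1 : (S.n : ℝ) ≤ gT S l k i := by
      rw [gT, ← exp_log h.N0]
      exact exp_le_exp.2 ((le_div_iff₀ lp).2 b)
    have a2 := mul_le_mul ((le_mul_of_one_le_left lp.le k1).trans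
      (mul_le_mul_of_nonneg_left (rl i) (by linarith))) a1 h.N0.le (by have := r0 i; positivity)
    unfold tT
    linarith
  have win : ∀ i y : ℕ, ((y : ℝ) - i) * S.v ≤ rT S l k i →
      ((y : ℝ) - k) * S.v ≤ l + max ((i : ℝ) - k) 0 * S.v := fun i y b => by
    rw [← max_id, neg_sub]
    unfold rT at b
    linarith
  have mn : 0 < min l (M.s k) := lt_min lp t0
  have wl : S.w3 (M.s k) ≤ κ * l * min l (M.s k) ^ 2 := by
    rcases le_total l (M.s k) with b | b
    · rw [min_eq_left b]; linarith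
    · rw [min_eq_right b]
      exact w.trans (by
        rw [pow_succ']
        exact mul_le_mul_of_nonneg_right (b.trans (le_mul_of_one_le_left lp.le k1)) (sq_nonneg _))
  have Jk : log S.n * l ≤ ((S.J : ℝ) - k) * S.v - l := by nlinarith
  refine ⟨k', ⟨⟨t0, by omega, by omega, by omega, r2, ?_, (h.leg.z1 _).trans s1, w,
    fun i b d => le_trans ?_ (r4 i b d)⟩, T57.crude_top m0 K1 s1, rb_nonneg m0 k,
    fun _ _ _ => ⟨le_rfl, le_add_of_nonneg_right (by positivity)⟩, fun i _ _ => ?_,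
    fun i _ _ => nl.trans (mul_le_mul_of_nonneg_left (rl i) h.N0.le), fun i _ _ => ge i,
    fun i b _ => ?_, fun i y _ b _ d => ?_, fun i y _ b _ => ?_, fun i _ _ => ?_,
    fun i y _ _ b _ d => ?_⟩, ⟨?_, ?_⟩, r1, r3⟩
  · nlinarith [mul_le_mul_of_nonneg_left s0 C0.le]
  · have := h.ms_pos (h.s_nn i)
    have := h.ms1 (M.s i)
    have := h.F1
    have := h.θ0
    have := le_mul_of_one_le_left C0.le K1
    gcongr
  · have e := abs_max_sub_max_le_abs ((k : ℝ) - (i + 1 : ℕ)) ((k : ℝ) - i) 0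
    rw [show (k : ℝ) - (i + 1 : ℕ) - ((k : ℝ) - i) = -1 by push_cast; ring, abs_neg, abs_one] at e
    rw [rT, rT, add_sub_add_left_eq_sub, ← sub_mul, abs_mul, abs_of_pos v0]
    exact mul_le_mul_of_nonneg_right (e.trans K1) v0.le
  · rcases lt_or_ge i S.J with d | d
    · refine (he i b d).trans ?_
      rcases le_total ((i : ℝ) - k) 0 with e | e
      · refine le_trans (le_of_eq ?_) (rt i)
        rw [abs_of_nonpos e, rT, max_eq_left (by linarith), neg_sub]
      · rw [abs_of_nonneg e, tT, mul_assoc κ]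
        refine mul_le_mul_of_nonneg_left ?_ (by linarith)
        have a1 := add_one_le_exp (((i : ℝ) - k) * S.v / l)
        rw [gT, max_eq_left e]
        refine le_trans (le_of_eq ?_) (mul_le_mul (rl i) a1 (by positivity) (r0 i).le)
        field_simp
        ring
    · refine le_trans (abs_le.2 ⟨?_, ?_⟩) (big i ?_)
      · linarith [rb_nonneg (M := M) (a := a) m0 i, rb_le_one (M := M) (a := a) m0 k]
      · linarith [rb_nonneg (M := M) (a := a) m0 k, rb_le_one (M := M) (a := a) m0 i]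
      · have d' : (S.J : ℝ) ≤ i := by exact_mod_cast d
        have := mul_le_mul_of_nonneg_right
          ((show (S.J : ℝ) - k ≤ i - k by linarith).trans (le_max_left _ 0)) v0.le
        linarith
  · have b' : (i : ℝ) ≤ y := by exact_mod_cast b
    have a1 : rT S l k y ≤ rT S l k i := by unfold rT; gcongr
    have a2 : gT S l k y ≤ 3 * gT S l k i := by
      have a3 : max ((y : ℝ) - k) 0 * S.v ≤ l + max ((i : ℝ) - k) 0 * S.v := by
        rcases le_total ((y : ℝ) - k) 0 with e | e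
        · rw [max_eq_right e, zero_mul]
          have := le_max_right ((i : ℝ) - k) 0
          positivity
        · rw [max_eq_left e]; exact win i y d
      calc gT S l k y ≤ exp (1 + max ((i : ℝ) - k) 0 * S.v / l) := exp_le_exp.2 (by
            rw [div_le_iff₀ lp, add_mul, one_mul, div_mul_cancel₀ _ lp.ne']; exact a3)
        _ ≤ _ := by
            rw [exp_add]
            exact mul_le_mul_of_nonneg_right (exp_one_lt_d9.le.trans (by norm_num)) (exp_pos _).le
    have := r0 i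
    have := r0 y
    have := g1 y
    have := g1 i
    calc tT S κ l k y ≤ κ * rT S l k i * (3 * gT S l k i) := by unfold tT; gcongr
      _ = 3 * tT S κ l k i := by unfold tT; ring
      _ ≤ _ := mul_le_mul_of_nonneg_right (by linarith) (by unfold tT; positivity)
  · have b' : (i : ℝ) ≤ y := by exact_mod_cast b
    have a1 : rT S l k i ≤ rT S l k y + ((y : ℝ) - i) * S.v := by
      have : max ((k : ℝ) - i) 0 ≤ max ((k : ℝ) - y) 0 + (y - i) :=
        max_le (by linarith [le_max_left ((k : ℝ) - y) 0])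
          (by linarith [le_max_right ((k : ℝ) - y) 0])
      unfold rT
      linarith [mul_le_mul_of_nonneg_right this v0.le]
    have a2 : gT S l k i ≤ gT S l k y := by unfold gT; gcongr
    have := r0 i
    have := r0 y
    have := g1 y
    have := g1 i
    have : 0 ≤ ((y : ℝ) - i) * S.v := mul_nonneg (by linarith) v0.le
    calc tT S κ l k i * rT S l k y ≤
        κ * (rT S l k y + ((y : ℝ) - i) * S.v) * gT S l k y * rT S l k y := by unfold tT; gcongr
      _ = 1 * tT S κ l k y * (rT S l k y + ((y : ℝ) - i) * S.v) := by unfold tT; ring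
      _ ≤ _ := by
          have : 0 ≤ tT S κ l k y := by unfold tT; positivity
          gcongr
  · refine wl.trans ?_
    have := lt i
    have := rl i
    have := (rl i).trans (ge i)
    have := (r0 i).trans_le (ge i)
    have : 0 < min (rT S l k i) (M.s k) := lt_min (r0 i) t0
    rw [sq, ← mul_assoc]
    gcongr
  · rcases lt_or_ge y S.J with e | e
    · right
      have := lt i
      have := rl i
      have := (r0 i).trans_le (ge i)
      have := F.lg.dz_nonneg y
      refine (T57.den_lo (m := m) (a := a) h (by omega) e (by positivity) v0.le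
        (wl.trans (show _ ≤ tT S κ l k i * min (rT S l k i) (M.s k) ^ 2 by gcongr))).trans ?_
      gcongr
      linarith
    · left
      have e' : (S.J : ℝ) ≤ y := by exact_mod_cast e
      have a1 := win i y (le_trans (mul_le_mul_of_nonneg_right (le_abs_self _) v0.le) d)
      have a2 := mul_le_mul_of_nonneg_right (show (S.J : ℝ) - k ≤ y - k by linarith) v0.le
      exact big i (by linarith)
  · rw [Nat.cast_sub (Nat.div_le_self _ _), sub_sub_cancel, div_le_iff₀ (by positivity)]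
    have e3 : (k : ℝ) ≤ 6 * ((k / 3 : ℕ) : ℝ) := by exact_mod_cast (by omega : k ≤ 6 * (k / 3))
    calc _ ≤ S.C ^ 5 * (6 * ((k / 3 : ℕ) : ℝ) * S.v) := (F.s_mem h2.le).2.trans (by gcongr)
      _ = _ := by ring
  · have e : (k : ℝ) ≤ S.Jp := by exact_mod_cast (by omega : k ≤ S.Jp)
    refine le_trans ?_ (r3.trans (mul_le_mul_of_nonneg_right (by linarith) v0.le))
    rw [div_le_div_iff₀ (by positivity) C0]
    have c2 : S.C ^ 2 ≤ S.C ^ 5 := pow_le_pow_right₀ C1 (by norm_num)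
    nlinarith [mul_le_mul_of_nonneg_right tC C0.le]

theorem jl3 {E l0 : ℝ} {S : Sc} {M : Md} {m : ℕ} {a : ℝ} {cf : ℝ → ℝ} (h : Cl S M)
    (hE : 3 * S.C ^ 2 ≤ E) (c : Cf E S M m a l0 cf) {k : ℕ} (h1 : l0 ≤ M.s k) (h2 : k ≤ S.J) :
    3 * S.jl ≤ k := by
  have C0 := h.C0
  have v0 := h.v0
  have a1 := (h.s_bds h.jl_lt.le).1
  have a2 := (h.s_bds h2).2
  have a3 := mul_le_mul hE a1 (by positivity) (le_trans (by positivity) hE)
  have a4 : 3 * S.C ^ 2 * (S.jl * (S.v / S.C)) = 3 * S.jl * (S.C * S.v) := by field_simp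
  have a5 : (3 * S.jl : ℝ) ≤ k := le_of_mul_le_mul_right (by linarith [c.l0s]) (mul_pos C0 v0)
  exact_mod_cast a5

theorem cube {S : Sc} {t κ : ℝ} (k0 : 0 < κ) (w0 : 0 < S.w3 t) :
    (κ ^ ((2 : ℝ) / 3) * w1 S t) ^ 3 = κ ^ 2 * S.w3 t := by
  unfold w1
  rw [mul_pow, ← rpow_natCast, ← rpow_natCast (S.w3 _ ^ _), ← rpow_mul k0.le, ← rpow_mul w0.le]
  norm_num

/-- **(b')** -/
theorem szP' : SzP' := by
  intro C
  have hK : 1 ≤ 6 * max C 1 ^ 5 := by linarith [one_le_pow₀ (n := 5) (le_max_right C 1)]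
  filter_upwards [T57.qGenS _ 2 hK C, szP C, eventually_ge_atTop 2] with A H P hA ε hε η hη
  filter_upwards [H 1 one_pos _ (half_pos hη), P ε hε η hη, ev_fn C hA, ev_K (3 * C ^ 2) hε,
    ev_rgc C hA (half_pos hη) (6 * C ^ 5)]
    with n H P F e1 G S M b1 b2 b3 h m a I l0 cf c R k κ e h1 h2 h3 h4 h5 h6
  replace F := F S M b1 b2 b3 h m a I
  replace H := H S M b1 b2 b3 h m a I
  replace P := P S M b1 b2 b3 h m a I
  replace G := G S b1 b2 b3
  subst b1 b3
  rcases lt_or_ge (k + k / 3) S.J with d | d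
  · rw [min_eq_left (by omega)] at h5
    exact (P l0 cf c k κ h1 d h3 h4).trans
      (mul_le_mul_of_nonneg_left (by linarith) (G.rp0 η).le)
  replace h6 := h6.resolve_left (by omega)
  rw [min_eq_right (by omega)] at h5
  rw [max_eq_left h.C1] at H
  have E1 : 1 ≤ (S.n : ℝ) ^ ε := one_le_rpow F.n1 hε.le
  have e0 := Env96.ev_nonneg.trans h5
  have t0 := (l0_pos h E1 c).trans_le h1
  have k1 : 1 ≤ κ := le_of_mul_le_mul_right (by linarith [c.ge _ h1]) t0
  have k0 : 0 < κ := by linarith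
  have w0 := w3_pos h t0
  have p0 : 0 < κ ^ ((2 : ℝ) / 3) * w1 S (M.s k) := by unfold w1; positivity
  obtain ⟨l, kl⟩ : ∃ l, κ * l = κ ^ ((2 : ℝ) / 3) * w1 S (M.s k) + e :=
    ⟨_, mul_div_cancel₀ _ k0.ne'⟩
  have lp : 0 < l := (mul_pos_iff_of_pos_left k0).1 (by linarith)
  have l3 : S.w3 (M.s k) ≤ κ * l ^ 3 := by
    have := pow_le_pow_left₀ p0.le (show _ ≤ κ * l by linarith) 3
    rw [cube k0 w0] at this
    refine le_of_mul_le_mul_left ?_ (show 0 < κ ^ 2 by positivity)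
    linarith
  rw [← kl] at h6 ⊢
  obtain ⟨k', Q, In, -⟩ := qg_top F (by linarith [G.Cθ h]) G.log1 R (jl3 h e1 c h1 h2.le) h2 d
    (w3_le h E1 c h1) k1 h4 lp l3 (fun i b f => by
      have := Env96.cone (f := M.rb m a) (c := κ * S.v) (k := k) b (show i ≤ S.J - 1 by omega)
      linarith) (le_of_mul_le_mul_left (by linarith) k0)
  have L0 := G.rp0 (η / 2)
  have C0 := h.C0
  have u := (H _ _ _ _ _ _ _ Q).pair k In
  rw [tT_self] at u
  have e : (S.n : ℝ) ^ η = (S.n : ℝ) ^ (η / 2) * (S.n : ℝ) ^ (η / 2) := by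
    rw [← rpow_add h.N0, add_halves]
  refine (u4_le (M := M) (m := m) (a := a) (k := k) (by positivity) u).trans ?_
  rw [e]
  have := G.K_le
  gcongr

end P33

end Crest.Agent.T156.Alt.Sz9

end
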