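import Crest.Agent.T156.ClSzA_61
import Crest.Agent.T156.CakeS_64
import Crest.Agent.T156.Sun_9
import Crest.Agent.T156.Env_96

/-!
# Row 156 (helper32): layer cake on a window with a short last part of free rise
-/

set_option autoImplicit false

noncomputable section

namespace Crest.Agent.T156.Alt.V32

open Real Finset
open Crest.Agent.T156.Env96

theorem tel_sum {v ρ : ℝ} (v0 : 0 < v) (r0 : 0 < ρ) (J : ℕ) :
    ∑ k ∈ range J, v / (((J : ℝ) - k) * v + ρ) ^ 2 ≤ 1 / ρ - 1 / (J * v + ρ) := by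
  induction J with
  | zero => simp
  | succ J ih =>
    rw [sum_range_succ']
    have e : ∑ k ∈ range J, v / ((((J + 1 : ℕ) : ℝ) - (k + 1 : ℕ)) * v + ρ) ^ 2 =
        ∑ k ∈ range J, v / (((J : ℝ) - k) * v + ρ) ^ 2 :=
      sum_congr rfl fun k _ => by push_cast; ring
    rw [e]
    push_cast
    have p : 0 < (J : ℝ) * v + ρ := by positivity
    have : v / (((J : ℝ) + 1 - 0) * v + ρ) ^ 2 ≤ 1 / (J * v + ρ) - 1 / ((J + 1) * v + ρ) := by
      rw [sub_zero, div_sub_div _ _ p.ne' (by positivity), div_le_div_iff₀ (by positivity)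
        (by positivity)]
      nlinarith [mul_pos v0 v0, mul_pos (mul_pos v0 v0) p, mul_pos (mul_pos v0 v0) v0]
    linarith

/-- the corner layer -/
theorem h_sum (s : Finset ℕ) {dz h : ℕ → ℝ} {J : ℕ} {v C Z ρ : ℝ} (v0 : 0 < v) (r0 : 0 < ρ)
    (Z0 : 0 ≤ Z) (C0 : 0 ≤ C) (hs : ∀ k ∈ s, k < J) (hz : ∀ k ∈ s, 0 ≤ dz k ∧ dz k ≤ C * v)
    (hh : ∀ k ∈ s, 0 ≤ h k ∧ h k ≤ Z * ρ ^ 2 / (((J : ℝ) - k) * v) ^ 2 ∧ h k ≤ 3 * Z) (q : ℕ) :
    ∑ k ∈ s, dz k * h k ^ (q + 2) ≤ 12 * C * 3 ^ (q + 1) * (ρ * Z ^ (q + 2)) := by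
  have t := tel_sum v0 r0 J
  have p : 0 ≤ 1 / ((J : ℝ) * v + ρ) := by positivity
  calc _ ≤ ∑ k ∈ s, 12 * C * (3 * Z) ^ (q + 1) * Z * ρ ^ 2 *
        (v / (((J : ℝ) - k) * v + ρ) ^ 2) := sum_le_sum fun k hk => by
        obtain ⟨a1, a2, a3⟩ := hh k hk
        have k1 : 0 < (J : ℝ) - k := sub_pos.2 (by exact_mod_cast hs k hk)
        have x0 : 0 < ((J : ℝ) - k) * v := by positivity
        generalize ((J : ℝ) - k) * v = x at *
        have b : h k ≤ 12 * Z * ρ ^ 2 / (x + ρ) ^ 2 := by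
          rw [le_div_iff₀ (by positivity)] at a2 ⊢
          have c1 := mul_le_mul_of_nonneg_right a3 (sq_nonneg ρ)
          have c2 := mul_nonneg a1 (sq_nonneg (x - ρ))
          have c3 := mul_nonneg Z0 (sq_nonneg ρ)
          nlinarith
        calc _ = dz k * (h k ^ (q + 1) * h k) := by ring
          _ ≤ C * v * ((3 * Z) ^ (q + 1) * (12 * Z * ρ ^ 2 / (x + ρ) ^ 2)) := by
            have := (hz k hk).2
            gcongr
          _ = _ := by ring
    _ ≤ 12 * C * (3 * Z) ^ (q + 1) * Z * ρ ^ 2 * (1 / ρ) := by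
        rw [← mul_sum]
        refine mul_le_mul_of_nonneg_left (le_trans (sum_le_sum_of_subset_of_nonneg
          (fun k hk => mem_range.2 (hs k hk)) fun _ _ _ => by positivity) (t.trans (by linarith)))
          (by positivity)
    _ = _ := by field_simp; ring

/-- weight of the nodes below a label -/
theorem wt_ge {z : ℕ → ℝ} {a : ℕ} {x : ℝ} (hx : z a ≤ x) {b : ℕ} (h : a ≤ b) :
    min (z b) x - z a ≤ ∑ k ∈ (Ioc a b).filter fun k => z (k - 1) ≤ x, (z k - z (k - 1)) := by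
  rw [sum_filter]
  induction b, h using Nat.le_induction with
  | base => simp [hx]
  | succ b h ih =>
    rw [sum_Ioc_succ_top h, Nat.add_sub_cancel]
    split_ifs with c
    · rw [min_eq_left c] at ih
      linarith [min_le_left (z (b + 1)) x]
    · rw [min_eq_right (not_le.1 c).le] at ih
      linarith [min_le_right (z (b + 1)) x]

open Classical in
/-- **the cake**: energy below `x`, rise `ρ` above -/
theorem core (s : Finset ℕ) {f q dz u : ℕ → ℝ} {a b x : ℕ} {v C w y D Y ρ : ℝ}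
    (C1 : 1 ≤ C) (v0 : 0 < v) (w0 : 0 < w) (y1 : 1 ≤ y) (ax : a ≤ x) (xb : x ≤ b)
    (hs : ∀ k ∈ s, a ≤ k ∧ k ≤ b) (hf : Monotone f)
    (hq : ∀ k, a ≤ k → k < b → 0 ≤ q (k + 1) - q k ∧ q (k + 1) - q k ≤ C * v)
    (hz : ∀ k ∈ s, 0 ≤ dz k ∧ dz k ≤ C * v) (h1 : ∑ k ∈ s, dz k ≤ 1)
    (hD : ∀ i, a ≤ i → i ≤ x → |f i - q i| ≤ D)
    (hY : 2 * D ^ 3 + 4 * (C * v) * (∑ i ∈ Icc a b, (f i - q i) ^ 2 + ((b : ℝ) - x) * D ^ 2) ≤ Y)
    (hρ : f b - f x ≤ ρ)
    (hu : ∀ k ∈ s, ∀ κ α e : ℝ, 1 ≤ κ → 0 ≤ α → w ^ 3 * κ ^ 2 ≤ α ^ 3 → 0 ≤ e →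
      (∀ i, a ≤ i → i ≤ b → |f i - f k| ≤ e + κ * (|(i : ℝ) - k| * v)) → u k ≤ α + e) :
    ∃ u1 u2 : ℕ → ℝ, (∀ k ∈ s, 0 ≤ u1 k ∧ 0 ≤ u2 k ∧ u k ≤ u1 k + u2 k) ∧
      (∀ p : ℕ, ∑ k ∈ s, dz k * u1 k ^ (p + 2) ≤ 2 ^ (p + 2) * (1 * (2 * w) ^ (p + 2) +
        16 * (2 * C * ρ * (2 * w * √(2 * w) * (√ρ * ρ ^ p))))) ∧
      ∀ α Y', α = 6 * C * (w * y ^ 2) → Y' = 19 * (Y / y ^ 3) →
      ∑ k ∈ s, dz k * u2 k ^ 2 ≤ 1 ^ 2 * (4 * (1 * α ^ 2) + 128 * Y') ∧
      ∑ k ∈ s, dz k * u2 k ^ 3 ≤ 1 ^ 3 * (8 * (1 * α ^ 3) + 1024 * (α * Y')) ∧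
      ∑ k ∈ s, dz k * u2 k ^ 4 ≤
        1 ^ 4 * (16 * (1 * α ^ 4) + 8192 * (α * √(α * (2 * D)) * Y')) := by
  have C0 : 0 < C := by linarith
  have y0 : 0 < y := by linarith
  have D0 : 0 ≤ D := (abs_nonneg _).trans (hD a le_rfl ax)
  have ρ0 : 0 ≤ ρ := (sub_nonneg.2 (hf xb)).trans hρ
  have xb' : 0 ≤ (b : ℝ) - x := sub_nonneg.2 (by exact_mod_cast xb)
  have Y0 : 0 ≤ Y := le_trans (by positivity) hY
  have p8 : ∀ i : ℕ, (1 : ℝ) ≤ 8 ^ i := fun i => one_le_pow₀ (by norm_num)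
  have e8 : ∀ i : ℕ, ((8 : ℝ) ^ i) ^ 2 = (4 ^ i) ^ 3 := fun i => by
    rw [← pow_mul, ← pow_mul, mul_comm i, mul_comm i, pow_mul, pow_mul]; norm_num
  have sl : ∀ i : ℕ, 3 * C ≤ 8 ^ i * (3 * C * y ^ 3) := fun i =>
    (le_mul_of_one_le_right (by positivity) (one_le_pow₀ y1)).trans
      (le_mul_of_one_le_left (by positivity) (p8 i))
  set F : ℕ → ℝ := fun i => f (min i x) with hF
  set Q : ℕ → ℝ := fun i => q (min i x) with hQ
  set r : ℕ → ℝ := fun i => f (max i x) with hr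
  set e : ℕ → ℕ → ℝ := fun i k => ev F (8 ^ i * (3 * C * y ^ 3) * v) a b k with he
  have e0 : ∀ i k, 0 ≤ e i k := fun i k => ev_nonneg
  have rm : Monotone r := fun i j h => hf (max_le_max h le_rfl)
  have sp : ∀ i, f i = F i + r i - f x := fun i => by
    rcases le_total i x with c | c
    · simp [hF, hr, c]
    · simp [hF, hr, c]
  have hQ' : ∀ k, a ≤ k → k < b → 0 ≤ Q (k + 1) - Q k ∧ Q (k + 1) - Q k ≤ C * v :=
    fun k a1 a2 => by
      rcases lt_or_ge k x with c | c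
      · simp only [hQ, min_eq_left c.le, min_eq_left (Nat.succ_le_of_lt c)]; exact hq k a1 a2
      · simp only [hQ, min_eq_right c, min_eq_right (c.trans k.le_succ), sub_self]
        exact ⟨le_rfl, by positivity⟩
  have hD' : ∀ i, a ≤ i → i ≤ b → |F i - Q i| ≤ D := fun i a1 _ =>
    hD _ (le_min a1 ax) (min_le_right _ _)
  have key : ∀ k ∈ s, ∀ (i : ℕ) (L β e' : ℝ), 0 ≤ L → 0 ≤ β → w ^ 3 * L ^ 2 ≤ β ^ 3 → 0 ≤ e' →
      (∀ j, a ≤ j → j ≤ b → |r j - r k| ≤ e' + L * (|(j : ℝ) - k| * v)) →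
      u k - (2 * β + e') ≤ 4 ^ i * (6 * C * (w * y ^ 2)) + e i k :=
    fun k hk i L β e' L0 β0 hβ e1 H => by
      have a1 : w ^ 3 * (8 ^ i * (3 * C * y ^ 3)) ^ 2 ≤ (4 ^ i * (3 * C * (w * y ^ 2))) ^ 3 :=
        calc _ = (8 ^ i) ^ 2 * ((3 * C) ^ 2 * (w * y ^ 2) ^ 3) := by ring
          _ ≤ (4 ^ i) ^ 3 * ((3 * C) ^ 3 * (w * y ^ 2) ^ 3) := by
            rw [e8]; gcongr
            · linarith
            · norm_num
          _ = _ := by ring
      have a2 := sl i
      have a3 : (0 : ℝ) ≤ 4 ^ i * (3 * C * (w * y ^ 2)) := by positivity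
      have := hu k hk (8 ^ i * (3 * C * y ^ 3) + L) (2 * (4 ^ i * (3 * C * (w * y ^ 2))) + 2 * β)
        (e i k + e') (by linarith) (by positivity) (by
          generalize 4 ^ i * (3 * C * (w * y ^ 2)) = A at *
          generalize 8 ^ i * (3 * C * y ^ 3) = κ at *
          have b1 := mul_nonneg (pow_pos w0 3).le (sq_nonneg (κ - L))
          have b2 : 0 ≤ A ^ 2 * β := by positivity
          have b3 : 0 ≤ A * β ^ 2 := by positivity
          have b4 : 0 ≤ A ^ 3 := by positivity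
          have b5 : 0 ≤ β ^ 3 := by positivity
          nlinarith) (add_nonneg (e0 i k) e1) fun j a1 a2 => by
          have b1 := Env96.cone (f := F) (c := 8 ^ i * (3 * C * y ^ 3) * v) (k := k) a1 a2
          have b2 := H j a1 a2
          have b3 := abs_add_le (F j - F k) (r j - r k)
          rw [sp j, sp k, show F j + r j - f x - (F k + r k - f x) = F j - F k + (r j - r k) by ring]
          simp only [he]
          linarith
      linarith
  have bd : ∀ k, BddBelow (Set.range fun i : ℕ => 4 ^ i * (6 * C * (w * y ^ 2)) + e i k) :=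
    fun k => ⟨0, by rintro _ ⟨i, rfl⟩; have := e0 i k; positivity⟩
  set u2 : ℕ → ℝ := fun k => ⨅ i : ℕ, (4 ^ i * (6 * C * (w * y ^ 2)) + e i k) with hu2
  have n2 : ∀ k, 0 ≤ u2 k := fun k => le_ciInf fun i => by have := e0 i k; positivity
  refine ⟨fun k => max (u k - u2 k) 0, u2, fun k _ => ⟨le_max_right _ _, n2 k,
    by linarith [le_max_left (u k - u2 k) 0]⟩, fun p => ?_, ?_⟩
  · refine Ck64.cakeR s (good := fun j k => Sun9.Good (fun i : ℕ => (i : ℝ)) r (8 ^ j * v) a b k)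
      (fun k hk => (hz k hk).1) (fun k _ => le_max_right _ _) (by positivity) ρ0 (by positivity) h1
      (fun k hk j G => max_le ?_ (by positivity)) (fun k hk => max_le ?_ (by positivity))
      (fun j => ?_) p
    · have := le_ciInf fun i => key k hk i (8 ^ j) (4 ^ j * w) 0 (by positivity) (by positivity)
        (by rw [e8, mul_pow, mul_comm]) le_rfl fun i a1 a2 => by
          rw [zero_add]
          rcases le_total i k with c | c
          · have c' : (i : ℝ) ≤ k := by exact_mod_cast c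
            rw [abs_sub_comm, abs_of_nonneg (sub_nonneg.2 (rm c)), abs_sub_comm,
              abs_of_nonneg (sub_nonneg.2 c')]
            linarith [G.2 i a1 c]
          · have c' : (k : ℝ) ≤ i := by exact_mod_cast c
            rw [abs_of_nonneg (sub_nonneg.2 (rm c)), abs_of_nonneg (sub_nonneg.2 c')]
            linarith [G.1 i c a2]
      simp only [hu2]
      linarith
    · have rb : ∀ i, i ≤ b → f x ≤ r i ∧ r i ≤ f b := fun i c =>
        ⟨hf (le_max_right _ _), hf (max_le c xb)⟩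
      have := le_ciInf fun i => key k hk i 0 0 ρ le_rfl le_rfl (by simp) ρ0 fun i _ a2 => by
        have b1 := rb i a2
        have b2 := rb k (hs k hk).2
        rw [zero_mul, add_zero]
        exact abs_le.2 ⟨by linarith, by linarith⟩
      simp only [hu2]
      linarith
    · have b1 := Sun9.card_bad (x := fun i : ℕ => (i : ℝ)) (Λ := 8 ^ j * v) rm (by positivity)
        (ax.trans xb) (μ := 1) fun i _ _ => by push_cast; linarith
      have b2 : r b - r a ≤ ρ := by simpa only [hr, max_eq_left xb, max_eq_right ax] using hρ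
      have p := p8 j
      calc _ ≤ ∑ k ∈ (Icc a b).filter fun k =>
            ¬Sun9.Good (fun i : ℕ => (i : ℝ)) r (8 ^ j * v) a b k, C * v :=
            (sum_le_sum fun k hk => (hz k (mem_filter.1 hk).1).2).trans
              (sum_le_sum_of_subset_of_nonneg (filter_subset_filter _ fun k hk =>
                mem_Icc.2 (hs k hk)) fun _ _ _ => by positivity)
        _ ≤ _ := by
            rw [sum_const, nsmul_eq_mul, le_div_iff₀ (by positivity)]
            nlinarith [mul_le_mul_of_nonneg_left (b1.trans (mul_le_mul_of_nonneg_left b2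
              zero_le_two)) C0.le]
  · rintro _ _ rfl rfl
    refine E61.cake3 s (e := e) (fun k hk => (hz k hk).1) (fun k _ => n2 k) one_pos
      (by positivity) (by positivity) h1 (fun k _ i => ?_) (fun k hk => ?_) fun i => ?_
    · rw [one_mul]; exact ciInf_le (bd k) i
    · have b1 := ciInf_le (bd k) 0
      have b2 := ev_le_sup (f := F) (c := 8 ^ 0 * (3 * C * y ^ 3) * v) hQ'
        (by nlinarith [mul_le_mul_of_nonneg_right (sl 0) v0.le]) hD' (hs k hk).1 (hs k hk).2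
      rw [pow_zero (4 : ℝ)] at b1
      simp only [hu2, he] at b1 ⊢
      linarith
    · have p := p8 i
      have s1 := sum_sq (f := F) (c := 8 ^ i * (3 * C * y ^ 3) * v) (ax.trans xb) (by positivity)
        (by positivity) (by nlinarith [mul_le_mul_of_nonneg_right (sl i) v0.le])
        (fun k _ _ => hf (min_le_min k.le_succ le_rfl)) hQ' (hD' a le_rfl (ax.trans xb))
        (hD' b (ax.trans xb) le_rfl)
      have s2 : ∑ k ∈ Icc a b, (F k - Q k) ^ 2 ≤
          ∑ i ∈ Icc a b, (f i - q i) ^ 2 + ((b : ℝ) - x) * D ^ 2 :=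
        calc _ ≤ ∑ k ∈ Icc a b, ((f k - q k) ^ 2 + if x < k then D ^ 2 else 0) :=
              sum_le_sum fun k hk => by
                split_ifs with c
                · have := hD' k (mem_Icc.1 hk).1 (mem_Icc.1 hk).2
                  rw [← sq_abs (F k - Q k)]
                  exact (pow_le_pow_left₀ (abs_nonneg _) this 2).trans
                    (le_add_of_nonneg_left (sq_nonneg _))
                · simp [hF, hQ, not_lt.1 c]
          _ = _ := by
              rw [sum_add_distrib, ← sum_filter, sum_const, nsmul_eq_mul,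
                show (Icc a b).filter (fun k => x < k) = Ioc x b by ext k; simp; omega,
                Nat.card_Ioc, Nat.cast_sub xb]
      calc _ ≤ ∑ k ∈ s, C * v * e i k ^ 2 :=
            sum_le_sum fun k hk => mul_le_mul_of_nonneg_right (hz k hk).2 (sq_nonneg _)
        _ ≤ C * v * (56 / (8 ^ i * (3 * C * y ^ 3) * v) * Y) := by
            rw [← mul_sum]
            refine mul_le_mul_of_nonneg_left (le_trans (sum_le_sum_of_subset_of_nonneg
              (fun j hj => mem_Icc.2 (hs j hj)) fun _ _ _ => sq_nonneg _)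
              (s1.trans (mul_le_mul_of_nonneg_left (le_trans ?_ hY) (by positivity))))
              (by positivity)
            gcongr
        _ = 56 / 3 * (Y / y ^ 3) / 8 ^ i := by field_simp
        _ ≤ _ := by gcongr; norm_num

/-- the corner term against the terms of the cake -/
theorem T_le {w y D : ℝ} (w0 : 0 < w) (y1 : 1 ≤ y) (D0 : 0 ≤ D) (D1 : D ≤ 1) :
    w * √(w * D) * D ≤ (w * y ^ 2) ^ 2 + D ^ 3 / y ^ 3 ∧
    w * √(w * D) * D ^ 2 ≤ (w * y ^ 2) ^ 3 + w * y ^ 2 * (D ^ 3 / y ^ 3) := by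
  have y0 : 0 < y := by linarith
  have a1 : w ≤ w * y ^ 2 := le_mul_of_one_le_right w0.le (one_le_pow₀ y1)
  have p1 : 0 ≤ D ^ 3 / y ^ 3 := by positivity
  rcases le_total D (w * y ^ 2) with c | c
  · have a2 : √(w * D) ≤ w * y ^ 2 := sqrt_le_iff.2 ⟨by positivity, by rw [sq]; gcongr⟩
    generalize w * y ^ 2 = A at *
    have A0 : 0 ≤ A := w0.le.trans a1
    constructor
    · calc _ ≤ A * A * 1 := by gcongr
        _ ≤ _ := by linarith
    · calc _ = w * √(w * D) * D * D := by ring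
        _ ≤ A * A * A * 1 := by gcongr
        _ ≤ _ := by nlinarith [mul_nonneg A0 p1]
  · have a2 : √(w * D) ≤ D / y := sqrt_le_iff.2 ⟨by positivity, by
      rw [div_pow, le_div_iff₀ (by positivity)]; nlinarith [mul_le_mul_of_nonneg_right c D0]⟩
    have a3 : w ≤ D / y ^ 2 := by rwa [le_div_iff₀ (by positivity)]
    constructor
    · calc _ ≤ D / y ^ 2 * (D / y) * D := by gcongr
        _ = D ^ 3 / y ^ 3 := by field_simp
        _ ≤ _ := le_add_of_nonneg_left (by positivity)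
    · calc _ ≤ w * (D / y) * D ^ 2 := by gcongr
        _ = w * y ^ 2 * (D ^ 3 / y ^ 3) := by field_simp
        _ ≤ _ := le_add_of_nonneg_left (by positivity)

end Crest.Agent.T156.Alt.V32

end
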