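import Crest.Agent.T156.SzVA_32
import Crest.Agent.T156.SzTD_98
import Crest.Agent.T156.ClSzB_61

/-!
# Row 156, block (L) (helper32): the sums over the top window from the pointwise size
-/

set_option autoImplicit false

noncomputable section

namespace Crest.Agent.T156.Alt.V32

open Real Finset Filter
open Crest.Agent.T156.Alt.E61 Crest.Agent.T156.Alt.Md67 Crest.Agent.T156.Alt.C33
open Crest.Agent.T156.Alt.L69 Crest.Agent.T156.Alt.Sz9

variable {S : Sc} {M : Md} {m : ℕ} {a E Xp Vt γ u1 Lp : ℝ}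

theorem cub {C ρ R e : ℝ} (C1 : 1 ≤ C) (R0 : 0 ≤ R) (e0 : 0 ≤ e)
    (h : ρ ^ 2 * (ρ - e) ≤ C ^ 2 * R ^ 3) : ρ ≤ C ^ 2 * R + e := not_lt.1 fun c => by
  have p0 : 0 ≤ C ^ 2 * R := by positivity
  have a1 : R ≤ C ^ 2 * R := le_mul_of_one_le_left R0 (one_le_pow₀ C1)
  have a2 : R ^ 2 ≤ ρ ^ 2 := pow_le_pow_left₀ R0 (by linarith) 2
  have a3 := mul_lt_mul_of_pos_left (show C ^ 2 * R < ρ - e by linarith)
    (show 0 < ρ ^ 2 by have : 0 < ρ := by linarith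
                       positivity)
  nlinarith [mul_le_mul_of_nonneg_right a2 p0]

theorem jl16 (F : Fn S M m a) (hE : 48 * S.C ^ 4 ≤ E) (h : E * M.s S.jl ≤ 1) :
    16 * S.jl ≤ S.J := by
  have a1 := (F.s_mem F.toCl.jl_lt.le).1
  have a2 := (mul_le_mul_of_nonneg_right hE (F.s_nonneg S.jl)).trans (h.trans F.J_lo)
  have C0 := F.C0
  have a4 : S.C ^ 3 * S.v * (16 * S.jl) ≤ S.C ^ 3 * S.v * S.J := by
    nlinarith [mul_le_mul_of_nonneg_left a1 (pow_pos C0 3).le]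
  exact_mod_cast le_of_mul_le_mul_left a4 (mul_pos (pow_pos C0 3) F.v0)

/-- location in the top window from the energy -/
theorem del_b (F : Fn S M m a) (j16 : 16 * S.jl ≤ S.J) {D : ℝ} (D1 : D ≤ 1) (vD : S.v ≤ D)
    (h : Ap63.Sx M.z (fun k => M.rb m a k - M.q k) S.j0 S.Jp 2 ≤ D ^ 3) :
    (∀ k, S.J / 2 ≤ k → k < S.J → M.q k - M.rb m a k ≤ 8 * S.C ^ 2 * D) ∧
    (∀ k, S.J / 2 ≤ k → k < S.J → D ≤ ((S.J : ℝ) - k) * S.v →
      M.rb m a k - M.q k ≤ 4 * S.C ^ 2 * D) ∧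
    M.rb m a (S.J - 1) ≤ M.q S.Jp + S.C * D := by
  have H := F.toCl
  have C0 := F.C0
  have C1 := F.C1
  have v0 := F.v0
  have D0 := v0.trans_le vD
  have i0 := F.i0
  have i1 := F.i1
  have i3 := F.i3
  have i4 := F.i4
  have zm := F.leg.zm
  have rm := Md67.rb_mono (M := M) (a := a) F.lg.m0
  have h' : Ap63.Sx M.z (fun k => M.rb m a k - M.q k) S.j0 (S.J - 1) 2 ≤ D ^ 3 :=
    le_trans (sum_le_sum_of_subset_of_nonneg (Ioc_subset_Ioc_right (by omega)) fun k _ _ =>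
      mul_nonneg (Ap63.w_nn zm k) (by positivity)) h
  have gm : ∀ i k, i ≤ k → k ≤ S.J - 1 → M.q i ≤ M.q k := fun i k a1 a2 => H.q_mono a1 (by omega)
  have lip : ∀ i k, S.j0 ≤ i → i ≤ k → k < S.J - 1 →
      M.q (k + 1) - M.q i ≤ S.C ^ 2 * (M.z k - M.z i) + S.C * S.v := fun i k a1 a2 a3 => by
    have b1 := Ap63.q_slow H (show i ≤ k + 1 by omega) (by omega)
    have b2 := Ap63.s_z H a1 a2 (by omega)
    have b3 := (H.ss k (by omega)).2
    linarith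
  have cv : S.C * S.v ≤ S.C ^ 2 * D := by
    have := le_self_pow₀ C1 two_ne_zero; gcongr
  have p1 : 0 ≤ S.C ^ 2 * D := by positivity
  have d3 : D ^ 3 ≤ D ^ 2 := pow_le_pow_of_le_one D0.le D1 (by norm_num)
  have cu : ∀ ρ : ℝ, ρ ^ 2 * (ρ - S.C * S.v) ≤ S.C ^ 2 *
      Ap63.Sx M.z (fun k => M.rb m a k - M.q k) S.j0 (S.J - 1) 2 → ρ ≤ 2 * (S.C ^ 2 * D) :=
    fun ρ e => by
      have := cub C1 D0.le (by positivity) (e.trans (mul_le_mul_of_nonneg_left h' (sq_nonneg _)))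
      linarith
  refine ⟨fun k a1 a2 => ?_, fun k a1 a2 a3 => ?_, ?_⟩
  · rcases le_total (M.q k - M.rb m a k) 0 with c | c
    · linarith
    rcases Ap63.dn (ρ := (M.q k - M.rb m a k) / 2) (k := k) zm rm (sq_nonneg S.C) gm lip (by omega)
      (by omega) (by linarith) (by linarith) 2 with e | e
    · have b := Ap63.blk_le (y := fun k => M.rb m a k - M.q k) (lo := S.j0) (hi := S.Jp)
        (p := S.j0 + 1) (q := k) (ρ := (M.q k - M.rb m a k) / 2) zm (by omega) (by omega) (by omega)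
        (by linarith) (fun j b1 b2 => le_trans (by
          have := rm b2
          have := gm _ _ b1.le (by omega)
          linarith) (neg_le_abs _)) 2
      have b1 := (H.z_tel (i := S.j0 + 1) (j := k) (by omega) (by omega) a2).1
      have b2 : (S.J : ℝ) ≤ 4 * ((k : ℝ) - (S.j0 + 1 : ℕ)) := by
        have : ((S.J + 4 * (S.j0 + 1) : ℕ) : ℝ) ≤ (4 * k : ℕ) := by exact_mod_cast (by omega)
        push_cast at this ⊢; linarith
      have b3 : 1 ≤ 12 * S.C ^ 4 * (((k : ℝ) - (S.j0 + 1 : ℕ)) * (S.v / S.C)) :=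
        calc _ ≤ 3 * S.C ^ 3 * (4 * ((k : ℝ) - (S.j0 + 1 : ℕ)) * S.v) := F.J_lo.trans (by gcongr)
          _ = _ := by field_simp; ring
      generalize (M.q k - M.rb m a k) = d at *
      have b4 := mul_le_mul_of_nonneg_left b3 (sq_nonneg (d / 2))
      have b5 := mul_le_mul_of_nonneg_left (((mul_le_mul_of_nonneg_left b1 (sq_nonneg (d / 2))).trans
        (b.trans h)).trans d3) (show 0 ≤ 12 * S.C ^ 4 by positivity)
      exact le_of_pow_le_pow_left₀ two_ne_zero (by positivity)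
        (by nlinarith [sq_nonneg (S.C ^ 2 * D)])
    · linarith [cu _ e]
  · rcases le_total (M.rb m a k - M.q k) 0 with c | c
    · linarith
    rcases Ap63.up (ρ := (M.rb m a k - M.q k) / 2) (k := k) zm rm (sq_nonneg S.C) gm lip (by omega)
      (by omega) (by linarith) (by linarith) 2 with e | e
    · have b1 := (H.z_tel (i := k - 1) (j := S.J - 1) (by omega) (by omega) (by omega)).1
      rw [Nat.cast_sub (by omega), Nat.cast_sub (by omega), sub_sub_sub_cancel_right,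
        ← mul_div_assoc, div_le_iff₀ C0] at b1
      generalize (M.rb m a k - M.q k) = d at *
      have b4 := mul_le_mul_of_nonneg_left (a3.trans b1) (sq_nonneg (d / 2))
      have b5 := mul_le_mul_of_nonneg_right (e.trans h') C0.le
      have b6 : (d / 2) ^ 2 ≤ S.C * D ^ 2 := le_of_mul_le_mul_right (by nlinarith) D0
      have b7 : S.C * D ^ 2 ≤ S.C ^ 4 * D ^ 2 := by
        have := le_self_pow₀ C1 four_ne_zero; gcongr
      exact le_of_pow_le_pow_left₀ two_ne_zero (by positivity)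
        (by nlinarith [sq_nonneg (S.C ^ 2 * D)])
    · linarith [cu _ e]
  · rcases le_total (M.rb m a (S.J - 1) - M.q S.Jp) 0 with c | c
    · have : 0 ≤ S.C * D := by positivity
      linarith
    have b := Ap63.blk_le (y := fun k => M.rb m a k - M.q k) (lo := S.j0) (hi := S.Jp)
      (p := S.J - 1) (q := S.Jp) zm (by omega) (by omega) le_rfl c (fun j b1 b2 => le_trans (by
        have := rm b1.le
        have := H.q_mono b2 i4.le
        linarith) (le_abs_self _)) 2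
    have b1 := H.atom.2
    rw [H.top _ le_rfl] at b
    rw [← sub_le_iff_le_add']
    generalize M.rb m a (S.J - 1) - M.q S.Jp = d at *
    have b2 : d ^ 2 * (1 / S.C) ≤ D ^ 2 :=
      (mul_le_mul_of_nonneg_left (by linarith) (sq_nonneg d)).trans ((b.trans h).trans d3)
    rw [mul_one_div, div_le_iff₀ C0] at b2
    exact le_of_pow_le_pow_left₀ two_ne_zero (by positivity)
      (by nlinarith [mul_le_mul_of_nonneg_left C1 (mul_nonneg (sq_nonneg D) C0.le)])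

/-- the corner term at one node of the first shell -/
theorem node {w u ω C A L R γ Z : ℝ} (w0 : 0 < w) (u0 : 0 < u) (ω0 : 0 < ω) (C1 : 1 ≤ C)
    (hω : ω ≤ (2 * C * u) ^ 2) (L1 : 1 ≤ L) (γ0 : 0 ≤ γ) (hR : γ ≤ R) (a1 : w ^ 3 / ω ≤ A)
    (a2 : w ^ 3 * γ ^ 2 / ω ≤ A ^ 3) (hZ : Z = max (w ^ 3 / u ^ 2) γ) {q : ℕ} (hq : q ≤ 2) :
    w * √(w * Z) * Z ^ (q + 1) ≤ 256 * C ^ 8 * (u * ((L ^ ((2 : ℝ) / 3) * A) ^ (q + 2) +
      min (R ^ (q + 2) / L) (√(w ^ 3 / ω) * R ^ (((q + 2 : ℕ) : ℝ) - 1 / 2)))) := by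
  have C0 : 0 < C := by linarith
  have L0 : 0 < L := by linarith
  have R0 := γ0.trans hR
  have A0 : 0 < A := lt_of_lt_of_le (by positivity) a1
  have l1 : 1 ≤ L ^ ((2 : ℝ) / 3) := one_le_rpow L1 (by norm_num)
  have l3 := rp23 L0.le
  have m0 : 0 ≤ min (R ^ (q + 2) / L) (√(w ^ 3 / ω) * R ^ (((q + 2 : ℕ) : ℝ) - 1 / 2)) :=
    le_min (by positivity) (by positivity)
  have c8 : 1 ≤ C ^ 8 := one_le_pow₀ C1
  have sq' : ∀ {Z B : ℝ}, 0 ≤ Z → 0 ≤ B → w ^ 3 * Z ≤ B ^ 2 → w * √(w * Z) ≤ B :=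
    fun Z0 B0 h => le_of_pow_le_pow_left₀ two_ne_zero B0 (by
      rw [mul_pow, sq_sqrt (by positivity)]; linarith)
  generalize L ^ ((2 : ℝ) / 3) = l at *
  have p0 : 0 ≤ u * (l * A) ^ (q + 2) := by positivity
  have fst : ∀ c : ℝ, 1 ≤ c → c ^ 4 ≤ 256 * C ^ 8 → 0 ≤ Z → w ^ 3 ≤ Z * u ^ 2 → Z ≤ c * (l * A) →
      w * √(w * Z) * Z ^ (q + 1) ≤ 256 * C ^ 8 * (u * ((l * A) ^ (q + 2) +
      min (R ^ (q + 2) / L) (√(w ^ 3 / ω) * R ^ (((q + 2 : ℕ) : ℝ) - 1 / 2)))) :=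
    fun c c1 c2 Z0 h1 h2 =>
      calc _ ≤ u * Z * Z ^ (q + 1) := mul_le_mul_of_nonneg_right (sq' Z0 (by positivity)
            (by nlinarith [mul_le_mul_of_nonneg_right h1 Z0])) (by positivity)
        _ = u * Z ^ (q + 2) := by ring
        _ ≤ u * (c * (l * A)) ^ (q + 2) := by gcongr
        _ = c ^ (q + 2) * (u * (l * A) ^ (q + 2)) := by rw [mul_pow]; ring
        _ ≤ _ := by
            gcongr
            · exact (pow_le_pow_right₀ c1 (by omega)).trans c2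
            · linarith
  rcases le_total γ (w ^ 3 / u ^ 2) with c | c
  · rw [max_eq_left c] at hZ
    refine fst (4 * C ^ 2) (by nlinarith) (by nlinarith) (by rw [hZ]; positivity)
      (by rw [hZ, div_mul_cancel₀ _ (by positivity)]) ?_
    rw [div_le_iff₀ ω0] at a1
    rw [hZ, div_le_iff₀ (by positivity)]
    calc _ ≤ l * A * (2 * C * u) ^ 2 := a1.trans (by
          gcongr; exact le_mul_of_one_le_left A0.le l1)
      _ = _ := by ring
  rw [max_eq_right c] at hZ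
  subst hZ
  rcases le_total Z (l * A) with e | e
  · exact fst 1 le_rfl (by linarith) γ0 (by rwa [div_le_iff₀ (by positivity)] at c) (by linarith)
  have b : w * √(w * Z) * Z ^ (q + 1) ≤ 2 * C * u *
      min (R ^ (q + 2) / L) (√(w ^ 3 / ω) * R ^ (((q + 2 : ℕ) : ℝ) - 1 / 2)) := by
    rw [mul_min_of_nonneg _ _ (by positivity)]
    refine le_min ?_ ?_
    · have Z0 : 0 < Z := lt_of_lt_of_le (by positivity) c
      have b1 : w * √(w * Z) ≤ 2 * C * u * Z / L := sq' γ0 (by positivity) (by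
        rw [div_le_iff₀ ω0] at a2
        rw [div_pow, le_div_iff₀ (by positivity)]
        have b2 := pow_le_pow_left₀ (by positivity) e 3
        rw [mul_pow, l3] at b2
        refine le_of_mul_le_mul_right ?_ Z0
        calc _ = L ^ 2 * (w ^ 3 * Z ^ 2) := by ring
          _ ≤ L ^ 2 * (A ^ 3 * (2 * C * u) ^ 2) :=
            mul_le_mul_of_nonneg_left (a2.trans (by gcongr)) (by positivity)
          _ = L ^ 2 * A ^ 3 * (2 * C * u) ^ 2 := by ring
          _ ≤ Z ^ 3 * (2 * C * u) ^ 2 := by gcongr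
          _ = _ := by ring)
      calc _ ≤ 2 * C * u * R / L * R ^ (q + 1) := by gcongr; exact b1.trans (by gcongr)
        _ = _ := by ring
    · have b1 : R ^ (((q + 2 : ℕ) : ℝ) - 1 / 2) = √R * R ^ (q + 1) := by
        rw [show ((q + 2 : ℕ) : ℝ) - 1 / 2 = 1 / 2 + (q + 1 : ℕ) by push_cast; ring,
          rpow_add' R0 (by positivity), rpow_natCast, sqrt_eq_rpow]
      have b2 : w * √(w * Z) ≤ 2 * C * u * (√(w ^ 3 / ω) * √R) := sq' γ0 (by positivity) (by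
        rw [mul_pow, mul_pow _ √R, sq_sqrt (by positivity), sq_sqrt R0]
        calc _ = ω * (w ^ 3 / ω * Z) := by field_simp
          _ ≤ _ := by gcongr)
      rw [b1]
      calc _ ≤ 2 * C * u * (√(w ^ 3 / ω) * √R) * R ^ (q + 1) := by gcongr
        _ = _ := by ring
  refine b.trans ?_
  rw [mul_assoc (2 * C)]
  have c9 : C ≤ C ^ 8 := le_self_pow₀ C1 (by norm_num)
  exact mul_le_mul (by linarith) (mul_le_mul_of_nonneg_left
    (le_add_of_nonneg_left (by positivity)) u0.le) (by positivity) (by positivity)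

/-- **the corner term is paid by the first shell** -/
theorem np_ge (F : Fn S M m a) (H : SzT98.Far E S M Xp Vt γ u1 Lp) (hE : 27 * S.C ^ 3 ≤ E)
    (G : Jn S M Xp u1) {w Z : ℝ} (w0 : 0 < w) (hw : w ^ 3 = S.w3 1) (hZ : Z = max (w ^ 3 / S.u0 ^ 2) γ) {q : ℕ}
    (hq : q ≤ 2) :
    w * √(w * Z) * Z ^ (q + 1) ≤ 256 * S.C ^ 8 * Np M S Xp Vt γ u1 Lp (q + 2) := by
  have h := F.toCl
  have C0 := F.C0
  have C1 := F.C1
  have u0 := H.u0
  have i2 := F.i2
  have i3 := F.i3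
  have zm := F.leg.zm
  have γ0 : 0 ≤ γ := (sub_nonneg.2 (F.sm i3)).trans H.γ0
  have c3 : S.C ≤ S.C ^ 3 := le_self_pow₀ C1 three_ne_zero
  have u10 : 0 ≤ u1 := le_trans (sub_nonneg.2 (F.leg.z1 _)) (h.last.trans H.u1a)
  have b1 : 3 * S.C * S.u0 ≤ 1 := le_of_pow_le_pow_left₀ three_ne_zero zero_le_one (by
    have := mul_le_mul hE G.u03 (by positivity) (le_trans (by positivity) hE)
    nlinarith [H.Xp0.2])
  have b2 : 3 * S.C * u1 ≤ 1 := by
    nlinarith [H.u1b, mul_le_mul_of_nonneg_right hE u10, mul_le_mul_of_nonneg_right c3 u10,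
      mul_nonneg C0.le u10]
  have b3 : S.u0 + S.u0 ≤ 1 - M.z (S.J - 1) - S.u0 ∧ u1 + S.u0 ≤ 1 - M.z (S.J - 1) - S.u0 := by
    have a1 := h.atom.2
    have a2 : 3 * S.u0 ≤ 1 / S.C := by rw [le_div_iff₀ C0]; linarith
    have a3 : 3 * u1 ≤ 1 / S.C := by rw [le_div_iff₀ C0]; linarith
    exact ⟨by linarith, by linarith⟩
  have w3 := F.w3_pos one_pos
  have Xp0 := H.Xp0.1
  have Vt0 := H.Vt0
  have L1 := H.Lp1.1
  have Rg : ∀ k, γ ≤ Rp M S Xp Vt γ k := fun k => le_add_of_nonneg_left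
    (add_nonneg (sqrt_nonneg _) (le_min Vt0 (sqrt_nonneg _)))
  have apn : ∀ k, 0 ≤ (S.w3 1 * (S.den (M.z (k - 1)) + (Rp M S Xp Vt γ k + Xp ^ ((1 : ℝ) / 3)) ^ 2 /
      (ds M S k ^ 2 * S.den (M.z (k - 1))))) ∧
      0 ≤ S.w3 1 / (S.den (M.z (k - 1)) * ds M S k ^ 2) := fun k => by
    have := h.den0 (M.z (k - 1))
    exact ⟨by positivity, by positivity⟩
  have wt := wt_ge (z := M.z) (a := S.J - 1) (x := M.z (S.J - 1) + S.u0) (b := S.Jp)
    (by linarith) (by omega)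
  rw [h.top _ le_rfl, min_eq_right (by linarith [b3.1]), add_sub_cancel_left] at wt
  have T0 : 0 ≤ w * √(w * Z) * Z ^ (q + 1) := by
    have : 0 ≤ Z := by rw [hZ]; exact γ0.trans (le_max_right _ _)
    positivity
  refine le_of_mul_le_mul_left ?_ u0
  calc _ ≤ _ := mul_le_mul_of_nonneg_right wt T0
    _ ≤ ∑ k ∈ (Ioc (S.J - 1) S.Jp).filter fun k => M.z (k - 1) ≤ M.z (S.J - 1) + S.u0,
          S.u0 * (256 * S.C ^ 8) * (dx M k * ((Lp ^ ((2 : ℝ) / 3) * ap M S Xp Vt γ k) ^ (q + 2) +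
            min (Rp M S Xp Vt γ k ^ (q + 2) / Lp) (√(S.w3 1 / (S.den (M.z (k - 1)) * ds M S k ^ 2)) *
              Rp M S Xp Vt γ k ^ (((q + 2 : ℕ) : ℝ) - 1 / 2)))) := by
        rw [sum_mul]
        refine sum_le_sum fun k hk => ?_
        obtain ⟨k1, k2⟩ := mem_filter.1 hk
        have k3 := zm (show S.J - 1 ≤ k - 1 by have := (mem_Ioc.1 k1).1; omega)
        have d0 := h.den0 (M.z (k - 1))
        have d1 : S.den (M.z (k - 1)) ≤ S.C ^ 2 := (h.dens _ _ le_rfl k3 (by linarith [b3.1])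
          (le_min (by linarith) (by linarith [b3.1]))).2.trans (by rw [sq]; gcongr; exact G.dj2)
        have s0 : 0 < ds M S k := lt_min (by unfold dl; linarith) (by unfold du; linarith [b3.1])
        have s1 : ds M S k ≤ 2 * S.u0 := (min_le_left _ _).trans (by unfold dl; linarith)
        obtain ⟨n1, n2⟩ := apn k
        have := node (ω := S.den (M.z (k - 1)) * ds M S k ^ 2) (A := ap M S Xp Vt γ k) w0 u0
          (by positivity) C1 (by
            rw [show (2 * S.C * S.u0) ^ 2 = S.C ^ 2 * (2 * S.u0) ^ 2 by ring]; gcongr) L1 γ0 (Rg k)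
          (by
            rw [hw]
            exact le_add_of_le_of_nonneg (le_add_of_nonneg_left (by positivity)) (sqrt_nonneg _))
          (by
            refine le_trans ?_ (pow_le_pow_left₀ (by positivity)
              (le_add_of_le_of_nonneg (le_add_of_nonneg_right n2) (sqrt_nonneg _)) 3)
            rw [rp3 n1, hw, mul_div_assoc, mul_comm _ (ds M S k ^ 2)]
            refine mul_le_mul_of_nonneg_left (le_add_of_nonneg_of_le d0.le ?_) w3.le
            gcongr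
            exact le_add_of_le_of_nonneg (Rg k) (by positivity)) hZ hq
        rw [hw] at this
        refine (mul_le_mul_of_nonneg_left this (Ap63.w_nn zm k)).trans_eq ?_
        unfold dx; ring
    _ ≤ _ := by
        rw [← mul_sum, mul_assoc S.u0]
        gcongr
        refine le_add_of_nonneg_of_le u10 (sum_le_sum_of_subset_of_nonneg (fun k hk => ?_)
          fun k _ _ => mul_nonneg (Ap63.w_nn zm k) ?_)
        · obtain ⟨k1, k2⟩ := mem_filter.1 hk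
          have := mem_Ioc.1 k1
          exact mem_filter.2 ⟨mem_Icc.2 ⟨by omega, by omega⟩, by unfold du; linarith [b3.2]⟩
        · obtain ⟨n1, n2⟩ := apn k
          have := γ0.trans (Rg k)
          have : 0 ≤ ap M S Xp Vt γ k := add_nonneg (add_nonneg (by positivity) n2) (sqrt_nonneg _)
          exact add_nonneg (by positivity) (le_min (by positivity) (by positivity))

theorem pow3 {x a b c l : ℝ} (x0 : 0 ≤ x) (a0 : 0 ≤ a) (b0 : 0 ≤ b) (c0 : 0 ≤ c) (l1 : 1 ≤ l)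
    (h : x ≤ l * (a + b + c)) {q : ℕ} (hq : q ≤ 2) :
    x ^ (q + 2) ≤ 64 * l ^ 4 * (a ^ (q + 2) + b ^ (q + 2) + c ^ (q + 2)) := by
  have a1 := add_pow_le (add_nonneg a0 b0) c0 (q + 2)
  have a2 := add_pow_le a0 b0 (q + 2)
  have a3 : (2 : ℝ) ^ (q + 2 - 1) ≤ 8 :=
    (pow_le_pow_right₀ one_le_two (show _ ≤ 3 by omega)).trans (by norm_num)
  have a4 : (a + b) ^ (q + 2) ≤ 8 * (a ^ (q + 2) + b ^ (q + 2)) := a2.trans (by gcongr)
  have a5 : 0 ≤ c ^ (q + 2) := by positivity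
  calc _ ≤ l ^ (q + 2) * (a + b + c) ^ (q + 2) := by rw [← mul_pow]; gcongr
    _ ≤ l ^ 4 * (8 * ((a + b) ^ (q + 2) + c ^ (q + 2))) :=
      mul_le_mul (pow_le_pow_right₀ l1 (by omega)) (a1.trans (by gcongr)) (by positivity)
        (by positivity)
    _ ≤ l ^ 4 * (64 * (a ^ (q + 2) + b ^ (q + 2) + c ^ (q + 2))) := by gcongr ?_ * ?_; linarith
    _ = _ := by ring

/-- **the sums at a free first slope** `y ^ 3`; `D` is the location, `Z` the corner size -/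
theorem sums (F : Fn S M m a) (j16 : 16 * S.jl ≤ S.J) (hγ : M.s S.Jp - M.s S.J ≤ γ)
    {lam D w y Z : ℝ} {h : ℕ → ℝ} (l1 : 1 ≤ lam) (phi : Phi M S m a ≤ D ^ 3) (vD : S.v ≤ D)
    (D1 : 12 * S.C ^ 3 * D ≤ 1) (w0 : 0 < w) (y1 : 1 ≤ y) (DZ : D ≤ Z) (γZ : γ ≤ Z)
    (hh : ∀ k < S.J, 0 ≤ h k ∧ h k ≤ w ^ 3 / (((S.J : ℝ) - k) * S.v) ^ 2 ∧ h k ≤ 3 * Z)
    (hW : ∀ k (κ e : ℝ), 2 * S.J ≤ 3 * k → k < S.J → 1 ≤ κ → 0 ≤ e →
      (∀ i : ℕ, S.J / 2 ≤ i → i < S.J →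
        |M.rb m a i - M.rb m a k| ≤ e + κ * (|(i : ℝ) - k| * S.v)) →
      u4 M m a k ≤ lam * (κ ^ ((2 : ℝ) / 3) * w + e + h k)) :
    ∑ k ∈ (range S.J).filter fun k => 2 * S.J ≤ 3 * k, M.dz m a k * u4 M m a k ^ 2 ≤
      10 ^ 12 * S.C ^ 9 * lam ^ 4 * ((w * y ^ 2) ^ 2 + D ^ 3 / y ^ 3 + w * √(w * Z) * Z) ∧
    ∑ k ∈ (range S.J).filter fun k => 2 * S.J ≤ 3 * k, M.dz m a k * u4 M m a k ^ 3 ≤
      10 ^ 12 * S.C ^ 9 * lam ^ 4 *
        ((w * y ^ 2) ^ 3 + w * y ^ 2 * (D ^ 3 / y ^ 3) + w * √(w * Z) * Z ^ 2) ∧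
    (y = 1 → ∑ k ∈ (range S.J).filter fun k => 2 * S.J ≤ 3 * k, M.dz m a k * u4 M m a k ^ 4 ≤
      10 ^ 12 * S.C ^ 9 * lam ^ 4 * (w ^ 4 + w * √(w * Z) * Z ^ 3)) := by
  have H := F.toCl
  have L := F.lg
  have C0 := F.C0
  have C1 := F.C1
  have v0 := F.v0
  have D0 := v0.trans_le vD
  have Z0 := D0.trans_le DZ
  have y0 : 0 < y := by linarith
  have l0 : 0 < lam := by linarith
  have i0 := F.i0
  have i1 := F.i1
  have i3 := F.i3
  have i4 := F.i4
  have c : ∀ {i j : ℕ}, i ≤ j → S.C ^ i ≤ S.C ^ j := fun e => pow_le_pow_right₀ C1 e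
  have c1 : ∀ i : ℕ, 1 ≤ S.C ^ i := fun i => one_le_pow₀ C1
  rw [Phi, Ap63.En_eq H] at phi
  obtain ⟨d1, d2, d3⟩ := del_b F j16 (by nlinarith [mul_le_mul_of_nonneg_right (c1 3) D0.le]) vD phi
  have f1 := Nat.le_ceil (D / S.v)
  have f2 := Nat.ceil_lt_add_one (show 0 ≤ D / S.v by positivity)
  have f3 : 0 < ⌈D / S.v⌉₊ := Nat.ceil_pos.2 (by positivity)
  generalize ⌈D / S.v⌉₊ = n at f1 f2 f3
  rw [div_le_iff₀ v0] at f1
  rw [div_add_one v0.ne', lt_div_iff₀ v0] at f2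
  have f4 : 2 * n ≤ S.J := by
    have : S.C ^ 3 * S.v * (2 * n) ≤ S.C ^ 3 * S.v * S.J := by
      nlinarith [F.J_lo, mul_le_mul_of_nonneg_left (show n * S.v ≤ 2 * D by linarith)
        (pow_pos C0 3).le]
    exact_mod_cast le_of_mul_le_mul_left this (by positivity)
  have dzb : ∀ i, S.J / 2 ≤ i → i < S.J → S.v / S.C ≤ M.dz m a i ∧ M.dz m a i ≤ S.C * S.v :=
    fun i a1 a2 => by
      obtain ⟨i, rfl⟩ : ∃ r, i = r + 1 := ⟨i - 1, by omega⟩
      rw [dz_succ H.leg]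
      exact H.zs i (by omega) a2
  have ex : ((S.J - n : ℕ) : ℝ) = S.J - n := Nat.cast_sub (by omega)
  have eb : ((S.J - 1 : ℕ) : ℝ) = S.J - 1 := by rw [Nat.cast_sub (by omega), Nat.cast_one]
  set s := (range S.J).filter fun k => 2 * S.J ≤ 3 * k with hs
  have ms : ∀ k ∈ s, 2 * S.J ≤ 3 * k ∧ k < S.J := fun k hk =>
    ⟨(mem_filter.1 hk).2, mem_range.1 (mem_filter.1 hk).1⟩
  have hz : ∀ k ∈ s, 0 ≤ M.dz m a k ∧ M.dz m a k ≤ S.C * S.v := fun k hk =>
    ⟨L.dz_nonneg k, (dzb k (by have := ms k hk; omega) (ms k hk).2).2⟩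
  have p1 : 0 ≤ S.C ^ 2 * D := by positivity
  obtain ⟨u1, u2, n0, r1, r2⟩ := core s (f := M.rb m a) (q := M.q) (dz := M.dz m a)
    (u := fun k => u4 M m a k / lam - h k) (a := S.J / 2) (b := S.J - 1) (x := S.J - n)
    (D := 8 * S.C ^ 2 * D) (Y := 1284 * S.C ^ 6 * D ^ 3) (ρ := 12 * S.C ^ 2 * Z) C1 v0 w0 y1
    (by omega) (by omega) (fun k hk => by have := ms k hk; omega) (Md67.rb_mono L.m0)
    (fun k _ a2 => ⟨sub_nonneg.2 (H.q_mono k.le_succ (by omega)),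
      (Ap63.q_slow H k.le_succ (by omega)).trans (H.ss k (by omega)).2⟩) hz
    ((L.sum_dz_le s).trans (by linarith [L.a0])) (fun i a1 a2 => by
      have b1 := d1 i a1 (by omega)
      have b2 : (i : ℝ) ≤ (S.J - n : ℕ) := by exact_mod_cast a2
      have b3 := d2 i a1 (by omega) (f1.trans (by gcongr; linarith))
      exact abs_le.2 ⟨by linarith, by linarith⟩) (by
      have b1 : S.v * ∑ i ∈ Icc (S.J / 2) (S.J - 1), (M.rb m a i - M.q i) ^ 2 ≤ S.C * D ^ 3 := by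
        rw [Ap63.Sx_two] at phi
        refine le_trans ?_ (mul_le_mul_of_nonneg_left (le_trans (sum_le_sum_of_subset_of_nonneg
          (s := Icc (S.J / 2) (S.J - 1)) (fun j hj => by
            have := mem_Icc.1 hj; exact mem_Ioc.2 ⟨by omega, by omega⟩) fun j _ _ =>
            mul_nonneg (Ap63.w_nn F.leg.zm j) (sq_nonneg _)) phi) C0.le)
        rw [mul_sum, mul_sum]
        refine sum_le_sum fun k hk => ?_
        have k1 := mem_Icc.1 hk
        have := (dzb k k1.1 (by omega)).1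
        rw [div_le_iff₀' C0, dz_up F.leg (by omega)] at this
        rw [← mul_assoc]
        exact mul_le_mul_of_nonneg_right this (sq_nonneg _)
      have b2 : (((S.J - 1 : ℕ) : ℝ) - (S.J - n : ℕ)) * S.v ≤ D := by rw [ex, eb]; linarith
      have b3 := mul_le_mul_of_nonneg_left b1 C0.le
      have b4 := mul_le_mul_of_nonneg_left b2 (show 0 ≤ S.C ^ 5 * D ^ 2 by positivity)
      have b5 := mul_le_mul_of_nonneg_right (c (show 2 ≤ 6 by norm_num)) (pow_pos D0 3).le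
      have b6 := mul_le_mul_of_nonneg_right (c (show 5 ≤ 6 by norm_num)) (pow_pos D0 3).le
      linarith) (by
      have b1 := d1 (S.J - n) (by omega) (by omega)
      have b2 := Ap63.q_slow H (show S.J - n ≤ S.Jp by omega) le_rfl
      have b3 := (H.s_tel (show S.J - n ≤ S.J by omega) le_rfl).2
      rw [ex] at b3
      have b4 := mul_le_mul_of_nonneg_left (show n * S.v ≤ 2 * D by linarith) C0.le
      have b5 : S.C * D ≤ S.C ^ 2 * D := by
        have := le_self_pow₀ C1 two_ne_zero; gcongr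
      have b6 : S.C ^ 2 * D ≤ S.C ^ 2 * Z := by gcongr
      have b7 := le_mul_of_one_le_left Z0.le (c1 2)
      linarith) (fun k hk κ α e a1 a2 a3 a4 a5 => by
      have b1 := hW k κ e (ms k hk).1 (ms k hk).2 a1 a4 fun i b1 b2 => a5 i b1 (by omega)
      have b2 : κ ^ ((2 : ℝ) / 3) * w ≤ α := le_of_pow_le_pow_left₀ three_ne_zero a2 (by
        rw [mul_pow, rp23 (by linarith)]; linarith)
      rw [← div_le_iff₀' l0] at b1
      linarith)
  obtain ⟨r2, r3, r4⟩ := r2 _ _ rfl rfl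
  have wA : w ≤ w * y ^ 2 := le_mul_of_one_le_right w0.le (one_le_pow₀ y1)
  have t0 : 0 < w * √(w * Z) := by positivity
  have gen : ∀ q ≤ 2, ∑ k ∈ s, M.dz m a k * u4 M m a k ^ (q + 2) ≤ 64 * lam ^ 4 *
      (256 * (w * y ^ 2) ^ (q + 2) + 10 ^ 7 * S.C ^ 9 * (w * √(w * Z) * Z ^ (q + 1)) +
        ∑ k ∈ s, M.dz m a k * u2 k ^ (q + 2)) := fun q hq => by
    have a1 := h_sum s (dz := M.dz m a) (h := h) (ρ := w * √(w * Z) / Z) v0 (by positivity) Z0.le
      C0.le (fun k hk => (ms k hk).2) hz (fun k hk => by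
        rw [show Z * (w * √(w * Z) / Z) ^ 2 = w ^ 3 by
          rw [div_pow, mul_pow, sq_sqrt (by positivity)]; field_simp]
        exact hh k (ms k hk).2) q
    rw [show w * √(w * Z) / Z * Z ^ (q + 2) = w * √(w * Z) * Z ^ (q + 1) by field_simp; ring] at a1
    have a2 : √(2 * w) * √(12 * S.C ^ 2 * Z) ≤ 5 * S.C * √(w * Z) := by
      rw [← sqrt_mul (by positivity)]
      refine sqrt_le_iff.2 ⟨by positivity, ?_⟩
      rw [mul_pow, sq_sqrt (by positivity)]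
      nlinarith [show 0 ≤ S.C ^ 2 * (w * Z) by positivity]
    have a3 : (12 * S.C ^ 2) ^ (q + 1) ≤ (12 * S.C ^ 2) ^ 3 :=
      pow_le_pow_right₀ (by linarith [c1 2]) (by omega)
    have a4 : (2 : ℝ) ^ (q + 2) ≤ 2 ^ 4 := pow_le_pow_right₀ one_le_two (by omega)
    have a5 : (3 : ℝ) ^ (q + 1) ≤ 3 ^ 3 := pow_le_pow_right₀ (by norm_num) (by omega)
    have a6 : ∑ k ∈ s, M.dz m a k * u1 k ^ (q + 2) ≤ 256 * (w * y ^ 2) ^ (q + 2) +
        8847360 * S.C ^ 8 * (w * √(w * Z) * Z ^ (q + 1)) :=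
      calc _ ≤ _ := r1 q
        _ = 2 ^ (q + 2) * (2 ^ (q + 2) * w ^ (q + 2) + 64 * S.C * w *
            (√(2 * w) * √(12 * S.C ^ 2 * Z)) * ((12 * S.C ^ 2) ^ (q + 1) * Z ^ (q + 1))) := by
          rw [mul_pow (2 : ℝ) w, ← mul_pow _ Z]; ring
        _ ≤ 2 ^ 4 * (2 ^ 4 * (w * y ^ 2) ^ (q + 2) + 64 * S.C * w *
            (5 * S.C * √(w * Z)) * ((12 * S.C ^ 2) ^ 3 * Z ^ (q + 1))) := by gcongr
        _ = _ := by ring
    have T0 : 0 ≤ w * √(w * Z) * Z ^ (q + 1) := by positivity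
    have a7 : ∑ k ∈ s, M.dz m a k * h k ^ (q + 2) ≤
        12 * S.C * 3 ^ 3 * (w * √(w * Z) * Z ^ (q + 1)) := a1.trans (by gcongr)
    have a8 := mul_le_mul_of_nonneg_right (c (show 8 ≤ 9 by norm_num)) T0
    have a9 := mul_le_mul_of_nonneg_right (c (show 1 ≤ 9 by norm_num)) T0
    have a10 : 0 ≤ S.C ^ 9 * (w * √(w * Z) * Z ^ (q + 1)) := by positivity
    calc _ ≤ ∑ k ∈ s, 64 * lam ^ 4 * (M.dz m a k * u1 k ^ (q + 2) + M.dz m a k * u2 k ^ (q + 2) +
          M.dz m a k * h k ^ (q + 2)) := sum_le_sum fun k hk => by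
          obtain ⟨b1, b2, b3⟩ := n0 k hk
          refine (mul_le_mul_of_nonneg_left (pow3 (u4_nn k) b1 b2 (hh k (ms k hk).2).1 l1 ?_ hq)
            (hz k hk).1).trans_eq (by ring)
          rw [← div_le_iff₀' l0]
          linarith
      _ ≤ _ := by
          rw [← mul_sum, sum_add_distrib, sum_add_distrib]
          refine mul_le_mul_of_nonneg_left ?_ (by positivity)
          linarith
  have fin : ∀ {x A B T : ℝ}, 0 ≤ A → 0 ≤ B → 0 ≤ T → x ≤ 12 * 10 ^ 9 * S.C ^ 9 * (A + B) →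
      64 * lam ^ 4 * (256 * A + 10 ^ 7 * S.C ^ 9 * T + x) ≤
        10 ^ 12 * S.C ^ 9 * lam ^ 4 * (A + B + T) := fun {x A B T} A0 B0 T0 e => by
    have a1 := mul_le_mul_of_nonneg_right (c1 9) A0
    have a2 : 0 ≤ S.C ^ 9 * B := by positivity
    have a3 : 0 ≤ S.C ^ 9 * T := by positivity
    calc _ = lam ^ 4 * (64 * (256 * A + 10 ^ 7 * S.C ^ 9 * T + x)) := by ring
      _ ≤ lam ^ 4 * (10 ^ 12 * S.C ^ 9 * (A + B + T)) := by gcongr ?_ * ?_; linarith
      _ = _ := by ring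
  have q0 : 0 ≤ D ^ 3 / y ^ 3 := by positivity
  rw [mul_div_assoc] at r2 r3 r4
  refine ⟨(gen 0 (by norm_num)).trans ?_, (gen 1 (by norm_num)).trans ?_, fun e => ?_⟩
  · rw [zero_add 1, pow_one]
    refine fin (by positivity) q0 (by positivity) (r2.trans ?_)
    generalize D ^ 3 / y ^ 3 = B at *
    have a1 := mul_le_mul_of_nonneg_right (c (show 2 ≤ 9 by norm_num)) (sq_nonneg (w * y ^ 2))
    have a2 := mul_le_mul_of_nonneg_right (c (show 6 ≤ 9 by norm_num)) q0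
    have a3 : 0 ≤ S.C ^ 9 * B := by positivity
    have a4 : 0 ≤ S.C ^ 9 * (w * y ^ 2) ^ 2 := by positivity
    rw [zero_add 2]
    linarith
  · refine fin (by positivity) (by positivity) (by positivity) (r3.trans ?_)
    have A0 : 0 ≤ w * y ^ 2 := by positivity
    generalize D ^ 3 / y ^ 3 = B at *
    generalize w * y ^ 2 = A at *
    have a1 := mul_le_mul_of_nonneg_right (c (show 3 ≤ 9 by norm_num)) (pow_nonneg A0 3)
    have a2 := mul_le_mul_of_nonneg_right (c (show 7 ≤ 9 by norm_num)) (mul_nonneg A0 q0)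
    have a3 : 0 ≤ S.C ^ 9 * (A * B) := by positivity
    have a4 : 0 ≤ S.C ^ 9 * A ^ 3 := by positivity
    rw [show (1 + 2 : ℕ) = 3 from rfl]
    linarith
  · subst e
    have g := gen 2 le_rfl
    simp only [one_pow, mul_one, div_one, one_mul] at r4 g
    have a0 : √(6 * S.C * w * (2 * (8 * S.C ^ 2 * D))) ≤ 10 * S.C ^ 2 * √(w * Z) := by
      refine sqrt_le_iff.2 ⟨by positivity, ?_⟩
      rw [mul_pow, sq_sqrt (by positivity)]
      have b1 : S.C ^ 3 * (w * D) ≤ S.C ^ 4 * (w * Z) := by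
        have := c (show 3 ≤ 4 by norm_num); gcongr
      nlinarith [show 0 ≤ S.C ^ 4 * (w * Z) by positivity]
    have a1 := mul_le_mul_of_nonneg_right (c (show 4 ≤ 9 by norm_num)) (pow_pos w0 4).le
    have a2 : 6 * S.C * w * √(6 * S.C * w * (2 * (8 * S.C ^ 2 * D))) *
        (19 * (1284 * S.C ^ 6 * D ^ 3)) ≤
        6 * S.C * w * (10 * S.C ^ 2 * √(w * Z)) * (19 * (1284 * S.C ^ 6 * Z ^ 3)) := by gcongr
    have a3 : 0 ≤ S.C ^ 9 * (w * √(w * Z) * Z ^ 3) := by positivity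
    have a4 : 0 ≤ S.C ^ 9 * w ^ 4 := by positivity
    have a5 := mul_le_mul_of_nonneg_right (c1 9) (pow_pos w0 4).le
    refine g.trans ?_
    calc _ = lam ^ 4 * (64 * (256 * w ^ 4 + 10 ^ 7 * S.C ^ 9 * (w * √(w * Z) * Z ^ 3) +
          ∑ k ∈ s, M.dz m a k * u2 k ^ 4)) := by ring
      _ ≤ lam ^ 4 * (10 ^ 12 * S.C ^ 9 * (w ^ 4 + w * √(w * Z) * Z ^ 3)) := by
          gcongr ?_ * ?_; linarith
      _ = _ := by ring

theorem le_lam {x y l l' : ℝ} (x0 : 0 ≤ x) (l1 : 1 ≤ l) (h : l ≤ l') (H : x ≤ l * y) :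
    x ≤ l' * y :=
  H.trans (mul_le_mul_of_nonneg_right h (nonneg_of_mul_nonneg_right (x0.trans H) (by linarith)))

/-- **`SzV` from `SzW`** -/
theorem _root_.Crest.Agent.T156.Alt.SzT98.szV_of (hW : SzT98.SzW) : SzT98.SzV := by
  refine ((CL.and hW CL_fn).glue' (R := fun E Λ S M m a => Fn S M m a ∧ _) ?_ 0 le_rfl 1 5
    fun C _ ε η _ _ => ⟨10 ^ 16 * C ^ 17, fun S M m a G _ b1 _ _ _ ⟨H, F⟩ => ⟨F, ?_⟩⟩).mono
    fun _ _ _ _ _ _ _ _ _ _ h => h.2
  · rintro E Λ Λ' S M m a l1 h ⟨F, H⟩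
    refine ⟨F, fun l0 X Xp Vt γ u1 j Lp a1 a2 a3 a4 w a5 => ?_⟩
    obtain ⟨r2, r3, r4⟩ := H l0 X Xp Vt γ u1 j Lp a1 a2 a3 a4 w a5
    have n : ∀ i : ℕ, 0 ≤ ∑ k ∈ (range S.J).filter fun k => 2 * S.J ≤ 3 * k,
        M.dz m a k * u4 M m a k ^ i := fun i =>
      sum_nonneg fun k _ => mul_nonneg (F.lg.dz_nonneg k) (pow_nonneg (u4_nn k) i)
    exact ⟨le_lam (n 2) l1 h r2, le_lam (n 3) l1 h r3, le_lam (n 4) l1 h r4⟩
  have b2 := G.K_le
  have b3 := Pre29.rp_le G.n1 (show _ ≤ _ by simpa using b1)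
  rw [← G.hC] at b2
  rw [pow_one]
  generalize (S.n : ℝ) ^ η = lam at H b2 b3 ⊢
  generalize (S.n : ℝ) ^ ε = E at H b3 ⊢
  intro l0 X Xp Vt γ u1 j Lp fa ap X0 X1 w hw
  have C0 := F.C0
  have C1 := F.C1
  have v0 := F.v0
  have c : ∀ {i j : ℕ}, i ≤ j → S.C ^ i ≤ S.C ^ j := fun e => pow_le_pow_right₀ C1 e
  have c1 : ∀ i : ℕ, 1 ≤ S.C ^ i := fun i => one_le_pow₀ C1
  have l1 : 1 ≤ lam := by linarith [c1 17]
  have hE : ∀ (x : ℝ) (i : ℕ), x ≤ 10 ^ 16 → i ≤ 17 → x * S.C ^ i ≤ E := fun x i a1 a2 =>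
    (mul_le_mul a1 (c a2) (by positivity) (by positivity)).trans (b2.trans b3)
  have w3 := F.w3_pos one_pos
  have w0 : 0 < w := by rw [hw]; positivity
  have e3 : w ^ 3 = S.w3 1 := by rw [hw, rp3 w3.le]
  have vw : S.v ≤ S.C ^ 2 * w := by rw [hw]; exact B61.v_le_w F one_pos C1
  have γ0 : 0 ≤ γ := (sub_nonneg.2 (F.sm F.i3)).trans fa.γ0
  have u0 := fa.u0
  have Xp0 := fa.Xp0.1
  have R3 := rp3 X0.le
  have R0 : 0 < X ^ ((1 : ℝ) / 3) := by positivity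
  have v1 : 12 * S.C ^ 3 * S.v ≤ 1 := by
    have a1 := (F.s_mem F.toCl.jl_lt.le).1
    have a2 : (1 : ℝ) ≤ S.jl := by exact_mod_cast F.i0.trans F.i1
    have a3 := (mul_le_mul_of_nonneg_right (hE 12 4 (by norm_num) (by norm_num))
      (F.s_nonneg S.jl)).trans fa.jl
    nlinarith [mul_le_mul_of_nonneg_left ((le_mul_of_one_le_left v0.le a2).trans a1)
      (pow_pos C0 3).le]
  have v2 : S.v ≤ 1 := by nlinarith [mul_le_mul_of_nonneg_right (c1 3) v0.le]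
  have v3 : S.v ^ 3 ≤ S.C ^ 4 * w ^ 2 :=
    calc _ = S.v * S.v ^ 2 := by ring
      _ ≤ 1 * (S.C ^ 2 * w) ^ 2 := by gcongr
      _ = _ := by ring
  obtain ⟨D, RD, vD, D1, D3, D4⟩ : ∃ D, X ^ ((1 : ℝ) / 3) ≤ D ∧ S.v ≤ D ∧ 12 * S.C ^ 3 * D ≤ 1 ∧
      D ^ 3 ≤ X + S.C ^ 4 * w ^ 2 ∧ w * √(w * D) * D ^ 3 ≤
        S.C ^ 5 * w ^ 4 + w ^ ((3 : ℝ) / 2) * X ^ ((7 : ℝ) / 6) := by
    rcases le_total S.v (X ^ ((1 : ℝ) / 3)) with e | e
    · refine ⟨_, le_rfl, e, le_of_pow_le_pow_left₀ three_ne_zero zero_le_one ?_,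
        R3.le.trans (le_add_of_nonneg_right (by positivity)),
        le_add_of_nonneg_of_le (by positivity) (le_of_eq ?_)⟩
      · rw [mul_pow, R3]
        linarith [mul_le_mul_of_nonneg_right (hE 1728 9 (by norm_num) (by norm_num)) X0.le]
      · rw [R3, sqrt_eq_rpow, mul_rpow w0.le (by positivity), ← rpow_mul X0.le,
          show (3 : ℝ) / 2 = 1 + 1 / 2 by norm_num, rpow_add w0, rpow_one,
          show (7 : ℝ) / 6 = 1 / 3 * (1 / 2) + 1 by norm_num, rpow_add_one' X0.le (by norm_num)]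
        ring
    · refine ⟨_, e, le_rfl, v1, le_add_of_nonneg_of_le X0.le v3,
        le_add_of_le_of_nonneg ?_ (by positivity)⟩
      have b1 : √(w * S.v) ≤ S.C * w :=
        sqrt_le_iff.2 ⟨by positivity, by nlinarith [mul_le_mul_of_nonneg_left vw w0.le]⟩
      calc _ ≤ w * (S.C * w) * (S.C ^ 4 * w ^ 2) := by gcongr
        _ = _ := by ring
  have D0 := v0.trans_le vD
  have np := fun q (hq : q ≤ 2) => np_ge F fa (hE 27 3 (by norm_num) (by norm_num)) ap.jn w0 e3 rfl hq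
  have g1 := le_max_left (w ^ 3 / S.u0 ^ 2) γ
  have g2 := le_max_right (w ^ 3 / S.u0 ^ 2) γ
  generalize max (w ^ 3 / S.u0 ^ 2) γ = Z at np g1 g2
  have Z0 := γ0.trans g2
  have sm := fun y (y1 : 1 ≤ y) => sums (Z := max D Z) (y := y) (h := fun k => min (S.w3 1 /
    (((S.J : ℝ) - k) * S.v) ^ 2) (S.w3 1 / S.u0 ^ 2 + min X Xp ^ ((1 : ℝ) / 3) + γ)) F
    (jl16 F (hE 48 4 (by norm_num) (by norm_num)) fa.jl) fa.γ0 l1
    (ap.all.trans (R3.ge.trans (pow_le_pow_left₀ R0.le RD 3))) vD D1 w0 y1 (le_max_left _ _)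
    (g2.trans (le_max_right _ _)) (fun k _ => by
      have a1 : min X Xp ^ ((1 : ℝ) / 3) ≤ X ^ ((1 : ℝ) / 3) :=
        rpow_le_rpow (le_min X0.le Xp0.le) (min_le_left _ _) (by norm_num)
      have a2 : 0 ≤ min X Xp ^ ((1 : ℝ) / 3) := rpow_nonneg (le_min X0.le Xp0.le) _
      refine ⟨le_min (by positivity) (by positivity), by rw [e3]; exact min_le_left _ _,
        (min_le_right _ _).trans ?_⟩
      rw [← e3]
      linarith [le_max_left D Z, le_max_right D Z])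
    (by rw [hw]; exact H l0 X Xp Vt γ u1 j Lp fa ap)
  have mx : ∀ q ≤ 2, w * √(w * max D Z) * max D Z ^ (q + 1) ≤
      w * √(w * D) * D ^ (q + 1) + 256 * S.C ^ 8 * Np M S Xp Vt γ u1 Lp (q + 2) ∧
      0 ≤ S.C ^ 8 * Np M S Xp Vt γ u1 Lp (q + 2) := fun q hq => by
    have a1 := np q hq
    have a2 : 0 ≤ w * √(w * Z) * Z ^ (q + 1) := by positivity
    have a3 : 0 ≤ w * √(w * D) * D ^ (q + 1) := by positivity
    refine ⟨?_, by linarith⟩
    rcases max_choice D Z with e | e <;> rw [e] <;> linarith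
  have fin : ∀ {x B N : ℝ}, 0 ≤ B → 0 ≤ S.C ^ 8 * N → x ≤ 1000 * (S.C ^ 8 * B + S.C ^ 8 * N) →
      10 ^ 12 * S.C ^ 9 * lam ^ 4 * x ≤ lam ^ 5 * (B + N) := fun {x B N} B0 N0 e => by
    have N1 : 0 ≤ N := nonneg_of_mul_nonneg_right N0 (by positivity)
    calc _ ≤ 10 ^ 12 * S.C ^ 9 * lam ^ 4 * (1000 * (S.C ^ 8 * B + S.C ^ 8 * N)) := by gcongr
      _ = 10 ^ 15 * S.C ^ 17 * (lam ^ 4 * (B + N)) := by ring
      _ ≤ lam * (lam ^ 4 * (B + N)) := by gcongr; linarith [c1 17]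
      _ = _ := by ring
  have D2 : D ≤ 1 := by nlinarith [mul_le_mul_of_nonneg_right (c1 3) D0.le]
  have dy : ∀ y : ℝ, 1 ≤ y → D ^ 3 / y ^ 3 ≤ S.C ^ 8 * (X / y ^ 3 + w ^ 2 / y ^ 3) := fun y y1 => by
    have y0 : 0 < y := by linarith
    rw [← add_div, ← mul_div_assoc]
    gcongr
    nlinarith [mul_le_mul_of_nonneg_right (c1 8) X0.le,
      mul_le_mul_of_nonneg_right (c (show 4 ≤ 8 by norm_num)) (sq_nonneg w)]
  refine ⟨?_, ?_, ((sm 1 le_rfl).2.2 rfl).trans ?_⟩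
  · obtain ⟨y, y1, hy⟩ := opt2 (A := w ^ 2) (r := 3 / 7) (s := 4 / 7) (by positivity) X0.le 4 3
      (by norm_num) (by norm_num) (by norm_num)
    obtain ⟨a1, a2⟩ := mx 0 (by norm_num)
    rw [zero_add 1, pow_one, pow_one, zero_add 2] at a1
    refine (sm y y1).1.trans (fin (by positivity) a2 ?_)
    rw [zero_add 2] at a2
    have a3 := (T_le w0 y1 D0.le D2).1
    have a4 := dy y y1
    have a5 : w ^ 2 / y ^ 3 ≤ w ^ 2 * y ^ 4 := (div_le_self (by positivity) (one_le_pow₀ y1)).trans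
      (le_mul_of_one_le_right (by positivity) (one_le_pow₀ y1))
    have a6 := mul_le_mul_of_nonneg_left a5 (pow_pos C0 8).le
    have a7 := mul_le_mul_of_nonneg_left hy (pow_pos C0 8).le
    have a8 := mul_le_mul_of_nonneg_right (c1 8) (show 0 ≤ w ^ 2 * y ^ 4 by positivity)
    have a9 : 0 ≤ S.C ^ 8 * (X / y ^ 3) := by positivity
    have a10 : 0 ≤ w ^ 2 * y ^ 4 := by positivity
    linarith
  · obtain ⟨y, y1, hy⟩ := opt2 (A := w ^ 3) (B := w * X) (r := 1 / 7) (s := 6 / 7)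
      (by positivity) (by positivity) 6 1 (by norm_num) (by norm_num) (by norm_num)
    have y0 : 0 < y := by linarith
    obtain ⟨a1, a2⟩ := mx 1 (by norm_num)
    rw [show (1 + 1 : ℕ) = 2 from rfl, show (1 + 2 : ℕ) = 3 from rfl] at a1
    refine (sm y y1).2.1.trans (fin (by positivity) a2 ?_)
    rw [show (1 + 2 : ℕ) = 3 from rfl] at a2
    rw [pow_one] at hy
    have a3 := (T_le w0 y1 D0.le D2).2
    have a4 := mul_le_mul_of_nonneg_left (dy y y1) (show 0 ≤ w * y ^ 2 by positivity)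
    rw [show w * y ^ 2 * (S.C ^ 8 * (X / y ^ 3 + w ^ 2 / y ^ 3)) =
      S.C ^ 8 * (w * X / y + w ^ 3 / y) by field_simp] at a4
    have a5 : w ^ 3 / y ≤ w ^ 3 * y ^ 6 := (div_le_self (by positivity) y1).trans
      (le_mul_of_one_le_right (by positivity) (one_le_pow₀ y1))
    have a6 := mul_le_mul_of_nonneg_left a5 (pow_pos C0 8).le
    have a7 := mul_le_mul_of_nonneg_left hy (pow_pos C0 8).le
    have a8 := mul_le_mul_of_nonneg_right (c1 8) (show 0 ≤ w ^ 3 * y ^ 6 by positivity)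
    have a9 : 0 ≤ S.C ^ 8 * (w * X / y) := by positivity
    have a10 : 0 ≤ w ^ 3 * y ^ 6 := by positivity
    linarith
  · obtain ⟨a1, a2⟩ := mx 2 le_rfl
    rw [show (2 + 1 : ℕ) = 3 from rfl, show (2 + 2 : ℕ) = 4 from rfl] at a1
    refine fin (by positivity) a2 ?_
    rw [show (2 + 2 : ℕ) = 4 from rfl] at a2
    have a3 := mul_le_mul_of_nonneg_right (c (show 5 ≤ 8 by norm_num)) (pow_pos w0 4).le
    have a4 := mul_le_mul_of_nonneg_right (c1 8) (pow_pos w0 4).le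
    have a5 : 0 ≤ w ^ ((3 : ℝ) / 2) * X ^ ((7 : ℝ) / 6) := by positivity
    have a6 := mul_le_mul_of_nonneg_right (c1 8) a5
    have a7 := (pow_pos w0 4).le
    linarith

end Crest.Agent.T156.Alt.V32

end
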