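import Crest.Agent.T156.TL0B_9
import Crest.Agent.T156.SzLP_33

/-!
Row 156, block (L) (helper9): the window of one level of the induction for (L0).
-/

set_option autoImplicit false

noncomputable section

namespace Crest.Agent.T156.Alt.Sz9

open Real Finset
open Crest.Agent.T156.Alt.E61 Crest.Agent.T156.Alt.Mp9 Crest.Agent.T156.Alt.L69

/-- the frame: loss `L`, margin `D ^ 12` -/
structure C9 (L D : ℝ) (S : Sc) (M : Md) (m : ℕ) (a G1 l X Lg X2 X3 G0 : ℝ) (η : ℝ → ℝ) :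
    Prop where
  A : At S M m a (2 * S.C)
  cei : CeiG S M G1
  N : LN (D ^ 12) S M l l (cr S l * l) X Lg X2 X3 G0 η
  F : S.F ^ 40 ≤ D ^ 12
  phi : M.En S m a M.q 2 0 S.C ≤ X
  L1 : 62000 * S.C ^ 5 ≤ L
  LD : L ^ 60 ≤ D
  vn : S.C * S.v ≤ 1 / S.n
  θ1 : S.θ ≤ 1

/-- the induction hypothesis -/
def Hy (L : ℝ) (S : Sc) (M : Md) (m : ℕ) (a τ : ℝ) : Prop :=
  ∀ k ≤ S.Jp, M.rb m a k ≤ L ^ 10 * cc S (max (M.z k) τ)

variable {S : Sc} {M : Md} {m : ℕ} {a L D G1 l X Lg X2 X3 G0 τ : ℝ} {η : ℝ → ℝ}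

theorem s_lin9 (h : Cl S M) {k : ℕ} (hk : k ≤ S.J) :
    k * S.v / S.C ≤ M.s k ∧ M.s k ≤ S.C * (k * S.v) := by
  have := h.s_tel (Nat.zero_le k) hk
  rw [h.s0, Nat.cast_zero, sub_zero, sub_zero] at this
  exact ⟨(mul_div_assoc _ _ _).trans_le this.1, this.2.trans_eq (by ring)⟩

namespace C9
variable (H : C9 L D S M m a G1 l X Lg X2 X3 G0 η)
include H

theorem Ci {i : ℕ} (hi : i ≤ 5) : 62000 * S.C ^ i ≤ L :=
  (mul_le_mul_of_nonneg_left (pow_le_pow_right₀ H.A.cl.C1 hi) (by norm_num)).trans H.L1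
theorem Lb : 62000 ≤ L := by simpa using H.Ci (Nat.zero_le 5)
theorem l1 : 1 ≤ L := by linarith [H.Lb]
theorem Lp {i j : ℕ} (hi : i < j) : 62000 * L ^ i ≤ L ^ j :=
  (mul_le_mul_of_nonneg_right H.Lb (pow_nonneg (by linarith [H.Lb]) i)).trans
    ((pow_succ' L i).ge.trans (pow_le_pow_right₀ H.l1 hi))
theorem Li {i : ℕ} (hi : i < 60) : 62000 * L ^ i ≤ D := (H.Lp hi).trans H.LD
theorem Db : 62000 ≤ D := by simpa using H.Li (i := 0) (by norm_num)
theorem D1 : 1 ≤ D := by linarith [H.Db]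
theorem DE : D ≤ D ^ 12 := le_self_pow₀ H.D1 (by norm_num)
theorem jl : D * M.s S.jl ≤ l :=
  (mul_le_mul_of_nonneg_right H.DE (H.A.cl.s_nn _)).trans H.N.l0s
theorem CD : S.C ≤ D := by
  have := H.Ci (i := 1) (by norm_num); have := H.Li (i := 1) (by norm_num)
  have := H.A.c_pos; have := H.Lb
  simp only [pow_one] at *; linarith
theorem vl : S.v ≤ l := by
  have h := H.A.cl
  have p := (s_lin9 h (show S.jl ≤ S.J by have := h.i2; omega)).1
  rw [div_le_iff₀ h.C0] at p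
  have j1 : (1 : ℝ) ≤ S.jl := by exact_mod_cast h.i0.trans h.i1
  have := mul_le_mul_of_nonneg_right j1 h.v0.le
  have := mul_le_mul_of_nonneg_right H.CD (h.s_nn S.jl)
  linarith [H.jl]
theorem l0 : 0 < l := H.A.cl.v0.trans_le H.vl
theorem F2 : S.F ^ 2 ≤ D := le_of_pow_le_pow_left₀ (n := 20) (by norm_num) (by linarith [H.Db])
  (by rw [← pow_mul]; exact H.F.trans (pow_le_pow_right₀ H.D1 (by norm_num)))
theorem cl0 : 0 ≤ cl S (cr S l * l) l := by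
  have := H.l0; have := cr1 S l; unfold cl; positivity
theorem G00 : 0 ≤ G0 := le_trans (by have := H.l0; positivity) H.N.g0a
theorem X20 : 0 ≤ X2 := le_trans (by have := H.l0; positivity) H.N.x2a
theorem X30 : 0 ≤ X3 := le_trans (by have := H.l0; positivity) H.N.x3a
theorem Lg1 : D ^ 12 * S.F ≤ Lg := le_trans (mul_le_mul_of_nonneg_left
  (le_self_pow₀ H.A.cl.F1 two_ne_zero) (by have := H.Db; positivity)) H.N.Lg0
theorem Lg2 : D ≤ Lg :=
  (H.DE.trans (le_mul_of_one_le_right (by have := H.Db; positivity) H.A.cl.F1)).trans H.Lg1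

theorem τD (hX : τ ^ 3 ≤ 8 * X) : D ^ 4 * τ ≤ 2 :=
  le_of_pow_le_pow_left₀ three_ne_zero zero_le_two (by
    have := mul_le_mul_of_nonneg_left hX (by have := H.Db; positivity : 0 ≤ D ^ 12)
    have := H.N.X1
    linarith [show (D ^ 4 * τ) ^ 3 = D ^ 12 * τ ^ 3 by ring])

theorem τ1 (hτ : l ≤ τ) (hX : τ ^ 3 ≤ 8 * X) : D * τ ≤ 1 := by
  have τ0 := H.l0.trans_le hτ
  have d := H.Db
  have a1 : 2 ≤ D ^ 3 := le_trans (by linarith) (le_self_pow₀ H.D1 three_ne_zero)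
  have := mul_le_mul_of_nonneg_right a1 (by positivity : 0 ≤ D * τ)
  linarith [H.τD hX, show D ^ 3 * (D * τ) = D ^ 4 * τ by ring]

theorem τ1' (hτ : l ≤ τ) (hX : τ ^ 3 ≤ 8 * X) : τ ≤ 1 :=
  (le_mul_of_one_le_left (H.l0.le.trans hτ) H.D1).trans (H.τ1 hτ hX)

theorem U0 (τ0 : 0 < τ) : 0 ≤ uw S Lg τ := by
  have := cr1 S τ
  have := rpow_nonneg (P33.w3_pos H.A.cl τ0).le ((1 : ℝ) / 3)
  unfold uw; positivity

theorem U3 (τ0 : 0 < τ) : uw S Lg τ ^ 3 = Lg ^ 6 * cr S τ ^ 3 * S.w3 τ := by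
  rw [uw, mul_pow, mul_pow, cube_rp (P33.w3_pos H.A.cl τ0).le]; ring

/-- the parts of `η` -/
theorem ηp (hτ : l ≤ τ) (hX : τ ^ 3 ≤ 8 * X) : uw S Lg τ ^ 3 ≤ η τ ∧ X3 ≤ η τ ∧ 1 / S.n ≤ η τ ∧
    (√(Lg * cr S τ * gg S τ) + G0 + X2) * (uw S Lg τ + √X2) ≤ η τ := by
  have τ0 := H.l0.trans_le hτ
  have p := H.N.ηb τ hτ ((H.τ1' hτ hX).trans H.A.cl.C1)
  have U0 := H.U0 τ0
  have := H.G00; have := H.X20; have := H.X30
  have a1 : 0 ≤ uw S Lg τ ^ 2 * min (S.ms τ / τ) τ :=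
    mul_nonneg (sq_nonneg _) (le_min (div_pos (H.A.ms_pos τ0.le) τ0).le τ0.le)
  have a2 : 0 ≤ (√(Lg * cr S τ * gg S τ) + G0 + X2) * (uw S Lg τ + √X2) := by positivity
  have a3 : 0 ≤ uw S Lg τ ^ 3 := by positivity
  have a4 : (0 : ℝ) ≤ 1 / S.n := by positivity
  exact ⟨by linarith, by linarith, by linarith, by linarith⟩

theorem num (hτ : l ≤ τ) (hX : τ ^ 3 ≤ 8 * X) {c μ U g : ℝ} (ec : c = cc S τ) (eμ : μ = mf S τ)
    (eU : U = uw S Lg τ) (eg : g = √(Lg * cr S τ * gg S τ)) :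
    D * c ≤ 2 ∧ μ * τ ≤ c ^ 3 ∧ D * c ^ 4 ≤ μ ∧ D * (c * g) ≤ μ ∧ D * (c * G0) ≤ μ ∧
      D * (c * √X2 ^ 2) ≤ μ ∧ D * (c ^ 2 * U) ≤ μ ∧ D * (c ^ 2 * √X2) ≤ μ ∧ D * √X2 ^ 2 ≤ c ^ 2 ∧
      D * (U ^ 2 * c) ≤ μ * τ ∧ D * η τ ≤ μ * τ := by
  subst ec eμ eU eg
  have h := H.A.cl
  have τ0 := H.l0.trans_le hτ
  have τC := (H.τ1' hτ hX).trans h.C1
  have F1 := h.F1
  have F0 : 0 < S.F := by linarith
  have m0 := h.ms_pos τ0.le
  have ml : mf S l ≤ mf S τ := div_le_div_of_nonneg_right (h.msm hτ) F0.le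
  have ml0 : 0 ≤ mf S l := (div_pos (h.ms_pos H.l0.le) F0).le
  obtain ⟨e1, -, -, e4⟩ := H.ηp hτ hX
  have U0 := H.U0 τ0
  have := H.G00; have X20 := H.X20
  have n0 := h.N0
  have c1 := cr1 S τ
  have g1 : 1 ≤ Lg := H.D1.trans H.Lg2
  refine nums (by linarith [H.Db]) τ0 (cc_ge S τ0.le) (div_pos m0 F0) F1 H.F2 ?_ (H.τD hX) ?_ ?_ U0
    (sqrt_nonneg _) (sqrt_nonneg _) H.G00 e1 (le_trans ?_ e4) (H.N.th4 τ hτ τC) (H.N.th2 τ hτ τC)
    (by rw [sq_sqrt X20]; exact H.N.th3.trans ml) (H.N.G04.trans (pow_le_pow_left₀ ml0 ml 3)) ?_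
  · rw [mf, mul_div_cancel₀ _ F0.ne']; exact (h.ms1 τ).trans H.θ1
  · rw [cc_cube h τ0, mf]; congr 1; field_simp
  · have a1 : ((τ / 2) ^ 3) ^ ((4 : ℝ) / 3) ≤ X ^ ((4 : ℝ) / 3) :=
      rpow_le_rpow (by positivity) (by rw [div_pow]; linarith) (by norm_num)
    rw [← rpow_natCast, ← rpow_mul (by positivity), show ((3 : ℕ) : ℝ) * (4 / 3) = (4 : ℕ) by norm_num,
      rpow_natCast] at a1
    have := mul_le_mul_of_nonneg_left a1 (by have := H.Db; positivity : 0 ≤ D ^ 12)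
    linarith [H.N.X43, show D ^ 12 * τ ^ 4 = 16 * (D ^ 12 * (τ / 2) ^ 4) by ring]
  · rw [pow_succ, sq_sqrt X20]
    exact mul_le_mul (le_add_of_nonneg_left (by positivity)) (le_add_of_nonneg_left U0)
      (sqrt_nonneg _) (by positivity)
  · have g0 : 0 ≤ gg S τ := by unfold gg; positivity
    rw [sq_sqrt (by positivity), H.U3 τ0]
    have e : τ * (Lg ^ 6 * cr S τ ^ 3 * S.w3 τ) = Lg ^ 6 * cr S τ ^ 3 * gg S τ := by
      unfold gg Sc.w3; field_simp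
    rw [e]
    exact mul_le_mul_of_nonneg_right (mul_le_mul (le_self_pow₀ g1 (by norm_num))
      (le_self_pow₀ c1 (by norm_num)) (by linarith) (by positivity)) g0

theorem κn (hτ : l ≤ τ) (hX : τ ^ 3 ≤ 8 * X) : Lg * cr S τ ≤ S.n := by
  have h := H.A.cl
  have τ0 := H.l0.trans_le hτ
  have τ1 := H.τ1' hτ hX
  have F1 := h.F1
  have m0 := h.ms_pos τ0.le
  have m1 := (h.ms1 τ).trans H.θ1
  have n0 := h.N0
  have c1 := cr1 S τ
  have g1 : 1 ≤ Lg := H.D1.trans H.Lg2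
  have e1 := (H.ηp hτ hX).1
  have e2 := H.N.th4 τ hτ (τ1.trans h.C1)
  have η0 := (pow_nonneg (H.U0 τ0) 3).trans e1
  have e3 : η τ ≤ 1 := ((le_mul_of_one_le_left η0 (one_le_pow₀ H.D1)).trans e2).trans
    (mul_le_one₀ ((div_le_self m0.le F1).trans m1) τ0.le τ1)
  have e4 : 1 / (S.n : ℝ) ≤ S.w3 τ := div_le_div₀ (by linarith) F1 (by positivity)
    ((mul_le_of_le_one_right (by positivity) m1).trans (mul_le_of_le_one_right n0.le τ1))
  rw [H.U3 τ0] at e1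
  have e5 : Lg * cr S τ ≤ Lg ^ 6 * cr S τ ^ 3 := mul_le_mul (le_self_pow₀ g1 (by norm_num))
    (le_self_pow₀ c1 (by norm_num)) (by linarith) (by positivity)
  have := ((mul_le_mul e5 e4 (by positivity) (by positivity)).trans e1).trans e3
  rwa [mul_one_div, div_le_one n0] at this

theorem cf (hτ : l ≤ τ) (hX : τ ^ 3 ≤ 8 * X) (hy : Hy L S M m a τ) :
    Cf D S M m a τ fun t => L ^ 10 * cc S t := by
  have h := H.A.cl
  have τ0 := H.l0.trans_le hτ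
  have p1 : 1 ≤ L ^ 10 := one_le_pow₀ H.l1
  have ge : ∀ t, τ ≤ t → 0 ≤ cc S t ∧ cc S t ≤ L ^ 10 * cc S t := fun t ht => by
    have := (τ0.le.trans ht).trans (cc_ge S (τ0.le.trans ht))
    exact ⟨this, le_mul_of_one_le_left this p1⟩
  refine ⟨H.jl.trans hτ, ((P33.w3_anti h H.l0 hτ).trans H.N.l0w).trans
    (pow_le_pow_left₀ H.l0.le hτ 3), H.τ1 hτ hX, fun t t' a b =>
      mul_le_mul_of_nonneg_left (cc_mono h (τ0.trans_le a) b) (by linarith),
    fun t ht => (cc_ge S (τ0.le.trans ht)).trans (ge t ht).2, fun t ht => le_trans ?_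
      (pow_le_pow_left₀ (ge t ht).1 (ge t ht).2 3), fun t t' a b => ?_, hy⟩
  · rw [cc_cube h (τ0.trans_le ht)]; exact le_max_right _ _
  · have t0 := τ0.trans_le a
    have t1 := t0.trans_le b
    simp only [cc, mul_div_assoc, div_self t0.ne', div_self t1.ne', mul_one]
    linarith [mul_le_mul_of_nonneg_left (cr_dbl h t0 b) (zero_le_one.trans p1)]

theorem win (hτ : l ≤ τ) (hX : τ ^ 3 ≤ 8 * X) (hy : Hy L S M m a τ) : ∃ p,
    Wn S M m a L τ (cc S τ) (mf S τ) p ∧ M.z (7 * p) ≤ 37 * S.C ^ 3 * τ ∧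
      ∀ y, p ≤ y → y ≤ 7 * p → 4 * τ ≤ M.s y ∧ M.s y ≤ 35 * S.C ^ 2 * τ := by
  have h := H.A.cl
  have τ0 := H.l0.trans_le hτ
  have C1 := h.C1
  have C0 := h.C0
  have v0 := h.v0
  have F0 : 0 < S.F := by linarith [h.F1]
  have vτ := H.vl.trans hτ
  have L0 : 0 < L := by linarith [H.Lb]
  have c0 := τ0.trans_le (cc_ge S τ0.le)
  obtain ⟨n1, n2, -⟩ := H.num hτ hX rfl rfl rfl rfl
  obtain ⟨p, p1, p2⟩ : ∃ p : ℕ, 4 * S.C * τ ≤ p * S.v ∧ p * S.v ≤ 5 * S.C * τ := by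
    refine ⟨⌈4 * S.C * τ / S.v⌉₊, (div_le_iff₀ v0).1 (Nat.le_ceil _), ?_⟩
    have := mul_le_mul_of_nonneg_right
      (Nat.ceil_lt_add_one (by positivity : 0 ≤ 4 * S.C * τ / S.v)).le v0.le
    rw [add_mul, div_mul_cancel₀ _ v0.ne'] at this
    nlinarith
  have su : ∀ y, y ≤ S.J → y ≤ 7 * p → M.s y ≤ 35 * S.C ^ 2 * τ := fun y a b => by
    have b' : (y : ℝ) ≤ 7 * p := by exact_mod_cast b
    have := mul_le_mul_of_nonneg_left (show y * S.v ≤ 35 * S.C * τ by nlinarith) C0.le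
    linarith [(s_lin9 h a).2]
  have C3 : S.C * τ ≤ S.C ^ 3 * τ :=
    mul_le_mul_of_nonneg_right (le_self_pow₀ C1 three_ne_zero) τ0.le
  have zu : ∀ y, S.j0 ≤ y → y < S.J → y ≤ 7 * p → M.z y ≤ 37 * S.C ^ 3 * τ := fun y a b c => by
    have := mul_le_mul_of_nonneg_left (show M.s y + 2 * S.v ≤ 35 * S.C ^ 2 * τ + 2 * τ by
      linarith [su y b.le c]) C0.le
    linarith [(h.z_s a b).2]
  have Lτ : L * τ ≤ 1 := by
    have := mul_le_mul_of_nonneg_right (H.Li (i := 1) (by norm_num)) τ0.le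
    have := mul_pos L0 τ0
    linarith [H.τ1 hτ hX]
  have hJ : 7 * p < S.J := by
    by_contra c
    have i1 := h.i1; have i2 := h.i2
    have a1 := h.atom.1.trans (zu (S.J - 1) (by omega) (by omega) (by omega))
    rw [div_le_iff₀ C0] at a1
    have := mul_le_mul_of_nonneg_right (H.Ci (i := 4) (by norm_num)) τ0.le
    linarith
  have sl : ∀ y, p ≤ y → 4 * τ ≤ M.s y := fun y a => le_trans (by
    refine le_trans ?_ (s_lin9 h (show p ≤ S.J by omega)).1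
    rw [le_div_iff₀ C0]; linarith) (h.sm a)
  have jτ : M.s S.jl ≤ τ := ((le_mul_of_one_le_left (h.s_nn _) H.D1).trans H.jl).trans hτ
  have jp : S.jl < p := lt_of_not_ge fun c => by linarith [sl _ c]
  have z7 := zu (7 * p) (by have := h.i1; omega) hJ le_rfl
  have k3 := H.Ci (i := 3) (by norm_num)
  have C30 : 1 ≤ S.C ^ 3 := one_le_pow₀ C1
  refine ⟨p, ⟨τ0, cc_ge S τ0.le, ?_, jp, hJ, p1, z7.trans (mul_le_mul_of_nonneg_right (by linarith)
    τ0.le), ?_, ?_, div_pos (h.ms_pos τ0.le) F0, div_le_div_of_nonneg_right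
      (h.msm (by linarith [sl p le_rfl])) F0.le, n2⟩, z7, fun y a b => ⟨sl y a, su y (by omega) b⟩⟩
  · linarith [mul_le_mul_of_nonneg_right (H.Li (i := 10) (by norm_num)) c0.le]
  · have m0 := h.ms_pos τ0.le
    have a1 := (h.msm (su (7 * p) hJ.le le_rfl)).trans (h.ms_mul τ0.le (k := 35 * S.C ^ 2)
      (by linarith [one_le_pow₀ (n := 2) C1]))
    have a2 : M.s S.jl + S.C * M.z (7 * p) ≤ 38 * S.C ^ 4 * τ := by
      have := mul_le_mul_of_nonneg_left z7 C0.le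
      have := mul_le_mul_of_nonneg_right (one_le_pow₀ (n := 4) C1) τ0.le
      linarith
    have a3 : S.F * S.ms τ * τ ≤ cc S τ ^ 3 := by rw [cc_cube h τ0]; exact le_max_right _ _
    have a4 : 186200 * S.C ^ 9 ≤ L ^ 2 := by
      have := pow_le_pow_left₀ (by positivity) H.L1 2
      have := pow_le_pow_right₀ C1 (show 9 ≤ 10 by norm_num)
      have : 0 ≤ S.C ^ 9 := by positivity
      linarith [show (62000 * S.C ^ 5) ^ 2 = 62000 ^ 2 * S.C ^ 10 by ring]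
    have a5 := h.s_nn S.jl
    have a6 := h.z_pos (7 * p)
    calc _ ≤ _ := H.A.H_abs H.cei (by omega) hJ
      _ ≤ S.C * S.F * (4 * (35 * S.C ^ 2) ^ 2 * S.ms τ) * (38 * S.C ^ 4 * τ) := by gcongr
      _ = 186200 * S.C ^ 9 * (S.F * S.ms τ * τ) := by ring
      _ ≤ _ := mul_le_mul a4 a3 (by positivity) (by positivity)
  · have a1 := cc_mul h τ0 (le_max_right (M.z (7 * p)) τ) (K := 37 * S.C ^ 3)
      (max_le z7 (le_mul_of_one_le_left τ0.le (by linarith)))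
    calc _ ≤ _ := hy _ (hJ.le.trans h.i3)
      _ ≤ L ^ 10 * (L * cc S τ) := mul_le_mul_of_nonneg_left
          (a1.trans (mul_le_mul_of_nonneg_right (by linarith) c0.le)) (by positivity)
      _ = _ := by ring

theorem base (hτ : l ≤ τ) (hX : X ≤ τ ^ 3) : Hy L S M m a τ := fun k _ => by
  have h := H.A.cl
  have τ0 := H.l0.trans_le hτ
  have C1 := h.C1
  have C0 := h.C0
  have z0 := h.z_pos k
  have vτ := H.vl.trans hτ
  obtain ⟨w, hw, w1, w2⟩ : ∃ w, w = max (M.z k) τ ∧ M.z k ≤ w ∧ τ ≤ w :=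
    ⟨_, rfl, le_max_left _ _, le_max_right _ _⟩
  rw [← hw]
  have w0 := τ0.trans_le w2
  have k2 := H.Ci (i := 2) (by norm_num)
  have C2 : S.C ≤ S.C ^ 2 := le_self_pow₀ C1 two_ne_zero
  have e : 5 * S.C ^ 2 * w ≤ L ^ 10 * cc S w := mul_le_mul
    (le_trans (by linarith) (le_self_pow₀ H.l1 (by norm_num))) (cc_ge S w0.le) w0.le
    (by have := H.Lb; positivity)
  refine le_trans ?_ e
  have b1 := mul_le_mul_of_nonneg_right C2 w0.le
  have b2 := mul_le_mul_of_nonneg_right C1 w0.le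
  rcases le_total (2 * S.C * M.z k) 1 with c | c
  · have r0 : 0 < min τ (1 / (2 * S.C)) := lt_min τ0 (by positivity)
    have r1 := (min_le_left τ (1 / (2 * S.C))).trans w2
    have p := start H.A H.phi r0 (by
      rcases le_total τ (1 / (2 * S.C)) with d | d
      · rwa [min_eq_left d]
      · rw [min_eq_right d, div_pow, one_pow, le_div_iff₀ (by positivity)]
        have := H.Ci (i := 3) (by norm_num)
        have := H.Li (i := 1) (by norm_num)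
        have := H.Lb
        have : (2 * S.C) ^ 3 ≤ D ^ 12 := by
          have : 0 ≤ S.C ^ 3 := by positivity
          linarith [H.DE, show (2 * S.C) ^ 3 = 8 * S.C ^ 3 by ring, pow_one L]
        linarith [H.N.X1, mul_le_mul_of_nonneg_right this H.N.X0.le])
      (by rw [mul_comm, ← le_div_iff₀ (by positivity)]; exact min_le_right _ _) c
    have b3 := mul_le_mul_of_nonneg_left (vτ.trans w2) C0.le
    have := mul_le_mul_of_nonneg_left (show M.z k + min τ (1 / (2 * S.C)) + 2 * (S.C * S.v) ≤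
      2 * w + 2 * (S.C * w) by linarith) C0.le
    linarith
  · have := mul_le_mul_of_nonneg_left w1 C0.le
    linarith [(rb_mem (M := M) (a := a) H.A.m_pos k).2]

end C9

end Crest.Agent.T156.Alt.Sz9

end
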