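import Crest.Agent.T156.TL1cA_74
import Crest.Agent.T156.CutD_93

/-!
# Row 156, block (L): one upper cut on the class (helper74)
-/

set_option autoImplicit false

noncomputable section

namespace Crest.Agent.T156.Alt.C74

open MeasureTheory Set Real
open Crest.Agent.R164.GC Crest.Agent.R339.B Crest.Agent.R339.Var Crest.Agent.T157.Pf
open Crest.Agent.T156.Zb9
open Crest.Agent.T156.Cut8 (LB Res Jf int_split int_mono int_le_const int_sub_le Fr EU Rt Lv rU sU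
  Kd Kc kap)
open Crest.Agent.T156.Gap27 (HN NumM xi)
open Crest.Agent.T156.Alt.Mp9 Crest.Agent.T156.Alt.L69

/-- numbers of the level `t`; `L y` is the bound of the energy -/
structure Nl (S : Sc) (M : Md) (m : ℕ) (a T L l X X2 : ℝ) (η : ℝ → ℝ) (t y En I2 : ℝ) : Prop where
  l0 : 0 < l
  me : L * (S.C * S.v) ≤ l ^ 5
  t0 : 2 * L * (cr S l * l) ≤ t
  t1 : 2 * L * t ≤ 1
  ms : L * S.F ^ 3 * S.ms (4 * t) ≤ t ^ 2
  e1 : W0 S l + cB M S η l (4 * t) ≤ En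
  e0 : W0 S l ≤ En
  e2 : t * X2 ^ 2 ≤ En
  e4 : L4 S (cr S l * l) X l (4 * t) En
  y1 : L ^ 60 * S.F ^ 12 * En ≤ y
  y2 : L ^ 2 * y ≤ t ^ 5
  i1 : io M S m a T ^ 2 ≤ I2
  i2 : t * I2 ≤ y

/-- the energy below `t` -/
abbrev EE (M : Md) (S : Sc) (m : ℕ) (a T c : ℝ) (u : ℕ) (t : ℝ) : ℝ :=
  EU T c (lvr 1 (lh M T)) (lvr 1 (lb M S m a T)) (HH M S m a T) (sb M m a (u + 1)) t

variable {S : Sc} {M : Md} {m : ℕ} {a T c : ℝ}

theorem EE_J (A : At S M m a T) (c0 : 0 < c) {u : ℕ} {t e : ℝ} (uJ : u < S.J)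
    (h : sb M m a (u + 1) ≤ t) (H : EE M S m a T c u t ≤ e) :
    (∫ r in (0 : ℝ)..t, JJ M S m a T r ^ 2) ≤ 2 / c * e ∧
      ∫ r in sb M m a (u + 1)..t, HH M S m a T r * uu M S m a T r ≤ 2 * e := by
  have x0 := (A.sb_mem (uJ.le.trans A.cl.i3)).1
  have p1 : 0 ≤ ∫ r in (0 : ℝ)..t, JJ M S m a T r ^ 2 :=
    intervalIntegral.integral_nonneg (x0.trans h) fun _ _ => sq_nonneg _
  have p2 : 0 ≤ ∫ r in sb M m a (u + 1)..t, HH M S m a T r * uu M S m a T r :=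
    intervalIntegral.integral_nonneg h fun r hr => Hu_nn A (x0.trans hr.1)
  have H' : c / 2 * (∫ r in (0 : ℝ)..t, JJ M S m a T r ^ 2) +
      (∫ r in sb M m a (u + 1)..t, HH M S m a T r * uu M S m a T r) / 2 ≤ e := H
  refine ⟨?_, by nlinarith⟩
  rw [div_mul_eq_mul_div, le_div_iff₀ c0]
  linarith

namespace Nl
variable {L l X X2 t y En I2 : ℝ} {η : ℝ → ℝ}

theorem basic (N : Nl S M m a T L l X X2 η t y En I2) (h : Cl S M) (hL : 64 * S.C ^ 2 ≤ L) :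
    1 ≤ L ∧ L * l ≤ t ∧ l ≤ 1 ∧ 64 * S.C ^ 2 * (S.C * S.v) ≤ l ∧ 64 * l ≤ t ∧ 128 * S.C ^ 2 * t ≤ 1 ∧
    0 ≤ En ∧ En ≤ y ∧ ts S l ≤ t ∧ L * S.ms (4 * t) ≤ t ^ 2 ∧ L * (S.C * S.v) ≤ y := by
  have C1 := h.C1
  have F1 := h.F1
  have c2 : 1 ≤ S.C ^ 2 := one_le_pow₀ C1
  have l0 := N.l0
  have L1 : 1 ≤ L := by linarith
  have a1 : L * l ≤ t := by
    nlinarith [N.t0, mul_le_mul_of_nonneg_right (Ab33.cr_one S l) l0.le, mul_pos l0 l0]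
  have a2 : 64 * l ≤ t := by nlinarith
  have a3 : 128 * S.C ^ 2 * t ≤ 1 := by nlinarith [N.t1]
  have a4 : l ≤ 1 := by nlinarith
  have a5 : l ^ 5 ≤ l := pow_le_of_le_one l0.le a4 (by norm_num)
  have d0 : 0 < S.C * S.v := mul_pos h.C0 h.v0
  have a6 : 0 ≤ En := (W0_nn h l0).trans N.e0
  have a7 : En ≤ y := le_trans (le_mul_of_one_le_left a6
    (one_le_mul_of_one_le_of_one_le (one_le_pow₀ L1) (one_le_pow₀ F1))) N.y1
  have m0 := h.ms_pos (show 0 ≤ 4 * t by linarith)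
  have f3 : S.F ≤ S.F ^ 3 := le_self_pow₀ F1 (by norm_num)
  have a8 : L * S.F * S.ms (4 * t) ≤ t ^ 2 := le_trans (by gcongr) N.ms
  have a9 : S.F * S.ms l ≤ t ^ 2 := by
    have := mul_le_mul_of_nonneg_left (h.msm (show l ≤ 4 * t by linarith)) (show 0 ≤ S.F by linarith)
    nlinarith [show 0 ≤ S.F * S.ms (4 * t) by positivity]
  refine ⟨L1, a1, a4, by nlinarith [N.me], a2, a3, a6, a7, max_le (by linarith)
    (sqrt_le_iff.2 ⟨by linarith, a9⟩), by nlinarith [show 0 ≤ L * S.ms (4 * t) by positivity], ?_⟩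
  have : 0 ≤ S.ms l * l ^ 3 := mul_nonneg (h.ms_pos l0.le).le (by positivity)
  have := N.e0
  unfold W0 at this
  linarith [N.me]

end Nl

/-- the root numbers below a small energy -/
theorem root_bd (hR : RtN) (C : ℝ) : ∃ K : ℝ, 1 ≤ K ∧ ∀ {S : Sc} {M : Md} {m : ℕ}
    {a c G1 θ0 L l X X2 Eg s ρ t y En I2 : ℝ} {η r1 r2 ω β f : ℝ → ℝ} {u : ℕ}, 0 < c →
    At S M m a (2 * C) → S.C = C → CeiG S M G1 →
    (∀ t t', 0 ≤ t → t ≤ t' → S.ms t' ≤ S.ms t + t' ^ 2) → K ≤ L →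
    Bo S M m a (2 * C) θ0 L l X X2 Eg η u s ρ r1 r2 ω β f →
    Nl S M m a (2 * C) L l X X2 η t y En I2 → EE M S m a (2 * C) c u (2 * t) ≤ 16 * (L * y) →
    sb M m a (u + 1) < t ∧ 2 * t ≤ s ∧
    (sb M m a (u + 1) + L * l) ^ 3 * ((sb M m a (u + 1) + L * l) ^ 2 + ts S l ^ 2 +
      S.ms (sb M m a (u + 1))) ≤ (2 + 32 / c) * y := by
  obtain ⟨K, K1, H⟩ := hR C
  refine ⟨max K (64 * C ^ 2), le_max_of_le_left K1, ?_⟩
  intro S M m a c G1 θ0 L l X X2 Eg s ρ t y En I2 η r1 r2 ω β f u c0 A hC E sub hL B N hE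
  obtain ⟨L1, a1, a4, -, a2, a3, a6, a7, -, -, -⟩ := N.basic A.cl (hC ▸ (le_max_right _ _).trans hL)
  have l0 := N.l0
  have F1 := A.cl.F1
  have x0 := (A.sb_mem (B.uJ.le.trans A.cl.i3)).1
  have b1 : sb M m a (u + 1) < t := by linarith [B.cru, N.t0]
  have b2 : 2 * t ≤ s := le_of_mul_le_mul_left (by linarith [N.t1, B.s1.1]) (show 0 < L by linarith)
  refine ⟨b1, b2, ?_⟩
  have sT := B.s1.2.le.trans A.sJ_T
  have e1 := (int_sub_le A.LB_J2 le_rfl le_rfl x0 (show _ ≤ 2 * t by linarith) (by linarith)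
    fun _ _ _ => sq_nonneg _).trans (EE_J A c0 B.uJ (by linarith) hE).1
  have := H S M m a G1 L l _ _ u A hC E sub ((le_max_left _ _).trans hL) l0 B.ju B.uJ B.su.2
    (by linarith [B.s1.2]) B.cru B.ru e1 le_rfl
  refine this.trans ?_
  have q1 : L ^ 60 * S.F ^ 10 * W0 S l ≤ y := le_trans (by
    have := W0_nn A.cl l0
    have := N.e0
    gcongr
    norm_num) N.y1
  have y0 : 0 ≤ y := a6.trans a7
  have q2 : sb M m a (u + 1) * io M S m a (2 * C) ^ 2 ≤ L * y :=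
    (mul_le_mul b1.le N.i1 (sq_nonneg _) (by linarith)).trans (N.i2.trans (by nlinarith))
  have q3 : (2 / c * (16 * (L * y)) + sb M m a (u + 1) * io M S m a (2 * C) ^ 2) / L ≤
      (1 + 32 / c) * y := by
    rw [div_le_iff₀ (by linarith)]
    have : 2 / c * (16 * (L * y)) = 32 / c * y * L := by ring
    linarith
  linarith

theorem nums1 {C δ l t L y d : ℝ} (C1 : 1 ≤ C) (δ0 : 0 < δ) (a5 : 64 * C ^ 2 * δ ≤ l)
    (a2 : 64 * l ≤ t) (a3 : 128 * C ^ 2 * t ≤ 1) (a10 : L * δ ≤ y) (hL : 64 * C ^ 3 ≤ L)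
    (e16 : d * (16 * C) = t) : 2 * δ ≤ d ∧ d + 2 * δ ≤ C * t / 2 ∧
    δ ^ 2 * (2 * C) ^ 3 + δ ^ 4 * (2 * C) + δ / C ≤ y ∧ δ ≤ l ∧
    ∀ r, r < 3 * t / 2 → C * (C * r + 2 * δ + 2 * d) < 1 ∧ r + C * (2 * d + δ) ≤ 4 * t := by
  have c23 : C ^ 2 ≤ C ^ 3 := pow_le_pow_right₀ C1 (by norm_num)
  have c2 : 1 ≤ C ^ 2 := one_le_pow₀ C1
  have c12 : C ≤ C ^ 2 := le_self_pow₀ C1 (by norm_num)
  have d2 : C * δ ≤ C ^ 2 * δ := mul_le_mul_of_nonneg_right c12 δ0.le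
  have d3 : δ ≤ C * δ := le_mul_of_one_le_left δ0.le C1
  have t0 : 0 < t := by linarith
  have t1 : t ≤ C ^ 2 * t := le_mul_of_one_le_left t0.le c2
  have t2 : t ≤ C * t := le_mul_of_one_le_left t0.le C1
  have d4 : δ ≤ 1 := by linarith
  have d5 : 2 * δ ≤ d := le_of_mul_le_mul_right (by linarith) (show 0 < 16 * C by linarith)
  have d6 : d ≤ d * C := le_mul_of_one_le_right (by linarith) C1
  refine ⟨d5, by linarith, ?_, by linarith, fun r hr => ⟨?_, by linarith⟩⟩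
  · have e1 : δ ^ 2 ≤ δ := pow_le_of_le_one δ0.le d4 (by norm_num)
    have e2 : δ ^ 4 ≤ δ := pow_le_of_le_one δ0.le d4 (by norm_num)
    have e3 : δ / C ≤ δ := div_le_self δ0.le C1
    have e4 := mul_le_mul_of_nonneg_right hL δ0.le
    have e5 := mul_le_mul_of_nonneg_right e1 (show 0 ≤ 8 * C ^ 3 by positivity)
    have e6 := mul_le_mul e2 (c12.trans c23) (by linarith) δ0.le
    have e7 := mul_le_mul_of_nonneg_left (c2.trans c23) δ0.le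
    linarith
  · have := mul_lt_mul_of_pos_left hr (show 0 < C ^ 2 by linarith)
    linarith

theorem nums2 {θ c B C L F t y En I2 Q mA x z τ W cb l X2 ρ f0 μ k4 Rk r Bn ϱ : ℝ} (θ0 : 0 < θ)
    (θ1 : θ ≤ 1) (c0 : 0 < c) (C0 : 0 < C) (L1 : 1 ≤ L) (F1 : 1 ≤ F) (a6 : 0 ≤ En) (y0 : 0 ≤ y)
    (m0 : 0 < mA) (l0 : 0 < l) (τ0 : 0 < τ) (k40 : 0 < k4) (Rk0 : 0 < Rk) (hx : l ≤ z) (hx' : x ≤ z)
    (e0 : W ≤ En) (e1 : W + cb ≤ En) (e2 : t * X2 ^ 2 ≤ En) (y1 : L ^ 60 * F ^ 12 * En ≤ y)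
    (I0 : 0 ≤ t * I2) (i2 : t * I2 ≤ y) (ρ0 : 0 ≤ ρ)
    (L3 : 3 ≤ L) (hP : ρ ^ 2 / τ ≤ 16 * L ^ 4 * (t * X2 ^ 2 + F * W) + 2 * L ^ 3 * En)
    (hR0 : z ^ 3 * (z ^ 2 + τ ^ 2 + mA) ≤ Rk * y)
    (hf0 : x * f0 ≤ k4 * (ρ ^ 2 / τ + z ^ 3 * (z ^ 2 + τ ^ 2))) (hQ : Q ≤ (64 * C + 3) ^ 2 * Bn)
    (Bn1 : Bn ≤ Rk * (L * y)) (hr : r ≤ c / 128) (μ0 : 0 ≤ μ) (μ1 : μ ≤ y)
    (hK : 4 * (2 * (k4 * (16 + Rk) + 1) + 3 / c + 256 / c + (32 + 3 * C ^ 2 * Rk + Rk +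
      (64 * C + 3) ^ 2 * Rk) + 30 + (4 + 8 * B ^ 2 / c) + c / 128) ≤ L) :
    sU c B θ x τ ρ f0 (L * F ^ 12 * (W + cb)) (L * (W + t * X2 ^ 2 + En) / c)
      (ρ * (x * (3 * C * z)) + ρ ^ 2 / τ / (1 / (L * F ^ 2)) + 1 / (L * F ^ 2) * (l ^ 4 * τ + Q))
      I2 0 μ ϱ t + r * μ ≤ L * y / 4 := by
  have z0' : 0 ≤ z := by linarith
  have f2 : 1 ≤ F ^ 2 := one_le_pow₀ F1
  have g0 : L ^ 6 * F ^ 3 * En ≤ y := le_trans (by gcongr <;> norm_num) y1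
  have g1 : L * F ^ 12 * En ≤ y := le_trans (by
    have : L ≤ L ^ 60 := le_self_pow₀ L1 (by norm_num)
    gcongr) y1
  have g2 : L * En ≤ y := le_trans (by
    have : L ≤ L * F ^ 12 := le_mul_of_one_le_right (by linarith) (one_le_pow₀ F1)
    gcongr) g1
  have P0 : 0 ≤ ρ ^ 2 / τ := by positivity
  have P1 : ρ ^ 2 / τ / (1 / (L * F ^ 2)) ≤ 16 * y := by
    rw [div_div_eq_mul_div, div_one]
    have h0 := mul_le_mul_of_nonneg_left e0 (show 0 ≤ F by linarith)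
    have h0' := mul_le_mul_of_nonneg_right F1 a6
    have h1 : t * X2 ^ 2 + F * W ≤ 2 * (F * En) := by linarith
    have h1' : L ^ 3 * En ≤ L ^ 4 * (F * En) := by
      rw [one_mul] at h0'
      gcongr
      norm_num
    have h1'' := mul_le_mul_of_nonneg_right L3 (show 0 ≤ L ^ 4 * (F * En) by positivity)
    have h2 : ρ ^ 2 / τ ≤ 16 * (L ^ 5 * (F * En)) := by
      linarith [mul_le_mul_of_nonneg_left h1 (show 0 ≤ 16 * L ^ 4 by positivity),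
        show 0 ≤ L ^ 5 * (F * En) by positivity]
    have h3 := mul_le_mul_of_nonneg_right h2 (show 0 ≤ L * F ^ 2 by positivity)
    linarith
  have LF : 1 ≤ L * F ^ 2 := one_le_mul_of_one_le_of_one_le L1 f2
  have P2 : ρ ^ 2 / τ ≤ 16 * y := le_trans (by
    rw [div_div_eq_mul_div, div_one]; exact le_mul_of_one_le_right P0 LF) P1
  have R1 : z ^ 3 * (z ^ 2 + τ ^ 2) ≤ Rk * y := le_trans (mul_le_mul_of_nonneg_left (by linarith)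
    (pow_nonneg z0' 3)) hR0
  have R2 : τ * z ^ 4 ≤ Rk * y / 2 := by
    linarith [mul_nonneg (pow_nonneg z0' 3) (sq_nonneg (z - τ))]
  have t1 : 2 * θ * (x * f0 + L * F ^ 12 * (W + cb)) ≤ 2 * (k4 * (16 + Rk) + 1) * y := by
    have h1 := hf0.trans (mul_le_mul_of_nonneg_left (add_le_add P2 R1) k40.le)
    have h2 := (mul_le_mul_of_nonneg_left e1 (show 0 ≤ L * F ^ 12 by positivity)).trans g1
    have h3 : 0 ≤ (k4 * (16 + Rk) + 1) * y := by positivity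
    have h4 : x * f0 + L * F ^ 12 * (W + cb) ≤ (k4 * (16 + Rk) + 1) * y := by linarith
    linarith [mul_le_mul_of_nonneg_left h4 θ0.le, mul_le_mul_of_nonneg_right θ1 h3]
  have t2 : L * (W + t * X2 ^ 2 + En) / c ≤ 3 / c * y := by
    rw [div_mul_eq_mul_div]
    refine div_le_div_of_nonneg_right ?_ c0.le
    linarith [mul_le_mul_of_nonneg_left (add_le_add e0 e2) (show 0 ≤ L by linarith)]
  have t3 : 16 * ρ ^ 2 / (c * τ) ≤ 256 / c * y := by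
    rw [show 16 * ρ ^ 2 / (c * τ) = 16 / c * (ρ ^ 2 / τ) by field_simp,
      show 256 / c * y = 16 / c * (16 * y) by ring]
    gcongr
  have t4 : ρ * (x * (3 * C * z)) ≤ 16 * y + 3 * C ^ 2 * Rk * y := by
    have h1 : ρ * (x * (3 * C * z)) ≤ ρ * (3 * C * z ^ 2) := by
      have := mul_le_mul_of_nonneg_right hx' (show 0 ≤ 3 * C * z by positivity)
      exact mul_le_mul_of_nonneg_left (by linarith) ρ0
    have h2 : ρ ^ 2 / τ + τ * (3 * C * z ^ 2) ^ 2 / 4 - ρ * (3 * C * z ^ 2) =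
        (ρ - τ * (3 * C * z ^ 2) / 2) ^ 2 / τ := by field_simp; ring
    have h3 : 0 ≤ (ρ - τ * (3 * C * z ^ 2) / 2) ^ 2 / τ := by positivity
    have h4 := mul_le_mul_of_nonneg_left R2 (sq_nonneg C)
    have h5 : 0 ≤ C ^ 2 * (Rk * y) := by positivity
    linarith
  have t5' : 1 / (L * F ^ 2) * (l ^ 4 * τ + Q) ≤ Rk * y + (64 * C + 3) ^ 2 * Rk * y := by
    rw [one_div_mul_eq_div, div_le_iff₀ (by positivity)]
    have h1 : l ^ 4 * τ ≤ z ^ 4 * τ := by gcongr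
    have h2 := hQ.trans (mul_le_mul_of_nonneg_left Bn1 (sq_nonneg _))
    have h3 : 0 ≤ Rk * y := by positivity
    have h4 := mul_le_mul_of_nonneg_left LF h3
    have h5 := mul_le_mul_of_nonneg_left f2
      (show 0 ≤ (64 * C + 3) ^ 2 * (Rk * (L * y)) by positivity)
    linarith
  have t6 : (4 * θ + 8 * B ^ 2 / c) * (t * I2) ≤ (4 + 8 * B ^ 2 / c) * y :=
    mul_le_mul (by linarith) i2 I0 (by positivity)
  have t7 := mul_le_mul hr μ1 μ0 (by positivity)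
  have t8 := mul_le_mul_of_nonneg_right hK y0
  have t9 : 361 * (0 : ℝ) ^ 2 / ϱ = 0 := by simp
  unfold sU
  linarith

set_option maxHeartbeats 1600000 in
/-- **one upper cut** -/
theorem step (hR : RtN) (C c B : ℝ) (C1 : 1 ≤ C) (B1 : 1 ≤ B)
    (F : Fr (2 * C) c B (Spl27.okT (2 * C)) (lvr 1) Pr.Gam Pr.GG) :
    ∃ θ0 K : ℝ, 0 < θ0 ∧ θ0 ≤ 1 ∧ 1 ≤ K ∧ ∀ {S : Sc} {M : Md} {m : ℕ}
    {a G1 L l X X2 Eg s ρ t y En I2 : ℝ} {η r1 r2 ω β f : ℝ → ℝ} {u : ℕ},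
    At S M m a (2 * C) → S.C = C → CeiG S M G1 →
    (∀ t t', 0 ≤ t → t ≤ t' → S.ms t' ≤ S.ms t + t' ^ 2) → K ≤ L →
    Bo S M m a (2 * C) θ0 L l X X2 Eg η u s ρ r1 r2 ω β f →
    Nl S M m a (2 * C) L l X X2 η t y En I2 → EE M S m a (2 * C) c u (2 * t) ≤ 16 * (L * y) →
    EE M S m a (2 * C) c u t ≤ L * y := by
  have c0 := F.c_pos
  have C0 : 0 < C := by linarith
  obtain ⟨K0, K1, HR⟩ := root_bd hR C
  obtain ⟨X0, hX0⟩ : ∃ x, x = 5 * (64 * C + 3) ^ 2 + 2 + 4 * c + 2 * c * 1 := ⟨_, rfl⟩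
  obtain ⟨κ, hκ⟩ : ∃ x, x = kap (1 / C) (64 * C + 3) := ⟨_, rfl⟩
  obtain ⟨Y0, hY0⟩ : ∃ x, x = Kd (2 * C) c B (1 / C) * κ ^ 2 + 60 := ⟨_, rfl⟩
  have X1 : 0 < X0 := by rw [hX0]; positivity
  have Y1 : 0 < Y0 := by rw [hY0]; unfold Kd Kc; positivity
  obtain ⟨θ, θ0, θ1, θ2, θ3⟩ : ∃ θ : ℝ, 0 < θ ∧ θ ≤ 1 ∧ θ ≤ c ∧ θ * X0 ≤ c / 256 :=
    ⟨min (min 1 c) (c / 256 / X0), by positivity, (min_le_left _ _).trans (min_le_left _ _),
      (min_le_left _ _).trans (min_le_right _ _), (le_div_iff₀ X1).1 (min_le_right _ _)⟩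
  obtain ⟨ϱ, ϱ0, ϱ1, ϱ2⟩ : ∃ ϱ : ℝ, 0 < ϱ ∧ ϱ ≤ 1 / 4 ∧ ϱ * Y0 ≤ c / 1024 :=
    ⟨min (1 / 4) (c / 1024 / Y0), by positivity, min_le_left _ _,
      (le_div_iff₀ Y1).1 (min_le_right _ _)⟩
  obtain ⟨Rk, hRk⟩ : ∃ x, x = 2 + 32 / c := ⟨_, rfl⟩
  have Rk0 : 0 < Rk := by rw [hRk]; positivity
  obtain ⟨k4, hk4⟩ : ∃ x, x = 1296 * (B * C / θ) ^ 4 := ⟨_, rfl⟩
  have k40 : 0 < k4 := by rw [hk4]; positivity
  obtain ⟨Kt, hKt⟩ : ∃ x, x = 2 * (k4 * (16 + Rk) + 1) + 3 / c + 256 / c +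
    (32 + 3 * C ^ 2 * Rk + Rk + (64 * C + 3) ^ 2 * Rk) + 30 + (4 + 8 * B ^ 2 / c) + c / 128 := ⟨_, rfl⟩
  have p1 : 0 ≤ 4 * Kt := by rw [hKt]; positivity
  have p2 : 0 ≤ 3072 * C ^ 5 := by positivity
  have p3 : 0 ≤ 4096 * C ^ 3 * Rk * (16 * C) ^ 5 := by positivity
  have p4 : 0 ≤ 25600 * κ ^ 2 * Rk * C ^ 2 / ϱ ^ 4 := by positivity
  have p5 : 0 ≤ (6144 * c * C ^ 9 + C ^ 2) / ϱ ^ 2 := by positivity
  have p6 : 0 ≤ 64 * C ^ 3 := by positivity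
  refine ⟨θ, K0 + 4 * Kt + 3072 * C ^ 5 + 4096 * C ^ 3 * Rk * (16 * C) ^ 5 +
    25600 * κ ^ 2 * Rk * C ^ 2 / ϱ ^ 4 + (6144 * c * C ^ 9 + C ^ 2) / ϱ ^ 2 + 64 * C ^ 3, θ0, θ1,
    by linarith, ?_⟩
  intro S M m a G1 L l X X2 Eg s ρ t y En I2 η r1 r2 ω β f u A hC E sub hL Z N hE
  subst hC
  have c23 : S.C ^ 2 ≤ S.C ^ 3 := pow_le_pow_right₀ C1 (by norm_num)
  have c2 : 1 ≤ S.C ^ 2 := one_le_pow₀ C1
  have c12 : S.C ≤ S.C ^ 2 := le_self_pow₀ C1 (by norm_num)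
  obtain ⟨L1, a1, a4, a5, a2, a3, a6, a7, a8, a9, a10⟩ := N.basic A.cl (by linarith)
  obtain ⟨b1, b2, hR0⟩ := HR c0 A rfl E sub (by linarith) Z N hE
  rw [← hRk] at hR0
  have l0 := N.l0
  have F1 := A.cl.F1
  have x0 := (A.sb_mem (Z.uJ.le.trans A.cl.i3)).1
  have sJ := Z.s1.2
  have sT := sJ.le.trans A.sJ_T
  have t0 : 0 < t := by linarith
  have y0 : 0 ≤ y := a6.trans a7
  have τ0 : 0 < ts S l := l0.trans_le (l_le_ts S l)
  have ll : l ≤ L * l := le_mul_of_one_le_left l0.le L1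
  obtain ⟨δ, hδ⟩ : ∃ x, x = S.C * S.v := ⟨_, rfl⟩
  have δ0 : 0 < δ := hδ ▸ mul_pos C0 A.cl.v0
  have sl := fun {b : ℝ} (h : b < M.s S.J) => A.sl h
  have z0 : lvr 1 (lh M (2 * S.C)) 0 ≤ S.C * S.v := by rw [A.lvh' le_rfl]; exact A.cl.lv0
  have rD := root_D A (x := sb M m a (u + 1) + L * l) Z.ju Z.uJ (by linarith) (by linarith)
    (by linarith [Z.su.2])
    (by linarith [mul_le_mul_of_nonneg_right c2 δ0.le, hδ ▸ a5])
  have lv := fun {r w : ℝ} => lev_le A (r := r) (w := w) Z.ju Z.uJ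
  rw [← hδ] at a5 a10 sl z0 lv
  have e16 : t / (16 * S.C) * (16 * S.C) = t := by field_simp
  have e8 : t / (8 * S.C) = 2 * (t / (16 * S.C)) := by field_simp; ring
  obtain ⟨d, hd⟩ : ∃ x, x = t / (16 * S.C) := ⟨_, rfl⟩
  rw [← hd] at e16 e8
  have d0 : 0 < d := by rw [hd]; positivity
  obtain ⟨d5, d6, μ1, -, d7⟩ := nums1 C1 δ0 a5 a2 a3 a10 (by linarith) e16
  obtain ⟨μ, hμ⟩ : ∃ x, x = δ ^ 2 * (2 * S.C) ^ 3 + δ ^ 4 * (2 * S.C) + δ / S.C := ⟨_, rfl⟩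
  have μ0 : 0 ≤ μ := by rw [hμ]; positivity
  rw [← hμ] at μ1
  obtain ⟨Bn, hBn⟩ : ∃ x, x = 32 / c * (L * y) + μ := ⟨_, rfl⟩
  have Ly : y ≤ L * y := le_mul_of_one_le_left y0 L1
  have Bn0 : 0 ≤ Bn := by rw [hBn]; positivity
  have Bn1 : Bn ≤ Rk * (L * y) := by rw [hBn, hRk]; linarith
  have Bn2 : L * Bn ≤ Rk * t ^ 5 := by
    linarith [mul_le_mul_of_nonneg_left N.y2 Rk0.le,
      mul_le_mul_of_nonneg_left Bn1 (show 0 ≤ L by linarith)]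
  have t5 : 0 < t ^ 5 := by positivity
  have dB : 4096 * S.C ^ 3 * Bn < (t / (16 * S.C)) ^ 5 := by
    rw [div_pow, lt_div_iff₀ (by positivity)]
    refine lt_of_mul_lt_mul_left ?_ (show 0 ≤ L by linarith)
    have := mul_le_mul_of_nonneg_left Bn2 (show 0 ≤ 4096 * S.C ^ 3 * (16 * S.C) ^ 5 by positivity)
    have := mul_lt_mul_of_pos_right
      (show 4096 * S.C ^ 3 * Rk * (16 * S.C) ^ 5 < L by linarith) t5
    linarith
  rw [← hd] at dB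
  obtain ⟨eJ, eH⟩ := EE_J A c0 Z.uJ (show _ ≤ 2 * t by linarith) hE
  obtain ⟨loc, hQ⟩ := F.four_up A.okb A.okh (y := 7 * t / 4) (b := 2 * t) (C1 := S.C) (δ := δ)
    (d := d) (B := Bn) (by linarith) (by linarith) (by linarith) C0
    (fun p q h1 h2 h3 => (sl (b := 2 * t) (by linarith) p q h1 h2 h3).2) z0 d5 (by linarith) dB (by
      have : 2 / c * (16 * (L * y)) = 32 / c * (L * y) := by ring
      have eJ' : ∫ r in (0 : ℝ)..2 * t, Jf (2 * S.C) (lvr 1 (lh M (2 * S.C)))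
        (lvr 1 (lb M S m a (2 * S.C))) r ^ 2 ≤ _ := eJ
      rw [hBn, hμ]; linarith)
  have loc' : ∀ r, 0 ≤ r → r ≤ 7 * t / 4 → |uu M S m a (2 * S.C) r| ≤ t / (8 * S.C) :=
    fun r h1 h2 => (loc r h1 h2).trans (by linarith)
  have hQ' : ∫ r in (0 : ℝ)..7 * t / 4, uu M S m a (2 * S.C) r ^ 4 ≤ (64 * S.C + 3) ^ 2 * Bn := hQ
  obtain ⟨f0, f00, num, hf0⟩ := num_root θ0 θ1 B1 C1 Z.ρ0 x0
    (show _ ≤ sb M m a (u + 1) + L * l by linarith) τ0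
  rw [← hk4] at hf0
  have Z' : Rt (2 * S.C) B θ (lvr 1 (lh M (2 * S.C))) (lvr 1 (lb M S m a (2 * S.C)))
      (fun t => Pr.Gam (lb M S m a (2 * S.C)) t - Pr.Gam (lh M (2 * S.C)) t) (HH M S m a (2 * S.C))
      r1 r2 ω β (mm M S m a) f (sb M m a (u + 1)) s (ts S l)
      (3 * S.C * (sb M m a (u + 1) + L * l)) ρ f0 S.C δ :=
    ⟨x0, sT, θ0, A.LB_mm, Z.lf, Z.R, fun r h _ => mass A (x0.trans h.le),
      fun p q h1 h2 h3 => (sl sJ p q h1 h2 h3).2, z0, rD.1, rD.2.1, Z.ρ0, Z.ab, f00, num, τ0⟩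
  have m4 := A.ms_pos (show 0 ≤ 4 * t by linarith)
  have m1 := A.ms_pos t0.le
  have ε0 : 0 < 1 / (L * S.F ^ 2) := by positivity
  have f2 : 1 ≤ S.F ^ 2 := one_le_pow₀ F1
  have ar := ar_le A (ε := 1 / (L * S.F ^ 2)) (t := t) (b := 7 * t / 4) Z.ju Z.uJ Z.R.lH l0 Z.su.1
    Z.ρ0 ε0 (by
      rw [one_div_mul_eq_div, div_le_iff₀ (by positivity)]
      linarith [mul_le_mul_of_nonneg_right (show 3072 * S.C ^ 5 ≤ L by linarith) (sq_nonneg S.F)])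
    b1.le a8 (by linarith) (by linarith) rD.2.2
  have Lt : L * t ≤ 1 := by linarith [N.t1, mul_pos (show 0 < L by linarith) t0]
  have hP := rho_le2 A.cl l0 L1 Z.ρ0 x0 a6 Z.cru (Z.ρ1 t En b1 a1 Lt N.e4) a8
  have hF := Z.hF t b1 b2 a1 a9 loc'
  have hΩ := Z.hΩ t En b1 b2 a1 Lt a9 loc' N.e4
  have Q0 : 0 ≤ ∫ r in (0 : ℝ)..7 * t / 4, uu M S m a (2 * S.C) r ^ 4 :=
    intervalIntegral.integral_nonneg (by linarith) fun _ _ => by positivity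
  have W0' := W0_nn A.cl l0
  have ϱ2' : 0 < ϱ ^ 2 := by positivity
  have hϱ : (6144 * c * S.C ^ 9 + S.C ^ 2) * (S.F ^ 3 * S.ms (4 * t)) ≤ (ϱ * t) ^ 2 := by
    have h1 : (6144 * c * S.C ^ 9 + S.C ^ 2) / ϱ ^ 2 ≤ L := by linarith
    rw [div_le_iff₀ ϱ2'] at h1
    have h2 := mul_le_mul_of_nonneg_right h1 (show 0 ≤ S.F ^ 3 * S.ms (4 * t) by positivity)
    have h3 := mul_le_mul_of_nonneg_left N.ms ϱ2'.le
    rw [mul_pow]
    linarith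
  have f3 : S.F ≤ S.F ^ 3 := le_self_pow₀ F1 (by norm_num)
  have hr : rU (2 * S.C) c B θ 1 (1 / S.C) S.C (ϱ * t) t ≤ c / 128 := by
    unfold rU
    rw [← hX0, ← hκ, ← hY0, show 4 * (ϱ * t) / t = 4 * ϱ by field_simp]
    linarith
  refine F.up0 A.okb A.okh Z' (Ff := L * S.F ^ 12 * (W0 S l + cB M S η l (4 * t))) (K3 := 1)
    (Ω := L * (W0 S l + t * X2 ^ 2 + En) / c)
    (Ar := ρ * (sb M m a (u + 1) * (3 * S.C * (sb M m a (u + 1) + L * l))) +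
      ρ ^ 2 / ts S l / (1 / (L * S.F ^ 2)) + 1 / (L * S.F ^ 2) * (l ^ 4 * ts S l +
        ∫ r in (0 : ℝ)..7 * t / 4, uu M S m a (2 * S.C) r ^ 4))
    (I2 := I2) (L := ϱ * t) (M := S.C ^ 2 * S.F * S.ms (4 * t))
    (m0 := S.ms t / (384 * S.C ^ 5 * S.F)) (η := 0) (d := d) (μ := μ) (c1 := 1 / S.C)
    ⟨b1, a8, b2, zero_le_one, by rw [one_mul]; exact hF, ?_, ?_, N.i1,
      fun p q h1 h2 h3 => (sl (b := 3 * t / 2) (by linarith) p q (by linarith) h2 h3).1,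
      fun r h1 _ => le_trans (div_le_div_of_nonneg_right (A.cl.msm h1) A.K_pos.le) (A.mm_ge r),
      fun r h1 h2 h3 => ?_, by positivity,
      by linarith [mul_le_mul_of_nonneg_right ϱ1 t0.le], by positivity, ?_,
      div_pos m1 A.K_pos, ?_, le_rfl, by positivity, C0, by positivity, hμ.ge, d5, d6,
      hBn ▸ dB, ?_, ?_, ?_⟩ hE
  · rw [div_le_iff₀ c0, add_mul, div_mul_cancel₀ _ c0.ne']
    have := mul_le_mul_of_nonneg_right (mul_le_mul_of_nonneg_left θ2 θ0.le) Q0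
    have e : ∫ r in (0 : ℝ)..7 * t / 4, (lvr 1 (lb M S m a (2 * S.C)) r -
      lvr 1 (lh M (2 * S.C)) r) ^ 4 = ∫ r in (0 : ℝ)..7 * t / 4, uu M S m a (2 * S.C) r ^ 4 := rfl
    rw [e]
    linarith
  · exact ar.trans (le_add_of_nonneg_right (mul_nonneg (by positivity)
      (intervalIntegral.integral_nonneg t0.le fun _ _ => sq_nonneg _)))
  · have r0 : 0 ≤ r := by linarith
    have h4 : lev M S m a r ≤ 4 * t := by
      exact (lv (w := 2 * d) (by linarith) (by linarith) (h3.trans (by linarith))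
        (d7 r h2).1).trans (d7 r h2).2
    have h5 : Mx M S m a r ≤ S.C ^ 2 * S.F * S.ms (4 * t) :=
      mul_le_mul_of_nonneg_left (A.cl.msm h4) (by positivity)
    refine ⟨(H_sq A r0).trans (mul_le_mul_of_nonneg_right h5 (Hu_nn A r0)), ?_⟩
    obtain ⟨A0, A1, A2, n1, n2, n3⟩ := Z.nm r (by linarith) (by linarith) (by linarith)
    exact Cut8.ab_of_numM θ0 θ1 n1 n3 n2 (((mul_le_of_le_one_left (A.mm_pos r0).le θ1).trans
      (mm_le_Mx A r0)).trans h5)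
  · refine le_trans ?_ hϱ
    have := mul_le_mul_of_nonneg_left (mul_le_mul_of_nonneg_right f3 m4.le) (sq_nonneg S.C)
    linarith [show 0 ≤ 6144 * c * S.C ^ 9 * (S.F ^ 3 * S.ms (4 * t)) by positivity]
  · have h1 := A.cl.ms_pow t0.le 2
    norm_num at h1
    rw [div_mul_eq_mul_div, le_div_iff₀ A.K_pos]
    have h2 := mul_le_mul_of_nonneg_left hϱ m1.le
    have h3 := mul_le_mul_of_nonneg_left h1
      (show 0 ≤ 384 * c * S.C ^ 9 * (S.F ^ 3 * S.ms (4 * t)) by positivity)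
    have h4 : 0 ≤ S.ms t * (S.C ^ 2 * (S.F ^ 3 * S.ms (4 * t))) := by positivity
    linarith
  · rw [← hκ, ← hBn]
    have h1 : 25600 * κ ^ 2 * Rk * S.C ^ 2 / ϱ ^ 4 ≤ L := by linarith
    rw [div_le_iff₀ (by positivity)] at h1
    rw [show (1 / S.C) ^ 2 * (ϱ * t) ^ 4 * t = ϱ ^ 4 * t ^ 5 / S.C ^ 2 by field_simp,
      le_div_iff₀ (by positivity)]
    refine le_of_mul_le_mul_left ?_ (show 0 < L by linarith)
    have h2 := mul_le_mul_of_nonneg_left Bn2 (show 0 ≤ 25600 * κ ^ 2 * S.C ^ 2 by positivity)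
    have h3 := mul_le_mul_of_nonneg_right h1 t5.le
    linarith
  · refine (mul_le_mul_of_nonneg_right hr (by positivity)).trans_eq ?_
    field_simp
    norm_num
  · exact nums2 θ0 θ1 c0 C0 L1 F1 a6 y0 (A.ms_pos x0) l0 τ0 k40 Rk0 (by linarith) (by linarith)
      N.e0 N.e1 N.e2 N.y1 (mul_nonneg t0.le ((sq_nonneg _).trans N.i1)) N.i2 Z.ρ0 (by linarith) hP
      hR0 hf0 hQ'
      Bn1 hr μ0 μ1 (by rw [← hKt]; linarith)

end Crest.Agent.T156.Alt.C74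

end
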