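import Crest.Agent.T156.TL2Q_63

/-!
# Row 156, block (L), (TL2): the closing argument (helper63)
-/

set_option autoImplicit false

noncomputable section

namespace Crest.Agent.T156.Alt.L63

open MeasureTheory Real Set
open Crest.Agent.T156.Alt.L69 Crest.Agent.T156.Alt.Mp9 Crest.Agent.T156.Cut8
open Crest.Agent.T156.Pp.Area50 Crest.Agent.T156.Zb9
open Crest.Agent.R164.GC Crest.Agent.R339.B Crest.Agent.R339.Var Crest.Agent.T157.Pf

/-- the size of the energy -/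
theorem alg1 {L μ t P b j En : ℝ} (L2 : 2 ≤ L) (t0 : 0 < t) (t1 : t ≤ 1) (μ0 : 0 ≤ μ)
    (hμ : μ ≤ t ^ 2) (j0 : 0 ≤ j) (jP : j ≤ P) (E0 : 0 ≤ En) (hb : (μ * b) ^ 2 / t ≤ En) :
    En + (μ * (L * (P + b))) ^ 2 / t + (2 * t * j + L * √En) ^ 2 ≤
      5 * L ^ 2 * En + 10 * L ^ 2 * (t * P) ^ 2 := by
  have a1 : (μ * (L * (P + b))) ^ 2 / t ≤ 2 * L ^ 2 * ((μ * P) ^ 2 / t + (μ * b) ^ 2 / t) := by
    rw [← add_div, ← mul_div_assoc]
    refine div_le_div_of_nonneg_right ?_ t0.le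
    nlinarith [mul_nonneg (sq_nonneg L) (sq_nonneg (μ * P - μ * b))]
  have a2 : (μ * P) ^ 2 / t ≤ (t * P) ^ 2 := by
    rw [div_le_iff₀ t0, mul_pow, mul_pow, mul_right_comm]
    refine mul_le_mul_of_nonneg_right ((pow_le_pow_left₀ μ0 hμ 2).trans ?_) (sq_nonneg _)
    nlinarith [mul_le_mul_of_nonneg_left t1 (pow_pos t0 3).le]
  have a3 : (2 * t * j + L * √En) ^ 2 ≤ 8 * (t * j) ^ 2 + 2 * L ^ 2 * En := by
    have := sq_nonneg (2 * t * j - L * √En)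
    have e : (L * √En) ^ 2 = L ^ 2 * En := by rw [mul_pow, sq_sqrt E0]
    nlinarith
  have a4 : (t * j) ^ 2 ≤ (t * P) ^ 2 :=
    pow_le_pow_left₀ (by positivity) (mul_le_mul_of_nonneg_left jP t0.le) 2
  have a5 : 1 ≤ L ^ 2 := one_le_pow₀ (by linarith)
  have a6 := mul_le_mul_of_nonneg_left (add_le_add a2 hb) (by positivity : 0 ≤ 2 * L ^ 2)
  nlinarith [mul_le_mul_of_nonneg_right a5 E0, mul_le_mul_of_nonneg_right a5 (sq_nonneg (t * P))]

/-- the contraction -/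
theorem alg2 {L κ p y j ι P : ℝ} (L9 : 100 ≤ L) (p0 : 0 ≤ p) (P0 : 0 ≤ P) (κ0 : 0 ≤ κ)
    (hκ : 40 * L ^ 4 * κ ≤ 1) (hy : y ≤ 3 * L ^ 2 * p + 4 * L ^ 2 * (κ * P)) (y0 : 0 ≤ y)
    (hj : j ≤ 2 * (L ^ 2 * y + L ^ 2 * p) + ι + p) (hι : ι ≤ 2 * (κ * P) + L * p + L * y)
    (hP : P = j + ι) : P ≤ L ^ 5 * p := by
  have l2 : L ≤ L ^ 2 := le_self_pow₀ (by linarith) (by norm_num)
  have l4 : L ^ 2 ≤ L ^ 4 := pow_le_pow_right₀ (by linarith) (by norm_num)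
  have a1 := mul_le_mul_of_nonneg_right l2 y0
  have a2 := mul_le_mul_of_nonneg_left hy (by positivity : 0 ≤ 4 * L ^ 2)
  have a3 := mul_le_mul_of_nonneg_right l2 p0
  have a4 := mul_le_mul_of_nonneg_right l4 p0
  have a5 := mul_le_mul_of_nonneg_right (show 1 ≤ L by linarith) p0
  have a6 := mul_le_mul_of_nonneg_right (show 1 ≤ L ^ 4 by linarith) (mul_nonneg κ0 P0)
  have a7 := mul_le_mul_of_nonneg_right hκ P0
  have a8 := mul_le_mul_of_nonneg_right L9 (by positivity : 0 ≤ L ^ 4 * p)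
  nlinarith

variable {E L : ℝ} {S : Sc} {M : Md} {m : ℕ} {a G1 u1 u2 j γ Lc ηc τ l0 l X Xp Vt Lg Lp X2 X3 X4
  G0 : ℝ} {η : ℝ → ℝ} {N : ℝ} {g : ℝ → ℝ} {t1 tu ℓ En p0 : ℝ}

/-- the conclusion of `TkA` -/
def TA (Λ : ℝ) (S : Sc) (M : Md) (m : ℕ) (a l Lg X2 : ℝ) (η g : ℝ → ℝ) (tu ℓ : ℝ) : Prop :=
  ∀ p x y V, 3 / 2 * l ≤ x → M.s V + ℓ / 4 ≤ tu → sb M m a (V + 1) + ℓ / 4 ≤ tu →
    y ≤ sb M m a (V + 1) → (∀ t, x ≤ t → t ≤ y → Hq S M m a t ≤ p) →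
    ∀ t, x + Λ * √(S.ms t) ≤ t → t + Λ * √(S.ms t) ≤ y →
    ∀ t', l ≤ t' → t' ≤ tu → t' ≤ 2 * t → t ≤ 2 * t' →
      |uq S M m a t| ≤ Λ * (p + bs S Lg X2 (g t') η t')

/-- `∫ |J|` -/
def io (S : Sc) (M : Md) (m : ℕ) (a : ℝ) : ℝ := ∫ t in (0 : ℝ)..2 * S.C, |Jq S M m a t|

namespace Cx

variable (H : Cx E L S M m a G1 u1 u2 j γ Lc ηc τ l0 l X Xp Vt Lg Lp X2 X3 X4 G0 η N g t1 tu ℓ
  En p0)
include H

theorem tl : Tl (2 * S.C) (uq S M m a) (Jq S M m a) := ⟨H.A.LB_uu, fun _ => rfl⟩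

theorem Hq_eq (t : ℝ) : Hq S M m a t = |Jq S M m a t| + io S M m a := by
  unfold Hq Rig.Hp; rw [H.A.okh.2]; rfl

theorem io0 : 0 ≤ io S M m a :=
  intervalIntegral.integral_nonneg H.A.T0 fun _ _ => abs_nonneg _

theorem J_le {t : ℝ} (h0 : 0 ≤ t) (h1 : t ≤ 2 * S.C) : |Jq S M m a t| ≤ 2 * S.C := by
  refine H.A.J_le_63 ?_ ⟨h0, h1⟩
  simpa using int_le_const H.A.LB_uu.abs le_rfl H.A.T0 le_rfl (K := 1) fun s _ _ => by
    unfold uu
    exact abs_le.2 ⟨by linarith [Pp.Ode3.lvr_pos H.A.okb.1.1 s, Pp.Ode3.lvr_le_one H.A.okh.1.1 s],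
      by linarith [Pp.Ode3.lvr_pos H.A.okh.1.1 s, Pp.Ode3.lvr_le_one H.A.okb.1.1 s]⟩

theorem vl : 1000 * (S.C * S.v) ≤ l := H.Cv.trans H.μ1
theorem vℓ : 1000 * (S.C * S.v) ≤ ℓ := H.Cv.trans (by simpa using H.dv H.E1 H.μ0.le H.μℓ)

/-- sums of `sb - s` on a range of sloped nodes -/
theorem Sdsb {lo hi : ℕ} (h1 : lo ≤ hi) (h2 : hi < S.J) : Ap63.Sx M.z (dsb M m a) lo hi 2 ≤
    3 * (S.C ^ 2 * Ap63.Sx M.z (M.del m a) lo hi 2 + Ap63.Sx M.z M.G lo hi 2 +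
      (S.C * (1 / S.n)) ^ 2) :=
  (Ap63.Sx_le H.cl.leg.zm h1 (by linarith [H.cl.leg.z1 hi, H.cl.z_pos lo])
    (mul_pos H.cl.C0 H.μ0).le fun k _ b =>
      (H.A.sub_le (b.trans (h2.trans H.cl.J_lt).le)).trans (add_le_add le_rfl H.Cm)).2

set_option maxHeartbeats 1000000 in
/-- **`∫ |J|` below the cut** -/
theorem low {c jj : ℝ} (h1 : 7 / 4 * l ≤ c) (h2 : c ≤ 2 * S.C)
    (hj : ∀ t, 7 / 4 * l ≤ t → t ≤ c → |Jq S M m a t| ≤ jj) :
    ∫ t in (0 : ℝ)..c, |Jq S M m a t| ≤ c * jj + L * √En := by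
  obtain ⟨σ, a1, a2, a3, a4, a5⟩ := H.exσ
  have A := H.A
  have C1 := H.cl.C1
  have C0 := H.cl.C0
  have l0 := H.l0'
  have v0 := H.cl.v0
  have σ0 : 0 ≤ σ := v0.le.trans a2
  have vl := H.vl
  have t1u := H.t1u
  have t1a := H.lt.t1a
  have tu1 := H.lt.tu1
  have ℓu := H.ℓu
  have b1 : 1000 * S.C ^ 4 * σ ≤ l := H.dv (H.KE 4 (by norm_num)) σ0 a4
  have c3 : σ ≤ S.C * σ := le_mul_of_one_le_left σ0 C1
  have c4 : S.C * σ ≤ S.C ^ 4 * σ := mul_le_mul_of_nonneg_right (le_self_pow₀ C1 (by norm_num)) σ0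
  have c5 : S.C ^ 2 * σ ≤ S.C ^ 4 * σ :=
    mul_le_mul_of_nonneg_right (pow_le_pow_right₀ C1 (by norm_num)) σ0
  have c6 := mul_le_mul_of_nonneg_left a2 C0.le
  set b := 20 * S.C ^ 4 * σ with hb
  have j1 : S.jl + 1 < S.J := H.cl.i2
  have s1 := (H.cl.ss _ H.cl.jl_lt).2
  have q4 : l ≤ 1 / (4 * S.C ^ 2) := by
    rw [le_div_iff₀' (by positivity)]; exact H.dv (H.KE 2 (by norm_num)) l0.le H.ln.l1
  have sbj : sb M m a (S.jl + 1) ≤ b := by
    have p := (H.del_cr a1 a2 a3 (H.cl.i1.trans_lt (Nat.lt_succ_self _)) j1).2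
      (H.z_half (H.cl.i1.trans (Nat.le_succ _)) j1 (by linarith))
    have q := H.cl.q_le_s (j1.trans H.cl.J_lt).le
    have r0 := (rb_mem (M := M) (a := a) A.m_pos (S.jl + 1)).1
    have r1 : kp m * M.d (S.jl + 1) ≤ 1 * S.C := mul_le_mul (kp_mem m).2
      ((H.cl.d_le (j1.trans H.cl.J_lt).le).trans H.cl.b1) (by linarith [H.cl.d_ge (S.jl + 1)])
      zero_le_one
    have r2 : M.rb m a (S.jl + 1) ≤ σ + S.C * σ + 10 * S.C ^ 3 * σ := by
      unfold Md.del at p; linarith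
    have r3 := mul_le_mul r1 r2 r0 (by linarith)
    have r4 := H.ce.bot
    have r5 : S.ms (M.s S.jl) * M.s S.jl ≤ 1 * σ :=
      mul_le_mul ((H.cl.ms1 _).trans H.θ1) a3 H.jl0.le zero_le_one
    rw [H.lt.F1, mul_one, mul_assoc] at r4
    have r6 := A.sb_mono (Nat.le_succ (S.jl + 1))
    simp only [sb] at r6 ⊢
    linarith [mul_le_mul_of_nonneg_left r5 C0.le]
  obtain ⟨hi, k1, k2, k3, k4⟩ := H.cl.exists_node (t := 2 * l) (by linarith) (by linarith)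
  have k5 := (H.cl.ss _ k1).2
  have k6 := (H.idx (k := hi) (by linarith) (by linarith)).1
  have k7 := (H.dsb_cr (k := hi + 1) (by linarith) (by linarith)).1
  have SG : Ap63.Sx M.z M.G S.jl hi 2 ≤ GS M S 0 (2 * l) := by
    rw [Ap63.Sx_two]
    refine Finset.sum_le_sum_of_subset_of_nonneg (fun k hk => ?_)
      fun k _ _ => mul_nonneg (dx_nn H.cl k) (sq_nonneg _)
    obtain ⟨p, q⟩ := Finset.mem_Ioc.1 hk
    exact Finset.mem_filter.2 ⟨Finset.mem_Ioo.2 ⟨p, q.trans_lt k1⟩, H.cl.s_nn k,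
      (H.cl.sm q).trans k2⟩
  have W := A.dz_sq_le H.cl.i1 k6.le k1 (x := b) (y := 7 / 4 * l) (by linarith) (by linarith) sbj
    (by linarith) (by linarith)
  have S1 := H.Sdsb k6.le k1
  have S2 := mul_le_mul_of_nonneg_left (H.Sdel H.cl.i1 (k1.le.trans H.cl.i3)) (sq_nonneg S.C)
  have S3 : S.v ^ 2 * (M.z hi - M.z S.jl) ≤ (1 / S.n) ^ 2 * 1 :=
    mul_le_mul (pow_le_pow_left₀ v0.le (by simpa using H.dv H.E1 v0.le H.vμ) 2)
      (by linarith [H.cl.leg.z1 hi, H.cl.z_pos S.jl]) (sub_nonneg.2 (H.cl.leg.zm k6.le))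
      (sq_nonneg _)
  set W0 := 12 * S.C * (S.C ^ 2 * X + GS M S 0 (2 * l) + S.C ^ 2 * (1 / S.n) ^ 2) +
    2 * S.C * (1 / S.n) ^ 2 with hW
  have W1 : ∫ t in b..7 / 4 * l, uq S M m a t ^ 2 ≤ W0 := by
    have := mul_le_mul_of_nonneg_left S1 (by positivity : 0 ≤ 4 * S.C)
    have := mul_le_mul_of_nonneg_left (add_le_add S2 SG) (by positivity : 0 ≤ 12 * S.C)
    have := mul_le_mul_of_nonneg_left S3 (by positivity : 0 ≤ 2 * S.C)
    rw [hW]
    linarith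
  have b0 : 0 ≤ b := by positivity
  have lT : 7 / 4 * l ≤ 2 * S.C := h1.trans h2
  have G0 := GS_nn H.cl 0 (2 * l)
  have X0 := H.ln.X0
  have W00 : 0 ≤ W0 := by positivity
  have I1 : ∫ t in b..7 / 4 * l, |uq S M m a t| ≤ √(2 * l * W0) :=
    (int_abs_le A.LB_uu b0 (by linarith) lT W1).trans
      (sqrt_le_sqrt (mul_le_mul_of_nonneg_right (by linarith) W00))
  have I2 : ∫ t in b..2 * b, |uq S M m a t| ≤ √(2 * l * W0) :=
    (int_sub_le A.LB_uu.abs b0 le_rfl (by linarith) (by linarith) lT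
      fun _ _ _ => abs_nonneg _).trans I1
  have I3 := root_area (T := 2 * S.C) A.zb_mono A.zh_mono
    (fun t => (Pp.Ode3.lvr_pos A.okb.1.1 t).le) (fun t => (Pp.Ode3.lvr_pos A.okh.1.1 t).le) b0
    (by linarith) (H := 4 * S.C * b)
    ((A.zh_le (by linarith) (by linarith)).trans (by
      linarith [mul_le_mul_of_nonneg_left (show S.v ≤ b by linarith) C0.le])) I2
  have I4 := H.tl.low b0 (by linarith) h1 h2 hj I3 I1
  have e0 := sqrt_nonneg En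
  have I5 : 2 * l * √(2 * l * W0) ≤ 18 * S.C ^ 2 * √En := by
    refine abs_le_of_sq_le_sq' ?_ (by positivity) |>.2
    rw [mul_pow, mul_pow _ √En, sq_sqrt (by positivity), sq_sqrt H.En0]
    have l3 : l ^ 3 * (1 / (S.n : ℝ)) ^ 2 ≤ En :=
      (mul_le_of_le_one_left (sq_nonneg _) (pow_le_one₀ l0.le H.l1)).trans H.μEn
    have p1 := mul_le_mul_of_nonneg_left H.en.2.1 (pow_pos C0 3).le
    have p2 := mul_le_mul_of_nonneg_left H.lt.gl C0.le
    have p3 := mul_le_mul_of_nonneg_left l3 (pow_pos C0 3).le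
    have p4 := mul_le_mul_of_nonneg_left l3 C0.le
    have p5 := mul_le_mul_of_nonneg_right (pow_le_pow_right₀ C1 (by norm_num : 3 ≤ 4)) H.En0
    have p6 := mul_le_mul_of_nonneg_right (le_self_pow₀ C1 (by norm_num : 4 ≠ 0)) H.En0
    rw [hW]
    linarith [mul_nonneg (pow_pos C0 4).le H.En0]
  have I6 := mul_le_mul_of_nonneg_left a5 (by positivity : 0 ≤ 32000 * S.C ^ 13)
  have I7 := mul_le_mul_of_nonneg_right (H.KL (c := 32036) 13 (by norm_num)) e0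
  have I8 := mul_le_mul_of_nonneg_right (pow_le_pow_right₀ C1 (by norm_num : 2 ≤ 13)) e0
  have I9 := mul_le_mul_of_nonneg_right (show b ≤ 2 * l by linarith) (sqrt_nonneg (2 * l * W0))
  have I10 : b * (b * (4 * S.C * b)) = 32000 * S.C ^ 13 * σ ^ 3 := by rw [hb]; ring
  linarith [mul_nonneg l0.le (sqrt_nonneg (2 * l * W0))]

omit H in
/-- number of halving steps -/
theorem exK {n : ℕ} {C L : ℝ} (h0 : 0 < n) (h1 : 2 * C ≤ log n) (h2 : log n ≤ L) (h3 : 10 ≤ L) :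
    ∃ K : ℕ, 2 * C / 2 ^ K ≤ 1 / n ∧ (K : ℝ) + 1 ≤ L ^ 2 := by
  have n0 : (0 : ℝ) < n := by exact_mod_cast h0
  have a1 : (n : ℝ) ≤ 2 ^ (Nat.log 2 n + 1) := by
    exact_mod_cast (Nat.lt_pow_succ_log_self (by norm_num) n).le
  have a2 : (2 : ℝ) ^ Nat.log 2 n ≤ n := by exact_mod_cast Nat.pow_log_le_self 2 h0.ne'
  have a3 := log_le_log (by positivity) a2
  rw [log_pow] at a3
  have a4 := mul_le_mul_of_nonneg_left log_two_gt_d9.le (Nat.cast_nonneg (α := ℝ) (Nat.log 2 n))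
  refine ⟨2 * (Nat.log 2 n + 1), ?_, by push_cast; nlinarith⟩
  rw [div_le_div_iff₀ (by positivity) n0, one_mul, mul_comm 2 (Nat.log 2 n + 1), pow_mul, sq]
  exact mul_le_mul (by linarith [log_le_sub_one_of_pos n0]) a1 n0.le (by positivity)

/-- the local error as a step function -/
def be (L : ℝ) (S : Sc) (M : Md) (Lg X2 : ℝ) (η g : ℝ → ℝ) (t : ℝ) : ℝ :=
  |stp (fun j => L * bs S Lg X2 (g (M.s (j - 1))) η (M.s (j - 1))) (sh M S) (S.Jp + 1) t|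

theorem be_cell {k : ℕ} {t : ℝ} (h0 : l ≤ M.s k) (h1 : M.s k ≤ t) (h2 : t < M.s (k + 1))
    (h3 : M.s k < tu) : be L S M Lg X2 η g t = L * bs S Lg X2 (g (M.s k)) η (M.s k) := by
  obtain ⟨k1, k2⟩ := H.idx h0 h3
  rw [be, (H.A.ref_cell (H.cl.i1.trans k1.le) (k2.trans_le H.cl.i3) h1 h2).stp H.A.uh,
    Nat.add_sub_cancel]
  exact abs_of_nonneg (mul_nonneg (by linarith [H.L1]) (H.bs0 h0 (h3.le.trans H.tuC)))

theorem be_int {y : ℝ} (h1 : 3 / 2 * l ≤ y) (h2 : y < tu) :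
    ∫ t in 3 / 2 * l..y, be L S M Lg X2 η g t ≤ L ^ 2 * p0 := by
  have l0 := H.l0'
  have vl := H.vl
  have C0 := H.cl.C0
  have tu1 := H.lt.tu1
  have L0 : 0 ≤ L := by linarith [H.L1]
  obtain ⟨i, i1, i2, i3, i4⟩ := H.cl.exists_node (t := 3 / 2 * l) (by linarith) (by linarith)
  obtain ⟨k, k1, k2, k3, -⟩ := H.cl.exists_node (t := y) (by linarith) (by linarith)
  have lB : LB (2 * S.C) (be L S M Lg X2 η g) := (LB_stp _ _ _ _).abs
  have ik : i ≤ k + 1 := le_of_not_gt fun h => by linarith [H.cl.sm h.le]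
  have mem : ∀ y, i ≤ y → y < k + 1 → l ≤ M.s y ∧ M.s y < tu := fun y a b =>
    ⟨by linarith [H.cl.sm a], by linarith [H.cl.sm (Nat.le_of_lt_succ b)]⟩
  have p := int_sub_le lB (H.cl.s_nn i) i2 h1 k3.le
    ((H.cl.sm (k1.trans_le H.cl.i3)).trans H.A.t2) fun _ _ _ => abs_nonneg _
  have q := H.A.int_ref lB ik (k1.trans_le H.cl.i3)
    (w := fun y => L * bs S Lg X2 (g (M.s y)) η (M.s y))
    fun y t a b c d => (H.be_cell (mem y a b).1 c.le d (mem y a b).2).le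
  have r : ∑ y ∈ Finset.Ico i (k + 1), (M.s (y + 1) - M.s y) * (L * bs S Lg X2 (g (M.s y)) η (M.s y)) ≤
      ∑ y ∈ Finset.Ico i (k + 1), S.C ^ 2 * L * (dx M y * bs S Lg X2 (g (M.s y)) η (M.s y)) :=
    Finset.sum_le_sum fun y hy => by
      obtain ⟨a, b⟩ := Finset.mem_Ico.1 hy
      obtain ⟨c, d⟩ := mem y a b
      obtain ⟨e, f⟩ := H.idx c d
      have i1 := H.cl.i1
      have z1 := (H.cl.zs (y - 1) (by omega) (by omega)).1
      rw [show y - 1 + 1 = y by omega, div_le_iff₀ C0] at z1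
      have z2 : M.s (y + 1) - M.s y ≤ S.C ^ 2 * dx M y := by
        unfold dx; nlinarith [(H.cl.ss y f).2]
      have := mul_le_mul_of_nonneg_right z2 (mul_nonneg L0 (H.bs0 c (d.le.trans H.tuC)))
      linarith
  rw [← Finset.mul_sum] at r
  have s := Finset.sum_le_sum_of_subset_of_nonneg (s := Finset.Ico i (k + 1))
    (t := (Finset.Ioo S.jl S.J).filter fun k => l ≤ M.s k ∧ M.s k ≤ tu)
    (f := fun y => dx M y * bs S Lg X2 (g (M.s y)) η (M.s y))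
    (fun y hy => by
      obtain ⟨a, b⟩ := Finset.mem_Ico.1 hy
      obtain ⟨c, d⟩ := mem y a b
      exact Finset.mem_filter.2 ⟨Finset.mem_Ioo.2 (H.idx c d), c, d.le⟩)
    fun y hy _ => let h := (Finset.mem_filter.1 hy).2
      mul_nonneg (dx_nn H.cl y) (H.bs0 h.1 (h.2.trans H.tuC))
  have p0' : 0 ≤ p0 := (sqrt_nonneg _).trans H.pa.1
  have u := mul_le_mul_of_nonneg_left (s.trans H.pa.2.2) (by positivity : 0 ≤ S.C ^ 2 * L)
  have v := mul_le_mul_of_nonneg_right (H.KL (c := 1) 2 (by norm_num)) (mul_nonneg L0 p0')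
  linarith

theorem L3θ : L ^ 3 * √S.θ ≤ ℓ / 8 := by
  have L0 : 0 < L := by linarith [H.L1]
  have L4 : 8 * L ^ 3 ≤ E := le_trans (by nlinarith [H.L9, pow_pos L0 3]) (H.LE 4)
  linarith [H.dv L4 (sqrt_nonneg _) H.lt.ℓ1]

/-- the bound of `J` on the thick zone -/
def jj (L : ℝ) (S : Sc) (M : Md) (m : ℕ) (a tu p0 e : ℝ) : ℝ :=
  2 * (L ^ 2 * (e / √tu) + L ^ 2 * p0) + io S M m a + 1 / S.n

set_option maxHeartbeats 1000000 in
/-- **`J` and `u` on the thick zone** from the energy `e²` above the cut -/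
theorem jb (hA : TA L S M m a l Lg X2 η g tu ℓ) {e : ℝ} (e0 : 0 ≤ e)
    (he : ∫ t in 2 * t1..2 * S.C, Jq S M m a t ^ 2 ≤ e ^ 2) {V : ℕ} (h1 : M.s V + ℓ / 4 ≤ tu)
    (h2 : sb M m a (V + 1) + ℓ / 4 ≤ tu) (h3 : tu / (16 * S.C ^ 3) ≤ sb M m a (V + 1)) {t : ℝ}
    (h4 : 7 / 4 * l ≤ t) (h5 : t + L ^ 3 * √S.θ ≤ sb M m a (V + 1)) :
    |Jq S M m a t| ≤ jj L S M m a tu p0 e ∧ ∀ t', l ≤ t' → t' ≤ tu → t' ≤ 2 * t → t ≤ 2 * t' →
      |uq S M m a t| ≤ L * (jj L S M m a tu p0 e + io S M m a + bs S Lg X2 (g t') η t') := by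
  obtain ⟨K, K1, K2⟩ := exK H.cl.n1 H.Cn H.lg (by linarith [H.L9])
  have l0 := H.l0'
  have ℓ0 := H.ℓ0
  have vl := H.vl
  have C0 := H.cl.C0
  have C1 := H.cl.C1
  have L1 := H.L1
  have L0 : 0 < L := by linarith
  have t10 := H.t10
  have t1a := H.lt.t1a
  have tuC := H.tuC
  have tu0 : 0 < tu := by linarith [H.t1u]
  have K0 : (0 : ℝ) ≤ K := Nat.cast_nonneg _
  have r1 := sqrt_nonneg (S.ms l)
  have r2 := sqrt_nonneg S.θ
  have L4 : 8 * L ^ 3 ≤ E := le_trans (by nlinarith [H.L9, pow_pos L0 3]) (H.LE 4)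
  set w := 2 * L * √(S.ms l) with hw
  set w' := L * √S.θ with hw'
  have w0 : 0 ≤ w := by positivity
  have w0' : 0 ≤ w' := by positivity
  have w1 : (K + 1) * w ≤ l / 4 := by
    linarith [mul_le_mul_of_nonneg_right K2 w0, H.dv L4 r1 (H.lt.ml l le_rfl (H.l1.trans C1))]
  have w3 : (K + 1) * w' ≤ L ^ 3 * √S.θ := by linarith [mul_le_mul_of_nonneg_right K2 w0']
  have w2 : (K + 1) * w' ≤ ℓ / 8 := w3.trans H.L3θ
  have key : ∀ jx x y, 3 / 2 * l ≤ x → x ≤ 7 / 4 * l → y ≤ sb M m a (V + 1) →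
      (∀ t, x ≤ t → t ≤ y → |Jq S M m a t| ≤ jx) → ∀ t, x + w ≤ t → t + w' ≤ y →
      ∀ t', l ≤ t' → t' ≤ tu → t' ≤ 2 * t → t ≤ 2 * t' →
        |uq S M m a t| ≤ L * (jx + io S M m a + bs S Lg X2 (g t') η t') := by
    intro jx x y a1 a2 a3 a4 t a5 a6
    refine hA _ x y V a1 h1 h2 a3 (fun s b1 b2 => by rw [H.Hq_eq]; linarith [a4 s b1 b2]) t ?_ ?_
    · rcases le_total t (2 * l) with c | c
      · have : √(S.ms t) ≤ 2 * √(S.ms l) := sqrt_le_iff.2 ⟨by positivity, by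
          rw [mul_pow, sq_sqrt (H.cl.ms_pos l0.le).le]
          linarith [H.cl.msm c, H.cl.ms2 l l0.le]⟩
        linarith [mul_le_mul_of_nonneg_left this L0.le]
      · have : 8 * L ≤ E := le_trans (by nlinarith [H.L9]) (H.LE 2)
        linarith [H.dv this (sqrt_nonneg _) (H.lt.ml t (by linarith) (by linarith))]
    · linarith [mul_le_mul_of_nonneg_left (sqrt_le_sqrt (H.cl.ms1 t)) L0.le]
  set d := tu / (64 * S.C ^ 3) with hd
  have C3 : 0 < 64 * S.C ^ 3 := by positivity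
  have d0 : 0 < d := by positivity
  have d1 : d * (64 * S.C ^ 3) = tu := div_mul_cancel₀ _ C3.ne'
  have d2 : tu / (16 * S.C ^ 3) = 4 * d := by rw [hd]; field_simp; norm_num
  have d3 : 2 * t1 ≤ d := by
    rw [hd, le_div_iff₀ C3]; linarith [H.dv (H.KE (c := 128) 3 (by norm_num)) t10.le H.lt.t1b]
  have d4 : ℓ ≤ d := by
    rw [hd, le_div_iff₀ C3]; linarith [H.dv (H.KE (c := 64) 3 (by norm_num)) ℓ0.le H.lt.ℓ2]
  have d5 : d ≤ 1 / 64 := by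
    rw [hd, div_le_iff₀ C3]; linarith [le_self_pow₀ C1 (by norm_num : 3 ≠ 0)]
  have d6 : d / L ≤ d := div_le_self d0.le L1
  have d7 : (2 * t1 + d / L) * L ≤ 1 / 2 := by
    have : 8 * (S.C * L) ≤ E :=
      le_trans (by nlinarith [H.KL (c := 8) 1 (by norm_num)]) (H.LE 2)
    have := H.dv this t10.le (H.lt.t1b.trans tuC)
    rw [add_mul, div_mul_cancel₀ _ L0.ne']
    nlinarith
  have d8 : e ^ 2 ≤ d / L * (L ^ 2 * (e / √tu)) ^ 2 := by
    have : d / L * (L ^ 2 * (e / √tu)) ^ 2 = L ^ 3 / (64 * S.C ^ 3) * e ^ 2 := by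
      rw [mul_pow, div_pow, sq_sqrt tu0.le, hd]; field_simp
    rw [this]
    refine le_mul_of_one_le_left (sq_nonneg _) ((one_le_div C3).2 ?_)
    exact (H.KL 3 (by norm_num)).trans (le_self_pow₀ L1 (by norm_num))
  have it := H.tl.iter (β := be L S M Lg X2 η g) (LB_stp _ _ _ _).abs (fun _ => abs_nonneg _)
    (c := 2 * t1) (δ := d / L) (x0 := 3 / 2 * l) (y0 := sb M m a (V + 1)) (K := K) (by linarith)
    w0 w0' (by linarith) (by positivity) (by linarith) (by linarith) (by positivity) L0.le H.io0 d7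
    (he.trans d8) (H.be_int (by linarith) (by linarith))
    (fun t a b => H.J_le (by linarith) (by linarith))
    (fun jx x y a1 a2 a3 a4 t a5 a6 => by
      obtain ⟨k, -, k2, k3, k4⟩ := H.cl.exists_node (t := t) (by linarith)
        (by linarith [H.lt.tu1])
      rw [H.be_cell (by linarith) k2 k3 (by linarith), ← mul_add]
      exact key jx x y a1 (by linarith) a3 a4 t a5 a6 _ (by linarith) (by linarith) (by linarith)
        (by linarith)) K le_rfl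
  have it' : ∀ t, 3 / 2 * l + K * w ≤ t → t ≤ sb M m a (V + 1) - K * w' →
      |Jq S M m a t| ≤ jj L S M m a tu p0 e := fun t a b => by
    unfold jj; linarith [it t a b]
  have K1 := mul_nonneg K0 w0
  have K2 := mul_nonneg K0 w0'
  exact ⟨it' t (by linarith) (by linarith), key _ _ _ (by linarith) (by linarith) (by linarith) it' t
    (by linarith) (by linarith)⟩

end Cx

end Crest.Agent.T156.Alt.L63

end
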