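import Crest.Agent.T156.TLpM_73
import Crest.Agent.T156.TopQ_25
import Crest.Agent.T156.TopD_36

/-!
Row 156, block (L) (helper73): the spread of the plateau from one floor point, the concavity of `Γ`
above the corner and the first cavity equation in difference form.
-/

set_option autoImplicit false

noncomputable section

namespace Crest.Agent.T156.Alt.Mp9.At

open MeasureTheory Set Real
open Crest.Agent.R164.GC Crest.Agent.R339.B Crest.Agent.R339.Var Crest.Agent.T157.Pf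
open Crest.Agent.T156.Pr.Cv25 Crest.Agent.T156.Pr.Reg48
open Crest.Agent.T156.Alt.L69 (dx du)

variable {S : Sc} {M : Md} {m : ℕ} {a T : ℝ}

theorem tel73 {f φ : ℕ → ℝ} {i k : ℕ} (h : i ≤ k)
    (H : ∀ j, i < j → j ≤ k → f j ≤ φ (j - 1) - φ j) : ∑ j ∈ Finset.Ioc i k, f j ≤ φ i - φ k := by
  induction k, h using Nat.le_induction with
  | base => simp
  | succ k h ih =>
    have a := ih fun j p q => H j p (by omega)
    have b := H (k + 1) (by omega) le_rfl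
    rw [Finset.sum_Ioc_succ_top h]
    rw [Nat.add_sub_cancel] at b
    linarith

theorem in1_73 {p q : ℝ} (p0 : 0 < p) (h : p ≤ q) : (q - p) * (1 / q ^ 2) ≤ 1 / p - 1 / q := by
  have q0 : 0 < q := p0.trans_le h
  rw [div_sub_div _ _ p0.ne' q0.ne', mul_one_div, one_mul, mul_one]
  exact div_le_div_of_nonneg_left (by linarith) (by positivity) (by nlinarith)

theorem in2_73 {p q : ℝ} (p0 : 0 < p) (h : p ≤ q) :
    (q - p) * (1 / (q * √q)) ≤ 2 / √p - 2 / √q := by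
  have q0 : 0 < q := p0.trans_le h
  obtain ⟨P, P0, rfl⟩ : ∃ P, 0 < P ∧ p = P ^ 2 := ⟨√p, by positivity, (sq_sqrt p0.le).symm⟩
  obtain ⟨Q, Q0, rfl⟩ : ∃ Q, 0 < Q ∧ q = Q ^ 2 := ⟨√q, by positivity, (sq_sqrt q0.le).symm⟩
  have l : P ≤ Q := (abs_le_of_sq_le_sq' (by linarith) Q0.le).2
  rw [sqrt_sq P0.le, sqrt_sq Q0.le, div_sub_div _ _ P0.ne' Q0.ne', mul_one_div,
    div_le_div_iff₀ (by positivity) (by positivity)]
  have : 0 ≤ (Q - P) * Q * ((Q - P) * (2 * Q + P)) := by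
    have := sub_nonneg.2 l
    positivity
  nlinarith

theorem in3_73 {p q : ℝ} (p0 : 0 ≤ p) (h : p ≤ q) : (q - p) * (1 / √q) ≤ 2 * √q - 2 * √p := by
  have q0 : 0 ≤ q := p0.trans h
  have l := sqrt_le_sqrt h
  rcases q0.eq_or_lt with e | e
  · obtain rfl : p = q := le_antisymm h (e ▸ p0)
    simp
  have Q0 : 0 < √q := by positivity
  rw [mul_one_div, div_le_iff₀ Q0]
  nlinarith [sq_sqrt p0, sq_sqrt q0, sq_nonneg (√q - √p)]

theorem sq_conc73 {r c x y : ℝ} (r0 : 0 ≤ r) (c0 : 0 < c) (y0 : 0 ≤ y)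
    (h : r ≤ 2 / c * x + √(2 / c) * √y) : r ^ 2 ≤ 8 * (1 / c) ^ 2 * x ^ 2 + 4 * (1 / c) * y := by
  have a := pow_le_pow_left₀ r0 h 2
  have b : (√(2 / c) * √y) ^ 2 = 2 * (1 / c) * y := by
    rw [mul_pow, sq_sqrt (by positivity), sq_sqrt y0]; ring
  have e : 2 / c * x = 2 * (1 / c) * x := by ring
  rw [e] at a
  nlinarith [sq_nonneg (2 * (1 / c) * x - √(2 / c) * √y)]

/-- the excess of the mark of a plateau node -/
theorem df_up73 (A : At S M m a T) {i : ℕ} {GP : ℝ} (hi : S.J ≤ i) (hi' : i ≤ S.Jp)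
    (hG : ∑ j ∈ Finset.Icc S.J S.Jp, (M.z j - M.z (j - 1)) * M.G j ^ 2 ≤ GP) :
    -df36 S M T i * √(du M i) ≤ √GP := by
  have i2 := A.cl.i2
  have dz := A.dz_nn
  rcases le_total (-df36 S M T i) 0 with c | c
  · exact (mul_nonpos_of_nonpos_of_nonneg c (sqrt_nonneg _)).trans (sqrt_nonneg _)
  have r0 : 0 ≤ du M i := sub_nonneg.2 (A.cl.leg.z1 _)
  refine le_sqrt_of_sq_le ?_
  rw [mul_pow, sq_sqrt r0]
  refine le_trans ?_ ((Finset.sum_le_sum_of_subset_of_nonneg (s := Finset.Ioc (i - 1) S.Jp)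
    (fun j hj => ?_) fun j _ _ => mul_nonneg (dz j) (sq_nonneg _)).trans hG)
  · rw [du, ← A.cl.top _ le_rfl, ← tel36 M (by omega), Finset.mul_sum]
    refine Finset.sum_le_sum fun j hj => ?_
    obtain ⟨j1, j2⟩ := Finset.mem_Ioc.1 hj
    rw [mul_comm]
    refine mul_le_mul_of_nonneg_left (pow_le_pow_left₀ c ?_ 2) (dz j)
    have d1 := (A.deficit (k := j) (by omega) j2).1
    have d2 := A.df_anti (show i ≤ j by omega)
    unfold df36 at d2 ⊢
    linarith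
  · obtain ⟨j1, j2⟩ := Finset.mem_Ioc.1 hj
    exact Finset.mem_Icc.2 ⟨by omega, j2⟩

/-- **data of the spread**: `f` a floor point, `w` the cut node near the top, `kA` the first
controlled node, `er k` the error of the good node that serves the node `k` -/
structure Sd (S : Sc) (M : Md) (m : ℕ) (a T K u0 f g0 la jj δ tl aa a0 u GP γ κ : ℝ) (er : ℕ → ℝ)
    (w kA : ℕ) : Prop where
  tl0 : 0 < tl
  tl1 : tl ≤ M.s (S.J - 1)
  f0 : 0 ≤ f
  f1 : M.s S.J - δ ≤ f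
  f2 : f ≤ sb M m a (S.J + 1)
  zf : M.z (S.J - 1) - δ ≤ lvr 1 (lb M S m a T) f
  fl : M.b * Pr.GG (lb M S m a T) f ≤ 1 + g0
  g00 : 0 ≤ g0
  la0 : 0 ≤ la
  δ0 : 0 ≤ δ
  u00 : 0 ≤ u
  er0 : ∀ k, 0 ≤ er k
  Mt : sb M m a (w + 1) ≤ M.s S.J + δ
  hp : ∀ t ∈ Icc 0 T, Rig.Hp (lh M T) (lb M S m a T) t ≤ jj
  aa1 : K * S.C * (S.θ / tl + jj + δ + S.v) ≤ aa
  k1 : S.J ≤ kA
  k2 : kA ≤ w
  k3 : w ≤ S.Jp
  w1 : 1 - u0 ≤ M.z w
  κ0 : 0 < κ
  κ1 : κ ≤ du M w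
  κ2 : κ ≤ M.z w - M.z (S.J - 1)
  a00 : 0 < a0
  a01 : a0 ≤ M.z (kA - 1) - M.z (S.J - 1)
  γ1 : M.s S.Jp - M.s S.J ≤ γ
  gp : ∑ j ∈ Finset.Icc S.J S.Jp, (M.z j - M.z (j - 1)) * M.G j ^ 2 ≤ GP
  lo : ∀ k, kA ≤ k → k ≤ w → ∃ i, S.J ≤ i ∧ i ≤ k ∧ aa ≤ M.z i - M.z (S.J - 1) ∧
    M.z k - M.z (S.J - 1) ≤ 4 * (M.z i - M.z (S.J - 1)) ∧
    res M S m a T i - res M S m a T w ≤ er k + la * (sb M m a (w + 1) - sb M m a (i + 1))
  hi : ∀ k, w < k → k ≤ S.Jp → u < du M k → ∃ j, k ≤ j ∧ j ≤ S.Jp ∧ du M k ≤ 4 * du M j ∧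
    res M S m a T w - res M S m a T j ≤ er k + la * (sb M m a (j + 1) - sb M m a (w + 1))

/-- size and sign of `G'` near the corner -/
theorem gd73 (T0 : ℝ) : ∃ K : ℝ, 1 ≤ K ∧ ∀ {S : Sc} {M : Md} {m : ℕ} {a T : ℝ}, At S M m a T →
    T ≤ T0 → ∀ {t tl jj δ aa : ℝ}, 0 < tl → tl ≤ M.s (S.J - 1) → t ∈ Icc 0 T → 0 ≤ δ →
      |t - M.s S.J| ≤ δ → Rig.Hp (lh M T) (lb M S m a T) t ≤ jj →
      K * S.C * (S.θ / tl + jj + δ + S.v) ≤ aa →
      (M.z (S.J - 1) - δ ≤ lvr 1 (lb M S m a T) t → Pr.Reg48.Gd (lb M S m a T) t ≤ aa) ∧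
      ∀ y, aa ≤ y → M.z (S.J - 1) + y ≤ lvr 1 (lb M S m a T) t →
        Pr.Reg48.Gd (lb M S m a T) t ≤ -(1 / K * y) := by
  obtain ⟨C, c1, hC⟩ := Pr.Cv25.Gd_two T0
  set e := exp (-(4 * T0)) with he
  have e0 : 0 < e := exp_pos _
  refine ⟨max ((C + 3) / e) (C + 3), le_max_of_le_right (by linarith),
    fun {S M m a T} A hT {t tl jj δ aa} l0 l1 ht δ0 hd hp ha => ?_⟩
  set K := max ((C + 3) / e) (C + 3) with hK
  have K1 : C + 3 ≤ K := le_max_right _ _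
  have K2 : C + 3 ≤ K * e := (div_le_iff₀ e0).1 (le_max_left _ _)
  have C1 := A.cl.C1
  have v0 := v_pos A.cl
  have θ0 : 0 ≤ S.θ := (A.ms_pos le_rfl).le.trans (A.cl.ms1 0)
  obtain ⟨p1, p2⟩ := A.s_pred
  have m1 : M.s (S.J - 1) ∈ Icc 0 (TT (lh M T)) := by
    rw [A.okh.2]
    exact ⟨s_nn A.cl _, by linarith [A.cl.sm A.cl.i3, A.t2]⟩
  obtain ⟨x1, x2⟩ := hC _ _ A.okb.1 A.okh.1 (A.okb.2.trans A.okh.2.symm) (A.okh.2.trans_le hT) t
    (by rwa [A.okh.2]) _ m1 jj hp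
  rw [A.zh_pred] at x1 x2
  have j0 : 0 ≤ jj := le_trans (add_nonneg (abs_nonneg _) (intervalIntegral.integral_nonneg
    (m1.1.trans m1.2) fun _ _ => abs_nonneg _)) hp
  have g1 := A.gd36 l0 l1 p1
  rw [mul_div_assoc] at g1
  have q0 : 0 ≤ S.θ / tl := by positivity
  obtain ⟨d1, d2⟩ := abs_le.1 hd
  have d3 : |t - M.s (S.J - 1)| ≤ δ + S.C * S.v := abs_le.2 ⟨by nlinarith, by linarith⟩
  set X := S.C * (S.θ / tl + jj + δ + S.v) with hX
  have X1 : jj + δ + S.C * S.v ≤ X := by nlinarith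
  have X2 : S.C * (S.θ / tl) ≤ X := by nlinarith
  have X3 : δ ≤ X := by nlinarith
  have X0 : 0 ≤ X := δ0.trans X3
  have d4 : C * (jj + |t - M.s (S.J - 1)|) ≤ C * X := mul_le_mul_of_nonneg_left (by linarith) (by linarith)
  rw [mul_assoc] at ha
  refine ⟨fun hz => ?_, fun y y1 hz => ?_⟩
  · obtain ⟨a0, a1⟩ := (Pr.Reg48.ode A.okh.1).2.2.2 _ m1
    have b1 := mul_le_mul_of_nonneg_left (show -δ ≤ lvr 1 (lb M S m a T) t - M.z (S.J - 1) by linarith) a0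
    have b2 := mul_le_mul_of_nonneg_right a1 δ0
    have b3 := mul_le_mul_of_nonneg_right K1 X0
    linarith [(abs_le.1 x1).2]
  · have K0 : 0 < K := by linarith
    have y0 : 0 ≤ y := le_trans (by positivity) (ha.trans y1)
    have b0 := x2 (by linarith)
    have b1 := mul_le_mul_of_nonneg_left (show y ≤ lvr 1 (lb M S m a T) t - M.z (S.J - 1) by linarith) e0.le
    have b2 := mul_le_mul_of_nonneg_left (ha.trans y1) e0.le
    have b3 := mul_le_mul_of_nonneg_right K2 X0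
    have b4 : 1 / K ≤ e := by rw [div_le_iff₀ K0]; linarith
    have b5 := mul_le_mul_of_nonneg_right b4 y0
    nlinarith

variable {K u0 f g0 la jj δ tl aa a0 u GP γ κ g c K1 : ℝ} {er : ℕ → ℝ} {w kA : ℕ}

theorem Sd.fa (h : Sd S M m a T K u0 f g0 la jj δ tl aa a0 u GP γ κ er w kA) (A : At S M m a T) :
    0 < M.z (S.J - 1) ∧ 0 ≤ S.C * S.θ * γ + √GP ∧ √GP ≤ S.C * S.θ * γ + √GP ∧
    0 ≤ (S.C * S.θ * γ + √GP) / √κ ∧ S.C * S.θ * γ + √GP ≤ (S.C * S.θ * γ + √GP) / √κ ∧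
    -df36 S M T w ≤ (S.C * S.θ * γ + √GP) / √κ ∧ df36 S M T w ≤ (S.C * S.θ * γ + √GP) / √κ ∧
    (∀ k, kA ≤ k → 0 < M.z k - M.z (S.J - 1) ∧ M.z k - M.z (S.J - 1) ≤ 1) ∧
    ∀ i, S.J ≤ i → f ≤ sb M m a (i + 1) := by
  have C1 := A.cl.C1
  have θ0 : 0 ≤ S.θ := (A.ms_pos le_rfl).le.trans (A.cl.ms1 0)
  have k1' := h.k1; have k2 := h.k2; have k3 := h.k3
  have κ0 := h.κ0; have a00 := h.a00
  have zm := A.cl.leg.zm
  have z1 := A.cl.leg.z1
  have γ0 : 0 ≤ γ := le_trans (sub_nonneg.2 (A.cl.sm A.cl.i3)) h.γ1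
  have x0 : 0 < M.z (S.J - 1) := lt_of_lt_of_le (by positivity) A.cl.atom.1
  set Q := S.C * S.θ * γ + √GP with hQ
  have Q0 : 0 ≤ Q := by positivity
  have Q1 : √GP ≤ Q := le_add_of_nonneg_left (by positivity)
  have sκ : 0 < √κ := by positivity
  have κ1 : √κ ≤ 1 := sqrt_le_one.2 (by linarith [h.κ2, z1 w])
  have R0 : 0 ≤ Q / √κ := by positivity
  refine ⟨x0, Q0, Q1, R0, by rw [le_div_iff₀ sκ]; exact mul_le_of_le_one_right Q0 κ1, ?_, ?_,
    fun k hk => ⟨by linarith [h.a01, zm (show kA - 1 ≤ k by omega)], by linarith [z1 k]⟩,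
    fun i hi => h.f2.trans (A.sb_mono (Nat.succ_le_succ hi))⟩
  · rcases le_total (-df36 S M T w) 0 with d | d
    · exact d.trans R0
    rw [le_div_iff₀ sκ]
    exact ((mul_le_mul_of_nonneg_left (sqrt_le_sqrt h.κ1) d).trans
      (A.df_up73 (by omega) k3 h.gp)).trans Q1
  · rcases le_total (df36 S M T w) 0 with d | d
    · exact d.trans R0
    rw [le_div_iff₀ sκ]
    exact (mul_le_mul_of_nonneg_left (sqrt_le_sqrt h.κ2) d).trans (A.df_plat h.γ1 (by omega) k3 h.gp)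

set_option maxHeartbeats 400000 in
theorem Sd.low (h : Sd S M m a T K u0 f g0 la jj δ tl aa a0 u GP γ κ er w kA) (A : At S M m a T)
    (k1 : 1 ≤ K1) (Ka : K1 ≤ K) (g0' : 0 ≤ g)
    (G : ∀ t, f ≤ t → t ≤ sb M m a (w + 1) → ∀ y, aa ≤ y →
      M.z (S.J - 1) + y ≤ lvr 1 (lb M S m a T) t → Pr.Reg48.Gd (lb M S m a T) t ≤ -(1 / K1 * y))
    (fl : ∀ t, f ≤ t → t ≤ sb M m a (w + 1) → M.b * Pr.GG (lb M S m a T) t ≤ 1 + M.b * g)
    (k : ℕ) (p : kA ≤ k) (q : k ≤ w) : (sb M m a (k + 1) - sb M m a (w + 1)) ^ 2 ≤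
      128 * K ^ 2 * ((g + la) ^ 2 * (1 / (M.z k - M.z (S.J - 1)) ^ 2) +
        (S.C * S.θ * γ + √GP) / √κ * (1 / ((M.z k - M.z (S.J - 1)) * √(M.z k - M.z (S.J - 1)))) +
        er k / (M.z k - M.z (S.J - 1))) := by
  have K0 : 1 ≤ K := k1.trans Ka
  have i2 := A.cl.i2
  have k1' := h.k1; have k2 := h.k2; have k3 := h.k3
  have la0 := h.la0; have κ0 := h.κ0; have a00 := h.a00
  have zm := A.cl.leg.zm
  have z1 := A.cl.leg.z1
  obtain ⟨M0, M1⟩ := A.sb_mem k3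
  have mo := Sc48.lvr_mono A.okb.1.1
  obtain ⟨x0, Q0, Q1, R0, R1, w1, w2, yp, fw⟩ := h.fa A
  set x := M.z (S.J - 1) with hx
  set Mt := sb M m a (w + 1) with hMt
  set Q := S.C * S.θ * γ + √GP with hQ
  obtain ⟨i, i1, i3, i4, i5, i6⟩ := h.lo k p q
  obtain ⟨y0, y1⟩ := yp k p
  have e0 := h.er0 k
  set y := M.z k - x with hy
  set y' := M.z i - x with hy'
  have y2 : 0 < y' := by linarith
  have y3 : y' ≤ 1 := by linarith [z1 i]
  have s0 : 0 < √y' := by positivity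
  have s1 : √y' ≤ 1 := sqrt_le_one.2 y3
  have s2 : √y ≤ 2 * √y' := by
    rw [show (2 : ℝ) = √4 by rw [show (4 : ℝ) = 2 ^ 2 by norm_num, sqrt_sq zero_le_two],
      ← sqrt_mul (by norm_num)]
    exact sqrt_le_sqrt i5
  have d1 : df36 S M T i ≤ Q / √κ / √y' := by
    rw [le_div_iff₀ s0]; exact (A.df_plat h.γ1 i1 (by omega) h.gp).trans R1
  have d2 : Q / √κ ≤ Q / √κ / √y' := by
    rw [le_div_iff₀ s0]; exact mul_le_of_le_one_right R0 s1
  have K10 : 0 < K1 := by linarith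
  have d := A.diff_conc (i := i) (j := w) (c := 1 / K1 * y') (g := g) (dH := 2 * (Q / √κ / √y'))
    (by omega) (by omega) k3 (by positivity) g0' la0 e0
    (fun s hs => (G s ((fw i i1).trans hs.1) hs.2.le) y' i4 (by
      have := mo hs.1
      rw [A.lvb_node (by omega) (by omega)] at this
      linarith))
    (fl _ (fw i i1) (A.sb_mono (by omega))) i6 (by unfold df36 at d1 w1; linarith)
  have m1 := A.sb_mono (show i + 1 ≤ k + 1 by omega)
  have m2 := A.sb_mono (show k + 1 ≤ w + 1 by omega)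
  have r := sq_conc73 (r := Mt - sb M m a (k + 1)) (by linarith) (by positivity) (by positivity)
    (le_trans (by linarith) d)
  have n1 : 1 / (1 / K1 * y') ≤ K * (4 * (1 / y)) := by
    rw [div_le_iff₀ (by positivity)]
    calc (1 : ℝ) = K1 * (1 / y) * (1 / K1 * y) := by field_simp
      _ ≤ K * (1 / y) * (1 / K1 * (4 * y')) := by gcongr
      _ = _ := by ring
  have n2 : Q / √κ / √y' ≤ Q / √κ * (2 * (1 / √y)) := by
    rw [div_eq_mul_one_div (Q / √κ)]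
    refine mul_le_mul_of_nonneg_left ?_ R0
    rw [mul_one_div, div_le_div_iff₀ s0 (by positivity)]
    linarith
  have n3 : 8 * (1 / (1 / K1 * y')) ^ 2 * (g + la) ^ 2 ≤
      8 * (K * (4 * (1 / y))) ^ 2 * (g + la) ^ 2 := by gcongr
  have n4 : 4 * (1 / (1 / K1 * y')) * (2 * (Q / √κ / √y') + er k) ≤
      4 * (K * K * (4 * (1 / y))) * (2 * (Q / √κ * (2 * (1 / √y))) + er k) := by
    gcongr
    exact n1.trans (mul_le_mul_of_nonneg_right (le_mul_of_one_le_left (by linarith) K0)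
      (by positivity))
  have n5 : 0 ≤ K ^ 2 * (Q / √κ * (1 / (y * √y))) := by positivity
  have n6 : 0 ≤ K ^ 2 * (er k / y) := by positivity
  have e1 : 1 / (y * √y) = 1 / y * (1 / √y) := by field_simp
  have e2 : 1 / y ^ 2 = (1 / y) ^ 2 := by field_simp
  rw [e1] at n5
  rw [div_eq_mul_one_div (er k)] at n6
  rw [e1, e2, div_eq_mul_one_div (er k), ← neg_sq, neg_sub]
  linarith

theorem Sd.up (h : Sd S M m a T K u0 f g0 la jj δ tl aa a0 u GP γ κ er w kA) (A : At S M m a T)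
    (K0 : 1 ≤ K) (c0 : 0 < c) (Kb : 1 / c ≤ K) (g0' : 0 ≤ g)
    (hu : ∀ t, 0 ≤ t → t < T → 1 - u0 ≤ lvr 1 (lb M S m a T) t → Pr.Reg48.Gd (lb M S m a T) t ≤ -c)
    (fl : ∀ t, f ≤ t → t ≤ sb M m a (w + 1) → M.b * Pr.GG (lb M S m a T) t ≤ 1 + M.b * g)
    (k : ℕ) (p : w < k) (q : k ≤ S.Jp) : (sb M m a (k + 1) - sb M m a (w + 1)) ^ 2 ≤
      8 * K ^ 2 * ((g + la) ^ 2 + (S.C * S.θ * γ + √GP) / √κ +
        (S.C * S.θ * γ + √GP) * (1 / √(du M k)) + er k / (M.z k - M.z (S.J - 1))) +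
        if du M k ≤ u then T ^ 2 else 0 := by
  have i2 := A.cl.i2
  have k1' := h.k1; have k2 := h.k2; have k3 := h.k3
  have la0 := h.la0; have κ0 := h.κ0; have a00 := h.a00
  have zm := A.cl.leg.zm
  have z1 := A.cl.leg.z1
  obtain ⟨M0, M1⟩ := A.sb_mem k3
  have mo := Sc48.lvr_mono A.okb.1.1
  obtain ⟨x0, Q0, Q1, R0, R1, w1, w2, yp, fw⟩ := h.fa A
  set x := M.z (S.J - 1) with hx
  set Mt := sb M m a (w + 1) with hMt
  set Q := S.C * S.θ * γ + √GP with hQ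
  obtain ⟨y0, y1⟩ := yp k (by omega)
  have e0 := h.er0 k
  have m2 := A.sb_mono (show w + 1 ≤ k + 1 by omega)
  split_ifs with d
  · refine le_add_of_nonneg_of_le (by positivity) (sq_le_sq' (by linarith) ?_)
    linarith [(A.sb_mem q).2]
  obtain ⟨j, j1, j2, j3, j4⟩ := h.hi k p q (not_le.1 d)
  have u1 : 0 < du M k := h.u00.trans_lt (not_le.1 d)
  have s0 : 0 < √(du M j) := sqrt_pos.2 (by linarith)
  have s2 : √(du M k) ≤ 2 * √(du M j) := by
    rw [show (2 : ℝ) = √4 by rw [show (4 : ℝ) = 2 ^ 2 by norm_num, sqrt_sq zero_le_two],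
      ← sqrt_mul (by norm_num)]
    exact sqrt_le_sqrt j3
  have d1 : -df36 S M T j ≤ 2 * (Q * (1 / √(du M k))) := by
    rcases le_total (-df36 S M T j) 0 with e | e
    · exact e.trans (by positivity)
    rw [mul_one_div, ← mul_div_assoc, le_div_iff₀ (by positivity)]
    linarith [mul_le_mul_of_nonneg_left s2 e, A.df_up73 (show S.J ≤ j by omega) j2 h.gp]
  have d := A.diff_conc (i := w) (j := j) (c := c) (g := g)
    (dH := Q / √κ + 2 * (Q * (1 / √(du M k)))) (by omega) (by omega) j2 c0 g0' la0 e0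
    (fun s hs => hu s (M0.trans hs.1) (hs.2.trans_le (A.sb_mem j2).2) (by
        have := mo hs.1
        rw [A.lvb_node (by omega) k3] at this
        linarith [h.w1]))
    (fl _ (fw w (by omega)) le_rfl) j4 (by unfold df36 at d1 w2; linarith)
  have m1 := A.sb_mono (show k + 1 ≤ j + 1 by omega)
  have r := sq_conc73 (r := sb M m a (k + 1) - Mt) (by linarith) c0 (by positivity)
    (le_trans (by linarith) d)
  have n3 : 8 * (1 / c) ^ 2 * (g + la) ^ 2 ≤ 8 * K ^ 2 * (g + la) ^ 2 := by gcongr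
  have n0 : er k ≤ er k / (M.z k - x) := by
    rw [le_div_iff₀ y0]; exact mul_le_of_le_one_right e0 y1
  have n4 : 4 * (1 / c) * (Q / √κ + 2 * (Q * (1 / √(du M k))) + er k) ≤
      4 * (K * K) * (Q / √κ + 2 * (Q * (1 / √(du M k))) + er k / (M.z k - x)) := by
    gcongr
    exact Kb.trans (le_mul_of_one_le_left (by linarith) K0)
  have n5 : 0 ≤ K ^ 2 * (Q / √κ) := by positivity
  have n6 : 0 ≤ K ^ 2 * (er k / (M.z k - x)) := by positivity
  nlinarith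

theorem Sd.sum (h : Sd S M m a T K u0 f g0 la jj δ tl aa a0 u GP γ κ er w kA) (A : At S M m a T)
    (low : ∀ k, kA ≤ k → k ≤ w → (sb M m a (k + 1) - sb M m a (w + 1)) ^ 2 ≤
      128 * K ^ 2 * ((g + la) ^ 2 * (1 / (M.z k - M.z (S.J - 1)) ^ 2) +
        (S.C * S.θ * γ + √GP) / √κ * (1 / ((M.z k - M.z (S.J - 1)) * √(M.z k - M.z (S.J - 1)))) +
        er k / (M.z k - M.z (S.J - 1))))
    (up : ∀ k, w < k → k ≤ S.Jp → (sb M m a (k + 1) - sb M m a (w + 1)) ^ 2 ≤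
      8 * K ^ 2 * ((g + la) ^ 2 + (S.C * S.θ * γ + √GP) / √κ +
        (S.C * S.θ * γ + √GP) * (1 / √(du M k)) + er k / (M.z k - M.z (S.J - 1))) +
        if du M k ≤ u then T ^ 2 else 0) :
    ∑ k ∈ Finset.Icc kA S.Jp, dx M k * (sb M m a (k + 1) - sb M m a (w + 1)) ^ 2 ≤
      1000 * K ^ 2 * ((g + la) ^ 2 / a0 + (S.C * S.θ * γ + √GP) / (√κ * √a0) +
        ∑ k ∈ Finset.Icc kA S.Jp, dx M k * (er k / (M.z k - M.z (S.J - 1)))) + u * T ^ 2 := by
  have dn : ∀ k, 0 ≤ dx M k := A.dz_nn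
  have i2 := A.cl.i2
  have k1' := h.k1; have k2 := h.k2; have k3 := h.k3
  have la0 := h.la0; have κ0 := h.κ0; have a00 := h.a00
  have zm := A.cl.leg.zm
  have z1 := A.cl.leg.z1
  obtain ⟨M0, M1⟩ := A.sb_mem k3
  have mo := Sc48.lvr_mono A.okb.1.1
  obtain ⟨x0, Q0, Q1, R0, R1, w1, w2, yp, fw⟩ := h.fa A
  set x := M.z (S.J - 1) with hx
  set Mt := sb M m a (w + 1) with hMt
  set Q := S.C * S.θ * γ + √GP with hQ
  have eI : Finset.Icc kA S.Jp = Finset.Ioc (kA - 1) S.Jp := by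
    ext j; simp only [Finset.mem_Icc, Finset.mem_Ioc]; omega
  have ya : ∀ j, kA - 1 < j → 0 < M.z (j - 1) - x ∧ M.z (j - 1) - x ≤ M.z j - x ∧
      dx M j = M.z j - x - (M.z (j - 1) - x) := fun j hj =>
    ⟨by linarith [h.a01, zm (show kA - 1 ≤ j - 1 by omega)],
      by linarith [zm (Nat.sub_le j 1)], by unfold dx; ring⟩
  have hk : kA - 1 ≤ S.Jp := by omega
  obtain ⟨yJ, -⟩ := yp S.Jp (by omega)
  have sa : 0 < √a0 := by positivity
  have a1 : a0 ≤ 1 := by linarith [h.a01, z1 (kA - 1)]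
  have sa1 : √a0 ≤ 1 := sqrt_le_one.2 a1
  have S1 : ∑ j ∈ Finset.Ioc (kA - 1) S.Jp, dx M j * (1 / (M.z j - x) ^ 2) ≤ 1 / a0 := by
    refine (tel73 (φ := fun j => 1 / (M.z j - x)) hk fun j p _ => ?_).trans ?_
    · obtain ⟨p1, p2, p3⟩ := ya j p
      rw [p3]; exact in1_73 p1 p2
    · have := one_div_le_one_div_of_le a00 h.a01
      have : 0 < 1 / (M.z S.Jp - x) := by positivity
      linarith
  have S2 : ∑ j ∈ Finset.Ioc (kA - 1) S.Jp, dx M j * (1 / ((M.z j - x) * √(M.z j - x))) ≤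
      2 / √a0 := by
    refine (tel73 (φ := fun j => 2 / √(M.z j - x)) hk fun j p _ => ?_).trans ?_
    · obtain ⟨p1, p2, p3⟩ := ya j p
      rw [p3]; exact in2_73 p1 p2
    · have := div_le_div_of_nonneg_left zero_le_two sa (sqrt_le_sqrt h.a01)
      have : 0 ≤ 2 / √(M.z S.Jp - x) := by positivity
      linarith
  have S3 : ∑ j ∈ Finset.Ioc (kA - 1) S.Jp, dx M j * (1 / √(du M j)) ≤ 2 := by
    refine (tel73 (φ := fun j => 2 * √(1 - M.z j)) hk fun j p _ => ?_).trans ?_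
    · have := in3_73 (p := 1 - M.z j) (q := 1 - M.z (j - 1)) (by linarith [z1 j])
        (by linarith [zm (Nat.sub_le j 1)])
      unfold dx du
      rw [show M.z j - M.z (j - 1) = 1 - M.z (j - 1) - (1 - M.z j) by ring]
      exact this
    · have : √(1 - M.z (kA - 1)) ≤ 1 := sqrt_le_one.2 (by linarith [h.a01])
      have := sqrt_nonneg (1 - M.z S.Jp)
      linarith
  have S4 : ∑ j ∈ Finset.Ioc (kA - 1) S.Jp, dx M j * (if du M j ≤ u then 1 else 0) ≤ u := by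
    refine (tel73 (φ := fun j => min (1 - M.z j) u) hk fun j p _ => ?_).trans ?_
    · unfold dx du
      split_ifs with d
      · rw [min_eq_left d]; linarith [min_le_left (1 - M.z j) u]
      · rw [min_eq_right (not_le.1 d).le]; linarith [min_le_right (1 - M.z j) u]
    · have := le_min (sub_nonneg.2 (z1 S.Jp)) h.u00
      linarith [min_le_right (1 - M.z (kA - 1)) u]
  have S5 : ∑ j ∈ Finset.Ioc (kA - 1) S.Jp, dx M j ≤ 1 := by
    rw [dx_sum73 M hk]; linarith [z1 S.Jp, h.a01]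
  rw [eI]
  set Y := ∑ k ∈ Finset.Ioc (kA - 1) S.Jp, dx M k * (er k / (M.z k - x)) with hY
  refine (Finset.sum_le_sum (g := fun k => 128 * K ^ 2 * (g + la) ^ 2 * (dx M k * (1 / (M.z k - x) ^ 2)) +
    128 * K ^ 2 * (Q / √κ) * (dx M k * (1 / ((M.z k - x) * √(M.z k - x)))) +
    128 * K ^ 2 * (dx M k * (er k / (M.z k - x))) + 8 * K ^ 2 * ((g + la) ^ 2 + Q / √κ) * dx M k +
    8 * K ^ 2 * Q * (dx M k * (1 / √(du M k))) + T ^ 2 * (dx M k * if du M k ≤ u then 1 else 0))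
    fun k hk => ?_).trans ?_
  · obtain ⟨p, q⟩ := Finset.mem_Ioc.1 hk
    obtain ⟨y0, y1⟩ := yp k (by omega)
    have e0 := h.er0 k
    have d0 := dn k
    have n1 : 0 ≤ 128 * K ^ 2 * (g + la) ^ 2 * (dx M k * (1 / (M.z k - x) ^ 2)) := by positivity
    have n2 : 0 ≤ 128 * K ^ 2 * (Q / √κ) * (dx M k * (1 / ((M.z k - x) * √(M.z k - x)))) := by
      positivity
    have n3 : 0 ≤ K ^ 2 * (dx M k * (er k / (M.z k - x))) := by positivity
    have n4 : 0 ≤ 8 * K ^ 2 * ((g + la) ^ 2 + Q / √κ) * dx M k := by positivity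
    have n5 : 0 ≤ 8 * K ^ 2 * Q * (dx M k * (1 / √(du M k))) := by positivity
    have n6 : 0 ≤ T ^ 2 * (dx M k * if du M k ≤ u then 1 else 0) := by split_ifs <;> positivity
    rcases le_or_gt k w with d | d
    · linarith [mul_le_mul_of_nonneg_left (low k (by omega) d) d0]
    · have := mul_le_mul_of_nonneg_left (up k d q) d0
      split_ifs at this n6 ⊢ <;> linarith
  · simp only [Finset.sum_add_distrib, ← Finset.mul_sum]
    have n1 := mul_le_mul_of_nonneg_left S1 (show 0 ≤ 128 * K ^ 2 * (g + la) ^ 2 by positivity)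
    have n2 := mul_le_mul_of_nonneg_left S2 (show 0 ≤ 128 * K ^ 2 * (Q / √κ) by positivity)
    have n4 := mul_le_mul_of_nonneg_left S5
      (show 0 ≤ 8 * K ^ 2 * ((g + la) ^ 2 + Q / √κ) by positivity)
    have n5 := mul_le_mul_of_nonneg_left S3 (show 0 ≤ 8 * K ^ 2 * Q by positivity)
    have n6 := mul_le_mul_of_nonneg_left S4 (sq_nonneg T)
    have Y0 : 0 ≤ Y := Finset.sum_nonneg fun k hk => mul_nonneg (dn k)
      (div_nonneg (h.er0 k) (yp k (by have := Finset.mem_Ioc.1 hk; omega)).1.le)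
    have e1 : (g + la) ^ 2 ≤ (g + la) ^ 2 / a0 := by
      rw [le_div_iff₀ a00]; exact mul_le_of_le_one_right (sq_nonneg _) a1
    have e2 : Q / √κ ≤ Q / (√κ * √a0) := by
      rw [← div_div, le_div_iff₀ sa]; exact mul_le_of_le_one_right R0 sa1
    have K2 : 0 ≤ K ^ 2 := sq_nonneg K
    have f1 := mul_le_mul_of_nonneg_left e1 K2
    have f2 := mul_le_mul_of_nonneg_left e2 K2
    have f3 := mul_le_mul_of_nonneg_left (R1.trans e2) K2
    have f4 : 0 ≤ K ^ 2 * ((g + la) ^ 2 / a0) := by positivity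
    have f5 : 0 ≤ K ^ 2 * (Q / (√κ * √a0)) := by positivity
    have f6 := mul_nonneg K2 Y0
    have e3 : 128 * K ^ 2 * (g + la) ^ 2 * (1 / a0) = 128 * (K ^ 2 * ((g + la) ^ 2 / a0)) := by ring
    have e4 : 128 * K ^ 2 * (Q / √κ) * (2 / √a0) = 256 * (K ^ 2 * (Q / (√κ * √a0))) := by
      field_simp; ring
    linarith

/-- **the spread of the plateau** -/
theorem spread73 (T0 : ℝ) : ∃ K u0 : ℝ, 1 ≤ K ∧ 0 < u0 ∧ ∀ {S : Sc} {M : Md} {m : ℕ} {a T : ℝ},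
    At S M m a T → T ≤ T0 → ∀ {f g0 la jj δ tl aa a0 u GP γ κ : ℝ} {er : ℕ → ℝ} {w kA : ℕ},
    Sd S M m a T K u0 f g0 la jj δ tl aa a0 u GP γ κ er w kA →
    (∀ t, f ≤ t → t ≤ sb M m a (w + 1) →
      M.b * Pr.GG (lb M S m a T) t ≤ 1 + M.b * (g0 + 2 * aa * δ)) ∧
    (∀ k, kA ≤ k → k ≤ w → (sb M m a (k + 1) - sb M m a (w + 1)) ^ 2 ≤
      128 * K ^ 2 * ((g0 + 2 * aa * δ + la) ^ 2 * (1 / (M.z k - M.z (S.J - 1)) ^ 2) +
        (S.C * S.θ * γ + √GP) / √κ * (1 / ((M.z k - M.z (S.J - 1)) * √(M.z k - M.z (S.J - 1)))) +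
        er k / (M.z k - M.z (S.J - 1)))) ∧
    ∑ k ∈ Finset.Icc kA S.Jp, dx M k * (sb M m a (k + 1) - sb M m a (w + 1)) ^ 2 ≤
      1000 * K ^ 2 * ((g0 + 2 * aa * δ + la) ^ 2 / a0 + (S.C * S.θ * γ + √GP) / (√κ * √a0) +
        ∑ k ∈ Finset.Icc kA S.Jp, dx M k * (er k / (M.z k - M.z (S.J - 1)))) + u * T ^ 2 := by
  obtain ⟨K1, k1, hK⟩ := gd73 T0
  obtain ⟨u0, c, u1, c0, hu⟩ := Gd_neg T0
  refine ⟨max K1 (1 / c), u0, le_max_of_le_left k1, u1,
    fun {S M m a T} A hT {f g0 la jj δ tl aa a0 u GP γ κ er w kA} h => ?_⟩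
  set K := max K1 (1 / c) with hKd
  have Ka : K1 ≤ K := le_max_left _ _
  have Kb : 1 / c ≤ K := le_max_right _ _
  have C1 := A.cl.C1
  have v0 := v_pos A.cl
  have θ0 : 0 ≤ S.θ := (A.ms_pos le_rfl).le.trans (A.cl.ms1 0)
  obtain ⟨b1, b2⟩ := A.b_mem
  have δ0 := h.δ0; have g00 := h.g00; have tl0 := h.tl0
  obtain ⟨M0, M1⟩ := A.sb_mem h.k3
  have T0' : 0 ≤ T := M0.trans M1
  have j0 : 0 ≤ jj := le_trans (add_nonneg (abs_nonneg _) (intervalIntegral.integral_nonneg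
    (by rw [A.okh.2]; exact T0') fun _ _ => abs_nonneg _)) (h.hp 0 ⟨le_rfl, T0'⟩)
  have X0 : 0 ≤ S.C * (S.θ / tl + jj + δ + S.v) := by positivity
  have aa1 : K1 * S.C * (S.θ / tl + jj + δ + S.v) ≤ aa := by
    refine le_trans ?_ h.aa1
    rw [mul_assoc, mul_assoc]; exact mul_le_mul_of_nonneg_right Ka X0
  have aa0 : 0 < aa := lt_of_lt_of_le (by positivity) aa1
  have g0' : 0 ≤ g0 + 2 * aa * δ := by positivity
  have mo := Sc48.lvr_mono A.okb.1.1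
  have G := fun t (t1 : f ≤ t) (t2 : t ≤ sb M m a (w + 1)) => hK A hT tl0 h.tl1
    ⟨h.f0.trans t1, t2.trans M1⟩ δ0 (abs_le.2 ⟨by linarith [h.f1], by linarith [h.Mt]⟩)
    (h.hp t ⟨h.f0.trans t1, t2.trans M1⟩) aa1
  have fl : ∀ t, f ≤ t → t ≤ sb M m a (w + 1) →
      M.b * Pr.GG (lb M S m a T) t ≤ 1 + M.b * (g0 + 2 * aa * δ) := fun t t1 t2 => by
    have p := GG_up A.okb.1 h.f0 t1 (by rw [A.okb.2]; exact t2.trans M1) (K := aa) fun r hr =>
      (G r hr.1 (hr.2.le.trans t2)).1 (h.zf.trans (mo hr.1))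
    have q := mul_le_mul_of_nonneg_left (show t - f ≤ 2 * δ by linarith [h.f1, h.Mt]) aa0.le
    have r := mul_le_mul_of_nonneg_left (show Pr.GG (lb M S m a T) t ≤
      Pr.GG (lb M S m a T) f + 2 * aa * δ by linarith) (show 0 ≤ M.b by linarith)
    have s := le_mul_of_one_le_left g00 b1
    linarith [h.fl]
  have low := h.low A k1 Ka g0' (fun t p q => (G t p q).2) fl
  exact ⟨fl, low, h.sum A low (h.up A (k1.trans Ka) c0 Kb g0' (fun t p q =>
    hu _ A.okb.1 (A.okb.2.trans_le hT) t p (by rwa [A.okb.2])) fl)⟩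

end Crest.Agent.T156.Alt.Mp9.At

end
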