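import Crest.Agent.T156.TLp_62
import Crest.Agent.T156.TLpS_73

/-!
Row 156, block (L) (helper62): the partners of the plateau nodes from `PN`.
-/

set_option autoImplicit false

noncomputable section

namespace Crest.Agent.T156.Alt.L62

open Real Finset
open Crest.Agent.T156.Alt.L69 Crest.Agent.T156.Alt.Mp9

variable {S : Sc} {M : Md} {m : ℕ} {a T x la u ω ℓ B : ℝ} {Pn : ℕ → Prop} {ez : ℕ → ℝ}

theorem dx0 (h : Cl S M) (k : ℕ) : 0 ≤ dx M k := sub_nonneg.2 (h.leg.zm (Nat.sub_le _ _))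

/-- a monotone function at a middle node -/
theorem mid62 (h : Cl S M) {f : ℕ → ℝ} {Y κ : ℝ} {w : ℕ} (w1 : S.J ≤ w) (w2 : w ≤ S.Jp)
    (mo : ∀ i k, S.J ≤ i → i ≤ k → k ≤ S.Jp → f i ≤ f k)
    (hY : ∑ k ∈ Icc S.J S.Jp, dx M k * f k ^ 2 ≤ Y) (κ0 : 0 < κ) (k1 : κ ≤ du M w)
    (k2 : κ ≤ M.z w - M.z (S.J - 1)) : |f w| ≤ √(Y / κ) := by
  have i2 := h.i2
  have key : ∀ U : Finset ℕ, U ⊆ Icc S.J S.Jp → κ ≤ ∑ k ∈ U, dx M k →
      (∀ k ∈ U, f w ^ 2 ≤ f k ^ 2) → |f w| ≤ √(Y / κ) := fun U h1 h2 h3 => by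
    refine abs_le_sqrt ?_
    rw [le_div_iff₀ κ0]
    calc f w ^ 2 * κ ≤ f w ^ 2 * ∑ k ∈ U, dx M k := mul_le_mul_of_nonneg_left h2 (sq_nonneg _)
      _ = ∑ k ∈ U, dx M k * f w ^ 2 := by rw [mul_comm, sum_mul]
      _ ≤ ∑ k ∈ U, dx M k * f k ^ 2 :=
        sum_le_sum fun k hk => mul_le_mul_of_nonneg_left (h3 k hk) (dx0 h k)
      _ ≤ _ := (sum_le_sum_of_subset_of_nonneg h1 fun k _ _ =>
        mul_nonneg (dx0 h k) (sq_nonneg _)).trans hY
  rcases le_total 0 (f w) with c | c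
  · refine key (Ioc (w - 1) S.Jp) (fun k hk => ?_) ?_ fun k hk => ?_
    · rw [mem_Ioc] at hk; rw [mem_Icc]; omega
    · rw [At.dx_sum73 M (by omega), h.top _ le_rfl]; exact k1
    · rw [mem_Ioc] at hk
      exact pow_le_pow_left₀ c (mo w k w1 (by omega) hk.2) 2
  · refine key (Ioc (S.J - 1) w) (fun k hk => ?_) ?_ fun k hk => ?_
    · rw [mem_Ioc] at hk; rw [mem_Icc]; omega
    · rw [At.dx_sum73 M (by omega)]; exact k2
    · rw [mem_Ioc] at hk
      have := mo k w (by omega) hk.2 w2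
      nlinarith

/-- the first node above a label -/
theorem first62 (h : Cl S M) {y : ℝ} (y0 : M.z (S.J - 1) < y) (y1 : y ≤ 1) :
    ∃ k, S.J ≤ k ∧ k ≤ S.Jp ∧ y ≤ M.z k ∧ M.z (k - 1) < y := by
  classical
  have e : ∃ k, y ≤ M.z k := ⟨S.Jp, by rwa [h.top _ le_rfl]⟩
  have k1 := Nat.find_spec e
  have k2 : Nat.find e ≤ S.Jp := Nat.find_min' e (by rwa [h.top _ le_rfl])
  have k3 : S.J ≤ Nat.find e := by
    by_contra c
    exact absurd (k1.trans (h.leg.zm (by omega : Nat.find e ≤ S.J - 1))) (not_le.2 y0)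
  have i2 := h.i2
  exact ⟨_, k3, k2, k1, not_le.1 (Nat.find_min e (by omega))⟩

/-- the middle node `w` and the first controlled node `kA` -/
structure Pk (S : Sc) (M : Md) (Pn : ℕ → Prop) (ρ a0 : ℝ) (w kA : ℕ) : Prop where
  pw : Pn w
  w0 : w ≤ S.Jp
  w1 : 1 - ρ ≤ M.z w
  κ1 : ρ / 2 ≤ du M w
  κ2 : ρ / 2 ≤ M.z w - M.z (S.J - 1)
  k1 : S.J < kA
  k2 : kA ≤ w
  a1 : a0 ≤ M.z (kA - 1) - M.z (S.J - 1)
  a2 : M.z (kA - 1) - M.z (S.J - 1) ≤ 2 * a0

theorem PN.pick (P : PN S M m a T Pn ez x la u ω ℓ B) (h : Cl S M) {ρ a0 : ℝ}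
    (ρ1 : 2 * S.C * ρ ≤ 1) (uρ : u ≤ ρ) (a0' : 0 < a0) (u0 : S.u0 ≤ a0) (a1 : 4 * a0 ≤ ρ) :
    ∃ w kA, Pk S M Pn ρ a0 w kA := by
  have C0 := h.C0
  have r2 : 2 * ρ ≤ 1 / S.C := by rw [le_div_iff₀ C0]; linarith
  have at2 := h.atom.2
  obtain ⟨k, k1, k2, k3, k4⟩ := first62 h (y := 1 - ρ) (by linarith) (by linarith)
  obtain ⟨w, w1, w2, w3⟩ := P.ex k k1 k2 (by unfold du; linarith)
  have w4 : ds M S k ≤ du M k := min_le_right _ _
  have w5 := h.leg.zm w2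
  have w6 := h.leg.zm (Nat.sub_le w 1)
  obtain ⟨j, j1, j2, j3, j4⟩ := first62 h (y := M.z (S.J - 1) + a0) (by linarith) (by linarith)
  obtain ⟨i, -, i2, i3⟩ := P.ex j j1 j2 (by unfold du; linarith)
  have i4 : ds M S j ≤ dl M S j := min_le_left _ _
  have i5 := h.leg.zm i2
  unfold dl at i4
  unfold du at w4
  have jw : j < w := by
    by_contra c
    have := h.leg.zm (not_lt.1 c)
    linarith
  exact ⟨w, j + 1, w1, (P.mem w w1).2.le, by linarith, by unfold du; linarith, by linarith,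
    by omega, jw, by rw [Nat.add_sub_cancel]; linarith, by rw [Nat.add_sub_cancel]; linarith⟩

/-- the error at the node `k` -/
def er (M : Md) (x Z ρ U : ℝ) (k : ℕ) : ℝ :=
  if U < du M k then x + 4 * Z / ρ + 2 * Z / du M k else 0

variable {ρ a0 aa Z U : ℝ} {w kA : ℕ}

theorem er_nn (x0 : 0 ≤ x) (Z0 : 0 ≤ Z) (ρ0 : 0 ≤ ρ) (U0 : 0 ≤ U) (k : ℕ) : 0 ≤ er M x Z ρ U k := by
  unfold er
  split_ifs with c
  · have := U0.trans c.le
    positivity
  · rfl

/-- the sizes: `ez k ≤ Z / du k` -/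
def EZ (S : Sc) (M : Md) (Pn : ℕ → Prop) (ez : ℕ → ℝ) (aa U Z : ℝ) : Prop :=
  ∀ k, Pn k → aa ≤ M.z k - M.z (S.J - 1) → U / 2 ≤ du M k → du M k * ez k ≤ Z

theorem ez_le (hZ : EZ S M Pn ez aa U Z) {k : ℕ} {d : ℝ} (p : Pn k) (e0 : 0 ≤ ez k)
    (h1 : aa ≤ M.z k - M.z (S.J - 1)) (d0 : 0 < d) (h2 : U / 2 ≤ du M k) (h3 : d ≤ 2 * du M k) :
    ez k ≤ 2 * Z / d := by
  rw [le_div_iff₀ d0]
  nlinarith [hZ k p h1 h2, mul_le_mul_of_nonneg_left h3 e0]

theorem PN.ezw (P : PN S M m a T Pn ez x la u ω ℓ B) (K : Pk S M Pn ρ a0 w kA)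
    (hZ : EZ S M Pn ez aa U Z) (ρ0 : 0 < ρ) (h1 : aa ≤ ρ / 2) (h2 : U ≤ ρ) : ez w ≤ 2 * Z / ρ :=
  ez_le hZ K.pw (P.ez0 w) (h1.trans K.κ2) ρ0 (by linarith [K.κ1]) (by linarith [K.κ1])

theorem PN.lo (P : PN S M m a T Pn ez x la u ω ℓ B) (h : Cl S M) (K : Pk S M Pn ρ a0 w kA)
    (hZ : EZ S M Pn ez aa U Z) (Z0 : 0 ≤ Z) (uU : u ≤ U) (U1 : U < ρ / 2) (a0' : 0 < a0)
    (u0 : S.u0 ≤ a0) (a1 : 3 * aa ≤ a0) (a2 : aa ≤ ρ / 2) (ρ0 : 0 < ρ) (k : ℕ) (k1 : kA ≤ k)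
    (k2 : k ≤ w) : ∃ i, S.J ≤ i ∧ i ≤ k ∧ aa ≤ M.z i - M.z (S.J - 1) ∧
      M.z k - M.z (S.J - 1) ≤ 4 * (M.z i - M.z (S.J - 1)) ∧ res M S m a T i - res M S m a T w ≤
        er M x Z ρ U k + la * (sb M m a (w + 1) - sb M m a (i + 1)) := by
  have z1 := h.leg.zm (show kA - 1 ≤ k by omega)
  have z2 := K.a1
  have z3 : M.z k ≤ 1 := (h.leg.zm (k2.trans K.w0)).trans_eq (h.top _ le_rfl)
  have dk : ∀ j, j ≤ w → ρ / 2 ≤ du M j := fun j hj =>
    K.κ1.trans (sub_le_sub_left (h.leg.zm (Nat.sub_le_sub_right hj 1)) 1)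
  obtain ⟨j, j1, j2, j3, j4⟩ := first62 h
    (y := M.z (S.J - 1) + (M.z k - M.z (S.J - 1)) / 3) (by linarith) (by linarith)
  have jk : j ≤ k := by
    by_contra c
    have := h.leg.zm (show k ≤ j - 1 by omega)
    linarith
  obtain ⟨i, i1, i2, i3⟩ := P.ex j j1 j2 (by linarith [dk j (jk.trans k2)])
  have i4 : ds M S j ≤ dl M S j := min_le_left _ _
  have i5 := h.leg.zm i2
  unfold dl at i4
  have ik : i ≤ k := by
    by_contra c
    have := h.leg.zm (not_le.1 c).le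
    linarith
  have d1 := dk i (ik.trans k2)
  have d2 := dk k k2
  have e1 := ez_le hZ i1 (P.ez0 i) (by linarith) ρ0 (by linarith) (by linarith)
  have e2 := P.ezw K hZ ρ0 a2 (by linarith)
  have e3 := (abs_le.1 (P.dp i w i1 K.pw (ik.trans k2))).1
  have e4 : 0 ≤ 2 * Z / du M k := div_nonneg (by linarith) (by linarith)
  refine ⟨i, j1.trans i2, ik, by linarith, by linarith, ?_⟩
  rw [er, if_pos (by linarith)]
  have : 4 * Z / ρ = 2 * Z / ρ + 2 * Z / ρ := by ring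
  linarith

theorem PN.hi (P : PN S M m a T Pn ez x la u ω ℓ B) (h : Cl S M) (K : Pk S M Pn ρ a0 w kA)
    (hZ : EZ S M Pn ez aa U Z) (Z0 : 0 ≤ Z) (uU : u ≤ U) (U0 : 0 ≤ U) (U1 : U ≤ ρ)
    (a2 : aa ≤ ρ / 2) (ρ0 : 0 < ρ) (k : ℕ) (k1 : w < k) (k2 : k ≤ S.Jp) (k3 : U < du M k) :
    ∃ j, k ≤ j ∧ j ≤ S.Jp ∧ du M k ≤ 4 * du M j ∧ res M S m a T w - res M S m a T j ≤
      er M x Z ρ U k + la * (sb M m a (j + 1) - sb M m a (w + 1)) := by
  obtain ⟨j, j1, j2, j3⟩ := P.ex k ((P.mem w K.pw).1.trans k1.le) k2 (by linarith)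
  have j4 : ds M S k ≤ du M k := min_le_right _ _
  have j5 := h.leg.zm (Nat.sub_le j 1)
  have j6 : 3 / 4 * du M k ≤ du M j := by unfold du at *; linarith
  have j7 := h.leg.zm (k1.le.trans j2)
  have e1 := ez_le hZ j1 (P.ez0 j) (d := du M k) (by linarith [K.κ2]) (by linarith) (by linarith)
    (by linarith)
  have e2 := P.ezw K hZ ρ0 a2 U1
  have e3 := (abs_le.1 (P.dp w j K.pw j1 (k1.le.trans j2))).1
  have e4 : 0 ≤ 2 * Z / ρ := by positivity
  refine ⟨j, j2, (P.mem j j1).2.le, by linarith, ?_⟩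
  rw [er, if_pos k3]
  have : 4 * Z / ρ = 2 * Z / ρ + 2 * Z / ρ := by ring
  linarith

theorem lg62 {p q : ℝ} (p0 : 0 < p) (h : p ≤ q) : (q - p) / q ≤ log q - log p := by
  have q0 := p0.trans_le h
  have := log_le_sub_one_of_pos (div_pos p0 q0)
  rw [log_div p0.ne' q0.ne'] at this
  rw [sub_div, div_self q0.ne']
  linarith

/-- the sum of the errors -/
theorem PN.sum (P : PN S M m a T Pn ez x la u ω ℓ B) (h : Cl S M) (K : Pk S M Pn ρ a0 w kA)
    (Z0 : 0 ≤ Z) (uU : u ≤ U) (U0 : 0 < U) (U1 : U ≤ 1) (a0' : 0 < a0) (ρ0 : 0 < ρ) {L : ℝ}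
    (L1 : -log a0 ≤ L) (L2 : -log (U / 2) ≤ L) :
    ∑ k ∈ Icc kA S.Jp, dx M k * (er M x Z ρ U k / (M.z k - M.z (S.J - 1))) ≤
      (x + 4 * Z / ρ + 4 * S.C * Z) * L := by
  have x0 := P.x00
  have C0 := h.C0
  have k1 := K.k1
  have k2 := K.k2.trans K.w0
  have at1 := h.atom
  have eI : Icc kA S.Jp = Ioc (kA - 1) S.Jp := by
    ext j; simp only [mem_Icc, mem_Ioc]; omega
  have yp : ∀ j, kA - 1 ≤ j → a0 ≤ M.z j - M.z (S.J - 1) := fun j hj => by
    linarith [K.a1, h.leg.zm hj]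
  set c1 := x + 4 * Z / ρ + 2 * S.C * Z with hc1
  have c10 : 0 ≤ c1 := by positivity
  have c20 : 0 ≤ 2 * S.C * Z := by positivity
  have t := At.tel73 (f := fun k => dx M k * (er M x Z ρ U k / (M.z k - M.z (S.J - 1))))
    (φ := fun k => -(c1 * log (M.z k - M.z (S.J - 1))) +
      2 * S.C * Z * log (max (1 - M.z k) (U / 2))) (show kA - 1 ≤ S.Jp by omega) fun j j1 j2 => by
      have y0 := yp (j - 1) (by omega)
      have zm := h.leg.zm (Nat.sub_le j 1)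
      have y1 : 0 < M.z j - M.z (S.J - 1) := by linarith
      have d0 := dx0 h j
      have l1 := lg62 (p := M.z (j - 1) - M.z (S.J - 1)) (q := M.z j - M.z (S.J - 1))
        (by linarith) (by linarith)
      rw [sub_sub_sub_cancel_right] at l1
      have l2 := mul_le_mul_of_nonneg_left l1 c10
      have l0 : 0 ≤ (M.z j - M.z (j - 1)) / (M.z j - M.z (S.J - 1)) := div_nonneg d0 y1.le
      unfold er
      split_ifs with c
      · obtain ⟨i, -, i2, i3⟩ := P.ex j (by omega) j2 (by linarith)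
        have i4 : ds M S j ≤ du M j := min_le_right _ _
        have i5 := h.leg.zm i2
        unfold du at c i4 ⊢
        rw [max_eq_left (by linarith), max_eq_left (by linarith)]
        have l3 := lg62 (p := 1 - M.z j) (q := 1 - M.z (j - 1)) (by linarith) (by linarith)
        rw [sub_sub_sub_cancel_left] at l3
        have l4 := mul_le_mul_of_nonneg_left l3 c20
        set y := M.z j - M.z (S.J - 1) with hy
        set d := 1 - M.z (j - 1) with hd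
        have dp : 0 < d := by linarith
        have s1 : 1 ≤ S.C * (d + y) := by
          have : 1 / S.C ≤ d + y := by linarith [at1.2]
          rwa [div_le_iff₀' C0] at this
        have s2 : 1 / (d * y) ≤ S.C * (1 / d + 1 / y) := by
          rw [div_add_div _ _ dp.ne' y1.ne', ← mul_div_assoc]
          exact div_le_div_of_nonneg_right (by linarith) (by positivity)
        have s3 := mul_le_mul_of_nonneg_left s2 (show 0 ≤ 2 * Z * dx M j by positivity)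
        have e1 : dx M j * ((x + 4 * Z / ρ + 2 * Z / d) / y) =
          (x + 4 * Z / ρ) * (dx M j / y) + 2 * Z * dx M j * (1 / (d * y)) := by field_simp
        have e2 : 2 * Z * dx M j * (S.C * (1 / d + 1 / y)) =
          2 * S.C * Z * (dx M j / d) + 2 * S.C * Z * (dx M j / y) := by ring
        rw [e1]
        rw [e2] at s3
        unfold dx at *
        rw [hc1] at l2 ⊢
        linarith
      · have l5 : log (max (1 - M.z j) (U / 2)) ≤ log (max (1 - M.z (j - 1)) (U / 2)) :=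
          log_le_log (lt_max_of_lt_right (by linarith)) (max_le_max_right _ (by linarith))
        have l6 := mul_le_mul_of_nonneg_left l5 c20
        have l7 := mul_nonneg c10 l0
        rw [zero_div, mul_zero]
        linarith
  rw [eI]
  refine t.trans ?_
  have z1 : M.z S.Jp = 1 := h.top _ le_rfl
  have z0 : 0 < M.z (S.J - 1) := lt_of_lt_of_le (by positivity) at1.1
  have y0 := yp (kA - 1) le_rfl
  have m1 : log (M.z S.Jp - M.z (S.J - 1)) ≤ 0 :=
    log_nonpos (by linarith [yp S.Jp (by omega)]) (by linarith)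
  have m2 : log a0 ≤ log (M.z (kA - 1) - M.z (S.J - 1)) := log_le_log a0' y0
  have m3 : log (max (1 - M.z (kA - 1)) (U / 2)) ≤ 0 :=
    log_nonpos (le_max_of_le_right (by linarith)) (max_le (by linarith) (by linarith))
  have m4 : log (U / 2) ≤ log (max (1 - M.z S.Jp) (U / 2)) :=
    log_le_log (by linarith) (le_max_right _ _)
  have n1 := mul_le_mul_of_nonneg_left (show log (M.z S.Jp - M.z (S.J - 1)) -
    log (M.z (kA - 1) - M.z (S.J - 1)) ≤ L by linarith) c10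
  have n2 := mul_le_mul_of_nonneg_left (show log (max (1 - M.z (kA - 1)) (U / 2)) -
    log (max (1 - M.z S.Jp) (U / 2)) ≤ L by linarith) c20
  rw [hc1] at n1
  simp only [hc1]
  linarith

end Crest.Agent.T156.Alt.L62

end
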