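import Crest.Agent.T156.TLp1_26
import Crest.Agent.T156.TLpM_73
import Crest.Agent.T156.TLp_62

/-!
# Row 156, block (L), the corner: the final sum (helper26)
-/

set_option autoImplicit false

noncomputable section

namespace Crest.Agent.T156.Alt.L62

open Real Finset
open Crest.Agent.T156.Alt.L69 Crest.Agent.T156.Alt.Mp9 Crest.Agent.T156.Alt.L63

variable {S : Sc} {M : Md} {m : ℕ} {a T : ℝ}

/-- the last window and the plateau from the located part and the corner sum -/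
theorem fin26 (A : At S M m a T) {k0 : ℕ} {D Z : ℝ} (k2 : k0 < S.J)
    (k3 : 3 / 4 * M.s S.J ≤ M.s k0)
    (loc : ∀ k, 3 / 4 * M.s S.J ≤ M.s k → k ≤ k0 → |sb M m a (k + 1) - M.s k| ≤ D)
    (hZ : ∑ k ∈ Ioc k0 S.Jp, dx M k * (sb M m a (k + 1) - M.s k) ^ 2 ≤ Z) :
    ∑ k ∈ (Ioo S.jl S.J).filter fun k => 3 / 4 * M.s S.J ≤ M.s k, dx M k * M.del m a k ^ 2 +
      Pla M S m a 2 ≤ 3 * (D ^ 2 + Z + GS M S (M.s S.J / 2) S.C + GP M S + (S.C / (m + 1)) ^ 2) := by
  classical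
  have h := A.cl
  have i3 := h.i3
  have sJ : 0 < M.s S.J := h.s_pos (by have := h.jl_lt; omega)
  set P : ℕ → Prop := fun k => M.s k < 3 / 4 * M.s S.J with hP
  have b2 : P (Nat.findGreatest P S.J) :=
    Nat.findGreatest_spec (Nat.zero_le _) (show M.s 0 < _ by rw [h.s0]; linarith)
  have b3 : ∀ k, Nat.findGreatest P S.J < k → k ≤ S.J → ¬P k := fun k =>
    Nat.findGreatest_is_greatest
  generalize Nat.findGreatest P S.J = i at b2 b3
  have up : ∀ k, 3 / 4 * M.s S.J ≤ M.s k → i < k := fun k q => lt_of_not_ge fun x =>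
    absurd (q.trans (h.sm x)) (not_le.2 b2)
  have ik := up k0 k3
  have dj : Disjoint ((Ioo S.jl S.J).filter fun k => 3 / 4 * M.s S.J ≤ M.s k) (Icc S.J S.Jp) :=
    disjoint_left.2 fun k p q => by
      have := (mem_Ioo.1 (mem_filter.1 p).1).2
      have := (mem_Icc.1 q).1
      omega
  have e := A.del_sq73 (i := i) (U := ((Ioo S.jl S.J).filter fun k => 3 / 4 * M.s S.J ≤ M.s k) ∪
    Icc S.J S.Jp) (by omega) fun k hk => by
      rcases mem_union.1 hk with p | p
      · have := (mem_Ioo.1 (mem_filter.1 p).1).2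
        exact mem_Ioc.2 ⟨up k (mem_filter.1 p).2, by omega⟩
      · have := mem_Icc.1 p
        exact mem_Ioc.2 ⟨by omega, this.2⟩
  rw [sum_union dj, sum_union dj, ← sum_Ioc_consecutive _ ik.le (show k0 ≤ S.Jp by omega)] at e
  have a1 : ∑ k ∈ Ioc i k0, dx M k * (sb M m a (k + 1) - M.s k) ^ 2 ≤ D ^ 2 := by
    refine (sum_le_sum (g := fun k => dx M k * D ^ 2) fun k hk => ?_).trans ?_
    · obtain ⟨p, q⟩ := mem_Ioc.1 hk
      refine mul_le_mul_of_nonneg_left ?_ (A.dz_nn k)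
      rw [← sq_abs]
      exact pow_le_pow_left₀ (abs_nonneg _) (loc k (not_lt.1 (b3 k p (by omega))) q) 2
    · rw [← sum_mul, At.dx_sum73 M ik.le]
      exact mul_le_of_le_one_left (sq_nonneg _) (by linarith [h.leg.z1 k0, h.z_pos i])
  have a2 : ∑ k ∈ (Ioo S.jl S.J).filter fun k => 3 / 4 * M.s S.J ≤ M.s k, dx M k * M.G k ^ 2 ≤
      GS M S (M.s S.J / 2) S.C :=
    sum_le_sum_of_subset_of_nonneg (fun k hk => by
      obtain ⟨p, q⟩ := mem_filter.1 hk
      exact mem_filter.2 ⟨p, by linarith, h.s_le_C ((mem_Ioo.1 p).2.le.trans i3)⟩)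
      fun k _ _ => mul_nonneg (A.dz_nn k) (sq_nonneg _)
  unfold Pla GP
  simp only [sq_abs]
  linarith

end Crest.Agent.T156.Alt.L62

end
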