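import Crest.Agent.T156.TLpF_26
import Crest.Agent.T156.TLpA_62
import Crest.Agent.T156.TLt_5

/-!
# Row 156, block (L), the corner: the numbers of the quadratic branch (helper26)
-/

set_option autoImplicit false

noncomputable section

namespace Crest.Agent.T156.Alt.L62

open Real Finset
open Crest.Agent.T156.Alt.L69 Crest.Agent.T156.Alt.Mp9 Crest.Agent.T156.Alt.L63

variable {E L : ℝ} {S : Sc} {M : Md} {m : ℕ} {a G1 u1 u2 j γ Lc ηc τ l0 l X Xp Vt Lg Lp X2 X3 X4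
  G0 : ℝ} {η : ℝ → ℝ} {N : ℝ} {g : ℝ → ℝ} {t1 ℓ En p0 α Pq al b t0 f : ℝ} {V k0 : ℕ}

/-- the lines that do not depend on the plateau nodes; `D = L (p0 + b)`, `g0 = L (X2 + 1 / n)` -/
structure N26 (L : ℝ) (S : Sc) (M : Md) (m : ℕ) (a X2 ℓ p0 b α al : ℝ) (k0 : ℕ) (t0 : ℝ) :
    Prop where
  α0 : 0 < α
  αa : α ≤ al
  ℓα : ℓ ≤ α
  uα : S.u0 ≤ α
  nℓ : 1 / (S.n : ℝ) ≤ ℓ
  Dℓ : 100 * (L * (p0 + b)) ≤ ℓ
  θ1 : 100 * S.C ^ 3 * S.θ ≤ ℓ
  θ2 : 100 * S.C ^ 3 * S.θ ≤ ℓ ^ 2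
  vℓ : 100 * S.C ^ 3 * S.v ≤ ℓ
  hp : ∀ t ∈ Set.Icc 0 (2 * S.C), Hq S M m a t ≤ al
  g0 : L * (X2 + 1 / S.n) ≤ ℓ ^ 2
  la : L * X2 ≤ ℓ ^ 2
  Gk : ∀ k, M.s S.J / 2 ≤ M.s k → M.s k + ℓ / 8 ≤ M.s S.J → k < S.J → |M.G k| ≤ α ^ 3
  jl : 2 * M.s S.jl < M.s S.J
  k0 : 3 / 4 * M.s S.J ≤ M.s k0
  hJ : |Jq S M m a t0| ≤ L * p0
  /-- any middle node of the plateau -/
  mid : ∀ w κ, S.J ≤ w → w ≤ S.Jp → 1 ≤ κ * L → κ ≤ du M w → κ ≤ M.z w - M.z (S.J - 1) →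
    |sb M m a (w + 1) - M.s S.J| ≤ al ∧ |M.G w| ≤ L * α ^ 3

theorem sq_div_le {Y κ y : ℝ} (L1 : 1 ≤ L) (κ0 : 0 < κ) (h : 1 ≤ κ * L) (hy : √Y ≤ y) :
    √(Y / κ) ≤ L * y := by
  have y0 := (sqrt_nonneg _).trans hy
  have a1 := (sqrt_le_left y0).1 hy
  refine sqrt_le_iff.2 ⟨by positivity, ?_⟩
  rw [div_le_iff₀ κ0]
  have a2 : 1 ≤ L ^ 2 * κ := by nlinarith
  nlinarith [mul_le_mul_of_nonneg_left a2 (sq_nonneg y)]

theorem n26 (H : Cx E L S M m a G1 u1 u2 j γ Lc ηc τ l0 l X Xp Vt Lg Lp X2 X3 X4 G0 η N g t1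
      (M.s S.J) ℓ En p0) (Q : LQ E S M X Xp Vt Lg Lp X2 G0 u1 u2 j γ η g ℓ α p0 Pq)
    (hx : 0 ≤ x0 S M X Xp Vt Lg Lp G0 u1 j γ ℓ η)
    (P : L63.P1 E L S M m a X X2 ℓ p0 b V k0 t0 f) (hal : L ^ 2 * α ≤ al) :
    N26 L S M m a X2 ℓ p0 b α al k0 t0 := by
  have h := H.cl
  have A := H.A
  have C0 := h.C0
  have C1 := h.C1
  have L1 := H.L1
  have L0 : 0 < L := one_pos.trans_le L1
  have ℓ0 := H.ℓ0
  have θ0 := h.θ0
  have μ0 := H.μ0
  have E0 := zero_le_one.trans H.E1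
  have u0 := H.lp.u0
  have j1 := H.ap.j0
  have s1 := sqrt_nonneg X
  have s2 := sqrt_nonneg (GS M S 0 S.C + GP M S)
  have s3 := sq_nonneg l0
  have s4 := sqrt_nonneg (GP M S)
  have s5 := H.lt.g0 (M.s S.J)
  have a1 := Q.a1
  have a3 := Q.a3
  have ℓα : ℓ ≤ α := by linarith
  have α0 := ℓ0.trans_le ℓα
  have LL : L * α ≤ L ^ 2 * α := mul_le_mul_of_nonneg_right (le_self_pow₀ L1 two_ne_zero) α0.le
  have αL := le_mul_of_one_le_left α0.le L1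
  have nℓ : 1 / (S.n : ℝ) ≤ ℓ := by simpa using H.dv H.E1 μ0.le H.μℓ
  have P0 : 0 ≤ p0 + b := by linarith [P.p00, P.b0]
  have D1 : 500 * S.C ^ 0 * L ^ 1 * (p0 + b) ≤ 5 * ℓ := H.dv (H.LL 0 (by norm_num) 1) P0 P.sm
  have θE : E * S.θ ≤ ℓ ^ 2 := by
    have := pow_le_pow_left₀ (by positivity) H.lt.ℓ1 2
    rw [mul_pow, sq_sqrt θ0.le] at this
    exact (mul_le_mul_of_nonneg_right (le_self_pow₀ H.E1 two_ne_zero) θ0.le).trans this
  have θ2 : 100 * S.C ^ 3 * S.θ ≤ ℓ ^ 2 := H.dv (H.KE 3 (by norm_num)) θ0.le θE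
  have θ3 : 2 * S.C ^ 0 * L ^ 1 * S.θ ≤ ℓ ^ 2 := H.dv (H.LL 0 (by norm_num) 1) θ0.le θE
  have ℓ2 : ℓ ^ 2 ≤ ℓ := pow_le_of_le_one ℓ0.le H.ℓ1 two_ne_zero
  have x1 : X2 ≤ S.θ := by
    have := H.ln.th3
    rw [H.mf_eq] at this
    simpa using H.dv H.E1 H.X20 (this.trans (h.ms1 l))
  have x2 : 1 / (S.n : ℝ) ≤ S.θ := H.μms zero_le_one
  have g0 : L * (X2 + 1 / S.n) ≤ ℓ ^ 2 := by
    linarith [mul_le_mul_of_nonneg_left (add_le_add x1 x2) L0.le]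
  have m1 : 1 / ((m : ℝ) + 1) ≤ 1 / S.n := one_div_le_one_div_of_le h.N0 (by
    have : (S.n : ℝ) ≤ m := by exact_mod_cast H.mem.m1
    linarith)
  have lu := H.ltu
  have l0' := H.l0'
  have v1 : S.v ≤ 1 / S.n := by simpa using H.dv H.E1 h.v0.le H.vμ
  have fl : ∀ k, S.J ≤ k → k ≤ S.Jp → M.s k = M.s S.J := fun k p q =>
    le_antisymm ((h.sm q).trans Q.flat.le) (h.sm p)
  refine ⟨α0, by linarith, ℓα, by linarith, nℓ, by linarith, θ2.trans ℓ2, θ2,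
    (H.dv (H.KE 3 (by norm_num)) h.v0.le H.vμ).trans nℓ, fun t ht => ?_, g0,
    by linarith [mul_pos L0 μ0], fun k p q r => ?_, by linarith [H.jl_l0, H.ln.l0l],
    by linarith [P.low, P.k3], ?_, fun w κ w1 w2 κ1 κ2 κ3 => ?_⟩
  · have c1 : S.C * S.θ ≤ 1 / 2 := by
      have := mul_le_mul_of_nonneg_right (le_self_pow₀ C1 (n := 3) (by norm_num)) θ0.le
      linarith [H.ℓ1, mul_pos C0 θ0]
    have := T5.hp_le A (γ := 0) (Z := α) c1 H.jl_l0 (H.ln.l0l.trans H.l1) H.ln.X0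
      (by simpa using H.dv H.E1 H.ln.X0.le H.ln.X1) (by linarith [Q.flat]) H.ap.all j1
      (by linarith) (by linarith) (by linarith) ht
    refine this.trans ?_
    have c2 := mul_le_mul_of_nonneg_right (H.KL (c := 300) 5 (by norm_num)) α0.le
    have c3 := mul_le_mul_of_nonneg_right C1 (show 0 ≤ 100 * S.C ^ 4 * α by positivity)
    linarith
  · have := H.lt.g1 (M.s S.J) k (H.idx (k := k) (by linarith) (by linarith)).1 r (by linarith)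
      (by linarith) q
    linarith
  · refine le_trans ?_ (P.hq t0 (by linarith [P.low]) le_rfl).1
    have := intervalIntegral.integral_nonneg (μ := MeasureTheory.volume) (a := 0) (b := 2 * S.C)
      (f := fun s => |Jq S M m a s|) (by positivity) fun _ _ => abs_nonneg _
    unfold Hq Rig.Hp
    rw [A.okh.2]
    linarith
  · have κ0 : 0 < κ := (mul_pos_iff_of_pos_right L0).1 (one_pos.trans_le κ1)
    have jw : ∀ k, S.J ≤ k → S.jl < k := fun k p => h.jl_lt.trans_le p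
    have kN : ∀ k, k ≤ S.Jp → k ≤ M.N := fun k p => p.trans h.i4.le
    have d1 := mid62 h (f := M.del m a) (Y := X) w1 w2 (fun i k p q r => by
      unfold Md.del Md.q
      rw [fl i p (q.trans r), fl k (p.trans q) r]
      linarith [rb_mono (M := M) (a := a) A.m_pos q]) (by
        have := H.Sdel (lo := S.J - 1) (hi := S.Jp) (by have := h.j0_lt; omega) le_rfl
        unfold Ap63.Sx at this
        simp only [sq_abs] at this
        rwa [show Icc S.J S.Jp = Ioc (S.J - 1) S.Jp by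
          ext k; simp only [mem_Icc, mem_Ioc]; have := h.j0_lt; omega]) κ0 κ2 κ3
    have d2 := mid62 h (f := M.G) (Y := GP M S) w1 w2 (fun i k p q r => by
      unfold Md.G Md.q
      rw [fl i p (q.trans r), fl k (p.trans q) r, h.d_eq (jw i p) (kN i (q.trans r)),
        h.d_eq (jw k (p.trans q)) (kN k r)]
      linarith [h.leg.Hm q]) le_rfl κ0 κ2 κ3
    have d3 := d1.trans (sq_div_le L1 κ0 κ1 (show √X ≤ α by linarith))
    have d4 := d2.trans (sq_div_le L1 κ0 κ1 (show √(GP M S) ≤ α ^ 3 by linarith))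
    refine ⟨?_, d4⟩
    have α1 : α ≤ 1 := by simpa using H.dv H.E1 α0.le Q.a2
    have d5 := mul_le_mul_of_nonneg_left (pow_le_of_le_one α0.le α1 (n := 3) (by norm_num)) L0.le
    obtain ⟨t1, t2⟩ := A.tail_mem (kN w w2)
    have e1 := At.sb_sub M m a w
    have d0 : 0 ≤ M.d w := by linarith [h.d_ge w]
    have d6 : |M.d w * M.del m a w| ≤ S.C * (L * α) := by
      rw [abs_mul, abs_of_nonneg d0]
      exact mul_le_mul ((h.d_le (kN w w2)).trans h.b1) d3 (abs_nonneg _) C0.le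
    have d7 := mul_le_mul_of_nonneg_left (nℓ.trans (ℓα.trans αL)) C0.le
    have d8 := mul_le_mul_of_nonneg_right (H.KL (c := 3) 1 (by norm_num)) (mul_pos L0 α0).le
    have d9 := le_mul_of_one_le_left (mul_pos L0 α0).le C1
    rw [← fl w w1 w2, e1]
    rw [abs_le] at d4 d6 ⊢
    exact ⟨by linarith [H.Cm, d4.1, d6.1], by linarith [d4.2, d6.2, mul_pos C0 μ0]⟩

end Crest.Agent.T156.Alt.L62

end
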