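import Crest.Agent.T156.TopQ_25

/-!
Row 156 (helper54): the spread of the mean profile on the plateau from one floor point and the
concavity above the corner.
-/

set_option autoImplicit false

namespace Crest.Agent.T156.Pr.Cv25

open MeasureTheory Set
open Crest.Agent.R164.GC Crest.Agent.R339.B Crest.Agent.R339.Var Crest.Agent.T157.Pf
open Crest.Agent.T156.Pr.Reg48

/-- above a time `f` near the corner: `G` rises by `O(κ δ)`, and `Γ'' ≤ - y / K` at the labels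
`y` above the reference label -/
theorem conc54 (T0 : ℝ) : ∃ K u0 : ℝ, 1 ≤ K ∧ 0 < u0 ∧ ∀ lb lh, Ok lb → Ok lh → TT lb = TT lh →
    TT lh ≤ T0 → ∀ t0 ∈ Icc 0 (TT lh), ∀ f P θ j δ σ : ℝ, 0 ≤ f → Gd lh t0 ≤ θ → 0 ≤ θ →
      (∀ t, f ≤ t → t ≤ TT lh → Rig.Hp lh lb t ≤ j) → 0 ≤ j → t0 - δ ≤ f → P ≤ t0 + δ →
      0 ≤ δ → 0 ≤ σ → 1 - u0 ≤ lvr 1 lb P → lvr 1 lh t0 - σ ≤ lvr 1 lb f →
      (∀ t, f ≤ t → t ≤ TT lh → GG lb t ≤ GG lb f + K * ((θ + j + δ + σ) * δ)) ∧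
      (∀ t, f ≤ t → t < TT lh → Gd lb t ≤ K * (θ + j + δ + σ)) ∧
      ∀ y, K * (θ + j + δ + σ) ≤ y → ∀ t, f ≤ t → t < TT lh → y ≤ lvr 1 lb t - lvr 1 lh t0 →
        Gd lb t ≤ -(y / K) := by
  obtain ⟨C, c1, hC⟩ := Gd_two T0
  obtain ⟨u0, c, u1, c0, hu⟩ := Gd_neg T0
  set e := Real.exp (-(4 * T0)) with he
  have e0 : 0 < e := Real.exp_pos _
  have i1 : 0 < C / e := by positivity
  have i2 : 0 < 1 / e := by positivity
  have i3 : 0 < 1 / c := by positivity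
  set K := 2 * (C + 2) + C / e + 1 / e + 1 / c with hK
  have K0 : 0 < K := by positivity
  refine ⟨K, u0, by linarith, u1,
    fun lb lh hb hh ee hT t0 ht0 f P θ j δ σ f0 hθ θ0 hj j0 h1 h2 δ0 σ0 hP hf => ?_⟩
  have m := Pp.Ode3.lvr_mono hb.1
  set κ := θ + j + δ + σ with hκ
  have κ0 : 0 ≤ κ := by positivity
  have top : ∀ t, f ≤ t → t < TT lh → P ≤ t → Gd lb t ≤ -c := fun t a b d =>
    hu lb hb (ee ▸ hT) t (f0.trans a) (ee ▸ b) (hP.trans (m d))
  have ab : ∀ t, f ≤ t → t < P → C * (j + |t - t0|) ≤ C * (j + δ) := fun t a d =>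
    mul_le_mul_of_nonneg_left (by
      have : |t - t0| ≤ δ := abs_le.2 ⟨by linarith, by linarith⟩
      linarith) (by linarith)
  have x6 : θ ≤ C * θ := le_mul_of_one_le_left θ0 c1
  have x7 : 0 ≤ C * σ := by positivity
  have x8 : C * κ = C * θ + C * (j + δ) + C * σ := by rw [hκ]; ring
  have low : ∀ t, f ≤ t → t < TT lh → t < P → Gd lb t ≤ (C + 2) * κ := by
    intro t a b d
    have q := hC lb lh hb hh ee hT t ⟨f0.trans a, b.le⟩ t0 ht0 j (hj t a b.le)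
    have q1 := (abs_le.1 q.1).2
    have a0 : 0 ≤ AA lh t0 := Pp.Ode3.Am_nonneg hh.1 t0
    have a1 : AA lh t0 ≤ 1 := Pp.Ode3.Am_le_one hh.1 t0
    have z : -σ ≤ lvr 1 lb t - lvr 1 lh t0 := by linarith [m a]
    have z1 := mul_le_mul_of_nonneg_left z a0
    have z2 := mul_le_mul_of_nonneg_right a1 σ0
    have := ab t a d
    have : (C + 2) * κ = C * κ + 2 * (θ + j + δ + σ) := by rw [hκ]; ring
    linarith
  have k2 : (C + 2) * κ ≤ K * κ := mul_le_mul_of_nonneg_right (by linarith) κ0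
  have k0 : 0 ≤ (C + 2) * κ := by positivity
  refine ⟨fun t a b => ?_, fun t a b => ?_, fun y hy t a b hz => ?_⟩
  · have s1 : ∀ t, f ≤ t → t ≤ TT lh → t ≤ P → GG lb t ≤ GG lb f + K * (κ * δ) := by
      intro t a b d
      have := GG_up hb f0 a (ee ▸ b) (K := (C + 2) * κ)
        fun s hs => low s hs.1 (hs.2.trans_le b) (hs.2.trans_le d)
      have w : (C + 2) * κ * (t - f) ≤ (C + 2) * κ * (2 * δ) :=
        mul_le_mul_of_nonneg_left (by linarith) k0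
      have w2 : 2 * (C + 2) * (κ * δ) ≤ K * (κ * δ) :=
        mul_le_mul_of_nonneg_right (by linarith) (by positivity)
      linarith
    rcases le_total t P with d | d
    · exact s1 t a b d
    · rcases le_total P f with g | g
      · have := GG_up hb f0 a (ee ▸ b) (K := 0)
          fun s hs => (top s hs.1 (hs.2.trans_le b) (g.trans hs.1)).trans (by linarith)
        have : 0 ≤ K * (κ * δ) := by positivity
        linarith
      · have := GG_up hb (f0.trans g) d (ee ▸ b) (K := 0)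
          fun s hs => (top s (g.trans hs.1) (hs.2.trans_le b) hs.1).trans (by linarith)
        linarith [s1 P g (d.trans b) le_rfl]
  · rcases le_or_gt P t with d | d
    · linarith [top t a b d]
    · exact (low t a b d).trans k2
  · have y0 : 0 ≤ y := le_trans (by positivity) hy
    rcases le_or_gt P t with d | d
    · have y1 : y ≤ 1 := by
        linarith [Pp.Ode3.lvr_le_one hb.1 t, Pp.Ode3.lvr_pos hh.1 t0]
      have : y / K ≤ c := by
        rw [div_le_iff₀ K0]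
        have : c * (1 / c) ≤ c * K := mul_le_mul_of_nonneg_left (by linarith) c0.le
        rw [mul_one_div_cancel c0.ne'] at this
        linarith
      linarith [top t a b d]
    · have q := (hC lb lh hb hh ee hT t ⟨f0.trans a, b.le⟩ t0 ht0 j (hj t a b.le)).2 (by linarith)
      have r1 : C / e * κ ≤ y := le_trans (mul_le_mul_of_nonneg_right (by linarith) κ0) hy
      have r2 : C * κ ≤ e * y := by
        have := mul_le_mul_of_nonneg_left r1 e0.le
        rwa [← mul_assoc, mul_div_cancel₀ _ e0.ne'] at this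
      have r3 : y / K ≤ e * y := by
        rw [div_le_iff₀ K0]
        have : e * (1 / e) ≤ e * K := mul_le_mul_of_nonneg_left (by linarith) e0.le
        rw [mul_one_div_cancel e0.ne'] at this
        have := mul_le_mul_of_nonneg_right this y0
        linarith
      have r4 := mul_le_mul_of_nonneg_left hz e0.le
      have := ab t a d
      linarith

end Crest.Agent.T156.Pr.Cv25

namespace Crest.Agent.T156.Alt.Mp9

open Set
open Crest.Agent.R164.GC Crest.Agent.R339.B Crest.Agent.R339.Var Crest.Agent.T157.Pf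
open Crest.Agent.T156.Pr.Cv25 Crest.Agent.T156.Pr.Reg48

/-- a floor point `f` near the reference time `t0`; the label `1 - u0` is reached at the node
`P` -/
structure Fl54 (S : Sc) (M : Md) (m : ℕ) (a T u0 t0 f θ j δ σ lam : ℝ) (P : ℕ) : Prop where
  t0m : t0 ∈ Icc 0 T
  f0 : 0 ≤ f
  gd : Pr.Reg48.Gd (lh M T) t0 ≤ θ
  θ0 : 0 ≤ θ
  hp : ∀ t, f ≤ t → t ≤ T → Rig.Hp (lh M T) (lb M S m a T) t ≤ j
  j0 : 0 ≤ j
  δ0 : 0 ≤ δ
  σ0 : 0 ≤ σ
  l0 : 0 ≤ lam
  fl : M.b * Pr.GG (lb M S m a T) f ≤ 1 + lam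
  f1 : t0 - δ ≤ f
  zf : lvr 1 (lh M T) t0 - σ ≤ lvr 1 (lb M S m a T) f
  P0 : S.jl ≤ P
  P1 : P ≤ S.Jp
  Pz : 1 - u0 ≤ M.z P
  Ps : sb M m a (P + 1) ≤ t0 + δ

/-- two nodes above the floor point with (E1) in difference form -/
structure Pr54 (S : Sc) (M : Md) (m : ℕ) (a T t0 f la : ℝ) (i k : ℕ) (y er dH : ℝ) : Prop where
  jl : S.jl < i
  ik : i ≤ k
  kJ : k ≤ S.Jp
  fi : f ≤ sb M m a (i + 1)
  yi : y ≤ M.z i - lvr 1 (lh M T) t0
  e0 : 0 ≤ er
  e1 : res M S m a T i - res M S m a T k ≤ er + la * (sb M m a (k + 1) - sb M m a (i + 1))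
  dH : M.H k - M.H i ≤ dH

theorem sum_du54 {S : Sc} {M : Md} (h : Cl S M) {kA : ℕ} (hA : 1 ≤ kA) {u1 : ℝ} (u0 : 0 ≤ u1) :
    ∑ k ∈ (Finset.Icc kA S.Jp).filter (fun k => ¬ u1 ≤ 1 - M.z (k - 1)),
      (M.z k - M.z (k - 1)) ≤ u1 := by
  set U := (Finset.Icc kA S.Jp).filter (fun k => ¬ u1 ≤ 1 - M.z (k - 1)) with hU
  rcases U.eq_empty_or_nonempty with e | e
  · rw [e]; simpa using u0
  have m1 := U.min'_mem e
  set k1 := U.min' e with hk
  obtain ⟨m2, m3⟩ := Finset.mem_filter.1 m1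
  obtain ⟨m4, m5⟩ := Finset.mem_Icc.1 m2
  have sub : U ⊆ Finset.Ioc (k1 - 1) S.Jp := fun k hk' => by
    have a := U.min'_le k hk'
    have b := (Finset.mem_Icc.1 (Finset.mem_filter.1 hk').1).2
    exact Finset.mem_Ioc.2 ⟨by omega, b⟩
  have a := Finset.sum_le_sum_of_subset_of_nonneg sub (f := fun k => M.z k - M.z (k - 1))
    fun k _ _ => sub_nonneg.2 (h.leg.zm (Nat.sub_le k 1))
  rw [sum_lw_25 M (by omega : k1 - 1 ≤ S.Jp)] at a
  linarith [h.leg.z1 S.Jp, not_le.1 m3]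

namespace At

/-- **the spread** -/
theorem spr54 (T0 : ℝ) : ∃ K u0 : ℝ, 1 ≤ K ∧ 0 < u0 ∧ ∀ {S : Sc} {M : Md} {m : ℕ} {a T : ℝ},
    At S M m a T → T ≤ T0 → ∀ {t0 f θ j δ σ lam : ℝ} {P : ℕ},
    Fl54 S M m a T u0 t0 f θ j δ σ lam P →
      (∀ t, f ≤ t → t ≤ T → Pr.GG (lb M S m a T) t ≤
        Pr.GG (lb M S m a T) f + K * ((θ + j + δ + σ) * δ)) ∧
      (∀ t, f ≤ t → t ≤ T → M.b * Pr.GG (lb M S m a T) t ≤
        1 + M.b * (lam + K * ((θ + j + δ + σ) * δ))) ∧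
      (∀ t, f ≤ t → t < T → Pr.Reg48.Gd (lb M S m a T) t ≤ K * (θ + j + δ + σ)) ∧
      (∀ y, K * (θ + j + δ + σ) ≤ y → ∀ t, f ≤ t → t < T →
        y ≤ lvr 1 (lb M S m a T) t - lvr 1 (lh M T) t0 → Pr.Reg48.Gd (lb M S m a T) t ≤ -(y / K)) ∧
      ∀ {la y er dH : ℝ} {i k : ℕ}, 0 ≤ la → K * (θ + j + δ + σ) ≤ y → 0 < y →
        Pr54 S M m a T t0 f la i k y er dH →
        sb M m a (k + 1) - sb M m a (i + 1) ≤
          K * ((lam + (θ + j + δ + σ) * δ + la) / y + √((dH + er) / y)) ∧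
        (sb M m a (k + 1) - sb M m a (i + 1)) ^ 2 ≤
          2 * K ^ 2 * ((lam + (θ + j + δ + σ) * δ + la) ^ 2 / y ^ 2 + (dH + er) / y) := by
  obtain ⟨K, u0, K1, u1, hK⟩ := conc54 T0
  have KK : K ≤ 2 * K ^ 2 := by nlinarith
  refine ⟨2 * K ^ 2, u0, K1.trans KK, u1, fun {S M m a T} A hT t0 f θ j δ σ lam P F => ?_⟩
  have tt := A.okh.2
  obtain ⟨c1, c2, c3⟩ := hK (lb M S m a T) (lh M T) A.okb.1 A.okh.1 (A.okb.2.trans tt.symm)
    (by rw [tt]; exact hT) t0 (by rw [tt]; exact F.t0m) f (sb M m a (P + 1)) θ j δ σ F.f0 F.gd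
    F.θ0 (by rw [tt]; exact F.hp) F.j0 F.f1 F.Ps F.δ0 F.σ0
    (by rw [A.lvb_node F.P0 F.P1]; exact F.Pz) F.zf
  rw [tt] at c1 c2 c3
  set κ := θ + j + δ + σ with hκ
  have κ0 : 0 ≤ κ := by have := F.θ0; have := F.j0; have := F.δ0; have := F.σ0; positivity
  have δ0 := F.δ0
  have l0 := F.l0
  have b0 := A.b_pos
  have b1 : 1 ≤ M.b := (d_mem A.cl (le_refl M.N)).1
  have K0 : 0 < K := by linarith
  have kd : 0 ≤ κ * δ := by positivity
  have g1 : ∀ t, f ≤ t → t ≤ T →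
      M.b * Pr.GG (lb M S m a T) t ≤ 1 + M.b * (lam + K * (κ * δ)) := fun t x y => by
    have := mul_le_mul_of_nonneg_left (c1 t x y) b0.le
    have := le_mul_of_one_le_left l0 b1
    have := F.fl
    nlinarith
  have kk : K * κ ≤ 2 * K ^ 2 * κ := mul_le_mul_of_nonneg_right KK κ0
  refine ⟨fun t x y => (c1 t x y).trans (by linarith [mul_le_mul_of_nonneg_right KK kd]),
    fun t x y => (g1 t x y).trans ?_, fun t x y => (c2 t x y).trans kk,
    fun y hy t x1 x2 x3 => (c3 y (kk.trans hy) t x1 x2 x3).trans ?_,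
    fun {la y er dH i k} la0 hy y0 Q => ?_⟩
  · have := mul_le_mul_of_nonneg_right KK kd
    have := mul_le_mul_of_nonneg_left (add_le_add_left this lam) b0.le
    nlinarith
  · exact neg_le_neg (div_le_div_of_nonneg_left ((mul_nonneg (by positivity) κ0).trans hy) K0 KK)
  have iJ := Q.ik.trans Q.kJ
  have d := A.diff_conc (c := y / K) (g := lam + K * (κ * δ)) Q.jl Q.ik Q.kJ (by positivity)
    (by positivity) la0 Q.e0 (fun s hs => c3 y (kk.trans hy) s (Q.fi.trans hs.1)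
      (hs.2.trans_le (A.sb_mem Q.kJ).2) (Q.yi.trans (by
        rw [← A.lvb_node Q.jl.le iJ]
        exact sub_le_sub_right (Pp.Ode3.lvr_mono A.okb.1.1 hs.1) _)))
    (g1 _ Q.fi (A.sb_mem iJ).2) Q.e1 Q.dH
  have h0 : 0 ≤ dH + er := by linarith [A.cl.leg.Hm Q.ik, Q.dH, Q.e0]
  have mo : 0 ≤ sb M m a (k + 1) - sb M m a (i + 1) :=
    sub_nonneg.2 (A.sb_mono (Nat.succ_le_succ Q.ik))
  set g := lam + κ * δ + la with hg
  have g0 : 0 ≤ g := by positivity
  have s0 := Real.sqrt_nonneg ((dH + er) / y)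
  have w1 : 2 / (y / K) * (lam + K * (κ * δ) + la) ≤ 2 * K ^ 2 * (g / y) := by
    have x : lam + K * (κ * δ) + la ≤ K * g := by
      have := le_mul_of_one_le_left l0 K1
      have := le_mul_of_one_le_left la0 K1
      rw [hg]; nlinarith
    calc 2 / (y / K) * (lam + K * (κ * δ) + la) ≤ 2 / (y / K) * (K * g) :=
          mul_le_mul_of_nonneg_left x (by positivity)
      _ = 2 * K ^ 2 * (g / y) := by field_simp
  have w2 : √(2 / (y / K)) * √(dH + er) ≤ 2 * K ^ 2 * √((dH + er) / y) := by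
    rw [← Real.sqrt_mul (by positivity),
      show 2 / (y / K) * (dH + er) = 2 * K * ((dH + er) / y) by field_simp,
      Real.sqrt_mul (by positivity)]
    refine mul_le_mul_of_nonneg_right ?_ s0
    exact Real.sqrt_le_iff.2 ⟨by positivity, by nlinarith⟩
  have r : sb M m a (k + 1) - sb M m a (i + 1) ≤ 2 * K ^ 2 * (g / y + √((dH + er) / y)) := by
    rw [mul_add]; linarith
  refine ⟨r, (pow_le_pow_left₀ mo r 2).trans ?_⟩
  have q : √((dH + er) / y) ^ 2 = (dH + er) / y := Real.sq_sqrt (by positivity)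
  rw [mul_pow, ← div_pow, ← q]
  have : (g / y + √((dH + er) / y)) ^ 2 ≤ 2 * ((g / y) ^ 2 + √((dH + er) / y) ^ 2) := by
    nlinarith [sq_nonneg (g / y - √((dH + er) / y))]
  have := mul_le_mul_of_nonneg_left this (by positivity : 0 ≤ (2 * K ^ 2) ^ 2)
  rw [q] at this ⊢
  linarith

variable {S : Sc} {M : Md} {m : ℕ} {a T : ℝ}

/-- **the linear branch**: `b G ≤ 1 - μ` between the two nodes, no concavity -/
theorem lin54 (A : At S M m a T) {i k : ℕ} {μ la er dH : ℝ} (h1 : S.jl < i) (h : i ≤ k)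
    (h2 : k ≤ S.Jp) (μ0 : 0 < μ) (hl : M.b * la ≤ μ / 2)
    (hg : ∀ t, sb M m a (i + 1) ≤ t → t ≤ sb M m a (k + 1) →
      M.b * Pr.GG (lb M S m a T) t ≤ 1 - μ)
    (hE : res M S m a T i - res M S m a T k ≤ er + la * (sb M m a (k + 1) - sb M m a (i + 1)))
    (hH : M.H k - M.H i ≤ dH) :
    sb M m a (k + 1) - sb M m a (i + 1) ≤ 2 * (dH + M.b * er) / μ := by
  have mo : sb M m a (i + 1) ≤ sb M m a (k + 1) := A.sb_mono (Nat.succ_le_succ h)
  have b0 := A.b_pos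
  have r := Gam_inc_up A.okb.1 (A.sb_mem (h.trans h2)).1 mo
    (by rw [A.okb.2]; exact (A.sb_mem h2).2) (K := (1 - μ) / M.b)
    fun s hs => by rw [le_div_iff₀ b0, mul_comm]; exact hg s hs.1 hs.2.le
  have e1 := A.Mf_b (h1.trans_le h) h2
  have e2 := A.Mf_b h1 (h.trans h2)
  have rm := rb_mono (M := M) (a := a) A.m_pos h
  have t1 : M.b * M.rb m a i / (m + 1) ≤ M.b * M.rb m a k / (m + 1) :=
    div_le_div_of_nonneg_right (mul_le_mul_of_nonneg_left rm b0.le) (by positivity)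
  have r2 := mul_le_mul_of_nonneg_left r b0.le
  rw [mul_add, ← mul_assoc, mul_div_cancel₀ _ b0.ne'] at r2
  have r3 := mul_le_mul_of_nonneg_left hE b0.le
  have r4 := mul_le_mul_of_nonneg_right hl (sub_nonneg.2 mo)
  change sb M m a (k + 1) - M.b * Pr.Gam _ _ = _ at e1
  change sb M m a (i + 1) - M.b * Pr.Gam _ _ = _ at e2
  rw [le_div_iff₀ μ0]
  nlinarith

/-- marks between two nodes from the residuals of two outer nodes -/
theorem dH54 (A : At S M m a T) {i' i k k' : ℕ} {θ : ℝ} (h1 : S.jl < i') (a1 : i' ≤ i) (a2 : i ≤ k)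
    (a3 : k ≤ k') (h2 : k' ≤ S.Jp) (hθ : ∀ t, M.s i' ≤ t → t ≤ M.s k' → M.e t ≤ θ) :
    M.H k - M.H i ≤ |M.G k'| + |M.G i'| + θ * (M.s k' - M.s i') := by
  have ik : i' ≤ k' := a1.trans (a2.trans a3)
  have mo := A.cl.sm ik
  have x1 := A.cl.leg.Hm a1
  have x2 := A.cl.leg.Hm a3
  have d1 := d_top A.cl h1 (A.jp_le (ik.trans h2))
  have d2 := d_top A.cl (h1.trans_le ik) (A.jp_le h2)
  have b0 := A.b_pos
  have r := Gam_inc_lo A.cl.ok (s_nn A.cl i') mo ((A.cl.sm h2).trans (s_tt A.cl))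
    (K := (1 - θ) / M.b) fun s hs => by
      have := hθ s hs.1 hs.2.le
      rw [div_le_iff₀ b0]
      unfold Md.e at this
      linarith
  have r2 := mul_le_mul_of_nonneg_left r b0.le
  rw [mul_add, ← mul_assoc, mul_div_cancel₀ _ b0.ne'] at r2
  have g1 := le_abs_self (M.G k')
  have g2 := neg_abs_le (M.G i')
  unfold Md.G Md.q at g1 g2
  unfold Md.G Md.q
  rw [d1] at g2 ⊢
  rw [d2] at g1 ⊢
  nlinarith

/-- **the sum**: every node is squeezed between the middle node `μ` and a node `i` -/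
theorem spr_sum (A : At S M m a T) {kA μ : ℕ} {u1 : ℝ} {r : ℕ → ℝ} (hA : 1 ≤ kA) (hμ : μ ≤ S.Jp)
    (u0 : 0 ≤ u1) (hr : ∀ k, kA ≤ k → k ≤ S.Jp → u1 ≤ 1 - M.z (k - 1) → ∃ i,
      (i ≤ k ∧ k ≤ μ ∧ (sb M m a (μ + 1) - sb M m a (i + 1)) ^ 2 ≤ r k) ∨
      (μ ≤ k ∧ k ≤ i ∧ (sb M m a (i + 1) - sb M m a (μ + 1)) ^ 2 ≤ r k)) :
    ∑ k ∈ Finset.Icc kA S.Jp, (M.z k - M.z (k - 1)) * (sb M m a (k + 1) - sb M m a (μ + 1)) ^ 2 ≤
      ∑ k ∈ (Finset.Icc kA S.Jp).filter (fun k => u1 ≤ 1 - M.z (k - 1)),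
        (M.z k - M.z (k - 1)) * r k + u1 * T ^ 2 := by
  rw [← Finset.sum_filter_add_sum_filter_not (Finset.Icc kA S.Jp)
    (fun k => u1 ≤ 1 - M.z (k - 1))]
  have dx : ∀ k, 0 ≤ M.z k - M.z (k - 1) := fun k => sub_nonneg.2 (A.cl.leg.zm (Nat.sub_le k 1))
  refine add_le_add (Finset.sum_le_sum fun k hk => ?_) ?_
  · obtain ⟨h1, h2⟩ := Finset.mem_filter.1 hk
    obtain ⟨h3, h4⟩ := Finset.mem_Icc.1 h1
    refine mul_le_mul_of_nonneg_left ?_ (dx k)
    obtain ⟨i, ⟨a1, a2, a3⟩ | ⟨a1, a2, a3⟩⟩ := hr k h3 h4 h2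
    · have x1 := A.sb_mono (Nat.succ_le_succ a1)
      have x2 := A.sb_mono (Nat.succ_le_succ a2)
      refine le_trans (sq_le_sq' ?_ ?_) a3 <;> simp only [Nat.succ_eq_add_one] at x1 x2 <;> linarith
    · have x1 := A.sb_mono (Nat.succ_le_succ a1)
      have x2 := A.sb_mono (Nat.succ_le_succ a2)
      refine le_trans (sq_le_sq' ?_ ?_) a3 <;> simp only [Nat.succ_eq_add_one] at x1 x2 <;> linarith
  · refine le_trans (Finset.sum_le_sum (g := fun k => (M.z k - M.z (k - 1)) * T ^ 2)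
      fun k hk => ?_) ?_
    · have h4 := (Finset.mem_Icc.1 (Finset.mem_filter.1 hk).1).2
      have x1 := A.sb_mem h4
      have x2 := A.sb_mem hμ
      exact mul_le_mul_of_nonneg_left
        (sq_le_sq' (by linarith [x1.1, x2.2]) (by linarith [x1.2, x2.1])) (dx k)
    · rw [← Finset.sum_mul]
      exact mul_le_mul_of_nonneg_right (sum_du54 A.cl hA u0) (sq_nonneg T)

end At

end Crest.Agent.T156.Alt.Mp9
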