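import Crest.Agent.T156.TkC_20

/-!
# Row 156, block (L): one-sided passes up to the upper end of a window (helper53)
-/

set_option autoImplicit false

noncomputable section

namespace Crest.Agent.T156.Rig

open Set Real

namespace Tk

variable {S : Finset ℝ} {a b : ℝ} {W ω ν u : ℝ → ℝ} {gp : ℝ → ℝ → Prop}
  {b₀ b₁ p₀ d D err C₁ δ : ℝ}

/-- **one-sided maximum principle** -/
theorem one53 (h : Tk S a b W ω ν u gp b₀ b₁ p₀ d D err C₁ δ) {a' b' Γ q X : ℝ} (ha : a ≤ a')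
    (hb : b' ≤ b) (hs : Sh a b gp a' b' Γ) (hΓ : b₁ * Γ ^ 2 ≤ 4 * d) (q0 : 0 ≤ q)
    (hq : D * p₀ ≤ 2 * b₀ * q) (hX : eP b₁ p₀ D err C₁ δ Γ + q ≤ X) (h1 : W a' ≤ X)
    (h2 : W b' ≤ X) : ∀ t ∈ Icc a' b', W t ≤ X := by
  intro t ht
  have := ((h.pc.mono ha hb (Finset.Subset.refl S)).sub_const X).maxp (by linarith) (by linarith)
    (fun x hx hS hW => ?_) t ht
  · linarith
  have hu := h.up ha hb hs hΓ (Ioo_subset_Icc_self hx)
  obtain ⟨β, β1, -, β3⟩ := h.rel x ⟨ha.trans_lt hx.1, hx.2.trans_le hb⟩ hS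
  have hD : 0 < D := h.d0.trans_le h.dD
  have hpos : 0 < u x := by
    by_contra hn
    rw [max_eq_right (not_lt.1 hn)] at hu
    linarith
  rw [max_eq_left hpos.le] at hu
  have h5 := (abs_le.1 β3).1
  have h6 : q ≤ D * u x := by linarith
  have h7 : D * p₀ ≤ D * (2 * b₀ * u x) := by
    nlinarith [mul_le_mul_of_nonneg_left h6 h.b0]
  have h8 := le_of_mul_le_mul_left h7 hD
  have h9 : b₀ * u x ≤ β * u x := mul_le_mul_of_nonneg_right β1 hpos.le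
  linarith

/-- **labels**, one-sided -/
theorem lab53 (h : Tk S a b W ω ν u gp b₀ b₁ p₀ d D err C₁ δ) {a' b' Γ B : ℝ}
    (ha : a ≤ a') (hb : b' ≤ b) (hΓ : 0 ≤ Γ) (hs : Sh a b gp a' b' Γ) (B0 : 0 ≤ B + err)
    (hW : ∀ t ∈ Icc a' b', W t ≤ B) {t : ℝ} (ht : t ∈ Icc (a' + Γ) b') :
    u t ≤ C₁ * Γ + δ + (B + err) / d := by
  have ht1 : a' ≤ t := by linarith [ht.1]
  obtain ⟨s, s', hg, h1, h2, h3, h4⟩ := h.cov t ⟨ha.trans ht1, ht.2.trans hb⟩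
  have hss : s ≤ s' := h2.trans h3
  have hl := hs s s' hg h1 hss h4 (h2.trans ht.2) (ht1.trans h3)
  have ho := h.osc s s' hg h1 hss h4 t ⟨h2, h3⟩ s ⟨le_rfl, hss⟩
  have ho' := mul_le_mul_of_nonneg_left hl h.C0
  obtain ⟨m, m1, -, m3⟩ := h.eL s s' hg h1 hss h4
  have hw := hW s ⟨by linarith [ht.1], h2.trans ht.2⟩
  have hm : m * u s ≤ B + err := by linarith [(abs_le.1 m3).1]
  have hus : u s ≤ (B + err) / d := by
    rw [le_div_iff₀ h.d0]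
    rcases le_total (u s) 0 with c | c
    · nlinarith [h.d0]
    · nlinarith [mul_le_mul_of_nonneg_right m1 c]
  linarith [(abs_le.1 ho).2]

/-- the slope from an upper bound of the labels -/
theorem slo53 (h : Tk S a b W ω ν u gp b₀ b₁ p₀ d D err C₁ δ) {x t U : ℝ} (ha : a ≤ x)
    (hxt : x ≤ t) (hb : t ≤ b) (U0 : 0 ≤ U) (hu : ∀ s ∈ Icc x t, u s ≤ U) :
    ω t ≤ ω x + (2 * b₁ * U + p₀) * (t - x) := by
  have := le_off S (f := fun s => (2 * b₁ * U + p₀) * s - ω s) hxt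
    ((continuousOn_const.mul continuousOn_id).sub (h.pc.cω.mono (Icc_subset_Icc ha hb)))
    fun s hs hS => by
      have hs' : s ∈ Ioo a b := ⟨ha.trans_lt hs.1, hs.2.trans_le hb⟩
      refine ⟨_, (((hasDerivAt_id s).const_mul (2 * b₁ * U + p₀)).sub (h.pc.dω s hs' hS)), ?_⟩
      obtain ⟨β, β1, β2, β3⟩ := h.rel s hs' hS
      have β0 : 0 ≤ β := h.b0.trans β1
      have c1 : β * u s ≤ β * U := mul_le_mul_of_nonneg_left (hu s (Ioo_subset_Icc_self hs)) β0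
      have c2 : β * U ≤ b₁ * U := mul_le_mul_of_nonneg_right β2 U0
      linarith [(abs_le.1 β3).2]
  linarith

/-- **the upper side of the last part of the window** from the value at the upper end -/
theorem side53 (h : Tk S a b W ω ν u gp b₀ b₁ p₀ d D err C₁ δ) {P r Γ N Z Bb : ℝ} (P1 : 1 ≤ P)
    (r0 : 0 < r) (hd : r ^ 2 ≤ P * d) (hD : D ≤ P * r ^ 2) (hb1 : b₁ ≤ P) (hC : C₁ ≤ P)
    (hb0 : 1 ≤ b₀ * P) (Γ0 : 0 ≤ Γ) (hΓ : P * Γ ≤ r) (hs : Sh a b gp a b Γ) (N1 : 1 ≤ N)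
    (hR : ∀ t ∈ Icc a b, |u t| ≤ 1) (he : 0 ≤ err) (hl : 4 * (N * P * r) ≤ b - a)
    (hZ : P * Γ + δ + p₀ + 1 * exp (-N) + err / r ^ 2 ≤ Z) (B0 : 0 ≤ Bb) (hB : W b ≤ r ^ 2 * Bb) :
    ∀ t ∈ Icc (b - 2 * (N * P * r)) b, W t ≤ r ^ 2 * (5 * P ^ 2 * Z + Bb) ∧
      u t ≤ 7 * P ^ 3 * Z + P * Bb ∧ ω t ≤ 48 * N * P ^ 5 * r * (Z + Bb) := by
  have P0 : 0 < P := by linarith
  have r2 : 0 < r ^ 2 := by positivity
  have d0 := h.d0
  have D0 : 0 ≤ D := d0.le.trans h.dD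
  have δ0 := h.δ0
  have p0 := h.p0
  have b10 := h.b1
  have C0 := h.C0
  have x0 : 0 ≤ 1 * exp (-N) := by positivity
  have x1 : 0 ≤ err / r ^ 2 := by positivity
  have x2 : 0 ≤ P * Γ := by positivity
  have Z0 : 0 ≤ Z := by linarith
  have NP : 1 ≤ N * P := one_le_mul_of_one_le_of_one_le N1 P1
  have l1 : r ≤ N * P * r := le_mul_of_one_le_left r0.le NP
  have Γr : Γ ≤ r := (le_mul_of_one_le_left Γ0 P1).trans hΓ
  have hab : a ≤ b := by linarith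
  obtain ⟨w1, -, w3⟩ := h.one_20 P1 r0 hd hD hb1 hC hb0 Γ0 hΓ hs (by linarith) hR he hab hZ
  have e1 : err ≤ r ^ 2 * Z := by
    have : err / r ^ 2 ≤ Z := by linarith
    rwa [div_le_iff₀' r2] at this
  have PP : P ≤ P ^ 2 := le_self_pow₀ P1 two_ne_zero
  have P2 : 1 ≤ P ^ 2 := P1.trans PP
  have g1 : P ^ 2 * Γ ^ 2 ≤ r ^ 2 := by rw [← mul_pow]; exact pow_le_pow_left₀ x2 hΓ 2
  have g2 : b₁ * Γ ^ 2 ≤ 4 * d := by
    have a1 : P * (b₁ * Γ ^ 2) ≤ P * d := by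
      have := mul_le_mul_of_nonneg_right hb1 (mul_nonneg P0.le (sq_nonneg Γ))
      linarith only [this, g1, hd]
    have := le_of_mul_le_mul_left a1 P0
    linarith
  have o1 : C₁ * Γ + δ ≤ Z := by linarith [mul_le_mul_of_nonneg_right hC Γ0]
  have o0 : 0 ≤ C₁ * Γ + δ := by positivity
  have rZ : 0 ≤ r ^ 2 * Z := by positivity
  have a7 : r ^ 2 * Z ≤ P ^ 2 * r ^ 2 * Z := by
    rw [mul_assoc]; exact le_mul_of_one_le_left rZ P2
  have E : eP b₁ p₀ D err C₁ δ Γ + P ^ 2 * r ^ 2 * p₀ ≤ 5 * P ^ 2 * r ^ 2 * Z := by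
    have a1 : D * (C₁ * Γ + δ) ≤ P ^ 2 * r ^ 2 * (P * Γ + δ) :=
      mul_le_mul (hD.trans (mul_le_mul_of_nonneg_right PP r2.le))
        (by linarith [mul_le_mul_of_nonneg_right hC Γ0]) o0 (by positivity)
    have a2 : Γ ^ 2 * b₁ ≤ r ^ 2 := by
      have := mul_le_mul_of_nonneg_left (hb1.trans PP) (sq_nonneg Γ)
      linarith
    have a3 : Γ ^ 2 ≤ r ^ 2 := pow_le_pow_left₀ Γ0 Γr 2
    have a4 : Γ ^ 2 * b₁ * (C₁ * Γ + δ) ≤ r ^ 2 * Z := mul_le_mul a2 o1 o0 r2.le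
    have a5 : Γ ^ 2 * p₀ ≤ r ^ 2 * Z := mul_le_mul a3 (by linarith) p0 r2.le
    have a8 : P ^ 2 * r ^ 2 * (P * Γ + δ + p₀) ≤ P ^ 2 * r ^ 2 * Z :=
      mul_le_mul_of_nonneg_left (by linarith) (by positivity)
    have b2 : 0 ≤ Γ ^ 2 * p₀ := by positivity
    unfold eP
    linarith only [a1, a4, a5, a7, a8, e1, rZ, b2]
  have rB : 0 ≤ r ^ 2 * Bb := by positivity
  have s1 : Sh a b gp (a + N * P * r) b Γ := fun s s' hg h1 h2 h3 _ _ =>
    hs s s' hg h1 h2 h3 (h2.trans h3) (h1.trans h2)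
  have q1 : D * p₀ ≤ 2 * b₀ * (P ^ 2 * r ^ 2 * p₀) := by
    have a1 : D * p₀ ≤ P * r ^ 2 * p₀ := mul_le_mul_of_nonneg_right hD p0
    have a2 : 1 * (P * r ^ 2 * p₀) ≤ b₀ * P * (P * r ^ 2 * p₀) :=
      mul_le_mul_of_nonneg_right hb0 (by positivity)
    have a3 : 0 ≤ P * r ^ 2 * p₀ := by positivity
    linarith only [a1, a2, a3]
  have m1 := h.one53 (a' := a + N * P * r) (b' := b) (X := r ^ 2 * (5 * P ^ 2 * Z + Bb))
    (by linarith) le_rfl s1 g2 (by positivity) q1 (by linarith only [E, rB])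
    (by linarith only [(abs_le.1 (w1 (a + N * P * r) ⟨le_rfl, by linarith⟩)).2, rB])
    (by linarith only [hB, a7, rZ])
  have m2 : ∀ t ∈ Icc (b - 2 * (N * P * r)) b, u t ≤ 7 * P ^ 3 * Z + P * Bb := fun t ht => by
    refine (h.lab53 (by linarith) le_rfl Γ0 s1 (by positivity) m1
      (t := t) ⟨by linarith [ht.1], ht.2⟩).trans ?_
    have a1 : (r ^ 2 * (5 * P ^ 2 * Z + Bb) + err) / d ≤ 6 * P ^ 3 * Z + P * Bb := by
      rw [div_le_iff₀ d0]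
      have a3 := mul_le_mul_of_nonneg_left hd (by positivity : 0 ≤ 6 * P ^ 2 * Z + Bb)
      linarith only [a7, a3, e1]
    have a4 : Z ≤ P ^ 3 * Z := le_mul_of_one_le_left Z0 (one_le_pow₀ P1)
    linarith
  intro t ht
  refine ⟨m1 t ⟨by linarith [ht.1], ht.2⟩, m2 t ht, ?_⟩
  have c1 := h.slo53 (x := b - 2 * (N * P * r)) (by linarith) ht.1 ht.2 (by positivity)
    fun s hs => m2 s ⟨hs.1, hs.2.trans ht.2⟩
  have c2 := (abs_le.1 (w3 (b - 2 * (N * P * r)) ⟨by linarith, by linarith⟩)).2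
  have P4 : P ^ 2 ≤ P ^ 4 := pow_le_pow_right₀ P1 (by norm_num)
  have c3 : 2 * b₁ * (7 * P ^ 3 * Z + P * Bb) + p₀ ≤ 15 * P ^ 4 * (Z + Bb) := by
    have a1 := mul_le_mul_of_nonneg_right hb1 (by positivity : 0 ≤ 7 * P ^ 3 * Z + P * Bb)
    have a2 := mul_le_mul_of_nonneg_right P4 B0
    have a3 : Z ≤ P ^ 4 * Z := le_mul_of_one_le_left Z0 (one_le_pow₀ P1)
    have a4 : 0 ≤ P ^ 4 * Bb := by positivity
    nlinarith
  have c4 : (2 * b₁ * (7 * P ^ 3 * Z + P * Bb) + p₀) * (t - (b - 2 * (N * P * r))) ≤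
      15 * P ^ 4 * (Z + Bb) * (2 * (N * P * r)) :=
    mul_le_mul c3 (by linarith [ht.2]) (by linarith [ht.1]) (by positivity)
  have c5 : P ^ 4 * r * Z ≤ N * P * (P ^ 4 * r * (Z + Bb)) :=
    (mul_le_mul_of_nonneg_left (by linarith) (by positivity)).trans
      (le_mul_of_one_le_left (by positivity) NP)
  linarith only [c1, c2, c4, c5]

end Tk

end Crest.Agent.T156.Rig

namespace Crest.Agent.T156.Alt.Mp9

open MeasureTheory Set Real
open Crest.Agent.T156.Pp.Area50 Crest.Agent.T156.Spl27 Crest.Agent.T156.Zb9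

/-- **both sides of the last part of a window of good nodes** -/
theorem Nw.side53 (T0 : ℝ) : ∃ K : ℝ, 1 ≤ K ∧ ∀ {S : Sc} {M : Md} {m : ℕ} {a T : ℝ}
    {Gn : ℕ → Prop} {u v : ℕ} {a' b' δ θ e o lam g : ℝ} {c : ℕ → ℝ},
    Nw S M m a T Gn u v a' b' δ θ e o lam g c →
    T ≤ T0 → ∀ {P r N Γ j F : ℝ}, Nk K T0 S m a' b' δ θ e o lam g P r N Γ j F →
    (∀ i k, Nx Gn u v i k → sb M m a (k + 1) - sb M m a (i + 1) ≤ Γ) →
    (∀ t ∈ Icc (sb M m a (u + 1)) (sb M m a (v + 1)), Rig.Hp (lh M T) (lb M S m a T) t ≤ j) →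
    sb M m a (v + 1) - sb M m a (u + 1) ≤ 14 * N * P * r →
    4 * (N * P * r) ≤ sb M m a (v + 1) - sb M m a (u + 1) → ∀ B, 0 ≤ B →
    ∀ t ∈ Icc (sb M m a (v + 1) - 2 * (N * P * r)) (sb M m a (v + 1)),
      (uu M S m a T (sb M m a (v + 1)) ≤ B → uu M S m a T t ≤ 8 * P ^ 7 * (F + Γ + B) ∧
        Rig.muf M.b (lb M S m a T) t - Rig.muf M.b (lh M T) t ≤ 96 * N * P ^ 9 * r * (F + Γ + B)) ∧
      (-B ≤ uu M S m a T (sb M m a (v + 1)) → -(8 * P ^ 7 * (F + Γ + B)) ≤ uu M S m a T t ∧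
        -(96 * N * P ^ 9 * r * (F + Γ + B)) ≤
          Rig.muf M.b (lb M S m a T) t - Rig.muf M.b (lh M T) t) := by
  obtain ⟨K0, K01, H0⟩ := Nw.tk T0
  obtain ⟨K1, K11, H1⟩ := gd_le T0
  refine ⟨K0 * K1, one_le_mul_of_one_le_of_one_le K01 K11,
    fun {S M m a T Gn u v a' b' δ θ e o lam g c} W hT {P r N Γ j F} h hΓ hp hW hW' B B0 t ht => ?_⟩
  have A := W.at'
  have C1 := A.cl.C1
  have C0 := A.c_pos
  have v0 := v_pos A.cl
  have P1 := h.P1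
  have P0 : 0 < P := by linarith
  have P1' : 1 ≤ P := by linarith
  have r0 := h.r0
  have r2 : 0 < r ^ 2 := by positivity
  have uv := A.sb_mono (Nat.succ_le_succ W.uv)
  have j0 : 0 ≤ j := (Hp_nn A _).trans (hp _ ⟨le_rfl, uv⟩)
  have C3 : S.C ≤ S.C ^ 3 := le_self_pow₀ C1 (by norm_num)
  have C2 : S.C ^ 2 ≤ S.C ^ 3 := pow_le_pow_right₀ C1 (by norm_num)
  have PC := h.PC
  have P3 : P ≤ P ^ 3 := le_self_pow₀ P1' (by norm_num)
  have k0 : K0 * S.C ≤ P := le_trans (by gcongr; exact le_mul_of_one_le_right (by linarith) K11) h.PK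
  have k1 : K1 ≤ P := ((le_mul_of_one_le_left (by linarith) K01).trans
    (le_mul_of_one_le_right (by positivity) C1)).trans h.PK
  have o0 := W.o0
  have l0 := W.lam0
  have Γ0 := h.Γ0
  have N1 := h.N1
  have hQ : ∀ k, u ≤ k → k ≤ v → |L0.Gd (lb M S m a T) (sb M m a (k + 1))| ≤
      P * r + P * j + 2 * |uu M S m a T (sb M m a (k + 1))| := fun k p q => by
    have a1 := H1 A hT W.a0 W.b1 (W.mb p q)
    have a2 : S.ms b' / a' ≤ 16 * r := by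
      rw [div_le_iff₀ W.a0]
      linarith [h.rb, mul_le_mul_of_nonneg_left h.ra r0.le]
    have a3 := mul_le_mul_of_nonneg_left a2 C0.le
    have a4 := mul_le_mul_of_nonneg_right (show 16 * S.C ≤ P by linarith) r0.le
    have a5 := mul_le_mul k1 (hp _ ⟨A.sb_mono (Nat.succ_le_succ p), A.sb_mono (Nat.succ_le_succ q)⟩)
      (Hp_nn A _) P0.le
    linarith
  obtain ⟨c0, hc⟩ := W.anchor hΓ hQ hW
  have Γr : P * Γ ≤ r :=
    (mul_le_mul_of_nonneg_right (le_self_pow₀ P1' (by norm_num)) Γ0).trans h.Γr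
  have Γr' : Γ ≤ r := (le_mul_of_one_le_left Γ0 P1').trans Γr
  have l1 : N * (lam * Γ) ≤ r := (le_mul_of_one_le_left (by positivity) (P1'.trans P3)).trans h.l1
  have l2 : P ^ 3 * (lam * Γ ^ 2) ≤ r ^ 2 := by
    have : P ^ 3 * (lam * Γ) ≤ r :=
      (mul_le_mul_of_nonneg_left (le_mul_of_one_le_left (by positivity) N1) (by positivity)).trans h.l1
    have := mul_le_mul this Γr' Γ0 r0.le
    linarith
  have om : S.C * (6 * o + 2 * (lam * Γ ^ 2)) ≤ S.ms a' / (2 * S.C ^ 2) := by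
    rw [← h.r2, le_div_iff₀ (by positivity)]
    have a1 := mul_le_mul_of_nonneg_right (PC.trans P3) o0
    have a2 := mul_le_mul_of_nonneg_right (PC.trans P3) (by positivity : 0 ≤ lam * Γ ^ 2)
    linarith [h.o1]
  have tk := H0 W hT (by have := W.e0; positivity) (by positivity) om hc hp
  have θ1 : θ ≤ 1 := (le_mul_of_one_le_left W.θ0 (P1'.trans P3)).trans h.θ1
  have bb := A.ms_pos (W.a0.le.trans ((W.mb le_rfl W.uv).1.trans (W.mb le_rfl W.uv).2))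
  have g0 : 0 ≤ g := (abs_nonneg _).trans (W.hg u le_rfl W.uv W.gu)
  have hd : r ^ 2 ≤ P * (S.ms a' / (2 * S.C ^ 2)) := by
    rw [← h.r2, ← mul_div_assoc, le_div_iff₀ (by positivity)]
    linarith [mul_le_mul_of_nonneg_right (show 2 * S.C ^ 2 ≤ P by linarith) r2.le]
  have hD : 2 * (S.C ^ 2 * S.ms b') ≤ P * r ^ 2 := by
    linarith [mul_le_mul_of_nonneg_left h.rb (sq_nonneg S.C),
      mul_le_mul_of_nonneg_right (show 32 * S.C ^ 2 ≤ P by linarith) r2.le]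
  have hZ := Z_le (w := 1 / ((m : ℝ) + 1)) C1 P1 PC k0 r0 h.rb N1 Γ0 o0
    ((le_mul_of_one_le_left o0 (P1'.trans P3)).trans h.o1) l0 l1 v0.le h.vr j0 h.jF h.δF h.vF
    h.eF h.gF (by positivity) h.mF h.oF h.NF rfl
  rw [mul_one_div] at hZ
  generalize hE : errW S m b' (e + 2 * o * (P * r + P * j) + o * (14 * N * P * r) +
    (o + lam * Γ ^ 2) * (S.C * (14 * N * P * r) + S.C * S.v)) g = er at tk
  have er0 : 0 ≤ er := by rw [← hE]; have := W.e0; unfold errW; positivity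
  have hZ' : P * Γ + (δ + S.C * S.v) + K0 * S.C * j + 1 * exp (-N) + er / r ^ 2 ≤
      P ^ 4 * (F + Γ) := by rw [← hE]; unfold errW; exact hZ
  have F0 : 0 ≤ F := j0.trans h.jF
  have e1 : er ≤ r ^ 2 * (P ^ 4 * (F + Γ)) := by
    have := W.δ0
    have x : er / r ^ 2 ≤ P ^ 4 * (F + Γ) := by
      have : 0 ≤ P * Γ + (δ + S.C * S.v) + K0 * S.C * j + 1 * exp (-N) := by positivity
      linarith
    rwa [div_le_iff₀' r2] at x
  obtain ⟨μ, μ1, μ2, μ3⟩ := tk.eR _ _ ⟨v, v, ⟨W.uv, le_rfl, le_rfl, W.gv, W.gv,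
    fun k p q => absurd p (not_lt.2 q.le)⟩, rfl, rfl⟩ uv le_rfl le_rfl
  have μ0 : 0 ≤ μ := tk.d0.le.trans μ1
  have μB : μ * B ≤ P * r ^ 2 * B := mul_le_mul_of_nonneg_right (μ2.trans hD) B0
  have Z0 : 0 ≤ P ^ 4 * (F + Γ) := by positivity
  have n1 : 7 * P ^ 3 * (P ^ 4 * (F + Γ)) + P * (P * B + P ^ 4 * (F + Γ)) ≤
      8 * P ^ 7 * (F + Γ + B) := by
    have a1 : P ^ 2 * B ≤ P ^ 7 * B :=
      mul_le_mul_of_nonneg_right (pow_le_pow_right₀ P1' (by norm_num)) B0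
    have a2 : P ^ 5 * (F + Γ) ≤ P ^ 7 * (F + Γ) :=
      mul_le_mul_of_nonneg_right (pow_le_pow_right₀ P1' (by norm_num)) (by positivity)
    have a3 : 0 ≤ P ^ 7 * B := by positivity
    linarith only [a1, a2, a3]
  have n2 : 48 * N * P ^ 5 * r * (P ^ 4 * (F + Γ) + (P * B + P ^ 4 * (F + Γ))) ≤
      96 * N * P ^ 9 * r * (F + Γ + B) := by
    have a1 : P * B ≤ P ^ 4 * B :=
      mul_le_mul_of_nonneg_right (le_self_pow₀ P1' (by norm_num)) B0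
    have a2 : P ^ 4 * (F + Γ) + (P * B + P ^ 4 * (F + Γ)) ≤ 2 * P ^ 4 * (F + Γ + B) := by
      have : 0 ≤ P ^ 4 * B := by positivity
      linarith only [a1, this]
    have := mul_le_mul_of_nonneg_left a2 (by positivity : 0 ≤ 48 * N * P ^ 5 * r)
    linarith only [this]
  refine ⟨fun hu => ?_, fun hu => ?_⟩
  · obtain ⟨-, y2, y3⟩ := tk.side53 (Bb := P * B + P ^ 4 * (F + Γ)) P1' r0 hd hD (by linarith)
      (by linarith) h.PT Γ0 Γr (Wd.sh hΓ) N1 (fun t _ => A.abs_uu_one t) er0 hW' hZ'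
      (by positivity) (by
        have := mul_le_mul_of_nonneg_left hu μ0
        linarith only [this, μB, e1, (abs_le.1 μ3).2]) t ht
    exact ⟨y2.trans n1, y3.trans n2⟩
  · obtain ⟨-, y2, y3⟩ := tk.neg.side53 (Bb := P * B + P ^ 4 * (F + Γ)) P1' r0 hd hD (by linarith)
      (by linarith) h.PT Γ0 Γr (Wd.sh hΓ) N1 (fun t _ => by rw [abs_neg]; exact A.abs_uu_one t)
      er0 hW' hZ' (by positivity) (by
        have := mul_le_mul_of_nonneg_left hu μ0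
        linarith only [this, μB, e1, (abs_le.1 μ3).1]) t ht
    exact ⟨by linarith only [y2, n1], by linarith only [y3, n2]⟩

end Crest.Agent.T156.Alt.Mp9

end
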