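import Crest.Agent.T156.TLqR_20
import Crest.Agent.T156.TLt_5
import Crest.Agent.T156.Cvx_25

/-!
# Row 156, block (L): the set-up of the last window, proof (helper20)
-/

set_option autoImplicit false

noncomputable section

namespace Crest.Agent.T156.Alt.L63.T20

open MeasureTheory Real Finset
open Crest.Agent.T156.Alt.L69 Crest.Agent.T156.Alt.Mp9 Crest.Agent.T156.Alt.Ap63
open Crest.Agent.R164.GC Crest.Agent.R339.B Crest.Agent.R339.Var Crest.Agent.T157.Pf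

variable {S : Sc} {M : Md} {m : ℕ} {a : ℝ}
  {K E L G1 u1 u2 j γ Lc ηc τ l0 l X Xp Vt Lg Lp X2 X3 X4 G0 N t1 ℓ En p0 aa g' R2 V0 : ℝ}
  {η g : ℝ → ℝ}

/-- numbers of the linear regime -/
structure Qn (L : ℝ) (S : Sc) (M : Md) (m : ℕ) (a l X Lg X2 j γ : ℝ) (η : ℝ → ℝ) (aa g' : ℝ) :
    Prop where
  F : Fb L S M m a l X Lg X2 η
  lJ : 1000 * l ≤ M.s S.J
  a0 : 0 < aa
  j0 : 0 ≤ j
  γ0 : 0 ≤ γ
  g0 : 0 ≤ g'
  th : 1000 * √S.θ ≤ M.s S.J
  sm : L ^ 67 * (aa + j + bs S Lg X2 g' η (M.s S.J) + γ) ≤ √S.θ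
  gb : g' ≤ bs S Lg X2 g' η (M.s S.J)
  nb : 1 / (S.n : ℝ) ≤ bs S Lg X2 g' η (M.s S.J)
  Xa : L ^ 67 * (X ^ ((1 : ℝ) / 3) / Lg) ≤ aa
  X0 : 0 ≤ X ^ ((1 : ℝ) / 3) / Lg
  va : L ^ 67 * S.v ≤ aa
  hp : ∀ t ∈ Set.Icc 0 (2 * S.C), Hq S M m a t ≤ qJ L S j γ
  g1 : ∀ k, k < S.J → M.s S.J / 2 ≤ M.s k → M.s k + aa / 8 ≤ M.s S.J → |M.G k| ≤ g'

theorem qn (h : Cl S M) (hm : S.In m a) (G : Rg K E L S)
    (H : Hy E S M m a G1 u1 u2 j γ Lc ηc τ l0 l X Xp Vt Lg Lp X2 X3 X4 G0 η N g t1 (M.s S.J) ℓ En p0)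
    (Q : LQ E S M X Xp Vt Lg Lp X2 G0 u1 u2 j γ η aa g' R2) :
    Qn L S M m a l X Lg X2 j γ η aa g' := by
  have F := fb h hm G H.ln H.lt.F1 H.lt.ml H.lt.lX H.ap.all
  have A := F.at'
  have L1 := G.L1
  have L1' : 1 ≤ L := by linarith
  have LE := G.LE
  have LL : L ≤ L ^ 67 := le_self_pow₀ L1' (by norm_num)
  have E3 : 1000 ≤ E := by linarith
  have C1 := h.C1
  have C0 := h.C0
  have n0 := h.N0
  have v0 := h.v0
  have l0' := F.l0
  have dv : ∀ c x y, c ≤ E → 0 ≤ x → E * x ≤ y → c * x ≤ y := fun c x y p q r =>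
    (mul_le_mul_of_nonneg_right p q).trans r
  have sJ : M.s S.J ≤ S.C := h.s_le_C h.i3
  have lJ : 1000 * l ≤ M.s S.J := by
    linarith [dv 1000 _ _ E3 (by linarith [H.lt.t1a]) H.lt.t1b, H.lt.t1a]
  have q0 := sqrt_nonneg S.θ
  have t1' := dv _ _ _ LE q0 H.lt.ℓ1
  have t2 := dv 1000 _ _ E3 q0 H.lt.ℓ1
  have t3 := dv 1 _ _ (by linarith) (by linarith) H.lt.ℓ2
  have t4 := dv L _ _ (by linarith) (by linarith) H.lt.ℓ2
  have Lg0 : 0 < Lg := lt_of_lt_of_le (by positivity) F.Lg1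
  have R0 : 0 < X ^ ((1 : ℝ) / 3) := rpow_pos_of_pos H.ln.X0 _
  have a0 : 0 < aa := (pos_iff_pos_of_mul_pos ((mul_pos (by linarith) R0).trans_le Q.a1)).1 Lg0
  have γ0 : 0 ≤ γ := (sub_nonneg.2 (h.sm h.i3)).trans H.lp.γ0
  have j0 : 0 ≤ j := le_trans (by positivity) H.ap.j0
  have g0 := Q.g0
  have m1 := h.ms_pos (h.s_nn S.J)
  have ηn := F.ηn (M.s S.J) (by linarith) sJ
  have n1 : 0 < 1 / (S.n : ℝ) := by positivity
  have b1 : η (M.s S.J) + g' ≤ bs S Lg X2 g' η (M.s S.J) := by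
    have X0 := F.X2
    rw [bs, mf, F.F1, div_one]
    exact (le_div_self (by linarith) m1 ((h.ms1 _).trans F.θ1)).trans
      (le_add_of_nonneg_right (by positivity))
  have η2 := F.ηn (M.s S.J / 2) (by linarith) (by linarith)
  have θ0 := h.θ0
  refine ⟨F, lJ, a0, j0, γ0, g0, by linarith, dv _ _ _ LE (by linarith) Q.sm, by linarith,
    by linarith, ?_, by positivity, ?_, fun t ht => ?_, fun k k1 k2 k3 => Q.g1 k ?_ k1 k2 k3⟩
  · rw [← mul_div_assoc, div_le_iff₀' Lg0]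
    exact dv _ _ _ LE R0.le Q.a1
  · have b2 := dv _ _ _ LE (by linarith) Q.a2
    have b3 := mul_le_mul_of_nonneg_left (G.vn.trans η2) (by positivity : 0 ≤ L ^ 67)
    linarith [mul_le_mul_of_nonneg_right F.θ1 a0.le]
  · have C3 : S.C ^ 2 ≤ S.C ^ 3 := pow_le_pow_right₀ C1 (by norm_num)
    have LC := G.LC
    have b2 : S.θ ≤ √S.θ := Real.le_sqrt_of_sq_le (by nlinarith [F.θ1])
    have b3 : S.C * S.θ ≤ 1 / 2 := by
      have e1 : L * √S.θ ≤ ℓ := dv _ _ _ (by linarith) q0 H.lt.ℓ1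
      have e2 := mul_le_mul_of_nonneg_left e1 (by linarith : 0 ≤ L)
      have e3 : 2 * S.C ^ 2 ≤ L * L := by nlinarith
      have e4 := mul_le_mul_of_nonneg_right e3 q0
      have e5 : S.C * (S.C * √S.θ) ≤ S.C * (1 / 2) := by linarith
      linarith [le_of_mul_le_mul_left e5 C0, mul_le_mul_of_nonneg_left b2 C0.le]
    have b4 : 1 / ((m : ℝ) + 1) ≤ 1 / S.n := one_div_le_one_div_of_le n0
      (by have : (S.n : ℝ) ≤ m := by exact_mod_cast hm.m1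
          linarith)
    have b5 := dv 1 _ _ (by linarith) (h.s_nn _) H.ln.l0s
    have b6 := dv 1 _ _ (by linarith) l0'.le H.ln.l1
    have b7 := dv 1 _ _ (by linarith) H.ln.X0.le H.ln.X1
    refine (T5.hp_le A (Z := j + γ + 1 / S.n) b3 (by linarith) (by linarith [H.ln.l0l]) H.ln.X0
      (by linarith) H.lp.γ0 H.ap.all H.ap.j0 (by linarith) (by linarith [G.vn]) (by linarith)
      ht).trans ?_
    rw [qJ, ← mul_assoc]
    refine mul_le_mul_of_nonneg_right ?_ (by linarith)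
    have e1 := pow_le_pow_left₀ (by positivity) LC 2
    have e2 : S.C ^ 4 ≤ S.C ^ 6 := pow_le_pow_right₀ C1 (by norm_num)
    have e3 : S.C ^ 5 ≤ S.C ^ 6 := pow_le_pow_right₀ C1 (by norm_num)
    have e4 : 0 ≤ S.C ^ 6 := by positivity
    linarith
  · exact lt_of_not_ge fun c => by nlinarith [h.sm c, F.jl, h.s_nn S.jl]

/-- the two ends -/
theorem ends' (G : Rg K E L S) (Q : Qn L S M m a l X Lg X2 j γ η aa g') {Gn : ℕ → Prop}
    (hN : ∀ U V, 5 / 4 * l ≤ M.s U → M.s V + aa / 5 ≤ M.s S.J → Nt E L S M m a Lg X X2 η Gn U V) :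
    ∃ i k, i ≤ k ∧ k < S.J ∧ Gn i ∧ Gn k ∧ M.s S.J / 2 ≤ M.s i ∧ M.s i ≤ 9 / 16 * M.s S.J ∧
      M.s S.J - aa / 2 ≤ M.s k ∧ M.s k ≤ M.s S.J - aa / 4 := by
  have F := Q.F
  have h := F.at'.cl
  have C1 := h.C1
  have C0 := h.C0
  have v0 := h.v0
  have L1 := G.L1
  have L1' : 1 ≤ L := by linarith
  have l0 := F.l0
  have lJ := Q.lJ
  have a0 := Q.a0
  have C3 : S.C ≤ S.C ^ 3 := le_self_pow₀ C1 (by norm_num)
  have C2 : S.C ^ 2 ≤ S.C ^ 3 := pow_le_pow_right₀ C1 (by norm_num)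
  have LC := G.LC
  have L0 : 0 < L := by linarith
  have X0 := Q.X0
  have sm : ∀ y z, 0 ≤ y → L ^ 67 * y ≤ z → 1000 * (L ^ 2 * y) ≤ z := fun y z p q => by
    have a1 := mul_le_mul_of_nonneg_right L1 (by positivity : 0 ≤ L ^ 2 * y)
    have a2 := mul_le_mul_of_nonneg_right (pow_le_pow_right₀ L1' (show 3 ≤ 67 by norm_num)) p
    linarith
  have b2 : S.C * S.v ≤ L ^ 2 * S.v := mul_le_mul_of_nonneg_right (by nlinarith) v0.le
  have b4 := sm _ _ v0.le Q.va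
  have b6 := sm _ _ X0 Q.Xa
  have b7 : aa ≤ √S.θ := le_trans (by linarith [Q.j0, Q.γ0, Q.g0, Q.gb])
    ((le_mul_of_one_le_left (by linarith [Q.j0, Q.γ0, Q.g0, Q.gb]) (one_le_pow₀ L1')).trans Q.sm)
  have b8 := Q.th
  have win : ∀ p q, S.j0 ≤ p → p ≤ q → q < S.J → aa / 8 ≤ M.s q - M.s p →
      L * (X ^ ((1 : ℝ) / 3) / Lg + S.v) ≤ M.z q - M.z p := fun p q a1 a2 a3 a4 => by
    refine le_of_mul_le_mul_left (le_trans ?_ (a4.trans (s_z h a1 a2 a3))) (by positivity)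
    have a5 := mul_le_mul_of_nonneg_right (show S.C ^ 2 ≤ L by linarith)
      (by positivity : 0 ≤ L * (X ^ ((1 : ℝ) / 3) / Lg + S.v))
    linarith
  obtain ⟨U, u1, u2, u3, u4⟩ := h.exists_node (t := M.s S.J / 2) (by linarith) (by linarith)
  obtain ⟨q, q1, q2, q3, q4⟩ := h.exists_node (t := 9 / 16 * M.s S.J) (by linarith) (by linarith)
  obtain ⟨p, p1, p2, p3, p4⟩ := h.exists_node (t := M.s S.J - aa / 2) (by linarith) (by linarith)
  obtain ⟨W, w1, w2, w3, w4⟩ := h.exists_node (t := M.s S.J - aa / 4) (by linarith) (by linarith)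
  have u5 := (h.ss U u1).2
  have p5 := (h.ss p p1).2
  have Uq : U + 1 ≤ q := le_of_not_gt fun c => by linarith [h.sm c.le]
  have qp : q ≤ p + 1 := le_of_not_gt fun c => by linarith [h.sm c.le]
  have pW : p + 1 ≤ W := le_of_not_gt fun c => by linarith [h.sm c.le]
  have jU : S.j0 ≤ U + 1 := h.i1.trans (le_of_not_gt fun c => by
    nlinarith [h.sm c.le, F.jl, h.s_nn S.jl])
  have H := hN (U + 1) W (by linarith) (by linarith)
  obtain ⟨i, i1, i2, gi⟩ := H.ex _ _ le_rfl Uq (qp.trans pW) (win _ _ jU Uq q1 (by linarith))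
  obtain ⟨k, k1, k2, gk⟩ := H.ex _ _ (Uq.trans qp) pW le_rfl
    (win _ _ (jU.trans (Uq.trans qp)) pW w1 (by linarith))
  exact ⟨i, k, i2.trans (qp.trans k1), k2.trans_lt w1, gi, gk, by linarith [h.sm i1],
    by linarith [h.sm i2], by linarith [h.sm k1], by linarith [h.sm k2]⟩

/-- `Γ''` of the mean profile against a sloped node -/
theorem gd_nd (T0 : ℝ) : ∃ K : ℝ, 1 ≤ K ∧ ∀ {S : Sc} {M : Md} {m : ℕ} {a T : ℝ}, At S M m a T →
    T ≤ T0 → ∀ {k : ℕ} {t p : ℝ}, S.j0 ≤ k → k < S.J → t ∈ Set.Icc 0 T →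
    Rig.Hp (lh M T) (lb M S m a T) t ≤ p → |L0.Gd (lb M S m a T) t| ≤
      S.C * (S.ms (M.s k) / M.s k) + 2 * |lvr 1 (lb M S m a T) t - M.z k| + K * (p + |t - M.s k|) := by
  obtain ⟨K, K1, H⟩ := Pr.Cv25.Gd_two T0
  refine ⟨K, K1, fun {S M m a T} A hT {k t p} h1 h2 ht hp => ?_⟩
  have h := A.cl
  have s0 := h.s_nn k
  have q := (H _ _ A.okb.1 A.okh.1 (A.okb.2.trans A.okh.2.symm) (by rwa [A.okh.2]) t
    (by rwa [A.okh.2]) (M.s k)
    (by rw [A.okh.2]; exact ⟨s0, (h.sm (h2.le.trans h.i3)).trans A.t2⟩) p hp).1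
  rw [A.lvh_node h1 h2] at q
  change |L0.Gd (lb M S m a T) t - L0.Gd (lh M T) (M.s k) + _| ≤ _ at q
  have q1 := A.gd_h s0 (h.s_lt h2 h2)
  rw [max_eq_left (h.sm h1)] at q1
  have a1 : 0 ≤ Pr.AA (lh M T) (M.s k) := Pp.Ode3.Am_nonneg A.okh.1.1 _
  have a2 : Pr.AA (lh M T) (M.s k) ≤ 1 := Pp.Ode3.Am_le_one A.okh.1.1 _
  have r : |2 * Pr.AA (lh M T) (M.s k) * (lvr 1 (lb M S m a T) t - M.z k)| ≤
      2 * |lvr 1 (lb M S m a T) t - M.z k| := by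
    rw [abs_mul]
    exact mul_le_mul_of_nonneg_right (abs_le.2 ⟨by linarith, by linarith⟩) (abs_nonneg _)
  have := abs_le.1 q; have := abs_le.1 q1; have := abs_le.1 r
  exact abs_le.2 ⟨by linarith, by linarith⟩

/-- the sup location below a good node `V` with `sb (V + 1) < s J` -/
theorem uq_at (T0 : ℝ) : ∃ K : ℝ, ∀ {S : Sc} {M : Md} {m : ℕ} {a E L l0 l V0 X Lg X2 X3 G0 g p t : ℝ}
    {η : ℝ → ℝ} {Gn : ℕ → Prop} {i0 i1 V : ℕ}, 2 * S.C = T0 → Rg K E L S →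
    Fb L S M m a l X Lg X2 η → LN E S M l0 l V0 X Lg X2 X3 G0 η →
    Nt E L S M m a Lg X X2 η Gn i0 i1 → 2 * l ≤ M.s S.J → M.s S.J / 2 ≤ M.s i0 →
    sb M m a (i0 + 1) ≤ 5 / 8 * M.s S.J → Gn i0 → Gn V → i0 ≤ V → V ≤ i1 → V < S.J →
    sb M m a (V + 1) < M.s S.J → 0 ≤ g → (∀ k, i0 ≤ k → k ≤ V → |M.G k| ≤ g) →
    (∀ s ∈ Set.Icc 0 (2 * S.C), Hq S M m a s ≤ p) → 3 / 4 * M.s S.J ≤ t →
    t + 7 * (2 * log S.n * L * √(S.ms (t / 2))) ≤ sb M m a (V + 1) →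
    |uq S M m a t| ≤ L ^ 12 * (L ^ 5 * (p + bs S Lg X2 g η (M.s S.J))) := by
  obtain ⟨K, -, HK⟩ := Nw.main T0
  refine ⟨K, fun {S M m a E L l0 l V0 X Lg X2 X3 G0 g p t η Gn i0 i1 V} hT G F H Nd lJ s0 b0 g0 gV
    h0 h1 VJ bJ g0' hg hp t1 t2 => ?_⟩
  subst hT
  have A := F.at'
  have h := A.cl
  have L1 := G.L1
  have L0 : 0 < L := by linarith
  have L1' : 1 ≤ L := by linarith
  have l0' := F.l0
  have sJ : M.s S.J ≤ S.C := h.s_le_C h.i3
  have t0 : 0 < t := by linarith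
  have p0 : 0 ≤ p := (Hp_nn A 0).trans (hp 0 ⟨le_rfl, by linarith⟩)
  have m0 := h.ms_pos (half_pos t0).le
  have lg := G.lg
  have lg1 := G.lg1
  have sk : ∀ k, k ≤ V → M.s k ≤ 2 * t := fun k hk => by linarith [h.sm (hk.trans VJ.le)]
  have sh := fun i k (n : Nx Gn i0 V i k) =>
    sh' G h A Nd t0 (n.up le_rfl h1) (sk i (n.2.1.trans n.2.2.1))
  have r0 : 0 < √(S.ms (t / 2)) := sqrt_pos.2 m0
  have w0 : 0 < 2 * log S.n * L * √(S.ms (t / 2)) := by positivity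
  have nk := fun (b' : ℝ) (hb : b' ≤ 2 * t) => nk' G F H g0' (t := t) (t' := M.s S.J) (by linarith)
    (by linarith) hb p0 (by linarith) sJ (by linarith)
  set r := √(S.ms (t / 2)) with hr
  have rt : r ≤ √(S.ms t) := sqrt_le_sqrt (h.msm (by linarith))
  set w := 2 * log S.n * L * r with hw
  have pw : ∀ i k : ℕ, i ≤ k → L ^ i ≤ L ^ k := fun i k => pow_le_pow_right₀ L1'
  have w1 : r ≤ w := le_mul_of_one_le_left r0.le (one_le_mul_of_one_le_of_one_le (by linarith) L1')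
  have w2 : 56 * w ≤ t := by
    have b2 : 112 * log S.n * L ≤ L ^ 67 := by
      have := mul_le_mul (show 112 ≤ L by linarith) (mul_le_mul_of_nonneg_right lg L0.le)
        (by positivity) L0.le
      linarith [pw 3 67 (by norm_num)]
    linarith [mul_le_mul b2 rt r0.le (by positivity), F.ml t (by linarith) (by linarith)]
  have Γr : 4 * r / L ^ 11 ≤ r := by
    rw [div_le_iff₀ (by positivity)]
    linarith [mul_le_mul_of_nonneg_left (show 4 ≤ L ^ 11 by linarith [pw 1 11 (by norm_num)]) r0.le]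
  obtain ⟨i', u, n1, c1, c2⟩ := exists_nx (σ := fun k => sb M m a (k + 1)) (t := t - 7 * w) h0 g0 gV
    (by linarith) (by linarith)
  obtain ⟨v, k', n2, c3, c4⟩ := exists_nx (σ := fun k => sb M m a (k + 1)) (t := t + 7 * w) h0 g0 gV
    (by linarith) t2
  have c5 := (sh _ _ n1).trans Γr
  have c6 := (sh _ _ n2).trans Γr
  have hu : i0 ≤ u := n1.1.trans n1.2.1
  have hv : v ≤ V := n2.2.1.trans n2.2.2.1
  have uv : u ≤ v := le_of_not_gt fun c => by linarith [A.sb_mono (Nat.succ_le_succ c.le)]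
  have W := nw' G F H Nd (by linarith) hu uv (hv.trans h1) n1.2.2.2.2.1 n2.2.2.2.1 (hv.trans_lt VJ)
    (by linarith) t0 (by linarith [h.sm hu]) (by linarith) (t' := M.s S.J) (by linarith) sJ
    (by linarith) fun k p q _ => hg k (hu.trans p) (q.trans hv)
  exact HK W le_rfl (nk _ (max_le (sk v hv) (by linarith))) (fun i k n => sh i k (n.up hu hv))
    (fun s hs => hp s ⟨by linarith [hs.1], by linarith [hs.2]⟩) (by linarith) t
    ⟨by linarith, by linarith⟩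

end Crest.Agent.T156.Alt.L63.T20

end
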