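import Crest.Agent.T156.TLqX_34
import Crest.Agent.T156.TLqC_53
import Crest.Agent.T156.TLqU_73
import Crest.Agent.T156.TLqP_20

/-!
# Row 156, block (L), the last window: the budget of the closing (helper26)
-/

set_option autoImplicit false

noncomputable section

namespace Crest.Agent.T156.Alt.Q26

/-- the letters of the closing against `φ = j + b`, `ρ = √R2`, `aa`, `μ = 1 / n` and the budget `B` -/
structure Lt (W r F Gm a' R p ge γ P len φ ρ aa μ B : ℝ) : Prop where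
  W1 : 1 ≤ W
  r0 : 0 < r
  r1 : r ≤ 1
  φ0 : 0 ≤ φ
  ρ0 : 0 ≤ ρ
  a0 : 0 ≤ aa
  μ0 : 0 ≤ μ
  F0 : 0 ≤ F
  hF : F ≤ W * (φ + ρ)
  hP : P ≤ W * (φ + ρ)
  γ0 : 0 ≤ γ
  hγ : γ ≤ ρ
  ha : a' ≤ W * (aa + φ + ρ)
  hG : Gm ≤ W * (aa + φ + ρ)
  he : ge ≤ r ^ 2 * (W * (φ + ρ))
  hR : R ^ 2 ≤ W * (ρ ^ 2 + μ ^ 2)
  hμ : μ ≤ r ^ 2
  hr : 2 * W * r ≤ 1
  hl : len ≤ W * r
  s1 : 5 * W ^ 2 * (aa + φ + ρ) ≤ r
  s2 : 2 * W * ρ ^ 2 ≤ r ^ 3
  bp : p ^ 2 ≤ W ^ 3 * B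
  bφ : r * φ ^ 2 ≤ B
  ba : aa ^ 3 ≤ B
  bρ : ρ ^ 2 ≤ B
  bμ : μ ^ 2 ≤ B

theorem Lt.num {W r F Gm a' R p ge γ P len φ ρ aa μ B : ℝ}
    (h : Lt W r F Gm a' R p ge γ P len φ ρ aa μ B) : ∃ om s : ℝ, ge ≤ r ^ 2 * om ∧ om ≤ r ∧
      a' + Gm + γ + F + P ≤ s ∧ s ≤ r ∧ R ^ 2 ≤ r ^ 3 ∧ γ ^ 2 ≤ r ^ 3 ∧
      p ^ 2 ≤ 4000 * W ^ 3 * B ∧ len * F ^ 2 ≤ 4000 * W ^ 3 * B ∧ R ^ 2 ≤ 4000 * W ^ 3 * B ∧
      γ ^ 2 ≤ 4000 * W ^ 3 * B ∧ r * om ^ 2 ≤ 4000 * W ^ 3 * B ∧ s ^ 3 ≤ 4000 * W ^ 3 * B := by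
  obtain ⟨W1, r0, r1, φ0, ρ0, a0, μ0, F0, hF, hP, γ0, hγ, ha, hG, he, hR, hμ, hr, hl, s1, s2, bp, bφ,
    ba, bρ, bμ⟩ := h
  have W0 : 0 ≤ W := by linarith
  have B0 : 0 ≤ B := (sq_nonneg ρ).trans bρ
  have σ0 : 0 ≤ aa + φ + ρ := by positivity
  have w2 : W ≤ W ^ 2 := le_self_pow₀ W1 two_ne_zero
  have w3 : W ≤ W ^ 3 := le_self_pow₀ W1 (by norm_num)
  have w4 : W ^ 2 ≤ W ^ 3 := pow_le_pow_right₀ W1 (by norm_num)
  have c1 := mul_le_mul_of_nonneg_right w2 σ0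
  have c2 := le_mul_of_one_le_left σ0 W1
  have c3 := mul_nonneg W0 a0
  have c4 := mul_nonneg W0 φ0
  have c5 := mul_nonneg W0 ρ0
  have c6 := le_mul_of_one_le_left ρ0 W1
  have c7 := le_mul_of_one_le_left (sq_nonneg ρ) W1
  have γ2 : γ ^ 2 ≤ ρ ^ 2 := pow_le_pow_left₀ γ0 hγ 2
  have b1 := le_mul_of_one_le_left B0 (W1.trans w3)
  have b2 := mul_le_mul_of_nonneg_right w3 B0
  have b3 := mul_le_mul_of_nonneg_right w4 B0
  have b4 : r * ρ ^ 2 ≤ B := (mul_le_of_le_one_left (sq_nonneg _) r1).trans bρ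
  have b5 : r * (φ + ρ) ^ 2 ≤ 4 * B := by
    have : (φ + ρ) ^ 2 ≤ 2 * φ ^ 2 + 2 * ρ ^ 2 := by linarith [sq_nonneg (φ - ρ)]
    linarith [mul_le_mul_of_nonneg_left this r0.le]
  have r3 : 0 ≤ r ^ 3 := by positivity
  have m1 : W * μ ^ 2 ≤ r ^ 3 / 2 := by
    linarith [mul_le_mul_of_nonneg_left (pow_le_pow_left₀ μ0 hμ 2) W0,
      mul_le_mul_of_nonneg_right hr r3]
  refine ⟨W * (φ + ρ), 5 * W * (aa + φ + ρ), he, by linarith, by linarith, by linarith,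
    by linarith, by linarith, by linarith, ?_, ?_, by linarith, ?_, ?_⟩
  · have e1 : len * F ^ 2 ≤ W * r * (W * (φ + ρ)) ^ 2 :=
      mul_le_mul hl (pow_le_pow_left₀ F0 hF 2) (sq_nonneg _) (by positivity)
    linarith [mul_le_mul_of_nonneg_left b5 (show 0 ≤ W ^ 3 by positivity)]
  · linarith [mul_le_mul_of_nonneg_left (add_le_add bρ bμ) W0]
  · linarith [mul_le_mul_of_nonneg_left b5 (show 0 ≤ W ^ 2 by positivity)]
  · have e1 : φ ^ 3 ≤ B := by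
      linarith [mul_le_mul_of_nonneg_right (show φ ≤ r by linarith) (sq_nonneg φ)]
    have e2 : ρ ^ 3 ≤ B := by
      linarith [mul_le_mul_of_nonneg_right (show ρ ≤ r by linarith) (sq_nonneg ρ)]
    have e3 : ∀ x, 0 ≤ x → x ^ 3 ≤ B → x ≤ B ^ ((1 : ℝ) / 3) := fun x p q => by
      have := Real.rpow_le_rpow (by positivity) q (show (0 : ℝ) ≤ 1 / 3 by norm_num)
      rwa [← Real.rpow_natCast, ← Real.rpow_mul p, show ((3 : ℕ) : ℝ) * (1 / 3) = 1 by norm_num,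
        Real.rpow_one] at this
    have e4 : (B ^ ((1 : ℝ) / 3)) ^ 3 = B := by
      rw [← Real.rpow_natCast, ← Real.rpow_mul B0]; norm_num
    have e5 : (aa + φ + ρ) ^ 3 ≤ (3 * B ^ ((1 : ℝ) / 3)) ^ 3 := pow_le_pow_left₀ σ0
      (by linarith [e3 _ a0 ba, e3 _ φ0 e1, e3 _ ρ0 e2]) 3
    rw [mul_pow, e4] at e5
    linarith [mul_le_mul_of_nonneg_left e5 (show 0 ≤ W ^ 3 by positivity)]

end Crest.Agent.T156.Alt.Q26

namespace Crest.Agent.T156.Alt.L63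

open Real Finset
open Crest.Agent.T156.Alt.L69 Crest.Agent.T156.Alt.Mp9

theorem le_of_sq_le_sq' {x y : ℝ} (h : x ^ 2 ≤ y ^ 2) (hy : 0 ≤ y) : x ≤ y :=
  (abs_le_of_sq_le_sq' h hy).2

/-- the right side of (TLq) -/
def qB (S : Sc) (M : Md) (X Lg X2 j : ℝ) (η : ℝ → ℝ) (ℓ p0 aa g' R2 : ℝ) : ℝ :=
  p0 ^ 2 + (ℓ + X ^ ((1 : ℝ) / 3) + M.s S.jl) * (j + bs S Lg X2 g' η (M.s S.J)) ^ 2 + aa ^ 3 + R2 +
    GS M S (M.s S.J - ℓ) S.C + GP M S + 1 / (S.n : ℝ) ^ 2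

/-- **from the corner data to (TLq)** -/
theorem last26 (T0 : ℝ) : ∃ K0 : ℝ, ∀ {S : Sc} {M : Md} {m : ℕ} {a : ℝ}
    {K E L G1 u1 u2 j γ Lc ηc τ l0 l X Xp Vt Lg Lp X2 X3 X4 G0 N t1 ℓ En p0 aa g' R2 : ℝ}
    {η g : ℝ → ℝ} {Gn : ℕ → Prop} {u V V2 kA w u' : ℕ} {y r : ℝ} {Pn : ℕ → Prop} {ez : ℕ → ℝ}
    {x la uc ω B a' b' a1 ρ F A1 H R p g2 : ℝ}, 2 * S.C = T0 → S.In m a → K0 ≤ K →
    T20.Rg K E L S → L ^ 200 ≤ E →
    Hy E S M m a G1 u1 u2 j γ Lc ηc τ l0 l X Xp Vt Lg Lp X2 X3 X4 G0 η N g t1 (M.s S.J) ℓ En p0 →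
    LQ E S M X Xp Vt Lg Lp X2 G0 u1 u2 j γ η aa g' R2 →
    Sq K L S M m a Lg X2 j γ η aa g' Gn u V V2 y r →
    Iq S M m a (2 * S.C) u' V kA w Pn ez x la uc ω aa B a' b' y a1 ρ L r F A1 H R p g2 γ →
    sb M m a (u + 1) ≤ a1 + r → a1 + 2 * r ≤ y - 6 * (log S.n * L * r) →
    F ≤ L ^ 20 * (j + bs S Lg X2 g' η (M.s S.J) + √R2) →
    A1 ≤ L ^ 30 * (aa + j + bs S Lg X2 g' η (M.s S.J) + √R2) →
    H ≤ L ^ 30 * (j + bs S Lg X2 g' η (M.s S.J) + √R2) →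
    R ^ 2 ≤ L ^ 36 * (R2 + 1 / (S.n : ℝ) ^ 2) →
    p ^ 2 ≤ L ^ 108 * qB S M X Lg X2 j η ℓ p0 aa g' R2 →
    M.En S m a M.q 2 (M.s S.J - ℓ) S.C ≤ L ^ 161 * qB S M X Lg X2 j η ℓ p0 aa g' R2 := by
  obtain ⟨K1, H1⟩ := Sq.en73 T0
  obtain ⟨K2, k2, H2⟩ := Q34.fin T0
  refine ⟨max K1 K2, fun {S M m a K E L G1 u1 u2 j γ Lc ηc τ l0 l X Xp Vt Lg Lp X2 X3 X4 G0 N t1 ℓ
    En p0 aa g' R2 η g Gn u V V2 kA w u' y r Pn ez x la uc ω B a' b' a1 ρ F A1 H R p g2} hT hm hK G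
    LE hy lq Q I hu ha hF hA hH hR hp => ?_⟩
  obtain ⟨Sb, gp, c0, a0, b0, b1, p0', d, D, err, C1', δ, Cq⟩ := I.cq53
  have h := I.at'.cl
  have C1 := h.C1
  have L1 := G.L1
  have L1' : 1 ≤ L := by linarith
  have L2 : 100 ≤ L := by linarith
  have L0 : 0 < L := by linarith
  have r0 := I.r0
  have θ0 := h.θ0
  have q0 := sqrt_nonneg S.θ
  have F0 : 0 ≤ F := h.v0.le.trans I.vF
  have γ0 : 0 ≤ γ := (sub_nonneg.2 (h.sm h.i3)).trans I.hγ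
  have a0' := Q.a0
  have Qn := T20.qn h hm G hy lq
  have j0 := Qn.j0
  have n0 : 0 < 1 / (S.n : ℝ) := by have := h.N0; positivity
  have bs0 : 0 ≤ bs S Lg X2 g' η (M.s S.J) := n0.le.trans Qn.nb
  set φ := j + bs S Lg X2 g' η (M.s S.J) with hφ
  have φ0 : 0 ≤ φ := by positivity
  have u20 : 0 ≤ u2 := by linarith [h.last, h.leg.z1 (S.Jp - 1), hy.lp.u1a, hy.lp.u1b.1]
  have q4 := lq.q4
  have R20 : 0 ≤ R2 := by linarith [sq_nonneg X2, sq_nonneg γ]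
  have eρ : √R2 ^ 2 = R2 := sq_sqrt R20
  have γρ : γ ≤ √R2 := le_sqrt_of_sq_le (by linarith [sq_nonneg X2])
  have ρ0 := sqrt_nonneg R2
  set σ := √R2
  have pw := fun i k (hik : i < k) z (hz : 0 ≤ z) => Q34.pw L2 (i := i) (j := k) hik hz
  have LL : ∀ i : ℕ, 1 ≤ L ^ i := fun i => one_le_pow₀ L1'
  have E1 : 1 ≤ E := (LL 200).trans LE
  have rθ : r ≤ √S.θ := by rw [Q.er]; exact sqrt_le_sqrt (h.ms1 _)
  have ℓ1 := hy.lt.ℓ1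
  have rℓ : r ≤ ℓ := by linarith [le_mul_of_one_le_left q0 E1]
  have ℓ0 : 0 ≤ ℓ := by linarith
  have C3 : S.C ≤ S.C ^ 3 := le_self_pow₀ C1 (by norm_num)
  have rs' : L ^ 199 * r ≤ 1 := by
    have e1 := mul_le_mul_of_nonneg_right LE ℓ0
    have e2 := h.s_le_C h.i3
    have e3 := hy.lt.ℓ2
    have e4 := mul_le_mul_of_nonneg_left rℓ (show 0 ≤ L ^ 200 by positivity)
    have e6 : L * (L ^ 199 * r) ≤ L * 1 := by linarith [G.LC]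
    exact le_of_mul_le_mul_left e6 L0
  have rs : 2 * L ^ 36 * r ≤ 1 := by
    linarith [pw 36 199 (by norm_num) r r0.le, show 0 ≤ L ^ 36 * r by positivity]
  have r1 : r ≤ 1 := by linarith [le_mul_of_one_le_left r0.le (LL 36)]
  have μr : 1 / (S.n : ℝ) ≤ r ^ 2 := by
    have y0 : 0 ≤ y / 2 := by linarith [Q.y2, h.s_nn S.J]
    rw [Q.er, sq_sqrt (h.ms_pos y0).le, one_div, ← rpow_neg_one]
    exact h.ms0.trans (h.msm y0)
  have sφ : L ^ 199 * (aa + φ) ≤ r := by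
    have e1 := mul_le_mul_of_nonneg_right LE (add_nonneg (add_nonneg a0'.le φ0) γ0)
    have e2 := lq.sm
    have e3 := Q.th
    have e4 : L * (L ^ 199 * (aa + φ)) ≤ L * r := by
      have e5 : 0 ≤ L ^ 200 * γ := mul_nonneg (pow_nonneg L0.le _) γ0
      have e6 : aa + j + bs S Lg X2 g' η (M.s S.J) + γ = aa + φ + γ := by rw [hφ]; ring
      rw [e6] at e2
      clear_value φ
      linarith only [e1, e2, e3, e5]
    exact le_of_mul_le_mul_left e4 L0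
  have sσ : (L ^ 97 * σ ^ 2) ^ 2 ≤ (r ^ 3) ^ 2 := by
    have e1 := mul_le_mul_of_nonneg_right LE (sq_nonneg R2)
    have e2 := lq.q5
    have e3 := pow_le_pow_left₀ θ0.le I.hθ 3
    have e4 : L ^ 6 * (L ^ 97 * R2) ^ 2 ≤ L ^ 6 * (r ^ 3) ^ 2 := by linarith
    rw [eρ]
    exact le_of_mul_le_mul_left e4 (by positivity)
  have sσ' : L ^ 97 * σ ^ 2 ≤ r ^ 3 := le_of_sq_le_sq' sσ (by positivity)
  have sσ2 : L ^ 98 * σ ≤ r := by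
    refine le_of_sq_le_sq' ?_ r0.le
    have e1 := mul_le_mul_of_nonneg_left sσ' (show 0 ≤ L ^ 99 by positivity)
    have e2 := pw 99 199 (by norm_num) r r0.le
    have e3 : L ^ 99 * r ≤ 1 := by linarith [show 0 ≤ L ^ 99 * r by positivity]
    linarith [mul_le_mul_of_nonneg_right e3 (sq_nonneg r)]
  have g1 : 0 ≤ GS M S (M.s S.J - ℓ) S.C := sum_nonneg fun k _ =>
    mul_nonneg (sub_nonneg.2 (h.leg.zm (Nat.sub_le _ _))) (sq_nonneg _)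
  have g2' : 0 ≤ GP M S := sum_nonneg fun k _ =>
    mul_nonneg (sub_nonneg.2 (h.leg.zm (Nat.sub_le _ _))) (sq_nonneg _)
  have n2 : 0 ≤ 1 / (S.n : ℝ) ^ 2 := by positivity
  have a3 : 0 ≤ aa ^ 3 := by positivity
  have x0 : 0 ≤ (X ^ ((1 : ℝ) / 3) + M.s S.jl) * φ ^ 2 :=
    mul_nonneg (add_nonneg (rpow_nonneg hy.ln.X0.le _) (h.s_nn _)) (sq_nonneg _)
  have x1 : 0 ≤ ℓ * φ ^ 2 := by positivity
  have x2 := mul_le_mul_of_nonneg_right rℓ (sq_nonneg φ)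
  have p2 := sq_nonneg p0
  have eB : qB S M X Lg X2 j η ℓ p0 aa g' R2 = p0 ^ 2 + ℓ * φ ^ 2 +
      (X ^ ((1 : ℝ) / 3) + M.s S.jl) * φ ^ 2 + aa ^ 3 + R2 + GS M S (M.s S.J - ℓ) S.C + GP M S +
      1 / (S.n : ℝ) ^ 2 := by rw [qB]; ring
  generalize qB S M X Lg X2 j η ℓ p0 aa g' R2 = Bq at *
  have B0 : 0 ≤ Bq := by linarith
  have s0 : 0 ≤ φ + σ := by positivity
  have s1 : 0 ≤ aa + φ + σ := by positivity
  have c1 : ∀ i : ℕ, L ^ i * (φ + σ) ≤ L ^ i * (aa + φ + σ) := fun i =>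
    mul_le_mul_of_nonneg_left (by linarith) (by positivity)
  have hA' : A1 ≤ L ^ 30 * (aa + φ + σ) := by linarith
  have T : Q26.Lt (L ^ 36) r (L ^ 12 * F) (L ^ 4 * (H + F + A1 + aa)) (A1 + 4 * aa) R p
      (H * r ^ 2 + (H + L ^ 13 * F) * r ^ 2 + 1 / ((m : ℝ) + 1)) γ F (sb M m a (V + 1) - (a1 + r))
      φ σ aa (1 / S.n) Bq := by
    refine ⟨LL _, r0, r1, φ0, ρ0, a0'.le, n0.le, by positivity, ?_, ?_, γ0, γρ, ?_, ?_, ?_, ?_, μr,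
      rs, ?_, ?_, ?_, ?_, by linarith, by linarith, by linarith, ?_⟩
    · linarith [mul_le_mul_of_nonneg_left hF (show 0 ≤ L ^ 12 by positivity),
        pw 32 36 (by norm_num) _ s0, show 0 ≤ L ^ 32 * (φ + σ) by positivity]
    · linarith [pw 20 36 (by norm_num) _ s0, show 0 ≤ L ^ 20 * (φ + σ) by positivity]
    · linarith [pw 30 36 (by norm_num) _ s1, le_mul_of_one_le_left s1 (LL 30)]
    · have e1 : H + F + A1 + aa ≤ 4 * (L ^ 30 * (aa + φ + σ)) := by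
        linarith [c1 30, pw 20 30 (by norm_num) _ s0, le_mul_of_one_le_left s1 (LL 30),
          show 0 ≤ L ^ 20 * (φ + σ) by positivity]
      linarith [mul_le_mul_of_nonneg_left e1 (show 0 ≤ L ^ 4 by positivity),
        pw 34 36 (by norm_num) _ s1, show 0 ≤ L ^ 34 * (aa + φ + σ) by positivity]
    · have e1 : 2 * H + L ^ 13 * F + F ≤ L ^ 36 * (φ + σ) := by
        linarith [mul_le_mul_of_nonneg_left hF (show 0 ≤ L ^ 13 by positivity),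
          pw 33 36 (by norm_num) _ s0, pw 30 33 (by norm_num) _ s0, pw 20 33 (by norm_num) _ s0,
          show 0 ≤ L ^ 20 * (φ + σ) by positivity, show 0 ≤ L ^ 30 * (φ + σ) by positivity]
      linarith [mul_le_mul_of_nonneg_left e1 (sq_nonneg r), I.mF]
    · rw [eρ, one_div_pow]; exact hR
    · rw [← I.ey]
      linarith [I.a11, I.ρ2, pw 2 36 (by norm_num) _ r0.le, show 0 ≤ L ^ 2 * r by positivity]
    · have e1 := pw 72 199 (by norm_num) _ (show 0 ≤ aa + φ by positivity)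
      have e2 := pw 72 98 (by norm_num) _ ρ0
      linarith
    · linarith [pw 36 97 (by norm_num) _ (sq_nonneg σ), show 0 ≤ L ^ 36 * σ ^ 2 by positivity]
    · linarith
    · rw [one_div_pow]; linarith
  obtain ⟨om, s, z1, z2, z3, z4, z5, z6, z7, z8, z9, z10, z11, z12⟩ := T.num
  have KL : K2 ≤ L := by
    have e1 : K2 ≤ K := (le_max_right _ _).trans hK
    linarith [le_mul_of_one_le_right (show 0 ≤ K by linarith) C1, G.LK]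
  have Y := (H2 Cq hT.le KL om s _ z1 z2 z3 z4 z5 z6 z7 z8 z9 z10 z11 z12).2
  have Z := H1 hT hm ((le_max_left _ _).trans hK) G hy lq Q hu (by linarith) Y
  have e1 : L ^ 46 * (ℓ * φ ^ 2 + R2) ≤ L ^ 46 * Bq :=
    mul_le_mul_of_nonneg_left (by linarith) (by positivity)
  have e2 : L * (1 / (S.n : ℝ) ^ 2) ≤ L * Bq := mul_le_mul_of_nonneg_left (by linarith) L0.le
  have e3 := pw 158 159 (by norm_num) _ B0
  have e4 := pw 159 160 (by norm_num) _ B0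
  have e5 := pw 160 161 (by norm_num) _ B0
  have e6 := pw 46 158 (by norm_num) _ B0
  have e7 := pw 1 46 (by norm_num) _ B0
  have e8 := pw 0 1 (by norm_num) _ B0
  linarith

end Crest.Agent.T156.Alt.L63

end
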