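import Crest.Agent.T156.TLqR_20
import Crest.Agent.T156.TLpA_62
import Crest.Agent.T156.TL2Q_63

/-!
# Row 156, block (L), the last window: location of a middle node of the plateau (helper26)
-/

set_option autoImplicit false

noncomputable section

namespace Crest.Agent.T156.Alt.L63

open Real Finset
open Crest.Agent.T156.Alt.L69 Crest.Agent.T156.Alt.Mp9

variable {E L : ℝ} {S : Sc} {M : Md} {m : ℕ} {a G1 u1 u2 j γ Lc ηc τ l0 l X Xp Vt Lg Lp X2 X3 X4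
  G0 : ℝ} {η : ℝ → ℝ} {N : ℝ} {g : ℝ → ℝ} {t1 tu ℓ En p0 : ℝ}

/-- **a middle node of the plateau sits within `qJ` of the corner** -/
theorem mid36 (H : Cx E L S M m a G1 u1 u2 j γ Lc ηc τ l0 l X Xp Vt Lg Lp X2 X3 X4 G0 η N g t1
      tu ℓ En p0) {w : ℕ} {κ : ℝ} (w1 : S.J ≤ w) (w2 : w ≤ S.Jp) (κ1 : 1 ≤ κ * L)
    (κ2 : κ ≤ du M w) (κ3 : κ ≤ M.z w - M.z (S.J - 1)) :
    |sb M m a (w + 1) - M.s S.J| ≤ qJ L S j γ := by
  have h := H.cl
  have A := H.A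
  have C0 := h.C0
  have C1 := h.C1
  have L1 := H.L1
  have L0 : 0 < L := one_pos.trans_le L1
  have κ0 : 0 < κ := (mul_pos_iff_of_pos_right L0).1 (one_pos.trans_le κ1)
  have n0 : 0 < 1 / (S.n : ℝ) := by have := h.N0; positivity
  have γ0 : 0 ≤ γ := (sub_nonneg.2 (h.sm h.i3)).trans H.lp.γ0
  have j1 := H.ap.j0
  have s1 := sqrt_nonneg X
  have s2 := sqrt_nonneg (GS M S 0 S.C + GP M S)
  have s3 := sq_nonneg l0
  have j0 : 0 ≤ j := by linarith
  have m1 : S.C / ((m : ℝ) + 1) ≤ S.C * (1 / S.n) := by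
    rw [div_eq_mul_one_div]
    refine mul_le_mul_of_nonneg_left (one_div_le_one_div_of_le h.N0 ?_) C0.le
    have : (S.n : ℝ) ≤ m := by exact_mod_cast H.mem.m1
    linarith
  have x1 : X ≤ j ^ 2 := (sqrt_le_left j0).1 (by linarith)
  have x2 : GP M S ≤ j ^ 2 := by
    have : 0 ≤ GS M S 0 S.C := sum_nonneg fun k _ => mul_nonneg (L62.dx0 h k) (sq_nonneg _)
    linarith [(sqrt_le_left j0).1 (show √(GS M S 0 S.C + GP M S) ≤ j by linarith)]
  have e0 : Icc S.J S.Jp = Ioc (S.J - 1) S.Jp := by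
    ext k; simp only [mem_Icc, mem_Ioc]; have := h.j0_lt; omega
  have x3 : ∑ k ∈ Icc S.J S.Jp, dx M k * M.del m a k ^ 2 ≤ X := by
    have := H.Sdel (lo := S.J - 1) (hi := S.Jp) (by have := h.j0_lt; omega) le_rfl
    unfold Ap63.Sx at this
    simp only [sq_abs] at this
    rwa [e0]
  have x4 : ∑ k ∈ Icc S.J S.Jp, dx M k ≤ 1 := by
    rw [e0, At.dx_sum73 M (by have := h.i3; omega), h.top _ le_rfl]
    have := h.atom.1
    have : 0 < 1 / S.C := by positivity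
    linarith
  set c := γ + S.C * (1 / S.n) with hc
  have c0 : 0 ≤ c := by positivity
  have pt : ∀ k ∈ Icc S.J S.Jp, dx M k * (sb M m a (k + 1) - M.s S.J) ^ 2 ≤
      3 * S.C ^ 2 * (dx M k * M.del m a k ^ 2) + 3 * (dx M k * M.G k ^ 2) + 3 * c ^ 2 * dx M k := by
    intro k hk
    rw [mem_Icc] at hk
    have kN := hk.2.trans h.i4.le
    obtain ⟨t1, t2⟩ := A.tail_mem kN
    have e1 := At.sb_sub M m a k
    have d0 : 0 ≤ M.d k := by linarith [h.d_ge k]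
    have d1 : M.d k ^ 2 ≤ S.C ^ 2 := pow_le_pow_left₀ d0 ((h.d_le kN).trans h.b1) 2
    have d2 := mul_le_mul_of_nonneg_right d1 (sq_nonneg (M.del m a k))
    have q1 := h.sm hk.1
    have q2 := h.sm hk.2
    have q3 := H.lp.γ0
    have cp : 0 ≤ S.C * (1 / S.n) := by positivity
    set t := M.s k - M.s S.J - M.d k * M.rb m a k / (m + 1) with ht
    have d3 : t ^ 2 ≤ c ^ 2 := sq_le_sq' (by linarith) (by linarith)
    have e2 : sb M m a (k + 1) - M.s S.J = M.d k * M.del m a k + M.G k + t := by linarith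
    have d4 : (sb M m a (k + 1) - M.s S.J) ^ 2 ≤
        3 * S.C ^ 2 * M.del m a k ^ 2 + 3 * M.G k ^ 2 + 3 * c ^ 2 := by
      rw [e2]
      nlinarith [sq_nonneg (M.d k * M.del m a k - M.G k), sq_nonneg (M.d k * M.del m a k - t),
        sq_nonneg (M.G k - t)]
    linarith [mul_le_mul_of_nonneg_left d4 (L62.dx0 h k)]
  have x5 := sum_le_sum pt
  rw [sum_add_distrib, sum_add_distrib, ← mul_sum, ← mul_sum, ← mul_sum] at x5
  set Z := j + γ + 1 / (S.n : ℝ) with hZ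
  have Z0 : 0 ≤ Z := by positivity
  have y1 : j ^ 2 ≤ Z ^ 2 := pow_le_pow_left₀ j0 (by linarith) 2
  have y2 : c ^ 2 ≤ (S.C * Z) ^ 2 := pow_le_pow_left₀ c0 (by
    have := le_mul_of_one_le_left γ0 C1
    have := mul_nonneg C0.le j0
    rw [hc, hZ]; linarith) 2
  have y3 : Z ^ 2 ≤ S.C ^ 2 * Z ^ 2 := le_mul_of_one_le_left (sq_nonneg _) (one_le_pow₀ C1)
  have y4 := mul_le_mul_of_nonneg_left (x3.trans (x1.trans y1)) (show 0 ≤ 3 * S.C ^ 2 by positivity)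
  have y5 := mul_le_mul_of_nonneg_left x4 (show 0 ≤ 3 * c ^ 2 by positivity)
  have x6 : ∑ k ∈ Icc S.J S.Jp, dx M k * (sb M m a (k + 1) - M.s S.J) ^ 2 ≤ (3 * S.C * Z) ^ 2 := by
    unfold GP at x2
    linarith
  have d := L62.mid62 h (f := fun k => sb M m a (k + 1) - M.s S.J) w1 w2
    (fun i k _ q _ => sub_le_sub_right (A.sb_mono (Nat.succ_le_succ q)) _) x6 κ0 κ2 κ3
  refine d.trans (sqrt_le_iff.2 ⟨by unfold qJ; positivity, ?_⟩)
  rw [div_le_iff₀ κ0, qJ, ← hZ]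
  have k1 : 9 * S.C ^ 2 ≤ L := H.KL 2 (by norm_num)
  have k2 : L ≤ L ^ 3 := le_self_pow₀ L1 (by norm_num)
  have k3 := mul_le_mul_of_nonneg_left κ1 (show 0 ≤ L ^ 3 by positivity)
  have k4 := mul_le_mul_of_nonneg_right (show 9 * S.C ^ 2 ≤ L ^ 3 * (κ * L) by linarith)
    (sq_nonneg Z)
  linarith

end Crest.Agent.T156.Alt.L63

end
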