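import Crest.Agent.T156.TLqC_53
import Crest.Agent.T156.TLqY_26
import Crest.Agent.T156.TLqP_20

/-!
# Row 156, block (L): the last window, the data of the corner on the class (helper53)
-/

set_option autoImplicit false

noncomputable section

namespace Crest.Agent.T156.Alt.L63

open Real
open Crest.Agent.T157.Pf
open Crest.Agent.T156.Alt.L69 Crest.Agent.T156.Alt.Mp9

variable {S : Sc} {M : Md} {m : ℕ} {a K E L G1 u1 u2 j γ Lc ηc τ l0 l X Xp Vt Lg Lp X2 X3 X4 G0 N t1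
  ℓ En p0 aa g' R2 : ℝ} {η g : ℝ → ℝ}

/-- the middle node of the plateau is near the corner -/
theorem mid53 {tu : ℝ} (H : Cx E L S M m a G1 u1 u2 j γ Lc ηc τ l0 l X Xp Vt Lg Lp X2 X3 X4 G0 η N g
      t1 tu ℓ En p0) {w : ℕ} {c0 : ℝ} (w1 : S.J ≤ w) (w2 : w ≤ S.Jp) (c1 : 2 ≤ c0 * L)
    (c2 : 2 * S.C * c0 ≤ 1) (z1 : 1 - c0 ≤ M.z (w - 1)) (z2 : c0 / 2 ≤ 1 - M.z w) :
    |sb M m a (w + 1) - M.s S.J| ≤ qJ L S j γ := by
  have zm := H.cl.leg.zm (Nat.sub_le w 1)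
  have C0 := H.cl.C0
  have c0' : 0 ≤ c0 := nonneg_of_mul_nonneg_left (le_trans zero_le_two c1) (by linarith [H.L1])
  refine mid36 H (κ := c0 / 2) w1 w2 (by linarith) (by unfold du; linarith) ?_
  have a1 := H.cl.atom.2
  have a2 : 2 * c0 ≤ 1 / S.C := by rw [le_div_iff₀ C0]; linarith
  linarith

/-- **the data of the corner** -/
theorem iq53 (H : Cx E L S M m a G1 u1 u2 j γ Lc ηc τ l0 l X Xp Vt Lg Lp X2 X3 X4 G0 η N g t1
      (M.s S.J) ℓ En p0) (G : T20.Rg K E L S)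
    (Q : LQ E S M X Xp Vt Lg Lp X2 G0 u1 u2 j γ η aa g' R2) {Gn : ℕ → Prop} {u V V2 : ℕ} {y r : ℝ}
    (W : Sq K L S M m a Lg X2 j γ η aa g' Gn u V V2 y r) {Pn : ℕ → Prop} {ez : ℕ → ℝ} {x uc : ℝ}
    (pn : L62.PN S M m a (2 * S.C) Pn ez x (L * X2) uc (aa / (100 * S.C ^ 3)) aa (L ^ 3 * r / aa))
    {w kA : ℕ} {c0 F A1 Hh R p a1 ρ : ℝ} (hρ : ρ = log S.n * L * r) (pw : Pn w) (k3 : S.J ≤ kA)
    (kw : kA ≤ w) (c1 : 2 ≤ c0 * L) (c2 : 2 * S.C * c0 ≤ 1) (z1 : 1 - c0 ≤ M.z (w - 1))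
    (z2 : c0 / 2 ≤ 1 - M.z w) (kz : M.z (kA - 1) - M.z (S.J - 1) ≤ 4 * aa)
    (hH : x + ez w + |M.G w| ≤ Hh * r ^ 2) (R0 : 0 ≤ R)
    (sp : ∑ k ∈ Finset.Icc kA S.Jp,
      (M.z k - M.z (k - 1)) * (sb M m a (k + 1) - sb M m a (w + 1)) ^ 2 ≤ R ^ 2)
    (hF : qF L S M Lg X2 j γ η g' ≤ F) (a11 : y - 13 * ρ ≤ a1) (a12 : a1 ≤ y - ρ)
    (fl : ∀ t ∈ Set.Icc (y - 13 * ρ) (2 * S.C),
      M.b * Pr.GG (lb M S m a (2 * S.C)) t ≤ 1 - r ^ 2 / (2 * S.C))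
    (top : M.z (S.J - 1) - M.z V ≤ A1) (v1 : uq S M m a (y - 13 * ρ) ≤ L ^ 12 * F)
    (v2 : -A1 ≤ uq S M m a y) (hJ : |Jq S M m a (a1 + r)| ≤ p)
    (sm : L ^ 40 * (Hh + F + A1 + aa) ≤ r)
    (win : ∀ B', M.s S.J - y ≤ B' → L ^ 30 * B' ≤ r →
      Wk S M m a (2 * S.C) V a1 (y - 11 * ρ) (y - 2 * ρ) L r (L ^ 12 * F) (L ^ 4 * F)) :
    Iq S M m a (2 * S.C) u V kA w Pn ez x (L * X2) uc (aa / (100 * S.C ^ 3)) aa (L ^ 3 * r / aa)
      (y / 2) (max (M.s V) y) y a1 ρ L r F A1 Hh R p g' γ := by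
  have q := T20.qn H.cl H.mem G H.toHy Q
  have h := H.cl
  have A := H.A
  have C0 := h.C0
  have C1 := h.C1
  have L1 := G.L1
  have L0 : 0 < L := by linarith
  have L1' : 1 ≤ L := by linarith
  have r0 := W.nk.r0
  have r2 : 0 < r ^ 2 := by positivity
  have a0 := W.a0
  have ey := W.ey
  have lg1 := G.lg1
  have lg := G.lg
  have wJ := (pn.mem _ pw).2
  have n0 := h.N0
  have j0 := q.j0
  have γ0 := q.γ0
  have X0 := q.F.X2
  have b0 : 0 ≤ bs S Lg X2 g' η (M.s S.J) := q.g0.trans q.gb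
  have J0 : 0 ≤ qJ L S j γ := by unfold qJ; positivity
  have JF : qJ L S j γ ≤ F := W.nk.jF.trans hF
  have Lr : L * r ≤ ρ := by
    rw [hρ, mul_assoc]; exact le_mul_of_one_le_left (by positivity) lg1
  have rL : ρ ≤ L ^ 2 * r := by
    rw [hρ, pow_two]; gcongr
  have F0 : 0 ≤ F := J0.trans JF
  have Fr : qF L S M Lg X2 j γ η g' * r ^ 2 ≤ F * r ^ 2 := mul_le_mul_of_nonneg_right hF r2.le
  have θ0 : 0 ≤ S.θ := (A.ms_pos le_rfl).le.trans (h.ms1 0)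
  refine ⟨A, ey, W.nw.ju, ?_, W.nw.b1, W.nw.su, W.nw.sv, W.nw.bu, le_max_right _ _,
    by linarith [h.sm W.VV, W.s2], L1, G.LC, r0, ?_, Lr, rL, by linarith [W.w1, mul_pos L0 r0], a11,
    a12, fl, top, v1, v2, pn, pw, by positivity, div_le_self a0.le ?_, ?_,
    fun k p q => W.hg k p (q.trans W.VV), W.nk.gF.trans Fr, hH, ?_, ?_, W.nk.rb,
    (mid53 H (k3.trans kw) wJ.le c1 c2 z1 z2).trans JF, H.lp.γ0, le_trans ?_ JF, k3, kw, kz, ?_, R0,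
    sp, hJ, fun t ht => (W.hp t ⟨le_trans ?_ ht.1, ht.2⟩).trans JF, W.nk.vF.trans hF,
    W.nk.mF.trans Fr, sm, win⟩
  · have a1 := h.sm h.i1
    have a2 := le_mul_of_one_le_left (s_nn h S.jl) L1'
    linarith [q.F.jl, q.lJ, W.y2, q.F.l0]
  · have a1 : r ≤ √S.θ := by rw [W.er]; exact sqrt_le_sqrt (h.ms1 _)
    have E0 : 0 < E := by linarith [H.E9]
    have a2 := mul_le_mul_of_nonneg_left (a1.trans (le_of_eq rfl)) E0.le
    have a3 := mul_le_mul_of_nonneg_left (a2.trans H.lt.ℓ1) E0.le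
    have a4 : E * (E * r) ≤ L := by
      linarith [H.lt.ℓ2, h.s_le_C h.i3, G.LC, le_self_pow₀ C1 (show 3 ≠ 0 by norm_num)]
    have a5 := mul_le_mul H.LE1 (mul_le_mul_of_nonneg_right (H.LE 11) r0.le) (by positivity) E0.le
    exact le_of_mul_le_mul_left (by linarith) L0
  · linarith [one_le_pow₀ (n := 3) C1]
  · rw [div_mul_cancel₀ _ a0.ne']
    linarith [mul_le_mul_of_nonneg_right L1 (by positivity : 0 ≤ L ^ 2 * r)]
  · have a1 := W.nk.oF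
    have a2 : L ^ 2 * (L * X2) ≤ qO L S M Lg X2 := by
      unfold qO
      have : 0 ≤ L ^ 3 * X2 := by positivity
      have : 0 ≤ L ^ 3 * uw S Lg (M.s S.J) ^ 2 := by positivity
      linarith
    have a3 := le_mul_of_one_le_left W.nw.o0 W.nk.N1
    linarith [mul_le_mul_of_nonneg_right hF r0.le]
  · have := pow_le_pow_left₀ (sqrt_nonneg _) W.th 2
    rwa [sq_sqrt θ0, mul_pow] at this
  · unfold qJ
    have : 0 ≤ 1 / (S.n : ℝ) := by positivity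
    exact le_trans (by linarith) (le_mul_of_one_le_left (by positivity) (one_le_pow₀ L1'))
  · have a1 := h.leg.zm ((Nat.sub_le kA 1).trans kw)
    have a2 := mul_le_mul_of_nonneg_left (show c0 / 2 ≤ 1 - M.z (kA - 1) by linarith) L0.le
    linarith
  · rw [ey]; exact (A.sb_mem ((W.VV.trans W.VJ.le).trans h.i3)).1

end Crest.Agent.T156.Alt.L63

end
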