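import Crest.Agent.T156.TLqP_20

/-!
# Row 156, block (L): the set-up of the last window (helper20)
-/

set_option autoImplicit false

noncomputable section

namespace Crest.Agent.T156.Alt.L63

open MeasureTheory Real Finset
open Crest.Agent.T156.Alt.L69 Crest.Agent.T156.Alt.Mp9 Crest.Agent.T156.Alt.Ap63
open Crest.Agent.R164.GC Crest.Agent.R339.B Crest.Agent.R339.Var Crest.Agent.T157.Pf

namespace T20

variable {S : Sc} {M : Md} {m : ℕ} {a : ℝ} {K E L l0 l X Lg X2 X3 G0 V0 : ℝ} {η : ℝ → ℝ}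

/-- (E1) between two good nodes above `s J / 2`, the label clock being summed -/
theorem e_two (G : Rg K E L S) (F : Fb L S M m a l X Lg X2 η) (H : LN E S M l0 l V0 X Lg X2 X3 G0 η)
    {Gn : ℕ → Prop} {i0 i1 u V : ℕ} (Nd : Nt E L S M m a Lg X X2 η Gn i0 i1)
    (lJ : 2 * l ≤ M.s S.J) (s0 : M.s S.J / 2 ≤ M.s i0) (hu : i0 ≤ u) (uV : u ≤ V) (h1 : V ≤ i1)
    (iJ : i1 < S.J) (gu : Gn u) (gV : Gn V) (g1 : Gn i1) {Γ : ℝ}
    (hΓ : ∀ i k, Nx Gn u i1 i k → sb M m a (k + 1) - sb M m a (i + 1) ≤ Γ) {Q : ℝ}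
    (hQ : |L0.Gd (lb M S m a (2 * S.C)) (sb M m a (V + 1))| +
      |L0.Gd (lb M S m a (2 * S.C)) (sb M m a (i1 + 1))| ≤ L * Q) :
    |res M S m a (2 * S.C) i1 - res M S m a (2 * S.C) V| ≤ 16 * L * η (M.s S.J) +
      qO L S M Lg X2 * Q + qO L S M Lg X2 * (sb M m a (i1 + 1) - sb M m a (V + 1)) +
      (qO L S M Lg X2 + 2 * L ^ 3 * Γ ^ 2) * (M.z i1 - M.z V) := by
  have A := F.at'
  have h := A.cl
  have L1 := G.L1
  have L0 : 0 < L := by linarith
  have L1' : 1 ≤ L := by linarith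
  have l0' := F.l0
  have X0 := F.X2
  have sJ : M.s S.J ≤ S.C := h.s_le_C h.i3
  have mlq : ∀ s, l ≤ s → s ≤ S.C → √(S.ms s) ≤ s := fun s p q =>
    (le_mul_of_one_le_left (sqrt_nonneg _) (one_le_pow₀ L1')).trans (F.ml s p q)
  have nd : ∀ i, u ≤ i → i ≤ i1 → uw S Lg (M.s i) ^ 2 ≤ 16 * uw S Lg (M.s S.J) ^ 2 := fun i p q => by
    have d2 := h.sm (hu.trans p)
    obtain ⟨d3, d4⟩ := uw_le h F.F1 Lg (s := M.s i) (t := M.s S.J) (by linarith)
      (mlq _ (by linarith) sJ) (mlq _ (by linarith) (h.s_le_C ((q.trans iJ.le).trans h.i3)))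
      (by linarith)
    linarith [pow_le_pow_left₀ d3 d4 2]
  have L3 : L ≤ L ^ 3 := le_self_pow₀ L1' (by norm_num)
  have L2 : L ^ 2 ≤ L ^ 3 := pow_le_pow_right₀ L1' (by norm_num)
  have x1 : 0 ≤ L ^ 3 * X2 := by positivity
  have x2 : 0 ≤ L ^ 3 * uw S Lg (M.s S.J) ^ 2 := by positivity
  have cc : ∀ y, V ≤ y → y ≤ i1 → L * E61.u4 M m a y ^ 2 ≤ qO L S M Lg X2 + 2 * L ^ 3 * Γ ^ 2 := by
    intro y p q
    obtain ⟨i, k, n, p1, p2⟩ := exists_nx' gu g1 (uV.trans p) q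
    have d2 := nd i n.1 (n.2.1.trans n.2.2.1)
    have d3 := pow_le_pow_left₀ (sqrt_nonneg _) (Nd.u4 i k y (n.up hu le_rfl) p1 p2) 2
    have d8 := pow_le_pow_left₀ (sub_nonneg.2 (A.sb_mono (Nat.succ_le_succ n.2.1))) (hΓ i k n) 2
    have d4 : (uw S Lg (M.s i) + (sb M m a (k + 1) - sb M m a (i + 1))) ^ 2 ≤
        32 * uw S Lg (M.s S.J) ^ 2 + 2 * Γ ^ 2 := by
      simp only [Nat.succ_eq_add_one] at d8
      linarith [sq_nonneg (uw S Lg (M.s i) - (sb M m a (k + 1) - sb M m a (i + 1)))]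
    have d5 := mul_le_mul_of_nonneg_left d4 (pow_pos L0 3).le
    have d6 := mul_le_mul_of_nonneg_left d3 L0.le
    change L * E61.u4 M m a y ^ 2 ≤ _ at d6
    unfold qO
    linarith only [d5, d6, x1]
  have cm : 0 ≤ qO L S M Lg X2 + 2 * L ^ 3 * Γ ^ 2 := by unfold qO; positivity
  have d3 : L * ∑ y ∈ Ioo V i1, M.dz m a y * E61.u4 M m a y ^ 2 ≤
      (qO L S M Lg X2 + 2 * L ^ 3 * Γ ^ 2) * (M.z i1 - M.z V) := by
    rw [← At.sum_dz M h1, mul_sum, mul_sum]
    refine (sum_le_sum fun y hy => ?_).trans (sum_le_sum_of_subset_of_nonneg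
      Ioo_subset_Ioc_self fun y _ _ => mul_nonneg cm (A.dz_nn y))
    rw [Md67.dz_up h.leg (Nat.zero_lt_of_lt (mem_Ioo.1 hy).1)]
    linarith [mul_le_mul_of_nonneg_left (cc y (mem_Ioo.1 hy).1.le (mem_Ioo.1 hy).2.le) (A.dz_nn y)]
  refine (Nd.e1 V i1 (hu.trans uV) h1 le_rfl gV g1).trans ?_
  have d0 := sub_nonneg.2 (A.sb_mono (Nat.succ_le_succ h1))
  have d1 : η (M.s V) ≤ 16 * η (M.s S.J) := by
    have d5 := H.ηa (show M.s S.J / 2 ≤ M.s V by linarith [h.sm (hu.trans uV)])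
    have d6 := H.η2 (M.s S.J / 2) (by linarith)
    rw [show 2 * (M.s S.J / 2) = M.s S.J by ring] at d6
    linarith
  have Q0 : 0 ≤ Q := nonneg_of_mul_nonneg_right ((add_nonneg (abs_nonneg _) (abs_nonneg _)).trans hQ) L0
  have d4 : L ^ 2 * uw S Lg (M.s V) ^ 2 ≤ qO L S M Lg X2 := by
    have e1 := mul_le_mul L2 (nd V uV h1) (sq_nonneg _) (pow_pos L0 3).le
    unfold qO
    linarith
  have d5 : L * X2 ≤ qO L S M Lg X2 := by
    have e1 := mul_le_mul_of_nonneg_right L3 X0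
    unfold qO
    linarith
  have d6 := mul_le_mul_of_nonneg_left hQ (by positivity : 0 ≤ L * uw S Lg (M.s V) ^ 2)
  have d9 := mul_le_mul_of_nonneg_right d4 Q0
  have d7 := mul_le_mul_of_nonneg_right d5 d0
  have d8 := mul_le_mul_of_nonneg_left d1 L0.le
  simp only [Nat.succ_eq_add_one] at d7
  linarith only [d3, d6, d7, d8, d9]

end T20

open T20

set_option maxHeartbeats 1600000 in
/-- **the set-up of the last window** -/
theorem sqAt : SqAt := by
  intro T0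
  obtain ⟨K1, HU⟩ := uq_at T0
  obtain ⟨K2, K21, HG⟩ := gd_nd T0
  refine ⟨max K1 K2, fun {S M m a K E L G1 u1 u2 j γ Lc ηc τ l0 l X Xp Vt Lg Lp X2 X3 X4 G0 N t1 ℓ En
    p0 aa g' R2 η g} hT h hm hK G H Q' Gn hN => ?_⟩
  have Q := qn h hm G H Q'
  obtain ⟨i0, V2, i02, VJ, g0, g2, s0, s0', s1, s2⟩ := ends' G Q hN
  have F := Q.F
  have A := F.at'
  have C1 := h.C1
  have C0 := h.C0
  have L1 := G.L1
  have L0 : 0 < L := by linarith
  have L1' : 1 ≤ L := by linarith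
  have l0' := F.l0
  have lJ := Q.lJ
  have a0 := Q.a0
  have j0 := Q.j0
  have γ0 := Q.γ0
  have gb := Q.gb
  have gz := Q.g0
  have th := Q.th
  have n0 := h.N0
  have n1 : 0 < 1 / (S.n : ℝ) := by positivity
  have sJ : M.s S.J ≤ S.C := h.s_le_C h.i3
  have pw : ∀ i k : ℕ, i ≤ k → L ^ i ≤ L ^ k := fun i k => pow_le_pow_right₀ L1'
  have G' : Rg K1 E L S := { G with
    LK := (mul_le_mul_of_nonneg_right ((le_max_left _ _).trans hK) C0.le).trans G.LK }
  have KL : K2 ≤ L := (le_mul_of_one_le_right (by linarith) C1).trans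
    ((mul_le_mul_of_nonneg_right ((le_max_right _ _).trans hK) C0.le).trans G.LK)
  set B := bs S Lg X2 g' η (M.s S.J) with hB
  have sm : 1000 * (aa + j + B + γ) ≤ √S.θ := (mul_le_mul_of_nonneg_right
    (L1.trans (by simpa using pw 1 67 (by norm_num))) (by linarith)).trans Q.sm
  have Nd := hN i0 V2 (by linarith) (by linarith)
  have hg : ∀ k, i0 ≤ k → k ≤ V2 → |M.G k| ≤ g' := fun k p q =>
    Q.g1 k (q.trans_lt VJ) (s0.trans (h.sm p)) (by linarith [h.sm q])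
  have lo : ∀ k, i0 ≤ k → k ≤ V2 → 15 / 16 * M.s k ≤ sb M m a (k + 1) ∧
      (M.s k + l / 8 ≤ M.s S.J → sb M m a (k + 1) ≤ 17 / 16 * M.s k) := fun k p q =>
    F.loc k (q.trans_lt VJ) (by linarith [h.sm p]) (by linarith [hg k p q, h.sm p])
  have b0 := (lo i0 le_rfl i02).2 (by linarith)
  have b2 := (lo V2 i02 le_rfl).1
  have sk : ∀ k, k ≤ V2 → M.s k ≤ M.s S.J := fun k p => h.sm (p.trans VJ.le)
  have dv : ∀ x, 0 ≤ x → 4 * x / L ^ 11 ≤ x := fun x x0 => by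
    rw [div_le_iff₀ (by positivity)]
    linarith [mul_le_mul_of_nonneg_left (show 4 ≤ L ^ 11 by linarith [pw 1 11 (by norm_num)]) x0]
  obtain ⟨V, y, hy, iV, VV, gV, y1, y2, di, di2⟩ : ∃ V y, y = sb M m a (V + 1) ∧ i0 ≤ V ∧ V ≤ V2 ∧ Gn V ∧
      y + aa / 4 ≤ M.s S.J ∧ 9 / 10 * M.s S.J ≤ y ∧
      (V = V2 ∨ M.s S.J ≤ y + aa / 4 + 4 * √(S.ms (y / 2)) / L ^ 11) ∧
      (V = V2 ∨ ∃ k, Nx Gn i0 V2 V k ∧ M.s S.J ≤ sb M m a (k + 1) + aa / 4) := by
    rcases le_total (sb M m a (V2 + 1)) (M.s S.J - aa / 4) with c | c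
    · exact ⟨V2, _, rfl, i02, le_rfl, g2, by linarith, by linarith, Or.inl rfl, Or.inl rfl⟩
    obtain ⟨i, k, n, c1, c2⟩ := exists_nx (σ := fun k => sb M m a (k + 1)) (t := M.s S.J - aa / 4)
      i02 g0 g2 (by linarith) c
    have i2 := n.2.1.trans n.2.2.1
    have c3 := ((sh' G h A Nd (t := M.s S.J) (by linarith) n (by linarith [sk i i2])).trans
      (dv _ (sqrt_nonneg _))).trans (sqrt_le_sqrt (h.ms1 _))
    have c4 := sh' G h A Nd (t := sb M m a (i + 1)) (by linarith) n (by linarith [sk i i2])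
    exact ⟨i, _, rfl, n.1, i2, n.2.2.2.1, by linarith, by linarith, Or.inr (by linarith),
      Or.inr ⟨k, n, by linarith⟩⟩
  have y0 : 0 < y := by linarith
  have J0 : 0 ≤ qJ L S j γ := by unfold qJ; positivity
  obtain ⟨u, iu, uV, W, nk, -, w1, w2⟩ := nw_at G F H.ln Nd (by linarith) g0 gV iV VV (VV.trans_lt VJ)
    hy (by linarith) (by linarith) (by linarith) (by linarith [sk V VV])
    (fun k p _ c => by linarith [h.sm p]) (t' := M.s S.J) (by linarith) sJ (by linarith) gz J0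
    fun k p q _ _ => hg k p (q.trans VV)
  have gap := fun i k (n : Nx Gn u V2 i k) =>
    sh' G h A Nd y0 (n.up iu le_rfl) (by linarith [sk i (n.2.1.trans n.2.2.1)])
  have r0 := nk.r0
  have r2 := nk.r2
  have ra := nk.ra
  have rt : ∀ t, t ≤ y → √(S.ms (t / 2)) ≤ √(S.ms (y / 2)) := fun t c =>
    sqrt_le_sqrt (h.msm (by linarith))
  set r := √(S.ms (y / 2)) with hr
  have C3 : 1 ≤ S.C ^ 3 := one_le_pow₀ C1
  have LC := G.LC
  have tr : √S.θ ≤ L * r := by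
    have e1 : 1 ≤ 3 * S.C ^ 2 * M.s S.J := by
      have e2 := h.atom.1
      have i2 := h.i2
      have i1 := h.i1
      have e3 := (h.z_s (k := S.J - 1) (by omega) (by omega)).2
      have e4 := h.sm (Nat.sub_le S.J 1)
      have e5 : S.v ≤ aa := (le_mul_of_one_le_left h.v0.le (one_le_pow₀ L1')).trans Q.va
      have e6 := mul_le_mul_of_nonneg_left
        (show M.s (S.J - 1) + 2 * S.v ≤ 3 * M.s S.J by linarith) C0.le
      rw [div_le_iff₀ C0] at e2
      linarith [mul_le_mul_of_nonneg_right (e3.trans e6) C0.le]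
    have e2 := h.ms_mul (t := y / 2) (k := 8 * S.C ^ 2) (by linarith)
      (by linarith [one_le_pow₀ C1 (n := 2)])
    have e3 : S.θ ≤ S.ms (8 * S.C ^ 2 * (y / 2)) := h.msm (by
      linarith [mul_le_mul_of_nonneg_left y2 (sq_nonneg S.C)])
    have e4 := pow_le_pow_left₀ (by positivity) LC 2
    have e5 : S.C ^ 4 ≤ S.C ^ 6 := pow_le_pow_right₀ C1 (by norm_num)
    have e6 := mul_le_mul_of_nonneg_right (show 4 * (8 * S.C ^ 2) ^ 2 ≤ L ^ 2 by
      linarith [pow_pos C0 6]) (sq_nonneg r)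
    rw [sqrt_le_left (by positivity), mul_pow]
    rw [← r2] at e2
    linarith
  have Fb' : qF L S M Lg X2 j γ η g' ≤ 2 * L ^ 7 * (j + γ + B) := by
    have e1 := mul_le_mul_of_nonneg_left Q.nb (pow_pos L0 7).le
    have e2 := mul_le_mul_of_nonneg_right (pw 5 7 (by norm_num)) (gz.trans gb)
    have e3 : 0 ≤ L ^ 7 * (j + γ) := by positivity
    unfold qF qJ
    linarith
  have sm' : L ^ 50 * (qF L S M Lg X2 j γ η g' + aa) ≤ r := by
    have e1 := mul_le_mul_of_nonneg_left Fb' (pow_pos L0 50).le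
    have e2 := mul_le_mul_of_nonneg_right (pw 50 57 (by norm_num)) a0.le
    have e3 : L ^ 66 * (aa + j + B + γ) ≤ r := le_of_mul_le_mul_left
      (le_trans (by linarith) (Q.sm.trans tr)) L0
    have e4 := mul_le_mul_of_nonneg_right (show 2 * L ^ 57 ≤ L ^ 66 by
      have := mul_le_mul_of_nonneg_right L1 (pow_pos L0 57).le
      linarith [pw 58 66 (by norm_num), pow_pos L0 57]) (show 0 ≤ aa + j + B + γ by linarith)
    have e5 : 0 ≤ L ^ 57 * aa := by positivity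
    linarith
  have F0 : 0 ≤ qF L S M Lg X2 j γ η g' := J0.trans nk.jF
  refine ⟨u, V, V2, y, r, hy, hr, W, nk, gap, w1, w2, Q.hp, VV, VJ, g2, s1, s2, y1, y2,
    s0.trans (h.sm iu), di, di2.imp_right fun ⟨k, n, c⟩ => ⟨k, ⟨uV, n.2⟩, c⟩, ?_, fun k p q => hg k (iu.trans p) q, fun t c1 c2 => ?_, a0, sm', tr,
    Fb'.trans (mul_le_mul_of_nonneg_right (by
      linarith [mul_le_mul_of_nonneg_right L1 (pow_pos L0 7).le, pow_pos L0 7]) (by linarith))⟩
  · have o0 : 0 ≤ qO L S M Lg X2 := W.o0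
    have z0 : 0 ≤ M.z V2 - M.z V := sub_nonneg.2 (h.leg.zm VV)
    have d0 : 0 ≤ sb M m a (V2 + 1) - y := hy ▸ sub_nonneg.2 (A.sb_mono (Nat.succ_le_succ VV))
    rcases di with c | c
    · subst c
      rw [sub_self, abs_zero]
      positivity
    have jV : S.jl ≤ V := W.ju.le.trans uV
    have Vp : V2 ≤ S.Jp := VJ.le.trans h.i3
    have m1 := A.sb_mem (VV.trans Vp)
    have m2 := A.sb_mem Vp
    have p1 := HG A hT.le (h.i1.trans (jV.trans VV)) VJ m1 (Q.hp _ m1)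
    have p2 := HG A hT.le (h.i1.trans (jV.trans VV)) VJ m2 (Q.hp _ m2)
    rw [A.lvb_node jV (VV.trans Vp), abs_sub_comm (M.z V), abs_of_nonneg z0] at p1
    rw [A.lvb_node (jV.trans VV) Vp, sub_self, abs_zero] at p2
    have ar : aa ≤ r := le_trans (by linarith)
      ((le_mul_of_one_le_left (by linarith) (one_le_pow₀ L1')).trans sm')
    have Γr := dv r r0.le
    have e1 : |y - M.s V2| ≤ r := abs_le.2 ⟨by linarith, by linarith⟩
    have e2 : |sb M m a (V2 + 1) - M.s V2| ≤ r + (sb M m a (V2 + 1) - y) :=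
      abs_le.2 ⟨by linarith [(abs_le.1 e1).1], by linarith [(abs_le.1 e1).2]⟩
    have e3 : S.ms (M.s V2) / M.s V2 ≤ 16 * r := by
      have f1 := h.ms_pow (half_pos y0).le 2
      norm_num at f1
      have f2 := h.msm (show M.s V2 ≤ 4 * (y / 2) by linarith)
      rw [div_le_iff₀ (by linarith)]
      linarith [mul_le_mul_of_nonneg_left (show r ≤ M.s V2 by linarith) r0.le]
    have e4 := mul_le_mul (show 32 * S.C ≤ L by
      linarith [le_self_pow₀ C1 (show 3 ≠ 0 by norm_num)]) (le_refl r) r0.le L0.le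
    have e5 := mul_le_mul_of_nonneg_left e3 C0.le
    rw [← hy] at p1
    have e6 := mul_le_mul KL (add_le_add (le_refl (qJ L S j γ)) e1) (by positivity) L0.le
    have e7 := mul_le_mul KL (add_le_add (le_refl (qJ L S j γ)) e2) (by positivity) L0.le
    have e8 := le_mul_of_one_le_left z0 L1'
    have fin := e_two G F H.ln Nd (by linarith) s0 iu uV VV VJ W.gu gV g2 gap
      (Q := 3 * r + 2 * qJ L S j γ + 2 * (M.z V2 - M.z V) + (sb M m a (V2 + 1) - y))
      (by rw [← hy]; linarith)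
    rw [← hy] at fin
    have f1 := nk.eF
    have f2 : qO L S M Lg X2 ≤ qF L S M Lg X2 j γ η g' * r :=
      (le_mul_of_one_le_left o0 nk.N1).trans nk.oF
    have f3 : qO L S M Lg X2 ≤ r ^ 2 := (le_mul_of_one_le_left o0 (one_le_pow₀ L1')).trans nk.o1
    have f4 := mul_le_mul_of_nonneg_right f2 r0.le
    have f5 := mul_le_mul f3 nk.jF J0 (sq_nonneg r)
    have f6 := mul_le_mul_of_nonneg_right (show 6 ≤ L ^ 2 by linarith [pw 1 2 (by norm_num)])
      (mul_nonneg F0 (sq_nonneg r))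
    have f7 := mul_le_mul_of_nonneg_right (show 2 ≤ L by linarith) (mul_nonneg o0 d0)
    have f8 := W.e0
    change _ ≤ qF L S M Lg X2 j γ η g' * r ^ 2 at f1
    change _ ≤ r ^ 2 * qF L S M Lg X2 j γ η g' at f5
    linarith only [fin, f1, f4, f5, f6, f7, f8]
  · have lg1 := G.lg1
    have w0 : 0 ≤ 2 * log S.n * L := by positivity
    have e1 := mul_le_mul_of_nonneg_left (rt t (by nlinarith [mul_nonneg w0 r0.le])) w0
    exact HU hT G' F H.ln Nd (by linarith) s0 (by linarith) g0 gV iV VV (VV.trans_lt VJ)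
      (by linarith) gz (fun k p q => hg k p (q.trans VV)) Q.hp c1 (by linarith)

end Crest.Agent.T156.Alt.L63

end
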