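import Crest.Agent.T156.TLqZ_20
import Crest.Agent.T156.TLqH_53
import Crest.Agent.T156.TLqF_26
import Crest.Agent.T156.TLqW_54
import Crest.Agent.T156.TLqJ_20
import Crest.Agent.T156.TLqS_20
import Crest.Agent.T156.TLqU_45

/-!
Row 156, block (L) (helper45): the body of `TLq`, assembly.
-/

set_option autoImplicit false

noncomputable section

namespace Crest.Agent.T156.Alt.L63

open Set Real
open Crest.Agent.T156.Alt.L69 Crest.Agent.T156.Alt.Mp9

set_option maxHeartbeats 1600000 in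
/-- **the body of `TLq`** -/
theorem tlqAt45 : TlqAt 161 := by
  intro T0
  obtain ⟨K1, H1⟩ := sqAt T0
  obtain ⟨K2, H2⟩ := fl36 T0
  obtain ⟨K3, H3⟩ := win36 T0
  obtain ⟨K4, H4⟩ := last26 T0
  obtain ⟨K5, H5⟩ := spq45 T0
  refine ⟨max (max K1 K2) (max (max K3 K4) K5), fun {S M m a K E L G1 u1 u2 j γ Lc ηc τ l0 l X Xp Vt Lg
    Lp X2 X3 X4 G0 N t1 ℓ En p0 aa g' R2 t0 f η g V0 k0} hT hK hL G LE lg H Q P Gn hN hP => ?_⟩
  simp only [max_le_iff] at hK hL
  have h := H.cl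
  have A := H.A
  have C0 := h.C0
  have C1 := h.C1
  have L1 := H.L1
  have L9 := H.L9
  have L0 : 0 < L := by linarith only [L1]
  have LE2 : L ^ 200 ≤ E := (pow_le_pow_right₀ L1 (by norm_num)).trans LE
  obtain ⟨u, V, V2, y, r, W⟩ := H1 hT h H.mem hK.1.1 G H.toHy Q Gn hN
  have q := T20.qn h H.mem G H.toHy Q
  have a0 := W.a0
  have k := W.kit G LE2 lg q (hN u V2 (by linarith only [q.lJ, W.su, H.l0'])
    (by linarith only [W.s2, a0]))
  have r0 := k.r0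
  have θ0 := h.θ0
  have pw : ∀ {i n : ℕ} {z : ℝ}, 0 ≤ z → i < n → 1000 * (L ^ i * z) ≤ L ^ n * z := fun {i n z} z0 e => by
    rw [← mul_assoc]
    refine mul_le_mul_of_nonneg_right (le_trans ?_ (pow_le_pow_right₀ L1 (Nat.succ_le_of_lt e))) z0
    rw [pow_succ']
    exact mul_le_mul_of_nonneg_right (by linarith only [L9]) (by positivity)
  have one : ∀ {z : ℝ} (n : ℕ), 0 ≤ z → z ≤ L ^ n * z := fun n z0 =>
    le_mul_of_one_le_left z0 (one_le_pow₀ L1)
  have mo : ∀ {i n : ℕ} {z : ℝ}, 0 ≤ z → i ≤ n → L ^ i * z ≤ L ^ n * z := fun z0 e =>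
    mul_le_mul_of_nonneg_right (pow_le_pow_right₀ L1 e) z0
  have rθ : r ≤ √S.θ := by rw [W.er]; exact sqrt_le_sqrt (h.ms1 _)
  have θr : S.θ ≤ L ^ 2 * r ^ 2 := by
    have := pow_le_pow_left₀ (sqrt_nonneg _) W.th 2
    rwa [sq_sqrt θ0.le, mul_pow] at this
  have r1 : r ≤ 1 := (one 66 r0.le).trans k.r1
  have E0 : 0 ≤ E := L0.le.trans H.LE1
  have CL : 4 * S.C ^ 2 ≤ L := H.KL 2 (by norm_num)
  have CL1 : 2 * S.C ≤ L := by linarith only [H.KL (c := 2) 1 (by norm_num)]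
  have aD : aa ≤ L ^ 3 * r := ((one 50 a0.le).trans k.ar).trans (one 3 r0.le)
  obtain ⟨Pn, pn⟩ := hP (L ^ 3 * r) aD (by
    have b1 := (mul_le_mul_of_nonneg_left rθ E0).trans H.lt.ℓ1
    have b2 : L ^ 4 * ℓ ≤ S.C := (H.dv (H.LE 4) H.ℓ0.le H.lt.ℓ2).trans H.tuC
    have b3 := mul_le_mul_of_nonneg_left b1 (show 0 ≤ L ^ 4 by positivity)
    refine le_of_mul_le_mul_left ?_ L0
    linarith only [b2, b3, CL1, C0])
  obtain ⟨w, kA, Z⟩ := H5 H hT.le hL.2.2 Q aD (mul_le_mul_of_nonneg_left rθ (by positivity)) pn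
  obtain ⟨c0, c1, c2, z1, z2⟩ := Z.cz
  have wJ : S.J ≤ w := Z.k1.le.trans Z.k2
  have j0 := q.j0
  have γ0 := q.γ0
  have b0 : 0 ≤ bs S Lg X2 g' η (M.s S.J) := q.g0.trans q.gb
  have F0 := k.F0
  have qJ0 : 0 ≤ qJ L S j γ := by have := H.μ0; unfold qJ; positivity
  have F := H2 hT hK.1.2 G LE2 lg H.ln q hN W w wJ Z.k3.le
    ((mid53 H wJ Z.k3.le c1 c2 z1 z2).trans (by
      unfold qF; exact (le_add_of_nonneg_right b0).trans (one 5 (by positivity)))) Z.conc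
  have u20 : 0 ≤ u2 := by linarith only [H.lp.u1a, H.lp.u1b.1, h.last, h.leg.z1 (S.Jp - 1)]
  have R0 : 0 ≤ R2 := le_trans (by positivity) Q.q4
  have s0 := sqrt_nonneg R2
  have s2 := sq_sqrt R0
  have γs : γ ≤ √R2 := le_sqrt_of_sq_le (by linarith only [Q.q4, u20, sq_nonneg X2])
  have sr : L ^ 98 * √R2 ≤ r := by
    refine le_of_pow_le_pow_left₀ four_ne_zero r0.le (le_of_mul_le_mul_left ?_ (pow_pos L0 8))
    have b1 : L ^ 400 * R2 ^ 2 ≤ (L ^ 2 * r ^ 2) ^ 3 :=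
      ((mul_le_mul_of_nonneg_right LE (sq_nonneg _)).trans Q.q5).trans (pow_le_pow_left₀ θ0.le θr 3)
    have b2 : r ^ 6 ≤ r ^ 4 := pow_le_pow_of_le_one r0.le r1 (by norm_num)
    calc _ = L ^ 400 * (√R2 ^ 2) ^ 2 := by ring
      _ ≤ L ^ 6 * r ^ 6 := by rw [s2]; exact b1.trans (le_of_eq (by ring))
      _ ≤ L ^ 8 * r ^ 4 := mul_le_mul (pow_le_pow_right₀ L1 (by norm_num)) b2 (by positivity)
          (by positivity)
  obtain ⟨ρ, hρ⟩ : ∃ ρ, ρ = log S.n * L * r := ⟨_, rfl⟩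
  have Lr : 0 < L * r := by positivity
  have ρ1 : 14 * (L * r) ≤ ρ := by
    rw [hρ, mul_assoc]; exact mul_le_mul_of_nonneg_right lg Lr.le
  have ρ2 : ρ ≤ L ^ 2 * r := by
    rw [hρ, sq]; exact mul_le_mul_of_nonneg_right (mul_le_mul_of_nonneg_right G.lg L0.le) r0.le
  have ρ3 : 500 * ρ ≤ y := by
    refine le_of_mul_le_mul_left ?_ L0
    have b1 := mul_le_mul_of_nonneg_left ρ2 L0.le
    linarith only [b1, pw (i := 3) (n := 66) r0.le (by norm_num), k.r1, k.Pa]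
  have Lr1 : 1000 * r ≤ L * r := mul_le_mul_of_nonneg_right G.L1 r0.le
  have fl := F.fl
  have uq := F.uq
  rw [← hρ] at fl uq
  have yJ : y ≤ M.s S.J := by linarith only [W.y1, a0]
  have y2 := W.y2
  have sp := Z.sum (r ^ 2 / (2 * S.C)) y (by
      rw [← mul_div_assoc, le_div_iff₀ (by positivity)]
      exact (mul_le_mul θr CL1 (by positivity) (by positivity)).trans (le_of_eq (by ring)))
    (by
      have X0 := H.X20
      have b1 : L ^ 53 * X2 ≤ r ^ 2 := by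
        refine le_trans ?_ k.or
        have : 0 ≤ L ^ 53 * X2 := by positivity
        have : 0 ≤ L ^ 53 * uw S Lg (M.s S.J) ^ 2 := by positivity
        unfold qO; linarith
      rw [div_div, le_div_iff₀ (by positivity)]
      linarith only [b1, mo (i := 2) (n := 53) X0 (by norm_num),
        mul_le_mul_of_nonneg_right CL (mul_nonneg L0.le X0)])
    (by rw [W.ey]; exact A.sb_mono (by have := W.VV; have := W.VJ; omega))
    fun t p1 p2 => fl t ⟨by linarith only [p1, ρ1, Lr], p2.trans (A.sb_mem Z.k3.le).2⟩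
  have θs : 0 ≤ S.θ * √R2 := by positivity
  have I := iq53 H G Q W pn (a1 := y - 12 * ρ - L * r / 2) (Hh := L ^ 10 * √R2) hρ Z.pw Z.k1.le Z.k2
    c1 c2 z1 z2 Z.a1 (by
      have b1 : L ^ 8 * (S.θ * √R2) ≤ L ^ 8 * (L ^ 2 * r ^ 2 * √R2) := by gcongr
      linarith only [Z.er, Z.Gw, b1, pw (i := 7) (n := 8) θs (by norm_num),
        pw (i := 2) (n := 8) θs (by norm_num), mul_nonneg (pow_pos L0 8).le θs])
    (by positivity) sp le_rfl (by linarith only [ρ1, Lr]) (by linarith only [ρ1, Lr]) fl F.top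
    ((le_abs_self _).trans (uq _ (by linarith only [y2, ρ3, yJ, ρ1, Lr]) (by linarith only [ρ1, Lr])))
    F.lo le_rfl (by
      linarith only [sr, k.Fr, k.ar, r0, pw (i := 50) (n := 98) s0 (by norm_num),
        pw (i := 40) (n := 50) F0 (by norm_num), pw (i := 46) (n := 50) F0 (by norm_num),
        pw (i := 40) (n := 50) a0.le (by norm_num), pw (i := 46) (n := 50) a0.le (by norm_num)])
    fun B' p1 p2 => by rw [hρ]; exact H3 hT hK.2.1.1 W k F p1 p2
  have Fb : qF L S M Lg X2 j γ η g' ≤ L ^ 8 * (j + bs S Lg X2 g' η (M.s S.J) + √R2) :=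
    W.Fb.trans (mul_le_mul_of_nonneg_left (by linarith only [γs]) (by positivity))
  have J := jf20 A P (t2 := y - 12 * ρ - L * r / 2 + r) (U := L ^ 12 * qF L S M Lg X2 j γ η g')
    (by linarith only [y2, ρ3, yJ, ρ1, Lr, r0]) (by linarith only [yJ, ρ1, Lr, Lr1, r0])
    (by positivity) (fun t p1 p2 => uq t p1 (by linarith only [p2, Lr1, r0])) H.ℓ0.le
  set b := bs S Lg X2 g' η (M.s S.J) with hb
  have x0 : 0 ≤ j + b + √R2 := by positivity
  refine H4 hT H.mem hK.2.1.2 G LE2 H.toHy Q W I ?_ ?_ (Fb.trans (mo x0 (by norm_num))) ?_ ?_ ?_ ?_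
  · linarith only [W.w1, hρ, ρ1, Lr, r0]
  · linarith only [hρ, ρ1, Lr, Lr1, r0]
  · have b1 := mul_le_mul_of_nonneg_left Fb (show 0 ≤ L ^ 6 by positivity)
    linarith only [b1, mo (i := 6) (n := 30) a0.le (by norm_num), mo (i := 14) (n := 30) x0 (by norm_num)]
  · exact (mul_le_mul_of_nonneg_left (by linarith only [j0, b0]) (by positivity)).trans
      (mo (i := 10) x0 (by norm_num))
  · rw [mul_pow, s2, ← pow_mul]
    exact (mo R0 (by norm_num)).trans (mul_le_mul_of_nonneg_left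
      (le_add_of_nonneg_right (by positivity)) (by positivity))
  · have XR := H.R0
    have ℓ0 := H.ℓ0
    have jl0 := H.jl0
    have p00 := P.p00
    have X1 : X ^ ((1 : ℝ) / 3) ≤ 1 := by
      linarith only [H.dv H.E1 XR.le H.lt.lX, H.l1]
    have d3 : ℓ + X ^ ((1 : ℝ) / 3) + M.s S.jl ≤ 3 := by
      linarith only [H.ℓ1, X1, H.jl_l0, H.ln.l0l, H.l1]
    have GS0 : 0 ≤ GS M S (M.s S.J - ℓ) S.C :=
      Finset.sum_nonneg fun k _ => mul_nonneg (A.dz_nn k) (sq_nonneg _)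
    have GP0 : 0 ≤ GP M S := Finset.sum_nonneg fun k _ => mul_nonneg (A.dz_nn k) (sq_nonneg _)
    have b1 : 2 * ℓ + L * (X ^ ((1 : ℝ) / 3) + M.s S.jl) ≤ L * (ℓ + X ^ ((1 : ℝ) / 3) + M.s S.jl) := by
      linarith only [mul_le_mul_of_nonneg_right G.L1 ℓ0.le, ℓ0]
    have d0 : 0 ≤ ℓ + X ^ ((1 : ℝ) / 3) + M.s S.jl := by positivity
    unfold qB
    rw [← hb]
    generalize ℓ + X ^ ((1 : ℝ) / 3) + M.s S.jl = d at *
    have b2 := J.trans (add_le_add_right (mul_le_mul b1 (mul_le_mul_of_nonneg_left Fb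
      (show 0 ≤ L ^ 12 by positivity)) (by positivity) (by positivity)) _)
    have b3 : (j + b + √R2) ^ 2 ≤ 2 * (j + b) ^ 2 + 2 * R2 := by
      linarith only [sq_nonneg (j + b - √R2), s2]
    have b4 : d ^ 2 ≤ 3 * d := by linarith only [mul_le_mul_of_nonneg_right d3 d0]
    have b5 : d ^ 2 * (j + b + √R2) ^ 2 ≤ 6 * (d * (j + b) ^ 2) + 18 * R2 := by
      linarith only [mul_le_mul b4 b3 (sq_nonneg _) (by positivity), mul_le_mul_of_nonneg_right d3 R0]
    have b6 := mul_le_mul_of_nonneg_left b5 (show 0 ≤ L ^ 42 by positivity)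
    have b7 : 0 ≤ d * (j + b) ^ 2 := by positivity
    have b8 : 0 ≤ L ^ 108 * (aa ^ 3 + GS M S (M.s S.J - ℓ) S.C + GP M S + 1 / (S.n : ℝ) ^ 2) := by
      positivity
    refine (pow_le_pow_left₀ (abs_nonneg _) b2 2).trans ?_
    linarith only [b6, b8, sq_nonneg (L * p0 - L * d * (L ^ 12 * (L ^ 8 * (j + b + √R2)))),
      pw (i := 2) (n := 108) (sq_nonneg p0) (by norm_num), pw (i := 42) (n := 108) b7 (by norm_num),
      pw (i := 42) (n := 108) R0 (by norm_num), mul_nonneg (pow_pos L0 108).le (sq_nonneg p0),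
      mul_nonneg (pow_pos L0 108).le b7, mul_nonneg (pow_pos L0 108).le R0]

/-- **`TLq`** -/
theorem tlq45 (h1 : P1S) (h2 : NdTq) (h3 : PNq) : TLq := tlq_of 161 tlqAt45 h1 h2 h3

end Crest.Agent.T156.Alt.L63

end
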