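import Crest.Agent.T156.TLqF_26
import Crest.Agent.T156.TLqZ_20
import Crest.Agent.T156.TLqJ_20
import Crest.Agent.T156.TLqH_53
import Crest.Agent.T156.TLqU_45
import Crest.Agent.T156.TLqW_54

/-!
# Row 156, block (L), the last window: assembly (helper26)
-/

set_option autoImplicit false

noncomputable section

namespace Crest.Agent.T156.Alt.L63

open Real Finset
open Crest.Agent.T156.Alt.L69 Crest.Agent.T156.Alt.Mp9

theorem sig26 {L E r θ R2 : ℝ} (L2 : 100 ≤ L) (LE : L ^ 200 ≤ E) (r0 : 0 < r) (θ0 : 0 ≤ θ)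
    (R0 : 0 ≤ R2) (hθ : θ ≤ L ^ 2 * r ^ 2) (q5 : E * R2 ^ 2 ≤ θ ^ 3) (r1 : L ^ 66 * r ≤ 1) :
    L ^ 60 * √R2 ≤ r := by
  have L0 : 0 < L := by linarith
  have e1 := mul_le_mul_of_nonneg_right LE (sq_nonneg R2)
  have e3 := pow_le_pow_left₀ θ0 hθ 3
  have e4 : L ^ 6 * (L ^ 97 * R2) ^ 2 ≤ L ^ 6 * (r ^ 3) ^ 2 := by linarith
  have e5 := le_of_sq_le_sq' (le_of_mul_le_mul_left e4 (by positivity)) (by positivity)
  refine le_of_sq_le_sq' ?_ r0.le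
  rw [mul_pow, sq_sqrt R0]
  have e6 := mul_le_mul_of_nonneg_left e5 (show 0 ≤ L ^ 23 by positivity)
  have e7 := Q34.pw L2 (show 23 < 66 by norm_num) r0.le
  have e8 : L ^ 23 * r ≤ 1 := by linarith [show 0 ≤ L ^ 23 * r by positivity]
  linarith [mul_le_mul_of_nonneg_right e8 (sq_nonneg r)]

theorem p26 {L p0 ℓ c D F φ σ B : ℝ} (L2 : 100 ≤ L) (p00 : 0 ≤ p0) (ℓ0 : 0 ≤ ℓ) (c0 : 0 ≤ c)
    (hD : D = ℓ + c) (D1 : D ≤ 1) (F0 : 0 ≤ F) (φ0 : 0 ≤ φ) (σ0 : 0 ≤ σ) (hF : F ≤ L ^ 8 * (φ + σ))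
    (hB : p0 ^ 2 + D * φ ^ 2 + σ ^ 2 ≤ B) :
    (L * p0 + (2 * ℓ + L * c) * (L ^ 12 * F)) ^ 2 ≤ L ^ 108 * B := by
  have L0 : 0 < L := by linarith
  have D0 : 0 ≤ D := by linarith
  have e1 : (2 * ℓ + L * c) * (L ^ 12 * F) ≤ L * D * (L ^ 12 * (L ^ 8 * (φ + σ))) :=
    mul_le_mul (by rw [hD]; nlinarith) (mul_le_mul_of_nonneg_left hF (by positivity))
      (by positivity) (by positivity)
  have e2 : (L * p0 + (2 * ℓ + L * c) * (L ^ 12 * F)) ^ 2 ≤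
      (L * p0 + L ^ 21 * (D * φ) + L ^ 21 * (D * σ)) ^ 2 :=
    pow_le_pow_left₀ (by positivity) (by linarith) 2
  have e3 : (L * p0 + L ^ 21 * (D * φ) + L ^ 21 * (D * σ)) ^ 2 ≤
      3 * (L * p0) ^ 2 + 3 * (L ^ 21 * (D * φ)) ^ 2 + 3 * (L ^ 21 * (D * σ)) ^ 2 := by
    generalize L * p0 = x, L ^ 21 * (D * φ) = y, L ^ 21 * (D * σ) = z
    linarith [sq_nonneg (x - y), sq_nonneg (x - z), sq_nonneg (y - z)]
  have d1 : D ^ 2 ≤ D := pow_le_of_le_one D0 D1 two_ne_zero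
  have e4 := mul_le_mul_of_nonneg_right d1 (show 0 ≤ L ^ 42 * φ ^ 2 by positivity)
  have e5 := mul_le_mul_of_nonneg_right (d1.trans D1) (show 0 ≤ L ^ 42 * σ ^ 2 by positivity)
  have e6 := Q34.pw L2 (show 2 < 42 by norm_num) (sq_nonneg p0)
  have e7 := mul_le_mul_of_nonneg_left hB (show 0 ≤ L ^ 42 by positivity)
  have B0 : 0 ≤ B := le_trans (by positivity) hB
  have e8 := Q34.pw L2 (show 42 < 108 by norm_num) B0
  have e9 : 0 ≤ L ^ 2 * p0 ^ 2 := by positivity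
  have e10 : 0 ≤ L ^ 42 * B := by positivity
  linarith

/-- **the body of (TLq)** -/
theorem tlqAt26 : TlqAt 161 := fun T0 => by
  obtain ⟨K1, H1⟩ := sqAt T0
  obtain ⟨K2, H2⟩ := spq45 T0
  obtain ⟨K3, H3⟩ := fl36 T0
  obtain ⟨K4, H4⟩ := win36 T0
  obtain ⟨K5, H5⟩ := last26 T0
  refine ⟨max (max K1 K2) (max K3 (max K4 K5)), fun {S M m a K E L G1 u1 u2 j γ Lc ηc τ l0 l X Xp Vt
    Lg Lp X2 X3 X4 G0 N t1 ℓ En p0 aa g' R2 t0 f η g V0 k0} hT hK hL G LE lg H Q P Gn hN hP => ?_⟩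
  simp only [max_le_iff] at hK hL
  have h := H.cl
  have A := H.A
  have C0 := h.C0
  have C1 := h.C1
  have L1 := G.L1
  have L2 : 100 ≤ L := by linarith
  have L0 : 0 < L := by linarith
  have L1' : 1 ≤ L := by linarith
  have LE' : L ^ 200 ≤ E := (pow_le_pow_right₀ L1' (by norm_num)).trans LE
  obtain ⟨u, V, V2, y, r, W⟩ := H1 hT h H.mem hK.1.1 G H.toHy Q Gn hN
  have q := T20.qn h H.mem G H.toHy Q
  have a0 := W.a0
  have sJ0 := h.s_nn S.J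
  have k := W.kit G LE' lg q (hN u V2 (by linarith [W.su, q.lJ]) (by linarith [W.s2]))
  have r0 := k.r0
  have F0 := k.F0
  have pw := fun i j (hij : i < j) z (hz : 0 ≤ z) => Q34.pw L2 (i := i) (j := j) hij hz
  have nn : ∀ (i : ℕ) z, 0 ≤ z → 0 ≤ L ^ i * z := fun i z hz => by positivity
  have θ0 := h.θ0
  have q0 := sqrt_nonneg S.θ
  have rθ : r ≤ √S.θ := by rw [W.er]; exact sqrt_le_sqrt (h.ms1 _)
  have θr : S.θ ≤ L ^ 2 * r ^ 2 := by
    have := pow_le_pow_left₀ q0 W.th 2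
    rwa [sq_sqrt θ0.le, mul_pow] at this
  have ℓ0 := H.ℓ0
  have sC := h.s_le_C h.i3
  have C3 : S.C ≤ S.C ^ 3 := le_self_pow₀ C1 (by norm_num)
  have C2 : S.C ^ 2 ≤ S.C ^ 3 := pow_le_pow_right₀ C1 (by norm_num)
  have LC := G.LC
  have ℓs : L ^ 3 * ℓ ≤ 1 := by
    have e1 := H.dv (H.LE 4) ℓ0.le H.lt.ℓ2
    exact le_of_mul_le_mul_left (show L * (L ^ 3 * ℓ) ≤ L * 1 by linarith) L0
  have E0 := zero_le_one.trans H.E1
  obtain ⟨Pn, pn⟩ := hP (L ^ 3 * r)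
    (by linarith [k.ar, pw 0 50 (by norm_num) _ a0.le, pw 0 3 (by norm_num) _ r0.le]) (by
      have e1 := (mul_le_mul_of_nonneg_left rθ E0).trans H.lt.ℓ1
      linarith [mul_le_mul_of_nonneg_left e1 (show 0 ≤ L ^ 3 by positivity)])
  obtain ⟨w, kA, Z⟩ := H2 H hT.le hL.1.2 Q
    (by linarith [k.ar, pw 0 50 (by norm_num) _ a0.le, pw 0 3 (by norm_num) _ r0.le])
    (mul_le_mul_of_nonneg_left rθ (by positivity)) pn
  obtain ⟨c0, c1, c2, z1, z2⟩ := Z.cz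
  have Jw := Z.k1.le.trans Z.k2
  have mt := (mid53 H Jw Z.k3.le c1 c2 z1 z2).trans W.nk.jF
  have fl := H3 hT hK.2.1 G LE' lg H.ln q hN W w Jw Z.k3.le mt Z.conc
  have u20 : 0 ≤ u2 := by linarith [h.last, h.leg.z1 (S.Jp - 1), H.lp.u1a, H.lp.u1b.1]
  have q4 := Q.q4
  have R20 : 0 ≤ R2 := by linarith [sq_nonneg X2, sq_nonneg γ]
  have γσ : γ ≤ √R2 := le_sqrt_of_sq_le (by linarith [sq_nonneg X2])
  have σ0 := sqrt_nonneg R2
  have σr := sig26 L2 LE' r0 θ0.le R20 θr Q.q5 k.r1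
  have Fb := W.Fb
  have Fr := k.Fr
  have j0 := q.j0
  have b0 : 0 ≤ bs S Lg X2 g' η (M.s S.J) := q.g0.trans q.gb
  have ρ1 : 14 * (L * r) ≤ log S.n * L * r := by
    rw [mul_assoc]; exact mul_le_mul_of_nonneg_right lg (by positivity)
  have ρ2 : log S.n * L * r ≤ L ^ 2 * r := by
    linarith [mul_le_mul_of_nonneg_right G.lg (show 0 ≤ L * r by positivity)]
  have Lr := mul_le_mul_of_nonneg_right L1 r0.le
  have ρy : 100 * (L ^ 2 * r) ≤ y := by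
    have e1 := pw 3 66 (by norm_num) _ r0.le
    exact le_of_mul_le_mul_left (show L * (100 * (L ^ 2 * r)) ≤ L * y by linarith [k.Pa, k.r1]) L0
  have y1 := W.y1
  have y2 := W.y2
  have r1 : r ≤ 1 := by linarith [k.r1, pw 0 66 (by norm_num) _ r0.le]
  have hJ := jf20 A P (t2 := y - 12 * (log S.n * L * r) - L * r / 2 + r) (by linarith) (by linarith)
    (nn 12 _ F0) (fun t p p' => fl.uq t p (by linarith)) ℓ0.le
  have x0 : 0 ≤ S.θ * √R2 := by positivity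
  have I := iq53 H G Q W pn (Hh := L ^ 10 * √R2) (R := L ^ 10 * √R2) rfl Z.pw Z.k1.le Z.k2 c1 c2 z1 z2
    Z.a1 (by
      have e1 := mul_le_mul_of_nonneg_right θr (show 0 ≤ L ^ 8 * √R2 by positivity)
      linarith [Z.er, Z.Gw, pw 7 8 (by norm_num) _ x0, pw 2 7 (by norm_num) _ x0, nn 2 _ x0])
    (by positivity) (Z.sum (r ^ 2 / (2 * S.C)) y (by
      rw [← mul_div_assoc, le_div_iff₀ (by positivity)]
      linarith [mul_le_mul θr (show 2 * S.C ≤ L by linarith) (by positivity) (by positivity)]) (by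
      rw [div_div, le_div_iff₀ (by positivity)]
      have X0 := H.X20
      have e1 := k.or
      unfold qO at e1
      have e2 := mul_le_mul_of_nonneg_right (show 4 * S.C ^ 2 ≤ L by linarith)
        (show 0 ≤ L * X2 by positivity)
      linarith [pw 2 53 (by norm_num) _ X0, nn 53 _ (sq_nonneg (uw S Lg (M.s S.J))), nn 2 _ X0])
      (by rw [W.ey]; exact A.sb_mono (by have := W.VV; have := W.VJ; omega)) fun t p p' =>
        fl.fl t ⟨by linarith, by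
          linarith [(abs_le.1 mt).2, pw 0 50 (by norm_num) _ F0]⟩)
    le_rfl (by linarith) (by linarith) fl.fl fl.top
    (abs_le.1 (fl.uq _ (by linarith) (by linarith))).2 fl.lo hJ (by
      linarith [k.ar, pw 50 60 (by norm_num) _ σ0, pw 40 46 (by norm_num) _ F0,
        pw 46 50 (by norm_num) _ F0, pw 40 46 (by norm_num) _ a0.le,
        pw 46 50 (by norm_num) _ a0.le, nn 40 _ F0, nn 40 _ a0.le, nn 46 _ F0, nn 46 _ a0.le])
    fun B' p p' => H4 hT hK.2.2.1 W k fl p p'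
  have s0 : 0 ≤ j + bs S Lg X2 g' η (M.s S.J) + √R2 := by positivity
  have F8 : qF L S M Lg X2 j γ η g' ≤ L ^ 8 * (j + bs S Lg X2 g' η (M.s S.J) + √R2) :=
    Fb.trans (mul_le_mul_of_nonneg_left (by linarith) (by positivity))
  have n2 : 0 ≤ 1 / (S.n : ℝ) ^ 2 := by positivity
  refine H5 hT H.mem hK.2.2.2 G LE' H.toHy Q W I (by linarith [W.w1]) (by linarith)
    (by linarith [pw 8 20 (by norm_num) _ s0, nn 8 _ s0]) ?_ ?_ ?_ ?_
  · linarith [mul_le_mul_of_nonneg_left F8 (show 0 ≤ L ^ 6 by positivity),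
      pw 14 30 (by norm_num) _ s0, pw 6 30 (by norm_num) _ a0.le, nn 14 _ s0, nn 6 _ a0.le]
  · linarith [pw 10 30 (by norm_num) _ σ0, nn 10 _ σ0, nn 30 _ j0, nn 30 _ b0]
  · rw [mul_pow, sq_sqrt R20]
    linarith [pw 20 36 (by norm_num) _ R20, nn 20 _ R20, nn 36 _ n2]
  · have X0 : 0 ≤ X ^ ((1 : ℝ) / 3) := rpow_nonneg H.ln.X0.le _
    have e1 := H.dv (c := 4) (by linarith [H.E9]) X0 H.lt.lX
    have e2 := H.dv (c := 4) (by linarith [H.E9]) H.jl0.le H.ln.l0s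
    refine p26 L2 P.p00 ℓ0.le (add_nonneg X0 H.jl0.le) (D := ℓ + X ^ ((1 : ℝ) / 3) + M.s S.jl)
      (by ring) (by linarith [H.l1, H.ln.l0l, pw 0 3 (by norm_num) _ ℓ0.le]) F0
      (add_nonneg j0 b0) σ0 F8 ?_
    rw [sq_sqrt R20, qB]
    have g1 : 0 ≤ GS M S (M.s S.J - ℓ) S.C := sum_nonneg fun k _ =>
      mul_nonneg (L62.dx0 h k) (sq_nonneg _)
    have g2 : 0 ≤ GP M S := sum_nonneg fun k _ => mul_nonneg (L62.dx0 h k) (sq_nonneg _)
    linarith [pow_pos a0 3]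

/-- **(TLq)** -/
theorem tlq26 (h1 : P1S) (h2 : NdTq) (h3 : PNq) : TLq := tlq_of 161 tlqAt26 h1 h2 h3

end Crest.Agent.T156.Alt.L63

end
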