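import Crest.Agent.T156.TLqU_73
import Crest.Agent.T156.TLp1_26

/-!
# Row 156, block (L): the last window, the tail integral (helper73)
-/

set_option autoImplicit false

noncomputable section

namespace Crest.Agent.T156.Alt.Mp9.At

open MeasureTheory Set Real
open Crest.Agent.T157.Pf

/-- the tail integral is Lipschitz with constant `sup |u|` -/
theorem jl73 {S : Sc} {M : Md} {m : ℕ} {a T : ℝ} (A : At S M m a T) {s t U : ℝ} (h : s ≤ t)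
    (hu : ∀ x, s ≤ x → x ≤ t → |uu M S m a T x| ≤ U) :
    |Sc48.Jf (lh M T) (lb M S m a T) T t| ≤ |Sc48.Jf (lh M T) (lb M S m a T) T s| + U * (t - s) := by
  have ii : ∀ x y : ℝ, IntervalIntegrable (uu M S m a T) volume x y := fun x y =>
    (Sc48.lvr_mono A.okb.1.1).intervalIntegrable.sub (Sc48.lvr_mono A.okh.1.1).intervalIntegrable
  have e := intervalIntegral.integral_add_adjacent_intervals (ii s t) (ii t T)
  have b := intervalIntegral.norm_integral_le_of_norm_le_const (a := s) (b := t) (C := U)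
    (f := uu M S m a T) fun x hx => by
      rw [uIoc_of_le h] at hx
      exact hu x hx.1.le hx.2
  rw [Real.norm_eq_abs, abs_of_nonneg (sub_nonneg.2 h)] at b
  change |∫ x in t..T, uu M S m a T x| ≤ |∫ x in s..T, uu M S m a T x| + _
  rw [← e]
  have := abs_add_le ((∫ x in s..t, uu M S m a T x) + ∫ x in t..T, uu M S m a T x)
    (-∫ x in s..t, uu M S m a T x)
  rw [abs_neg, show (∫ x in s..t, uu M S m a T x) + (∫ x in t..T, uu M S m a T x) +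
    -∫ x in s..t, uu M S m a T x = ∫ x in t..T, uu M S m a T x by ring] at this
  linarith

end Crest.Agent.T156.Alt.Mp9.At

namespace Crest.Agent.T156.Alt.L63

open Real
open Crest.Agent.T156.Alt.L69 Crest.Agent.T156.Alt.Mp9

set_option maxHeartbeats 1000000 in
/-- **the tail integral in the last window** -/
theorem Sq.jf73 (T0 : ℝ) : ∃ K0 : ℝ, ∀ {S : Sc} {M : Md} {m : ℕ} {a : ℝ}
    {K E E' L u1 u2 j γ X Xp Vt Lg Lp X2 G0 ℓ p0 aa g' R2 b t0 f : ℝ}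
    {η : ℝ → ℝ} {Gn : ℕ → Prop} {u V V2 V' k0 : ℕ} {y r t : ℝ}, 2 * S.C = T0 → K0 ≤ K →
    T20.Rg K E L S → LQ E S M X Xp Vt Lg Lp X2 G0 u1 u2 j γ η aa g' R2 →
    Sq K L S M m a Lg X2 j γ η aa g' Gn u V V2 y r →
    P1 E' L S M m a X X2 ℓ p0 b V' k0 t0 f → 0 ≤ X → 0 ≤ u2 →
    3 / 4 * M.s S.J ≤ t → t + 3 * (2 * log S.n * L * r) ≤ y →
    Jq S M m a t ^ 2 ≤ L ^ 43 * (p0 ^ 2 +
      (ℓ + X ^ ((1 : ℝ) / 3) + M.s S.jl) * (j + bs S Lg X2 g' η (M.s S.J)) ^ 2 + R2) := by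
  obtain ⟨K0, H⟩ := Sq.uq73 T0
  refine ⟨K0, fun {S M m a K E E' L u1 u2 j γ X Xp Vt Lg Lp X2 G0 ℓ p0 aa g' R2 b t0 f η Gn u V V2
    V' k0 y r t} hT hK G lq Q P X0 u20 h1 h2 => ?_⟩
  have A := Q.nw.at'
  have C1 := A.cl.C1
  have C0 := A.c_pos
  have v0 := v_pos A.cl
  have L1 := G.L1
  have L0 : 0 < L := by linarith
  have L1' : 1 ≤ L := by linarith
  have r0 := Q.nk.r0
  have C3 : S.C ≤ S.C ^ 3 := le_self_pow₀ C1 (by norm_num)
  have C2 : S.C ^ 2 ≤ S.C ^ 3 := pow_le_pow_right₀ C1 (by norm_num)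
  have LC := G.LC
  have hu := H hT hK Q
  have Fb := Q.Fb
  have F0 : 0 < qF L S M Lg X2 j γ η g' := v0.trans_le Q.nk.vF
  set F' := qF L S M Lg X2 j γ η g'
  set b' := bs S Lg X2 g' η (M.s S.J)
  have s0 := s_nn A.cl S.J
  have sC : M.s S.J ≤ S.C := (A.cl.sm A.cl.i3).trans A.cl.sT
  have p00 := P.p00
  have l0 : 0 ≤ ℓ := by linarith [P.t0a, P.t0b]
  have x0 : 0 ≤ X ^ ((1 : ℝ) / 3) + M.s S.jl := add_nonneg (by positivity) P.jl0
  have γR : γ ^ 2 ≤ R2 := by linarith [lq.q4, sq_nonneg X2]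
  have R0 : 0 ≤ R2 := (sq_nonneg _).trans γR
  have n0 : 0 ≤ 2 * log S.n * L * r := by have := G.lg1; positivity
  have W0 : 0 ≤ (ℓ + X ^ ((1 : ℝ) / 3) + M.s S.jl) * (j + b') ^ 2 :=
    mul_nonneg (by linarith) (sq_nonneg _)
  have pw : ∀ i k : ℕ, i ≤ k → ∀ x : ℝ, 0 ≤ x → L ^ i * x ≤ L ^ k * x := fun i k hk x hx =>
    mul_le_mul_of_nonneg_right (pow_le_pow_right₀ L1' hk) hx
  have pk : ∀ i k : ℕ, i + 1 = k → ∀ x : ℝ, 0 ≤ x → 1000 * (L ^ i * x) ≤ L ^ k * x := by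
    rintro i _ rfl x hx
    rw [pow_succ', mul_assoc]; exact mul_le_mul_of_nonneg_right L1 (by positivity)
  have jq : ∀ x, M.s S.J / 2 ≤ x → x ≤ t0 → |Jq S M m a x| ≤ L * p0 := fun x q1 q2 => by
    refine le_trans ?_ (P.hq x q1 q2).1
    unfold Hq Rig.Hp
    rw [A.okh.2]
    exact le_add_of_nonneg_right
      (intervalIntegral.integral_nonneg (by linarith) fun _ _ => abs_nonneg _)
  have q0 : 0 ≤ p0 ^ 2 := sq_nonneg _
  have z1 : 0 ≤ L ^ 43 * ((ℓ + X ^ ((1 : ℝ) / 3) + M.s S.jl) * (j + b') ^ 2) := by positivity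
  have z2 : 0 ≤ L ^ 43 * R2 := by positivity
  have z3 : 1000 * (L ^ 2 * p0 ^ 2) ≤ L ^ 43 * p0 ^ 2 :=
    (pk 2 3 rfl _ q0).trans (pw 3 43 (by norm_num) _ q0)
  have z4 : 0 ≤ L ^ 2 * p0 ^ 2 := by positivity
  rw [← sq_abs]
  rcases le_total t t0 with c | c
  · have := pow_le_pow_left₀ (abs_nonneg _) (jq t (by linarith) c) 2
    linarith
  have lo := P.low
  have a1 := A.jl73 c fun x q1 q2 => hu x (by linarith) (by linarith)
  have a2 := jq t0 (by linarith) le_rfl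
  have d0 : 0 ≤ t - t0 := sub_nonneg.2 c
  have d1 : t - t0 ≤ S.C := by linarith [Q.y1, Q.a0]
  have d2 : t - t0 ≤ L * (ℓ + X ^ ((1 : ℝ) / 3) + M.s S.jl) := by
    linarith [Q.y1, Q.a0, P.w, mul_le_mul_of_nonneg_right L1 l0]
  have a3 : L ^ 12 * F' ≤ L ^ 20 * (j + γ + b') := by
    have := mul_le_mul_of_nonneg_left Fb (show 0 ≤ L ^ 12 by positivity)
    linarith
  have a4 := pow_le_pow_left₀ (by positivity) a3 2
  have a5 : (j + γ + b') ^ 2 ≤ 2 * ((j + b') ^ 2 + γ ^ 2) := by nlinarith [sq_nonneg (j + b' - γ)]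
  have a6 : (L ^ 12 * F') ^ 2 ≤ L ^ 40 * (2 * ((j + b') ^ 2 + γ ^ 2)) := by
    linarith [mul_le_mul_of_nonneg_left a5 (show 0 ≤ L ^ 40 by positivity)]
  have a7 := mul_le_mul_of_nonneg_right a6 (sq_nonneg (t - t0))
  have a8 : (t - t0) ^ 2 * (j + b') ^ 2 ≤
      S.C * (L * (ℓ + X ^ ((1 : ℝ) / 3) + M.s S.jl)) * (j + b') ^ 2 :=
    mul_le_mul_of_nonneg_right (by rw [sq]; exact mul_le_mul d1 d2 d0 C0.le) (sq_nonneg _)
  have a9 : (t - t0) ^ 2 * γ ^ 2 ≤ S.C ^ 2 * R2 :=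
    mul_le_mul (pow_le_pow_left₀ d0 d1 2) γR (sq_nonneg _) (sq_nonneg _)
  have b1 : 4 * S.C * (L * ((ℓ + X ^ ((1 : ℝ) / 3) + M.s S.jl) * (j + b') ^ 2)) ≤
      L * (L * ((ℓ + X ^ ((1 : ℝ) / 3) + M.s S.jl) * (j + b') ^ 2)) :=
    mul_le_mul_of_nonneg_right (by linarith) (by positivity)
  have b2 : 4 * S.C ^ 2 * R2 ≤ L * R2 := mul_le_mul_of_nonneg_right (by linarith) R0
  have b3 : 4 * ((t - t0) ^ 2 * ((j + b') ^ 2 + γ ^ 2)) ≤
      L ^ 2 * ((ℓ + X ^ ((1 : ℝ) / 3) + M.s S.jl) * (j + b') ^ 2) + L * R2 := by linarith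
  have b4 := mul_le_mul_of_nonneg_left b3 (show 0 ≤ L ^ 40 by positivity)
  have b5 : |Jq S M m a t| ≤ L * p0 + L ^ 12 * F' * (t - t0) := by linarith
  have b6 := pow_le_pow_left₀ (abs_nonneg _) b5 2
  have b7 : (L * p0 + L ^ 12 * F' * (t - t0)) ^ 2 ≤
      2 * (L * p0) ^ 2 + 2 * (L ^ 12 * F' * (t - t0)) ^ 2 := by
    nlinarith [sq_nonneg (L * p0 - L ^ 12 * F' * (t - t0))]
  linarith [pw 42 43 (by norm_num) _ W0, pw 41 43 (by norm_num) _ R0]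

end Crest.Agent.T156.Alt.L63

end
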