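import Crest.Agent.T156.TLqK_53
import Crest.Agent.T156.TLp_62

/-!
# Row 156, block (L): the last window, length of the corner and the link to the plateau (helper53)
-/

set_option autoImplicit false

noncomputable section

namespace Crest.Agent.T156.Alt.Mp9

open MeasureTheory Set Real
open Crest.Agent.R164.GC Crest.Agent.R339.B Crest.Agent.R339.Var Crest.Agent.T157.Pf
open Crest.Agent.T156.Pr.Cv25 Crest.Agent.T156.Pr.Reg48
open Crest.Agent.T156.Pp.Area50 Crest.Agent.T156.Spl27 Crest.Agent.T156.Zb9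

/-- data of the corner: `w'` is a plateau node, `w` dominates all small quantities -/
structure Lc (S : Sc) (M : Md) (m : ℕ) (a T : ℝ) (u v w' : ℕ) (Pn : ℕ → Prop) (ez : ℕ → ℝ)
    (x la u' ω aa B g P r N Γ F Rk H γ Pm w : ℝ) : Prop where
  l1 : sb M m a (v + 1) - sb M m a (u + 1) ≤ 14 * N * P * r
  l2 : 4 * (N * P * r) ≤ sb M m a (v + 1) - sb M m a (u + 1)
  k1 : M.z (S.J - 1) - M.z v ≤ Rk
  mu : ∀ t ∈ Icc (sb M m a (v + 1) - 2 * (N * P * r)) T,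
    M.b * Pr.GG (lb M S m a T) t ≤ 1 - r ^ 2 / (2 * S.C)
  pn : L62.PN S M m a T Pn ez x la u' ω aa B
  pw : Pn w'
  ω0 : 0 ≤ ω
  Ba : 5 * (N * P * r) ≤ B * aa
  sv : M.s v + aa / 5 ≤ M.s S.J
  hγ : M.s w' - M.s S.J ≤ γ
  Mt : |sb M m a (w' + 1) - M.s S.J| ≤ Pm
  hg : ∀ k, u ≤ k → k ≤ v → |M.G k| ≤ g
  hH : x + ez w' + |M.G w'| ≤ H * r ^ 2
  laF : N * la ≤ F * r
  θP : S.θ ≤ P ^ 2 * r ^ 2
  Fw : F ≤ w
  Γw : Γ ≤ w
  Rw : Rk ≤ w
  ωw : ω ≤ w
  Hw : H ≤ w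
  γw : γ ≤ w
  Pw : Pm ≤ w
  sm : P ^ 10 * w ≤ r

set_option maxHeartbeats 1600000 in
/-- **the inputs of the closing argument** -/
theorem Nw.corner53 (T0 : ℝ) : ∃ K : ℝ, 1 ≤ K ∧ ∀ {S : Sc} {M : Md} {m : ℕ} {a T : ℝ}
    {Gn : ℕ → Prop} {u v : ℕ} {a' b' δ θ e o lam g : ℝ} {c : ℕ → ℝ},
    Nw S M m a T Gn u v a' b' δ θ e o lam g c →
    T ≤ T0 → ∀ {P r N Γ j F : ℝ}, Nk K T0 S m a' b' δ θ e o lam g P r N Γ j F →
    (∀ i k, Nx Gn u v i k → sb M m a (k + 1) - sb M m a (i + 1) ≤ Γ) →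
    (∀ t ∈ Icc (sb M m a (u + 1)) (sb M m a (v + 1)), Rig.Hp (lh M T) (lb M S m a T) t ≤ j) →
    ∀ {w' : ℕ} {Pn : ℕ → Prop} {ez : ℕ → ℝ} {x la u' ω aa B Rk H γ Pm w : ℝ},
    Lc S M m a T u v w' Pn ez x la u' ω aa B g P r N Γ F Rk H γ Pm w → ∃ c0 p0 er,
    Rig.Tk (Rig.brk (lb M S m a T) ∪ Rig.brk (lh M T)) (sb M m a (u + 1)) (sb M m a (v + 1))
      (WW M S m a T c0) (fun t => Rig.muf M.b (lb M S m a T) t - Rig.muf M.b (lh M T) t)
      (fun t => Rig.nuf M.b (lb M S m a T) t - Rig.nuf M.b (lh M T) t) (uu M S m a T)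
      (gp (fun k => sb M m a (k + 1)) Gn u v) (exp (-(4 * T0))) S.C p0
      (S.ms a' / (2 * S.C ^ 2)) (2 * (S.C ^ 2 * S.ms b')) er (θ + S.C) (δ + S.C * S.v) ∧
    p0 ≤ P * F ∧ 0 ≤ er ∧ er ≤ P ^ 4 * (F + Γ) * r ^ 2 ∧
    r ^ 2 ≤ P * (S.ms a' / (2 * S.C ^ 2)) ∧ 2 * (S.C ^ 2 * S.ms b') ≤ P * r ^ 2 ∧
    (∀ t ∈ Icc (sb M m a (u + 1) + N * P * r) (sb M m a (v + 1) - N * P * r),
      |WW M S m a T c0 t| ≤ 5 * P ^ 6 * (F + Γ) * r ^ 2) ∧
    (∀ t ∈ Icc (sb M m a (u + 1) + N * P * r + Γ) (sb M m a (v + 1) - N * P * r),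
      |uu M S m a T t| ≤ 7 * P ^ 7 * (F + Γ)) ∧
    sb M m a (w' + 1) - sb M m a (v + 1) ≤ P ^ 4 * (H + F + γ + Rk + ω) ∧
    |res M S m a T w' - c0| ≤ (H + P ^ 11 * (F + Γ)) * r ^ 2 := by
  classical
  obtain ⟨K, K1, H1⟩ := Nw.tk53 T0
  refine ⟨K, K1, fun {S M m a T Gn u v a' b' δ θ e o lam g c} W hT {P r N Γ j F} h hΓ hp
    {w' Pn ez x la u' ω aa B Rk H γ Pm w} L => ?_⟩
  obtain ⟨c0, p0, er, tk, q1, q2, q3, q4, q5, hW, hu⟩ := H1 W hT h hΓ hp L.l1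
  suffices k : _ ∧ _ from ⟨c0, p0, er, tk, q1, q2, q3, q4, q5, hW, hu, k⟩
  clear tk q1 q2 q3 q4 q5 H1
  have A := W.at'
  have C1 := A.cl.C1
  have C0 := A.c_pos
  have v0 := v_pos A.cl
  have P1 := h.P1
  have P0 : 0 < P := by linarith
  have P1' : 1 ≤ P := by linarith
  have r0 := h.r0
  have r2 : 0 < r ^ 2 := by positivity
  have N1 := h.N1
  have Γ0 := h.Γ0
  have F0 : 0 ≤ F := v0.le.trans h.vF
  have w0 : 0 ≤ w := F0.trans L.Fw
  have C3 : S.C ≤ S.C ^ 3 := le_self_pow₀ C1 (by norm_num)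
  have C2 : S.C ^ 2 ≤ S.C ^ 3 := pow_le_pow_right₀ C1 (by norm_num)
  have PC : 32 * S.C ≤ P := by linarith [h.PC]
  have PC2 : 32 * S.C ^ 2 ≤ P := by linarith [h.PC]
  have vJ := W.vJ
  have vp := vJ.le.trans A.cl.i3
  have yσ : sb M m a (v + 1) < M.s S.J := W.bv.trans_lt W.b1
  obtain ⟨Jw, wJ⟩ := L.pn.mem _ L.pw
  have ω0 := L.ω0
  have Fw := L.Fw
  have Γw := L.Γw
  have Rw := L.Rw
  have ωw := L.ωw
  have Hw := L.Hw
  have γw := L.γw
  have Pw := L.Pw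
  have sm := L.sm
  have l2 := L.l2
  have k1 := L.k1
  have x0 := L.pn.x00
  have la0 := L.pn.la0
  have ez0 := L.pn.ez0 w'
  have Mt := abs_le.1 L.Mt
  have γ0 : 0 ≤ γ := le_trans (sub_nonneg.2 (A.cl.sm Jw)) L.hγ
  have R0 : 0 ≤ Rk := le_trans (sub_nonneg.2 (A.cl.leg.zm (show v ≤ S.J - 1 by omega))) k1
  have H0 : 0 ≤ H := nonneg_of_mul_nonneg_left (le_trans (by positivity) L.hH) r2
  have nr : 100 * r ≤ N * P * r := mul_le_mul_of_nonneg_right
    (P1.trans (le_mul_of_one_le_left P0.le N1)) r0.le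
  have pw : ∀ i k : ℕ, i ≤ k → ∀ x : ℝ, 0 ≤ x → P ^ i * x ≤ P ^ k * x := fun i k hk x hx =>
    mul_le_mul_of_nonneg_right (pow_le_pow_right₀ P1' hk) hx
  have pk : ∀ i k : ℕ, i + 1 = k → ∀ x : ℝ, 0 ≤ x → 100 * (P ^ i * x) ≤ P ^ k * x := by
    rintro i _ rfl x hx
    rw [pow_succ', mul_assoc]; exact mul_le_mul_of_nonneg_right P1 (by positivity)
  have vw : S.C * S.v ≤ P * w := mul_le_mul (by linarith) (h.vF.trans Fw) v0.le P0.le
  have cv : 0 < S.C * S.v := by positivity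
  have Pw0 : 100 * w ≤ P * w := mul_le_mul_of_nonneg_right P1 w0
  have Pw7 : 100 * (P * w) ≤ P ^ 7 * w := by
    have := pk 1 2 rfl w w0
    have := pw 2 7 (by norm_num) w w0
    linarith
  have U1 : 7 * P ^ 7 * (F + Γ) ≤ 14 * (P ^ 7 * w) := by
    have := mul_le_mul_of_nonneg_left (show F + Γ ≤ 2 * w by linarith) (by positivity : 0 ≤ P ^ 7)
    linarith
  have U0 : 0 ≤ 7 * P ^ 7 * (F + Γ) := by positivity
  have s8 : 10000 * (P ^ 8 * w) ≤ r := by linarith [pk 8 9 rfl w w0, pk 9 10 rfl w w0]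
  have s7 : 100 * (P ^ 7 * w) ≤ P ^ 8 * w := pk 7 8 rfl w w0
  have cs : ∀ y, y ≤ 40 * (P ^ 7 * w) → S.C * y ≤ r := fun y hy => by
    have a1 := mul_le_mul_of_nonneg_left hy C0.le
    have a2 := mul_le_mul_of_nonneg_right PC (by positivity : 0 ≤ P ^ 7 * w)
    have a3 : 0 ≤ P ^ 8 * w := by positivity
    linarith
  have zb : ∀ k, u ≤ k → k ≤ v → lvr 1 (lb M S m a T) (sb M m a (k + 1)) = M.z k := fun k p q =>
    A.lvb_node (W.ju.le.trans p) (q.trans vp)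
  have t0 : 0 ≤ sb M m a (u + 1) := W.a0.le.trans W.bu
  have tm : sb M m a (v + 1) - 2 * (N * P * r) ∈
      Icc (sb M m a (u + 1) + N * P * r + Γ) (sb M m a (v + 1) - N * P * r) :=
    ⟨by linarith, by linarith⟩
  have ut := (abs_le.1 (hu _ tm)).2
  -- the near partner
  have zu : M.z u ≤ M.z v - ω := by
    have a1 := Sc48.lvr_mono A.okb.1.1
      (show sb M m a (u + 1) ≤ sb M m a (v + 1) - 2 * (N * P * r) by linarith)
    rw [zb u le_rfl W.uv] at a1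
    have a2 := (A.zh53 (t := sb M m a (v + 1) - 2 * (N * P * r)) (by linarith) (by linarith)).1
    have a3 : ω + Rk + 7 * P ^ 7 * (F + Γ) + 2 * (S.C * S.v) ≤
        (M.s S.J - (sb M m a (v + 1) - 2 * (N * P * r))) / S.C := by
      rw [le_div_iff₀' C0]
      linarith [cs (ω + Rk + 7 * P ^ 7 * (F + Γ) + 2 * (S.C * S.v)) (by linarith)]
    unfold uu at ut
    linarith
  obtain ⟨p, pu, pv, pz1, pz2⟩ : ∃ p, u ≤ p ∧ p ≤ v ∧ ω ≤ M.z v - M.z p ∧
      M.z v - M.z p ≤ ω + S.C * S.v := by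
    have a1 := Nat.le_findGreatest (P := fun p => M.z p ≤ M.z v - ω) W.uv zu
    have a2 := Nat.findGreatest_spec (P := fun p => M.z p ≤ M.z v - ω) W.uv zu
    have a3 := Nat.findGreatest_le (P := fun p => M.z p ≤ M.z v - ω) v
    refine ⟨_, a1, a3, by linarith, ?_⟩
    rcases a3.eq_or_lt with q | q
    · rw [q]; linarith
    have a4 := Nat.findGreatest_is_greatest (P := fun p => M.z p ≤ M.z v - ω)
      (Nat.lt_succ_self _) (Nat.succ_le_of_lt q)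
    have a5 := (A.cl.zs _ ((A.cl.i1.trans W.ju.le).trans a1) ((Nat.succ_le_of_lt q).trans_lt vJ)).2
    linarith [not_le.1 a4]
  have jp := W.ju.trans_le pu
  have sp : M.s S.J - B * aa ≤ M.s p := by
    have a1 := (A.s_z (A.cl.i1.trans jp.le) (show p ≤ S.J - 1 by omega) A.J_pred.2.1).2
    have a2 : S.C ^ 2 * (M.z (S.J - 1) - M.z p) ≤ P * (3 * (P * w)) :=
      mul_le_mul (by linarith) (by linarith)
        (sub_nonneg.2 (A.cl.leg.zm (show p ≤ S.J - 1 by omega))) P0.le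
    linarith [A.s_pred.2, L.Ba, pw 2 8 (by norm_num) w w0]
  obtain ⟨i, i1, i2, hi⟩ := L.pn.dv p v jp pv vJ sp L.sv pz1
  have lr : P * la ≤ r ^ 2 := by
    have a1 : la ≤ F * r := (le_mul_of_one_le_left la0 N1).trans L.laF
    have a2 := mul_le_mul_of_nonneg_left a1 P0.le
    have a3 : P * F ≤ r := by linarith [mul_le_mul_of_nonneg_left Fw P0.le]
    have a4 := mul_le_mul_of_nonneg_right a3 r0.le
    linarith
  obtain ⟨-, g1⟩ := A.gm53 (x := sb M m a (v + 1) - 2 * (N * P * r)) (ρ := Rk + ω + S.C * S.v)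
    (μ := r ^ 2 / (2 * S.C)) (er := x + ez w') (jp.trans_le i1) (i2.trans_lt vJ) Jw wJ.le
    (by linarith) ut (by linarith [A.cl.leg.zm i1])
    (by linarith [cs (Rk + ω + S.C * S.v + 7 * P ^ 7 * (F + Γ) + 2 * (S.C * S.v)) (by linarith)])
    (by linarith) (by positivity) L.mu (by
      rw [le_div_iff₀ two_pos, le_div_iff₀ (by positivity)]
      linarith [mul_le_mul_of_nonneg_right PC2 la0, mul_nonneg (sq_nonneg S.C) la0])
    la0 (by positivity) L.hγ (by linarith [(abs_le.1 (hi _ L.pw)).1])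
  have G1 : sb M m a (w' + 1) - sb M m a (v + 1) ≤ P ^ 4 * (H + F + γ + Rk + ω) := by
    refine le_trans (by linarith [A.sb_mono (Nat.succ_le_succ i2)]) (g1.trans ?_)
    rw [div_le_iff₀ (by positivity), mul_div_assoc', le_div_iff₀ (by positivity)]
    have a1 : |M.G w'| + S.C * (x + ez w') ≤ S.C * (H * r ^ 2) := by
      have := mul_le_mul_of_nonneg_left L.hH C0.le
      linarith [le_mul_of_one_le_left (abs_nonneg (M.G w')) C1]
    have a2 : |M.G i| ≤ S.C * (F * r ^ 2) := ((L.hg i (pu.trans i1) i2).trans h.gF).trans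
      (le_mul_of_one_le_left (by positivity) C1)
    have a3 : γ + S.C ^ 2 * (Rk + ω + S.C * S.v) + S.C * S.v ≤ 2 * S.C ^ 3 * (γ + Rk + ω + F) := by
      have b1 := mul_le_mul_of_nonneg_right C2 (add_nonneg R0 ω0)
      have b2 := mul_le_mul_of_nonneg_left h.vF (by positivity : 0 ≤ S.C ^ 3)
      have b3 := mul_le_mul C3 h.vF v0.le (by positivity : 0 ≤ S.C ^ 3)
      have b4 := le_mul_of_one_le_left γ0 (C1.trans C3)
      have b5 : 0 ≤ S.C ^ 3 * (γ + Rk + ω) := by positivity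
      linarith
    have a4 : S.C * S.θ * (γ + S.C ^ 2 * (Rk + ω + S.C * S.v) + S.C * S.v) ≤
        S.C * (P ^ 2 * r ^ 2) * (2 * S.C ^ 3 * (γ + Rk + ω + F)) :=
      mul_le_mul (mul_le_mul_of_nonneg_left L.θP C0.le) a3 (by positivity) (by positivity)
    have a5 := mul_le_mul_of_nonneg_left (add_le_add (add_le_add a1 a2) a4)
      (by positivity : 0 ≤ 4 * S.C)
    have a6 : 1024 * S.C ^ 5 ≤ P ^ 2 := by
      have := mul_le_mul h.PC PC2 (by positivity) P0.le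
      linarith
    have a7 := mul_le_mul_of_nonneg_right a6 (by positivity : 0 ≤ P ^ 2 * r ^ 2 * (γ + Rk + ω + F))
    have a8 := mul_le_mul_of_nonneg_right PC2 (by positivity : 0 ≤ (H + F) * r ^ 2)
    have a9 := pw 1 4 (by norm_num) _ (by positivity : 0 ≤ (H + F) * r ^ 2)
    have b1 : 0 ≤ P ^ 4 * (H * r ^ 2) := by positivity
    have b2 : 0 ≤ P ^ 4 * (F * r ^ 2) := by positivity
    have b3 : 0 ≤ P ^ 4 * ((γ + Rk + ω) * r ^ 2) := by positivity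
    linarith
  refine ⟨G1, ?_⟩
  have G2 : sb M m a (w' + 1) - sb M m a (v + 1) ≤ r := by
    have := mul_le_mul_of_nonneg_left (show H + F + γ + Rk + ω ≤ 5 * w by linarith)
      (by positivity : 0 ≤ P ^ 4)
    linarith [pw 4 8 (by norm_num) w w0]
  -- the interior partner
  obtain ⟨i0, p', n1, a1, a2⟩ := exists_nx (σ := fun k => sb M m a (k + 1)) W.uv W.gu W.gv
    (t := sb M m a (v + 1) - 5 / 2 * (N * P * r)) (by linarith) (by linarith)
  obtain ⟨q', k0, n2, a3, a4⟩ := exists_nx (σ := fun k => sb M m a (k + 1)) W.uv W.gu W.gv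
    (t := sb M m a (v + 1) - 3 / 2 * (N * P * r)) (by linarith) (by linarith)
  have b1 := hΓ _ _ n1
  have b2 := hΓ _ _ n2
  have up := n1.1.trans n1.2.1
  have qv := n2.2.1.trans n2.2.2.1
  have pq : p' ≤ q' := by
    by_contra hn
    linarith [A.sb_mono (Nat.succ_le_succ (not_le.1 hn).le)]
  have im : ∀ k, p' ≤ k → k ≤ q' → sb M m a (k + 1) ∈
      Icc (sb M m a (u + 1) + N * P * r + Γ) (sb M m a (v + 1) - N * P * r) := fun k c1 c2 =>
    ⟨by linarith [A.sb_mono (Nat.succ_le_succ c1)], by linarith [A.sb_mono (Nat.succ_le_succ c2)]⟩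
  have lk := fun k (c1 : p' ≤ k) (c2 : k ≤ q') => A.link53 (W.ju.trans_le (up.trans c1))
    ((c2.trans qv).trans_lt vJ) ((A.sb_mono (Nat.succ_le_succ (c2.trans qv))).trans_lt yσ)
    (hu _ (im k c1 c2)) (hW _ ⟨by linarith [(im k c1 c2).1], (im k c1 c2).2⟩)
  have zz : ω ≤ M.z q' - M.z p' := by
    have c1 := (abs_le.1 (hu _ (im p' le_rfl pq))).2
    have c2 := (abs_le.1 (hu _ (im q' pq le_rfl))).1
    unfold uu at c1 c2
    rw [zb _ up (pq.trans qv)] at c1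
    rw [zb _ (up.trans pq) qv] at c2
    have c3 := (A.sl yσ _ _ (t0.trans (A.sb_mono (Nat.succ_le_succ up)))
      (A.sb_mono (Nat.succ_le_succ pq)) (A.sb_mono (Nat.succ_le_succ qv))).1
    rw [one_div_mul_eq_div] at c3
    have c4 : ω + 2 * (7 * P ^ 7 * (F + Γ)) + S.C * S.v ≤
        (sb M m a (q' + 1) - sb M m a (p' + 1)) / S.C := by
      rw [le_div_iff₀' C0]
      linarith [cs (ω + 2 * (7 * P ^ 7 * (F + Γ)) + S.C * S.v) (by linarith)]
    linarith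
  obtain ⟨i', c1, c2, hi'⟩ := L.pn.dv p' q' (W.ju.trans_le up) pq (qv.trans_lt vJ) (by
      linarith [(abs_le.1 (lk p' le_rfl pq).1).2, L.Ba,
        cs (7 * P ^ 7 * (F + Γ) + S.C * S.v) (by linarith)])
    (by linarith [A.cl.sm qv, L.sv]) zz
  have d1 := (lk i' c1 c2).2
  have d2 := hi' _ L.pw
  have d3 : la * (sb M m a (w' + 1) - sb M m a (i' + 1)) ≤ la * (4 * (N * P * r)) :=
    mul_le_mul_of_nonneg_left (by linarith [A.sb_mono (Nat.succ_le_succ c1)]) la0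
  have d4 := mul_le_mul_of_nonneg_right L.laF (by positivity : 0 ≤ P * r)
  have d5 := (L.hg i' (up.trans c1) (c2.trans qv)).trans h.gF
  have d6 : S.C / (m + 1) ≤ P * (F * r ^ 2) := by
    rw [div_eq_mul_one_div]; exact mul_le_mul (by linarith) h.mF (by positivity) P0.le
  have d7 : S.C * S.θ * (S.C * (7 * P ^ 7 * (F + Γ) + S.C * S.v)) ≤
      P * (P ^ 2 * r ^ 2) * (8 * P ^ 7 * (F + Γ)) := by
    have e1 : S.C * S.v ≤ P ^ 7 * (F + Γ) := mul_le_mul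
      (le_trans (by linarith) (le_self_pow₀ P1' (by norm_num))) (by linarith [h.vF]) v0.le
      (by positivity)
    have e2 : S.C ^ 2 * S.θ ≤ P * (P ^ 2 * r ^ 2) := mul_le_mul (by linarith) L.θP
      ((A.ms_pos le_rfl).le.trans (A.cl.ms1 0)) P0.le
    have := mul_le_mul e2 (show 7 * P ^ 7 * (F + Γ) + S.C * S.v ≤ 8 * P ^ 7 * (F + Γ) by linarith)
      (by positivity) (by positivity)
    linarith
  have y0 : 0 ≤ (F + Γ) * r ^ 2 := by positivity
  have y1 : 0 ≤ Γ * r ^ 2 := by positivity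
  have y2 : 0 ≤ P * (Γ * r ^ 2) := by positivity
  have e1 := pk 10 11 rfl _ y0
  have e2 := pw 6 10 (by norm_num) _ y0
  have e3 := pw 1 10 (by norm_num) _ y0
  have e4 := pw 0 10 (by norm_num) _ y0
  have e5 : 0 ≤ P ^ 10 * ((F + Γ) * r ^ 2) := by positivity
  have hH := L.hH
  have := abs_nonneg (M.G w')
  have := abs_sub_le (res M S m a T w') (res M S m a T i') c0
  linarith

end Crest.Agent.T156.Alt.Mp9

end
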