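import Crest.Agent.T156.TLqS_20

/-!
# Row 156, block (L): the set-up of the last window, all pairs of good nodes (helper20)
-/

set_option autoImplicit false

noncomputable section

namespace Crest.Agent.T156.Alt.L63

open MeasureTheory Real Finset
open Crest.Agent.T156.Alt.L69 Crest.Agent.T156.Alt.Mp9 Crest.Agent.T156.Alt.Ap63
open Crest.Agent.R164.GC Crest.Agent.R339.B Crest.Agent.R339.Var Crest.Agent.T157.Pf

/-- **the set-up of the last window**, with shorter gaps and (E1) for all good pairs -/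
structure Sq2 (K L : ℝ) (S : Sc) (M : Md) (m : ℕ) (a Lg X2 j γ : ℝ) (η : ℝ → ℝ) (aa g' R2 : ℝ)
    (Gn : ℕ → Prop) (u V V2 : ℕ) (y r : ℝ) : Prop
    extends Sq K L S M m a Lg X2 j γ η aa g' Gn u V V2 y r where
  g60 : ∀ i k, Nx Gn u V2 i k → sb M m a (k + 1) - sb M m a (i + 1) ≤ r / L ^ 60
  nk60 : Nk K (2 * S.C) S m (y / 2) (max (M.s V) y) (S.C * S.v) (L / Lg) (256 * L * η (M.s S.J))
    (qO L S M Lg X2) (2 * L ^ 3) g' L r (2 * log S.n) (r / L ^ 60) (qJ L S j γ)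
    (qF L S M Lg X2 j γ η g')
  zg : ∀ i k, Nx Gn u V2 i k →
    M.z k ≤ M.z i + (S.C * S.v + L / Lg * (sb M m a (k + 1) - sb M m a (i + 1)))
  e3 : ∀ i k, u ≤ i → i ≤ k → k ≤ V2 → Gn i → Gn k →
    |res M S m a (2 * S.C) k - res M S m a (2 * S.C) i| ≤
      (L * qF L S M Lg X2 j γ η g' + L ^ 8 * √R2) * r ^ 2 +
      qO L S M Lg X2 * (sb M m a (k + 1) - sb M m a (i + 1)) +
      (qO L S M Lg X2 + 2 * L ^ 3 * (r / L ^ 60) ^ 2) * (M.z k - M.z i)
  o20 : L ^ 20 * (qO L S M Lg X2 + 2 * L ^ 3 * (r / L ^ 60) ^ 2) ≤ r ^ 2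
  sm2 : L ^ 80 * (qF L S M Lg X2 j γ η g' + aa + L ^ 8 * √R2) ≤ r
  sJ : 1 ≤ 3 * S.C ^ 2 * M.s S.J
  mJ : S.ms (M.s S.J) ≤ 16 * r ^ 2

namespace T20

variable {S : Sc} {M : Md} {m : ℕ} {a T : ℝ} {K E L l0 l X Lg X2 X3 G0 V0 : ℝ} {η : ℝ → ℝ}

/-- sup location from the energy of a window (after helper65) -/
theorem del_w (A : At S M m a T) (hθ : S.C * S.θ ≤ 1 / 2) {lo k : ℕ} {R γ ρ : ℝ}
    (l0 : S.j0 ≤ lo) (h1 : lo < k) (h2 : k ≤ S.J) (hγ : M.s S.Jp - M.s S.J ≤ γ) (R0 : 0 ≤ R)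
    (R1 : R ≤ 1) (hS : Sx M.z (M.del m a) lo S.Jp 2 ≤ R ^ 3)
    (hρ : S.C ^ 2 * R + (S.C ^ 3 * S.v + S.C * S.v + γ) < ρ)
    (hs : 2 * S.C * ρ < M.s k - M.s (lo + 1)) : |M.del m a k| ≤ 2 * ρ := by
  have h := A.cl
  have C0 := h.C0
  have C1 := h.C1
  have v0 := h.v0
  have W := Ap63.sw_q h ((Ap63.q_slow h h.i3 le_rfl).trans hγ)
  have g0 := W.g0 h
  have kp := h2.trans h.i3
  have c2 : 1 ≤ S.C ^ 2 := one_le_pow₀ C1
  have e0 : 0 ≤ S.C ^ 3 * S.v + S.C * S.v + γ := by positivity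
  have p0 : R ≤ S.C ^ 2 * R := le_mul_of_one_le_left R0 c2
  have r0 : 0 < ρ := by linarith
  have r2 : R ^ 2 ≤ ρ ^ 2 := pow_le_pow_left₀ R0 (by linarith) 2
  have cub : S.C ^ 2 * Sx M.z (fun j => M.rb m a j - M.q j) lo S.Jp 2 <
      ρ ^ 2 * (ρ - (S.C ^ 3 * S.v + S.C * S.v + γ)) :=
    calc _ ≤ S.C ^ 2 * R ^ 3 := mul_le_mul_of_nonneg_left hS (by positivity)
      _ = R ^ 2 * (S.C ^ 2 * R) := by ring
      _ ≤ ρ ^ 2 * (S.C ^ 2 * R) := mul_le_mul_of_nonneg_right r2 (by positivity)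
      _ < _ := mul_lt_mul_of_pos_left (by linarith) (by positivity)
  refine abs_le.2 ⟨not_lt.1 fun c => ?_, not_lt.1 fun c => ?_⟩
  · rcases Ap63.dn (ρ := ρ) h.leg.zm (rb_mono (M := M) (a := a) A.m_pos) (by positivity) W.mono
      (fun i k a => W.lip h i k (l0.trans a)) h1 kp r0.le (by unfold Md.del at c; linarith) 2
      with b | b
    · have q := (h.q_tel hθ (show lo + 1 ≤ k from h1) kp).1
      rw [div_le_iff₀ (by positivity)] at q
      nlinarith
    · exact absurd b (not_le.2 cub)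
  · rcases Ap63.up (ρ := ρ) h.leg.zm (rb_mono (M := M) (a := a) A.m_pos) (by positivity) W.mono
      (fun i k a => W.lip h i k (l0.trans a)) h1 kp r0.le (by unfold Md.del at c; linarith) 2
      with b | b
    · rw [h.top _ le_rfl] at b
      have w : 1 / S.C ≤ 1 - M.z (k - 1) := by
        linarith [h.atom.2, h.leg.zm (show k - 1 ≤ S.J - 1 by omega)]
      have d : (S.C ^ 2 * R) ^ 2 < ρ ^ 2 := pow_lt_pow_left₀ (by linarith) (by positivity) two_ne_zero
      have d2 := mul_lt_mul_of_pos_right d (show 0 < 1 / S.C by positivity)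
      have d3 := mul_le_mul_of_nonneg_left w (sq_nonneg ρ)
      have d4 : (S.C ^ 2 * R) ^ 2 * (1 / S.C) = S.C ^ 3 * R ^ 2 := by field_simp
      have d5 : R ^ 3 ≤ S.C ^ 3 * R ^ 2 := by
        rw [pow_succ' R]
        exact mul_le_mul_of_nonneg_right (R1.trans (one_le_pow₀ C1)) (sq_nonneg R)
      have d6 : Sx M.z (fun j => M.rb m a j - M.q j) lo S.Jp 2 ≤ R ^ 3 := hS
      linarith
    · exact absurd b (not_le.2 cub)

/-- (E1) between two good nodes above `s J / 2`, the label clock being summed -/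
theorem e_tw2 (G : Rg K E L S) (F : Fb L S M m a l X Lg X2 η) (H : LN E S M l0 l V0 X Lg X2 X3 G0 η)
    {Gn : ℕ → Prop} {u i1 V k : ℕ} (Nd : Nt E L S M m a Lg X X2 η Gn u i1)
    (lJ : 2 * l ≤ M.s S.J) (s0 : M.s S.J / 2 ≤ M.s u) (uV : u ≤ V) (h1 : V ≤ k) (h2 : k ≤ i1)
    (iJ : i1 < S.J) (gu : Gn u) (gV : Gn V) (gk : Gn k) (g1 : Gn i1) {Γ : ℝ}
    (hΓ : ∀ i k, Nx Gn u i1 i k → sb M m a (k + 1) - sb M m a (i + 1) ≤ Γ) {Q : ℝ}
    (hQ : |L0.Gd (lb M S m a (2 * S.C)) (sb M m a (V + 1))| +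
      |L0.Gd (lb M S m a (2 * S.C)) (sb M m a (k + 1))| ≤ Q) :
    |res M S m a (2 * S.C) k - res M S m a (2 * S.C) V| ≤ 16 * L * η (M.s S.J) +
      16 * L * uw S Lg (M.s S.J) ^ 2 * Q + qO L S M Lg X2 * (sb M m a (k + 1) - sb M m a (V + 1)) +
      (qO L S M Lg X2 + 2 * L ^ 3 * Γ ^ 2) * (M.z k - M.z V) := by
  have A := F.at'
  have h := A.cl
  have L1 := G.L1
  have L0 : 0 < L := by linarith
  have L1' : 1 ≤ L := by linarith
  have l0' := F.l0
  have X0 := F.X2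
  have sJ : M.s S.J ≤ S.C := h.s_le_C h.i3
  have mlq : ∀ s, l ≤ s → s ≤ S.C → √(S.ms s) ≤ s := fun s p q =>
    (le_mul_of_one_le_left (sqrt_nonneg _) (one_le_pow₀ L1')).trans (F.ml s p q)
  have nd : ∀ i, u ≤ i → i ≤ i1 → uw S Lg (M.s i) ^ 2 ≤ 16 * uw S Lg (M.s S.J) ^ 2 := fun i p q => by
    have d2 := h.sm p
    obtain ⟨d3, d4⟩ := uw_le h F.F1 Lg (s := M.s i) (t := M.s S.J) (by linarith)
      (mlq _ (by linarith) sJ) (mlq _ (by linarith) (h.s_le_C ((q.trans iJ.le).trans h.i3)))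
      (by linarith)
    linarith [pow_le_pow_left₀ d3 d4 2]
  have L3 : L ≤ L ^ 3 := le_self_pow₀ L1' (by norm_num)
  have x1 : 0 ≤ L ^ 3 * X2 := by positivity
  have x2 : 0 ≤ L ^ 3 * uw S Lg (M.s S.J) ^ 2 := by positivity
  have cc : ∀ y, V ≤ y → y ≤ k → L * E61.u4 M m a y ^ 2 ≤ qO L S M Lg X2 + 2 * L ^ 3 * Γ ^ 2 := by
    intro y p q
    obtain ⟨i, k, n, p1, p2⟩ := exists_nx' gu g1 (uV.trans p) (q.trans h2)
    have d2 := nd i n.1 (n.2.1.trans n.2.2.1)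
    have d3 := pow_le_pow_left₀ (sqrt_nonneg _) (Nd.u4 i k y n p1 p2) 2
    have d8 := pow_le_pow_left₀ (sub_nonneg.2 (A.sb_mono (Nat.succ_le_succ n.2.1))) (hΓ i k n) 2
    have d4 : (uw S Lg (M.s i) + (sb M m a (k + 1) - sb M m a (i + 1))) ^ 2 ≤
        32 * uw S Lg (M.s S.J) ^ 2 + 2 * Γ ^ 2 := by
      simp only [Nat.succ_eq_add_one] at d8
      linarith [sq_nonneg (uw S Lg (M.s i) - (sb M m a (k + 1) - sb M m a (i + 1)))]
    have d5 := mul_le_mul_of_nonneg_left d4 (pow_pos L0 3).le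
    have d6 := mul_le_mul_of_nonneg_left d3 L0.le
    change L * E61.u4 M m a y ^ 2 ≤ _ at d6
    unfold qO
    linarith only [d5, d6, x1]
  have cm : 0 ≤ qO L S M Lg X2 + 2 * L ^ 3 * Γ ^ 2 := by unfold qO; positivity
  have d3 : L * ∑ y ∈ Ioo V k, M.dz m a y * E61.u4 M m a y ^ 2 ≤
      (qO L S M Lg X2 + 2 * L ^ 3 * Γ ^ 2) * (M.z k - M.z V) := by
    rw [← At.sum_dz M h1, mul_sum, mul_sum]
    refine (sum_le_sum fun y hy => ?_).trans (sum_le_sum_of_subset_of_nonneg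
      Ioo_subset_Ioc_self fun y _ _ => mul_nonneg cm (A.dz_nn y))
    rw [Md67.dz_up h.leg (Nat.zero_lt_of_lt (mem_Ioo.1 hy).1)]
    linarith [mul_le_mul_of_nonneg_left (cc y (mem_Ioo.1 hy).1.le (mem_Ioo.1 hy).2.le) (A.dz_nn y)]
  refine (Nd.e1 V k uV h1 h2 gV gk).trans ?_
  have d0 := sub_nonneg.2 (A.sb_mono (Nat.succ_le_succ h1))
  have d1 : η (M.s V) ≤ 16 * η (M.s S.J) := by
    have d5 := H.ηa (show M.s S.J / 2 ≤ M.s V by linarith [h.sm uV])
    have d6 := H.η2 (M.s S.J / 2) (by linarith)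
    rw [show 2 * (M.s S.J / 2) = M.s S.J by ring] at d6
    linarith
  have d5 : L * X2 ≤ qO L S M Lg X2 := by
    have e1 := mul_le_mul_of_nonneg_right L3 X0
    unfold qO
    linarith
  have d6 := mul_le_mul_of_nonneg_left (mul_le_mul (nd V uV (h1.trans h2)) hQ
    (add_nonneg (abs_nonneg _) (abs_nonneg _)) (by positivity)) L0.le
  have d7 := mul_le_mul_of_nonneg_right d5 d0
  have d8 := mul_le_mul_of_nonneg_left d1 L0.le
  simp only [Nat.succ_eq_add_one] at d7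
  linarith only [d3, d6, d7, d8]

/-- `uw` at the corner against `uw 1` -/
theorem uw_one (h : Cl S M) (F1 : S.F = 1) (Lg : ℝ) {Q t : ℝ} (Q1 : 1 ≤ Q) (t0 : 0 < t)
    (ht : 1 ≤ Q * t) (hs : √(S.ms t) ≤ t) : 0 ≤ uw S Lg t ∧ uw S Lg t ≤ 2 * Q * uw S Lg 1 := by
  have n0 := h.N0
  have m0 := h.ms_pos t0.le
  have m1 := h.ms_pos zero_le_one
  have a1 : S.ms 1 ≤ 4 * Q ^ 2 * S.ms t := (h.msm ht).trans (h.ms_mul t0.le Q1)
  have p0 : 0 ≤ S.w3 t := by unfold Sc.w3; rw [F1]; positivity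
  have p1 : 0 ≤ S.w3 1 := by unfold Sc.w3; rw [F1]; positivity
  have a2 : S.w3 t ≤ (2 * Q) ^ 3 * S.w3 1 := by
    unfold Sc.w3
    rw [F1, ← mul_div_assoc, div_le_div_iff₀ (by positivity) (by positivity)]
    have b := mul_le_mul ht a1 m1.le (by positivity)
    linarith [mul_le_mul_of_nonneg_left b n0.le, show 0 ≤ Q ^ 3 * (S.n * t * S.ms t) by positivity]
  have w3 : S.w3 t ^ ((1 : ℝ) / 3) ≤ 2 * Q * S.w3 1 ^ ((1 : ℝ) / 3) := by
    refine (rpow_le_rpow p0 a2 (by norm_num)).trans_eq ?_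
    rw [mul_rpow (by positivity) p1, one_div, show (3 : ℝ) = ((3 : ℕ) : ℝ) by norm_num,
      pow_rpow_inv_natCast (by positivity) (by norm_num)]
  have c1 : 1 ≤ cr S 1 := le_max_left _ _
  have w0 : 0 ≤ Lg ^ 2 * (2 * Q * S.w3 1 ^ ((1 : ℝ) / 3)) := by positivity
  unfold uw
  rw [cr_one h F1 t0 hs]
  exact ⟨by positivity, by
    linarith [mul_le_mul_of_nonneg_left w3 (sq_nonneg Lg), le_mul_of_one_le_left w0 c1]⟩

end T20

open T20

set_option maxHeartbeats 1600000 in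
/-- **the set-up of the last window**, second form -/
theorem sqAt2 (T0 : ℝ) : ∃ K0 : ℝ, ∀ {S : Sc} {M : Md} {m : ℕ} {a : ℝ}
    {K E L G1 u1 u2 j γ Lc ηc τ l0 l X Xp Vt Lg Lp X2 X3 X4 G0 N t1 ℓ En p0 aa g' R2 : ℝ}
    {η g : ℝ → ℝ}, 2 * S.C = T0 → Cl S M → S.In m a → K0 ≤ K → T20.Rg K E L S → L ^ 400 ≤ E →
    Hy E S M m a G1 u1 u2 j γ Lc ηc τ l0 l X Xp Vt Lg Lp X2 X3 X4 G0 η N g t1 (M.s S.J) ℓ En p0 →
    LQ E S M X Xp Vt Lg Lp X2 G0 u1 u2 j γ η aa g' R2 → ∀ Gn : ℕ → Prop,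
    (∀ U V, 5 / 4 * l ≤ M.s U → M.s V + aa / 5 ≤ M.s S.J → Nt E L S M m a Lg X X2 η Gn U V) →
    ∃ u V V2 y r, Sq2 K L S M m a Lg X2 j γ η aa g' R2 Gn u V V2 y r := by
  obtain ⟨K1, HS⟩ := sqAt T0
  obtain ⟨K2, K21, HG⟩ := gd_nd T0
  refine ⟨max K1 K2, fun {S M m a K E L G1 u1 u2 j γ Lc ηc τ l0 l X Xp Vt Lg Lp X2 X3 X4 G0 N t1 ℓ En
    p0 aa g' R2 η g} hT h hm hK G LE H Q' Gn hN => ?_⟩
  obtain ⟨u, V, V2, y, r, P⟩ := HS hT h hm ((le_max_left _ _).trans hK) G H Q' Gn hN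
  have Q := qn h hm G H Q'
  have F := Q.F
  have A := F.at'
  have nk := P.nk
  have C1 := h.C1
  have C0 := h.C0
  have v0 := h.v0
  have θ0 := h.θ0
  have θ1 := F.θ1
  have L1 := G.L1
  have L0 : 0 < L := by linarith
  have L1' : 1 ≤ L := by linarith
  have l0' := F.l0
  have lJ := Q.lJ
  have a0 := Q.a0
  have j0 := Q.j0
  have γ0 := Q.γ0
  have gb := Q.gb
  have gz := Q.g0
  have th := Q.th
  have X0 := F.X2
  have r0 := nk.r0
  have r2 := nk.r2
  have su := P.su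
  have y1 := P.y1
  have y2 := P.y2
  have s2 := P.s2
  have LC := G.LC
  have sJ : M.s S.J ≤ S.C := h.s_le_C h.i3
  have y0 : 0 < y := by linarith
  have pw : ∀ i k : ℕ, i ≤ k → L ^ i ≤ L ^ k := fun i k => pow_le_pow_right₀ L1'
  have pk : ∀ i k : ℕ, i < k → 1000 * L ^ i ≤ L ^ k := fun i k c =>
    (mul_le_mul_of_nonneg_right L1 (pow_pos L0 i).le).trans (by rw [← pow_succ']; exact pw _ _ c)
  have KC : K2 * S.C ≤ L := (mul_le_mul_of_nonneg_right ((le_max_right _ _).trans hK) C0.le).trans G.LK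
  have KL : K2 ≤ L := (le_mul_of_one_le_right (by linarith) C1).trans KC
  have Nd := hN u V2 (by linarith) (by linarith)
  have sk : ∀ k, k ≤ V2 → M.s k ≤ M.s S.J := fun k p => h.sm (p.trans P.VJ.le)
  have mJ : S.ms (M.s S.J) ≤ 16 * r ^ 2 := by
    have f1 := h.ms_pow (half_pos y0).le 2
    norm_num at f1
    rw [r2]
    exact (h.msm (by linarith)).trans f1
  have g60 : ∀ i k, Nx Gn u V2 i k → sb M m a (k + 1) - sb M m a (i + 1) ≤ r / L ^ 60 := by
    intro i k n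
    have d0 := sub_nonneg.2 (A.sb_mono (Nat.succ_le_succ n.2.1))
    have d1 := Nd.sh i k n
    have d3 := pow_le_pow_left₀ (h.ms_pos (h.s_nn i)).le
      ((h.msm (sk i (n.2.1.trans n.2.2.1))).trans mJ) 3
    refine le_of_pow_le_pow_left₀ (n := 6) (by norm_num) (by positivity) ?_
    rw [div_pow, le_div_iff₀ (by positivity)]
    refine le_of_mul_le_mul_left ?_ (show 0 < 4096 * L by positivity)
    have d4 := mul_le_mul_of_nonneg_right ((show 4096 * L ^ 361 ≤ L ^ 400 by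
      linarith [pk 361 362 (by norm_num), pk 362 400 (by norm_num), pow_pos L0 361]).trans LE)
      (pow_nonneg d0 6)
    have d5 := mul_le_mul_of_nonneg_left d3 L0.le
    simp only [Nat.succ_eq_add_one] at d4
    linarith only [d1, d4, d5]
  have c2 : S.C ≤ S.C ^ 2 := le_self_pow₀ C1 two_ne_zero
  have c3 : S.C ^ 2 ≤ S.C ^ 3 := pow_le_pow_right₀ C1 (by norm_num)
  set B := bs S Lg X2 g' η (M.s S.J) with hB
  have sm : L ^ 400 * (aa + j + B + γ) ≤ √S.θ :=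
    (mul_le_mul_of_nonneg_right LE (by linarith)).trans Q'.sm
  have va : S.v ≤ aa := (le_mul_of_one_le_left v0.le (one_le_pow₀ L1')).trans Q.va
  have aθ : aa ≤ √S.θ := le_trans (by linarith)
    ((le_mul_of_one_le_left (by linarith) (one_le_pow₀ L1')).trans sm)
  have e1 : 1 ≤ 3 * S.C ^ 2 * M.s S.J := by
    have e2 := h.atom.1
    have i2 := h.i2
    have i1 := h.i1
    have e3 := (h.z_s (k := S.J - 1) (by omega) (by omega)).2
    have e4 := h.sm (Nat.sub_le S.J 1)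
    have e6 := mul_le_mul_of_nonneg_left
      (show M.s (S.J - 1) + 2 * S.v ≤ 3 * M.s S.J by linarith) C0.le
    rw [div_le_iff₀ C0] at e2
    linarith [mul_le_mul_of_nonneg_right (e3.trans e6) C0.le]
  have tr : S.θ ≤ L ^ 2 * r ^ 2 := by
    have := pow_le_pow_left₀ (sqrt_nonneg _) P.th 2
    rwa [sq_sqrt θ0.le, mul_pow] at this
  have F0 : 0 ≤ qF L S M Lg X2 j γ η g' :=
    (show 0 ≤ qJ L S j γ by unfold qJ; have := h.N0; positivity).trans nk.jF
  have o0 : 0 ≤ qO L S M Lg X2 := P.nw.o0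
  have R20 : 0 ≤ R2 := by
    linarith [Q'.q4, sq_nonneg X2, sq_nonneg γ, H.lp.u1b.1, H.lp.u1a, h.last, h.leg.z1 (S.Jp - 1)]
  refine ⟨u, V, V2, y, r, P, g60, nk.mono (by positivity) (by positivity) ?_, Nd.gap,
    fun i k p q s gi gk => ?_, ?_, ?_, e1, mJ⟩
  · exact div_le_div₀ (by positivity) (by linarith) (by positivity) (pw 11 60 (by norm_num))
  · set R := X ^ ((1 : ℝ) / 3) with hR
    have R0 : 0 < R := rpow_pos_of_pos H.ln.X0 _
    have R1 := F.R1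
    have γR : γ ≤ R := Q'.a6
    have nθ : 1 / (S.n : ℝ) ≤ S.θ := by
      have := h.ms_ge zero_le_one
      rwa [rpow_neg_one, ← one_div] at this
    have vθ : S.v ≤ S.θ := G.vn.trans nθ
    have mθ : 1 / ((m : ℝ) + 1) ≤ S.θ := (one_div_le_one_div_of_le h.N0
      (by have : (S.n : ℝ) ≤ m := by exact_mod_cast hm.m1
          linarith)).trans nθ
    have θq : S.θ ≤ √S.θ := Real.le_sqrt_of_sq_le (by nlinarith)
    have E1 : 1 ≤ E := (one_le_pow₀ L1').trans LE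
    have θJ : L ^ 3 * S.θ ≤ M.s S.J := by
      have f1 := (mul_le_mul ((pw 3 400 (by norm_num)).trans LE) θq θ0.le (by linarith)).trans H.lt.ℓ1
      exact f1.trans ((le_mul_of_one_le_left (le_trans (by positivity) f1) E1).trans H.lt.ℓ2)
    have l1 : l ≤ 1 := (le_mul_of_one_le_left l0'.le E1).trans H.ln.l1
    have RL : L ^ 3 * R ≤ l := (mul_le_mul_of_nonneg_right (pw 3 67 (by norm_num)) R0.le).trans R1
    have CL : 1000 * (S.C * S.C ^ 3) ≤ L ^ 3 := by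
      have f1 := mul_le_mul (show S.C ≤ L by linarith) (show S.C ^ 3 ≤ L by linarith [pow_pos C0 3])
        (by positivity) L0.le
      linarith [pk 2 3 (by norm_num)]
    have f1 := mul_le_mul_of_nonneg_right CL θ0.le
    have f2 := mul_le_mul_of_nonneg_right CL R0.le
    have c4 : S.C ^ 3 ≤ S.C * S.C ^ 3 := le_mul_of_one_le_left (by positivity) C1
    have f3 := mul_le_mul_of_nonneg_right c4 R0.le
    have f4 := mul_le_mul ((c2.trans c3).trans c4) γR γ0 (by positivity)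
    have f5 := mul_le_mul ((c2.trans c3).trans c4) vθ v0.le (by positivity)
    have Cθ : S.C * S.θ ≤ 1 / 2 := by
      have f6 : S.C * (S.C * S.θ) ≤ S.C * (1 / 2) := by
        linarith [mul_le_mul_of_nonneg_right (c3.trans c4) θ0.le]
      exact le_of_mul_le_mul_left f6 C0
    have hS : Sx M.z (M.del m a) S.jl S.Jp 2 ≤ R ^ 3 := by
      rw [hR, ← rpow_natCast, ← rpow_mul H.ln.X0.le]
      norm_num
      refine le_trans ?_ H.ap.all
      rw [Phi, Ap63.En_eq h]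
      exact sum_le_sum_of_subset_of_nonneg (Ioc_subset_Ioc_left h.i1) fun k _ _ =>
        mul_nonneg (Ap63.w_nn h.leg.zm k) (by positivity)
    have J0 : 0 ≤ qJ L S j γ := by unfold qJ; have := h.N0; positivity
    have gd : ∀ x, u ≤ x → x ≤ V2 → |T156.L0.Gd (lb M S m a (2 * S.C)) (sb M m a (x + 1))| ≤
        L * (qJ L S j γ + g') + 3 * L ^ 2 * (S.θ + R) := fun x x1 x2 => by
      have xJ := x2.trans_lt P.VJ
      have jx := P.nw.ju.trans_le x1
      have xp := xJ.le.trans h.i3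
      have sx := su.trans (h.sm x1)
      have b1 := (h.ss S.jl h.jl_lt).2
      have b2 := (le_mul_of_one_le_left (h.s_nn S.jl) L1').trans F.jl
      have d := del_w A Cθ (ρ := S.C ^ 2 * R + 3 * S.C ^ 3 * S.θ + γ) h.i1 jx xJ.le H.lp.γ0 R0.le
        (by linarith [le_mul_of_one_le_left R0.le (one_le_pow₀ L1' (n := 3))]) hS (by
          linarith [mul_le_mul_of_nonneg_left vθ (pow_pos C0 3).le, mul_pos (pow_pos C0 3) θ0,
            mul_le_mul (c2.trans c3) vθ v0.le (by positivity)]) (by linarith)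
      have b3 := A.sub_le (A.jp_le xp)
      have b4 := mul_le_mul_of_nonneg_left d C0.le
      have b5 : S.C / (m + 1) ≤ S.C * S.θ := by
        rw [div_eq_mul_one_div]; exact mul_le_mul_of_nonneg_left mθ C0.le
      have b6 := HG A hT.le (h.i1.trans jx.le) xJ (A.sb_mem xp) (P.hp _ (A.sb_mem xp))
      rw [A.lvb_node jx.le xp, sub_self, abs_zero] at b6
      have b7 : S.C * (S.ms (M.s x) / M.s x) ≤ L * S.θ := by
        rw [← mul_div_assoc, div_le_iff₀ (by linarith)]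
        have g1 := mul_le_mul_of_nonneg_left (h.ms1 (M.s x)) C0.le
        have g2 := mul_le_mul_of_nonneg_left e1 (mul_pos C0 θ0).le
        have g3 := mul_le_mul (show 6 * S.C ^ 3 ≤ L by linarith [pow_pos C0 3]) sx (by linarith) L0.le
        linarith [mul_le_mul_of_nonneg_left g3 θ0.le]
      have b8 := mul_le_mul_of_nonneg_left (show qJ L S j γ + |sb M m a (x + 1) - M.s x| ≤
        qJ L S j γ + g' + S.C * (8 * S.C ^ 3 * (S.θ + R)) by
          linarith [P.hg x x1 x2, mul_le_mul_of_nonneg_right ((c2.trans c3).trans c4) θ0.le,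
            mul_pos (mul_pos C0 (pow_pos C0 3)) θ0, mul_pos (mul_pos C0 (pow_pos C0 3)) R0])
        (zero_le_one.trans K21)
      have b9 := mul_le_mul_of_nonneg_right KL (add_nonneg J0 gz)
      have b10 := mul_le_mul_of_nonneg_right (mul_le_mul KC (show 8 * S.C ^ 3 ≤ L by
        linarith [pow_pos C0 3]) (by positivity) L0.le) (add_pos θ0 R0).le
      have b11 := mul_le_mul_of_nonneg_right (show L ≤ L ^ 2 by simpa using pw 1 2 (by norm_num)) θ0.le
      have b12 : 0 ≤ L ^ 2 * (S.θ + R) := by positivity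
      have b13 : 0 ≤ L ^ 2 * R := by positivity
      linarith only [b6, b7, b8, b9, b10, b11, b12, b13]
    have fin := e_tw2 G F H.ln Nd (by linarith) su p q s P.VJ P.nw.gu gi gk P.g2 g60
      (add_le_add (gd i p (q.trans s)) (gd k (p.trans q) s))
    obtain ⟨w0, w1⟩ := uw_one h F.F1 Lg (Q := 3 * S.C ^ 2) (t := M.s S.J) (by linarith) (by linarith) e1
      ((le_mul_of_one_le_left (sqrt_nonneg _) (one_le_pow₀ L1')).trans (F.ml _ (by linarith) sJ))
    have w2 : uw S Lg (M.s S.J) ^ 2 ≤ (L * uw S Lg 1) ^ 2 := pow_le_pow_left₀ w0 (w1.trans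
      (mul_le_mul_of_nonneg_right (by linarith [pow_pos C0 3])
        (nonneg_of_mul_nonneg_right (w0.trans w1) (by positivity)))) 2
    have np : 0 ≤ Np M S Xp Vt γ u1 Lp 2 := add_nonneg
      (((sub_nonneg.2 (h.leg.z1 _)).trans h.last).trans H.lp.u1a) (sum_nonneg fun k _ => by
      have r0 : 0 ≤ Rp M S Xp Vt γ k :=
        add_nonneg (add_nonneg (sqrt_nonneg _) (le_min H.lp.Vt0 (sqrt_nonneg _))) γ0
      have L0 : 0 < Lp := by linarith [H.lp.Lp1.1]
      exact mul_nonneg (Ap63.w_nn h.leg.zm k)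
        (add_nonneg (sq_nonneg _) (le_min (by positivity) (by positivity))))
    have η1 := F.ηn 1 l1 C1
    have n1 : 0 < 1 / (S.n : ℝ) := by have := h.N0; positivity
    have xp := H.lp.Xp0.1
    have w3 : uw S Lg 1 ^ 2 * (S.θ + R) ≤ eQ S M X Xp Vt Lg Lp X2 G0 u1 j γ (√S.θ) η := by
      have g1 := mul_nonneg (sq_nonneg (uw S Lg 1)) (add_nonneg j0 (sqrt_nonneg S.θ))
      have g2 : 0 ≤ X2 * Xp ^ ((1 : ℝ) / 3) := by positivity
      unfold eQ
      linarith [sq_nonneg G0, sqrt_nonneg (S.w3 1 * (Xp + √S.θ ^ 3 + γ ^ 3))]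
    have w4 : eQ S M X Xp Vt Lg Lp X2 G0 u1 j γ (√S.θ) η ≤ S.θ * √R2 := by
      refine (le_abs_self _).trans (abs_le_of_sq_le_sq' ?_ (by positivity) |> abs_le.2)
      rw [mul_pow, sq_sqrt R20]
      have : 0 ≤ GP M S := sum_nonneg fun k _ => mul_nonneg (Ap63.w_nn h.leg.zm k) (sq_nonneg _)
      linarith [Q'.q1]
    have w5 := mul_le_mul_of_nonneg_right tr (sqrt_nonneg R2)
    have w6 := mul_le_mul_of_nonneg_left ((mul_le_mul_of_nonneg_right w2 (add_pos θ0 R0).le).trans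
      (show (L * uw S Lg 1) ^ 2 * (S.θ + R) ≤ L ^ 2 * (L ^ 2 * r ^ 2 * √R2) by
        linarith [mul_le_mul_of_nonneg_left ((w3.trans w4).trans w5) (pow_pos L0 2).le]))
      (show 0 ≤ 96 * L ^ 3 by positivity)
    have w7 := mul_le_mul_of_nonneg_right (show 96 * L ^ 7 ≤ L ^ 8 by
      linarith [pk 7 8 (by norm_num), pow_pos L0 7]) (show 0 ≤ r ^ 2 * √R2 by positivity)
    have w8 : 32 * L ^ 2 * uw S Lg (M.s S.J) ^ 2 ≤ r ^ 2 := by
      refine le_trans ?_ ((le_mul_of_one_le_left o0 (one_le_pow₀ L1')).trans nk.o1)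
      unfold qO
      linarith [mul_le_mul_of_nonneg_right (pw 2 3 (by norm_num)) (sq_nonneg (uw S Lg (M.s S.J))),
        mul_nonneg (pow_pos L0 3).le X0]
    have w9 : qJ L S j γ + g' ≤ qF L S M Lg X2 j γ η g' :=
      le_trans (by linarith) (le_mul_of_one_le_left (by linarith) (one_le_pow₀ L1' (n := 5)))
    have w10 := mul_le_mul w8 w9 (by linarith) (sq_nonneg r)
    have w11 := nk.eF
    have w12 := P.nw.e0
    have w13 := mul_le_mul_of_nonneg_right (show 2 ≤ L by linarith) (mul_nonneg F0 (sq_nonneg r))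
    linarith only [fin, w6, w7, w10, w11, w12, w13]
  · have f1 := H.ln.th2 (M.s S.J) (by linarith) sJ
    have f2 := H.ln.th3
    rw [mf, F.F1, div_one] at f1 f2
    have f3 := h.msm (show l ≤ M.s S.J by linarith)
    have Y0 : 0 ≤ X2 + uw S Lg (M.s S.J) ^ 2 := by positivity
    have f4 := mul_le_mul_of_nonneg_right ((show 2048 * L ^ 23 ≤ L ^ 400 by
      linarith [pk 23 24 (by norm_num), pk 24 400 (by norm_num), pow_pos L0 23]).trans LE) Y0
    have f5 : L ^ 20 * (2 * L ^ 3 * (r / L ^ 60) ^ 2) ≤ r ^ 2 / 2 := by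
      rw [show L ^ 20 * (2 * L ^ 3 * (r / L ^ 60) ^ 2) = 2 * r ^ 2 / L ^ 97 by field_simp,
        div_le_iff₀ (by positivity)]
      linarith [mul_le_mul_of_nonneg_left (show 4 ≤ L ^ 97 by linarith [pw 1 97 (by norm_num)])
        (sq_nonneg r)]
    unfold qO
    linarith
  · have f1 : L ^ 399 * (aa + j + B + γ) ≤ r := le_of_mul_le_mul_left
      (le_trans (by linarith) (sm.trans P.th)) L0
    have f2 := mul_le_mul_of_nonneg_left P.Fb (pow_pos L0 80).le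
    have f3 := mul_le_mul_of_nonneg_right (pw 80 88 (by norm_num)) a0.le
    have f4 := mul_le_mul_of_nonneg_right (show 2 * L ^ 88 ≤ L ^ 399 by
      linarith [pk 88 399 (by norm_num), pow_pos L0 88]) (show 0 ≤ aa + j + B + γ by linarith)
    have f5 : 2 * L ^ 88 * √R2 ≤ r := by
      refine le_of_pow_le_pow_left₀ (n := 4) (by norm_num) r0.le ?_
      have g1 : √R2 ^ 4 = R2 ^ 2 := by rw [show 4 = 2 * 2 by norm_num, pow_mul, sq_sqrt R20]
      have g2 := (mul_le_mul_of_nonneg_right LE (sq_nonneg R2)).trans Q'.q5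
      have g3 : S.θ ^ 3 ≤ (L ^ 2 * r ^ 2) ^ 2 :=
        (pow_le_pow_of_le_one θ0.le θ1 (by norm_num)).trans (pow_le_pow_left₀ θ0.le tr 2)
      have g4 : L ^ 396 * R2 ^ 2 ≤ r ^ 4 :=
        le_of_mul_le_mul_left (le_trans (by linarith) (g2.trans (g3.trans_eq (by ring)))) (pow_pos L0 4)
      have g5 := mul_le_mul_of_nonneg_right (show 16 * L ^ 352 ≤ L ^ 396 by
        linarith [pk 352 396 (by norm_num), pow_pos L0 352]) (sq_nonneg R2)
      rw [mul_pow, g1]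
      linarith
    linarith

end Crest.Agent.T156.Alt.L63

end
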