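import Crest.Agent.T156.TLqZ_20
import Crest.Agent.T156.TLqJ_20
import Crest.Agent.T156.TLqU_20
import Crest.Agent.T156.TLqH_53
import Crest.Agent.T156.TLqF_26
import Crest.Agent.T156.TLqU_45
import Crest.Agent.T156.TLqW_54

/-!
# Row 156, block (L): the body of `TLq` (assembly; helper20)
-/

set_option autoImplicit false

noncomputable section

namespace Crest.Agent.T156.Alt.L63

open Real
open Crest.Agent.T156.Alt.L69 Crest.Agent.T156.Alt.Mp9 T20

theorem psq20 {L p0 ℓ R s F φ ρ B : ℝ} (L1 : 1000 ≤ L) (ℓ0 : 0 ≤ ℓ) (R0 : 0 ≤ R) (s0 : 0 ≤ s)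
    (D3 : ℓ + R + s ≤ 3) (p00 : 0 ≤ p0) (F0 : 0 ≤ F) (hF : F ≤ L ^ 8 * (φ + ρ))
    (hB : p0 ^ 2 + (ℓ + R + s) * φ ^ 2 + ρ ^ 2 ≤ B) :
    (L * p0 + (2 * ℓ + L * (R + s)) * (L ^ 12 * F)) ^ 2 ≤ L ^ 108 * B := by
  have L0 : 0 < L := by linarith
  have L1' : 1 ≤ L := by linarith
  set D := ℓ + R + s with hD
  have D0 : 0 ≤ D := by positivity
  have a1 : 2 * ℓ + L * (R + s) ≤ L * D := by
    linarith [mul_le_mul_of_nonneg_right (show 2 ≤ L by linarith) ℓ0]
  have a2 := mul_le_mul a1 (mul_le_mul_of_nonneg_left hF (pow_pos L0 12).le) (by positivity)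
    (by positivity)
  have a3 : p0 * L ≤ p0 * L ^ 21 := mul_le_mul_of_nonneg_left (le_self_pow₀ L1' (by norm_num)) p00
  have a4 : L * p0 + (2 * ℓ + L * (R + s)) * (L ^ 12 * F) ≤ L ^ 21 * (p0 + D * φ + D * ρ) := by
    linarith
  have a5 : (p0 + D * φ + D * ρ) ^ 2 ≤ 27 * B := by
    have b1 := mul_le_mul_of_nonneg_right D3 (mul_nonneg D0 (sq_nonneg φ))
    have b2 := mul_le_mul_of_nonneg_right (pow_le_pow_left₀ D0 D3 2) (sq_nonneg ρ)
    linarith [sq_nonneg (p0 - D * φ), sq_nonneg (p0 - D * ρ), sq_nonneg (D * φ - D * ρ),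
      sq_nonneg p0, mul_nonneg D0 (sq_nonneg φ)]
  have B0 : 0 ≤ B := le_trans (by positivity) hB
  have a6 := pow_le_pow_left₀ (by positivity) a4 2
  have a7 := mul_le_mul_of_nonneg_left a5 (pow_pos L0 42).le
  have a8 := mul_le_mul_of_nonneg_right ((show 27 * L ^ 42 ≤ L ^ 43 by
    linarith [mul_le_mul_of_nonneg_right L1 (pow_pos L0 42).le, pow_pos L0 42]).trans
      (pow_le_pow_right₀ L1' (show 43 ≤ 108 by norm_num))) B0
  linarith

set_option maxHeartbeats 1600000 in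
/-- **the body of `TLq`** -/
theorem tlqAt20 : TlqAt 161 := by
  intro T0
  obtain ⟨K1, H1⟩ := sqAt2 T0
  obtain ⟨K2, H2⟩ := fl36 T0
  obtain ⟨K3, H3⟩ := win36 T0
  obtain ⟨K4, H4⟩ := last26 T0
  obtain ⟨K5, H5⟩ := spq45 T0
  refine ⟨max (max (max K1 K2) (max K3 K4)) K5, fun {S M m a K E L G1 u1 u2 j γ Lc ηc τ l0 l X Xp Vt Lg
    Lp X2 X3 X4 G0 N t1 ℓ En p0 aa g' R2 t0 f η g V' k0} hT hK hL G LE lg H Q' P Gn hN hP => ?_⟩
  have k0' := (le_max_left _ _).trans hK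
  have k1 := (le_max_left _ _).trans k0'
  have k2 := (le_max_right _ _).trans k0'
  have h := H.cl
  have A := H.A
  obtain ⟨u, V, V2, y, r, W2⟩ := H1 hT h H.mem ((le_max_left _ _).trans k1) G LE H.toHy Q' Gn hN
  have W := W2.toSq
  have Q := qn h H.mem G H.toHy Q'
  have L1 := G.L1
  have L0 : 0 < L := by linarith
  have L1' : 1 ≤ L := by linarith
  have pw : ∀ i k : ℕ, i ≤ k → L ^ i ≤ L ^ k := fun i k => pow_le_pow_right₀ L1'
  have pk : ∀ i k : ℕ, i < k → 1000 * L ^ i ≤ L ^ k := fun i k c =>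
    (mul_le_mul_of_nonneg_right L1 (pow_pos L0 i).le).trans (by rw [← pow_succ']; exact pw _ _ c)
  have LE' := (pw 200 400 (by norm_num)).trans LE
  have C0 := h.C0
  have C1 := h.C1
  have LC := G.LC
  have θ0 := h.θ0
  have lJ := Q.lJ
  have l0' := Q.F.l0
  have a0 := W.a0
  have y1 := W.y1
  have y2 := W.y2
  have k := W.kit G LE' lg Q (hN u V2 (by linarith [W.su]) (by linarith [W.s2]))
  have r0 := k.r0
  have F0 := k.F0
  have sm := W2.sm2
  have q0 := sqrt_nonneg R2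
  set F := qF L S M Lg X2 j γ η g' with hF
  have rθ : r ≤ √S.θ := W.er ▸ sqrt_le_sqrt (h.ms1 _)
  have tr : S.θ ≤ L ^ 2 * r ^ 2 := by
    have := pow_le_pow_left₀ (sqrt_nonneg _) W.th 2
    rwa [sq_sqrt θ0.le, mul_pow] at this
  have ar : aa ≤ r := (le_mul_of_one_le_left a0.le (one_le_pow₀ L1')).trans k.ar
  have aD : aa ≤ L ^ 3 * r := ar.trans (le_mul_of_one_le_left r0.le (one_le_pow₀ L1'))
  have c2 : S.C ≤ S.C ^ 2 := le_self_pow₀ C1 two_ne_zero
  have c3 : S.C ^ 2 ≤ S.C ^ 3 := pow_le_pow_right₀ C1 (by norm_num)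
  have E0 : 0 < E := lt_of_lt_of_le (by positivity) LE
  have ED : E * (L ^ 3 * r) ≤ 1 := by
    have e1 := (mul_le_mul_of_nonneg_left rθ E0.le).trans H.lt.ℓ1
    have e2 := (mul_le_mul_of_nonneg_left e1 E0.le).trans (H.lt.ℓ2.trans H.tuC)
    have e3 := mul_le_mul_of_nonneg_right ((pw 4 400 (by norm_num)).trans LE) (mul_pos E0 r0).le
    exact le_of_mul_le_mul_left (by linarith) L0
  obtain ⟨Pn, pn⟩ := hP _ aD ED
  obtain ⟨w, kA, s⟩ := H5 H hT.le ((le_max_right _ _).trans hL) Q' aD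
    (mul_le_mul_of_nonneg_left rθ (pow_pos L0 3).le) pn
  obtain ⟨c0, z1, z2, z3, z4⟩ := s.cz
  have Jw : S.J ≤ w := s.k1.le.trans s.k2
  have fl := H2 hT ((le_max_right _ _).trans k1) G LE' lg H.ln Q hN W w Jw s.k3.le
    ((mid53 H Jw s.k3.le z1 z2 z3 z4).trans W.nk.jF) s.conc
  set ρ := log S.n * L * r with hρ
  have ρ1 : 14 * (L * r) ≤ ρ := by
    linarith [mul_le_mul_of_nonneg_right lg (mul_pos L0 r0).le]
  have ρ2 : 1000 * ρ ≤ y := by
    have e1 := mul_le_mul_of_nonneg_right k.lg (mul_pos L0 r0).le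
    have e2 := mul_le_mul_of_nonneg_right (pk 2 3 (by norm_num)) r0.le
    have e3 : L ^ 3 * r ≤ y / 2 := le_of_mul_le_mul_left (by
      linarith [k.r1, k.Pa, mul_le_mul_of_nonneg_right (pw 4 66 (by norm_num)) r0.le]) L0
    linarith
  have Lr : 1000 * r ≤ L * r := mul_le_mul_of_nonneg_right L1 r0.le
  have sp := s.sum (r ^ 2 / (2 * S.C)) y (by
      rw [← mul_div_assoc, le_div_iff₀ (by positivity)]
      linarith [mul_le_mul tr (show 2 * S.C ≤ L by linarith) (by positivity) (by positivity)])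
    (by
      rw [div_div, le_div_iff₀ (by positivity)]
      have X0 := Q.F.X2
      have e1 := (le_mul_of_one_le_left k.o0 (one_le_pow₀ L1')).trans k.or
      have e2 := mul_le_mul_of_nonneg_right (show 4 * S.C ^ 2 ≤ L ^ 2 by
        linarith [pw 1 2 (by norm_num)]) (mul_nonneg L0.le X0)
      have e3 : 0 ≤ L ^ 3 * uw S Lg (M.s S.J) ^ 2 := by positivity
      have e4 : 0 ≤ L ^ 3 * X2 := by positivity
      unfold qO at e1
      linarith)
    (W.ey ▸ A.sb_mono (Nat.succ_le_succ (W.VV.trans W.VJ.le)))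
    fun t p q => fl.fl t ⟨by linarith, q.trans (A.sb_mem s.k3.le).2⟩
  have hJ := jf20 A P (t2 := y - 12 * ρ - L * r / 2 + r) (U := L ^ 12 * F) (by linarith) (by linarith)
    (by positivity) (fun t p q => fl.uq t p (by linarith)) H.ℓ0.le
  have I := iq53 H G Q' W pn (Hh := L ^ 10 * √R2) (R := L ^ 10 * √R2) (A1 := L ^ 6 * (aa + F))
    (a1 := y - 12 * ρ - L * r / 2) hρ s.pw s.k1.le s.k2 z1 z2 z3 z4 s.a1 (by
      have e1 := mul_le_mul_of_nonneg_right tr q0
      have e2 := mul_le_mul_of_nonneg_left e1 (pow_pos L0 7).le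
      have e3 := mul_le_mul_of_nonneg_right (pw 2 7 (by norm_num)) (mul_nonneg θ0.le q0)
      have e4 := mul_le_mul_of_nonneg_right (pk 9 10 (by norm_num))
        (show 0 ≤ r ^ 2 * √R2 by positivity)
      have e5 : 0 ≤ L ^ 9 * (r ^ 2 * √R2) := by positivity
      linarith [s.er, s.Gw]) (by positivity) sp le_rfl (by linarith) (by linarith) fl.fl fl.top
    ((le_abs_self _).trans (fl.uq _ (by linarith) (by linarith))) fl.lo hJ (by
      have e1 := mul_le_mul_of_nonneg_right (pw 50 88 (by norm_num)) q0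
      have e2 := mul_le_mul_of_nonneg_right (pw 40 46 (by norm_num)) (add_nonneg a0.le F0)
      have e3 := mul_le_mul_of_nonneg_right (pk 46 80 (by norm_num)) (add_nonneg a0.le F0)
      have e4 : 0 ≤ L ^ 46 * (aa + F) := by positivity
      linarith)
    fun B' p q => H3 hT ((le_max_left _ _).trans k2) W k fl p q
  have u20 := H.lp.u1a.trans H.lp.u1b.1
  have ue := (sub_nonneg.2 (h.leg.z1 _)).trans h.last
  have R20 : 0 ≤ R2 := by linarith [Q'.q4, sq_nonneg X2, sq_nonneg γ]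
  have γR : γ ≤ √R2 := Real.le_sqrt_of_sq_le (by linarith [Q'.q4, sq_nonneg X2])
  have b0 := Q.g0.trans Q.gb
  have j0 := Q.j0
  set B := bs S Lg X2 g' η (M.s S.J) with hB
  have Fb : F ≤ L ^ 8 * (j + B + √R2) :=
    W.Fb.trans (mul_le_mul_of_nonneg_left (by linarith) (pow_pos L0 8).le)
  have z0 : 0 ≤ j + B + √R2 := by linarith
  have X0 : 0 ≤ X ^ ((1 : ℝ) / 3) := rpow_nonneg H.ln.X0.le _
  refine H4 hT H.mem ((le_max_right _ _).trans k2) G LE' H.toHy Q' W I (by linarith [W.w1])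
    (by linarith) (Fb.trans (mul_le_mul_of_nonneg_right (pw 8 20 (by norm_num)) z0)) ?_ ?_ ?_ ?_
  · linarith [mul_le_mul_of_nonneg_left Fb (pow_pos L0 6).le,
      mul_le_mul_of_nonneg_right (pw 14 30 (by norm_num)) z0,
      mul_le_mul_of_nonneg_right (pw 6 30 (by norm_num)) a0.le]
  · exact mul_le_mul (pw 10 30 (by norm_num)) (by linarith) q0 (by positivity)
  · rw [mul_pow, sq_sqrt R20, ← pow_mul]
    exact mul_le_mul (pw _ _ (by norm_num)) (le_add_of_nonneg_right (by positivity)) R20 (by positivity)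
  · refine psq20 (φ := j + B) (ρ := √R2) L1 H.ℓ0.le X0 H.jl0.le ?_ P.p00 F0 Fb ?_
    · linarith [H.ℓ1, H.l1, H.jl_l0, H.ln.l0l, (le_mul_of_one_le_left X0 (one_le_pow₀ L1')).trans Q.F.R1]
    · rw [sq_sqrt R20]
      unfold qB
      have : 0 ≤ 1 / (S.n : ℝ) ^ 2 := by positivity
      linarith [GS_nn h (M.s S.J - ℓ) S.C, GP_nn h, pow_pos a0 3]

/-- **(TLq)** -/
theorem tlq20 (h1 : P1S) (h2 : NdTq) (h3 : PNq) : TLq := tlq_of 161 tlqAt20 h1 h2 h3

end Crest.Agent.T156.Alt.L63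

end
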