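import Crest.Agent.T156.TLqW_54
import Crest.Agent.T156.TLqH_53
import Crest.Agent.T156.TLqU_45
import Crest.Agent.T156.TLqF_26
import Crest.Agent.T156.TLqJ_20
import Crest.Agent.T156.TLqZ_20

/-!
# Row 156, block (L): the body of `TLq` (helper54)
-/

set_option autoImplicit false

noncomputable section

namespace Crest.Agent.T156.Alt.L63

open Real Set
open Crest.Agent.T156.Alt.L69 Crest.Agent.T156.Alt.Mp9
open T20

theorem p_sq54 {L p0 ℓ x φ σ U Z : ℝ} (L1 : 1000 ≤ L) (p00 : 0 ≤ p0) (ℓ0 : 0 ≤ ℓ) (x0 : 0 ≤ x)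
    (h1 : ℓ + x ≤ 1) (U0 : 0 ≤ U) (hU : U ≤ L ^ 20 * (φ + σ))
    (hZ : p0 ^ 2 + (ℓ + x) * φ ^ 2 + σ ^ 2 ≤ Z) :
    (L * p0 + (2 * ℓ + L * x) * U) ^ 2 ≤ L ^ 108 * Z := by
  have L0 : 0 < L := by linarith
  have d0 : 0 ≤ ℓ + x := by linarith
  have a1 : 2 * ℓ + L * x ≤ L * (ℓ + x) := by
    linarith [mul_le_mul_of_nonneg_right (show 2 ≤ L by linarith) ℓ0]
  have a2 : (L * p0 + (2 * ℓ + L * x) * U) ^ 2 ≤ (L * p0 + L * (ℓ + x) * U) ^ 2 :=
    pow_le_pow_left₀ (by positivity) (by linarith [mul_le_mul_of_nonneg_right a1 U0]) 2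
  have a3 : U ^ 2 ≤ L ^ 40 * (2 * φ ^ 2 + 2 * σ ^ 2) := by
    have := pow_le_pow_left₀ U0 hU 2
    have e := mul_nonneg (pow_pos L0 40).le (sq_nonneg (φ - σ))
    linarith
  have a4 : (ℓ + x) ^ 2 ≤ ℓ + x := by nlinarith
  have a5 := mul_le_mul a4 a3 (sq_nonneg _) d0
  have a6 := mul_le_mul_of_nonneg_left a5 (sq_nonneg L)
  have a7 := mul_le_mul_of_nonneg_right h1 (show 0 ≤ L ^ 42 * σ ^ 2 by positivity)
  have a8 := mul_le_mul_of_nonneg_left hZ (pow_pos L0 108).le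
  have b1 := pw36 L1 (show 2 < 108 by norm_num) (sq_nonneg p0)
  have b2 := pw36 L1 (show 42 < 108 by norm_num) (mul_nonneg d0 (sq_nonneg φ))
  have b3 := pw36 L1 (show 42 < 108 by norm_num) (sq_nonneg σ)
  have b4 : 0 ≤ L ^ 2 * p0 ^ 2 := by positivity
  have b5 : 0 ≤ L ^ 42 * ((ℓ + x) * φ ^ 2) := by positivity
  have b6 : 0 ≤ L ^ 42 * σ ^ 2 := by positivity
  nlinarith [sq_nonneg (L * p0 - L * (ℓ + x) * U)]

set_option maxHeartbeats 1600000 in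
/-- **the body of `TLq`** -/
theorem tlqAt54 : TlqAt 161 := fun T0 => by
  obtain ⟨K1, H1⟩ := sqAt T0
  obtain ⟨K2, H2⟩ := fl36 T0
  obtain ⟨K3, H3⟩ := win36 T0
  obtain ⟨K4, H4⟩ := spq45 T0
  obtain ⟨K5, H5⟩ := last26 T0
  refine ⟨max (max K1 K2) (max K3 (max K4 K5)), fun {S M m a K E L G1 u1 u2 j γ Lc ηc τ l0 l X Xp Vt
    Lg Lp X2 X3 X4 G0 N t1 ℓ En p0 aa g' R2 t0 f η g V0 k0} hT hK hL G LE lg H Q P Gn hN hP => ?_⟩
  simp only [max_le_iff] at hK hL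
  obtain ⟨⟨k1, k2⟩, k3, -, k5⟩ := hK
  have h := H.cl
  have A := H.A
  have C1 := h.C1
  have C0 := h.C0
  have L1 := G.L1
  have Lp0 : 0 < L := by linarith
  have L1' : 1 ≤ L := by linarith
  have LE2 : L ^ 200 ≤ E := (pow_le_pow_right₀ L1' (by norm_num)).trans LE
  have q := qn h H.mem G H.toHy Q
  obtain ⟨u, V, V2, y, r, W⟩ := H1 hT h H.mem k1 G H.toHy Q Gn hN
  have a0 := W.a0
  have l0' := q.F.l0
  have k := W.kit G LE2 lg q (hN u V2 (by linarith [W.su, q.lJ]) (by linarith [W.s2]))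
  have r0 := k.r0
  have F0 := k.F0
  have p := fun i k (h : i < k) (x : ℝ) (hx : 0 ≤ x) => pw36 L1 h hx
  have C3 : S.C ≤ S.C ^ 3 := le_self_pow₀ C1 (by norm_num)
  have C2 : S.C ^ 2 ≤ S.C ^ 3 := pow_le_pow_right₀ C1 (by norm_num)
  have LC := G.LC
  have sJ : M.s S.J ≤ S.C := h.s_le_C h.i3
  have q0 := sqrt_nonneg S.θ
  have rθ : r ≤ √S.θ := by rw [W.er]; exact sqrt_le_sqrt (h.ms1 _)
  have E0 : 0 ≤ E := (pow_pos Lp0 400).le.trans LE
  have ℓ1 := H.lt.ℓ1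
  have ℓ0 : 0 ≤ ℓ := (mul_nonneg E0 q0).trans ℓ1
  have ℓ3 : L ^ 3 * ℓ ≤ 1 := le_of_mul_le_mul_left (by
    linarith [mul_le_mul_of_nonneg_right ((pow_le_pow_right₀ L1' (show 4 ≤ 400 by norm_num)).trans
      LE) ℓ0, H.lt.ℓ2]) Lp0
  have aD : aa ≤ L ^ 3 * r := by
    linarith [k.ar, p 0 50 (by norm_num) _ a0.le, p 0 3 (by norm_num) _ r0.le]
  obtain ⟨Pn, pn⟩ := hP (L ^ 3 * r) aD (by
    linarith [mul_le_mul_of_nonneg_left ((mul_le_mul_of_nonneg_left rθ E0).trans ℓ1)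
      (pow_pos Lp0 3).le])
  obtain ⟨w, kA, sw⟩ := H4 H hT.le hL.2.2.1 Q aD (mul_le_mul_of_nonneg_left rθ (pow_pos Lp0 3).le) pn
  obtain ⟨c0, c1, c2, z1, z2⟩ := sw.cz
  have w1 := sw.k1.le.trans sw.k2
  have mid := (mid53 H w1 sw.k3.le c1 c2 z1 z2).trans W.nk.jF
  have fl := H2 hT k2 G LE2 lg H.ln q hN W w w1 sw.k3.le mid sw.conc
  have Lr : 0 < L * r := by positivity
  have ρ1 : 14 * (L * r) ≤ log (S.n : ℝ) * L * r := by
    rw [mul_assoc]; exact mul_le_mul_of_nonneg_right lg Lr.le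
  have ρ2 : log (S.n : ℝ) * L * r ≤ L * (L * r) := by
    rw [mul_assoc]; exact mul_le_mul_of_nonneg_right G.lg Lr.le
  have rL : 1000 * r ≤ L * r := mul_le_mul_of_nonneg_right L1 r0.le
  have y1 := W.y1
  have y2 := W.y2
  have ρ3 : 100 * (L * (L * r)) ≤ y := le_of_mul_le_mul_left (by
    linarith [k.Pa, k.r1, p 3 66 (by norm_num) _ r0.le]) Lp0
  have θr : S.θ ≤ L ^ 2 * r ^ 2 := by
    have e1 := pow_le_pow_left₀ q0 W.th 2
    rw [sq_sqrt h.θ0.le] at e1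
    linarith
  have u20 : 0 ≤ u2 := by linarith [h.last, h.leg.z1 (S.Jp - 1), H.lp.u1a, H.lp.u1b.1]
  have R20 : 0 ≤ R2 := by linarith [Q.q4, sq_nonneg X2, sq_nonneg γ]
  have eσ : √R2 ^ 2 = R2 := sq_sqrt R20
  have γσ : γ ≤ √R2 := le_sqrt_of_sq_le (by linarith [Q.q4, sq_nonneg X2])
  have σ0 := sqrt_nonneg R2
  have r1 : r ≤ 1 := by linarith [k.r1, p 0 66 (by norm_num) _ r0.le]
  have σr : L ^ 100 * √R2 ≤ r := by
    refine le_of_pow_le_pow_left₀ (n := 4) (by norm_num) r0.le ?_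
    have e1 := mul_le_mul_of_nonneg_right LE (sq_nonneg R2)
    have e2 := pow_le_pow_left₀ h.θ0.le θr 3
    have e3 : L ^ 6 * r ≤ 1 := by linarith [k.r1, p 6 66 (by norm_num) _ r0.le]
    have e4 := mul_le_mul_of_nonneg_right (mul_le_mul e3 r1 r0.le zero_le_one) (pow_pos r0 4).le
    have e5 : (L ^ 100 * √R2) ^ 4 = L ^ 400 * (√R2 ^ 2) ^ 2 := by ring
    rw [e5, eσ]
    linarith [Q.q5]
  have X20 := q.F.X2
  have oX : L ^ 53 * X2 ≤ r ^ 2 := by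
    have e := k.or
    unfold qO at e
    linarith [mul_nonneg (pow_pos Lp0 53).le X20,
      mul_nonneg (pow_pos Lp0 53).le (sq_nonneg (uw S Lg (M.s S.J)))]
  have F1 : 1000 * qF L S M Lg X2 j γ η g' ≤ r := by linarith [k.Fr, p 0 50 (by norm_num) _ F0]
  have sp := sw.sum (r ^ 2 / (2 * S.C)) y
    (by
      rw [← mul_div_assoc, le_div_iff₀ (by positivity)]
      linarith [mul_le_mul θr (show 2 * S.C ≤ L by linarith) (by positivity) (by positivity)])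
    (by
      rw [div_div, le_div_iff₀ (by positivity)]
      linarith [mul_le_mul_of_nonneg_right (show 4 * S.C ^ 2 ≤ L by linarith [pow_pos C0 2])
        (mul_nonneg Lp0.le X20), p 2 53 (by norm_num) _ X20, mul_nonneg (sq_nonneg L) X20])
    (by rw [W.ey]; exact A.sb_mono (Nat.succ_le_succ W.nw.vJ.le))
    (fun t a1 a2 => fl.fl t ⟨by linarith, by linarith [(abs_le.1 mid).2]⟩)
  have θσ := mul_le_mul_of_nonneg_right θr σ0
  have x9 : 0 ≤ √R2 * r ^ 2 := by positivity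
  have n0 : 0 < 1 / (S.n : ℝ) := by have := h.N0; positivity
  have b0 : 0 ≤ bs S Lg X2 g' η (M.s S.J) := n0.le.trans q.nb
  have j0 := q.j0
  have Fb : qF L S M Lg X2 j γ η g' ≤ L ^ 8 * (j + bs S Lg X2 g' η (M.s S.J) + √R2) :=
    W.Fb.trans (mul_le_mul_of_nonneg_left (by linarith) (pow_pos Lp0 8).le)
  have φ0 : 0 ≤ j + bs S Lg X2 g' η (M.s S.J) + √R2 := by linarith
  have I := iq53 H G Q W pn (Hh := L ^ 10 * √R2) (a1 := y - 12 * (log S.n * L * r) - L * r / 2) rfl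
    sw.pw sw.k1.le sw.k2 c1 c2 z1 z2 sw.a1
    (by
      linarith [sw.er, sw.Gw, mul_le_mul_of_nonneg_left θσ (pow_pos Lp0 7).le,
        mul_le_mul_of_nonneg_left θσ (pow_pos Lp0 2).le, p 9 10 (by norm_num) _ x9,
        p 4 10 (by norm_num) _ x9, mul_nonneg (pow_pos Lp0 10).le x9])
    (by positivity) sp le_rfl (by linarith) (by linarith) fl.fl fl.top
    ((le_abs_self _).trans (fl.uq _ (by linarith) (by linarith))) fl.lo
    (jf20 A P (by linarith) (by linarith) (mul_nonneg (pow_pos Lp0 12).le F0)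
      (fun t a1 a2 => fl.uq t a1 (by linarith)) ℓ0)
    (by
      linarith [k.Fr, k.ar, p 50 100 (by norm_num) _ σ0, p 40 50 (by norm_num) _ F0,
        p 46 50 (by norm_num) _ F0, p 46 50 (by norm_num) _ a0.le, p 40 50 (by norm_num) _ a0.le])
    fun B' b1 b2 => H3 hT k3 W k fl b1 b2
  have X0 := rpow_nonneg H.ln.X0.le ((1 : ℝ) / 3)
  have jl0 := h.s_nn S.jl
  have e6 := mul_le_mul_of_nonneg_left Fb (pow_pos Lp0 6).le
  have e12 := mul_le_mul_of_nonneg_left Fb (pow_pos Lp0 12).le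
  refine H5 hT H.mem k5 G LE2 H.toHy Q W I (by linarith [W.w1]) (by linarith)
    (Fb.trans (mul_le_mul_of_nonneg_right (pow_le_pow_right₀ L1' (by norm_num)) φ0))
    (by
      linarith [p 6 30 (by norm_num) _ a0.le, p 14 30 (by norm_num) _ φ0,
        mul_nonneg (pow_pos Lp0 30).le a0.le, mul_nonneg (pow_pos Lp0 30).le φ0])
    (mul_le_mul (pow_le_pow_right₀ L1' (by norm_num)) (by linarith) σ0 (pow_pos Lp0 30).le)
    (by
      rw [mul_pow, eσ, ← pow_mul]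
      exact mul_le_mul (pow_le_pow_right₀ L1' (by norm_num)) (le_add_of_nonneg_right (by positivity))
        R20 (pow_pos Lp0 36).le)
    (p_sq54 (φ := j + bs S Lg X2 g' η (M.s S.J)) (σ := √R2) L1 P.p00 ℓ0 (by linarith) ?_
      (mul_nonneg (pow_pos Lp0 12).le F0) (by linarith) ?_)
  · have e1 : 1000 * M.s S.jl ≤ 1 := le_of_mul_le_mul_left (by linarith [q.F.jl, q.lJ]) Lp0
    have e2 : 1000 * X ^ ((1 : ℝ) / 3) ≤ 1 := le_of_mul_le_mul_left (by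
      linarith [q.F.R1, q.lJ, p 1 67 (by norm_num) _ X0]) Lp0
    linarith [p 0 3 (by norm_num) _ ℓ0]
  · have g1 : 0 ≤ GS M S (M.s S.J - ℓ) S.C :=
      Finset.sum_nonneg fun i _ => mul_nonneg (sub_nonneg.2 (h.leg.zm (Nat.sub_le i 1))) (sq_nonneg _)
    have g2 : 0 ≤ GP M S :=
      Finset.sum_nonneg fun i _ => mul_nonneg (sub_nonneg.2 (h.leg.zm (Nat.sub_le i 1))) (sq_nonneg _)
    have g3 : 0 ≤ 1 / (S.n : ℝ) ^ 2 := by positivity
    unfold qB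
    rw [eσ, add_assoc ℓ]
    linarith [pow_pos a0 3]

/-- **`TLq`** -/
theorem tlq54 (h1 : P1S) (h2 : NdTq) (h3 : PNq) : TLq := tlq_of 161 tlqAt54 h1 h2 h3

end Crest.Agent.T156.Alt.L63

end
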