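import Crest.Agent.T156.TLp_62
import Crest.Agent.T156.TLpS_54
import Crest.Agent.T156.TLpS_73

/-!
Row 156, block (L) (helper45): the spread of the plateau in the linear regime.
-/

set_option autoImplicit false

noncomputable section

namespace Crest.Agent.T156.Alt.Mp9.At

open MeasureTheory Set Real
open Crest.Agent.R164.GC Crest.Agent.R339.B Crest.Agent.R339.Var Crest.Agent.T157.Pf
open Crest.Agent.T156.Pr.Cv25 Crest.Agent.T156.Pr.Reg48
open Crest.Agent.T156.Alt.L69 (dx dl du ds lsh ap Rp GP)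

variable {S : Sc} {M : Md} {m : ℕ} {a T : ℝ}

theorem log45 {p q : ℝ} (p0 : 0 < p) (h : p ≤ q) : (q - p) * (1 / q) ≤ log q - log p := by
  have q0 : 0 < q := p0.trans_le h
  have a := log_le_sub_one_of_pos (div_pos p0 q0)
  rw [log_div p0.ne' q0.ne'] at a
  have e : (q - p) * (1 / q) = 1 - p / q := by field_simp
  linarith

theorem pos45 {d r r' Q n : ℝ} (r0 : 0 < r) (n0 : 0 < n) (h' : r ≤ n * r') (h : d * √r' ≤ Q) :
    max d 0 ^ 2 ≤ n * (Q ^ 2 * (1 / r)) := by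
  rcases le_total d 0 with c | c
  · rw [max_eq_right c, zero_pow two_ne_zero]; positivity
  have r1 : 0 < r' := pos_of_mul_pos_left (b := n) (by nlinarith) n0.le
  have a := pow_le_pow_left₀ (by positivity) h 2
  rw [mul_pow, sq_sqrt r1.le] at a
  rw [max_eq_left c, mul_one_div, ← mul_div_assoc, le_div_iff₀ r0]
  nlinarith [mul_le_mul_of_nonneg_left h' (sq_nonneg d), mul_le_mul_of_nonneg_left a n0.le]

/-- linear floor at the lower node and concavity -/
theorem mix45 (A : At S M m a T) {i j : ℕ} {μ c la e1 e2 dH : ℝ} (h1 : S.jl < i) (h : i ≤ j)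
    (h2 : j ≤ S.Jp) (μ0 : 0 < μ) (c0 : 0 < c) (hl : M.b * la ≤ μ / 2) (e0 : 0 ≤ e2)
    (hK : ∀ s ∈ Ico (sb M m a (i + 1)) (sb M m a (j + 1)), Pr.Reg48.Gd (lb M S m a T) s ≤ -c)
    (hg : M.b * Pr.GG (lb M S m a T) (sb M m a (i + 1)) ≤ 1 - μ)
    (hE : res M S m a T i - res M S m a T j ≤ e1 + e2 + la * (sb M m a (j + 1) - sb M m a (i + 1)))
    (hH : M.H j - M.H i ≤ dH) :
    (sb M m a (j + 1) - sb M m a (i + 1)) ^ 2 ≤ (2 * (dH + M.b * e1) / μ) ^ 2 + 2 * e2 / c := by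
  have mo : sb M m a (i + 1) ≤ sb M m a (j + 1) := A.sb_mono (Nat.succ_le_succ h)
  have r := Mf_conc (g := -μ) A.okb.1 A.b_pos.le (A.sb_mem (h.trans h2)).1 mo
    (by rw [A.okb.2]; exact (A.sb_mem h2).2) hK (by linarith)
  rw [A.Mf_b (h1.trans_le h) h2, A.Mf_b h1 (h.trans h2)] at r
  have b0 := A.b_pos
  have rm := rb_mono (M := M) (a := a) A.m_pos h
  have t1 : M.b * M.rb m a i / (m + 1) ≤ M.b * M.rb m a j / (m + 1) :=
    div_le_div_of_nonneg_right (mul_le_mul_of_nonneg_left rm b0.le) (by positivity)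
  have t2 := mul_le_mul_of_nonneg_left hE b0.le
  have D0 := sub_nonneg.2 mo
  have t3 := mul_le_mul_of_nonneg_right hl D0
  set D := sb M m a (j + 1) - sb M m a (i + 1) with hD
  have t4 : M.b * (c / 2 * D ^ 2) + μ / 2 * D ≤ dH + M.b * e1 + M.b * e2 := by nlinarith
  rcases le_total (μ / 2 * D) (dH + M.b * e1) with d | d
  · refine le_add_of_le_of_nonneg (pow_le_pow_left₀ D0 ?_ 2) (by positivity)
    rw [le_div_iff₀ μ0]; linarith
  · refine le_add_of_nonneg_of_le (sq_nonneg _) ?_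
    have := le_of_mul_le_mul_left (show M.b * (c / 2 * D ^ 2) ≤ M.b * e2 by linarith) b0
    rw [le_div_iff₀ c0]; linarith

/-- **the nodes of the linear spread**: `w` the cut node near the top, `kA` the first controlled
node, `x + er k` the error of the good node that serves the node `k` -/
structure Sl (S : Sc) (M : Md) (m : ℕ) (a T c0 a0 u x la : ℝ) (er : ℕ → ℝ) (w kA : ℕ) : Prop where
  c1 : 0 < c0 ∧ 2 * S.C * c0 ≤ 1
  a00 : 0 < a0
  u0 : 0 < u ∧ u ≤ 1
  x0 : 0 ≤ x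
  er0 : ∀ k, 0 ≤ er k
  k1 : S.J < kA
  k2 : kA ≤ w
  k3 : w < S.Jp
  w1 : 1 - c0 ≤ M.z (w - 1)
  w2 : c0 / 2 ≤ 1 - M.z w
  a01 : a0 ≤ M.z (kA - 1) - M.z (S.J - 1)
  a02 : M.z (kA - 1) - M.z (S.J - 1) ≤ 2 * a0
  lo : ∀ k, kA ≤ k → k ≤ w → ∃ i, S.J ≤ i ∧ i ≤ k ∧
    M.z k - M.z (S.J - 1) ≤ 5 * (M.z i - M.z (S.J - 1)) ∧
    res M S m a T i - res M S m a T w ≤ x + er k + la * (sb M m a (w + 1) - sb M m a (i + 1))
  hi : ∀ k, w < k → k ≤ S.Jp → u ≤ du M k → ∃ j, k ≤ j ∧ j ≤ S.Jp ∧ du M k ≤ 2 * du M j ∧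
    res M S m a T w - res M S m a T j ≤ x + er k + la * (sb M m a (j + 1) - sb M m a (w + 1))

variable {c0 a0 u x la : ℝ} {er : ℕ → ℝ} {w kA : ℕ}

/-- the deficit at the cut node -/
theorem Sl.dfw (h : Sl S M m a T c0 a0 u x la er w kA) (A : At S M m a T) {γ : ℝ}
    (hγ : M.s S.Jp - M.s S.J ≤ γ) :
    |df36 S M T w| * √(c0 / 2) ≤ S.C * S.θ * γ + √(GP M S) := by
  have C0 := A.c_pos
  have θ0 : 0 ≤ S.θ := (A.ms_pos le_rfl).le.trans (A.cl.ms1 0)
  have γ0 : 0 ≤ γ := le_trans (sub_nonneg.2 (A.cl.sm A.cl.i3)) hγ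
  have k1 := h.k1; have k2 := h.k2; have k3 := h.k3
  have zw := A.dz_nn w
  have cc : c0 ≤ 1 / S.C - c0 := by
    rw [le_sub_iff_add_le, le_div_iff₀ C0]; linarith [h.c1.2]
  rcases le_total 0 (df36 S M T w) with d | d
  · rw [abs_of_nonneg d]
    refine (mul_le_mul_of_nonneg_left (sqrt_le_sqrt ?_) d).trans
      (A.df_plat hγ (by omega) k3.le le_rfl)
    linarith [A.cl.atom.2, h.w1, h.c1.1]
  · rw [abs_of_nonpos d]
    refine ((mul_le_mul_of_nonneg_left (sqrt_le_sqrt ?_) (neg_nonneg.2 d)).trans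
      (A.df_up73 (i := w) (by omega) k3.le le_rfl)).trans (le_add_of_nonneg_left (by positivity))
    unfold du; linarith [h.w2]

/-- the residual at the cut node -/
theorem Sl.Gw (h : Sl S M m a T c0 a0 u x la er w kA) (A : At S M m a T) {γ : ℝ}
    (hγ : M.s S.Jp - M.s S.J ≤ γ) :
    |M.G w| ≤ (S.C * S.θ * γ + √(GP M S)) / √(c0 / 2) + S.C * S.θ * γ := by
  have C0 := A.c_pos
  have θ0 : 0 ≤ S.θ := (A.ms_pos le_rfl).le.trans (A.cl.ms1 0)
  have k1 := h.k1; have k2 := h.k2; have k3 := h.k3; have i2 := A.cl.i2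
  have c1 := h.c1.1
  have a := (le_div_iff₀ (by positivity)).2 (h.dfw A hγ)
  obtain ⟨d1, d2⟩ := A.deficit (k := w) (by omega) k3.le
  have p : S.C * S.θ * (M.s S.Jp - M.s w) ≤ S.C * S.θ * γ := mul_le_mul_of_nonneg_left
    (by linarith [A.cl.sm (show S.J ≤ w by omega)]) (by positivity)
  have p0 : 0 ≤ S.C * S.θ * (M.s S.Jp - M.s w) :=
    mul_nonneg (by positivity) (sub_nonneg.2 (A.cl.sm k3.le))
  obtain ⟨a1, a2⟩ := abs_le.1 a
  unfold df36 at a1 a2
  exact abs_le.2 ⟨by linarith, by linarith⟩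

theorem four45 {p q r s μ : ℝ} (μ0 : 0 < μ) :
    (2 * (p + q + r + s) / μ) ^ 2 ≤ 16 / μ ^ 2 * (p ^ 2 + q ^ 2 + r ^ 2 + s ^ 2) := by
  rw [div_pow, div_mul_eq_mul_div]
  refine div_le_div_of_nonneg_right ?_ (by positivity)
  nlinarith [sq_nonneg (p - q), sq_nonneg (p - r), sq_nonneg (p - s), sq_nonneg (q - r),
    sq_nonneg (q - s), sq_nonneg (r - s)]

set_option maxHeartbeats 400000 in
/-- **the linear spread** -/
theorem Sl.sum (h : Sl S M m a T c0 a0 u x la er w kA) (A : At S M m a T) {γ μ c f Lq : ℝ}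
    (hγ : M.s S.Jp - M.s S.J ≤ γ) (μ0 : 0 < μ) (cp : 0 < c) (hl : M.b * la ≤ μ / 2)
    (f2 : f ≤ sb M m a (S.J + 1))
    (fl : ∀ t, f ≤ t → t ≤ sb M m a (w + 1) → M.b * Pr.GG (lb M S m a T) t ≤ 1 - μ)
    (hu : ∀ t, 0 ≤ t → t < T → 1 - c0 ≤ lvr 1 (lb M S m a T) t → Pr.Reg48.Gd (lb M S m a T) t ≤ -c)
    (L1 : log (1 / a0) ≤ Lq) (L2 : log (2 / u) ≤ Lq) (L3 : 2 / c0 ≤ Lq) :
    ∑ k ∈ Finset.Icc kA S.Jp, dx M k * (sb M m a (k + 1) - sb M m a (w + 1)) ^ 2 ≤
      16 / μ ^ 2 * (10 * Lq * (S.C * S.θ * γ + √(GP M S)) ^ 2 + S.C ^ 2 * x ^ 2 + S.C ^ 2 *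
        ∑ k ∈ (Finset.Icc S.J S.Jp).filter fun k => c0 / 4 ≤ du M k, dx M k * er k ^ 2) +
      2 / c * ∑ k ∈ (Finset.Icc S.J S.Jp).filter fun k => u ≤ du M k, dx M k * er k +
      u * T ^ 2 := by
  have dn : ∀ k, 0 ≤ dx M k := A.dz_nn
  have i2 := A.cl.i2
  have k1 := h.k1; have k2 := h.k2; have k3 := h.k3
  have a00 := h.a00; have x0 := h.x0
  obtain ⟨u0, u1⟩ := h.u0
  obtain ⟨c1, c2⟩ := h.c1
  obtain ⟨b1, b2⟩ := A.b_mem
  have zm := A.cl.leg.zm
  have z1 := A.cl.leg.z1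
  have xs : 0 < M.z (S.J - 1) := lt_of_lt_of_le (by have := A.c_pos; positivity) A.cl.atom.1
  obtain ⟨M0, M1⟩ := A.sb_mem k3.le
  have mo := Sc48.lvr_mono A.okb.1.1
  have dw := h.dfw A hγ
  set Q := S.C * S.θ * γ + √(GP M S) with hQ
  have Q1 : √(GP M S) ≤ Q := by
    have θ0 : 0 ≤ S.θ := (A.ms_pos le_rfl).le.trans (A.cl.ms1 0)
    have γ0 : 0 ≤ γ := le_trans (sub_nonneg.2 (A.cl.sm A.cl.i3)) hγ
    have := A.c_pos
    exact le_add_of_nonneg_left (by positivity)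
  have dw2 : |df36 S M T w| ^ 2 ≤ Q ^ 2 * Lq := by
    have := pos45 (r := c0 / 2) (n := 1) (by positivity) one_pos (by linarith) dw
    rw [max_eq_left (abs_nonneg _), one_mul, one_div_div] at this
    exact this.trans (mul_le_mul_of_nonneg_left L3 (sq_nonneg _))
  have bx : (M.b * x) ^ 2 ≤ S.C ^ 2 * x ^ 2 := by rw [← mul_pow]; gcongr
  have yp : ∀ k, kA ≤ k → 0 < M.z k - M.z (S.J - 1) := fun k hk => by
    linarith [h.a01, zm (show kA - 1 ≤ k by omega)]
  have s := A.spr_sum (kA := kA) (μ := w) (u1 := u) (r := fun k => 16 / μ ^ 2 *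
    (5 * (Q ^ 2 * (1 / (M.z k - M.z (S.J - 1)))) + 2 * (Q ^ 2 * (1 / du M k)) + Q ^ 2 * Lq +
      S.C ^ 2 * x ^ 2 + S.C ^ 2 * if c0 / 4 ≤ du M k then er k ^ 2 else 0) + 2 * er k / c)
    (by omega) k3.le u0.le fun k p q r => by
      have y0 := yp k p
      have e0 := h.er0 k
      have d0 : 0 < du M k := u0.trans_le r
      have n1 : 0 ≤ Q ^ 2 * (1 / (M.z k - M.z (S.J - 1))) := by positivity
      have n2 : 0 ≤ Q ^ 2 * (1 / du M k) := by positivity
      rcases le_or_gt k w with d | d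
      · obtain ⟨i, j1, j2, j3, j4⟩ := h.lo k p d
        have fi : f ≤ sb M m a (i + 1) := f2.trans (A.sb_mono (Nat.succ_le_succ j1))
        have r1 := A.lin54 (i := i) (k := w) (dH := max (df36 S M T i) 0 + |df36 S M T w|)
          (by omega) (by omega) k3.le μ0 hl (fun t t1 t2 => fl t (fi.trans t1) t2) j4 (by
            have := le_max_left (df36 S M T i) 0
            have := neg_abs_le (df36 S M T w)
            unfold df36 at *; linarith)
        have r2 := pos45 (Q := Q) y0 (by norm_num) j3 (A.df_plat hγ j1 (by omega) le_rfl)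
        have r3 : (M.b * er k) ^ 2 ≤ S.C ^ 2 * er k ^ 2 := by rw [← mul_pow]; gcongr
        refine ⟨i, Or.inl ⟨j2, d, le_add_of_le_of_nonneg ((pow_le_pow_left₀
          (sub_nonneg.2 (A.sb_mono (by omega))) r1 2).trans ?_) (by positivity)⟩⟩
        rw [mul_add M.b, ← add_assoc, if_pos (by
          unfold du; linarith [h.w2, zm (show k - 1 ≤ w by omega)])]
        exact (four45 μ0).trans (mul_le_mul_of_nonneg_left (by linarith) (by positivity))
      · obtain ⟨j, j1, j2, j3, j4⟩ := h.hi k d q r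
        have r1 := A.mix45 (i := w) (j := j) (dH := max (-df36 S M T j) 0 + |df36 S M T w|)
          (by omega) (by omega) j2 μ0 cp hl e0
          (fun s hs => hu s (M0.trans hs.1) (hs.2.trans_le (A.sb_mem j2).2) (by
            have := mo hs.1
            rw [A.lvb_node (by omega) k3.le] at this
            linarith [h.w1, A.dz_nn w]))
          (fl _ (f2.trans (A.sb_mono (by omega))) le_rfl) j4 (by
            have := le_max_left (-df36 S M T j) 0
            have := le_abs_self (df36 S M T w)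
            unfold df36 at *; linarith)
        have r2 := pos45 d0 two_pos j3 ((A.df_up73 (i := j) (by omega) j2 le_rfl).trans Q1)
        have r3 : 0 ≤ S.C ^ 2 * if c0 / 4 ≤ du M k then er k ^ 2 else 0 := by
          split_ifs <;> positivity
        refine ⟨j, Or.inr ⟨d.le, j1, r1.trans (add_le_add_left ?_ _)⟩⟩
        rw [← add_zero (_ + M.b * x)]
        exact (four45 μ0).trans (mul_le_mul_of_nonneg_left (by linarith) (by positivity))
  refine le_trans s (add_le_add_left ?_ _)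
  set U := (Finset.Icc kA S.Jp).filter (fun k => u ≤ 1 - M.z (k - 1)) with hU
  have eI : Finset.Icc kA S.Jp = Finset.Ioc (kA - 1) S.Jp := by
    ext j; simp only [Finset.mem_Icc, Finset.mem_Ioc]; omega
  have sub : U ⊆ Finset.Ioc (kA - 1) S.Jp := eI ▸ Finset.filter_subset _ _
  have hk : kA - 1 ≤ S.Jp := by omega
  have S1 : ∑ j ∈ U, dx M j * (1 / (M.z j - M.z (S.J - 1))) ≤ Lq := by
    refine (Finset.sum_le_sum_of_subset_of_nonneg sub fun j hj _ => mul_nonneg (dn j)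
      (by have := yp j (by have := Finset.mem_Ioc.1 hj; omega); positivity)).trans
      ((tel73 (φ := fun j => -log (M.z j - M.z (S.J - 1))) hk fun j p _ => ?_).trans ?_)
    · have := log45 (p := M.z (j - 1) - M.z (S.J - 1)) (q := M.z j - M.z (S.J - 1))
        (by linarith [h.a01, zm (show kA - 1 ≤ j - 1 by omega)]) (by linarith [A.dz_nn j])
      rw [sub_sub_sub_cancel_right] at this
      unfold dx; linarith
    · have a1 := log_le_log a00 h.a01
      have a2 := log_nonpos (yp S.Jp (by omega)).le (by linarith [z1 S.Jp])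
      rw [one_div, log_inv] at L1
      linarith
  have S2 : ∑ j ∈ U, dx M j * (1 / du M j) ≤ 2 * Lq := by
    have lg : ∀ j, dx M j * (1 / (du M j + u)) ≤ log (1 - M.z (j - 1) + u) - log (1 - M.z j + u) :=
      fun j => by
        have := log45 (p := 1 - M.z j + u) (q := 1 - M.z (j - 1) + u) (by linarith [z1 j])
          (by linarith [A.dz_nn j])
        rwa [show 1 - M.z (j - 1) + u - (1 - M.z j + u) = dx M j by unfold dx; ring] at this
    have d0 : ∀ j, 0 < du M j + u := fun j => by unfold du; linarith [z1 (j - 1)]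
    refine (Finset.sum_le_sum (g := fun j => 2 * (dx M j * (1 / (du M j + u)))) fun j hj => ?_).trans ?_
    · have q : u ≤ du M j := (Finset.mem_filter.1 hj).2
      rw [mul_left_comm]
      refine mul_le_mul_of_nonneg_left ?_ (dn j)
      rw [mul_one_div, div_le_div_iff₀ (by linarith) (d0 j)]; linarith
    rw [← Finset.mul_sum]
    refine mul_le_mul_of_nonneg_left ((Finset.sum_le_sum_of_subset_of_nonneg sub fun j _ _ =>
      mul_nonneg (dn j) (by have := d0 j; positivity)).trans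
      ((tel73 (φ := fun j => log (1 - M.z j + u)) hk fun j _ _ => lg j).trans ?_)) zero_le_two
    have a1 := log_le_log (x := 1 - M.z (kA - 1) + u) (y := 2) (by linarith [z1 (kA - 1)])
      (by linarith [h.a01])
    have a2 := log_le_log (y := 1 - M.z S.Jp + u) u0 (by linarith [z1 S.Jp])
    rw [log_div two_ne_zero u0.ne'] at L2
    linarith
  have S3 : ∑ j ∈ U, dx M j ≤ 1 :=
    (Finset.sum_le_sum_of_subset_of_nonneg sub fun j _ _ => dn j).trans (by
      rw [dx_sum73 M hk]; linarith [z1 S.Jp, h.a01])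
  have su : U ⊆ Finset.Icc S.J S.Jp := (Finset.filter_subset _ _).trans
    (Finset.Icc_subset_Icc_left k1.le)
  have S4 : ∑ j ∈ U, dx M j * (if c0 / 4 ≤ du M j then er j ^ 2 else 0) ≤
      ∑ k ∈ (Finset.Icc S.J S.Jp).filter fun k => c0 / 4 ≤ du M k, dx M k * er k ^ 2 := by
    rw [Finset.sum_filter (s := Finset.Icc S.J S.Jp)]
    refine le_trans (Finset.sum_le_sum_of_subset_of_nonneg su fun j _ _ => mul_nonneg (dn j) ?_)
      (le_of_eq (Finset.sum_congr rfl fun j _ => ?_))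
    · split_ifs <;> positivity
    · split_ifs <;> simp
  have S5 : ∑ j ∈ U, dx M j * er j ≤
      ∑ k ∈ (Finset.Icc S.J S.Jp).filter fun k => u ≤ du M k, dx M k * er k :=
    Finset.sum_le_sum_of_subset_of_nonneg (fun j hj => Finset.mem_filter.2
      ⟨su hj, (Finset.mem_filter.1 hj).2⟩) fun j _ _ => mul_nonneg (dn j) (h.er0 j)
  have L0 : 0 ≤ Lq := le_trans (by positivity) L3
  set Y4 := ∑ k ∈ (Finset.Icc S.J S.Jp).filter fun k => c0 / 4 ≤ du M k, dx M k * er k ^ 2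
  set Y2 := ∑ k ∈ (Finset.Icc S.J S.Jp).filter fun k => u ≤ du M k, dx M k * er k
  calc _ = 16 / μ ^ 2 * (5 * Q ^ 2 * ∑ j ∈ U, dx M j * (1 / (M.z j - M.z (S.J - 1))) +
        2 * Q ^ 2 * ∑ j ∈ U, dx M j * (1 / du M j) + (Q ^ 2 * Lq + S.C ^ 2 * x ^ 2) * ∑ j ∈ U, dx M j +
        S.C ^ 2 * ∑ j ∈ U, dx M j * (if c0 / 4 ≤ du M j then er j ^ 2 else 0)) +
        2 / c * ∑ j ∈ U, dx M j * er j := by
        simp only [Finset.mul_sum, ← Finset.sum_add_distrib]
        exact Finset.sum_congr rfl fun j _ => by unfold dx; ring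
    _ ≤ 16 / μ ^ 2 * (5 * Q ^ 2 * Lq + 2 * Q ^ 2 * (2 * Lq) + (Q ^ 2 * Lq + S.C ^ 2 * x ^ 2) * 1 +
        S.C ^ 2 * Y4) + 2 / c * Y2 := by gcongr
    _ = _ := by ring

/-- the first node above a label -/
theorem fst45 {w0 : ℕ} {y : ℝ} (h1 : M.z (S.J - 1) < y) (h2 : y ≤ M.z (w0 - 1)) (h0 : S.J ≤ w0) :
    ∃ p, S.J ≤ p ∧ p < w0 ∧ M.z (p - 1) < y ∧ y ≤ M.z p := by
  classical
  have n : S.J < w0 := lt_of_le_of_ne h0 fun e => by rw [← e] at h2; linarith
  have ex : ∃ p, S.J ≤ p ∧ y ≤ M.z p := ⟨w0 - 1, by omega, h2⟩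
  obtain ⟨p1, p2⟩ := Nat.find_spec ex
  have p3 := Nat.find_min' ex (m := w0 - 1) ⟨by omega, h2⟩
  refine ⟨Nat.find ex, p1, by omega, ?_, p2⟩
  rcases p1.eq_or_lt with e | e
  · rw [← e]; exact h1
  · exact not_le.1 fun c => Nat.find_min ex (m := Nat.find ex - 1) (by omega) ⟨by omega, c⟩

set_option maxHeartbeats 400000 in
/-- **the supply**: the nodes of the linear spread from the good nodes of the plateau -/
theorem sup45 (h : Cl S M) {Pn : ℕ → Prop} {ez : ℕ → ℝ} {u' ω ℓ B K1 : ℝ}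
    (P : L62.PN S M m a T Pn ez x la u' ω ℓ B) (uu : u' ≤ u) (u0 : 0 < u) (uc : 4 * u ≤ c0)
    (ue : S.ue ≤ u) (cC : 2 * S.C * c0 ≤ 1) (s0 : 0 < S.u0) (a1 : 2 * S.u0 ≤ a0)
    (a2 : 2 * S.C * a0 ≤ 1) (K0 : 0 ≤ K1)
    (me : ∀ k, S.J ≤ k → k < S.Jp → u ≤ du M k → 16 * dx M k ≤ ds M S k)
    (cmp : ∀ i k, S.J ≤ i → S.J ≤ k → u ≤ du M k →
      |M.z (i - 1) - M.z (k - 1)| ≤ ds M S k / 2 → ez i ≤ K1 * ez k) :
    ∃ w kA, Pn w ∧ Sl S M m a T c0 a0 u (x + ez w) la (fun k => K1 * ez k) w kA ∧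
      c0 / 8 * ez w ^ 2 ≤ K1 ^ 2 *
        ∑ k ∈ (Finset.Icc S.J S.Jp).filter fun k => c0 / 4 ≤ du M k, dx M k * ez k ^ 2 := by
  have C1 := h.C1
  have C0 : 0 < S.C := by linarith
  have i2 := h.i2; have i3 := h.i3
  have zm := h.leg.zm
  have z1 := h.leg.z1
  have cp : 0 < c0 := by linarith
  have c1 : c0 ≤ 1 / S.C - c0 := by rw [le_sub_iff_add_le, le_div_iff₀ C0]; linarith
  have c2 : a0 ≤ 1 / S.C - a0 := by rw [le_sub_iff_add_le, le_div_iff₀ C0]; linarith
  have c3 : 1 / S.C ≤ 1 := (div_le_one C0).2 C1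
  have x1 := h.atom.2
  have la := h.last
  have d1 : ∀ k, ds M S k ≤ M.z (k - 1) - M.z (S.J - 1) + S.u0 := fun k => min_le_left _ _
  have d2 : ∀ k, ds M S k ≤ 1 - M.z (k - 1) := fun k => min_le_right _ _
  have me' : ∀ k, S.J ≤ k → k < S.Jp → u ≤ 1 - M.z (k - 1) →
      16 * (M.z k - M.z (k - 1)) ≤ ds M S k := me
  have ex : ∀ k, S.J ≤ k → k < S.Jp → u ≤ 1 - M.z k → ∃ i, Pn i ∧ k < i ∧
      M.z i ≤ M.z k + min (M.z k - M.z (S.J - 1) + S.u0) (1 - M.z k) / 4 := fun k p q r =>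
    P.ex (k + 1) (by omega) q (uu.trans r)
  obtain ⟨p, p1, p2, p3, p4⟩ := fst45 (S := S) (M := M) (w0 := S.Jp) (y := 1 - c0) (by linarith)
    (by linarith) i3
  have p5 := me' p p1 p2 (by linarith)
  obtain ⟨w, pw, w1, w2⟩ := ex p p1 p2 (by linarith [d2 p])
  obtain ⟨w3, w4⟩ := P.mem w pw
  have w5 : 1 - c0 ≤ M.z (w - 1) := p4.trans (zm (by omega))
  have w6 : c0 / 2 ≤ 1 - M.z w := by
    linarith [d2 p, min_le_right (M.z p - M.z (S.J - 1) + S.u0) (1 - M.z p)]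
  have w7 := zm (Nat.sub_le w 1)
  obtain ⟨q, q1, q2, q3, q4⟩ := fst45 (S := S) (M := M) (w0 := w) (y := M.z (S.J - 1) + a0)
    (by linarith) (by linarith) w3
  have q5 := me' q q1 (by omega) (by linarith [zm (show q - 1 ≤ w by omega)])
  have e0 := P.ez0
  refine ⟨w, q + 1, pw, ⟨⟨cp, cC⟩, by linarith, ⟨u0, by linarith⟩, add_nonneg P.x00 (e0 w),
    fun k => mul_nonneg K0 (e0 k), by omega, q2, w4, w5, w6, by rw [Nat.add_sub_cancel]; linarith,
    by rw [Nat.add_sub_cancel]; linarith [d1 q], fun k k1 k2 => ?_, fun k k1 k2 k3 => ?_⟩, ?_⟩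
  · have y1 : M.z q ≤ M.z (k - 1) := zm (by omega)
    have y2 : M.z (k - 1) ≤ M.z w := zm (by omega)
    have y3 := d1 k
    have y4 := d2 k
    have D0 : 0 < ds M S k := lt_min (by unfold L69.dl; linarith) (by unfold du; linarith)
    obtain ⟨r, r1, r2, r3, r4⟩ := fst45 (S := S) (M := M) (w0 := k)
      (y := M.z (k - 1) - ds M S k / 2) (by linarith) (by linarith) (by omega)
    have r5 : M.z r ≤ M.z (k - 1) := zm (by omega)
    have r6 := me' r r1 (by omega) (by linarith)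
    obtain ⟨i, pi, j1, j2⟩ := ex r r1 (by omega) (by linarith)
    have r7 : M.z i < M.z (k - 1) := by
      have a1 := d1 r
      have a2 := d2 r
      have a3 := min_le_left (M.z r - M.z (S.J - 1) + S.u0) (1 - M.z r)
      have a4 := min_le_right (M.z r - M.z (S.J - 1) + S.u0) (1 - M.z r)
      rcases min_choice (dl M S k) (du M k) with e | e
      · change ds M S k = M.z (k - 1) - M.z (S.J - 1) + S.u0 at e
        linarith
      · change ds M S k = 1 - M.z (k - 1) at e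
        linarith
    have r8 : i < k - 1 := not_le.1 fun c => absurd (zm c) (not_le.2 r7)
    have r9 : M.z r ≤ M.z (i - 1) := zm (by omega)
    have r10 := zm (Nat.sub_le i 1)
    have r11 := me' k (by omega) (by omega) (by linarith)
    have c := cmp i k (by omega) (by omega) (by unfold du; linarith)
      (abs_le.2 ⟨by linarith, by linarith⟩)
    refine ⟨i, by omega, by omega, by linarith, ?_⟩
    linarith [(abs_le.1 (P.dp i w pi pw (by omega))).1]
  · obtain ⟨j, pj, j1, j2⟩ := P.ex k (by omega) k2 (uu.trans k3)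
    have y1 : M.z (k - 1) ≤ M.z (j - 1) := zm (by omega)
    have y2 := zm (Nat.sub_le j 1)
    have y3 := d2 k
    have c := cmp j k (by omega) (by omega) k3 (abs_le.2 ⟨by linarith, by linarith⟩)
    refine ⟨j, j1, (P.mem j pj).2.le, by unfold du; linarith, ?_⟩
    linarith [(abs_le.1 (P.dp w j pw pj (by omega))).1]
  · obtain ⟨r, r1, r2, r3, r4⟩ := fst45 (S := S) (M := M) (w0 := S.Jp + 1)
      (y := M.z (w - 1) + c0 / 8) (by linarith) (by rw [Nat.add_sub_cancel, h.top _ le_rfl]; linarith) (by omega)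
    have r5 : w - 1 < r := not_le.1 fun c => by linarith [zm c]
    have dn : ∀ k, 0 ≤ dx M k := fun k => sub_nonneg.2 (zm (Nat.sub_le _ _))
    have f : ∀ k ∈ Finset.Ioc (w - 1) r, c0 / 4 ≤ du M k ∧ ez w ≤ K1 * ez k := fun k hk => by
      obtain ⟨k1, k2⟩ := Finset.mem_Ioc.1 hk
      have y1 : M.z (w - 1) ≤ M.z (k - 1) := zm (by omega)
      have y2 : M.z (k - 1) ≤ M.z (r - 1) := zm (by omega)
      have y3 : c0 / 4 ≤ ds M S k := le_min (by unfold L69.dl; linarith) (by unfold du; linarith)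
      exact ⟨y3.trans (d2 k), cmp w k w3 (by omega) (by unfold du; linarith)
        (abs_le.2 ⟨by linarith, by linarith⟩)⟩
    calc c0 / 8 * ez w ^ 2 ≤ (∑ k ∈ Finset.Ioc (w - 1) r, dx M k) * ez w ^ 2 := by
          rw [dx_sum73 M r5.le]; exact mul_le_mul_of_nonneg_right (by linarith) (sq_nonneg _)
      _ ≤ K1 ^ 2 * ∑ k ∈ Finset.Ioc (w - 1) r, dx M k * ez k ^ 2 := by
          rw [Finset.sum_mul, Finset.mul_sum]
          refine Finset.sum_le_sum fun k hk => ?_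
          rw [mul_left_comm, ← mul_pow]
          exact mul_le_mul_of_nonneg_left (pow_le_pow_left₀ (e0 w) (f k hk).2 2) (dn k)
      _ ≤ _ := mul_le_mul_of_nonneg_left (Finset.sum_le_sum_of_subset_of_nonneg
          (fun k hk => Finset.mem_filter.2 ⟨by
            obtain ⟨k1, k2⟩ := Finset.mem_Ioc.1 hk
            exact Finset.mem_Icc.2 ⟨by omega, by omega⟩, (f k hk).1⟩)
          fun k _ _ => mul_nonneg (dn k) (sq_nonneg _)) (sq_nonneg _)

/-- the mesh is fine on the shells -/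
theorem mesh45 (h : Cl S M) {k : ℕ} (h1 : S.J ≤ k) (h2 : k < S.Jp)
    (hf : 16 * (S.C * S.v) ≤ lsh M S k) : 16 * dx M k ≤ ds M S k := by
  have d0 := h.den0 (M.z (k - 1))
  have a := (h.plat k h1 h2).2
  unfold lsh at hf
  refine le_of_mul_le_mul_left ?_ d0
  unfold dx
  linarith

/-- the size is comparable on the two-sided shell -/
theorem ap45 (h : Cl S M) {Xp V γ : ℝ} (X0 : 0 < Xp) (V0 : 0 ≤ V) (g0 : 0 ≤ γ) (w0 : 0 ≤ S.w3 1)
    (s0 : 0 < S.u0) {i k : ℕ} (hi : S.J ≤ i) (hk : S.J ≤ k) (u0 : 0 < du M k)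
    (hd : |M.z (i - 1) - M.z (k - 1)| ≤ ds M S k / 2) :
    ap M S Xp V γ i ≤ 16 * S.C * ap M S Xp V γ k := by
  have C1 := h.C1
  have C0 : 0 < S.C := by linarith
  have d1 := h.den0 (M.z (k - 1))
  have d2 := h.den0 (M.z (i - 1))
  have zi : M.z (S.J - 1) ≤ M.z (i - 1) := h.leg.zm (by omega)
  have zk : M.z (S.J - 1) ≤ M.z (k - 1) := h.leg.zm (by omega)
  have l1 : ds M S k ≤ M.z (k - 1) - M.z (S.J - 1) + S.u0 := min_le_left _ _
  have l2 : ds M S k ≤ 1 - M.z (k - 1) := min_le_right _ _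
  obtain ⟨h1, h2⟩ := abs_le.1 hd
  have u0' : 0 < 1 - M.z (k - 1) := u0
  have D0 : 0 < ds M S k := lt_min (by unfold L69.dl; linarith) u0
  have s1 : ds M S k / 2 ≤ ds M S i := le_min (by unfold L69.dl; linarith) (by unfold du; linarith)
  have D1 : 0 < ds M S i := by linarith
  have den : S.den (M.z (k - 1)) ≤ S.C * S.den (M.z (i - 1)) ∧
      S.den (M.z (i - 1)) ≤ S.C * S.den (M.z (k - 1)) := by
    rcases le_total (M.z (k - 1)) (M.z (i - 1)) with e | e
    · exact h.dens _ _ zk e (by linarith) (le_min (by linarith) (by linarith))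
    · exact (h.dens _ _ zi e (by linarith) (le_min (by linarith) (by linarith))).symm
  have p3 : (Xp ^ ((1 : ℝ) / 3)) ^ 3 = Xp := by
    rw [← rpow_natCast, ← rpow_mul X0.le]; norm_num
  have p0 : 0 < Xp ^ ((1 : ℝ) / 3) := rpow_pos_of_pos X0 _
  have r1 : Rp M S Xp V γ i + Xp ^ ((1 : ℝ) / 3) ≤ 2 * (Rp M S Xp V γ k + Xp ^ ((1 : ℝ) / 3)) := by
    have d : du M k ≤ 4 * du M i := by unfold du; linarith
    have a1 : √(Xp / max (dl M S i - S.u0) (Xp ^ ((1 : ℝ) / 3))) ≤ Xp ^ ((1 : ℝ) / 3) := by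
      refine sqrt_le_iff.2 ⟨p0.le, ?_⟩
      refine (div_le_div_of_nonneg_left X0.le p0 (le_max_right _ _)).trans ?_
      rw [div_le_iff₀ p0]
      linarith [p3, pow_succ (Xp ^ ((1 : ℝ) / 3)) 2]
    have a2 : √(Xp / du M i) ≤ 2 * √(Xp / du M k) := by
      refine sqrt_le_iff.2 ⟨by positivity, ?_⟩
      rw [mul_pow, sq_sqrt (by positivity), ← mul_div_assoc, div_le_div_iff₀ (by linarith) u0]
      linarith [mul_le_mul_of_nonneg_left d X0.le]
    have a3 : min V √(Xp / du M i) ≤ 2 * min V √(Xp / du M k) := by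
      rcases le_total V √(Xp / du M k) with e | e
      · rw [min_eq_left e]; linarith [min_le_left V √(Xp / du M i)]
      · rw [min_eq_right e]; linarith [min_le_right V √(Xp / du M i)]
    unfold Rp
    linarith [sqrt_nonneg (Xp / max (dl M S k - S.u0) (Xp ^ ((1 : ℝ) / 3)))]
  have r0 : 0 ≤ Rp M S Xp V γ i + Xp ^ ((1 : ℝ) / 3) := by unfold Rp; positivity
  have e1 : ds M S k ^ 2 ≤ 4 * ds M S i ^ 2 := by nlinarith
  have e2 : ds M S k ^ 2 * S.den (M.z (k - 1)) ≤ 4 * S.C * (ds M S i ^ 2 * S.den (M.z (i - 1))) :=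
    (mul_le_mul e1 den.1 d1.le (by positivity)).trans (by ring_nf; rfl)
  have e3 : ∀ x, 0 ≤ x → x / (ds M S i ^ 2 * S.den (M.z (i - 1))) ≤
      4 * S.C * (x / (ds M S k ^ 2 * S.den (M.z (k - 1)))) := fun x x0 => by
    rw [← mul_div_assoc, div_le_div_iff₀ (by positivity) (by positivity)]
    linarith [mul_le_mul_of_nonneg_left e2 x0]
  have l0 : 0 < lsh M S k := mul_pos d1 D0
  have l1 : 0 < lsh M S i := mul_pos d2 D1
  have b3 : √(S.w3 1 / lsh M S i) ≤ 16 * S.C * √(S.w3 1 / lsh M S k) := by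
    refine sqrt_le_iff.2 ⟨by positivity, ?_⟩
    rw [mul_pow, sq_sqrt (by positivity), ← mul_div_assoc, div_le_div_iff₀ l1 l0]
    have a1 : lsh M S k ≤ 2 * S.C * lsh M S i :=
      (mul_le_mul den.1 (show ds M S k ≤ 2 * ds M S i by linarith) D0.le (by positivity)).trans
        (by unfold lsh; ring_nf; rfl)
    have a2 : 2 * S.C ≤ (16 * S.C) ^ 2 := by nlinarith
    linarith [mul_le_mul_of_nonneg_left (a1.trans (mul_le_mul_of_nonneg_right a2 l1.le)) w0]
  have b2 : S.w3 1 / (S.den (M.z (i - 1)) * ds M S i ^ 2) ≤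
      16 * S.C * (S.w3 1 / (S.den (M.z (k - 1)) * ds M S k ^ 2)) := by
    rw [mul_comm (S.den _), mul_comm (S.den _)]
    refine (e3 _ w0).trans (mul_le_mul_of_nonneg_right (by linarith) (by positivity))
  have b1 : S.w3 1 * (S.den (M.z (i - 1)) + (Rp M S Xp V γ i + Xp ^ ((1 : ℝ) / 3)) ^ 2 /
      (ds M S i ^ 2 * S.den (M.z (i - 1)))) ≤ 16 * S.C * (S.w3 1 * (S.den (M.z (k - 1)) +
      (Rp M S Xp V γ k + Xp ^ ((1 : ℝ) / 3)) ^ 2 / (ds M S k ^ 2 * S.den (M.z (k - 1))))) := by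
    have a1 := pow_le_pow_left₀ r0 r1 2
    generalize Rp M S Xp V γ i + Xp ^ ((1 : ℝ) / 3) = x at a1
    generalize Rp M S Xp V γ k + Xp ^ ((1 : ℝ) / 3) = y at a1
    rw [mul_left_comm]
    refine mul_le_mul_of_nonneg_left ?_ w0
    have a2 : x ^ 2 / (ds M S k ^ 2 * S.den (M.z (k - 1))) ≤
        4 * (y ^ 2 / (ds M S k ^ 2 * S.den (M.z (k - 1)))) := by
      rw [← mul_div_assoc]
      exact div_le_div_of_nonneg_right (by linarith) (by positivity)
    linarith [e3 _ (sq_nonneg x), mul_le_mul_of_nonneg_left a2 (by positivity : 0 ≤ 4 * S.C),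
      den.2, mul_pos C0 d1]
  have b0 := rpow_le_rpow (by positivity) b1 (by norm_num : (0 : ℝ) ≤ 1 / 3)
  rw [mul_rpow (x := 16 * S.C) (by positivity) (by positivity)] at b0
  have b4 := b0.trans (mul_le_mul_of_nonneg_right (rpow_le_self_of_one_le
    (by linarith : 1 ≤ 16 * S.C) (by norm_num : (1 : ℝ) / 3 ≤ 1)) (by positivity))
  unfold ap
  linarith

end Crest.Agent.T156.Alt.Mp9.At

end
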