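import Crest.Agent.T156.Rig_63

/-!
# Row 156, block (L): Taylor with a step majorant of the second derivative (helper45)

Frame free.  `ν ≤ A + ∑_{τ i ≤ t} x i` gives the slope and the potential up to hinge sums.
-/

set_option autoImplicit false

namespace Crest.Agent.T156.Rig

open Set Filter Topology

namespace PC2
variable {S : Finset ℝ} {a b : ℝ} {W ω ν W' ω' ν' : ℝ → ℝ}

theorem add45 (h : PC2 S a b W ω ν) (h' : PC2 S a b W' ω' ν') :
    PC2 S a b (fun t => W t + W' t) (fun t => ω t + ω' t) fun t => ν t + ν' t :=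
  ⟨h.cW.add h'.cW, h.cω.add h'.cω, fun t ht hs => (h.dW t ht hs).add (h'.dW t ht hs),
    fun t ht hs => (h.dω t ht hs).add (h'.dω t ht hs)⟩

theorem cmul45 (h : PC2 S a b W ω ν) (c : ℝ) :
    PC2 S a b (fun t => c * W t) (fun t => c * ω t) fun t => c * ν t :=
  ⟨continuousOn_const.mul h.cW, continuousOn_const.mul h.cω,
    fun t ht hs => (h.dW t ht hs).const_mul c, fun t ht hs => (h.dω t ht hs).const_mul c⟩

theorem sum45 {ι : Type} (I : Finset ι) {F f g : ι → ℝ → ℝ}
    (h : ∀ i ∈ I, PC2 S a b (F i) (f i) (g i)) :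
    PC2 S a b (fun t => ∑ i ∈ I, F i t) (fun t => ∑ i ∈ I, f i t) fun t => ∑ i ∈ I, g i t :=
  ⟨continuousOn_finsetSum _ fun i hi => (h i hi).cW,
    continuousOn_finsetSum _ fun i hi => (h i hi).cω,
    fun t ht hs => HasDerivAt.fun_sum fun i hi => (h i hi).dW t ht hs,
    fun t ht hs => HasDerivAt.fun_sum fun i hi => (h i hi).dω t ht hs⟩

/-- one hinge -/
theorem hinge45 {τ : ℝ} (hτ : τ ∈ S) (a b : ℝ) :
    PC2 S a b (fun t => max (t - τ) 0 ^ 2 / 2) (fun t => max (t - τ) 0)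
      fun t => if τ ≤ t then 1 else 0 := by
  have c1 : Continuous fun t : ℝ => max (t - τ) 0 := by fun_prop
  have d : ∀ t, t ∉ S → HasDerivAt (fun t => max (t - τ) 0) (if τ ≤ t then 1 else 0) t := by
    intro t hs
    have ne : t ≠ τ := fun e => hs (e ▸ hτ)
    rcases lt_or_gt_of_ne ne with e | e
    · rw [if_neg (not_le.2 e)]
      refine (hasDerivAt_const t (0 : ℝ)).congr_of_eventuallyEq ?_
      filter_upwards [Iio_mem_nhds e] with r hr
      exact max_eq_right (sub_nonpos.2 (le_of_lt hr))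
    · rw [if_pos e.le]
      refine ((hasDerivAt_id' t).sub_const τ).congr_of_eventuallyEq ?_
      filter_upwards [Ioi_mem_nhds e] with r hr
      exact max_eq_left (sub_nonneg.2 (le_of_lt hr))
  refine ⟨((c1.pow 2).div_const 2).continuousOn, c1.continuousOn, fun t _ hs => ?_,
    fun t _ hs => d t hs⟩
  refine (((d t hs).fun_pow 2).div_const 2).congr_deriv ?_
  split_ifs with e
  · simp
  · rw [max_eq_right (sub_nonpos.2 (not_le.1 e).le)]; simp

/-- **Taylor with a step majorant**, upper side -/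
theorem step_up {ι : Type} (h : PC2 S a b W ω ν) (hab : a ≤ b) (I : Finset ι) (x τ : ι → ℝ)
    (hτ : ∀ i ∈ I, a ≤ τ i) {A : ℝ}
    (hν : ∀ t ∈ Ioo a b, t ∉ S → ν t ≤ A + ∑ i ∈ I, x i * if τ i ≤ t then 1 else 0) :
    (∀ t ∈ Icc a b, ω t ≤ ω a + A * (t - a) + ∑ i ∈ I, x i * max (t - τ i) 0) ∧
      W b ≤ W a + ω a * (b - a) + A * (b - a) ^ 2 / 2 +
        ∑ i ∈ I, x i * (max (b - τ i) 0 ^ 2 / 2) := by
  classical
  have h0 : PC2 (S ∪ I.image τ) a b W ω ν := h.mono le_rfl le_rfl Finset.subset_union_left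
  have h1 : PC2 (S ∪ I.image τ) a b (fun t => ω a * (t - a) + A * (t - a) ^ 2 / 2)
      (fun t => ω a + A * (t - a)) fun _ => A := by
    refine of_smooth _ a b (fun t => ?_) fun t => ?_
    · have := (((hasDerivAt_id' t).sub_const a).const_mul (ω a)).fun_add
        (((((hasDerivAt_id' t).sub_const a).fun_pow 2).const_mul A).div_const 2)
      exact this.congr_deriv (by simp; ring)
    · have := ((((hasDerivAt_id' t).sub_const a).const_mul A).const_add (ω a))
      exact this.congr_deriv (by ring)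
  have h2 := sum45 (S := S ∪ I.image τ) (a := a) (b := b) I fun i hi =>
    (hinge45 (Finset.mem_union_right S (Finset.mem_image_of_mem τ hi)) a b).cmul45 (x i)
  have h3 := (h1.add45 h2).sub h0
  have z : ∀ i ∈ I, max (a - τ i) 0 = 0 := fun i hi => max_eq_right (sub_nonpos.2 (hτ i hi))
  have z1 : ∑ i ∈ I, x i * max (a - τ i) 0 = 0 :=
    Finset.sum_eq_zero fun i hi => by rw [z i hi, mul_zero]
  have z2 : ∑ i ∈ I, x i * (max (a - τ i) 0 ^ 2 / 2) = 0 :=
    Finset.sum_eq_zero fun i hi => by rw [z i hi]; simp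
  have s : ∀ t ∈ Icc a b, ω t ≤ ω a + A * (t - a) + ∑ i ∈ I, x i * max (t - τ i) 0 := by
    intro t ht
    have := h3.ω_le le_rfl ht.1 ht.2 fun r hr hs => by
      have := hν r ⟨hr.1, hr.2.trans_le ht.2⟩ fun e => hs (Finset.mem_union_left _ e)
      show 0 ≤ A + ∑ i ∈ I, x i * (if τ i ≤ r then 1 else 0) - ν r
      linarith
    simp only [sub_self, mul_zero, add_zero, z1] at this
    linarith
  refine ⟨s, ?_⟩
  have := h3.W_le le_rfl hab le_rfl fun r hr _ => by
    have := s r (Ioo_subset_Icc_self hr)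
    show 0 ≤ ω a + A * (r - a) + ∑ i ∈ I, x i * max (r - τ i) 0 - ω r
    linarith
  simp only [sub_self, mul_zero, z2] at this
  linarith

/-- **Taylor with a step majorant**, lower side -/
theorem step_lo {ι : Type} (h : PC2 S a b W ω ν) (hab : a ≤ b) (I : Finset ι) (x τ : ι → ℝ)
    (hτ : ∀ i ∈ I, a ≤ τ i) {A : ℝ}
    (hν : ∀ t ∈ Ioo a b, t ∉ S → -(A + ∑ i ∈ I, x i * if τ i ≤ t then 1 else 0) ≤ ν t) :
    (∀ t ∈ Icc a b, ω a - (A * (t - a) + ∑ i ∈ I, x i * max (t - τ i) 0) ≤ ω t) ∧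
      W a + ω a * (b - a) - (A * (b - a) ^ 2 / 2 +
        ∑ i ∈ I, x i * (max (b - τ i) 0 ^ 2 / 2)) ≤ W b := by
  obtain ⟨p, q⟩ := h.neg.step_up hab I x τ hτ (A := A) fun t ht hs => by
    have := hν t ht hs
    linarith
  exact ⟨fun t ht => by have := p t ht; linarith, by linarith⟩

end PC2

end Crest.Agent.T156.Rig
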