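import Crest.Agent.T156.ClTh_9
import Crest.Agent.T156.TLqS_45

/-!
# Row 156, block (L): the short window at the corner, Taylor with label remainder (helper45)

`y = sb (V + 1) < s J`, `tw = sb (w + 1)`, `W = WW`, `W' = om45`.
-/

set_option autoImplicit false

noncomputable section

namespace Crest.Agent.T156.Alt.Mp9

open MeasureTheory Set Real
open Crest.Agent.R164.GC Crest.Agent.R339.B Crest.Agent.R339.Var Crest.Agent.T157.Pf
open Crest.Agent.T156.Pp.Area50 Crest.Agent.T156.Spl27 Crest.Agent.T156.Zb9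

/-- the slope of `WW` -/
abbrev om45 (M : Md) (S : Sc) (m : ℕ) (a T t : ℝ) : ℝ :=
  Rig.muf M.b (lb M S m a T) t - Rig.muf M.b (lh M T) t

namespace At
variable {S : Sc} {M : Md} {m : ℕ} {a T : ℝ}

/-- the mean profile between two node times -/
theorem zb_step45 (A : At S M m a T) {V w : ℕ} (h1 : S.jl ≤ V) (h2 : V ≤ w) (h3 : w ≤ S.Jp) {t : ℝ}
    (t1 : sb M m a (V + 1) ≤ t) (t2 : t < sb M m a (w + 1)) :
    M.z V ≤ lvr 1 (lb M S m a T) t ∧ lvr 1 (lb M S m a T) t ≤ M.z V +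
      ∑ k ∈ Finset.Ioc V w, (M.z k - M.z (k - 1)) * if sb M m a (k + 1) ≤ t then 1 else 0 := by
  refine ⟨?_, ?_⟩
  · rw [← A.lvb_node h1 (h2.trans h3)]
    exact Sc48.lvr_mono A.okb.1.1 t1
  obtain ⟨i, ci⟩ := exists_Cell A.ub t
  have i1 : V + 1 ≤ i := ci.ge A.ub (by omega) t1
  have i2 : i < w + 1 := ci.lt A.ub (Nat.succ_pos w) t2
  obtain ⟨y, rfl⟩ : ∃ y, i = y + 1 := ⟨i - 1, by omega⟩
  rw [A.lvb_cell ci]
  have e := sum_dz M (show V ≤ y by omega)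
  have : ∑ k ∈ Finset.Ioc V y, (M.z k - M.z (k - 1)) ≤
      ∑ k ∈ Finset.Ioc V w, (M.z k - M.z (k - 1)) * if sb M m a (k + 1) ≤ t then 1 else 0 := by
    refine le_trans (le_of_eq (Finset.sum_congr rfl fun k hk => ?_))
      (Finset.sum_le_sum_of_subset_of_nonneg (Finset.Ioc_subset_Ioc_right (show y ≤ w by omega))
        fun k _ _ => mul_nonneg (A.dz_nn k) (by split_ifs <;> norm_num))
    rw [if_pos ((A.sb_mono (Nat.succ_le_succ (Finset.mem_Ioc.1 hk).2)).trans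
      (ci.2.1 (Nat.succ_pos y))), mul_one]
  linarith

/-- the reference above a time `y < s J` -/
theorem zh_step45 (A : At S M m a T) {y t : ℝ} (y0 : 0 ≤ y) (h : y ≤ t) :
    lvr 1 (lh M T) y ≤ lvr 1 (lh M T) t ∧ lvr 1 (lh M T) t ≤ lvr 1 (lh M T) y +
      S.C * (t - y + S.v) + if M.s S.J ≤ t then 1 else 0 := by
  refine ⟨Sc48.lvr_mono A.okh.1.1 h, ?_⟩
  have C0 := A.c_pos
  have v0 := v_pos A.cl
  split_ifs with e
  · have p := Pp.Ode3.lvr_le_one A.okh.1.1 t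
    have q := Sc48.lvr_pos A.okh.1.1 y
    have : 0 ≤ S.C * (t - y + S.v) := mul_nonneg C0.le (by linarith)
    linarith
  · have := (A.sl (not_le.1 e) y t y0 h le_rfl).2
    linarith

/-- the slope of the reference potential up to the time `t` -/
theorem e_le45 (A : At S M m a T) {r d : ℝ} (h0 : 0 ≤ r) (h1 : r ≤ T) (d0 : 0 ≤ d)
    (hd : r - M.s S.Jp ≤ d) : 1 - M.b * Pr.GG (lh M T) r ≤ S.C * S.θ + 2 * S.C * d := by
  have C0 := A.c_pos
  have k : ∀ r, 0 ≤ r → r ≤ M.s S.Jp → 1 - M.b * Pr.GG (lh M T) r ≤ S.C * S.θ := fun r a1 a2 => by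
    rw [A.e_h ⟨a1, a2⟩]
    exact (A.cl.crit r ⟨a1, a2⟩).2.trans (mul_le_mul_of_nonneg_left (A.cl.ms1 r) C0.le)
  rcases le_total r (M.s S.Jp) with c | c
  · have := k r h0 c
    nlinarith
  · have p := k _ (s_nn A.cl _) le_rfl
    have q := Lz74.Gp_down (ap_of_ok A.okh.1) (s_nn A.cl S.Jp) c (by rwa [A.okh.2]) (Z := 1)
      fun s _ _ => Pp.Ode3.lvr_le_one A.okh.1.1 s
    have b0 := A.b_pos
    have b1 := A.cl.b1
    change Pr.GG (lh M T) (M.s S.Jp) - Pr.GG (lh M T) r ≤ _ at q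
    have q1 := mul_le_mul_of_nonneg_left q b0.le
    have q2 : M.b * (2 * 1 * (r - M.s S.Jp)) ≤ S.C * (2 * d) :=
      mul_le_mul b1 (by linarith) (by linarith) C0.le
    nlinarith

/-- **the potential at any node above the W-mark** (sloped or plateau) -/
theorem W_node45 (A : At S M m a T) {k : ℕ} (h1 : S.jl < k) (h2 : k ≤ S.Jp) (c : ℝ) {d : ℝ}
    (hd : |sb M m a (k + 1) - M.s k| ≤ d) :
    |WW M S m a T c (sb M m a (k + 1))| ≤ |M.G k| + S.C * |res M S m a T k - c| + S.C / (m + 1) +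
      (S.C * S.θ + 2 * S.C * d) * d := by
  have C0 := A.c_pos
  have d0 : 0 ≤ d := (abs_nonneg _).trans hd
  have th0 : 0 ≤ S.θ := (A.ms_pos zero_le_one).le
  have mb := A.sb_mem h2
  have s0 := s_nn A.cl k
  have s1 : M.s k ≤ M.s S.Jp := A.cl.sm h2
  have sT : M.s k ≤ T := s1.trans A.t2
  have E0 : 0 ≤ S.C * S.θ + 2 * S.C * d := by positivity
  have key : |Rig.Mf M.b (lh M T) (sb M m a (k + 1)) - Rig.Mf M.b (lh M T) (M.s k)| ≤
      (S.C * S.θ + 2 * S.C * d) * d := by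
    obtain ⟨p1, p2⟩ := abs_le.1 hd
    rcases le_total (M.s k) (sb M m a (k + 1)) with e | e
    · obtain ⟨q1, q2⟩ := Mf_slope (b := M.b) (d := 0) (D := S.C * S.θ + 2 * S.C * d) A.okh.1 s0 e
        (by rw [A.okh.2]; exact mb.2) fun r hr =>
          ⟨A.e_nonneg ⟨s0.trans hr.1, hr.2.trans mb.2⟩,
            A.e_le45 (s0.trans hr.1) (hr.2.trans mb.2) d0 (by linarith [hr.2])⟩
      rw [abs_of_nonneg (by linarith)]
      exact q2.trans (mul_le_mul_of_nonneg_left p2 E0)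
    · obtain ⟨q1, q2⟩ := Mf_slope (b := M.b) (d := 0) (D := S.C * S.θ + 2 * S.C * d) A.okh.1 mb.1 e
        (by rw [A.okh.2]; exact sT) fun r hr =>
          ⟨A.e_nonneg ⟨mb.1.trans hr.1, hr.2.trans sT⟩,
            A.e_le45 (mb.1.trans hr.1) (hr.2.trans sT) d0 (by linarith [hr.2])⟩
      rw [abs_sub_comm, abs_of_nonneg (by linarith)]
      exact q2.trans (mul_le_mul_of_nonneg_left (by linarith) E0)
  obtain ⟨r1, r2⟩ := A.tail_mem (A.jp_le h2)
  rw [d_top A.cl h1 (A.jp_le h2)] at r1 r2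
  have b0 := A.b_pos
  have hr : |M.b * res M S m a T k - M.b * c| ≤ S.C * |res M S m a T k - c| := by
    rw [← mul_sub, abs_mul, abs_of_pos b0]
    exact mul_le_mul_of_nonneg_right A.cl.b1 (abs_nonneg _)
  rw [A.Mf_node h1 h2] at key
  unfold WW
  rw [A.Mf_b h1 h2]
  obtain ⟨k1, k2⟩ := abs_le.1 key
  obtain ⟨k3, k4⟩ := abs_le.1 hr
  refine abs_le.2 ⟨?_, ?_⟩ <;> linarith [le_abs_self (M.G k), neg_abs_le (M.G k)]

/-- **Taylor with label remainder** on `[sb (V + 1), sb (w + 1)]`; `U` bounds `|u|` at the lower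
end, `P` the `H⁻¹` size -/
theorem tay45 (T0 : ℝ) : ∃ K : ℝ, 1 ≤ K ∧ ∀ {S : Sc} {M : Md} {m : ℕ} {a T : ℝ},
    At S M m a T → T ≤ T0 → ∀ {V w : ℕ} {U P : ℝ} (c : ℝ), S.jl ≤ V → V ≤ w → w ≤ S.Jp →
      |uu M S m a T (sb M m a (V + 1))| ≤ U →
      (∀ t ∈ Icc (sb M m a (V + 1)) (sb M m a (w + 1)), Rig.Hp (lh M T) (lb M S m a T) t ≤ P) →
      ∀ y tw Γ, y = sb M m a (V + 1) → tw = sb M m a (w + 1) → Γ = tw - y →
      ((∀ t ∈ Icc y tw, om45 M S m a T t ≤ om45 M S m a T y + S.C * (2 * U + K * P) * (t - y) +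
          2 * S.C * ∑ k ∈ Finset.Ioc V w, (M.z k - M.z (k - 1)) * max (t - sb M m a (k + 1)) 0) ∧
        WW M S m a T c tw ≤ WW M S m a T c y + om45 M S m a T y * Γ +
          S.C * (2 * U + K * P) * Γ ^ 2 / 2 +
          S.C * ∑ k ∈ Finset.Ioc V w, (M.z k - M.z (k - 1)) * (tw - sb M m a (k + 1)) ^ 2) ∧
      ((∀ t ∈ Icc y tw, om45 M S m a T y - (S.C * (2 * (U + S.C * (Γ + S.v)) + K * P) * (t - y) +
          2 * S.C * max (t - M.s S.J) 0) ≤ om45 M S m a T t) ∧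
        WW M S m a T c y + om45 M S m a T y * Γ -
          (S.C * (2 * (U + S.C * (Γ + S.v)) + K * P) * Γ ^ 2 / 2 +
            S.C * max (tw - max (M.s S.J) y) 0 ^ 2) ≤ WW M S m a T c tw) := by
  obtain ⟨K, K1, H⟩ := Rig.rel' T0
  refine ⟨K, K1, fun {S M m a T} A hT {V w U P} c h1 h2 h3 hU hP y tw Γ ey etw eΓ => ?_⟩
  have C0 := A.c_pos
  have v0 := v_pos A.cl
  have b0 := A.b_pos
  have b1 := A.cl.b1
  have my : y ∈ Icc 0 T := ey ▸ A.sb_mem (h2.trans h3)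
  have mw : tw ∈ Icc 0 T := etw ▸ A.sb_mem h3
  have yw : y ≤ tw := by rw [ey, etw]; exact A.sb_mono (Nat.succ_le_succ h2)
  have U0 : 0 ≤ U := (abs_nonneg _).trans hU
  rw [← ey, ← etw] at hP
  rw [← ey] at hU
  have hp0 : ∀ t, 0 ≤ Rig.Hp (lh M T) (lb M S m a T) t := fun t =>
    add_nonneg (abs_nonneg _) (intervalIntegral.integral_nonneg
      (by rw [A.okh.2]; exact my.1.trans my.2) fun _ _ => abs_nonneg _)
  have pc := Rig.pc2_pair (ap_of_ok A.okb.1) (ap_of_ok A.okh.1) M.b (-(M.b * c)) (c := tw) my.1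
    (by rw [A.okb.2]; exact mw.2) (by rw [A.okh.2]; exact mw.2)
  have uy : uu M S m a T y = M.z V - lvr 1 (lh M T) y := by
    rw [uu, ey, A.lvb_node h1 (h2.trans h3)]
  obtain ⟨U1, U2⟩ := abs_le.1 hU
  -- second derivative
  have nu : ∀ t ∈ Ioo y tw, ∀ X Y, 0 ≤ X → 0 ≤ Y → uu M S m a T t ≤ X → -Y ≤ uu M S m a T t →
      Rig.nuf M.b (lb M S m a T) t - Rig.nuf M.b (lh M T) t ≤ 2 * S.C * X + S.C * (K * P) ∧
      -(2 * S.C * Y + S.C * (K * P)) ≤
        Rig.nuf M.b (lb M S m a T) t - Rig.nuf M.b (lh M T) t := by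
    intro t ht X Y X0 Y0 hX hY
    obtain ⟨be, m1, m2⟩ := H _ _ (ap_of_ok A.okb.1) (ap_of_ok A.okh.1)
      (A.okb.2.trans A.okh.2.symm) (by rwa [A.okh.2]) M.b b0.le t
      (by rw [A.okh.2]; exact ⟨my.1.trans ht.1.le, ht.2.le.trans mw.2⟩)
    have be0 : 0 ≤ be := le_trans (by positivity) m1.1
    have be1 : be ≤ S.C := m1.2.trans b1
    have m3 : K * M.b * Rig.Hp (lh M T) (lb M S m a T) t ≤ S.C * (K * P) := by
      have := mul_le_mul (mul_le_mul_of_nonneg_left b1 (by linarith : 0 ≤ K))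
        (hP t (Ioo_subset_Icc_self ht)) (hp0 t) (by positivity)
      linarith
    obtain ⟨n1, n2⟩ := abs_le.1 (m2.trans m3)
    change _ ≤ _ - 2 * be * uu M S m a T t at n1
    change _ - 2 * be * uu M S m a T t ≤ _ at n2
    have q1 : be * uu M S m a T t ≤ S.C * X :=
      (mul_le_mul_of_nonneg_left hX be0).trans (mul_le_mul_of_nonneg_right be1 X0)
    have q2 : be * Y ≤ S.C * Y := mul_le_mul_of_nonneg_right be1 Y0
    have q3 := mul_le_mul_of_nonneg_left hY be0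
    constructor <;> nlinarith
  have ite0 : ∀ p : Prop, ∀ [Decidable p], (0 : ℝ) ≤ if p then 1 else 0 := fun p _ => by
    split_ifs <;> norm_num
  have bd : ∀ t ∈ Ioo y tw, uu M S m a T t ≤ U + ∑ k ∈ Finset.Ioc V w,
      (M.z k - M.z (k - 1)) * (if sb M m a (k + 1) ≤ t then 1 else 0) ∧
      -(U + S.C * (Γ + S.v) + if M.s S.J ≤ t then 1 else 0) ≤ uu M S m a T t := by
    intro t ht
    obtain ⟨p1, p2⟩ := A.zb_step45 h1 h2 h3 (t := t) (ey ▸ ht.1.le) (etw ▸ ht.2)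
    obtain ⟨q1, q2⟩ := A.zh_step45 my.1 ht.1.le
    have q3 : S.C * (t - y + S.v) ≤ S.C * (Γ + S.v) :=
      mul_le_mul_of_nonneg_left (by linarith [ht.2]) C0.le
    unfold uu at *
    constructor <;> linarith
  have G0 : 0 ≤ Γ := by linarith
  have Y0 : ∀ t, 0 ≤ U + S.C * (Γ + S.v) + if M.s S.J ≤ t then 1 else 0 := fun t => by
    have := ite0 (M.s S.J ≤ t); positivity
  have X0 : ∀ t, 0 ≤ U + ∑ k ∈ Finset.Ioc V w,
      (M.z k - M.z (k - 1)) * (if sb M m a (k + 1) ≤ t then 1 else 0) := fun t =>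
    add_nonneg U0 (Finset.sum_nonneg fun k _ => mul_nonneg (A.dz_nn k) (ite0 _))
  refine ⟨?_, ?_⟩
  · obtain ⟨p, q⟩ := pc.step_up yw (Finset.Ioc V w) (fun k => 2 * S.C * (M.z k - M.z (k - 1)))
      (fun k => sb M m a (k + 1))
      (fun k hk => ey ▸ A.sb_mono (Nat.succ_le_succ (Finset.mem_Ioc.1 hk).1.le))
      (A := S.C * (2 * U + K * P)) fun t ht _ => by
        have r := (nu t ht _ _ (X0 t) (Y0 t) (bd t ht).1 (bd t ht).2).1
        simp only [mul_assoc (2 * S.C), ← Finset.mul_sum]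
        linarith
    simp only [mul_assoc (2 * S.C), ← Finset.mul_sum] at p q
    refine ⟨p, ?_⟩
    have e : ∑ k ∈ Finset.Ioc V w, (M.z k - M.z (k - 1)) * (max (tw - sb M m a (k + 1)) 0 ^ 2 / 2) =
        (∑ k ∈ Finset.Ioc V w, (M.z k - M.z (k - 1)) * (tw - sb M m a (k + 1)) ^ 2) / 2 := by
      rw [Finset.sum_div]
      refine Finset.sum_congr rfl fun k hk => ?_
      rw [max_eq_left (sub_nonneg.2 (etw ▸ A.sb_mono (Nat.succ_le_succ (Finset.mem_Ioc.1 hk).2)))]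
      ring
    rw [e, ← eΓ] at q
    unfold WW
    linarith
  · obtain ⟨p, q⟩ := pc.step_lo yw (Finset.univ : Finset Unit) (fun _ => 2 * S.C)
      (fun _ => max (M.s S.J) y) (fun _ _ => le_max_right _ _)
      (A := S.C * (2 * (U + S.C * (Γ + S.v)) + K * P)) fun t ht _ => by
        have r := (nu t ht _ _ (X0 t) (Y0 t) (bd t ht).1 (bd t ht).2).2
        simp only [Finset.univ_unique, Finset.sum_singleton, max_le_iff, ht.1.le, and_true]
        linarith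
    simp only [Finset.univ_unique, Finset.sum_singleton] at p q
    refine ⟨fun t ht => ?_, ?_⟩
    · have r := p t ht
      have : max (t - max (M.s S.J) y) 0 ≤ max (t - M.s S.J) 0 :=
        max_le_max (by linarith [le_max_left (M.s S.J) y]) le_rfl
      nlinarith
    · rw [← eΓ] at q
      unfold WW
      linarith

/-- **the boundary value of the window** from a node `w` above it -/
theorem bdry45 (T0 : ℝ) : ∃ K : ℝ, 1 ≤ K ∧ ∀ {S : Sc} {M : Md} {m : ℕ} {a T : ℝ},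
    At S M m a T → T ≤ T0 → ∀ {V w : ℕ} {U P Γ R d Ω : ℝ} (c : ℝ), S.jl < V → V ≤ w → w ≤ S.Jp →
      S.J ≤ w → |uu M S m a T (sb M m a (V + 1))| ≤ U →
      (∀ t ∈ Icc (sb M m a (V + 1)) (sb M m a (w + 1)), Rig.Hp (lh M T) (lb M S m a T) t ≤ P) →
      sb M m a (w + 1) - sb M m a (V + 1) ≤ Γ →
      ∑ k ∈ Finset.Ioc V w, (M.z k - M.z (k - 1)) * (sb M m a (w + 1) - sb M m a (k + 1)) ^ 2 ≤ R →
      |sb M m a (w + 1) - M.s w| ≤ d → |om45 M S m a T (sb M m a (V + 1))| ≤ Ω →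
      |WW M S m a T c (sb M m a (V + 1))| ≤ |M.G w| + S.C * |res M S m a T w - c| + S.C / (m + 1) +
        (S.C * S.θ + 2 * S.C * d) * d + Ω * Γ +
        S.C * ((U + S.C * (Γ + S.v) + K * P) * Γ ^ 2 + R + (d + (M.s w - M.s S.J)) ^ 2) := by
  obtain ⟨K, K1, H⟩ := tay45 T0
  refine ⟨K, K1, fun {S M m a T} A hT {V w U P Γ R d Ω} c h1 h2 h3 hJ hU hP hΓ hR hd hΩ => ?_⟩
  obtain ⟨⟨-, p⟩, -, q⟩ := H A hT c h1.le h2 h3 hU hP _ _ _ rfl rfl rfl
  have n := abs_le.1 (A.W_node45 (h1.trans_le h2) h3 c hd)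
  have C0 := A.c_pos
  have v0 := v_pos A.cl
  have g0 : 0 ≤ sb M m a (w + 1) - sb M m a (V + 1) := sub_nonneg.2 (A.sb_mono (Nat.succ_le_succ h2))
  have my := A.sb_mem (h2.trans h3)
  have P0 : 0 ≤ P := le_trans (add_nonneg (abs_nonneg _) (intervalIntegral.integral_nonneg
      (by rw [A.okh.2]; exact my.1.trans my.2) fun _ _ => abs_nonneg _))
    (hP _ ⟨le_rfl, by linarith⟩)
  have U0 : 0 ≤ U := (abs_nonneg _).trans hU
  have d0 : 0 ≤ d := (abs_nonneg _).trans hd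
  have sJ : 0 ≤ M.s w - M.s S.J := sub_nonneg.2 (A.cl.sm hJ)
  have R0 : 0 ≤ R := le_trans (Finset.sum_nonneg fun k _ => mul_nonneg (A.dz_nn k) (sq_nonneg _)) hR
  generalize sb M m a (w + 1) - sb M m a (V + 1) = g at *
  have o : |om45 M S m a T (sb M m a (V + 1)) * g| ≤ Ω * Γ := by
    rw [abs_mul, abs_of_nonneg g0]
    exact mul_le_mul hΩ hΓ g0 ((abs_nonneg _).trans hΩ)
  obtain ⟨o1, o2⟩ := abs_le.1 o
  have KP : 0 ≤ K * P := by positivity
  have g2 : g ^ 2 ≤ Γ ^ 2 := pow_le_pow_left₀ g0 hΓ 2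
  have x1 : S.C * (2 * (U + S.C * (g + S.v)) + K * P) * g ^ 2 / 2 ≤
      S.C * ((U + S.C * (Γ + S.v) + K * P) * Γ ^ 2) := by
    have : (2 * (U + S.C * (g + S.v)) + K * P) / 2 ≤ U + S.C * (Γ + S.v) + K * P := by
      nlinarith [mul_le_mul_of_nonneg_left hΓ C0.le]
    have := mul_le_mul this g2 (sq_nonneg _) (by have := g0.trans hΓ; positivity)
    nlinarith [mul_le_mul_of_nonneg_left this C0.le]
  have x2 : S.C * (2 * U + K * P) * g ^ 2 / 2 ≤
      S.C * (2 * (U + S.C * (g + S.v)) + K * P) * g ^ 2 / 2 := by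
    have : 0 ≤ S.C * (2 * (S.C * (g + S.v))) * g ^ 2 := by positivity
    nlinarith
  have x3 : max (sb M m a (w + 1) - max (M.s S.J) (sb M m a (V + 1))) 0 ^ 2 ≤
      (d + (M.s w - M.s S.J)) ^ 2 :=
    pow_le_pow_left₀ (le_max_right _ _) (max_le (by
      linarith [le_max_left (M.s S.J) (sb M m a (V + 1)), (abs_le.1 hd).2]) (by linarith)) 2
  have x4 := mul_le_mul_of_nonneg_left x3 C0.le
  have x5 := mul_le_mul_of_nonneg_left hR C0.le
  have x6 : 0 ≤ S.C * R := by positivity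
  have x7 : 0 ≤ S.C * (d + (M.s w - M.s S.J)) ^ 2 := by positivity
  refine abs_le.2 ⟨?_, ?_⟩ <;> nlinarith

end At

end Crest.Agent.T156.Alt.Mp9

end
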