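import Crest.Agent.T156.ClTop_27
import Crest.Agent.T156.ClAp_63
import Crest.Agent.T156.ClTh_9

/-!
# Row 156, block (L), TLq steps (iii), (iv) (helper34): closing at the last good node
-/

set_option autoImplicit false

noncomputable section

namespace Crest.Agent.T156.Rig.Q34

open Set Real MeasureTheory
open Crest.Agent.T156.Cut8 (LB)

/-- the two boundary layers -/
def ph (κ a b t : ℝ) : ℝ := exp (-(κ * (t - a))) + exp (-(κ * (b - t)))

theorem ph_pos (κ a b t : ℝ) : 0 < ph κ a b t := add_pos (exp_pos _) (exp_pos _)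

theorem ph_le {κ a b t : ℝ} (hκ : 0 ≤ κ) (h1 : a ≤ t) (h2 : t ≤ b) : ph κ a b t ≤ 2 := by
  have e1 : exp (-(κ * (t - a))) ≤ 1 := exp_le_one_iff.2 (by nlinarith)
  have e2 : exp (-(κ * (b - t))) ≤ 1 := exp_le_one_iff.2 (by nlinarith)
  unfold ph; linarith

theorem ph_cont (κ a b : ℝ) : Continuous (ph κ a b) := by unfold ph; fun_prop

theorem ph_int {κ a b x : ℝ} (hκ : 0 < κ) (h1 : a ≤ x) : ∫ t in x..b, ph κ a b t ≤ 2 / κ := by
  have d : ∀ t, HasDerivAt (fun t => (exp (-(κ * (b - t))) - exp (-(κ * (t - a)))) / κ)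
      (ph κ a b t) t := fun t => by
    have e1 := ((((hasDerivAt_id' t).const_sub b).const_mul κ).fun_neg).exp
    have e2 := ((((hasDerivAt_id' t).sub_const a).const_mul κ).fun_neg).exp
    refine ((e1.fun_sub e2).div_const κ).congr_deriv ?_
    unfold ph; field_simp; ring
  rw [intervalIntegral.integral_eq_sub_of_hasDerivAt (fun t _ => d t)
    ((ph_cont κ a b).intervalIntegrable _ _), ← sub_div]
  refine div_le_div_of_nonneg_right ?_ hκ.le
  have e1 : exp (-(κ * (x - a))) ≤ 1 := exp_le_one_iff.2 (by nlinarith)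
  have := exp_pos (-(κ * (b - a)))
  have := exp_pos (-(κ * (b - x)))
  simp only [sub_self, mul_zero, neg_zero, exp_zero]
  linarith

variable {S : Finset ℝ} {a b : ℝ} {W ω ν u : ℝ → ℝ} {gp : ℝ → ℝ → Prop}
  {b₀ b₁ p₀ d D err C₁ δ : ℝ}

/-- decay from both ends -/
theorem dec (h : Tk S a b W ω ν u gp b₀ b₁ p₀ d D err C₁ δ) {a' Γ κ q₀ B E : ℝ}
    (ha : a ≤ a') (hs : Sh a b gp a' b Γ) (Γ0 : 0 ≤ Γ) (hΓ : b₁ * Γ ^ 2 ≤ 4 * d)
    (hκ0 : 0 ≤ κ) (hκ : κ ^ 2 * D ≤ 2 * b₀) (hq : p₀ ≤ κ ^ 2 * q₀) (hq₀ : 0 ≤ q₀) (hB : 0 ≤ B)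
    (hE : eP b₁ p₀ D err C₁ δ Γ + q₀ ≤ E) (e0 : 0 ≤ eP b₁ p₀ D err C₁ δ Γ) (k1 : κ * Γ ≤ 1)
    (h1 : |W a'| ≤ B) (h2 : |W b| ≤ B) :
    (∀ t ∈ Icc a' b, |W t| ≤ E + 2 * B) ∧
      ∀ t ∈ Icc (a' + Γ) b, |u t| ≤ C₁ * Γ + δ + (E + err) / d + 6 * B / d * ph κ a' b t := by
  have p1 : |W a'| ≤ eP b₁ p₀ D err C₁ δ Γ + q₀ + B := by linarith
  have p2 : |W b| ≤ eP b₁ p₀ D err C₁ δ Γ + q₀ + B := by linarith
  have key : ∀ t ∈ Icc a' b, |W t| ≤ E + 2 * B * exp (-(κ * min (t - a') (b - t))) := fun t ht => by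
    have := h.pass ha le_rfl hs hΓ hκ0 hκ hq hq₀ hB p1 p2 (ℓ := min (t - a') (b - t))
      (le_min (sub_nonneg.2 ht.1) (sub_nonneg.2 ht.2)) (t := t)
      ⟨by linarith [min_le_left (t - a') (b - t)], by linarith [min_le_right (t - a') (b - t)]⟩
    linarith
  refine ⟨fun t ht => (key t ht).trans ?_, fun t ht => ?_⟩
  · have : exp (-(κ * min (t - a') (b - t))) ≤ 1 := exp_le_one_iff.2 (by
      nlinarith [le_min (sub_nonneg.2 ht.1) (sub_nonneg.2 ht.2)])
    nlinarith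
  · have l := h.label (a' := t - Γ) (b' := t) (B := E + 6 * B * ph κ a' b t) (by linarith [ht.1])
      ht.2 Γ0 (fun s s' g x1 x2 x3 x4 x5 => hs s s' g x1 x2 x3 (x2.trans x3) (by linarith [ht.1]))
      (fun s hs' => (key s ⟨by linarith [ht.1, hs'.1], hs'.2.trans ht.2⟩).trans (by
        have e3 : exp 1 ≤ 3 := exp_one_lt_d9.le.trans (by norm_num)
        have q : exp (-(κ * min (s - a') (b - s))) ≤ 3 * ph κ a' b t := by
          have x1 := exp_pos (-(κ * (t - a')))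
          have x2 := exp_pos (-(κ * (b - t)))
          rcases le_total (s - a') (b - s) with c | c
          · rw [min_eq_left c]
            have : exp (-(κ * (s - a'))) ≤ exp 1 * exp (-(κ * (t - a'))) := by
              rw [← exp_add]; exact exp_le_exp.2 (by nlinarith [hs'.1])
            unfold ph; nlinarith
          · rw [min_eq_right c]
            have : exp (-(κ * (b - s))) ≤ exp (-(κ * (b - t))) :=
              exp_le_exp.2 (by nlinarith [hs'.2])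
            unfold ph; nlinarith
        nlinarith)) (t := t) ⟨by linarith, le_rfl⟩
    refine l.trans (le_of_eq ?_)
    ring

/-- Landau at the right end -/
theorem slopeR (h : Tk S a b W ω ν u gp b₀ b₁ p₀ d D err C₁ δ) {B U η : ℝ}
    (ha : a ≤ b - η) (hη : 0 < η) (hW : ∀ t ∈ Icc (b - η) b, |W t| ≤ B)
    (hu : ∀ t ∈ Icc (b - η) b, |u t| ≤ U) : |ω b| ≤ 2 * B / η + (2 * b₁ * U + p₀) * η / 2 := by
  have := ((h.pc.mono ha le_rfl (Finset.Subset.refl S)).landau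
    (A := 2 * b₁ * U + p₀) (by linarith) (hW _ ⟨le_rfl, by linarith⟩)
    (hW b ⟨by linarith, le_rfl⟩) fun r hr hS => by
      obtain ⟨β, β1, β2, β3⟩ := h.rel r ⟨ha.trans_lt hr.1, hr.2⟩ hS
      have hβ : 0 ≤ β := h.b0.trans β1
      have h2 : |2 * β * u r| ≤ 2 * b₁ * U := by
        rw [abs_mul, abs_of_nonneg (by positivity : 0 ≤ 2 * β)]
        exact mul_le_mul (by linarith) (hu r ⟨hr.1.le, hr.2.le⟩) (abs_nonneg _) (by linarith [h.b1])
      have h3 : |ν r| ≤ |ν r - 2 * β * u r| + |2 * β * u r| := by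
        simpa using abs_add_le (ν r - 2 * β * u r) (2 * β * u r)
      linarith).2
  rwa [sub_sub_cancel] at this

/-- the two integrals -/
theorem ints {T x κ a' U V : ℝ} (lu : LB T u) (hκ : 0 < κ) (x0 : 0 ≤ x) (h1 : a' ≤ x) (h2 : x ≤ b)
    (hT : b ≤ T) (V0 : 0 ≤ V) (hu : ∀ t ∈ Icc x b, |u t| ≤ U + V * ph κ a' b t) :
    |∫ t in x..b, u t| ≤ (b - x) * U + V * (2 / κ) ∧
      ∫ t in x..b, u t ^ 2 ≤ 2 * ((b - x) * U ^ 2) + 4 * V ^ 2 * (2 / κ) := by
  have mx : x ∈ Icc 0 T := ⟨x0, h2.trans hT⟩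
  have mb : b ∈ Icc 0 T := ⟨x0.trans h2, hT⟩
  have ip := (ph_cont κ a' b).intervalIntegrable (μ := volume) x b
  have I := ph_int (b := b) hκ h1
  have ev : ∀ p q : ℝ, ∫ t in x..b, (p + q * ph κ a' b t) = (b - x) * p + q * ∫ t in x..b, ph κ a' b t :=
    fun p q => by
      rw [intervalIntegral.integral_add intervalIntegrable_const (ip.const_mul q),
        intervalIntegral.integral_const_mul]
      simp
  constructor
  · refine (intervalIntegral.abs_integral_le_integral_abs h2).trans ?_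
    refine (intervalIntegral.integral_mono_on h2 (lu.abs.ii mx mb)
      (intervalIntegrable_const.add (ip.const_mul V)) hu).trans ?_
    rw [ev]; nlinarith [mul_le_mul_of_nonneg_left I V0]
  · refine (intervalIntegral.integral_mono_on h2 (lu.sq.ii mx mb)
      (intervalIntegrable_const.add (ip.const_mul (4 * V ^ 2))) (g := fun t => 2 * U ^ 2 + 4 * V ^ 2 * ph κ a' b t)
      fun t ht => ?_).trans ?_
    · have p := ph_pos κ a' b t
      have q := ph_le hκ.le (h1.trans ht.1) ht.2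
      have r : u t ^ 2 ≤ (U + V * ph κ a' b t) ^ 2 := by
        rw [← sq_abs]; exact pow_le_pow_left₀ (abs_nonneg _) (hu t ht) 2
      have s : ph κ a' b t ^ 2 ≤ 2 * ph κ a' b t := by nlinarith
      nlinarith [sq_nonneg (U - V * ph κ a' b t), mul_le_mul_of_nonneg_left s (sq_nonneg V)]
    · rw [ev]; nlinarith [mul_le_mul_of_nonneg_left I (show 0 ≤ 4 * V ^ 2 by positivity)]

end Crest.Agent.T156.Rig.Q34

namespace Crest.Agent.T156.Alt.Mp9.Q34

open MeasureTheory Set Real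
open Crest.Agent.R164.GC Crest.Agent.R339.B Crest.Agent.R339.Var Crest.Agent.T157.Pf
open Crest.Agent.T156.Pp.Area50 Crest.Agent.T156.Spl27 Crest.Agent.T156.Zb9

variable {S : Sc} {M : Md} {m : ℕ} {a T : ℝ}

theorem J_eq (A : At S M m a T) {t : ℝ} (h0 : M.s S.j0 ≤ t) (hT : t ≤ T) :
    Sc48.Jf (lh M T) (lb M S m a T) T t = ∑ j ∈ Finset.range (S.Jp + 1),
      (xb M a (j + 1) - xb M a j) *
        (Pp.Area50.cl t T (sh M S (j + 1)) - Pp.Area50.cl t T (sb M m a (j + 1))) := by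
  have h := area (xb M a) (sh M S) (sb M m a) (S.Jp + 1) hT (g := fun _ => 1)
    intervalIntegrable_const
  simp only [mul_one, intervalIntegral.integral_const, smul_eq_mul] at h
  rw [← h]
  refine intervalIntegral.integral_congr fun r hr => ?_
  rw [uIcc_of_le hT] at hr
  exact A.uu_eq (h0.trans hr.1)

theorem wsum {U : Finset ℕ} {w f : ℕ → ℝ} {B : ℝ} (hw : ∀ k ∈ U, 0 ≤ w k)
    (hf : ∀ k ∈ U, |f k| ≤ B) : |∑ k ∈ U, w k * f k| ≤ (∑ k ∈ U, w k) * B := by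
  rw [Finset.sum_mul]
  refine (Finset.abs_sum_le_sum_abs _ _).trans (Finset.sum_le_sum fun k hk => ?_)
  rw [abs_mul, abs_of_nonneg (hw k hk)]
  exact mul_le_mul_of_nonneg_left (hf k hk) (hw k hk)

/-- the reference cell of a time below the corner -/
theorem cell_h (A : At S M m a T) {t : ℝ} (h0 : M.s S.j0 ≤ t) (h1 : t < M.s S.J) :
    ∃ k, S.j0 ≤ k ∧ k < S.J ∧ M.s k ≤ t ∧ t < M.s (k + 1) ∧ lvr 1 (lh M T) t = M.z k := by
  obtain ⟨k, k1, k2, k3, k4⟩ := A.exists_ref h0 h1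
  exact ⟨k, k1, k2, k3, k4, by rw [A.lvh' ((s_nn A.cl _).trans h0), A.cl.lv k k1 t k3 k4]⟩

theorem mass_top (A : At S M m a T) {kA : ℕ} (k3 : S.J ≤ kA) (k4 : kA ≤ S.Jp) :
    ∑ j ∈ Finset.Icc kA S.Jp, (M.z j - M.z (j - 1)) = 1 - M.z (kA - 1) ∧ 1 - M.z (kA - 1) ≤ 1 := by
  have i2 := A.cl.i2
  have : Finset.Icc kA S.Jp = Finset.Ioc (kA - 1) S.Jp := by
    ext j; simp only [Finset.mem_Icc, Finset.mem_Ioc]; omega
  rw [this, At.sum_dz M (by omega), A.cl.top _ le_rfl]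
  have := A.cl.leg.zm (show S.J - 1 ≤ kA - 1 by omega)
  have := A.cl.atom.1
  have : 0 < 1 / S.C := by have := A.c_pos; positivity
  exact ⟨rfl, by linarith⟩

/-- **the shift of the plateau**, anchored at the time of the node `V` -/
theorem shift (A : At S M m a T) {V kA : ℕ} {Mt γ R a' Gm : ℝ} (hV : S.jl < V) (VJ : V < S.J)
    (k3 : S.J ≤ kA) (k4 : kA ≤ S.Jp) (y0 : M.s S.j0 ≤ sb M m a (V + 1))
    (yJ : sb M m a (V + 1) < M.s S.J) (γ1 : M.s S.Jp - M.s S.J ≤ γ) (M1 : sb M m a kA ≤ Mt)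
    (M2 : Mt ≤ T) (hG : Mt - sb M m a (V + 1) ≤ Gm) (R0 : 0 ≤ R)
    (sp : ∑ k ∈ Finset.Icc kA S.Jp, (M.z k - M.z (k - 1)) * (sb M m a (k + 1) - Mt) ^ 2 ≤ R ^ 2)
    (a1 : M.z (kA - 1) - M.z V ≤ a') :
    (1 - M.z (kA - 1)) * |Mt - M.s S.J| ≤
      |Sc48.Jf (lh M T) (lb M S m a T) T (sb M m a (V + 1))| +
        |uu M S m a T (sb M m a (V + 1))| * (M.s S.J - sb M m a (V + 1)) +
        a' * (M.s S.J - sb M m a (V + 1) + γ + Gm) + γ + R := by
  have i0 := A.cl.i0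
  have i1 := A.cl.i1
  have sJ : M.s S.J ≤ M.s S.Jp := A.cl.sm A.cl.i3
  have hu : uu M S m a T (sb M m a (V + 1)) = M.z V - lvr 1 (lh M T) (sb M m a (V + 1)) := by
    unfold uu; rw [A.lvb_node hV.le (by omega)]
  obtain ⟨k1, c1, c2, c3, -, c5⟩ := cell_h A y0 yJ
  have yM : sb M m a (V + 1) ≤ Mt := (A.sb_mono (show V + 1 ≤ kA by omega)).trans M1
  have sl : ∀ j, j ≤ V → sb M m a (j + 1) ≤ sb M m a (V + 1) := fun j h => A.sb_mono (by omega)
  have sg : ∀ j, V ≤ j → sb M m a (V + 1) ≤ sb M m a (j + 1) := fun j h => A.sb_mono (by omega)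
  rw [hu, c5]
  generalize sb M m a (V + 1) = y at *
  have tT : y ≤ T := yM.trans M2
  have γ0 : 0 ≤ γ := by linarith
  have dn : ∀ k, 0 ≤ M.z k - M.z (k - 1) := A.dz_nn
  rw [J_eq A y0 tT]
  set σ := M.s S.J with hσ
  set f : ℕ → ℝ := fun j => Pp.Area50.cl y T (sh M S (j + 1)) - Pp.Area50.cl y T (sb M m a (j + 1))
    with hf
  have w : ∀ j, 0 < j → xb M a (j + 1) - xb M a j = M.z j - M.z (j - 1) := fun j hj => by
    obtain ⟨j, rfl⟩ : ∃ i, j = i + 1 := ⟨j - 1, by omega⟩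
    simp only [xb, Nat.add_sub_cancel]
  have cut : ∀ p q : ℕ, 0 < p → p ≤ q → ∑ j ∈ Finset.range (q + 1), (xb M a (j + 1) - xb M a j) * f j =
      ∑ j ∈ Finset.range (p + 1), (xb M a (j + 1) - xb M a j) * f j +
        ∑ j ∈ Finset.Ioc p q, (M.z j - M.z (j - 1)) * f j := fun p q hp h => by
    rw [Finset.range_eq_Ico, ← Finset.sum_Ico_consecutive _ (Nat.zero_le (p + 1))
      (show p + 1 ≤ q + 1 by omega), ← Finset.range_eq_Ico]
    congr 1
    have : Finset.Ico (p + 1) (q + 1) = Finset.Ioc p q := by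
      ext j; simp only [Finset.mem_Ico, Finset.mem_Ioc]; omega
    rw [this]
    exact Finset.sum_congr rfl fun j hj => by rw [w j (by have := Finset.mem_Ioc.1 hj; omega)]
  have eI : Finset.Ioc (kA - 1) S.Jp = Finset.Icc kA S.Jp := by
    ext j; simp only [Finset.mem_Icc, Finset.mem_Ioc]; omega
  rw [cut (min V k1) S.Jp (by omega) (by omega), Finset.sum_eq_zero (fun j hj => by
      have hj := Finset.mem_range.1 hj
      have e1 : Pp.Area50.cl y T (sh M S (j + 1)) = y :=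
        cl_of_le ((A.cl.sm (show max j S.j0 ≤ k1 by omega)).trans c3)
      have e2 : Pp.Area50.cl y T (sb M m a (j + 1)) = y := cl_of_le (sl j (by omega))
      simp only [hf, e1, e2, sub_self, mul_zero]), zero_add,
    ← Finset.sum_Ioc_consecutive _ (show min V k1 ≤ V by omega) (show V ≤ S.Jp by omega),
    ← Finset.sum_Ioc_consecutive _ (show V ≤ kA - 1 by omega) (show kA - 1 ≤ S.Jp by omega), eI]
  have up : ∀ j, S.j0 ≤ j → j ≤ S.Jp → Pp.Area50.cl y T (sh M S (j + 1)) ≤ max y (M.s j) :=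
    fun j h _ => by
      rw [A.sh_succ h]; exact max_le_max le_rfl (min_le_left _ _)
  have p1 : |∑ j ∈ Finset.Ioc (min V k1) V, (M.z j - M.z (j - 1)) * f j| ≤
      |M.z V - M.z k1| * (σ - y) := by
    refine (wsum (B := σ - y) (fun j _ => dn j) fun j hj => ?_).trans ?_
    · obtain ⟨j1, j2⟩ := Finset.mem_Ioc.1 hj
      have e1 := (cl_mem tT (sh M S (j + 1))).1
      have e2 : Pp.Area50.cl y T (sb M m a (j + 1)) = y := cl_of_le (sl j j2)
      have e3 := (up j (by omega) (by omega)).trans (max_le yJ.le (A.cl.sm (show j ≤ S.J by omega)))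
      simp only [hf, e2]
      exact abs_le.2 ⟨by linarith, by linarith⟩
    · rw [At.sum_dz M (min_le_left _ _)]
      refine mul_le_mul_of_nonneg_right ?_ (by linarith)
      rcases le_total V k1 with h | h
      · rw [min_eq_left h, sub_self]; exact abs_nonneg _
      · rw [min_eq_right h]; exact le_abs_self _
  have p2 : |∑ j ∈ Finset.Ioc V (kA - 1), (M.z j - M.z (j - 1)) * f j| ≤ a' * (σ - y + γ + Gm) := by
    refine (wsum (B := σ - y + γ + Gm) (fun j _ => dn j) fun j hj => ?_).trans ?_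
    · obtain ⟨j1, j2⟩ := Finset.mem_Ioc.1 hj
      have e1 := (cl_mem tT (sh M S (j + 1))).1
      have e2 := (cl_mem tT (sb M m a (j + 1))).1
      have e3 := (up j (by omega) (by omega)).trans (max_le (show y ≤ σ + γ by linarith)
        (by linarith [A.cl.sm (show j ≤ S.Jp by omega)]))
      have e4 : Pp.Area50.cl y T (sb M m a (j + 1)) ≤ Mt :=
        max_le yM ((min_le_left _ _).trans ((A.sb_mono (show j + 1 ≤ kA by omega)).trans M1))
      simp only [hf]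
      exact abs_le.2 ⟨by linarith, by linarith⟩
    · rw [At.sum_dz M (by omega)]
      exact mul_le_mul_of_nonneg_right a1 (by linarith)
  obtain ⟨W, W1⟩ := mass_top A k3 k4
  have q1 := (Zb9.sum_le_sqrt (f := fun k => sb M m a (k + 1) - Mt) (fun k _ => dn k)
    (W.trans_le W1)).trans (sqrt_le_iff.2 ⟨R0, sp⟩)
  have p3 : |∑ j ∈ Finset.Icc kA S.Jp, (M.z j - M.z (j - 1)) * f j +
      (1 - M.z (kA - 1)) * (Mt - σ)| ≤ γ + R := by
    rw [← W, Finset.sum_mul, ← Finset.sum_add_distrib]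
    refine (Finset.abs_sum_le_sum_abs _ _).trans ((Finset.sum_le_sum (g := fun j =>
      (M.z j - M.z (j - 1)) * γ + (M.z j - M.z (j - 1)) * |sb M m a (j + 1) - Mt|)
      fun j hj => ?_).trans ?_)
    · obtain ⟨j1, j2⟩ := Finset.mem_Icc.1 hj
      rw [← mul_add, ← mul_add, abs_mul, abs_of_nonneg (dn j)]
      refine mul_le_mul_of_nonneg_left ?_ (dn j)
      have e0 := A.cl.sm (show S.J ≤ j by omega)
      have e0' := A.cl.sm j2
      have e1 : Pp.Area50.cl y T (sh M S (j + 1)) = M.s j := by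
        rw [A.sh_succ (by omega)]
        exact cl_of_mem (by linarith) (by linarith [A.t2])
      have e2 : Pp.Area50.cl y T (sb M m a (j + 1)) = sb M m a (j + 1) :=
        cl_of_mem (sg j (by omega)) (A.sb_mem j2).2
      have e3 := le_abs_self (sb M m a (j + 1) - Mt)
      have e4 := neg_abs_le (sb M m a (j + 1) - Mt)
      simp only [hf, e1, e2]
      exact abs_le.2 ⟨by linarith, by linarith⟩
    · rw [Finset.sum_add_distrib, ← Finset.sum_mul, W]
      linarith [mul_le_of_le_one_left γ0 W1]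
  have W0 : 0 ≤ 1 - M.z (kA - 1) := W ▸ Finset.sum_nonneg fun j _ => dn j
  rw [← abs_of_nonneg W0, ← abs_mul]
  obtain ⟨x3, x4⟩ := abs_le.1 p1
  obtain ⟨x5, x6⟩ := abs_le.1 p2
  obtain ⟨x7, x8⟩ := abs_le.1 p3
  generalize ∑ j ∈ Finset.Ioc (min V k1) V, (M.z j - M.z (j - 1)) * f j = X1 at *
  generalize ∑ j ∈ Finset.Ioc V (kA - 1), (M.z j - M.z (j - 1)) * f j = X2 at *
  generalize ∑ j ∈ Finset.Icc kA S.Jp, (M.z j - M.z (j - 1)) * f j = X3 at *
  exact abs_le.2 ⟨by linarith [le_abs_self (X1 + (X2 + X3))],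
    by linarith [neg_abs_le (X1 + (X2 + X3))]⟩

/-- **window and plateau** from `∫ u²` below the node `V` -/
theorem top_sum (A : At S M m a T) {V kA : ℕ} {Mt γ R a' Gm x U I X : ℝ} (hV : S.jl < V)
    (VJ : V < S.J) (k3 : S.J ≤ kA) (k4 : kA ≤ S.Jp) (x0 : M.s S.j0 ≤ x) (xy : x ≤ sb M m a (V + 1))
    (yJ : sb M m a (V + 1) < M.s S.J) (γ1 : M.s S.Jp - M.s S.J ≤ γ) (M1 : sb M m a kA ≤ Mt)
    (hG : Mt - sb M m a (V + 1) ≤ Gm)
    (sp : ∑ k ∈ Finset.Icc kA S.Jp, (M.z k - M.z (k - 1)) * (sb M m a (k + 1) - Mt) ^ 2 ≤ R ^ 2)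
    (a1 : M.z (kA - 1) - M.z V ≤ a') (hX : |Mt - M.s S.J| ≤ X)
    (hU : ∀ t ∈ Icc x (sb M m a (V + 1)), |uu M S m a T t| ≤ U)
    (hI : ∫ t in x..sb M m a (V + 1), uu M S m a T t ^ 2 ≤ I) {Q : Finset ℕ}
    (hQ : ∀ k ∈ Q, S.jl < k ∧ k ≤ S.Jp ∧ x ≤ M.s k ∧ x ≤ sb M m a (k + 1)) :
    ∑ k ∈ Q, (M.z k - M.z (k - 1)) * (sb M m a (k + 1) - M.s k) ^ 2 ≤
      4 * S.C * (I + (S.C * S.v) ^ 2 * (sb M m a (V + 1) - x)) +
        (U + a') * (2 * Gm + X + γ + S.C * (U + S.C * S.v)) ^ 2 + 3 * (R ^ 2 + X ^ 2 + γ ^ 2) := by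
  have i1 := A.cl.i1
  have C0 := A.c_pos
  have v0 := v_pos A.cl
  have sJ : M.s S.J ≤ M.s S.Jp := A.cl.sm A.cl.i3
  have hu : uu M S m a T (sb M m a (V + 1)) = M.z V - lvr 1 (lh M T) (sb M m a (V + 1)) := by
    unfold uu; rw [A.lvb_node hV.le (by omega)]
  obtain ⟨k1, c1, c2, c3, c4, c5⟩ := cell_h A (x0.trans xy) yJ
  have yM : sb M m a (V + 1) ≤ Mt := (A.sb_mono (show V + 1 ≤ kA by omega)).trans M1
  have sl : ∀ j, j ≤ V → sb M m a (j + 1) ≤ sb M m a (V + 1) := fun j h => A.sb_mono (by omega)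
  have sg : ∀ j, V ≤ j → sb M m a (V + 1) ≤ sb M m a (j + 1) := fun j h => A.sb_mono (by omega)
  obtain ⟨u1, u2⟩ := abs_le.1 (hU _ ⟨xy, le_rfl⟩)
  rw [hu, c5] at u1 u2
  have E1 := A.en_pow x0 xy yJ (U := Q.filter fun k => k ≤ min V k1) (fun k hk => by
    obtain ⟨h, h'⟩ := Finset.mem_filter.1 hk
    obtain ⟨q1, q2, q3, q4⟩ := hQ k h
    exact ⟨by omega, ⟨q3, (A.cl.sm (show k ≤ k1 by omega)).trans c3⟩, q4, sl k (by omega)⟩) 1
  simp only [show (1 + 1 : ℕ) = 2 from rfl, sq_abs, Nat.cast_one, pow_one] at E1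
  have lip : ∀ t, 0 ≤ t → t ≤ sb M m a (V + 1) → M.z k1 - lvr 1 (lh M T) t ≤ U →
      sb M m a (V + 1) - t ≤ S.C * (U + S.C * S.v) := fun t t0 t1 h => by
    have := (A.cl.lip t _ t0 t1 yJ).1
    rw [← A.lvh' t0, ← A.lvh' (t0.trans t1), c5] at this
    rw [← div_le_iff₀' C0]; linarith
  generalize sb M m a (V + 1) = y at *
  obtain ⟨d1, d2⟩ := abs_le.1 hX
  have U0 : 0 ≤ U := by linarith
  have p0 : 0 ≤ S.C * (U + S.C * S.v) := by positivity
  have dn : ∀ k, 0 ≤ M.z k - M.z (k - 1) := A.dz_nn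
  set Ξ := 2 * Gm + X + γ + S.C * (U + S.C * S.v) with hΞ
  have E2 : ∑ k ∈ Q.filter (fun k => min V k1 < k ∧ k < kA),
      (M.z k - M.z (k - 1)) * (sb M m a (k + 1) - M.s k) ^ 2 ≤ (U + a') * Ξ ^ 2 := by
    refine (Finset.sum_le_sum (g := fun k => (M.z k - M.z (k - 1)) * Ξ ^ 2) fun k hk => ?_).trans ?_
    · obtain ⟨h, h1, h2⟩ := Finset.mem_filter.1 hk
      obtain ⟨q1, q2, q3, q4⟩ := hQ k h
      refine mul_le_mul_of_nonneg_left (sq_le_sq' ?_ ?_) (dn k)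
      · have e1 : M.s k ≤ M.s S.Jp := A.cl.sm q2
        rcases le_total V k with c | c
        · linarith [sg k c]
        · have := lip _ (A.sb_mem q2).1 (sl k c) (by
            have e2 := (abs_le.1 (hU _ ⟨q4, sl k c⟩)).2
            unfold uu at e2
            rw [A.lvb_node q1.le q2] at e2
            linarith [A.cl.leg.zm (show k1 ≤ k by omega)])
          linarith
      · have e1 : sb M m a (k + 1) ≤ Mt := (A.sb_mono (show k + 1 ≤ kA by omega)).trans M1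
        rcases lt_or_ge k1 k with c | c
        · linarith [A.cl.sm (show k1 + 1 ≤ k from c)]
        · have := lip _ (s_nn A.cl k) ((A.cl.sm c).trans c3) (by
            rw [A.lvh_node (by omega) (by omega)]
            linarith [A.cl.leg.zm (show V ≤ k by omega)])
          linarith
    · rw [← Finset.sum_mul]
      refine mul_le_mul_of_nonneg_right ?_ (sq_nonneg _)
      refine (Finset.sum_le_sum_of_subset_of_nonneg (t := Finset.Ioc (min V k1) (kA - 1))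
        (fun k hk => ?_) fun k _ _ => dn k).trans ?_
      · obtain ⟨-, h1, h2⟩ := Finset.mem_filter.1 hk
        exact Finset.mem_Ioc.2 ⟨h1, by omega⟩
      · rw [At.sum_dz M (by omega)]
        rcases le_total V k1 with h | h
        · rw [min_eq_left h]; linarith
        · rw [min_eq_right h]; linarith
  have E3 : ∑ k ∈ Q.filter (fun k => kA ≤ k),
      (M.z k - M.z (k - 1)) * (sb M m a (k + 1) - M.s k) ^ 2 ≤ 3 * (R ^ 2 + X ^ 2 + γ ^ 2) := by
    refine (Finset.sum_le_sum_of_subset_of_nonneg (t := Finset.Icc kA S.Jp) (fun k hk => ?_)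
      fun k _ _ => mul_nonneg (dn k) (sq_nonneg _)).trans ?_
    · obtain ⟨h, h1⟩ := Finset.mem_filter.1 hk
      exact Finset.mem_Icc.2 ⟨h1, (hQ k h).2.1⟩
    obtain ⟨W, W1⟩ := mass_top A k3 k4
    refine (Finset.sum_le_sum (g := fun k => 3 * ((M.z k - M.z (k - 1)) * (sb M m a (k + 1) - Mt) ^ 2) +
      (M.z k - M.z (k - 1)) * (3 * (X ^ 2 + γ ^ 2))) fun k hk => ?_).trans ?_
    · obtain ⟨j1, j2⟩ := Finset.mem_Icc.1 hk
      have e0 := A.cl.sm (show S.J ≤ k by omega)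
      have e1 := A.cl.sm j2
      have e2 : (Mt - M.s S.J) ^ 2 ≤ X ^ 2 := sq_le_sq' d1 d2
      have e3 : (M.s k - M.s S.J) ^ 2 ≤ γ ^ 2 := sq_le_sq' (by linarith) (by linarith)
      have e4 : (sb M m a (k + 1) - M.s k) ^ 2 ≤ 3 * (sb M m a (k + 1) - Mt) ^ 2 + 3 * (X ^ 2 + γ ^ 2) := by
        nlinarith [sq_nonneg (sb M m a (k + 1) - Mt - (Mt - M.s S.J)),
          sq_nonneg (sb M m a (k + 1) - Mt + (M.s k - M.s S.J)),
          sq_nonneg (Mt - M.s S.J + (M.s k - M.s S.J))]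
      linarith [mul_le_mul_of_nonneg_left e4 (dn k)]
    · rw [Finset.sum_add_distrib, ← Finset.mul_sum, ← Finset.sum_mul, W]
      linarith [mul_le_of_le_one_left (show 0 ≤ 3 * (X ^ 2 + γ ^ 2) by positivity) W1]
  have E4 : ∑ k ∈ Q, (M.z k - M.z (k - 1)) * (sb M m a (k + 1) - M.s k) ^ 2 =
      ∑ k ∈ Q.filter (fun k => k ≤ min V k1), (M.z k - M.z (k - 1)) * (sb M m a (k + 1) - M.s k) ^ 2 +
      ∑ k ∈ Q.filter (fun k => min V k1 < k ∧ k < kA),
        (M.z k - M.z (k - 1)) * (sb M m a (k + 1) - M.s k) ^ 2 +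
      ∑ k ∈ Q.filter (fun k => kA ≤ k), (M.z k - M.z (k - 1)) * (sb M m a (k + 1) - M.s k) ^ 2 := by
    simp only [Finset.sum_filter, ← Finset.sum_add_distrib]
    refine Finset.sum_congr rfl fun k _ => ?_
    split_ifs <;> first | (exfalso; omega) | ring
  have := mul_le_mul_of_nonneg_left hI (show 0 ≤ 4 * S.C by positivity)
  rw [E4]
  linarith

theorem pw {L : ℝ} (h : 100 ≤ L) {i j : ℕ} (hij : i < j) {x : ℝ} (hx : 0 ≤ x) :
    100 * (L ^ i * x) ≤ L ^ j * x := by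
  have a : L ^ (i + 1) ≤ L ^ j := pow_le_pow_right₀ (by linarith) hij
  have b : 100 * L ^ i ≤ L ^ (i + 1) := by
    rw [pow_succ, mul_comm]; exact mul_le_mul_of_nonneg_left h (by positivity)
  rw [← mul_assoc]; exact mul_le_mul_of_nonneg_right (b.trans a) hx

theorem num1 {L r w g er mm Dm γ F Gm a' R P : ℝ} (hL : 100 ≤ L) (r0 : 0 < r) (w0 : 0 ≤ w)
    (g0 : 0 ≤ g) (e0 : 0 ≤ er) (m0 : 0 ≤ mm) (D0 : 0 ≤ Dm) (γ0 : 0 ≤ γ) (F0 : 0 ≤ F) (G0 : 0 ≤ Gm)
    (a0 : 0 ≤ a') (P0 : 0 ≤ P) (hG : L ^ 10 * Gm ≤ r)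
    (h : w * r ^ 2 ≤ g + L * er + L * mm + (L ^ 3 * r ^ 2 + 2 * L * (Dm + γ)) * (Dm + γ) +
      r * (8 * L ^ 4 * F + 13 * L ^ 2 * (F + w)) * Gm +
      L * ((6 * L ^ 3 * F + 12 * L * (F + w) + L * (Gm + F) + L * P) * Gm ^ 2 +
        (a' * Gm ^ 2 + R ^ 2) + (Dm + γ + γ) ^ 2)) :
    w * r ^ 2 ≤ L ^ 5 * (g + er + mm + r ^ 2 * γ + γ ^ 2 + F * r * Gm + a' * Gm ^ 2 + R ^ 2 +
      Gm ^ 3 + Gm ^ 2 * P + r ^ 2 * Dm + Dm ^ 2) := by
  have L0 : 0 ≤ L := by linarith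
  have t0 := pw hL (show 2 < 10 by norm_num) G0
  have t0' := pw hL (show 0 < 10 by norm_num) G0
  have Gr : Gm ≤ r := by linarith
  have t1 : 100 * (L ^ 2 * Gm) * (r * w) ≤ r * (r * w) :=
    mul_le_mul_of_nonneg_right (t0.trans hG) (by positivity)
  have t2 := mul_le_mul_of_nonneg_left Gr (show 0 ≤ L ^ 2 * Gm * w by positivity)
  have t3 := mul_le_mul_of_nonneg_left Gr (show 0 ≤ L ^ 4 * Gm * F by positivity)
  have t3' := mul_le_mul_of_nonneg_left Gr (show 0 ≤ L ^ 2 * Gm * F by positivity)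
  have t3'' := mul_le_mul_of_nonneg_left Gr (show 0 ≤ L * Gm * F by positivity)
  have t4 := mul_le_mul_of_nonneg_left (pow_le_pow_left₀ G0 Gr 2) (show 0 ≤ L * γ by positivity)
  have t5 := mul_nonneg L0 (sq_nonneg (Dm - γ))
  have t5' := mul_nonneg L0 (sq_nonneg (Dm - 2 * γ))
  have s1 := pw hL (show 0 < 5 by norm_num) g0
  have s2 := pw hL (show 1 < 5 by norm_num) e0
  have s3 := pw hL (show 1 < 5 by norm_num) m0
  have s4 := pw hL (show 3 < 5 by norm_num) (show 0 ≤ r ^ 2 * γ by positivity)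
  have s4' := pw hL (show 1 < 5 by norm_num) (show 0 ≤ r ^ 2 * γ by positivity)
  have s5 := pw hL (show 1 < 5 by norm_num) (sq_nonneg γ)
  have s6 := pw hL (show 4 < 5 by norm_num) (show 0 ≤ F * r * Gm by positivity)
  have s6' := pw hL (show 2 < 4 by norm_num) (show 0 ≤ F * r * Gm by positivity)
  have s6'' := pw hL (show 1 < 4 by norm_num) (show 0 ≤ F * r * Gm by positivity)
  have s7 := pw hL (show 1 < 5 by norm_num) (show 0 ≤ a' * Gm ^ 2 by positivity)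
  have s8 := pw hL (show 1 < 5 by norm_num) (sq_nonneg R)
  have s9 := pw hL (show 2 < 5 by norm_num) (show 0 ≤ Gm ^ 3 by positivity)
  have s10 := pw hL (show 2 < 5 by norm_num) (show 0 ≤ Gm ^ 2 * P by positivity)
  have s11 := pw hL (show 3 < 5 by norm_num) (show 0 ≤ r ^ 2 * Dm by positivity)
  have s12 := pw hL (show 1 < 5 by norm_num) (sq_nonneg Dm)
  have n1 : 0 ≤ L * er := by positivity
  have n2 : 0 ≤ L * mm := by positivity
  have n3 : 0 ≤ L ^ 3 * (r ^ 2 * γ) := by positivity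
  have n4 : 0 ≤ L * γ ^ 2 := by positivity
  have n5 : 0 ≤ L ^ 4 * (F * r * Gm) := by positivity
  have n6 : 0 ≤ L * (a' * Gm ^ 2) := by positivity
  have n7 : 0 ≤ L * R ^ 2 := by positivity
  have n8 : 0 ≤ L ^ 2 * Gm ^ 3 := by positivity
  have n9 : 0 ≤ L ^ 2 * (Gm ^ 2 * P) := by positivity
  have n10 : 0 ≤ L ^ 3 * (r ^ 2 * Dm) := by positivity
  have n11 : 0 ≤ L * Dm ^ 2 := by positivity
  have n12 : 0 ≤ w * r ^ 2 := by positivity
  linarith

theorem num2 {L r w p len Dm γ F Gm a' R A : ℝ} (hL : 100 ≤ L) (r0 : 0 < r) (w0 : 0 ≤ w)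
    (p0 : 0 ≤ p) (D0 : 0 ≤ Dm) (γ0 : 0 ≤ γ) (F0 : 0 ≤ F) (G0 : 0 ≤ Gm) (a0 : 0 ≤ a') (R0 : 0 ≤ R)
    (A0 : 0 ≤ A) (hl : r ≤ len) (h1 : L ^ 10 * (Gm + Dm) ≤ r) (h2 : L ^ 10 * (r + F + a') ≤ 1)
    (hw : w * r ^ 2 ≤ L ^ 5 * (A + r ^ 2 * Dm + Dm ^ 2))
    (h : Dm ≤ L * (p + (len * (6 * L ^ 3 * F) + 6 * L * (F + w) * (2 * (L * r))) +
      (6 * L ^ 3 * F + 12 * L * (F + w)) * (Gm + Dm) + a' * (Gm + Dm + γ + Gm) + γ + R)) :
    Dm ≤ L ^ 9 * (p + len * F + a' * Gm + R + γ + Gm * F + A / r) := by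
  have L0 : 0 ≤ L := by linarith
  have l0 : 0 ≤ len := by linarith
  have t0 := pw hL (show 0 < 10 by norm_num) (add_nonneg G0 D0)
  have t0' := pw hL (show 0 < 10 by norm_num) (show 0 ≤ r + F + a' by positivity)
  have Gr : Gm + Dm ≤ r := by linarith
  have a1 : a' ≤ 1 := by linarith
  have hw' : w * r ≤ L ^ 5 * (A / r + r * Dm + Dm * (Dm / r)) := by
    refine le_of_mul_le_mul_right ?_ r0
    refine le_trans (le_of_eq (by ring)) (hw.trans (le_of_eq ?_))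
    field_simp
  have q0 : 0 ≤ Dm / r := by positivity
  have q1 : L ^ 10 * (Dm / r) ≤ 1 := by
    rw [← mul_div_assoc, div_le_one r0]; nlinarith [mul_nonneg (pow_nonneg L0 10) G0]
  have B0 : 0 ≤ A / r := by positivity
  generalize A / r = B at *
  generalize Dm / r = q at *
  have t1 := mul_le_mul_of_nonneg_left hw' (show 0 ≤ L ^ 3 by positivity)
  have t2 := mul_le_mul_of_nonneg_left Gr (show 0 ≤ L ^ 2 * w by positivity)
  have t3 := pw hL (show 2 < 3 by norm_num) (show 0 ≤ w * r by positivity)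
  have t4 := mul_le_mul_of_nonneg_right h2 D0
  have t5 := mul_le_mul_of_nonneg_right q1 D0
  have t6 := pw hL (show 8 < 9 by norm_num) (show 0 ≤ r * Dm by positivity)
  have t6' := pw hL (show 9 < 10 by norm_num) (show 0 ≤ r * Dm by positivity)
  have t7 := pw hL (show 8 < 9 by norm_num) (show 0 ≤ q * Dm by positivity)
  have t7' := pw hL (show 9 < 10 by norm_num) (show 0 ≤ q * Dm by positivity)
  have t8 := pw hL (show 4 < 10 by norm_num) (show 0 ≤ F * Dm by positivity)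
  have t8' := pw hL (show 2 < 4 by norm_num) (show 0 ≤ F * Dm by positivity)
  have t9 := pw hL (show 1 < 10 by norm_num) (show 0 ≤ a' * Dm by positivity)
  have t10 := mul_le_mul_of_nonneg_left hl (show 0 ≤ L ^ 3 * F by positivity)
  have t11 := mul_le_mul_of_nonneg_left a1 (show 0 ≤ L * γ by positivity)
  have s1 := pw hL (show 1 < 9 by norm_num) p0
  have s2 := pw hL (show 4 < 9 by norm_num) (show 0 ≤ len * F by positivity)
  have s2' := pw hL (show 3 < 9 by norm_num) (show 0 ≤ len * F by positivity)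
  have s3 := pw hL (show 1 < 9 by norm_num) (show 0 ≤ a' * Gm by positivity)
  have s4 := pw hL (show 1 < 9 by norm_num) R0
  have s5 := pw hL (show 1 < 9 by norm_num) γ0
  have s6 := pw hL (show 4 < 9 by norm_num) (show 0 ≤ Gm * F by positivity)
  have s6' := pw hL (show 2 < 9 by norm_num) (show 0 ≤ Gm * F by positivity)
  have s7 := pw hL (show 8 < 9 by norm_num) B0
  have n1 : 0 ≤ L ^ 9 * p := by positivity
  have n2 : 0 ≤ L ^ 9 * (len * F) := by positivity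
  have n3 : 0 ≤ L ^ 9 * (a' * Gm) := by positivity
  have n4 : 0 ≤ L ^ 9 * R := by positivity
  have n5 : 0 ≤ L ^ 9 * γ := by positivity
  have n6 : 0 ≤ L ^ 9 * (Gm * F) := by positivity
  have n7 : 0 ≤ L ^ 9 * B := by positivity
  have n8 : 0 ≤ L ^ 10 * (r * Dm) := by positivity
  have n9 : 0 ≤ L ^ 10 * (F * Dm) := by positivity
  have n10 : 0 ≤ L ^ 10 * (a' * Dm) := by positivity
  have n11 : 0 ≤ L ^ 3 * (w * r) := by positivity
  linarith

end Crest.Agent.T156.Alt.Mp9.Q34
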