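import Crest.Agent.T156.TLqV_34
import Crest.Agent.T156.TLqT_45

/-!
# Row 156, block (L), TLq steps (iii), (iv) (helper34): closing at the last good node
-/

set_option autoImplicit false

noncomputable section

namespace Crest.Agent.T156.Alt.Mp9.Q34

open MeasureTheory Set Real
open Crest.Agent.R164.GC Crest.Agent.R339.B Crest.Agent.R339.Var Crest.Agent.T157.Pf
open Crest.Agent.T156.Pp.Area50 Crest.Agent.T156.Spl27 Crest.Agent.T156.Zb9

variable {S : Sc} {M : Md} {m : ℕ} {a T : ℝ}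

theorem num3 {L r w len X Y γ F Gm a' R C v U I : ℝ} (hL : 100 ≤ L) (r0 : 0 < r) (w0 : 0 ≤ w)
    (X0 : 0 ≤ X) (Y0 : 0 ≤ Y) (γ0 : 0 ≤ γ) (F0 : 0 ≤ F) (G0 : 0 ≤ Gm) (a0 : 0 ≤ a') (C0 : 0 ≤ C)
    (v0 : 0 ≤ v) (hC : C ≤ L) (hv : v ≤ F) (hl : r ≤ len) (r1 : r ≤ 1) (hw : w ≤ L ^ 5 * (X + Y))
    (hU : U = 6 * L ^ 3 * F + 12 * L * (F + w))
    (hI : I = 2 * (len * (6 * L ^ 3 * F) ^ 2) + 4 * (6 * L * (F + w)) ^ 2 * (2 * (L * r))) :
    4 * C * (I + (C * v) ^ 2 * len) + (U + a') * (2 * Gm + X + γ + C * (U + C * v)) ^ 2 +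
        3 * (R ^ 2 + X ^ 2 + γ ^ 2) ≤
      L ^ 24 * (len * F ^ 2 + R ^ 2 + X ^ 2 + γ ^ 2 + r * Y ^ 2 + (a' + Gm + γ + F + X + Y) ^ 3) := by
  have L0 : 0 ≤ L := by linarith
  have l0 : 0 ≤ len := by linarith
  set s := a' + Gm + γ + F + X + Y with hs
  have s0 : 0 ≤ s := by positivity
  have U0 : 0 ≤ U := by rw [hU]; positivity
  have I0 : 0 ≤ I := by rw [hI]; positivity
  have b1 : U ≤ L ^ 7 * s := by
    have := mul_le_mul_of_nonneg_left hw L0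
    have := mul_le_mul_of_nonneg_left (show F ≤ s by linarith) (show 0 ≤ L ^ 3 by positivity)
    have := mul_le_mul_of_nonneg_left (show F ≤ s by linarith) L0
    have := mul_le_mul_of_nonneg_left (show X + Y ≤ s by linarith) (show 0 ≤ L ^ 6 by positivity)
    have := pw hL (show 3 < 7 by norm_num) s0
    have := pw hL (show 1 < 7 by norm_num) s0
    have := pw hL (show 6 < 7 by norm_num) s0
    have : 0 ≤ L ^ 7 * s := by positivity
    generalize s = z at *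
    linarith
  have b2 : U + a' ≤ 2 * (L ^ 7 * s) := by
    have := pw hL (show 0 < 7 by norm_num) s0
    linarith
  have cv : C * v ≤ L * F := mul_le_mul hC hv v0 L0
  have b3 : 2 * Gm + X + γ + C * (U + C * v) ≤ 2 * (L ^ 8 * s) := by
    have q : C * (U + C * v) ≤ L * (L ^ 7 * s + L * s) := mul_le_mul hC (by
      linarith [mul_le_mul_of_nonneg_left (show F ≤ s by linarith) L0]) (by positivity) L0
    have := pw hL (show 0 < 8 by norm_num) s0
    have := pw hL (show 2 < 8 by norm_num) s0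
    have : 2 * Gm + X + γ ≤ 2 * s := by linarith
    generalize s = z at *
    linarith
  have b4 : (U + a') * (2 * Gm + X + γ + C * (U + C * v)) ^ 2 ≤ 2 * (L ^ 7 * s) * (2 * (L ^ 8 * s)) ^ 2 :=
    mul_le_mul b2 (pow_le_pow_left₀ (by positivity) b3 2) (sq_nonneg _) (by positivity)
  have b5 := pw hL (show 23 < 24 by norm_num) (show 0 ≤ s ^ 3 by positivity)
  have b6 : (F + w) ^ 2 ≤ 3 * F ^ 2 + 3 * (L ^ 5 * X) ^ 2 + 3 * (L ^ 5 * Y) ^ 2 := by
    have : (F + w) ^ 2 ≤ (F + L ^ 5 * X + L ^ 5 * Y) ^ 2 :=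
      pow_le_pow_left₀ (by positivity) (by linarith) 2
    linarith only [this, sq_nonneg (F - L ^ 5 * X), sq_nonneg (F - L ^ 5 * Y),
      sq_nonneg (L ^ 5 * X - L ^ 5 * Y)]
  have b7 : 4 * C * (I + (C * v) ^ 2 * len) ≤ 4 * L * (I + (L * F) ^ 2 * len) :=
    mul_le_mul (by linarith) (by
      linarith [mul_le_mul_of_nonneg_right (pow_le_pow_left₀ (by positivity) cv 2) l0])
      (by positivity) (by positivity)
  have b8 := mul_le_mul_of_nonneg_left b6 (show 0 ≤ L ^ 4 * r by positivity)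
  have b9 := mul_le_mul_of_nonneg_left hl (show 0 ≤ L ^ 4 * F ^ 2 by positivity)
  have b10 := mul_le_mul_of_nonneg_left r1 (show 0 ≤ L ^ 14 * X ^ 2 by positivity)
  have m1 : 0 ≤ len * F ^ 2 := by positivity
  have m2 : 0 ≤ r * Y ^ 2 := by positivity
  have c1 := pw hL (show 7 < 8 by norm_num) m1
  have c2 := pw hL (show 8 < 24 by norm_num) m1
  have c3 := pw hL (show 4 < 7 by norm_num) m1
  have c4 := pw hL (show 3 < 7 by norm_num) m1
  have c5 := pw hL (show 14 < 15 by norm_num) (sq_nonneg X)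
  have c6 := pw hL (show 15 < 24 by norm_num) (sq_nonneg X)
  have c7 := pw hL (show 14 < 15 by norm_num) m2
  have c8 := pw hL (show 15 < 24 by norm_num) m2
  have c9 := pw hL (show 0 < 24 by norm_num) (sq_nonneg X)
  have c10 := pw hL (show 0 < 24 by norm_num) (sq_nonneg R)
  have c11 := pw hL (show 0 < 24 by norm_num) (sq_nonneg γ)
  have n1 : 0 ≤ L ^ 24 * (len * F ^ 2) := by positivity
  have n2 : 0 ≤ L ^ 24 * X ^ 2 := by positivity
  have n3 : 0 ≤ L ^ 24 * (r * Y ^ 2) := by positivity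
  have n4 : 0 ≤ L ^ 23 * s ^ 3 := by positivity
  have n5 := sq_nonneg R
  have n6 := sq_nonneg γ
  rw [hI] at b7
  rw [hI]
  clear_value s
  linarith only [b4, b5, b7, b8, b9, b10, c1, c2, c3, c4, c5, c6, c7, c8, c9, c10, c11, n1, n2, n3, n4,
    n5, n6]

/-- **data of the closing**: `V` the last good sloped node, `w` a good plateau node -/
structure Cq (S : Sc) (M : Md) (m : ℕ) (a T : ℝ) (Sb : Finset ℝ) (gp : ℝ → ℝ → Prop) (c0 : ℝ)
    (V kA w : ℕ) (a0 a1 b0 b1 p0 d D err C1 δ L r F Γ Gm a' R p g er γ P : ℝ) : Prop where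
  at' : At S M m a T
  tk : Rig.Tk Sb a0 (sb M m a (V + 1)) (WW M S m a T c0)
    (fun t => Rig.muf M.b (lb M S m a T) t - Rig.muf M.b (lh M T) t)
    (fun t => Rig.nuf M.b (lb M S m a T) t - Rig.nuf M.b (lh M T) t) (uu M S m a T) gp
    b0 b1 p0 d D err C1 δ
  jV : S.jl < V
  VJ : V < S.J
  k3 : S.J ≤ kA
  kw : kA ≤ w
  wJ : w ≤ S.Jp
  yJ : sb M m a (V + 1) < M.s S.J
  aj : M.s S.j0 ≤ a1
  a01 : a0 ≤ a1
  len : a1 + 2 * r ≤ sb M m a (V + 1)
  sh : Rig.Sh a0 (sb M m a (V + 1)) gp a1 (sb M m a (V + 1)) Γ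
  L1 : 100 ≤ L
  r0 : 0 < r
  hb0 : 1 ≤ b0 * L
  hb1 : b1 ≤ L
  hC1 : C1 ≤ L
  hC : S.C ≤ L
  hd : r ^ 2 ≤ L * d
  hD : D ≤ L * r ^ 2
  hθ : S.θ ≤ L ^ 2 * r ^ 2
  Γ0 : 0 ≤ Γ
  ΓF : Γ ≤ F
  δF : δ ≤ F
  pF : p0 ≤ F
  vF : S.v ≤ F
  e0 : 0 ≤ err
  eF : err ≤ F * r ^ 2
  WF : |WW M S m a T c0 a1| ≤ F * r ^ 2
  hJ : |Sc48.Jf (lh M T) (lb M S m a T) T (a1 + r)| ≤ p
  hG : sb M m a (w + 1) - sb M m a (V + 1) ≤ Gm
  he : |res M S m a T w - c0| ≤ er
  hg : |M.G w| ≤ g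
  hγ : M.s S.Jp - M.s S.J ≤ γ
  ha : M.z (kA - 1) - M.z V ≤ a'
  R0 : 0 ≤ R
  sp : ∑ k ∈ Finset.Icc kA S.Jp,
    (M.z k - M.z (k - 1)) * (sb M m a (k + 1) - sb M m a (w + 1)) ^ 2 ≤ R ^ 2
  hκ : 1 ≤ L * (1 - M.z (kA - 1))
  s1 : L ^ 10 * (Gm + |sb M m a (w + 1) - M.s S.J| + Γ) ≤ r
  s2 : L ^ 10 * (r + F + a') ≤ 1
  hP : ∀ t ∈ Icc (sb M m a (V + 1)) (sb M m a (w + 1)), Rig.Hp (lh M T) (lb M S m a T) t ≤ P

/-- the error of the potential at the upper end -/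
def Aq (m : ℕ) (r F Gm a' R g er γ P : ℝ) : ℝ :=
  g + er + 1 / ((m : ℝ) + 1) + r ^ 2 * γ + γ ^ 2 + F * r * Gm + a' * Gm ^ 2 + R ^ 2 + Gm ^ 3 +
    Gm ^ 2 * P

namespace Cq
variable {Sb : Finset ℝ} {gp : ℝ → ℝ → Prop} {c0 : ℝ} {V kA w : ℕ}
  {a0 a1 b0 b1 p0 d D err C1 δ L r F Γ Gm a' R p g er γ P : ℝ}
  (h : Cq S M m a T Sb gp c0 V kA w a0 a1 b0 b1 p0 d D err C1 δ L r F Γ Gm a' R p g er γ P)
include h

theorem nn : 0 ≤ F ∧ 0 ≤ Gm ∧ 0 ≤ γ ∧ 0 ≤ a' ∧ 0 ≤ P ∧ L * Γ ≤ r := by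
  have i1 := h.VJ
  have i2 := h.k3
  have i3 := h.kw
  have y := h.at'.sb_mono (show V + 1 ≤ w + 1 by omega)
  have G0 : 0 ≤ Gm := by linarith [h.hG]
  refine ⟨h.Γ0.trans h.ΓF, G0, by linarith [h.hγ, h.at'.cl.sm h.at'.cl.i3],
    by linarith [h.ha, h.at'.cl.leg.zm (show V ≤ kA - 1 by omega)],
    le_trans (add_nonneg (abs_nonneg _) (intervalIntegral.integral_nonneg
      (by rw [h.at'.okh.2]; exact h.at'.T0) fun _ _ => abs_nonneg _)) (h.hP _ ⟨le_rfl, y⟩), ?_⟩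
  have := pw h.L1 (show 1 < 10 by norm_num) h.Γ0
  have := mul_nonneg (pow_nonneg (show 0 ≤ L by linarith [h.L1]) 10)
    (add_nonneg G0 (abs_nonneg (sb M m a (w + 1) - M.s S.J)))
  have := mul_nonneg (show 0 ≤ L by linarith [h.L1]) h.Γ0
  linarith [h.s1]

/-- decay from the upper end, `x r² = |W y|` -/
theorem dec {x : ℝ} (x0 : 0 ≤ x) (hx : |WW M S m a T c0 (sb M m a (V + 1))| = x * r ^ 2) :
    (∀ t ∈ Icc (a1 + r) (sb M m a (V + 1)), |uu M S m a T t| ≤ 6 * L ^ 3 * F +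
      6 * L * (F + x) * Rig.Q34.ph (1 / (L * r)) a1 (sb M m a (V + 1)) t) ∧
    (∀ t ∈ Icc (a1 + r) (sb M m a (V + 1)), |uu M S m a T t| ≤ 6 * L ^ 3 * F + 12 * L * (F + x)) ∧
    |om45 M S m a T (sb M m a (V + 1))| ≤ r * (8 * L ^ 4 * F + 13 * L ^ 2 * (F + x)) := by
  obtain ⟨F0, -, -, -, -, LΓ⟩ := h.nn
  have L1 := h.L1
  have r0 := h.r0
  have L0 : 0 < L := by linarith
  have Γ0 := h.Γ0
  have d0 := h.tk.d0
  have D0 := d0.le.trans h.tk.dD
  have δ0 := h.tk.δ0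
  have c0' := h.tk.C0
  have q0 := h.tk.p0
  have b10 := h.tk.b1
  have e0 := h.e0
  have Γr : Γ ≤ r := by nlinarith
  have o1 : C1 * Γ + δ ≤ (L + 1) * F := by linarith [mul_le_mul h.hC1 h.ΓF Γ0 L0.le, h.δF]
  have dv : ∀ z, 0 ≤ z → z * r ^ 2 / d ≤ L * z := fun z z0 => by
    rw [div_le_iff₀ d0]; linarith [mul_le_mul_of_nonneg_left h.hd z0]
  have H := Rig.Q34.dec h.tk (κ := 1 / (L * r)) (q₀ := L ^ 2 * r ^ 2 * F) (B := (F + x) * r ^ 2)
    (E := 4 * L ^ 2 * F * r ^ 2) h.a01 h.sh Γ0 (by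
      have e1 := mul_le_mul_of_nonneg_right h.hb1 (sq_nonneg Γ)
      have e2 := (pow_le_pow_left₀ (by positivity) LΓ 2).trans h.hd
      have e3 : L * Γ ^ 2 ≤ d := le_of_mul_le_mul_left (by linarith) L0
      linarith) (by positivity) (by
      have e1 : (1 / (L * r)) ^ 2 * D ≤ (1 / (L * r)) ^ 2 * (L * r ^ 2) :=
        mul_le_mul_of_nonneg_left h.hD (sq_nonneg _)
      have e2 : (1 / (L * r)) ^ 2 * (L * r ^ 2) = 1 / L := by field_simp
      have e3 : 1 / L ≤ b0 := (div_le_iff₀ L0).2 h.hb0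
      linarith [h.tk.b0]) (h.pF.trans (le_of_eq (by field_simp))) (by positivity) (by positivity) (by
      unfold Rig.eP
      have e1 := mul_le_mul h.hD o1 (by positivity) (by positivity)
      have e2 : 4 * b1 * (C1 * Γ + δ) + p0 ≤ 4 * L * ((L + 1) * F) + F := by
        linarith [mul_le_mul h.hb1 o1 (by positivity) L0.le, h.pF]
      have e3 := mul_le_mul (pow_le_pow_left₀ Γ0 Γr 2) e2 (by positivity) (by positivity)
      have e4 := pw L1 (show 1 < 2 by norm_num) (show 0 ≤ F * r ^ 2 by positivity)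
      have e5 := pw L1 (show 0 < 2 by norm_num) (show 0 ≤ F * r ^ 2 by positivity)
      have e6 : 0 ≤ L ^ 2 * (F * r ^ 2) := by positivity
      linarith [h.eF]) (by unfold Rig.eP; positivity) (by
      rw [div_mul_eq_mul_div, div_le_one (by positivity)]; nlinarith)
    (h.WF.trans (by nlinarith [mul_nonneg x0 (sq_nonneg r)]))
    (hx.le.trans (by nlinarith [mul_nonneg F0 (sq_nonneg r)]))
  have H1 : ∀ t ∈ Icc (a1 + r) (sb M m a (V + 1)), |uu M S m a T t| ≤ 6 * L ^ 3 * F +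
      6 * L * (F + x) * Rig.Q34.ph (1 / (L * r)) a1 (sb M m a (V + 1)) t := fun t ht => by
    have e1 := H.2 t ⟨by linarith [ht.1], ht.2⟩
    have e2 : (4 * L ^ 2 * F * r ^ 2 + err) / d ≤ L * (4 * L ^ 2 * F + F) :=
      (div_le_div_of_nonneg_right (by linarith [h.eF]) d0.le).trans (dv _ (by positivity))
    have e3 : 6 * ((F + x) * r ^ 2) / d ≤ 6 * L * (F + x) :=
      (le_of_eq (by ring)).trans ((dv (6 * (F + x)) (by positivity)).trans (le_of_eq (by ring)))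
    have e4 := mul_le_mul_of_nonneg_right e3 (Rig.Q34.ph_pos (1 / (L * r)) a1 (sb M m a (V + 1)) t).le
    have e5 := pw L1 (show 1 < 3 by norm_num) F0
    have e6 := pw L1 (show 0 < 3 by norm_num) F0
    have e7 : 0 ≤ L ^ 3 * F := by positivity
    linarith
  have H2 : ∀ t ∈ Icc (a1 + r) (sb M m a (V + 1)),
      |uu M S m a T t| ≤ 6 * L ^ 3 * F + 12 * L * (F + x) := fun t ht => by
    have e1 := mul_le_mul_of_nonneg_left (Rig.Q34.ph_le (κ := 1 / (L * r)) (by positivity)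
      (show a1 ≤ t by linarith [ht.1]) ht.2) (show 0 ≤ 6 * L * (F + x) by positivity)
    linarith [H1 t ht]
  refine ⟨H1, H2, ?_⟩
  have e1 := Rig.Q34.slopeR h.tk (η := r) (by linarith [h.a01, h.len]) r0
    (fun t ht => H.1 t ⟨by linarith [ht.1, h.len], ht.2⟩)
    fun t ht => H2 t ⟨by linarith [ht.1, h.len], ht.2⟩
  have e2 : 2 * (4 * L ^ 2 * F * r ^ 2 + 2 * ((F + x) * r ^ 2)) / r =
      r * (8 * L ^ 2 * F + 4 * (F + x)) := by field_simp; ring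
  have e3 := mul_le_mul_of_nonneg_right h.hb1
    (show 0 ≤ (6 * L ^ 3 * F + 12 * L * (F + x)) * r by positivity)
  have e4 := mul_le_mul_of_nonneg_right h.pF r0.le
  have e5 := pw L1 (show 2 < 4 by norm_num) (show 0 ≤ F * r by positivity)
  have e6 := pw L1 (show 0 < 4 by norm_num) (show 0 ≤ F * r by positivity)
  have e7 := pw L1 (show 0 < 2 by norm_num) (show 0 ≤ (F + x) * r by positivity)
  have e8 : 0 ≤ L ^ 4 * (F * r) := by positivity
  have e9 : 0 ≤ (F + x) * r := by positivity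
  rw [e2] at e1
  refine e1.trans ?_
  linarith

end Cq

/-- **closing of TLq**: the shift of the plateau and the node sums of the last window -/
theorem close (T0 : ℝ) : ∃ K : ℝ, 1 ≤ K ∧ ∀ {S : Sc} {M : Md} {m : ℕ} {a T : ℝ} {Sb : Finset ℝ}
    {gp : ℝ → ℝ → Prop} {c0 : ℝ} {V kA w : ℕ}
    {a0 a1 b0 b1 p0 d D err C1 δ L r F Γ Gm a' R p g er γ P : ℝ},
    Cq S M m a T Sb gp c0 V kA w a0 a1 b0 b1 p0 d D err C1 δ L r F Γ Gm a' R p g er γ P →
    T ≤ T0 → K ≤ L →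
    |sb M m a (w + 1) - M.s S.J| ≤ L ^ 9 * (p + (sb M m a (V + 1) - (a1 + r)) * F + a' * Gm + R + γ +
        Gm * F + Aq m r F Gm a' R g er γ P / r) ∧
      ∀ X, |sb M m a (w + 1) - M.s S.J| ≤ X →
        (∀ t ∈ Icc (a1 + r) (sb M m a (V + 1)), |uu M S m a T t| ≤
          6 * L ^ 3 * F + 12 * L * (F + L ^ 5 * (X + (Aq m r F Gm a' R g er γ P + X ^ 2) / r ^ 2))) ∧
        ∀ Q : Finset ℕ, (∀ k ∈ Q, S.jl < k ∧ k ≤ S.Jp ∧ a1 + r ≤ M.s k ∧ a1 + r ≤ sb M m a (k + 1)) →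
          ∑ k ∈ Q, (M.z k - M.z (k - 1)) * (sb M m a (k + 1) - M.s k) ^ 2 ≤
            L ^ 24 * ((sb M m a (V + 1) - (a1 + r)) * F ^ 2 + R ^ 2 + X ^ 2 + γ ^ 2 +
              r * ((Aq m r F Gm a' R g er γ P + X ^ 2) / r ^ 2) ^ 2 +
              (a' + Gm + γ + F + X + (Aq m r F Gm a' R g er γ P + X ^ 2) / r ^ 2) ^ 3) := by
  obtain ⟨K, K1, HK⟩ := At.bdry45 T0
  refine ⟨K, K1, fun {S M m a T Sb gp c0 V kA w a0 a1 b0 b1 p0 d D err C1 δ L r F Γ Gm a' R p g er γ P}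
    h hT hK => ?_⟩
  obtain ⟨F0, G0, γ0, a0', P0, -⟩ := h.nn
  have A := h.at'
  have L1 := h.L1
  have r0 := h.r0
  have L0 : 0 < L := by linarith
  have C0 := A.c_pos
  have v0 := v_pos A.cl
  have i1 := h.VJ
  have i2 := h.k3
  have i3 := h.kw
  have i4 := h.wJ
  have dn : ∀ k, 0 ≤ M.z k - M.z (k - 1) := A.dz_nn
  obtain ⟨x, x0, hx⟩ : ∃ x, 0 ≤ x ∧ |WW M S m a T c0 (sb M m a (V + 1))| = x * r ^ 2 :=
    ⟨_ / r ^ 2, div_nonneg (abs_nonneg _) (sq_nonneg r), by field_simp⟩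
  obtain ⟨H1, H2, H3⟩ := h.dec x0 hx
  have xy : a1 + r ≤ sb M m a (V + 1) := by linarith [h.len]
  have xj : M.s S.j0 ≤ a1 + r := by linarith [h.aj]
  have M1 : sb M m a kA ≤ sb M m a (w + 1) := A.sb_mono (by omega)
  have w1 := A.cl.sm (show S.J ≤ w by omega)
  have w2 := A.cl.sm i4
  have hγ := h.hγ
  have sm : ∑ k ∈ Finset.Ioc V w, (M.z k - M.z (k - 1)) * (sb M m a (w + 1) - sb M m a (k + 1)) ^ 2 ≤
      a' * Gm ^ 2 + R ^ 2 := by
    rw [← Finset.sum_Ioc_consecutive _ (show V ≤ kA - 1 by omega) (show kA - 1 ≤ w by omega)]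
    refine add_le_add ?_ (le_trans ?_ h.sp)
    · refine (Finset.sum_le_sum (g := fun k => (M.z k - M.z (k - 1)) * Gm ^ 2) fun k hk => ?_).trans ?_
      · obtain ⟨j1, j2⟩ := Finset.mem_Ioc.1 hk
        have e1 := A.sb_mono (show V + 1 ≤ k + 1 by omega)
        have e2 := A.sb_mono (show k + 1 ≤ w + 1 by omega)
        exact mul_le_mul_of_nonneg_left (sq_le_sq' (by linarith) (by linarith [h.hG])) (dn k)
      · rw [← Finset.sum_mul, At.sum_dz M (by omega)]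
        exact mul_le_mul_of_nonneg_right h.ha (sq_nonneg _)
    · simp only [sub_sq_comm (sb M m a (w + 1))]
      exact Finset.sum_le_sum_of_subset_of_nonneg (fun k hk => by
        have := Finset.mem_Ioc.1 hk
        exact Finset.mem_Icc.2 ⟨by omega, by omega⟩) fun k _ _ => mul_nonneg (dn k) (sq_nonneg _)
  have sh := shift A h.jV i1 i2 (by omega) (xj.trans xy) h.yJ hγ M1 (A.sb_mem i4).2 h.hG h.R0 h.sp h.ha
  have hD : M.s S.J - sb M m a (V + 1) ≤ Gm + |sb M m a (w + 1) - M.s S.J| := by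
    linarith [h.hG, neg_abs_le (sb M m a (w + 1) - M.s S.J)]
  have bd := HK A hT (d := |sb M m a (w + 1) - M.s S.J| + γ) c0 h.jV (by omega) i4 (by omega)
    (H2 _ ⟨xy, le_rfl⟩) h.hP h.hG sm (abs_le.2 ⟨by
      linarith [neg_abs_le (sb M m a (w + 1) - M.s S.J)], by
      linarith [le_abs_self (sb M m a (w + 1) - M.s S.J)]⟩) H3
  obtain ⟨I1, I2⟩ := Rig.Q34.ints A.LB_uu (κ := 1 / (L * r)) (a' := a1) (by positivity)
    ((s_nn A.cl _).trans xj) (by linarith) xy (A.sb_mem (show V ≤ S.Jp by omega)).2 (by positivity) H1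
  rw [show 2 / (1 / (L * r)) = 2 * (L * r) by field_simp] at I1 I2
  have hJ : |Sc48.Jf (lh M T) (lb M S m a T) T (sb M m a (V + 1))| ≤
      p + |∫ t in (a1 + r)..sb M m a (V + 1), uu M S m a T t| := by
    have e := Gap27.Jf_sub (T := T) A.okb.1.1 A.okh.1.1 (a1 + r) (sb M m a (V + 1))
    have e' : Sc48.Jf (lh M T) (lb M S m a T) T (sb M m a (V + 1)) =
        Sc48.Jf (lh M T) (lb M S m a T) T (a1 + r) -
          ∫ t in (a1 + r)..sb M m a (V + 1), uu M S m a T t := by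
      unfold uu; rw [← e]; ring
    rw [e']
    exact (abs_sub _ _).trans (add_le_add h.hJ le_rfl)
  have s1 := h.s1
  have hκ := h.hκ
  have TS := fun X hX Q => top_sum A h.jV i1 i2 (by omega) xj xy h.yJ hγ M1 h.hG h.sp h.ha (X := X)
    hX H2 I2 (Q := Q)
  have Dm0 := abs_nonneg (sb M m a (w + 1) - M.s S.J)
  have uy := H2 _ ⟨xy, le_rfl⟩
  have yJ := h.yJ
  have rl : r ≤ sb M m a (V + 1) - (a1 + r) := by linarith [h.len]
  have g0 := (abs_nonneg _).trans h.hg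
  have e0 := (abs_nonneg _).trans h.he
  have m0 : 0 ≤ 1 / ((m : ℝ) + 1) := by positivity
  have pΓ := mul_nonneg (pow_nonneg L0.le 10) h.Γ0
  have pD := mul_nonneg (pow_nonneg L0.le 10) Dm0
  have n1 : x * r ^ 2 ≤ L ^ 5 * (Aq m r F Gm a' R g er γ P +
      r ^ 2 * |sb M m a (w + 1) - M.s S.J| + |sb M m a (w + 1) - M.s S.J| ^ 2) := by
    refine num1 L1 r0 x0 g0 e0 m0 Dm0 γ0 F0 G0 a0' P0 (by linarith) ?_
    rw [← hx]
    refine bd.trans ?_
    have q1 := mul_le_mul h.hC h.he (abs_nonneg _) L0.le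
    have q2 : S.C / (m + 1) ≤ L * (1 / ((m : ℝ) + 1)) := by
      rw [mul_one_div]; exact div_le_div_of_nonneg_right h.hC (by positivity)
    have q3 : S.C * S.θ ≤ L ^ 3 * r ^ 2 :=
      (mul_le_mul_of_nonneg_left h.hθ C0.le).trans (by
        linarith [mul_le_mul_of_nonneg_right h.hC (show 0 ≤ L ^ 2 * r ^ 2 by positivity)])
    have hC := h.hC
    have hv := h.vF
    have hg := h.hg
    have q4 : M.s w - M.s S.J ≤ γ := by linarith
    have q5 : 0 ≤ M.s w - M.s S.J := by linarith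
    gcongr
  have A0 : 0 ≤ Aq m r F Gm a' R g er γ P := by unfold Aq; positivity
  generalize Aq m r F Gm a' R g er γ P = A' at *
  refine ⟨num2 L1 r0 x0 ((abs_nonneg _).trans h.hJ) Dm0 γ0 F0 G0 a0' h.R0 A0 rl (by linarith) h.s2 n1 ?_,
    fun X hX => ?_⟩
  · have q1 := mul_le_mul_of_nonneg_right hκ Dm0
    have q2 := mul_le_mul uy hD (by linarith) (by positivity)
    have q3 := mul_le_mul_of_nonneg_left hD a0'
    rw [one_mul, mul_assoc] at q1
    exact q1.trans (mul_le_mul_of_nonneg_left (by linarith) L0.le)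
  · have X0 := Dm0.trans hX
    have hw : x ≤ L ^ 5 * (X + (A' + X ^ 2) / r ^ 2) := by
      refine le_of_mul_le_mul_right (n1.trans ?_) (show 0 < r ^ 2 by positivity)
      rw [show L ^ 5 * (X + (A' + X ^ 2) / r ^ 2) * r ^ 2 = L ^ 5 * (A' + r ^ 2 * X + X ^ 2) by
        field_simp; ring]
      gcongr
    refine ⟨fun t ht => (H2 t ht).trans (by gcongr), fun Q hQ => (TS X hX Q hQ).trans ?_⟩
    have r1 : r ≤ 1 := by
      have := pw L1 (show 0 < 10 by norm_num) (show 0 ≤ r + F + a' by positivity)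
      linarith [h.s2]
    exact num3 L1 r0 x0 X0 (by positivity) γ0 F0 G0 a0' C0.le v0.le h.hC h.vF rl r1 hw rfl rfl

end Crest.Agent.T156.Alt.Mp9.Q34
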