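import Crest.Agent.T156.TLqW_34

/-!
# Row 156, block (L), TLq (helper34): the closing against one budget
-/

set_option autoImplicit false

noncomputable section

namespace Crest.Agent.T156.Alt.Mp9.Q34

open MeasureTheory Set Real
open Crest.Agent.R164.GC Crest.Agent.R339.B Crest.Agent.R339.Var Crest.Agent.T157.Pf
open Crest.Agent.T156.Pp.Area50 Crest.Agent.T156.Spl27 Crest.Agent.T156.Zb9

variable {S : Sc} {M : Md} {m : ℕ} {a T : ℝ}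

namespace Cq
variable {Sb : Finset ℝ} {gp : ℝ → ℝ → Prop} {c0 : ℝ} {V kA w : ℕ}
  {a0 a1 b0 b1 p0 d D err C1 δ L r F Γ Gm a' R p g er γ P : ℝ}
  (h : Cq S M m a T Sb gp c0 V kA w a0 a1 b0 b1 p0 d D err C1 δ L r F Γ Gm a' R p g er γ P)
include h

/-- crude size of `u` at the upper end -/
theorem u_end : |uu M S m a T (sb M m a (V + 1))| ≤
    a' + S.C * (Gm + |sb M m a (w + 1) - M.s S.J| + S.v) := by
  obtain ⟨-, G0, -, a0', -, -⟩ := h.nn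
  have A := h.at'
  have i0 := A.cl.i1
  have i1 := h.VJ
  have i2 := h.k3
  have i3 := h.kw
  have i4 := h.wJ
  have i5 := h.jV
  have C0 := A.c_pos
  have v0 := v_pos A.cl
  have y0 : M.s S.j0 ≤ sb M m a (V + 1) := by linarith [h.aj, h.len, h.r0]
  have hu : uu M S m a T (sb M m a (V + 1)) = M.z V - lvr 1 (lh M T) (sb M m a (V + 1)) := by
    unfold uu; rw [A.lvb_node i5.le (by omega)]
  obtain ⟨k1, -, c2, -, c4, c5⟩ := cell_h A y0 h.yJ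
  have n0 : 0 ≤ S.C * (Gm + |sb M m a (w + 1) - M.s S.J| + S.v) := by positivity
  rw [hu]
  refine abs_le.2 ⟨by linarith [h.ha, A.cl.leg.zm (show k1 ≤ kA - 1 by omega)], ?_⟩
  rcases le_or_gt V k1 with c | c
  · linarith [A.cl.leg.zm c]
  · have sV : M.s V < M.s S.J := (s_lt A.cl i1).trans_le (A.cl.sm i1)
    have yV : sb M m a (V + 1) ≤ M.s V := c4.le.trans (A.cl.sm c)
    have y1 := (s_nn A.cl _).trans y0
    have l := (A.cl.lip _ _ y1 yV sV).2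
    rw [← A.lvh' y1, ← A.lvh' (s_nn A.cl V), A.lvh_node (by omega) i1] at l
    have q := mul_le_mul_of_nonneg_left (show M.s V - sb M m a (V + 1) + S.v ≤
      Gm + |sb M m a (w + 1) - M.s S.J| + S.v by
        linarith [h.hG, neg_abs_le (sb M m a (w + 1) - M.s S.J)]) C0.le
    linarith

/-- the sums from the crude size -/
theorem crude (hs : a' + Gm + F ≤ r) {Q : Finset ℕ}
    (hQ : ∀ k ∈ Q, S.jl < k ∧ k ≤ S.Jp ∧ a1 + r ≤ M.s k ∧ a1 + r ≤ sb M m a (k + 1)) :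
    ∑ k ∈ Q, (M.z k - M.z (k - 1)) * (sb M m a (k + 1) - M.s k) ^ 2 ≤
      L ^ 24 * ((sb M m a (V + 1) - (a1 + r)) * F ^ 2 + R ^ 2 + |sb M m a (w + 1) - M.s S.J| ^ 2 +
        γ ^ 2 + r * r ^ 2 + (a' + Gm + γ + F + |sb M m a (w + 1) - M.s S.J| + r) ^ 3) := by
  obtain ⟨F0, G0, γ0, a0', P0, -⟩ := h.nn
  have A := h.at'
  have L1 := h.L1
  have r0 := h.r0
  have L0 : 0 < L := by linarith
  have C0 := A.c_pos
  have v0 := v_pos A.cl
  have i1 := h.VJ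
  have i2 := h.k3
  have i3 := h.kw
  have i4 := h.wJ
  obtain ⟨x, x0, hx⟩ : ∃ x, 0 ≤ x ∧ |WW M S m a T c0 (sb M m a (V + 1))| = x * r ^ 2 :=
    ⟨_ / r ^ 2, div_nonneg (abs_nonneg _) (sq_nonneg r), by field_simp⟩
  obtain ⟨H1, H2, -⟩ := h.dec x0 hx
  have xy : a1 + r ≤ sb M m a (V + 1) := by linarith [h.len]
  have xj : M.s S.j0 ≤ a1 + r := by linarith [h.aj]
  have M1 : sb M m a kA ≤ sb M m a (w + 1) := A.sb_mono (by omega)
  obtain ⟨-, I2⟩ := Rig.Q34.ints A.LB_uu (κ := 1 / (L * r)) (a' := a1) (by positivity)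
    ((s_nn A.cl _).trans xj) (by linarith) xy (A.sb_mem (show V ≤ S.Jp by omega)).2 (by positivity) H1
  rw [show 2 / (1 / (L * r)) = 2 * (L * r) by field_simp] at I2
  have r1 : r ≤ 1 := by
    have := pw L1 (show 0 < 10 by norm_num) (show 0 ≤ r + F + a' by positivity)
    linarith [h.s2]
  have ue := h.u_end
  have Dm0 := abs_nonneg (sb M m a (w + 1) - M.s S.J)
  have hw : x ≤ L ^ 5 * (|sb M m a (w + 1) - M.s S.J| + r) := by
    obtain ⟨s, s', hg, h1, h2, h3, h4⟩ := h.tk.cov (sb M m a (V + 1))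
      ⟨by linarith [h.a01], le_rfl⟩
    obtain ⟨μ, m1, m2, m3⟩ := h.tk.eR s s' hg h1 (h2.trans h3) h4
    rw [le_antisymm h4 h3] at m3
    have μ0 : 0 ≤ μ := h.tk.d0.le.trans m1
    have e1 : |WW M S m a T c0 (sb M m a (V + 1))| ≤ err + μ * |uu M S m a T (sb M m a (V + 1))| := by
      have := abs_add_le (WW M S m a T c0 (sb M m a (V + 1)) - μ * uu M S m a T (sb M m a (V + 1)))
        (μ * uu M S m a T (sb M m a (V + 1)))
      rw [sub_add_cancel, abs_mul, abs_of_nonneg μ0] at this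
      linarith
    have e2 : S.C * (Gm + |sb M m a (w + 1) - M.s S.J| + S.v) ≤
        L * (|sb M m a (w + 1) - M.s S.J| + r) :=
      mul_le_mul h.hC (by linarith [h.vF]) (by positivity) L0.le
    have e3 := mul_le_mul (m2.trans h.hD) (ue.trans (show _ ≤ r + L * (|sb M m a (w + 1) - M.s S.J| + r)
      by linarith)) (abs_nonneg _) (by positivity)
    have e4 := mul_le_mul_of_nonneg_right (show F ≤ r by linarith) (sq_nonneg r)
    refine le_of_mul_le_mul_right ?_ (show 0 < r ^ 2 by positivity)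
    generalize |sb M m a (w + 1) - M.s S.J| = X at *
    have n1 : 0 ≤ X * r ^ 2 := by positivity
    have n2 : 0 ≤ r * r ^ 2 := by positivity
    have e5 := pw L1 (show 2 < 5 by norm_num) n1
    have e6 := pw L1 (show 2 < 5 by norm_num) n2
    have e7 := pw L1 (show 1 < 5 by norm_num) n2
    have e8 := pw L1 (show 0 < 5 by norm_num) n2
    have n3 : 0 ≤ L ^ 5 * (X * r ^ 2) := by positivity
    have n4 : 0 ≤ L ^ 5 * (r * r ^ 2) := by positivity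
    linarith only [hx, e1, e3, e4, h.eF, e5, e6, e7, e8, n3, n4]
  exact (top_sum A h.jV i1 i2 (by omega) xj xy h.yJ h.hγ M1 h.hG h.sp h.ha le_rfl H2 I2 hQ).trans
    (num3 L1 r0 x0 Dm0 r0.le γ0 F0 G0 a0' C0.le v0.le h.hC h.vF (by linarith [h.len]) r1 hw rfl rfl)

end Cq

theorem num4 {r A0 γ F Gm a' R P ω s Tg len : ℝ} (r0 : 0 < r) (r1 : r ≤ 1) (γ0 : 0 ≤ γ)
    (F0 : 0 ≤ F) (G0 : 0 ≤ Gm) (a0 : 0 ≤ a') (P0 : 0 ≤ P) (A00 : 0 ≤ A0) (h1 : A0 ≤ r ^ 2 * ω)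
    (h2 : ω ≤ r) (h3 : a' + Gm + γ + F + P ≤ s) (h4 : s ≤ r) (h5 : R ^ 2 ≤ r ^ 3)
    (h6 : γ ^ 2 ≤ r ^ 3) (hl : r ≤ len) (t2 : len * F ^ 2 ≤ Tg) (t3 : R ^ 2 ≤ Tg) (t4 : γ ^ 2 ≤ Tg)
    (t5 : r * ω ^ 2 ≤ Tg) (t6 : s ^ 3 ≤ Tg) {B : ℝ}
    (hB : B = A0 + r ^ 2 * γ + γ ^ 2 + F * r * Gm + a' * Gm ^ 2 + R ^ 2 + Gm ^ 3 + Gm ^ 2 * P) :
    B ≤ 6 * r ^ 3 ∧ B ^ 2 ≤ 36 * (r ^ 3 * Tg) := by
  have s0 : 0 ≤ s := by linarith
  have r2 : 0 < r ^ 2 := by positivity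
  have r3 : 0 < r ^ 3 := by positivity
  have ω0 : 0 ≤ ω := le_of_mul_le_mul_left (by linarith) r2
  have s3 : s ^ 3 ≤ r ^ 3 := pow_le_pow_left₀ s0 h4 3
  have c1 : a' * Gm ^ 2 + Gm ^ 3 + Gm ^ 2 * P ≤ s ^ 3 := by
    have := mul_le_mul (pow_le_pow_left₀ G0 (show Gm ≤ s by linarith) 2)
      (show a' + Gm + P ≤ s by linarith) (by positivity) (sq_nonneg s)
    linarith
  have c2 : F * r * Gm ≤ r ^ 2 * F := by
    linarith [mul_le_mul_of_nonneg_left (show Gm ≤ r by linarith) (mul_nonneg F0 r0.le)]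
  have B1 : B ≤ r ^ 2 * ω + r ^ 2 * γ + γ ^ 2 + r ^ 2 * F + R ^ 2 + s ^ 3 := by linarith
  have B0 : 0 ≤ B := by rw [hB]; positivity
  constructor
  · linarith [mul_le_mul_of_nonneg_left h2 r2.le, mul_le_mul_of_nonneg_left (show γ ≤ r by linarith) r2.le,
      mul_le_mul_of_nonneg_left (show F ≤ r by linarith) r2.le]
  have d1 : (r ^ 2 * ω) ^ 2 ≤ r ^ 3 * Tg := by linarith [mul_le_mul_of_nonneg_left t5 r3.le]
  have d2 : (r ^ 2 * γ) ^ 2 ≤ r ^ 3 * Tg := by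
    linarith [mul_le_mul_of_nonneg_left t4 r3.le,
      mul_le_mul_of_nonneg_left r1 (show 0 ≤ r ^ 3 * γ ^ 2 by positivity)]
  have d3 : (γ ^ 2) ^ 2 ≤ r ^ 3 * Tg := by
    rw [sq (γ ^ 2)]; exact mul_le_mul h6 t4 (sq_nonneg _) r3.le
  have d4 : (r ^ 2 * F) ^ 2 ≤ r ^ 3 * Tg := by
    linarith [mul_le_mul_of_nonneg_left t2 r3.le,
      mul_le_mul_of_nonneg_left hl (show 0 ≤ r ^ 3 * F ^ 2 by positivity)]
  have d5 : (R ^ 2) ^ 2 ≤ r ^ 3 * Tg := by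
    rw [sq (R ^ 2)]; exact mul_le_mul h5 t3 (sq_nonneg _) r3.le
  have d6 : (s ^ 3) ^ 2 ≤ r ^ 3 * Tg := by
    rw [sq (s ^ 3)]; exact mul_le_mul s3 t6 (by positivity) r3.le
  refine (pow_le_pow_left₀ B0 B1 2).trans ?_
  generalize r ^ 2 * ω = x1 at *
  generalize r ^ 2 * γ = x2 at *
  generalize γ ^ 2 = x3 at *
  generalize r ^ 2 * F = x4 at *
  generalize R ^ 2 = x5 at *
  generalize s ^ 3 = x6 at *
  linarith only [d1, d2, d3, d4, d5, d6, sq_nonneg (x1 - x2), sq_nonneg (x1 - x3), sq_nonneg (x1 - x4),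
    sq_nonneg (x1 - x5), sq_nonneg (x1 - x6), sq_nonneg (x2 - x3), sq_nonneg (x2 - x4),
    sq_nonneg (x2 - x5), sq_nonneg (x2 - x6), sq_nonneg (x3 - x4), sq_nonneg (x3 - x5),
    sq_nonneg (x3 - x6), sq_nonneg (x4 - x5), sq_nonneg (x4 - x6), sq_nonneg (x5 - x6)]

theorem num5 {L r B γ F Gm a' R p s Tg len X : ℝ} (hL : 100 ≤ L) (r0 : 0 < r) (r1 : r ≤ 1)
    (F0 : 0 ≤ F) (G0 : 0 ≤ Gm) (a0 : 0 ≤ a') (X0 : 0 ≤ X) (h3 : a' + Gm + F ≤ s)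
    (h4 : s ≤ r) (l0 : 0 ≤ len) (l1 : len ≤ L) (t1 : p ^ 2 ≤ Tg) (t2 : len * F ^ 2 ≤ Tg)
    (t3 : R ^ 2 ≤ Tg) (t4 : γ ^ 2 ≤ Tg) (t6 : s ^ 3 ≤ Tg) (hB : B ^ 2 ≤ 36 * (r ^ 3 * Tg))
    (h : X ≤ L ^ 9 * (p + len * F + a' * Gm + R + γ + Gm * F + B / r)) : X ^ 2 ≤ L ^ 21 * Tg := by
  have T0 : 0 ≤ Tg := (sq_nonneg p).trans t1
  have s0 : 0 ≤ s := by linarith
  have s4 : (s ^ 2) ^ 2 ≤ Tg := by
    linarith [mul_le_mul_of_nonneg_left (h4.trans r1) (pow_nonneg s0 3)]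
  have d1 : (len * F) ^ 2 ≤ L * Tg := by
    rw [show (len * F) ^ 2 = len * (len * F ^ 2) by ring]
    exact mul_le_mul l1 t2 (by positivity) (by linarith)
  have d2 : (a' * Gm + Gm * F) ^ 2 ≤ Tg := (pow_le_pow_left₀ (by positivity) (by
    linarith [mul_le_mul (show Gm ≤ s by linarith) (show a' + F ≤ s by linarith) (by positivity) s0])
      2).trans s4
  have d3 : (B / r) ^ 2 ≤ 36 * Tg := by
    rw [div_pow, div_le_iff₀ (by positivity)]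
    linarith [mul_le_mul_of_nonneg_left r1 (show 0 ≤ r ^ 2 * Tg by positivity)]
  have e : (p + len * F + a' * Gm + R + γ + Gm * F + B / r) ^ 2 ≤ L ^ 3 * Tg := by
    rw [show p + len * F + a' * Gm + R + γ + Gm * F + B / r =
      p + len * F + (a' * Gm + Gm * F) + R + γ + B / r by ring]
    have e1 := pw hL (show 1 < 3 by norm_num) T0
    have e2 := pw hL (show 0 < 1 by norm_num) T0
    generalize len * F = x2 at *
    generalize a' * Gm + Gm * F = x3 at *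
    generalize B / r = x6 at *
    linarith only [t1, d1, d2, t3, t4, d3, e1, e2, T0, sq_nonneg (p - x2), sq_nonneg (p - x3),
      sq_nonneg (p - R), sq_nonneg (p - γ), sq_nonneg (p - x6), sq_nonneg (x2 - x3), sq_nonneg (x2 - R),
      sq_nonneg (x2 - γ), sq_nonneg (x2 - x6), sq_nonneg (x3 - R), sq_nonneg (x3 - γ),
      sq_nonneg (x3 - x6), sq_nonneg (R - γ), sq_nonneg (R - x6), sq_nonneg (γ - x6)]
  refine (pow_le_pow_left₀ X0 h 2).trans ?_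
  rw [mul_pow]
  linarith [mul_le_mul_of_nonneg_left e (show 0 ≤ (L ^ 9) ^ 2 by positivity)]

/-- **closing of TLq against one budget** -/
theorem fin (T0 : ℝ) : ∃ K : ℝ, 1 ≤ K ∧ ∀ {S : Sc} {M : Md} {m : ℕ} {a T : ℝ} {Sb : Finset ℝ}
    {gp : ℝ → ℝ → Prop} {c0 : ℝ} {V kA w : ℕ}
    {a0 a1 b0 b1 p0 d D err C1 δ L r F Γ Gm a' R p g er γ P : ℝ},
    Cq S M m a T Sb gp c0 V kA w a0 a1 b0 b1 p0 d D err C1 δ L r F Γ Gm a' R p g er γ P →
    T ≤ T0 → K ≤ L → ∀ ω s Tg : ℝ, g + er + 1 / ((m : ℝ) + 1) ≤ r ^ 2 * ω → ω ≤ r →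
    a' + Gm + γ + F + P ≤ s → s ≤ r → R ^ 2 ≤ r ^ 3 → γ ^ 2 ≤ r ^ 3 → p ^ 2 ≤ Tg →
    (sb M m a (V + 1) - (a1 + r)) * F ^ 2 ≤ Tg → R ^ 2 ≤ Tg → γ ^ 2 ≤ Tg → r * ω ^ 2 ≤ Tg →
    s ^ 3 ≤ Tg → (sb M m a (w + 1) - M.s S.J) ^ 2 ≤ L ^ 24 * Tg ∧
      ∀ Q : Finset ℕ, (∀ k ∈ Q, S.jl < k ∧ k ≤ S.Jp ∧ a1 + r ≤ M.s k ∧ a1 + r ≤ sb M m a (k + 1)) →
        ∑ k ∈ Q, (M.z k - M.z (k - 1)) * (sb M m a (k + 1) - M.s k) ^ 2 ≤ L ^ 50 * Tg := by
  obtain ⟨K, K1, HK⟩ := close T0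
  refine ⟨K, K1, fun {S M m a T Sb gp c0 V kA w a0 a1 b0 b1 p0 d D err C1 δ L r F Γ Gm a' R p g er γ P}
    h hT hK ω s Tg h1 h2 h3 h4 h5 h6 t1 t2 t3 t4 t5 t6 => ?_⟩
  obtain ⟨H1, H2⟩ := HK h hT hK
  obtain ⟨F0, G0, γ0, a0', P0, -⟩ := h.nn
  have A := h.at'
  have L1 := h.L1
  have r0 := h.r0
  have L0 : 0 < L := by linarith
  have T0' : 0 ≤ Tg := (sq_nonneg p).trans t1
  have s0 : 0 ≤ s := by linarith
  have r1 : r ≤ 1 := by
    have := pw L1 (show 0 < 10 by norm_num) (show 0 ≤ r + F + a' by positivity)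
    linarith [h.s2]
  have rl : r ≤ sb M m a (V + 1) - (a1 + r) := by linarith [h.len]
  have g0 := (abs_nonneg _).trans h.hg
  have e0 := (abs_nonneg _).trans h.he
  obtain ⟨B1, B2⟩ := num4 (B := Aq m r F Gm a' R g er γ P) r0 r1 γ0 F0 G0 a0' P0 (by positivity) h1 h2
    h3 h4 h5 h6 rl t2 t3 t4 t5 t6 rfl
  have B0 : 0 ≤ Aq m r F Gm a' R g er γ P := by unfold Aq; positivity
  have X0 := abs_nonneg (sb M m a (w + 1) - M.s S.J)
  have X2 := num5 L1 r0 r1 F0 G0 a0' X0 (show a' + Gm + F ≤ s by linarith) h4 (by linarith) (by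
    linarith [h.yJ, A.cl.sm A.cl.i3, A.cl.sT, h.hC, h.aj, s_nn A.cl S.j0]) t1 t2 t3 t4 t6 B2 H1
  have Xr : |sb M m a (w + 1) - M.s S.J| ≤ r := by
    have := pw L1 (show 0 < 10 by norm_num)
      (show 0 ≤ Gm + |sb M m a (w + 1) - M.s S.J| + Γ by have := h.Γ0; positivity)
    linarith [h.s1, h.Γ0]
  have w1 := pw L1 (show 21 < 24 by norm_num) T0'
  have w0 : 0 ≤ L ^ 21 * Tg := by positivity
  refine ⟨by rw [← sq_abs]; linarith, fun Q hQ => ?_⟩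
  have C1 := h.crude (by linarith) hQ
  have C2 := (H2 _ le_rfl).2 Q hQ
  have w2 := pw L1 (show 0 < 21 by norm_num) T0'
  have w3 := pw L1 (show 21 < 22 by norm_num) T0'
  have w4 := pw L1 (show 22 < 23 by norm_num) T0'
  have w5 := pw L1 (show 23 < 26 by norm_num) T0'
  rw [show L ^ 50 * Tg = L ^ 24 * (L ^ 26 * Tg) by ring]
  generalize |sb M m a (w + 1) - M.s S.J| = X at *
  generalize Aq m r F Gm a' R g er γ P = B at *
  rcases le_total (X ^ 2) (r ^ 3) with c | c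
  · refine C2.trans (mul_le_mul_of_nonneg_left ?_ (by positivity))
    have Y0 : 0 ≤ (B + X ^ 2) / r ^ 2 := by positivity
    have Y1 : (B + X ^ 2) / r ^ 2 ≤ 7 * r := by
      rw [div_le_iff₀ (by positivity)]; linarith
    have Y2 : r * ((B + X ^ 2) / r ^ 2) ^ 2 ≤ 72 * Tg + 2 * X ^ 2 := by
      rw [show r * ((B + X ^ 2) / r ^ 2) ^ 2 = (B + X ^ 2) ^ 2 / r ^ 3 by field_simp,
        div_le_iff₀ (by positivity)]
      linarith [mul_le_mul_of_nonneg_left c (sq_nonneg X), sq_nonneg (B - X ^ 2)]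
    generalize (B + X ^ 2) / r ^ 2 = Y at *
    have Y3 : Y ^ 3 ≤ 7 * (r * Y ^ 2) := by linarith [mul_le_mul_of_nonneg_left Y1 (sq_nonneg Y)]
    have X3 : X ^ 3 ≤ X ^ 2 := by linarith [mul_le_mul_of_nonneg_left (Xr.trans r1) (sq_nonneg X)]
    have Z : (a' + Gm + γ + F + X + Y) ^ 3 ≤ 9 * (s ^ 3 + X ^ 3 + Y ^ 3) :=
      (pow_le_pow_left₀ (by positivity) (show _ ≤ s + X + Y by linarith) 3).trans (by
        have q : ∀ u v : ℝ, 0 ≤ u → 0 ≤ v → 0 ≤ (u + v) * (u - v) ^ 2 := fun u v a b => by positivity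
        nlinarith only [q s X s0 X0, q s Y s0 Y0, q X Y X0 Y0, mul_nonneg s0 (sq_nonneg (X - Y)),
          mul_nonneg X0 (sq_nonneg (s - Y)), mul_nonneg Y0 (sq_nonneg (s - X))])
    linarith only [t2, t3, t4, t6, X2, Y2, Y3, X3, Z, w0, w2, w3, w4, w5, T0']
  · refine C1.trans (mul_le_mul_of_nonneg_left ?_ (by positivity))
    have Z : (a' + Gm + γ + F + X + r) ^ 3 ≤ (3 * r) ^ 3 :=
      pow_le_pow_left₀ (by positivity) (by linarith) 3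
    linarith only [t2, t3, t4, c, X2, Z, w0, w2, w3, w4, w5, T0']

end Crest.Agent.T156.Alt.Mp9.Q34
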