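import Crest.Agent.T156.TauF_65

/-!
# Row 156, block (L): the fine margin in the form of the net `Ng` (helper65)
-/

set_option autoImplicit false

noncomputable section

namespace Crest.Agent.T156.Alt.Gd65

open Real Finset
open Crest.Agent.T156.Alt.Mp9 Crest.Agent.T156.Alt.Sz9 Crest.Agent.T156.Alt.L69
open Crest.Agent.T156.Alt.G89 (Ug Tau)

theorem interp {g w X Y e y : ℝ} (g0 : 0 ≤ g) (w0 : 0 ≤ w) (X0 : 0 ≤ X) (Y0 : 0 ≤ Y) (e0 : 0 ≤ e)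
    (hy : y ^ 3 = g ^ 4 * w ^ 6 * X) (h0 : (w ^ 2) ^ 3 * X ^ 4 ≤ Y ^ 7)
    (h1 : g ^ 5 * w ^ 5 ≤ e ^ 2) (h2 : g * w ^ 3 * Y ≤ e ^ 2) (h3 : Y ^ 3 ≤ e ^ 2) : y ≤ e := by
  rcases le_total 1 (g ^ 7 * w) with c | c
  · refine le_of_pow_le_pow_left₀ (n := 36) (by norm_num) e0 ?_
    calc y ^ 36 = (y ^ 3) ^ 12 := by ring
      _ = 1 * (g ^ 48 * w ^ 72 * X ^ 12) := by rw [hy]; ring
      _ ≤ g ^ 7 * w * (g ^ 48 * w ^ 72 * X ^ 12) := mul_le_mul_of_nonneg_right c (by positivity)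
      _ = (g ^ 5 * w ^ 5) ^ 11 * ((w ^ 2) ^ 3 * X ^ 4) ^ 3 := by ring
      _ ≤ (e ^ 2) ^ 11 * (Y ^ 7) ^ 3 := by gcongr
      _ = (e ^ 2) ^ 11 * (Y ^ 3) ^ 7 := by ring
      _ ≤ (e ^ 2) ^ 11 * (e ^ 2) ^ 7 := by gcongr
      _ = _ := by ring
  · refine le_of_pow_le_pow_left₀ (n := 24) (by norm_num) e0 ?_
    calc y ^ 24 = (y ^ 3) ^ 8 := by ring
      _ = (g ^ 7 * w) ^ 3 * (g ^ 11 * w ^ 45 * X ^ 8) := by rw [hy]; ring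
      _ ≤ 1 ^ 3 * (g ^ 11 * w ^ 45 * X ^ 8) := by gcongr
      _ = (g * w ^ 3) ^ 11 * ((w ^ 2) ^ 3 * X ^ 4) ^ 2 := by ring
      _ ≤ (g * w ^ 3) ^ 11 * (Y ^ 7) ^ 2 := by gcongr
      _ = (g * w ^ 3 * Y) ^ 11 * Y ^ 3 := by ring
      _ ≤ (e ^ 2) ^ 11 * e ^ 2 := by gcongr
      _ = _ := by ring

variable {S : Sc} {M : Md} {m : ℕ} {a T : ℝ}

section num

variable {E l0 l V X Lg X2 X3 G0 : ℝ} {η : ℝ → ℝ}

/-- `uf ^ 2 X ^ (1/3) ≤ η 1` -/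
theorem uf_eta (h : Cl S M) (N : LN E S M l0 l V X Lg X2 X3 G0 η) (E2 : 2 ≤ E) (hθ : S.θ ≤ 1) :
    (Lg ^ ((2 : ℝ) / 3) * w1 S 1) ^ 2 * X ^ ((1 : ℝ) / 3) ≤ η 1 := by
  have F1 := h.F1
  have n0 := h.N0
  have t0 := h.θ0
  have E0 : 0 < E := by linarith
  have g1 : 1 ≤ Lg := le_trans (one_le_mul_of_one_le_of_one_le (by linarith) (one_le_pow₀ F1)) N.Lg0
  have g0 : 0 ≤ Lg := by linarith
  have l0' : 0 ≤ l0 := (mul_nonneg E0.le (h.s_nn _)).trans N.l0s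
  have l' := l0'.trans N.l0l
  have l1 : l ≤ 1 := by nlinarith [N.l1]
  have X20 : 0 ≤ X2 := (mul_nonneg l0' (sq_nonneg _)).trans N.x2a
  have X30 : 0 ≤ X3 := (mul_nonneg l0' (by positivity)).trans N.x3a
  have G00 : 0 ≤ G0 := (mul_nonneg l0' (sq_nonneg _)).trans N.g0a
  have m1 : mf S 1 ≤ S.θ := div_le_self t0.le F1
  have ms1 := h.ms_pos zero_le_one
  have p1 : 0 ≤ S.w3 1 := by unfold Sc.w3; positivity
  have w0 : 0 ≤ w1 S 1 := rpow_nonneg p1 _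
  have w3 : w1 S 1 ^ 3 = gg S 1 := by unfold w1; rw [cb3 p1]; unfold Sc.w3 gg; rw [mul_one]
  obtain ⟨-, -, u2⟩ := Ug_le h g1 one_pos
  have v0 : 0 ≤ uw S Lg 1 := le_trans (by positivity) u2
  have c1 : 1 ≤ cr S 1 := le_max_left _ _
  have b := N.ηb 1 l1 h.C1
  have b0 : 0 ≤ min (S.ms 1 / 1) 1 := le_min (div_pos t0 one_pos).le zero_le_one
  have s1 : √(Lg * w1 S 1 ^ 3) ≤ √(Lg * cr S 1 * gg S 1) := by
    rw [← w3]
    exact sqrt_le_sqrt (mul_le_mul_of_nonneg_right (le_mul_of_one_le_right g0 c1) (by positivity))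
  have b1 : (√(Lg * w1 S 1 ^ 3) + X2) * (Lg ^ 2 * w1 S 1 + √X2) ≤ η 1 := by
    refine (mul_le_mul (show _ ≤ √(Lg * cr S 1 * gg S 1) + G0 + X2 by linarith)
      (add_le_add_left u2 _) (by positivity) (by positivity)).trans (le_trans ?_ b)
    have : 0 ≤ uw S Lg 1 ^ 3 := by positivity
    have : 0 ≤ uw S Lg 1 ^ 2 * min (S.ms 1 / 1) 1 := by positivity
    have : 0 ≤ 1 / (S.n : ℝ) := by positivity
    linarith
  have q0 : √(Lg * w1 S 1 ^ 3) ^ 2 = Lg * w1 S 1 ^ 3 := sq_sqrt (by positivity)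
  have q1 : √X2 ^ 2 = X2 := sq_sqrt X20
  have r0 := sqrt_nonneg (Lg * w1 S 1 ^ 3)
  have r1 := sqrt_nonneg X2
  generalize √(Lg * w1 S 1 ^ 3) = r at *
  generalize √X2 = x at *
  have z1 : 0 ≤ r * (Lg ^ 2 * w1 S 1) := by positivity
  have z2 : 0 ≤ r * x := by positivity
  have z3 : 0 ≤ X2 * (Lg ^ 2 * w1 S 1) := by positivity
  have z4 : 0 ≤ X2 * x := by positivity
  have y1 := pow_le_pow_left₀ z1 (show _ ≤ η 1 by linarith) 2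
  have y2 := pow_le_pow_left₀ z2 (show _ ≤ η 1 by linarith) 2
  have y3 := pow_le_pow_left₀ z4 (show _ ≤ η 1 by linarith) 2
  rw [mul_pow, q0] at y1
  rw [mul_pow, q0, q1] at y2
  rw [mul_pow, q1] at y3
  have X0 := N.X0
  have X1 : X ≤ 1 := by nlinarith [N.X1]
  have d2 : E * X2 ≤ mf S 1 :=
    N.th3.trans (div_le_div_of_nonneg_right (h.msm l1) (by linarith))
  have k1 : 1 ≤ cl S V 1 := by unfold cl; linarith [N.V0]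
  have k2 : w1 S 1 ^ 2 ≤ ws S V 1 ^ 2 := pow_le_pow_left₀ w0 (by
    unfold ws; rw [div_one]; exact le_mul_of_one_le_left w0 k1) 2
  have x' := N.x2b 1 (N.l0l.trans l1) h.C1
  rw [one_mul, one_mul, min_eq_left (X1.trans (one_le_pow₀ k1)), min_le_iff] at x'
  have x' := x'.resolve_left (not_le.2 (by nlinarith [one_le_pow₀ (n := 2) k1]))
  have x2 : (w1 S 1 ^ 2) ^ 3 * X ^ 4 ≤ X2 ^ 7 := by
    have y := pow_le_pow_left₀ (by positivity)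
      (show (ws S V 1 ^ 2) ^ ((3 : ℝ) / 7) * X ^ ((4 : ℝ) / 7) ≤ X2 by
        linarith [sq_nonneg (ws S V 1)]) 7
    rw [mul_pow, ← rpow_natCast, ← rpow_natCast (X ^ _), ← rpow_mul (sq_nonneg _),
      ← rpow_mul X0.le, show (3 : ℝ) / 7 * (7 : ℕ) = (3 : ℕ) by norm_num,
      show (4 : ℝ) / 7 * (7 : ℕ) = (4 : ℕ) by norm_num, rpow_natCast, rpow_natCast] at y
    exact (mul_le_mul_of_nonneg_right (pow_le_pow_left₀ (sq_nonneg _) k2 3) (by positivity)).trans y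
  have x4 : (Lg ^ ((2 : ℝ) / 3)) ^ 3 = Lg ^ 2 := by
    rw [← rpow_natCast, ← rpow_mul g0, show (2 : ℝ) / 3 * (3 : ℕ) = (2 : ℕ) by norm_num,
      rpow_natCast]
  refine interp g0 w0 X0.le X20 (by linarith) ?_ x2 (by linarith) y2 (by linarith)
  calc _ = ((Lg ^ ((2 : ℝ) / 3)) ^ 3) ^ 2 * w1 S 1 ^ 6 * (X ^ ((1 : ℝ) / 3)) ^ 3 := by ring
    _ = _ := by rw [x4, cb3 X0.le]; ring

theorem uf_le (h : Cl S M) (g0 : 0 ≤ Lg) : Lg ^ ((2 : ℝ) / 3) * w1 S 1 ≤ Ug S Lg 1 := by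
  have := h.F1; have := h.N0; have := h.ms_pos zero_le_one
  exact mul_le_mul_of_nonneg_right (rpow_le_rpow g0 (le_mul_of_one_le_right g0 (le_max_left _ _))
    (by norm_num)) (by unfold w1 Sc.w3; positivity)

theorem tf_eta {Xp Vt Lp G1 u1 u2 j γ Lc ηc τ N' : ℝ} (h : Cl S M)
    (N : LN E S M l0 l V X Lg X2 X3 G0 η)
    (P : LP E S M Xp Vt Lg Lp X2 X3 G0 G1 u1 u2 j γ Lc ηc τ η N') (E2 : 2 ≤ E) (hθ : S.θ ≤ 1)
    (j0 : 0 ≤ j) : tf S Lg X γ τ η ≤ 2 * (τ + (η 1 + Ug S Lg 1 ^ 2 * γ) / mf S 1) := by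
  obtain ⟨g1, g0, -, -, m0, -, η0, -, d1, -, w0, -⟩ := facts h N P E2 hθ j0
  have a1 := uf_eta h N E2 hθ
  have a2 := mul_le_mul_of_nonneg_right (pow_le_pow_left₀ (by positivity)
    (uf_le h (zero_le_one.trans g1)) 2) g0
  have a3 : η 1 + ey S Lg X γ ≤ 2 * (η 1 + Ug S Lg 1 ^ 2 * γ) := by
    unfold ey; linarith [show 0 ≤ Ug S Lg 1 ^ 2 * γ by positivity]
  have a4 := div_le_div_of_nonneg_right a3 m0.le
  rw [mul_div_assoc] at a4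
  unfold tf
  linarith

end num

/-- **(TauG)** -/
def TauG : Prop := CL fun E Λ S M m a =>
  ∀ l0 l V X Lg X2 X3 G0 η Xp Vt Lp G1 u1 u2 j γ Lc ηc τ N' T,
  LN E S M l0 l V X Lg X2 X3 G0 η → LP E S M Xp Vt Lg Lp X2 X3 G0 G1 u1 u2 j γ Lc ηc τ η N' →
  S.F ^ 40 ≤ E → Ap S M m a l0 X Xp Vt u1 j → At S M m a T → T ≤ 2 * S.C →
  ∃ D1 τ1, Tau E S M m a T Lg D1 τ1 η ∧ 0 ≤ τ1 ∧
    0 ≤ S.F * (τ + (η 1 + Ug S Lg 1 ^ 2 * γ) / mf S 1) ∧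
    τ1 ≤ Λ * (S.F * (τ + (η 1 + Ug S Lg 1 ^ 2 * γ) / mf S 1))

theorem tauG : TauG := by
  refine CL.glue' tauF (fun E Λ Λ' S M m a h1 h2 H l0 l V X Lg X2 X3 G0 η Xp Vt Lp G1 u1 u2 j γ Lc ηc
    τ N' T N P f Z B hT => ?_) 0 le_rfl 1 2 fun C A ε η _ _ => ⟨2, ?_⟩
  · obtain ⟨D1, τ1, p1, p2, p3, p4⟩ := H l0 l V X Lg X2 X3 G0 η Xp Vt Lp G1 u1 u2 j γ Lc ηc τ N' T N P
      f Z B hT
    exact ⟨D1, τ1, p1, p2, p3, p4.trans (mul_le_mul_of_nonneg_right h2 p3)⟩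
  intro S M m a G _ e _ h _ H l0 l V X Lg X2 X3 G0 η' Xp Vt Lp G1 u1 u2 j γ Lc ηc τ N' T N P f Z B hT
  rw [pow_one] at *
  obtain ⟨D1, τ1, p1, p2, p3, p4, -⟩ := H l0 l V X Lg X2 X3 G0 η' Xp Vt Lp G1 u1 u2 j γ Lc ηc τ N' T N
    P f Z B hT
  have L1 := G.K_le
  have hE := L1.trans (Pre29.rp_le G.n1 (show η ≤ ε by simpa using e))
  have j0 : 0 ≤ j := le_trans (by positivity) Z.j0
  have b := tf_eta h N P hE (G.θ1 h) j0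
  obtain ⟨-, g0, -, -, m0, -, η0, -⟩ := facts h N P hE (G.θ1 h) j0
  have F1 := h.F1
  generalize (S.n : ℝ) ^ η = Λ at *
  have z : 0 ≤ S.F * (τ + (η' 1 + Ug S Lg 1 ^ 2 * γ) / mf S 1) := by positivity
  refine ⟨D1, τ1, p1, le_trans (by positivity) p3, z, p4.trans ?_⟩
  linarith [mul_le_mul_of_nonneg_left b (show 0 ≤ Λ * S.F by positivity),
    mul_le_mul_of_nonneg_right L1 (mul_nonneg (show 0 ≤ Λ by linarith) z)]

end Crest.Agent.T156.Alt.Gd65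

end
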