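import Crest.Agent.T156.SRDef2_19
import Crest.Agent.T156.SrMem_29
import Crest.Agent.T156.LDef_69

/-!
# Row 156, SR, terminal statement: the numbers (helper92)
-/

set_option autoImplicit false
set_option linter.unusedSectionVars false

noncomputable section

namespace Crest.Agent.T156.Alt.Tm92

open Real Finset Filter Pre29 Sr L69

/-- the margin -/
def KK : ℕ := 10000
def Zz (E : ℝ) : ℝ := E ^ KK
def mu0 (E u : ℝ) : ℝ := u / E ^ 9
def Xx (E Y : ℝ) : ℝ := 2 * (E ^ 100 * Y)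
def Tt (E Y : ℝ) : ℝ := Y / E ^ 12
def sg (S : Sc) : ℝ := (S.n : ℝ) ^ (-(1 : ℝ) / 300)

section
variable (E : ℝ) (S : Sc) (M : Md) (Y D u : ℝ)

/-- the scale of the auxiliary model -/
abbrev Su : Sc := scU E (8 * S.C) S M Y D u
/-- the free energy level -/
def Xi : ℝ := Tt E Y * max (mu0 E u) (Zz E ^ 29 * nu S)
def ll : ℝ := max (E ^ 360 * M.s S.jl)
  (sg S * min ((Tt E Y * mu0 E u) ^ ((1 : ℝ) / 5)) (Tt E Y ^ ((1 : ℝ) / 3)))
/-- budgets `B` with `t B ≤ En t` -/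
def B4 : ℝ := E ^ (10 ^ 7) * (S.n : ℝ) ^ (-(203 : ℝ) / 300)
def B7 : ℝ := E ^ (10 ^ 7) * M.s S.jl ^ 5
def Bd : ℝ := max (Xi E S Y u) (max (B4 E S) (B7 E S M))
def X2o : ℝ := min (min (sg S ^ 2 * mu0 E u) (sg S * √(Tt E Y * mu0 E u)))
  (Zz E ^ 27 * Tt E Y * mu0 E u / nu S)
def X2 : ℝ := min (X2o E S Y u)
  ((S.n : ℝ) ^ ((1 : ℝ) / 11) * Bd E S M Y u ^ ((2 : ℝ) / 3) / Zz E ^ 6)
def X3 : ℝ := mu0 E u * min (min (√(mu0 E u)) (ll E S M Y u)) (√(Tt E Y)) / E ^ 370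
def Gp : ℝ := √(E ^ 60 * min (Yd KK E Y) ((S.n : ℝ) ^ (-(249 : ℝ) / 500)) * √(Xx E Y))
def G0 : ℝ := E ^ 5001 * nu S + X2 E S M Y u + Gp E S Y
def ff (t : ℝ) : ℝ := uw (Su E S M Y D u) (Zz E) t ^ 3 + Zz E ^ 4 * E ^ 18 * nu S ^ 2 / t +
  3 * G0 E S M Y u * (uw (Su E S M Y D u) (Zz E) t + √(X2 E S M Y u)) + 2 * X3 E S M Y u
def eta (t : ℝ) : ℝ := ff E S M Y D u (max t (ll E S M Y u))
/-- crude excess -/
def Vv : ℝ := cr (Su E S M Y D u) (ll E S M Y u) * ll E S M Y u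
end

/-- the context -/
structure Tx (E : ℝ) (S : Sc) (M : Md) (l lm Ys Y u : ℝ) : Prop where
  cx : M29.Cx E S M l Ys Y
  sx : SX KK E S M l lm Ys Y
  u0 : E ^ 8 * nuY KK E S Y ≤ u
  u1 : u ≤ 1 / E

namespace Tx

variable {E : ℝ} {S : Sc} {M : Md} {l lm Ys Y u : ℝ} (X : Tx E S M l lm Ys Y u)
include X

theorem cl : Cl S M := X.cx.cl
theorem N0 : (0 : ℝ) < S.n := X.cl.N0
theorem N1 : (1 : ℝ) < S.n := by
  have : (3 : ℝ) ≤ S.n := by exact_mod_cast X.cx.n3
  linarith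
theorem E0 : 0 < E := X.cx.E0
theorem E1 : 1 ≤ E := X.cx.E1
theorem Y0 : 0 < Y := X.cx.Y0
theorem nu0 : 0 < nu S := X.cx.nu0
theorem Z0 : 0 < Zz E := pow_pos X.E0 _
theorem Yd0 : 0 < Yd KK E Y := div_pos X.Y0 (pow_pos X.E0 _)
theorem nu_u : nu S ≤ u := by
  have := le_max_left (nu S) (Y / E ^ KK)
  have b := le_mul_of_one_le_left (X.nu0.le.trans this) (one_le_pow₀ (n := 8) X.E1)
  exact this.trans (b.trans X.u0)
theorem u_pos : 0 < u := X.nu0.trans_le X.nu_u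
theorem mu_pos : 0 < mu0 E u := div_pos X.u_pos (pow_pos X.E0 _)
theorem X0 : 0 < Xx E Y := by have := X.E0; have := X.Y0; unfold Xx; positivity
theorem T0 : 0 < Tt E Y := div_pos X.Y0 (pow_pos X.E0 _)
theorem sg0 : 0 < sg S := rpow_pos_of_pos X.N0 _
theorem sj0 : 0 < M.s S.jl := X.cl.s_pos (X.cl.i0.trans X.cl.i1)
theorem sj_l : E ^ 360 * M.s S.jl ≤ ll E S M Y u := le_max_left _ _
theorem l0 : 0 < ll E S M Y u := (mul_pos (pow_pos X.E0 _) X.sj0).trans_le X.sj_l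
theorem sj_l' : M.s S.jl ≤ ll E S M Y u :=
  (le_mul_of_one_le_left X.sj0.le (one_le_pow₀ X.E1)).trans X.sj_l
theorem Xi0 : 0 < Xi E S Y u := mul_pos X.T0 (X.mu_pos.trans_le (le_max_left _ _))
theorem Bd0 : 0 < Bd E S M Y u := X.Xi0.trans_le (le_max_left _ _)
theorem X20 : 0 < X2 E S M Y u := by
  have := X.sg0; have := X.mu_pos; have := X.T0; have := X.Z0; have := X.nu0; have := X.Bd0
  have := X.N0
  unfold X2 X2o; positivity
theorem X30 : 0 < X3 E S M Y u := by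
  have := X.mu_pos; have := X.T0; have := X.l0; have := X.E0
  unfold X3; positivity
theorem Gp0 : 0 < Gp E S Y := by
  have := X.Yd0; have := X.X0; have := X.N0; have := X.E0
  unfold Gp; positivity
theorem G00 : 0 < G0 E S M Y u := by
  have := X.X20; have := X.Gp0; have := X.nu0; have := X.E0
  unfold G0; positivity

/-! ### exponents -/

theorem le_of_lg {x y : ℝ} (hx : 0 < x) (hy : 0 < y) (h : logb S.n x ≤ logb S.n y) : x ≤ y :=
  (logb_le_logb X.N1 hx hy).1 h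
theorem lg_mono {x y : ℝ} (hx : 0 < x) (h : x ≤ y) : logb S.n x ≤ logb S.n y :=
  logb_le_logb_of_le X.N1 hx h
theorem lg_n : logb (S.n : ℝ) S.n = 1 := logb_self_eq_one X.N1
theorem lg_rp (a : ℝ) : logb S.n ((S.n : ℝ) ^ a) = a := logb_rpow X.N0 X.N1.ne'
theorem lg_nn {x : ℝ} (hx : 1 ≤ x) : 0 ≤ logb S.n x := logb_nonneg X.N1 hx
theorem lg_E : 0 ≤ logb S.n E ∧ 10 ^ 12 * logb S.n E ≤ 1 := by
  have a := X.lg_mono (pow_pos X.E0 _) X.sx.sm
  rw [logb_pow, X.lg_n] at a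
  refine ⟨X.lg_nn X.E1, ?_⟩
  have e : ((KK ^ 3 : ℕ) : ℝ) = 10 ^ 12 := by norm_num [KK]
  rwa [e] at a
/-- constants -/
theorem lg_num {x : ℝ} (hx : 1 ≤ x) (h : x ≤ 1000) : 0 ≤ logb S.n x ∧ logb S.n x ≤ logb S.n E :=
  ⟨X.lg_nn hx, X.lg_mono (by linarith) (h.trans X.cx.E3)⟩
theorem lg_C : 0 ≤ logb S.n (8 * S.C) ∧ logb S.n (8 * S.C) ≤ logb S.n E :=
  ⟨X.lg_nn (by linarith [X.cl.C1]), X.lg_mono (by linarith [X.cl.C1])
    (by linarith [X.cx.CE1, X.cl.C1])⟩
theorem lg_nu : logb S.n (nu S) = -1 / 3 := X.lg_rp _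
theorem lg_sg : logb S.n (sg S) = -1 / 300 := X.lg_rp _
theorem lg_Z : logb S.n (Zz E) = 10000 * logb S.n E := by
  rw [Zz, logb_pow]; norm_num [KK]
theorem lg_Yd : logb S.n (Yd KK E Y) = logb S.n Y - 10 ^ 8 * logb S.n E := by
  rw [Yd, logb_div X.Y0.ne' (pow_pos X.E0 _).ne', logb_pow]; norm_num [KK]
theorem lg_Y : 10 ^ 8 * logb S.n E - 1 / 2 ≤ logb S.n Y ∧
    logb S.n Y + 200 * logb S.n E ≤ -1 / 10 := by
  have a := X.lg_mono (rpow_pos_of_pos X.N0 _) X.sx.big.Y0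
  have b := X.lg_mono (mul_pos (pow_pos X.E0 _) X.Y0) X.cx.sh.Y1
  rw [X.lg_rp] at a b
  rw [X.lg_Yd] at a
  rw [logb_mul (pow_pos X.E0 _).ne' X.Y0.ne', logb_pow] at b
  push_cast at b
  constructor <;> linarith
theorem lg_T : logb S.n (Tt E Y) = logb S.n Y - 12 * logb S.n E := by
  rw [Tt, logb_div X.Y0.ne' (pow_pos X.E0 _).ne', logb_pow]; norm_num
theorem lg_X : logb S.n Y + 100 * logb S.n E ≤ logb S.n (Xx E Y) ∧
    logb S.n (Xx E Y) ≤ logb S.n Y + 101 * logb S.n E := by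
  have := X.E0; have := X.Y0
  have a := X.lg_num (x := 2) (by norm_num) (by norm_num)
  rw [Xx]; lg_norm; constructor <;> linarith
theorem lg_u : logb S.n u = logb S.n (mu0 E u) + 9 * logb S.n E := by
  rw [mu0, logb_div X.u_pos.ne' (pow_pos X.E0 _).ne', logb_pow]; norm_num
theorem lg_mu : -1 / 3 - logb S.n E ≤ logb S.n (mu0 E u) ∧
    logb S.n Y - 10001 * logb S.n E ≤ logb S.n (mu0 E u) ∧
    logb S.n (mu0 E u) ≤ -10 * logb S.n E := by
  have := X.E0; have := X.Y0; have := X.nu0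
  have a := X.lg_mono (by positivity) ((mul_le_mul_of_nonneg_left (le_max_left _ _)
    (pow_pos X.E0 8).le).trans X.u0)
  have b := X.lg_mono (by positivity) ((mul_le_mul_of_nonneg_left (le_max_right _ _)
    (pow_pos X.E0 8).le).trans X.u0)
  have c := X.lg_mono X.u_pos X.u1
  have e : ((KK : ℕ) : ℝ) = 10000 := by norm_num [KK]
  revert a b c
  lg_norm
  rw [e, X.lg_u, X.lg_nu]
  intro a b c
  refine ⟨?_, ?_, ?_⟩ <;> linarith
theorem lg_sj : 100000 * logb S.n E - 1 / 6 ≤ logb S.n (M.s S.jl) ∧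
    3 * logb S.n (M.s S.jl) ≤ logb S.n Y - 10 ^ 8 * logb S.n E ∧
    3 * logb S.n (M.s S.jl) ≤ -1 / 3 - 1 / 140 := by
  have := X.E0; have := X.N0; have := X.sj0
  have a := X.lg_mono (by positivity) X.sx.big.rt
  have b := X.lg_mono (by positivity)
    ((pow_le_pow_left₀ X.sj0.le X.sx.big.jl 3).trans X.sx.big.l3)
  have c := X.lg_mono (by positivity) X.sx.jl4
  have e : ((KK : ℕ) : ℝ) = 10000 := by norm_num [KK]
  rw [X.lg_Yd] at b
  rw [X.lg_nu] at c
  revert a b c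
  lg_norm
  rw [e, X.lg_n]
  intro a b c
  refine ⟨?_, ?_, ?_⟩ <;> linarith
/-- the level `l`: exact form -/
theorem lg_l_eq : logb S.n (ll E S M Y u) = max (360 * logb S.n E + logb S.n (M.s S.jl))
    (-1 / 300 + min ((logb S.n (Tt E Y) + logb S.n (mu0 E u)) / 5) (logb S.n (Tt E Y) / 3)) := by
  have := X.E0; have := X.sj0; have := X.T0; have := X.mu_pos; have := X.sg0
  rw [ll, lg_max X.N1 (by positivity) (by positivity), logb_mul X.sg0.ne' (by positivity),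
    lg_min X.N1 (by positivity) (by positivity), X.lg_sg]
  lg_norm
  congr 2
  congr 1 <;> ring
/-- the level `l`: lower bounds -/
theorem lg_l_lo : 100360 * logb S.n E - 1 / 6 ≤ logb S.n (ll E S M Y u) ∧
    (-1 / 300 + (logb S.n (Tt E Y) + logb S.n (mu0 E u)) / 5 ≤ logb S.n (ll E S M Y u) ∨
      -1 / 300 + logb S.n (Tt E Y) / 3 ≤ logb S.n (ll E S M Y u) ∧
        2 * logb S.n (Tt E Y) ≤ 3 * logb S.n (mu0 E u)) := by
  rw [X.lg_l_eq]
  refine ⟨le_max_of_le_left (by linarith [X.lg_sj.1]), ?_⟩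
  rcases le_total ((logb S.n (Tt E Y) + logb S.n (mu0 E u)) / 5) (logb S.n (Tt E Y) / 3) with h | h
  · rw [min_eq_left h]; exact .inl (le_max_right _ _)
  · rw [min_eq_right h]; exact .inr ⟨le_max_right _ _, by linarith⟩
/-- the level `l`: upper bounds -/
theorem lg_l_hi : 3 * logb S.n (ll E S M Y u) ≤ logb S.n (Tt E Y) - 10 ^ 7 * logb S.n E ∧
    3 * logb S.n (ll E S M Y u) ≤ logb S.n (mu0 E u) - 1 / 145 ∧
    6 * logb S.n (ll E S M Y u) ≤ logb S.n (Tt E Y) + logb S.n (mu0 E u) - 1 / 145 ∧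
    logb S.n (ll E S M Y u) ≤ -1 / 30 := by
  obtain ⟨a1, a2, a3⟩ := X.lg_sj
  obtain ⟨b1, b2, b3⟩ := X.lg_mu
  obtain ⟨c1, c2⟩ := X.lg_Y
  obtain ⟨d1, d2⟩ := X.lg_E
  have t := X.lg_T
  rw [X.lg_l_eq]
  have m1 := min_le_left ((logb S.n (Tt E Y) + logb S.n (mu0 E u)) / 5) (logb S.n (Tt E Y) / 3)
  have m2 := min_le_right ((logb S.n (Tt E Y) + logb S.n (mu0 E u)) / 5) (logb S.n (Tt E Y) / 3)
  rcases le_total (360 * logb S.n E + logb S.n (M.s S.jl))
    (-1 / 300 + min ((logb S.n (Tt E Y) + logb S.n (mu0 E u)) / 5) (logb S.n (Tt E Y) / 3)) with h | h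
  · rw [max_eq_right h]; refine ⟨?_, ?_, ?_, ?_⟩ <;> linarith
  · rw [max_eq_left h]; refine ⟨?_, ?_, ?_, ?_⟩ <;> linarith
/-- upper bounds of `X2` -/
theorem lg_X2 : logb S.n (X2 E S M Y u) ≤ logb S.n (mu0 E u) - 1 / 150 ∧
    logb S.n (X2 E S M Y u) ≤ (logb S.n (Tt E Y) + logb S.n (mu0 E u)) / 2 - 1 / 300 ∧
    logb S.n (X2 E S M Y u) ≤
      270000 * logb S.n E + logb S.n (Tt E Y) + logb S.n (mu0 E u) + 1 / 3 := by
  have := X.T0; have := X.mu_pos; have := X.sg0; have := X.Z0; have := X.nu0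
  have a := X.lg_mono X.X20 ((min_le_left _ _).trans ((min_le_left _ _).trans (min_le_left _ _)))
  have b := X.lg_mono X.X20 ((min_le_left _ _).trans ((min_le_left _ _).trans (min_le_right _ _)))
  have c := X.lg_mono X.X20 ((min_le_left _ _).trans (min_le_right _ _))
  revert a b c
  lg_norm
  rw [X.lg_sg, X.lg_Z, X.lg_nu]
  intro a b c
  refine ⟨?_, ?_, ?_⟩ <;> linarith
theorem lg_X2' : logb S.n (X2 E S M Y u) ≤
    1 / 11 + 2 / 3 * logb S.n (Bd E S M Y u) - 60000 * logb S.n E := by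
  have := X.Bd0; have := X.Z0; have := X.N0
  have a := X.lg_mono X.X20 (min_le_right _ _)
  revert a
  lg_norm
  rw [X.lg_Z, X.lg_n]
  intro a
  linarith
/-- lower bound of `X2` -/
theorem le_X2 {x : ℝ} (hx : 0 < x) (h1 : logb S.n x ≤ logb S.n (mu0 E u) - 1 / 150)
    (h2 : logb S.n x ≤ (logb S.n (Tt E Y) + logb S.n (mu0 E u)) / 2 - 1 / 300)
    (h3 : logb S.n x ≤ 270000 * logb S.n E + logb S.n (Tt E Y) + logb S.n (mu0 E u) + 1 / 3)
    (h4 : logb S.n x ≤ 1 / 11 + 2 / 3 * logb S.n (Bd E S M Y u) - 60000 * logb S.n E) :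
    x ≤ X2 E S M Y u := by
  have := X.T0; have := X.mu_pos; have := X.sg0; have := X.Z0; have := X.nu0; have := X.Bd0
  have := X.N0
  refine le_min (le_min (le_min ?_ ?_) ?_) ?_ <;> refine X.le_of_lg hx (by positivity) ?_ <;> lg_norm
  · rw [X.lg_sg]; linarith
  · rw [X.lg_sg]; linarith
  · rw [X.lg_Z, X.lg_nu]; linarith
  · rw [X.lg_Z, X.lg_n]; linarith
/-- upper bounds of `X3` -/
theorem lg_X3 : logb S.n (X3 E S M Y u) ≤ 3 / 2 * logb S.n (mu0 E u) - 370 * logb S.n E ∧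
    logb S.n (X3 E S M Y u) ≤ logb S.n (mu0 E u) + logb S.n (ll E S M Y u) - 370 * logb S.n E ∧
    logb S.n (X3 E S M Y u) ≤ logb S.n (mu0 E u) + logb S.n (Tt E Y) / 2 - 370 * logb S.n E := by
  have := X.T0; have := X.mu_pos; have := X.l0; have := X.E0
  rw [X3, logb_div (by positivity) (by positivity), logb_mul (by positivity) (by positivity),
    lg_min X.N1 (by positivity) (by positivity), lg_min X.N1 (by positivity) (by positivity)]
  lg_norm
  have a := min_le_left (min (logb S.n (mu0 E u) / 2) (logb S.n (ll E S M Y u)))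
    (logb S.n (Tt E Y) / 2)
  have b := min_le_right (min (logb S.n (mu0 E u) / 2) (logb S.n (ll E S M Y u)))
    (logb S.n (Tt E Y) / 2)
  have c := min_le_left (logb S.n (mu0 E u) / 2) (logb S.n (ll E S M Y u))
  have d := min_le_right (logb S.n (mu0 E u) / 2) (logb S.n (ll E S M Y u))
  refine ⟨?_, ?_, ?_⟩ <;> linarith
/-- lower bound of `X3` -/
theorem le_X3 {x : ℝ} (hx : 0 < x)
    (h1 : logb S.n x ≤ 3 / 2 * logb S.n (mu0 E u) - 370 * logb S.n E)
    (h2 : logb S.n x ≤ logb S.n (mu0 E u) + logb S.n (ll E S M Y u) - 370 * logb S.n E)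
    (h3 : logb S.n x ≤ logb S.n (mu0 E u) + logb S.n (Tt E Y) / 2 - 370 * logb S.n E) :
    x ≤ X3 E S M Y u := by
  have := X.T0; have := X.mu_pos; have := X.l0; have := X.E0
  refine X.le_of_lg hx X.X30 ?_
  rw [X3, logb_div (by positivity) (by positivity), logb_mul (by positivity) (by positivity),
    lg_min X.N1 (by positivity) (by positivity), lg_min X.N1 (by positivity) (by positivity)]
  lg_norm
  have : logb S.n x - logb S.n (mu0 E u) + 370 * logb S.n E ≤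
      min (min (logb S.n (mu0 E u) / 2) (logb S.n (ll E S M Y u))) (logb S.n (Tt E Y) / 2) :=
    le_min (le_min (by linarith) (by linarith)) (by linarith)
  linarith
theorem lg_Gp : 2 * logb S.n (Gp E S Y) = 60 * logb S.n E +
    min (logb S.n Y - 10 ^ 8 * logb S.n E) (-249 / 500) + logb S.n (Xx E Y) / 2 := by
  have := X.Yd0; have := X.X0; have := X.N0; have := X.E0
  rw [Gp, lg_sqrt _ (by positivity), logb_mul (by positivity) (by positivity),
    logb_mul (by positivity) (by positivity), lg_min X.N1 (by positivity) (by positivity), X.lg_Yd,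
    X.lg_rp]
  lg_norm
  ring
/-- the three sizes of `G0` -/
theorem lg_G0 : logb S.n (G0 E S M Y u) ≤ 5002 * logb S.n E - 1 / 3 ∨
    logb S.n (G0 E S M Y u) ≤ logb S.n E + logb S.n (X2 E S M Y u) ∨
    (2 * logb S.n (G0 E S M Y u) ≤ 113 * logb S.n E - 249 / 500 + logb S.n Y / 2 ∧
      2 * logb S.n (G0 E S M Y u) ≤ 3 / 2 * logb S.n Y - 99999887 * logb S.n E) := by
  have := X.X20; have := X.Gp0; have := X.nu0; have := X.E0
  have c := (X.lg_num (x := 3) (by norm_num) (by norm_num)).2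
  have k : ∀ x, 0 < x → G0 E S M Y u ≤ 3 * x → logb S.n (G0 E S M Y u) ≤ logb S.n E + logb S.n x :=
    fun x hx h => by
      have := X.lg_mono X.G00 h
      rw [logb_mul (by norm_num) hx.ne'] at this
      linarith
  have g := X.lg_Gp
  have m1 := min_le_left (logb S.n Y - 10 ^ 8 * logb S.n E) (-249 / 500)
  have m2 := min_le_right (logb S.n Y - 10 ^ 8 * logb S.n E) (-249 / 500)
  have x := X.lg_X.2
  have e := X.lg_E.1
  by_cases h1 : G0 E S M Y u ≤ 3 * (E ^ 5001 * nu S)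
  · have := k _ (by positivity) h1
    rw [logb_mul (by positivity) (by positivity), logb_pow, X.lg_nu] at this
    push_cast at this
    exact .inl (by linarith)
  by_cases h2 : G0 E S M Y u ≤ 3 * X2 E S M Y u
  · exact .inr (.inl (k _ X.X20 h2))
  have := k _ X.Gp0 (by unfold G0 at *; linarith)
  exact .inr (.inr ⟨by linarith, by linarith⟩)
theorem lg_Xi : logb S.n (Tt E Y) + logb S.n (mu0 E u) ≤ logb S.n (Xi E S Y u) ∧
    logb S.n (Tt E Y) + 290000 * logb S.n E - 1 / 3 ≤ logb S.n (Xi E S Y u) := by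
  have := X.T0; have := X.mu_pos; have := X.Z0; have := X.nu0
  rw [Xi, logb_mul (by positivity) (by positivity), lg_max X.N1 (by positivity) (by positivity)]
  lg_norm
  rw [X.lg_Z, X.lg_nu]
  have a := le_max_left (logb S.n (mu0 E u)) (29 * (10000 * logb S.n E) + -1 / 3)
  have b := le_max_right (logb S.n (mu0 E u)) (29 * (10000 * logb S.n E) + -1 / 3)
  constructor <;> linarith
/-- lower bounds of the budget -/
theorem lg_Bd : logb S.n (Tt E Y) + logb S.n (mu0 E u) ≤ logb S.n (Bd E S M Y u) ∧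
    logb S.n (Tt E Y) + 290000 * logb S.n E - 1 / 3 ≤ logb S.n (Bd E S M Y u) ∧
    10 ^ 7 * logb S.n E - 203 / 300 ≤ logb S.n (Bd E S M Y u) ∧
    10 ^ 7 * logb S.n E + 5 * logb S.n (M.s S.jl) ≤ logb S.n (Bd E S M Y u) := by
  have := X.E0; have := X.N0; have := X.sj0
  have a := X.lg_mono X.Xi0 (le_max_left _ (max (B4 E S) (B7 E S M)))
  have b := X.lg_mono (show 0 < B4 E S by unfold B4; positivity)
    ((le_max_left _ (B7 E S M)).trans (le_max_right (Xi E S Y u) _))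
  have c := X.lg_mono (show 0 < B7 E S M by unfold B7; positivity)
    ((le_max_right (B4 E S) _).trans (le_max_right (Xi E S Y u) _))
  rw [B4, logb_mul (by positivity) (by positivity), logb_pow, X.lg_rp] at b
  rw [B7, logb_mul (by positivity) (by positivity), logb_pow, logb_pow] at c
  push_cast at b c
  refine ⟨X.lg_Xi.1.trans a, X.lg_Xi.2.trans a, ?_, ?_⟩
  · exact le_trans (by linarith) b
  · exact le_trans (by linarith) c

end Tx

end Crest.Agent.T156.Alt.Tm92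

end
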