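import Crest.Agent.T156.TermA_92
import Crest.Agent.T156.TermD_71

/-!
# Row 156, SR, terminal statement: the energy levels (helper92)
-/

set_option autoImplicit false
set_option linter.unusedSectionVars false

noncomputable section

namespace Crest.Agent.T156.Alt.Tm92

open Real Finset Filter Pre29 Sr L69

/-- the energy of the level `t` -/
def En (E : ℝ) (S : Sc) (M : Md) (Y D u t : ℝ) : ℝ :=
  max (Tt E Y ^ 2 / t) (Tt E Y * mf (Su E S M Y D u) t)

/-- the part of `X3` that pays the last shell -/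
def x3 (E : ℝ) (S : Sc) : ℝ := E ^ 10 * (S.n : ℝ) ^ (-(101 : ℝ) / 200)
def X3n (E : ℝ) (S : Sc) (M : Md) (Y u : ℝ) : ℝ := X3 E S M Y u + x3 E S

namespace Tx

variable {E : ℝ} {S : Sc} {M : Md} {l lm Ys Y u D t : ℝ} (X : Tx E S M l lm Ys Y u)
include X

theorem mf_eq (t : ℝ) : mf (Su E S M Y D u) t = (S.ms t + u) / E ^ 9 := rfl

theorem mu_le (ht : 0 ≤ t) : mu0 E u ≤ mf (Su E S M Y D u) t :=
  div_le_div_of_nonneg_right (le_add_of_nonneg_left (X.cl.ms_pos ht).le) (pow_pos X.E0 9).le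

theorem ms_le (t : ℝ) : S.ms t / E ^ 9 ≤ mf (Su E S M Y D u) t :=
  div_le_div_of_nonneg_right (le_add_of_nonneg_right X.u_pos.le) (pow_pos X.E0 9).le

theorem mf_pos (ht : 0 ≤ t) : 0 < mf (Su E S M Y D u) t := X.mu_pos.trans_le (X.mu_le ht)

theorem E9Z : E ^ 9 ≤ Zz E := pow_le_pow_right₀ X.E1 (by norm_num [KK])

/-- `D` is in the range of `Dr` -/
theorem dr (h1 : 2 * E ^ 10 * nuY KK E S Y ≤ D) (h2 : D ≤ 3 * E ^ 10 * nuY KK E S Y) :
    Dr E S D := by
  have := X.E0; have := X.Y0; have := X.nu0; have := X.N0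
  refine ⟨le_trans (by gcongr; exact le_max_left _ _) h1,
    (mul_le_mul_of_nonneg_left h2 (by positivity)).trans ?_⟩
  have c := (X.lg_num (x := 3) (by norm_num) (by norm_num)).2
  have e : ((KK : ℕ) : ℝ) = 10000 := by norm_num [KK]
  rw [nuY]
  rcases le_total (nu S) (Y / E ^ KK) with h | h
  · rw [max_eq_right h]
    refine X.le_of_lg (by positivity) (by positivity) ?_
    lg_norm
    rw [e, X.lg_n]
    linarith [X.lg_E.1, X.lg_Y.2]
  · rw [max_eq_left h]
    refine X.le_of_lg (by positivity) (by positivity) ?_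
    lg_norm
    rw [X.lg_nu, X.lg_n]
    linarith [X.lg_E.1, X.lg_E.2]

theorem HJ {c : ℕ → ℝ} {N : Md} (hD : Dr E S D) (hN : KC E S M Y c D u N) :
    N.H S.Jp ≤ 8 * S.C := by
  obtain ⟨h0, -, F, hF, rfl⟩ := hN
  have d0 := X.cx.D0 hD
  have a := X.cx.Ft_le hF (le_min h0 d0.le) X.u1 (le_trans (mul_le_mul
    (pow_le_pow_right₀ X.E1 (by norm_num)) (min_le_right _ _) (le_min h0 d0.le)
    (pow_pos X.E0 _).le) (X.cx.D_le hD)) le_rfl
  have b := X.sx.HJ
  have := X.cl.C1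
  change M.H S.Jp + M29.Cx.Ft S M u (min u D) F S.Jp ≤ _
  linarith

/-- the dichotomy at the level `Ys` -/
theorem dich (_ : 0 < t) : (Zz E ^ 30 * nu S ≤ S.ms t ∧ M.s S.jl ^ 5 ≤ S.ms t * Yd KK E Y) ∨
    (min t 1 * nu S ≤ Yd KK E Y ∧ min t 1 * M.s S.jl ^ 5 ≤ Yd KK E Y ^ 2) := by
  rcases le_total Ys (min t S.C) with h | h
  · have m := X.cl.msm (min_le_left t S.C)
    exact .inl ⟨(X.sx.big.star _ h (min_le_right _ _)).trans m,
      (X.sx.rt5 _ h (min_le_right _ _)).trans (mul_le_mul_of_nonneg_right m X.Yd0.le)⟩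
  · have m : min t 1 ≤ min Ys 1 :=
      le_min ((min_le_min_left t X.cl.C1).trans h) (min_le_right _ _)
    exact .inr ⟨(mul_le_mul_of_nonneg_right m X.nu0.le).trans X.sx.big.Y2,
      (mul_le_mul_of_nonneg_right m (pow_pos X.sj0 5).le).trans X.sx.big.Y3⟩

theorem star_mf (h : Zz E ^ 30 * nu S ≤ S.ms t) : Zz E ^ 29 * nu S ≤ mf (Su E S M Y D u) t := by
  refine le_trans ?_ (X.ms_le t)
  rw [le_div_iff₀ (pow_pos X.E0 9)]
  have := X.Z0; have := X.nu0
  calc _ ≤ Zz E ^ 29 * nu S * Zz E := by gcongr; exact X.E9Z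
    _ = Zz E ^ 30 * nu S := by ring
    _ ≤ _ := h

/-- **the free energy level** -/
theorem Xi_le (ht : 0 < t) (h1 : t ≤ 1) : Xi E S Y u ≤ En E S M Y D u t := by
  have := X.T0; have := X.Z0; have := X.nu0; have := X.Yd0
  rw [Xi, mul_max_of_nonneg _ _ X.T0.le]
  refine max_le (le_max_of_le_right (by gcongr; exact X.mu_le ht.le)) ?_
  rcases X.dich ht with ⟨h, -⟩ | ⟨h, -⟩
  · exact le_max_of_le_right (by gcongr; exact X.star_mf h)
  · refine le_max_of_le_left ?_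
    rw [min_eq_left h1] at h
    have a : Zz E ^ 29 * Yd KK E Y ≤ Tt E Y := X.le_of_lg (by positivity) X.T0 (by
      lg_norm
      rw [X.lg_Z, X.lg_Yd, X.lg_T]
      linarith [X.lg_E.1])
    rw [le_div_iff₀ ht]
    calc _ = Tt E Y * (Zz E ^ 29 * (t * nu S)) := by ring
      _ ≤ Tt E Y * (Zz E ^ 29 * Yd KK E Y) := by gcongr
      _ ≤ Tt E Y * Tt E Y := by gcongr
      _ = _ := by ring

theorem min_ge (h : 1 ≤ 2 * E ^ 360 * t) : 1 / E ^ 361 ≤ min t 1 := by
  have E0 := X.E0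
  have : 2 * E ^ 360 ≤ E ^ 361 := by
    rw [pow_succ _ 360, mul_comm]; gcongr; linarith [X.cx.E3]
  have t0 : 0 < t := pos_of_mul_pos_left (a := 2 * E ^ 360) (by nlinarith [pow_pos E0 360])
    (by positivity) |> fun h' => by
      by_contra hc
      nlinarith [pow_pos E0 360, not_lt.1 hc]
  refine le_min ?_ ((div_le_one (by positivity)).2 (one_le_pow₀ X.E1))
  rw [div_le_iff₀ (by positivity)]
  nlinarith

theorem Xi_le' (ht : 0 < t) (h : 1 ≤ 2 * E ^ 360 * t ∨ 1 ≤ (E ^ 360) ^ 6 * u) :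
    Xi E S Y u ≤ Tt E Y * mf (Su E S M Y D u) t := by
  have := X.T0; have := X.Z0; have := X.nu0; have := X.Yd0; have := X.E0; have := X.u_pos
  rw [Xi]
  gcongr
  refine max_le (X.mu_le ht.le) ?_
  obtain ⟨e0, e1⟩ := X.lg_E
  rcases h with h | h
  · rcases X.dich ht with ⟨g, -⟩ | ⟨g, -⟩
    · exact X.star_mf g
    have a := X.lg_mono (by positivity)
      ((mul_le_mul_of_nonneg_right (X.min_ge h) X.nu0.le).trans g)
    refine le_trans (X.le_of_lg (by positivity) X.mu_pos ?_) (X.mu_le ht.le)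
    revert a
    lg_norm
    rw [X.lg_Z, X.lg_Yd]
    intro a
    linarith [X.lg_mu.2.1]
  · have a := X.lg_mono one_pos h
    refine le_trans (X.le_of_lg (by positivity) X.mu_pos ?_) (X.mu_le ht.le)
    revert a
    lg_norm
    rw [X.lg_Z, X.lg_nu, X.lg_u]
    intro a
    linarith

theorem Tmu_le : Tt E Y * mu0 E u ≤ Xi E S Y u :=
  mul_le_mul_of_nonneg_left (le_max_left _ _) X.T0.le

/-- the two forms of `l ^ 5` -/
theorem l5 : E * ll E S M Y u ^ 5 ≤ Xi E S Y u ∨ ll E S M Y u = E ^ 360 * M.s S.jl := by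
  have := X.E0; have := X.l0; have := X.T0; have := X.mu_pos
  rcases le_total (E ^ 360 * M.s S.jl)
    (sg S * min ((Tt E Y * mu0 E u) ^ ((1 : ℝ) / 5)) (Tt E Y ^ ((1 : ℝ) / 3))) with h | h
  · refine .inl (le_trans (X.le_of_lg (by positivity) (by positivity) ?_) X.Tmu_le)
    have a : ll E S M Y u ≤ sg S * (Tt E Y * mu0 E u) ^ ((1 : ℝ) / 5) :=
      (max_eq_right h).le.trans (mul_le_mul_of_nonneg_left (min_le_left _ _) X.sg0.le)
    have b := X.lg_mono X.l0 a
    have := X.sg0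
    revert b
    lg_norm
    rw [X.lg_sg]
    intro b
    linarith [X.lg_E.2]
  · exact .inr (max_eq_left h)

theorem root_mass (h : M.s S.jl ^ 5 ≤ S.ms t * Yd KK E Y) (ht : 0 < t) :
    E * (E ^ 360 * M.s S.jl) ^ 5 ≤ Tt E Y * mf (Su E S M Y D u) t := by
  have := X.E0; have := X.T0; have := X.sj0; have m := X.cl.ms_pos ht.le; have := X.Yd0
  refine le_trans (X.le_of_lg (by positivity) (by positivity) ?_)
    (mul_le_mul_of_nonneg_left (X.ms_le t) X.T0.le)
  have a := X.lg_mono (by positivity) h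
  revert a
  lg_norm
  rw [X.lg_Yd, X.lg_T]
  intro a
  linarith [X.lg_E.1]

theorem root1 (ht : 0 < t) (h1 : t ≤ 1) : E * ll E S M Y u ^ 5 ≤ En E S M Y D u t := by
  rcases X.l5 with h | h
  · exact h.trans (X.Xi_le ht h1)
  rw [h]
  rcases X.dich ht with ⟨-, g⟩ | ⟨-, g⟩
  · exact le_max_of_le_right (X.root_mass g ht)
  have := X.E0; have := X.T0; have := X.sj0; have := X.Yd0
  rw [min_eq_left h1] at g
  refine le_max_of_le_left (X.le_of_lg (by positivity) (by positivity) ?_)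
  have a := X.lg_mono (by positivity) g
  revert a
  lg_norm
  rw [X.lg_Yd, X.lg_T]
  intro a
  linarith [X.lg_E.1]

theorem root3 (ht : 0 < t) (h : 1 ≤ 2 * E ^ 360 * t ∨ 1 ≤ (E ^ 360) ^ 6 * u) :
    E * ll E S M Y u ^ 5 ≤ Tt E Y * mf (Su E S M Y D u) t := by
  rcases X.l5 with g | g
  · exact g.trans (X.Xi_le' ht h)
  have := X.E0; have := X.T0; have := X.sj0; have := X.Yd0; have := X.l0; have := X.u_pos
  have := X.mu_pos
  obtain ⟨e0, e1⟩ := X.lg_E
  rcases h with h | h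
  · rw [g]
    rcases X.dich ht with ⟨-, k⟩ | ⟨-, k⟩
    · exact X.root_mass k ht
    have a := X.lg_mono (by positivity)
      ((mul_le_mul_of_nonneg_right (X.min_ge h) (pow_pos X.sj0 5).le).trans k)
    refine le_trans (X.le_of_lg (by positivity) (by positivity) ?_)
      (mul_le_mul_of_nonneg_left (X.mu_le ht.le) X.T0.le)
    revert a
    lg_norm
    rw [X.lg_Yd, X.lg_T]
    intro a
    linarith [X.lg_mu.2.1]
  · have a := X.lg_mono one_pos h
    refine le_trans (X.le_of_lg (by positivity) (by positivity) ?_)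
      (mul_le_mul_of_nonneg_left (X.mu_le ht.le) X.T0.le)
    revert a
    lg_norm
    rw [X.lg_u]
    intro a
    linarith [X.lg_l_hi.1, X.lg_l_hi.2.2.2]

/-- the mass part of the root energy -/
theorem root_ms : E * ((Su E S M Y D u).ms (ll E S M Y u) * ll E S M Y u ^ 3) ≤
    E * ll E S M Y u ^ 5 + Xi E S Y u := by
  have := X.E0; have := X.l0; have := X.T0; have := X.u_pos; have := X.mu_pos
  have a : S.ms (ll E S M Y u) ≤ ll E S M Y u ^ 2 :=
    (le_mul_of_one_le_left (X.cl.ms_pos X.l0.le).le (one_le_pow₀ X.E1)).trans (X.sx.ml _ X.sj_l')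
  have b : E * (u * ll E S M Y u ^ 3) ≤ Tt E Y * mu0 E u :=
    X.le_of_lg (by positivity) (by positivity) (by
      lg_norm
      rw [X.lg_u]
      linarith [X.lg_l_hi.1, X.lg_E.1])
  have c := X.Tmu_le
  have d : S.ms (ll E S M Y u) * ll E S M Y u ^ 3 ≤ ll E S M Y u ^ 2 * ll E S M Y u ^ 3 := by
    gcongr
  change E * ((S.ms (ll E S M Y u) + u) * ll E S M Y u ^ 3) ≤ _
  nlinarith [mul_le_mul_of_nonneg_left d X.E0.le]

theorem X2_sq : E * X2 E S M Y u ^ 2 ≤ Xi E S Y u := by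
  have := X.E0; have := X.X20
  refine X.le_of_lg (by positivity) X.Xi0 ?_
  lg_norm
  linarith [X.lg_X2.2.1, X.lg_Xi.1, X.lg_E.2]

theorem l3_le : ll E S M Y u ^ 3 ≤ Tt E Y := by
  have := X.l0
  refine X.le_of_lg (by positivity) X.T0 ?_
  lg_norm
  linarith [X.lg_l_hi.1, X.lg_E.1]

theorem l_le : ll E S M Y u ≤ Tt E Y ^ ((1 : ℝ) / 3) := by
  have := X.l0; have := X.T0
  refine X.le_of_lg X.l0 (by positivity) ?_
  lg_norm
  linarith [X.lg_l_hi.1, X.lg_E.1]

/-- the number of dyadic levels -/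
theorem lvl_le : (8 * S.C) ^ 2 * log (8 * S.C / M.s S.jl) ≤ E ^ 2 / 20 := by
  have := X.sj0; have c := X.cl.C1; have := X.E0
  have a : 8 * S.C / M.s S.jl ≤ S.n := X.le_of_lg (by positivity) X.N0 (by
    rw [logb_div (by positivity) X.sj0.ne', X.lg_n]
    linarith [X.lg_C.2, X.lg_sj.1, X.lg_E.1, X.lg_E.2])
  have b := log_le_log (by positivity) a
  have d := X.cx.lgE
  have e := X.cx.CE2
  calc _ ≤ (8 * S.C) ^ 2 * (E / 2) := by gcongr; linarith
    _ ≤ (64 / 1000 * E) * (E / 2) := by gcongr; linarith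
    _ ≤ _ := by nlinarith

theorem x30 : 0 < x3 E S := mul_pos (pow_pos X.E0 _) (rpow_pos_of_pos X.N0 _)
theorem lg_x3 : logb S.n (x3 E S) = 10 * logb S.n E - 101 / 200 := by
  rw [x3, logb_mul (pow_pos X.E0 _).ne' (rpow_pos_of_pos X.N0 _).ne', X.lg_rp, logb_pow]
  push_cast
  ring
theorem X3_le_n : X3 E S M Y u ≤ X3n E S M Y u := le_add_of_nonneg_right X.x30.le
theorem x3_le_n : x3 E S ≤ X3n E S M Y u := le_add_of_nonneg_left X.X30.le
theorem X3n0 : 0 < X3n E S M Y u := X.X30.trans_le X.X3_le_n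

/-- the two forms of the crude ratio -/
theorem cr_cases (a : M.s S.jl ≤ t) : cr (Su E S M Y D u) t = 1 ∨
    cr (Su E S M Y D u) t * t ≤ E ^ 10 * √(mu0 E u) := by
  have E0 := X.E0; have u0 := X.u_pos; have := X.mu_pos
  have t0 := X.sj0.trans_le a
  have m0 := X.cl.ms_pos t0.le
  have x0 : 0 ≤ E ^ 9 * (S.ms t + u) / t ^ 2 := by positivity
  change max 1 ((E ^ 9 * (S.ms t + u) / t ^ 2) ^ ((1 : ℝ) / 3)) = 1 ∨
    max 1 ((E ^ 9 * (S.ms t + u) / t ^ 2) ^ ((1 : ℝ) / 3)) * t ≤ _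
  rcases le_total (E ^ 9 * (S.ms t + u) / t ^ 2) 1 with h | h
  · exact .inl (max_eq_left (rpow_le_one x0 h (by norm_num)))
  refine .inr ?_
  rw [max_eq_right (one_le_rpow h (by norm_num))]
  rw [one_le_div (by positivity)] at h
  have b : 2 * E ^ 9 * S.ms t ≤ t ^ 2 := by
    refine le_trans (mul_le_mul_of_nonneg_right ?_ m0.le) (X.sx.ml t a)
    calc 2 * E ^ 9 ≤ E * E ^ 9 := by gcongr; linarith [X.cx.E3]
      _ = E ^ 10 := by ring
      _ ≤ _ := pow_le_pow_right₀ X.E1 (by norm_num [KK])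
  have e9 := pow_pos E0 9
  have d : S.ms t ≤ u := le_of_mul_le_mul_left (by nlinarith) e9
  have f : t ^ 2 ≤ 2 * (E ^ 9 * u) := by nlinarith
  have g : E ^ 9 * (S.ms t + u) / t ^ 2 ≤ 2 * (E ^ 9 * u) / t ^ 2 :=
    div_le_div_of_nonneg_right (by nlinarith) (by positivity)
  refine (mul_le_mul_of_nonneg_right (rpow_le_rpow x0 g (by norm_num)) t0.le).trans
    (X.le_of_lg (by positivity) (by positivity) ?_)
  have k := X.lg_mono (by positivity) f
  revert k
  lg_norm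
  rw [X.lg_u]
  intro k
  linarith [(X.lg_num (x := 2) (by norm_num) (by norm_num)).2, X.lg_E.1]

/-- cost of `x3` -/
theorem cost_x3 (a : ll E S M Y u ≤ t) (b : t ≤ 8 * S.C) : t * (cr (Su E S M Y D u) t *
    (x3 E S ^ 2 / mf (Su E S M Y D u) t)) ≤ Xi E S Y u / E ^ 3 := by
  have E0 := X.E0; have := X.mu_pos; have := X.x30; have := X.Xi0; have := X.nu0; have := X.Yd0
  have := X.N0
  have t0 := X.l0.trans_le a
  have m0 := X.cl.ms_pos t0.le
  have f0 : 0 < mf (Su E S M Y D u) t := X.mf_pos t0.le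
  have f1 := X.lg_mono X.mu_pos (X.mu_le (D := D) t0.le)
  obtain ⟨e0, e1⟩ := X.lg_E
  obtain ⟨x1, x2⟩ := X.lg_Xi
  have lt := X.lg_T
  have c1 := X.cl.C1
  rcases X.cr_cases (D := D) (X.sj_l'.trans a) with h | h
  · rw [h, one_mul]
    refine X.le_of_lg (by positivity) (by positivity) ?_
    have p0 : 0 < min t S.C := lt_min t0 X.cl.C0
    have p1 : t ≤ 8 * S.C * min (min t S.C) 1 := by
      rcases le_total t 1 with k | k
      · rw [min_eq_left (k.trans c1), min_eq_left k]; nlinarith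
      · rw [min_eq_right (le_min k c1)]; linarith
    have p2 : t ≤ 8 * S.C * min t S.C :=
      p1.trans (mul_le_mul_of_nonneg_left (min_le_left _ _) (by positivity))
    have q0 : 0 < min (min t S.C) 1 := lt_min p0 one_pos
    have lc := X.lg_C.2
    rcases le_total Ys (min t S.C) with k | k
    · have g := X.lg_mono (by positivity) ((X.sx.g6 _ k (min_le_right _ _)).trans
        (mul_le_mul_of_nonneg_right (X.cl.msm (min_le_left t S.C)) X.Yd0.le))
      have g1 := X.lg_mono t0 p2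
      have g2 := X.lg_mono (by positivity) (X.ms_le (D := D) t)
      rw [logb_mul (by positivity) p0.ne'] at g1
      revert g g2
      lg_norm
      rw [X.lg_x3, X.lg_nu, X.lg_Yd, X.lg_n]
      intro g g2
      linarith
    · have g := X.lg_mono (by positivity) ((mul_le_mul_of_nonneg_right
        (min_le_min_right 1 k) X.nu0.le).trans X.sx.big.Y2)
      have g1 := X.lg_mono t0 p1
      rw [logb_mul (by positivity) q0.ne'] at g1
      rw [logb_mul q0.ne' X.nu0.ne'] at g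
      lg_norm
      rw [X.lg_x3]
      rw [X.lg_nu, X.lg_Yd] at g
      linarith [X.lg_mu.1]
  · calc _ = cr (Su E S M Y D u) t * t * (x3 E S ^ 2 / mf (Su E S M Y D u) t) := by ring
      _ ≤ E ^ 10 * √(mu0 E u) * (x3 E S ^ 2 / mf (Su E S M Y D u) t) := by gcongr
      _ ≤ _ := X.le_of_lg (by positivity) (by positivity) (by
          lg_norm
          rw [X.lg_x3]
          linarith [X.lg_mu.1, X.lg_Y.1])

/-- cost of `η + x3` -/
theorem cost_add {η : ℝ} (a : ll E S M Y u ≤ t) (b : t ≤ 8 * S.C)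
    (h : t * (cr (Su E S M Y D u) t * (η ^ 2 / mf (Su E S M Y D u) t)) ≤ Xi E S Y u / E ^ 3) :
    t * (cr (Su E S M Y D u) t * ((η + x3 E S) ^ 2 / mf (Su E S M Y D u) t)) ≤
      Xi E S Y u / E ^ 2 := by
  have E0 := X.E0; have := X.Xi0
  have t0 := X.l0.trans_le a
  have f0 : 0 < mf (Su E S M Y D u) t := X.mf_pos t0.le
  have c0 : 0 < cr (Su E S M Y D u) t := one_pos.trans_le (le_max_left _ _)
  have g := X.cost_x3 (D := D) a b
  have k : 4 * (Xi E S Y u / E ^ 3) ≤ Xi E S Y u / E ^ 2 := by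
    rw [← mul_div_assoc, div_le_div_iff₀ (by positivity) (by positivity)]
    have : 4 * E ^ 2 ≤ E ^ 3 := by rw [pow_succ _ 2, mul_comm]; gcongr; linarith [X.cx.E3]
    nlinarith
  calc _ ≤ t * (cr (Su E S M Y D u) t *
        ((2 * η ^ 2 + 2 * x3 E S ^ 2) / mf (Su E S M Y D u) t)) := by
        gcongr; nlinarith [sq_nonneg (η - x3 E S)]
    _ = 2 * (t * (cr (Su E S M Y D u) t * (η ^ 2 / mf (Su E S M Y D u) t))) +
        2 * (t * (cr (Su E S M Y D u) t * (x3 E S ^ 2 / mf (Su E S M Y D u) t))) := by ring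
    _ ≤ _ := by linarith

section h

variable {N : Md} {η : ℝ → ℝ} {X4 Nc : ℝ} (c : Cl (Su E S M Y D u) N) (hs : N.s = M.s)
  (cost : ∀ r, ll E S M Y u ≤ r → r ≤ 8 * S.C → r * (cr (Su E S M Y D u) r *
    (η r ^ 2 / mf (Su E S M Y D u) r)) ≤ Xi E S Y u / E ^ 2)
  (h4 : E * X4 ≤ Xi E S Y u)
include c hs cost

theorem cE_le (t' : ℝ) :
    Tm71.cE N (Su E S M Y D u) η (ll E S M Y u) t' ≤ Xi E S Y u / 20 := by
  have := X.E0; have := X.Xi0
  refine (Tm71.cE_le c (B := Xi E S Y u / E ^ 2) (by positivity) fun r a _ b => cost r a b).trans ?_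
  rw [hs]
  calc _ ≤ E ^ 2 / 20 * (Xi E S Y u / E ^ 2) := by gcongr; exact X.lvl_le
    _ = _ := by field_simp

omit c hs in
theorem eta_sq (a : ll E S M Y u ≤ t) (b : t ≤ 1) (hu : u ≤ t ^ 2) :
    η t ^ 2 / t ≤ Xi E S Y u / 100 := by
  have E0 := X.E0; have := X.Xi0
  have t0 := X.l0.trans_le a
  have m0 : 0 < mf (Su E S M Y D u) t := X.mf_pos t0.le
  have k := cost t a (by linarith [X.cl.C1])
  have m1 : S.ms t ≤ t ^ 2 := (le_mul_of_one_le_left (X.cl.ms_pos t0.le).le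
    (one_le_pow₀ X.E1)).trans (X.sx.ml _ (X.sj_l'.trans a))
  have m2 : mf (Su E S M Y D u) t ≤ 2 * t ^ 2 := by
    rw [X.mf_eq]
    exact (div_le_self (by linarith [X.cl.ms_pos t0.le, X.u_pos]) (one_le_pow₀ X.E1)).trans
      (by linarith)
  have k1 : t * (η t ^ 2 / (2 * t ^ 2)) ≤ Xi E S Y u / E ^ 2 := le_trans (by
    gcongr
    exact (div_le_div_of_nonneg_left (sq_nonneg _) m0 m2).trans
      (le_mul_of_one_le_left (by positivity) (le_max_left _ _))) k
  have k2 : Xi E S Y u / E ^ 2 ≤ Xi E S Y u / 200 := by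
    gcongr
    nlinarith [X.cx.E3]
  have e : t * (η t ^ 2 / (2 * t ^ 2)) = η t ^ 2 / t / 2 := by field_simp
  linarith

include h4

/-- the global energy without the plateau cost, against any level `B` -/
theorem Eg_le {B : ℝ} (t' : ℝ) (hB : Xi E S Y u ≤ B) (h5 : E * ll E S M Y u ^ 5 ≤ B) :
    ll E S M Y u ^ 5 + (Su E S M Y D u).ms (ll E S M Y u) * ll E S M Y u ^ 3 +
      Tm71.cE N (Su E S M Y D u) η (ll E S M Y u) t' + X2 E S M Y u ^ 2 + X4 ≤ B / 15 := by
  have E3 := X.cx.E3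
  have a := X.root_ms (D := D)
  have b := X.cE_le c hs cost t'
  have d := X.X2_sq
  have B0 := X.Xi0.trans_le hB
  have k : ∀ x, E * x ≤ 2 * B → x ≤ B / 500 := fun x h => by
    by_contra hc
    nlinarith [not_le.1 hc]
  linarith [k _ (h5.trans (by linarith)), k _ (a.trans (by linarith)),
    k _ (d.trans (by linarith)), k _ (h4.trans (by linarith))]

/-- **(h2)** of the closing -/
theorem h2 (X40 : 0 ≤ X4) (a : ll E S M Y u ≤ t) (b : t ≤ 1) (hu : u ≤ t ^ 2)
    (hN : t * Nc ≤ En E S M Y D u t / 10) :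
    ll E S M Y u ^ 5 + (Su E S M Y D u).ms (ll E S M Y u) * ll E S M Y u ^ 3 +
      Tm71.cE N (Su E S M Y D u) η (ll E S M Y u) (4 * t) + 2 * (η t ^ 2 / t) +
      t * (ll E S M Y u ^ 5 + (Su E S M Y D u).ms (ll E S M Y u) * ll E S M Y u ^ 3 +
        Tm71.cE N (Su E S M Y D u) η (ll E S M Y u) (Su E S M Y D u).C + X2 E S M Y u ^ 2 + X4 + Nc) ≤
      En E S M Y D u t / 2 := by
  have t0 := X.l0.trans_le a
  have x := X.Xi_le (D := D) t0 b
  have r := X.root1 (D := D) t0 b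
  have a1 := X.Eg_le c hs cost h4 (4 * t) x r
  have a2 := X.Eg_le c hs cost h4 (Su E S M Y D u).C x r
  have a3 := X.eta_sq cost a b hu
  have B0 := X.Xi0.trans_le x
  have a4 := (mul_le_mul_of_nonneg_left a2 t0.le).trans
    (mul_le_of_le_one_left (by positivity) b)
  nlinarith [sq_nonneg (X2 E S M Y u)]

/-- **(h3)** of the closing -/
theorem h3 (ht : 0 < t) (h : 1 ≤ 2 * E ^ 360 * t ∨ 1 ≤ (E ^ 360) ^ 6 * u)
    (hN : Nc ≤ Tt E Y * mf (Su E S M Y D u) t / 10) :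
    ll E S M Y u ^ 5 + (Su E S M Y D u).ms (ll E S M Y u) * ll E S M Y u ^ 3 +
      Tm71.cE N (Su E S M Y D u) η (ll E S M Y u) (Su E S M Y D u).C + X2 E S M Y u ^ 2 + X4 + Nc ≤
      Tt E Y * mf (Su E S M Y D u) t / 2 := by
  have x := X.Xi_le' (D := D) ht h
  have a := X.Eg_le c hs cost h4 (Su E S M Y D u).C x (X.root3 ht h)
  linarith [X.Xi0]

end h

/-- **(h1)** of the closing -/
theorem h1 {V X4 : ℝ} (h : ∀ T, L4 (Su E S M Y D u) V (Xx E Y) (ll E S M Y u) T X4)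
    (h4 : E * X4 ≤ Xi E S Y u) (X40 : 0 ≤ X4) (ht : 0 < t) (b : t ≤ 1) :
    L4 (Su E S M Y D u) V (Xx E Y) (ll E S M Y u) (4 * t) (En E S M Y D u t) := fun r a d =>
  (h _ r a d).trans (((le_mul_of_one_le_left X40 X.E1).trans h4).trans (X.Xi_le ht b))

end Tx

end Crest.Agent.T156.Alt.Tm92

end
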