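import Crest.Agent.T156.TermCD_28

/-!
# Row 156, SR, terminal statement: the corner (helper28)
-/

set_option autoImplicit false
set_option linter.unusedSectionVars false

noncomputable section

namespace Crest.Agent.T156.Alt.Tc28

open Real Finset Filter Pre29 Sr L69 Tm92

variable {E : ℝ} {S : Sc} {M : Md} {l lm Ys Y u D η1 : ℝ} (X : Tx E S M l lm Ys Y u)
include X

theorem w_eq : (Su E S M Y D u).w3 1 = E ^ 9 / (S.n * (S.θ + u)) := by
  change E ^ 9 / (S.n * 1 * (S.θ + u)) = _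
  rw [mul_one]
omit X in
theorem gg_eq : gg (Su E S M Y D u) 1 = E ^ 9 / (S.n * (S.θ + u)) := rfl
omit X in
theorem mf_eq : mf (Su E S M Y D u) 1 = (S.θ + u) / E ^ 9 := rfl
theorem w0 : 0 < (Su E S M Y D u).w3 1 := by
  have := X.E0; have := X.N0; have := th0 X
  rw [w_eq X]; positivity
theorem lg_w : logb S.n ((Su E S M Y D u).w3 1) = 9 * logb S.n E - 1 - logb S.n (S.θ + u) := by
  have := X.E0; have := X.N0; have := th0 X
  rw [w_eq X]; lg_norm; rw [X.lg_n]; ring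
theorem th2 : S.θ + u ≤ 2 := by
  have a : S.θ ≤ 1 := by nlinarith [X.cx.Cθ, X.cl.C1, X.cl.θ0]
  linarith [X.u1.trans (div_le_one_of_le₀ X.E1 X.E0.le)]
theorem lg_th : logb S.n (mu0 E u) + 9 * logb S.n E ≤ logb S.n (S.θ + u) ∧
    logb S.n (S.θ + u) ≤ logb S.n E :=
  ⟨X.lg_u ▸ X.lg_mono X.u_pos (le_add_of_nonneg_left X.cl.θ0.le),
    X.lg_mono (th0 X) ((th2 X).trans (by linarith [X.cx.E3]))⟩
theorem lg_xx : logb S.n (xx E Y) = logb S.n (Xx E Y) / 3 := by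
  have := X.X0
  rw [xx]; lg_norm; ring
theorem lg_B6 : logb S.n (B6 E S Y u) =
    4 / 3 * logb S.n (Tt E Y) + 2 / 3 * logb S.n (S.θ + u) - 4000 * logb S.n E := by
  have := X.T0; have := th0 X; have := X.E0
  rw [B6]; lg_norm

theorem Bc_hi : logb S.n (Bc E S Y u) ≤
      logb S.n (Tt E Y) + logb S.n (S.θ + u) + 290000 * logb S.n E ∨
    logb S.n (Bc E S Y u) ≤ 10 ^ 7 * logb S.n E - 203 / 300 := by
  have := X.T0; have := X.mu_pos; have := X.Z0; have := X.nu0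
  obtain ⟨e0, e1⟩ := X.lg_E
  obtain ⟨p0, p1⟩ := lg_th X
  have m := X.lg_mu.1
  rw [lg_Bc X]
  rcases max_choice (logb S.n (Xi E S Y u)) (10 ^ 7 * logb S.n E - 203 / 300) with h | h <;> rw [h]
  · left
    rw [Xi, logb_mul (by positivity) (by positivity), lg_max X.N1 (by positivity) (by positivity)]
    lg_norm
    rw [X.lg_Z, X.lg_nu]
    have : max (logb S.n (mu0 E u)) (29 * (10000 * logb S.n E) + -1 / 3) ≤
      logb S.n (S.θ + u) + 290000 * logb S.n E := max_le (by linarith) (by linarith)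
    linarith
  · right
    linarith

theorem Z_Lc : Zz E ≤ Lc E S Y u := (le_max_left _ _).trans (le_max_left _ _)
theorem Lc0 : 0 < Lc E S Y u := X.Z0.trans_le (Z_Lc X)

theorem lg_Lc : logb S.n (Lc E S Y u) = max (max (10000 * logb S.n E)
    (logb S.n (Xx E Y) / 3 + (logb S.n (S.θ + u) - logb S.n (Bc E S Y u)) / 3))
    (max (-1 / 3 + logb S.n (S.θ + u) + logb S.n (Xx E Y) / 3 - logb S.n (Bc E S Y u))
      (logb S.n (Xx E Y) / 3 - 2 / 9 * logb S.n (Bc E S Y u))) := by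
  have := X.Z0; have := th0 X; have := Bc0 X; have := xx0 X; have := X.nu0
  rw [Lc, lg_max X.N1 (by positivity) (by positivity), lg_max X.N1 (by positivity) (by positivity),
    lg_max X.N1 (by positivity) (by positivity)]
  lg_norm
  rw [X.lg_Z, X.lg_nu, lg_xx X]
  congr 2
  ring

theorem Lc_lo : logb S.n (Xx E Y) / 3 + (logb S.n (S.θ + u) - logb S.n (Bc E S Y u)) / 3 ≤
      logb S.n (Lc E S Y u) ∧
    -1 / 3 + logb S.n (S.θ + u) + logb S.n (Xx E Y) / 3 - logb S.n (Bc E S Y u) ≤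
      logb S.n (Lc E S Y u) ∧
    logb S.n (Xx E Y) / 3 - 2 / 9 * logb S.n (Bc E S Y u) ≤ logb S.n (Lc E S Y u) := by
  rw [lg_Lc X]
  exact ⟨(le_max_right _ _).trans (le_max_left _ _), (le_max_left _ _).trans (le_max_right _ _),
    (le_max_right _ _).trans (le_max_right _ _)⟩

theorem Lc_hi : logb S.n (Lc E S Y u) = 10000 * logb S.n E ∨ logb S.n (Lc E S Y u) =
      logb S.n (Xx E Y) / 3 + (logb S.n (S.θ + u) - logb S.n (Bc E S Y u)) / 3 ∨
    logb S.n (Lc E S Y u) =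
      -1 / 3 + logb S.n (S.θ + u) + logb S.n (Xx E Y) / 3 - logb S.n (Bc E S Y u) ∨
    logb S.n (Lc E S Y u) = logb S.n (Xx E Y) / 3 - 2 / 9 * logb S.n (Bc E S Y u) := by
  rw [lg_Lc X]
  rcases max_choice (max (10000 * logb S.n E)
    (logb S.n (Xx E Y) / 3 + (logb S.n (S.θ + u) - logb S.n (Bc E S Y u)) / 3))
    (max (-1 / 3 + logb S.n (S.θ + u) + logb S.n (Xx E Y) / 3 - logb S.n (Bc E S Y u))
      (logb S.n (Xx E Y) / 3 - 2 / 9 * logb S.n (Bc E S Y u))) with h | h <;> rw [h]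
  · exact (max_choice _ _).imp_right .inl
  · exact .inr (.inr (max_choice _ _))

theorem uc0 : 0 < uc E S M Y D u := mul_pos (rpow_pos_of_pos (Lc0 X) _) (rpow_pos_of_pos (w0 X) _)
theorem lg_uc : logb S.n (uc E S M Y D u) =
    2 / 3 * logb S.n (Lc E S Y u) + (9 * logb S.n E - 1 - logb S.n (S.θ + u)) / 3 := by
  have := Lc0 X; have := w0 (D := D) X
  rw [uc]; lg_norm; rw [lg_w X]; ring

theorem Lc_n : Lc E S Y u ≤ S.n := by
  refine X.le_of_lg (Lc0 X) X.N0 ?_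
  obtain ⟨e0, e1⟩ := X.lg_E
  obtain ⟨p0, p1⟩ := lg_th X
  obtain ⟨x0, x1⟩ := X.lg_X
  obtain ⟨y0, y1⟩ := X.lg_Y
  obtain ⟨b1, b2, b3⟩ := Bc_lo X
  rw [X.lg_n]
  rcases Lc_hi X with h | h | h | h <;> linarith

theorem uc_mf : E ^ 360 * uc E S M Y D u ^ 2 ≤ mf (Su E S M Y D u) 1 := by
  have := uc0 (D := D) X; have := X.E0; have := th0 X
  rw [mf_eq]
  refine X.le_of_lg (by positivity) (by positivity) ?_
  lg_norm
  rw [lg_uc X]
  obtain ⟨e0, e1⟩ := X.lg_E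
  obtain ⟨p0, p1⟩ := lg_th X
  obtain ⟨x0, x1⟩ := X.lg_X
  obtain ⟨y0, y1⟩ := X.lg_Y
  obtain ⟨m0, m1, m2⟩ := X.lg_mu
  obtain ⟨b1, b2, b3⟩ := Bc_lo X
  have t := X.lg_T
  rcases Lc_hi X with h | h | h | h <;> linarith

/-- an admissible part of the residual at the corner -/
structure Gd (E : ℝ) (S : Sc) (Y u h : ℝ) : Prop where
  m : h ≤ max (Bc E S Y u ^ ((2 : ℝ) / 3)) √((S.θ + u) * Bc E S Y u)
  a : E ^ 12 * h ≤ (S.θ + u) * xx E Y
  b : E ^ 9 * h ≤ (S.θ + u) * (Bc E S Y u / (S.θ + u)) ^ ((1 : ℝ) / 3)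
  c : nu S * (E ^ 9 * h) ≤ Bc E S Y u + B6 E S Y u
  d : E ^ 9 * h ≤ (S.θ + u) * Bc E S Y u ^ ((2 : ℝ) / 9)

theorem Gd.mono {h h' : ℝ} (g : Gd E S Y u h) (k : h' ≤ h) : Gd E S Y u h' := by
  have := X.E0; have := X.nu0
  exact ⟨k.trans g.m, le_trans (by gcongr) g.a, le_trans (by gcongr) g.b, le_trans (by gcongr) g.c,
    le_trans (by gcongr) g.d⟩

omit X in
theorem gm_le {a b : ℝ} (ha : 0 ≤ a) (hb : 0 ≤ b) : √(a * b) ≤ a + b :=
  sqrt_le_iff.2 ⟨by positivity, by nlinarith [mul_nonneg ha hb]⟩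

theorem gd_mass : Gd E S Y u √((S.θ + u) * Bc E S Y u) := by
  have := X.E0; have := th0 X; have := Bc0 X; have := xx0 X; have := X.nu0; have := B60 X
  obtain ⟨e0, e1⟩ := X.lg_E
  obtain ⟨p0, p1⟩ := lg_th X
  obtain ⟨x0, x1⟩ := X.lg_X
  obtain ⟨y0, y1⟩ := X.lg_Y
  obtain ⟨m0, m1, m2⟩ := X.lg_mu
  have t := X.lg_T
  refine ⟨le_max_right _ _, ?_, ?_, le_trans ?_ (gm_le (Bc0 X).le (B60 X).le), ?_⟩ <;>
    refine X.le_of_lg (by positivity) (by positivity) ?_ <;> lg_norm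
  · rw [lg_xx X]
    rcases Bc_hi X with h | h <;> linarith
  · rcases Bc_hi X with h | h <;> linarith
  · rw [lg_B6 X, X.lg_nu]
    linarith
  · rcases Bc_hi X with h | h <;> linarith

theorem gd_spec : Gd E S Y u (√(Lc E S Y u * gg (Su E S M Y D u) 1) * √(X2 E S M Y u)) := by
  have := X.E0; have := th0 X; have := Bc0 X; have := xx0 X; have := X.nu0; have := B60 X
  have := Lc0 X; have := X.X20; have := X.N0
  obtain ⟨e0, e1⟩ := X.lg_E
  obtain ⟨p0, p1⟩ := lg_th X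
  obtain ⟨x0, x1⟩ := X.lg_X
  obtain ⟨y0, y1⟩ := X.lg_Y
  obtain ⟨m0, m1, m2⟩ := X.lg_mu
  obtain ⟨b1, b2, b3⟩ := Bc_lo X
  obtain ⟨a1, a2, a3⟩ := X.lg_X2
  have t := X.lg_T
  rw [gg_eq]
  by_cases h : logb S.n (Lc E S Y u) = logb S.n (Xx E Y) / 3 - 2 / 9 * logb S.n (Bc E S Y u)
  · refine ⟨le_max_of_le_left ?_, ?_, ?_, le_trans ?_ (le_add_of_nonneg_right (B60 X).le), ?_⟩ <;>
      refine X.le_of_lg (by positivity) (by positivity) ?_ <;> lg_norm <;> rw [X.lg_n]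
    · linarith
    · rw [lg_xx X]; linarith
    · linarith
    · rw [X.lg_nu]; linarith
    · linarith
  · refine (gd_mass X).mono X (X.le_of_lg (by positivity) (by positivity) ?_)
    lg_norm
    rw [X.lg_n]
    rcases Lc_hi X with h' | h' | h' | h'
    · linarith
    · linarith
    · linarith
    · exact absurd h' h

theorem parts : uc E S M Y D u ^ 3 ≤ √((S.θ + u) * Bc E S Y u) ∧
    uc E S M Y D u ^ 2 * (S.θ + u) ≤ √((S.θ + u) * Bc E S Y u) ∧
    uc E S M Y D u ^ 2 * xx E Y ≤ √((S.θ + u) * Bc E S Y u) ∧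
    √(Lc E S Y u * gg (Su E S M Y D u) 1) * uc E S M Y D u ≤ √((S.θ + u) * Bc E S Y u) ∧
    G0 E S M Y u * uc E S M Y D u ≤ √((S.θ + u) * Bc E S Y u) := by
  have := X.E0; have := th0 X; have := Bc0 X; have := xx0 X; have := uc0 (D := D) X
  have := Lc0 X; have := X.G00; have := X.N0
  obtain ⟨e0, e1⟩ := X.lg_E
  obtain ⟨p0, p1⟩ := lg_th X
  obtain ⟨x0, x1⟩ := X.lg_X
  obtain ⟨y0, y1⟩ := X.lg_Y
  obtain ⟨m0, m1, m2⟩ := X.lg_mu
  obtain ⟨b1, b2, b3⟩ := Bc_lo X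
  obtain ⟨a1, a2, a3⟩ := X.lg_X2
  have t := X.lg_T
  rw [gg_eq]
  refine ⟨?_, ?_, ?_, ?_, ?_⟩ <;> refine X.le_of_lg (by positivity) (by positivity) ?_ <;>
    lg_norm <;> rw [lg_uc X]
  · rcases Lc_hi X with h | h | h | h <;> linarith
  · rcases Lc_hi X with h | h | h | h <;> linarith
  · rw [lg_xx X]
    rcases Lc_hi X with h | h | h | h <;> linarith
  · rw [X.lg_n]
    rcases Lc_hi X with h | h | h | h <;> linarith
  · rcases X.lg_G0 with g | g | ⟨g, -⟩ <;> rcases Lc_hi X with h | h | h | h <;> linarith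

end Crest.Agent.T156.Alt.Tc28

end
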