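import Crest.Agent.T156.TermCa_28

/-!
# Row 156, SR, terminal statement: scalar costs at the corner (helper28)
-/

set_option autoImplicit false
set_option linter.unusedSectionVars false

noncomputable section

namespace Crest.Agent.T156.Alt.Tc28

open Real Finset Filter Pre29 Sr L69 Tm92

theorem cub3 {x : ℝ} (hx : 0 ≤ x) : (x ^ ((1 : ℝ) / 3)) ^ 3 = x := by
  rw [← rpow_natCast, ← rpow_mul hx]; norm_num

/-- the cost of a residual -/
theorem mc_le {e θ B k : ℝ} (hθ : 0 < θ) (hB : 0 ≤ B) (hk : 1 ≤ k) (e0 : 0 ≤ e)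
    (h : e ≤ k * max (B ^ ((2 : ℝ) / 3)) √(θ * B)) :
    min (e ^ ((3 : ℝ) / 2)) (e ^ 2 / θ) ≤ k ^ 2 * B := by
  have k0 : 0 ≤ k := by linarith
  rcases max_choice (B ^ ((2 : ℝ) / 3)) √(θ * B) with g | g <;> rw [g] at h
  · refine (min_le_left _ _).trans ((rpow_le_rpow e0 h (by norm_num)).trans ?_)
    rw [mul_rpow k0 (by positivity), ← rpow_mul hB, show (2 : ℝ) / 3 * (3 / 2) = 1 by norm_num,
      rpow_one, ← rpow_natCast]
    exact mul_le_mul_of_nonneg_right (rpow_le_rpow_of_exponent_le hk (by norm_num)) hB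
  · refine (min_le_right _ _).trans ?_
    rw [div_le_iff₀ hθ]
    refine (pow_le_pow_left₀ e0 h 2).trans_eq ?_
    rw [mul_pow, sq_sqrt (by positivity)]
    ring

theorem mx_mono {θ B B' : ℝ} (hθ : 0 ≤ θ) (hB : 0 ≤ B) (h : B ≤ B') :
    max (B ^ ((2 : ℝ) / 3)) √(θ * B) ≤ max (B' ^ ((2 : ℝ) / 3)) √(θ * B') :=
  max_le_max (rpow_le_rpow hB h (by norm_num)) (sqrt_le_sqrt (mul_le_mul_of_nonneg_left h hθ))

variable {E : ℝ} {S : Sc} {M : Md} {l lm Ys Y u D η1 : ℝ} (X : Tx E S M l lm Ys Y u)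
include X

theorem sizes : √(Xx E Y) ≤ xx E Y ∧ √(Tt E Y) ≤ xx E Y ∧ ll E S M Y u ^ 2 ≤ xx E Y ∧
    E * (Su E S M Y D u).w3 1 ^ ((1 : ℝ) / 3) ≤ xx E Y ∧ E ^ 361 * xx E Y ≤ 1 := by
  have := X.E0; have := xx0 X; have := X.X0; have := X.T0; have := X.l0; have := w0 (D := D) X
  obtain ⟨e0, e1⟩ := X.lg_E
  obtain ⟨p0, p1⟩ := lg_th X
  obtain ⟨x0, x1⟩ := X.lg_X
  obtain ⟨y0, y1⟩ := X.lg_Y
  obtain ⟨m0, m1, m2⟩ := X.lg_mu
  obtain ⟨l1, -, -, l4⟩ := X.lg_l_hi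
  have t := X.lg_T
  refine ⟨?_, ?_, ?_, ?_, ?_⟩ <;> refine X.le_of_lg (by positivity) (by positivity) ?_ <;>
    lg_norm <;> rw [lg_xx X]
  · linarith
  · linarith
  · linarith
  · rw [lg_w X]; linarith
  · linarith

theorem jj0 : 0 < jj E S M Y u := by
  have := X.l0
  unfold jj; positivity
theorem jj_le : jj E S M Y u ≤ 3 * xx E Y := by
  obtain ⟨a, b, c, -⟩ := sizes (D := 0) X
  unfold jj; linarith

/-- sizes against `B ^ (2/9)` -/
theorem sizes' : √(Xx E Y) ≤ Bc E S Y u ^ ((2 : ℝ) / 9) ∧ √(Tt E Y) ≤ Bc E S Y u ^ ((2 : ℝ) / 9) ∧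
    ll E S M Y u ^ 2 ≤ Bc E S Y u ^ ((2 : ℝ) / 9) ∧ nu S ≤ Bc E S Y u ^ ((2 : ℝ) / 9) ∧
    (Su E S M Y D u).w3 1 ^ ((1 : ℝ) / 3) ≤ Bc E S Y u ^ ((2 : ℝ) / 9) ∧
    xx E Y / Lc E S Y u ≤ Bc E S Y u ^ ((2 : ℝ) / 9) ∧
    X2 E S M Y u ≤ (Bc E S Y u ^ ((2 : ℝ) / 9)) ^ 2 ∧
    X2 E S M Y u * xx E Y ≤ (Bc E S Y u ^ ((2 : ℝ) / 9)) ^ 3 ∧
    (E * (Bc E S Y u ^ ((2 : ℝ) / 9)) ^ 2) ^ 3 ≤ Bc E S Y u := by
  have := X.E0; have := xx0 X; have := X.X0; have := X.T0; have := X.l0; have := w0 (D := D) X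
  have := Bc0 X; have := X.nu0; have := Lc0 X; have := X.X20
  obtain ⟨e0, e1⟩ := X.lg_E
  obtain ⟨p0, p1⟩ := lg_th X
  obtain ⟨x0, x1⟩ := X.lg_X
  obtain ⟨y0, y1⟩ := X.lg_Y
  obtain ⟨m0, m1, m2⟩ := X.lg_mu
  obtain ⟨l1, -, l3, l4⟩ := X.lg_l_hi
  obtain ⟨b1, b2, b3⟩ := Bc_lo X
  obtain ⟨c1, c2, c3⟩ := Lc_lo X
  obtain ⟨a1, a2, a3⟩ := X.lg_X2
  have t := X.lg_T
  refine ⟨?_, ?_, ?_, ?_, ?_, ?_, ?_, ?_, ?_⟩ <;>
    refine X.le_of_lg (by positivity) (by positivity) ?_ <;> lg_norm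
  · linarith
  · linarith
  · linarith
  · rw [X.lg_nu]; linarith
  · rw [lg_w X]; linarith
  · rw [lg_xx X]; linarith
  · linarith
  · rw [lg_xx X]; linarith
  · rcases Bc_hi X with h | h <;> linarith

theorem sizes'' : xx E Y / Lc E S Y u ≤ (Bc E S Y u / (S.θ + u)) ^ ((1 : ℝ) / 3) ∧
    (Su E S M Y D u).w3 1 ^ ((1 : ℝ) / 3) ≤ (Bc E S Y u / (S.θ + u)) ^ ((1 : ℝ) / 3) ∧
    nu S * (S.θ + u) * (xx E Y / Lc E S Y u) ≤ Bc E S Y u ∧
    nu S * (S.θ + u) * (Su E S M Y D u).w3 1 ^ ((1 : ℝ) / 3) ≤ B6 E S Y u ∧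
    E * (xx E Y / Lc E S Y u) ≤ xx E Y := by
  have := X.E0; have := xx0 X; have := w0 (D := D) X; have := th0 X
  have := Bc0 X; have := X.nu0; have := Lc0 X; have := B60 X
  obtain ⟨e0, e1⟩ := X.lg_E
  obtain ⟨p0, p1⟩ := lg_th X
  obtain ⟨y0, y1⟩ := X.lg_Y
  obtain ⟨b1, b2, b3⟩ := Bc_lo X
  obtain ⟨c1, c2, c3⟩ := Lc_lo X
  have t := X.lg_T
  have z := X.lg_mono X.Z0 (Z_Lc X)
  rw [X.lg_Z] at z
  refine ⟨?_, ?_, ?_, ?_, ?_⟩ <;>
    refine X.le_of_lg (by positivity) (by positivity) ?_ <;> lg_norm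
  · rw [lg_xx X]; linarith
  · rw [lg_w X]; linarith
  · rw [lg_xx X, X.lg_nu]; linarith
  · rw [lg_w X, X.lg_nu, lg_B6 X]; linarith
  · linarith

section
variable (h0 : 0 ≤ η1) (h1 : η1 ≤ √((S.θ + u) * Bc E S Y u))
include h0

theorem ec0 : 0 < ec E S M Y D u η1 := by
  have := uc0 (D := D) X; have := th0 X; have := jj0 X; have := xx0 X; have := X.G00
  have := X.X20
  unfold ec; positivity

theorem tc0 : 0 < tc E S M Y D u η1 := by
  have := ec0 (D := D) X h0; have := xx0 X; have := Lc0 X; have := w0 (D := D) X; have := th0 X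
  have := X.E0
  rw [tc, mf_eq]; positivity

include h1

theorem ec_gd : Gd E S Y u (ec E S M Y D u η1 / 11) := by
  obtain ⟨a, b, c, d, e⟩ := parts (D := D) X
  have u0 := uc0 (D := D) X
  have j := mul_le_mul_of_nonneg_left (jj_le X) (sq_nonneg (uc E S M Y D u))
  have g : X2 E S M Y u * uc E S M Y D u ≤ G0 E S M Y u * uc E S M Y D u := by
    have := X.Gp0; have := X.E0; have := X.nu0
    refine mul_le_mul_of_nonneg_right ?_ u0.le
    have : 0 ≤ E ^ 5001 * nu S := by positivity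
    unfold G0; linarith
  have k : Gd E S Y u (max √((S.θ + u) * Bc E S Y u)
      (√(Lc E S Y u * gg (Su E S M Y D u) 1) * √(X2 E S M Y u))) := by
    rcases max_choice √((S.θ + u) * Bc E S Y u)
      (√(Lc E S Y u * gg (Su E S M Y D u) 1) * √(X2 E S M Y u)) with h | h <;> rw [h]
    exacts [gd_mass X, gd_spec X]
  refine k.mono X ?_
  have m1 := le_max_left √((S.θ + u) * Bc E S Y u)
    (√(Lc E S Y u * gg (Su E S M Y D u) 1) * √(X2 E S M Y u))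
  have m2 := le_max_right √((S.θ + u) * Bc E S Y u)
    (√(Lc E S Y u * gg (Su E S M Y D u) 1) * √(X2 E S M Y u))
  unfold ec
  linarith

theorem ec_mf {x : ℝ} (h : E ^ 9 * (ec E S M Y D u η1 / 11) ≤ (S.θ + u) * x) :
    ec E S M Y D u η1 / mf (Su E S M Y D u) 1 ≤ 11 * x := by
  rw [mf_eq, div_div_eq_mul_div, div_le_iff₀ (th0 X)]
  linarith

theorem tc_x : 100 * tc E S M Y D u η1 ≤ xx E Y := by
  have E3 := X.cx.E3
  have x0 := xx0 X
  have E0 := X.E0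
  have a := (sizes'' (D := D) X).2.2.2.2
  have b := (sizes (D := D) X).2.2.2.1
  have c := ec_mf (D := D) X h0 h1 (x := xx E Y / E ^ 3) (by
    rw [← mul_div_assoc (S.θ + u), le_div_iff₀ (by positivity)]
    linarith [(ec_gd (D := D) X h0 h1).a])
  have d : xx E Y / E ^ 3 ≤ xx E Y / 1000 ^ 3 := by gcongr
  have f := mul_le_mul_of_nonneg_right E3 (div_pos x0 (Lc0 X)).le
  have g := mul_le_mul_of_nonneg_right E3 (rpow_pos_of_pos (w0 (D := D) X) ((1 : ℝ) / 3)).le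
  unfold tc
  linarith

theorem tc_b : tc E S M Y D u η1 ≤ 13 * (Bc E S Y u / (S.θ + u)) ^ ((1 : ℝ) / 3) := by
  obtain ⟨a, b, -⟩ := sizes'' (D := D) X
  have c := ec_mf X h0 h1 (ec_gd (D := D) X h0 h1).b
  unfold tc
  linarith

theorem tc_d : tc E S M Y D u η1 ≤ 13 * Bc E S Y u ^ ((2 : ℝ) / 9) := by
  obtain ⟨-, -, -, -, a, b, -⟩ := sizes' (D := D) X
  have c := ec_mf X h0 h1 (ec_gd (D := D) X h0 h1).d
  unfold tc
  linarith

theorem c3 : (S.θ + u) * tc E S M Y D u η1 ^ 3 ≤ 2197 * Bc E S Y u := by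
  have := th0 X; have := Bc0 X
  refine (mul_le_mul_of_nonneg_left (pow_le_pow_left₀ (tc0 X h0).le (tc_b X h0 h1) 3)
    (th0 X).le).trans_eq ?_
  rw [mul_pow, cub3 (by positivity)]
  field_simp
  norm_num

theorem c6 : nu S * (S.θ + u) * tc E S M Y D u η1 ≤ 12 * (Bc E S Y u + B6 E S Y u) := by
  obtain ⟨-, -, a, b, -⟩ := sizes'' (D := D) X
  have c := (ec_gd (D := D) X h0 h1).c
  have := th0 X; have := X.E0
  have e : nu S * (S.θ + u) * (ec E S M Y D u η1 / mf (Su E S M Y D u) 1) =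
      11 * (nu S * (E ^ 9 * (ec E S M Y D u η1 / 11))) := by
    rw [mf_eq]; field_simp
  unfold tc
  linarith

theorem c8 : min (ec E S M Y D u η1 ^ ((3 : ℝ) / 2)) (ec E S M Y D u η1 ^ 2 / (S.θ + u)) ≤
    11 ^ 2 * Bc E S Y u :=
  mc_le (th0 X) (Bc0 X).le (by norm_num) (ec0 X h0).le (by linarith [(ec_gd (D := D) X h0 h1).m])

theorem thx4 : (S.θ + u) * xx E Y ^ 4 ≤ Bc E S Y u + B6 E S Y u := by
  have := X.E0; have := xx0 X; have := th0 X; have := Bc0 X; have := B60 X; have := X.u_pos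
  obtain ⟨e0, e1⟩ := X.lg_E
  obtain ⟨x0, x1⟩ := X.lg_X
  obtain ⟨y0, y1⟩ := X.lg_Y
  have t := X.lg_T
  have b1 := (Bc_lo X).1
  have c := (X.lg_num (x := 2) (by norm_num) (by norm_num)).2
  rcases le_total S.θ u with h | h
  · refine le_trans (X.le_of_lg (by positivity) (Bc0 X) ?_) (le_add_of_nonneg_right (B60 X).le)
    have a := X.lg_mono (th0 X) (show S.θ + u ≤ 2 * u by linarith)
    revert a
    lg_norm
    rw [lg_xx X, X.lg_u]
    intro a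
    linarith
  · refine le_trans (X.le_of_lg (by positivity) (B60 X) ?_) (le_add_of_nonneg_left (Bc0 X).le)
    have s1 : M.s S.jl ≤ 1 := X.le_of_lg X.sj0 one_pos (by rw [logb_one]; linarith [X.lg_sj.2.2])
    have m := X.sx.ml 1 s1
    have a := X.lg_mono (show 0 < E ^ (60 * KK) * (S.θ + u) by positivity)
      (show _ ≤ 2 by change _ * S.θ ≤ _ at m; nlinarith [pow_pos X.E0 (60 * KK)])
    have k : ((60 * KK : ℕ) : ℝ) = 600000 := by norm_num [KK]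
    rw [logb_mul (by positivity) (by positivity), logb_pow, k] at a
    lg_norm
    rw [lg_xx X, lg_B6 X]
    linarith

theorem c5 {A B : ℝ} (hA : A = S.θ + u + jj E S M Y u + tc E S M Y D u η1 + nu S)
    (hB : B = X2 E S M Y u * xx E Y + A * min A (xx E Y) ^ 2) :
    min (B ^ ((3 : ℝ) / 2)) (B ^ 2 / (S.θ + u)) ≤ 6000 ^ 2 * (Bc E S Y u + B6 E S Y u) ∧
      ((X2 E S M Y u + A * min A (xx E Y)) ^ 3 ≤ Bc E S Y u ∨
        E ^ 360 * (X2 E S M Y u + A * min A (xx E Y)) ≤ S.θ + u) := by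
  obtain ⟨a1, a2, a3, a4, -, -, a7, a8, a9⟩ := sizes' (D := D) X
  have t := tc_d (D := D) X h0 h1
  have t0 := tc0 (D := D) X h0
  have j0 := jj0 X
  have θ0 := th0 X
  have x0 := xx0 X
  have n0 := X.nu0
  have y0 := X.X20
  have b0 := Bc0 X
  have b6 := B60 X
  have E3 := X.cx.E3
  have e3 : (Bc E S Y u ^ ((2 : ℝ) / 9)) ^ 3 = Bc E S Y u ^ ((2 : ℝ) / 3) := by
    rw [← rpow_natCast, ← rpow_mul b0.le]; norm_num
  have β0 := rpow_pos_of_pos b0 ((2 : ℝ) / 9)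
  have mm := mx_mono θ0.le b0.le (le_add_of_nonneg_right b6.le)
  have m1 := (le_max_left _ _).trans mm
  rw [← e3] at m1
  generalize Bc E S Y u ^ ((2 : ℝ) / 9) = β at *
  have A0 : 0 < A := by rw [hA]; positivity
  have A1 : A ≤ S.θ + u + 17 * β := by rw [hA, jj]; linarith
  have k0 : 0 < min A (xx E Y) := lt_min A0 x0
  have B0 : 0 ≤ B := by rw [hB]; positivity
  rcases le_total (S.θ + u) β with h | h
  · have A2 : A ≤ 18 * β := by linarith
    have k1 := (min_le_left A (xx E Y)).trans A2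
    have f : A * min A (xx E Y) ^ 2 ≤ 18 * β * (18 * β) ^ 2 := by gcongr
    have g : A * min A (xx E Y) ≤ 18 * β * (18 * β) := by gcongr
    refine ⟨mc_le θ0 (by positivity) (by norm_num) B0 (by
      rw [hB]; nlinarith [pow_pos β0 3]), .inl (le_trans (pow_le_pow_left₀ (by positivity) ?_ 3) a9)⟩
    nlinarith [pow_pos β0 2]
  · have A2 : A ≤ 18 * (S.θ + u) := by linarith
    have k1 := min_le_right A (xx E Y)
    have f : A * min A (xx E Y) ^ 2 ≤ 18 * (S.θ + u) * xx E Y ^ 2 := by gcongr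
    have g : A * min A (xx E Y) ≤ 18 * (S.θ + u) * xx E Y := by gcongr
    have m2 : (S.θ + u) * xx E Y ^ 2 ≤ _ := le_trans (le_sqrt_of_sq_le (by
      nlinarith [mul_le_mul_of_nonneg_left (thx4 X h0 h1) θ0.le])) (le_max_right
        ((Bc E S Y u + B6 E S Y u) ^ ((2 : ℝ) / 3)) √((S.θ + u) * (Bc E S Y u + B6 E S Y u)))
    refine ⟨mc_le θ0 (by positivity) (by norm_num) B0 (by
      rw [hB]; nlinarith [pow_pos β0 3]), .inr ?_⟩
    have E0 := X.E0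
    have p : E ^ 361 * X2 E S M Y u ≤ S.θ + u := X.le_of_lg (by positivity) θ0 (by
      lg_norm
      linarith [X.lg_X2.1, (lg_th X).1, X.lg_E.1, X.lg_E.2])
    have q := mul_le_mul_of_nonneg_left (sizes (D := D) X).2.2.2.2 θ0.le
    have r := mul_le_mul_of_nonneg_right E3 (show 0 ≤ E ^ 360 * (X2 E S M Y u +
      (S.θ + u) * xx E Y) by positivity)
    have s := mul_le_mul_of_nonneg_left g (pow_pos E0 360).le
    have : 0 ≤ E ^ 360 * X2 E S M Y u := by positivity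
    rw [pow_succ E 360] at p q
    generalize E ^ 360 = G at *
    linarith

end

end Crest.Agent.T156.Alt.Tc28

end
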