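import Crest.Agent.T156.TermCb_28
import Crest.Agent.T156.TermG_92

/-!
# Row 156, SR, terminal statement: the corner fields and the costs `LC` (helper28)
-/

set_option autoImplicit false
set_option linter.unusedSectionVars false

noncomputable section

namespace Crest.Agent.T156.Alt.Tc28

open Real Finset Filter Pre29 Sr L69 Tm92

section num

variable {E : ℝ} {S : Sc} {M : Md} {l lm Ys Y u D η1 r1 r2 : ℝ} (X : Tx E S M l lm Ys Y u)
include X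

theorem c2n : (S.θ + u) * nu S ^ 2 ≤ B6 E S Y u := by
  have := th0 X; have := X.nu0
  refine X.le_of_lg (by positivity) (B60 X) ?_
  lg_norm
  rw [lg_B6 X, X.lg_nu]
  linarith [X.lg_E.1, (lg_th X).2, X.lg_T, X.lg_Y.1]

theorem c9 : ((Su E S M Y D u).w3 1 * Xx E Y) ^ ((3 : ℝ) / 4) +
    (S.θ + u) * (jj E S M Y u ^ 9 + Xx E Y ^ 3) ≤ 20000 * Bc E S Y u := by
  have := th0 X; have := xx0 X; have := X.X0; have := w0 (D := D) X; have b0 := Bc0 X
  obtain ⟨e0, e1⟩ := X.lg_E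
  obtain ⟨p0, p1⟩ := lg_th X
  obtain ⟨x0, x1⟩ := X.lg_X
  obtain ⟨y0, y1⟩ := X.lg_Y
  obtain ⟨m0, m1, m2⟩ := X.lg_mu
  obtain ⟨b1, b2, b3⟩ := Bc_lo X
  have t := X.lg_T
  have a : ((Su E S M Y D u).w3 1 * Xx E Y) ^ ((3 : ℝ) / 4) ≤ Bc E S Y u :=
    X.le_of_lg (by positivity) b0 (by lg_norm; rw [lg_w X]; linarith)
  have b : (S.θ + u) * xx E Y ^ 9 ≤ Bc E S Y u :=
    X.le_of_lg (by positivity) b0 (by lg_norm; rw [lg_xx X]; linarith)
  have c : (S.θ + u) * Xx E Y ^ 3 ≤ Bc E S Y u :=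
    X.le_of_lg (by positivity) b0 (by lg_norm; linarith)
  have d := mul_le_mul_of_nonneg_left (pow_le_pow_left₀ (jj0 X).le (jj_le X) 9) (th0 X).le
  linarith

theorem c1p {V N2 : ℝ} (h0 : 0 ≤ η1) (h1 : η1 ≤ √((S.θ + u) * Bc E S Y u)) (V0 : 0 ≤ V)
    (hV : V ≤ Tt46.V2 E S Y u) (N0 : 0 ≤ N2) (hN : N2 ≤ Bu E S M Y u ^ ((2 : ℝ) / 3)) {e : ℝ}
    (he : e = η1 + G0 E S M Y u ^ 2 + N2 + X2 E S M Y u * (xx E Y + V)) :
    min (e ^ ((3 : ℝ) / 2)) (e ^ 2 / (S.θ + u)) ≤ 8 ^ 2 * Bu E S M Y u := by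
  have θ0 := th0 X; have := xx0 X; have y0 := X.X20; have b0 := Bc0 X; have := Bu0 X
  have := X.G00; have E0 := X.E0; have := X.N0
  obtain ⟨e0, e1⟩ := X.lg_E
  obtain ⟨p0, p1⟩ := lg_th X
  obtain ⟨x0, x1⟩ := X.lg_X
  obtain ⟨y0, y1⟩ := X.lg_Y
  obtain ⟨m0, m1, m2⟩ := X.lg_mu
  obtain ⟨b1, b2, b3⟩ := Bc_lo X
  obtain ⟨a1, a2, a3⟩ := X.lg_X2
  have a4 := X.lg_X2'
  have t := X.lg_T
  have k1 : G0 E S M Y u ^ 2 ≤ Bc E S Y u ^ ((2 : ℝ) / 3) :=
    X.le_of_lg (by positivity) (by positivity) (by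
      lg_norm
      rcases X.lg_G0 with g | g | ⟨g, -⟩ <;> linarith)
  have k2 : E ^ 50000 * (X2 E S M Y u * xx E Y) ≤ Bc E S Y u ^ ((2 : ℝ) / 3) :=
    X.le_of_lg (by positivity) (by positivity) (by lg_norm; rw [lg_xx X]; linarith)
  have k3 : E ^ 50000 * (X2 E S M Y u * √(S.θ + u)) ≤ √((S.θ + u) * Bc E S Y u) :=
    X.le_of_lg (by positivity) (by positivity) (by lg_norm; linarith)
  have k4 : E ^ 50000 * (X2 E S M Y u * (S.n : ℝ) ^ (-(1 : ℝ) / 11)) ≤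
      Bu E S M Y u ^ ((2 : ℝ) / 3) :=
    X.le_of_lg (by positivity) (by positivity) (by lg_norm; rw [X.lg_n, lg_Bu X]; linarith)
  have g1 : 1 ≤ E ^ 50000 := one_le_pow₀ X.E1
  have s1 : √u ≤ √(S.θ + u) := sqrt_le_sqrt (le_add_of_nonneg_left X.cl.θ0.le)
  have s2 : min (√S.θ) ((S.n : ℝ) ^ (-(21 : ℝ) / 400)) ≤ √(S.θ + u) :=
    (min_le_left _ _).trans (sqrt_le_sqrt (le_add_of_nonneg_right X.u_pos.le))
  have v : V ≤ E ^ 50000 * ((S.n : ℝ) ^ (-(1 : ℝ) / 11) + √(S.θ + u) + √(S.θ + u) + xx E Y) :=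
    hV.trans (mul_le_mul_of_nonneg_left (add_le_add (add_le_add (add_le_add le_rfl s2) s1) le_rfl)
      (by positivity))
  have v' := mul_le_mul_of_nonneg_left v X.X20.le
  have v'' := mul_le_mul_of_nonneg_right g1 (mul_pos X.X20 (xx0 X)).le
  have mm := mx_mono θ0.le b0.le (Bc_le X)
  have n1 := (le_max_left _ _).trans mm
  have n2 := (le_max_right _ _).trans mm
  have n3 := le_max_left (Bu E S M Y u ^ ((2 : ℝ) / 3)) √((S.θ + u) * Bu E S M Y u)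
  refine mc_le θ0 (Bu0 X).le (by norm_num) (by rw [he]; positivity) ?_
  rw [he]
  generalize E ^ 50000 = G at *
  linarith

set_option maxHeartbeats 800000 in
theorem c4 {G w : ℝ} (T : Tp KK E S M lm Y r1 r2) (r0 : 0 < r2) (h0 : 0 ≤ η1)
    (h1 : η1 ≤ √((S.θ + u) * Bc E S Y u)) (w0 : 0 ≤ w) (w1 : w ≤ u)
    (hG : G ≤ 8 * Zz E * S.g2 + 4 * (u ^ 2 * Yd KK E Y) + 113 * (w ^ 2 * (E ^ 100 * Y))) :
    (2 * r2) ^ 2 + 2 * r2 * (η1 + X2 E S M Y u + √(G / (2 * r2)) + (S.θ + u) * nu S) +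
      (2 * r2 * (S.θ + u)) ^ ((3 : ℝ) / 2) + nu S * (η1 + X2 E S M Y u) + nu S ^ ((15 : ℝ) / 7) ≤
      30 * (Bu E S M Y u + B6 E S Y u) := by
  have θ0 := th0 X; have := X.X20; have b0 := Bc0 X; have := Bu0 X; have := B60 X
  have E0 := X.E0; have := X.N0; have n0 := X.nu0; have := X.Yd0; have u0 := X.u_pos
  have := X.Y0; have := X.Z0
  obtain ⟨e0, e1⟩ := X.lg_E
  obtain ⟨y0, y1⟩ := X.lg_Y
  obtain ⟨m0, m1, m2⟩ := X.lg_mu
  obtain ⟨b1, b2, b3⟩ := Bc_lo X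
  obtain ⟨a1, a2, a3⟩ := X.lg_X2
  have a4 := X.lg_X2'
  have a5 := X.lg_Bd.2.2.1
  have t := X.lg_T
  have yd := X.lg_Yd
  have lu := X.lg_u
  have c2 := (X.lg_num (x := 2) (by norm_num) (by norm_num)).2
  have lr := X.lg_mono r0 T.a4
  have lρ : logb S.n r2 + logb S.n (S.θ + u) ≤ logb S.n E - 1 / 2 ∨
      logb S.n (S.θ + u) ≤ logb S.n E + logb S.n u := by
    rcases le_total S.θ u with h | h
    · have a := X.lg_mono θ0 (show S.θ + u ≤ 2 * u by linarith)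
      rw [logb_mul two_ne_zero u0.ne'] at a
      exact .inr (by linarith)
    · have a := X.lg_mono (mul_pos r0 θ0) (show _ ≤ 2 * (S.n : ℝ) ^ (-(1 : ℝ) / 2) by
        linarith [T.a6, mul_le_mul_of_nonneg_left h r0.le])
      rw [logb_mul two_ne_zero (by positivity), logb_mul r0.ne' θ0.ne', X.lg_rp] at a
      exact .inl (by linarith)
  have k1 : (2 * r2) ^ 2 ≤ Bc E S Y u :=
    X.le_of_lg (by positivity) b0 (by lg_norm; linarith)
  have k2 : 2 * r2 * √((S.θ + u) * Bc E S Y u) ≤ Bc E S Y u :=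
    X.le_of_lg (by positivity) b0 (by lg_norm; rcases lρ with h | h <;> linarith)
  have k3 : 2 * r2 * X2 E S M Y u ≤ Bc E S Y u :=
    X.le_of_lg (by positivity) b0 (by lg_norm; linarith)
  have k4 : 2 * r2 * ((S.θ + u) * nu S) ≤ Bc E S Y u :=
    X.le_of_lg (by positivity) b0 (by lg_norm; rw [X.lg_nu]; rcases lρ with h | h <;> linarith)
  have k5 : (2 * r2 * (S.θ + u)) ^ ((3 : ℝ) / 2) ≤ Bc E S Y u :=
    X.le_of_lg (by positivity) b0 (by lg_norm; rcases lρ with h | h <;> linarith)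
  have k6 : nu S * η1 ≤ Bc E S Y u + B6 E S Y u := le_trans (mul_le_mul_of_nonneg_left
    (h1.trans (le_mul_of_one_le_left (sqrt_nonneg _) (one_le_pow₀ X.E1))) n0.le) (gd_mass X).c
  have k7 : nu S * X2 E S M Y u ≤ Bu E S M Y u :=
    X.le_of_lg (by positivity) (Bu0 X) (by lg_norm; rw [X.lg_nu, lg_Bu X]; linarith)
  have k8 : nu S ^ ((15 : ℝ) / 7) ≤ Bc E S Y u :=
    X.le_of_lg (by positivity) b0 (by lg_norm; rw [X.lg_nu]; linarith)
  have q1 : Zz E * (S.n : ℝ) ^ (-(137 : ℝ) / 100) ≤ Bc E S Y u ^ 2 :=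
    X.le_of_lg (by positivity) (by positivity) (by lg_norm; rw [X.lg_Z, X.lg_n]; linarith)
  have q2 : r2 * (u ^ 2 * Yd KK E Y) ≤ Bc E S Y u ^ 2 :=
    X.le_of_lg (by positivity) (by positivity) (by lg_norm; linarith)
  have q3 : r2 * (u ^ 2 * (E ^ 100 * Y)) ≤ Bc E S Y u ^ 2 :=
    X.le_of_lg (by positivity) (by positivity) (by lg_norm; linarith)
  have q4 : r2 * (w ^ 2 * (E ^ 100 * Y)) ≤ r2 * (u ^ 2 * (E ^ 100 * Y)) := by gcongr
  have q5 := mul_le_mul_of_nonneg_left T.a5 X.Z0.le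
  have q6 := mul_le_mul_of_nonneg_left hG r0.le
  have k9 : √(G / (2 * r2)) ≤ 16 * Bc E S Y u / (2 * r2) := by
    refine sqrt_le_iff.2 ⟨by positivity, ?_⟩
    rw [div_pow, div_le_div_iff₀ (by positivity) (by positivity)]
    have : 2 * r2 * G ≤ (16 * Bc E S Y u) ^ 2 := by linarith [sq_nonneg (Bc E S Y u)]
    linarith [mul_le_mul_of_nonneg_left this r0.le]
  rw [le_div_iff₀' (by positivity)] at k9
  linarith [mul_le_mul_of_nonneg_left h1 r0.le, Bc_le X]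

theorem le_Nc {x k : ℝ} (hk : k ≤ 10 ^ 9) (h : x ≤ k * (Bu E S M Y u + B6 E S Y u)) :
    x + (S.θ + u) * S.u0 ^ 3 ≤ Nc E S M Y u := by
  have a : (1000 : ℝ) ^ 8 ≤ E ^ 8 := pow_le_pow_left₀ (by norm_num) X.cx.E3 8
  have b := mul_le_mul_of_nonneg_right (show k ≤ E ^ 8 by linarith) (add_pos (Bu0 X) (B60 X)).le
  unfold Nc
  linarith

end num

section

variable {E : ℝ} {S : Sc} {M : Md} {l lm Ys Y : ℝ} {c : ℕ → ℝ} {D u : ℝ} {F : ℕ → ℝ}
  (Z : Tm71.Tx KK E S M l lm Ys Y c D u F)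
include Z

theorem et_lo : (G0 E S M Y u + X2 E S M Y u) * √(X2 E S M Y u) + X3n E S M Y u + 1 / S.n ≤
    M15.et E S M Y D u 1 := by
  have X := tx Z
  have L := (bk Z).ln
  have l1 : ll E S M Y u ≤ 1 := (le_mul_of_one_le_left X.l0.le (one_le_pow₀ X.E1)).trans L.l1
  refine le_trans ?_ (L.ηb 1 l1 Z.cl'.C1)
  have := X.G00; have := X.X20; have := X.Z0; have := w0 (D := D) X
  have m := Z.cl'.ms_pos zero_le_one
  have c0 : 0 < cr (Su E S M Y D u) 1 := one_pos.trans_le (le_max_left _ _)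
  have u0 : 0 ≤ uw (Su E S M Y D u) (Zz E) 1 := by unfold uw; positivity
  have p1 : 0 ≤ uw (Su E S M Y D u) (Zz E) 1 ^ 2 * min ((Su E S M Y D u).ms 1 / 1) 1 :=
    mul_nonneg (sq_nonneg _) (le_min (div_nonneg m.le zero_le_one) zero_le_one)
  have p2 : (G0 E S M Y u + X2 E S M Y u) * √(X2 E S M Y u) ≤
      (√(Zz E * cr (Su E S M Y D u) 1 * gg (Su E S M Y D u) 1) + G0 E S M Y u + X2 E S M Y u) *
        (uw (Su E S M Y D u) (Zz E) 1 + √(X2 E S M Y u)) :=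
    mul_le_mul (by linarith [sqrt_nonneg (Zz E * cr (Su E S M Y D u) 1 * gg (Su E S M Y D u) 1)])
      (by linarith) (sqrt_nonneg _)
      (add_nonneg (add_nonneg (sqrt_nonneg _) X.G00.le) X.X20.le)
  change _ ≤ _ + _ + _ + _ + 1 / (S.n : ℝ)
  linarith [pow_nonneg u0 3]

theorem et0 : 0 ≤ M15.et E S M Y D u 1 := by
  have X := tx Z
  have := X.G00; have := X.X20; have := X.X3n0
  exact le_trans (by positivity) (et_lo Z)

theorem et1 : M15.et E S M Y D u 1 ≤ √((S.θ + u) * Bc E S Y u) := by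
  have X := tx Z
  have := th0 X; have := X.E0; have := X.Xi0
  refine le_sqrt_of_sq_le ((Bk.η1 Z (bk Z)).trans ?_)
  rw [mf_eq, Bc]
  calc _ = (S.θ + u) * (Xi E S Y u / E ^ 11) := by field_simp
    _ ≤ _ := by gcongr; exacts [le_max_left _ _, X.E1, by norm_num]

end

end Crest.Agent.T156.Alt.Tc28

namespace Crest.Agent.T156.Alt.Tm92

open Real Finset Filter Pre29 Sr L69 Tc28

/-- **the corner** -/
theorem hCn : HCn := fun E S M l lm Ys Y c D u F Z _ _ _ => by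
  have X := tx Z
  have h0 := et0 Z
  have h1 := et1 Z
  have t := tc_x (D := D) X h0 h1
  have t0 := tc0 (D := D) X h0
  have W := w0 (D := D) X
  have p : 0 ≤ xx E Y / Lc E S Y u + ec E S M Y D u (M15.et E S M Y D u 1) /
      mf (Su E S M Y D u) 1 :=
    (add_pos (div_pos (xx0 X) (Lc0 X)) (div_pos (ec0 X h0) (X.mf_pos zero_le_one))).le
  refine ⟨(cub3 W.le).ge.trans (pow_le_pow_left₀ (by positivity) (le_add_of_nonneg_left p) 3),
    ⟨Z_Lc X, Lc_n X⟩, ?_, le_add_of_nonneg_right (rpow_pos_of_pos W _).le,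
    show _ ≤ xx E Y by linarith, ?_⟩
  · rintro _ rfl
    refine ⟨?_, uc_mf X⟩
    have a := et_lo Z
    change uc E S M Y D u ^ 3 + uc E S M Y D u ^ 2 * (S.θ + u + Tc28.jj E S M Y u + xx E Y) +
      (√(Lc E S Y u * gg (Su E S M Y D u) 1) + G0 E S M Y u + X2 E S M Y u) *
        (uc E S M Y D u + √(X2 E S M Y u)) + X3n E S M Y u + 1 / (S.n : ℝ) ≤ _
    unfold ec
    linarith
  · have a := (sizes (D := D) X).2.2.2.2
    have b := mul_le_mul_of_nonneg_left (show Tc28.jj E S M Y u + tc E S M Y D u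
      (M15.et E S M Y D u 1) ≤ E * xx E Y by
        linarith [jj_le X, mul_le_mul_of_nonneg_right X.cx.E3 (xx0 X).le]) (pow_pos X.E0 360).le
    rw [pow_succ E 360] at a
    linarith

/-- the sum of `c1` -/
def HS1 : Prop := AllZ fun E S M _ _ _ Y _ _ u _ Z _ r2 =>
  ∑ k ∈ (Icc Z.S'.J Z.S'.Jp).filter fun k => 2 * r2 ≤ du Z.N k,
    dx Z.N k * min ((Zz E ^ 2 * ap Z.N Z.S' (Xx E Y) (V21 E S Y u) (nu S) k) ^ 3)
      ((Zz E ^ 2 * ap Z.N Z.S' (Xx E Y) (V21 E S Y u) (nu S) k) ^ 4 / Z.S'.θ) ≤ Bu E S M Y u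

/-- the quadratic sum -/
def HS2 : Prop := AllZ fun E S M _ _ _ Y _ _ u _ Z r1 _ =>
  Np Z.N Z.S' (Xx E Y) (Vt1 E S Y u) (nu S) (8 * r1) (Zz E ^ 3) 2 ≤ Bu E S M Y u ^ ((2 : ℝ) / 3)

/-- **the costs** from the two plateau sums -/
theorem hLC_of (s1 : HS1) (s2 : HS2) : HLC := fun E S M l lm Ys Y c D u F Z r1 r2 T => by
  have X := tx Z
  have h0 := et0 Z
  have h1 := et1 Z
  have H := Z.cl'
  have θ0 := th0 X
  have r0 := r_pos Z T
  have r3 : 0 < r2 := (mul_pos (pow_pos X.E0 _) r0).trans_le T.a3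
  have b0 := Bc0 X
  have b1 := Bc_le X
  have b6 := B60 X
  have V0 : 0 ≤ V21 E S Y u := le_min zero_le_one (Tt46.V2_pos X).le
  have Vt0 : V21 E S Y u ≤ Vt1 E S Y u := min_le_min_left _ (Tt46.V2_le X)
  have g0 : 0 ≤ Z.GN := div_nonneg (add_nonneg (add_nonneg (Tm71.GP_nn H) (Tm71.GS_nn H _ _))
    (sq_nonneg _)) H.θ0.le
  have u3 : 0 ≤ (S.θ + u) * S.u0 ^ 3 := (mul_pos θ0 (pow_pos X.cx.sh.u0.1 3)).le
  have K : ∀ {x k : ℝ}, k ≤ 10 ^ 9 → x ≤ k * (Bu E S M Y u + B6 E S Y u) →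
      x ≤ Nc E S M Y u + Z.GN := fun a b => by linarith [le_Nc X a b]
  refine ⟨⟨V0, Vt0⟩, K (k := 1) (by norm_num) ?_, fun e he => K (k := 8 ^ 2) (by norm_num) ?_, ?_,
    ?_, K (k := 30) (by norm_num) ?_, K (k := 12) (by norm_num) ?_,
    K (k := 11 ^ 2) (by norm_num) ?_, K (k := 20000) (by norm_num) ?_, fun A B hA hB => ?_⟩
  · linarith [s1 _ _ _ _ _ _ _ _ _ _ _ Z r1 r2 T]
  · have n0 : 0 ≤ Np Z.N Z.S' (Xx E Y) (Vt1 E S Y u) (nu S) (8 * r1) (Zz E ^ 3) 2 := by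
      have := X.Z0
      refine add_nonneg (by positivity) (sum_nonneg fun k _ => mul_nonneg
        (Sr.C71.dx_nn H k) (add_nonneg (sq_nonneg _) (le_min (by positivity)
          (mul_nonneg (sqrt_nonneg _) (rpow_nonneg ?_ _)))))
      exact add_nonneg (add_nonneg (sqrt_nonneg _) (le_min (V0.trans Vt0) (sqrt_nonneg _)))
        X.nu0.le
    exact (c1p X h0 h1 V0 (min_le_right _ _) n0 (s2 _ _ _ _ _ _ _ _ _ _ _ Z r1 r2 T) he).trans
      (by linarith)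
  · rw [add_div]
    change Z.GN + ((S.θ + u) * nu S) ^ 2 / (S.θ + u) ≤ _
    have e : ((S.θ + u) * nu S) ^ 2 / (S.θ + u) = (S.θ + u) * nu S ^ 2 := by field_simp
    linarith [le_Nc X (k := 1) (by norm_num) (x := (S.θ + u) * nu S ^ 2) (by linarith [c2n X])]
  · change (S.θ + u) * (_ + S.u0 ^ 3) ≤ _
    linarith [le_Nc X (k := 2197) (by norm_num) ((c3 (D := D) X h0 h1).trans (by linarith))]
  · refine c4 X T r3 h0 h1 Z.w0.le (min_le_left u D) ?_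
    have a := (Tm71.GP_le H).trans Z.sqG_split
    have b : M.sq S Z.gy ≤ _ := Z.k0.res
    have d := mul_le_mul_of_nonneg_left Z.sx.big.ck (sq_nonneg u)
    have e : Z.G1 ^ 2 = 81 * (min u D ^ 2 * (E ^ 100 * Y)) := by
      have := X.E0; have := X.Y0
      rw [Tm71.Tx.G1, mul_pow, mul_pow, sq_sqrt (by positivity)]; ring
    have f : M.sq S M.G ≤ 2 * Zz E * S.g2 := Z.sqG_g2
    linarith
  · exact (c6 (D := D) X h0 h1).trans (by linarith)
  · exact (c8 (D := D) X h0 h1).trans (by linarith)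
  · exact (c9 (D := D) X).trans (by linarith)
  · obtain ⟨a, b⟩ := c5 (D := D) X h0 h1 hA hB
    exact ⟨K (k := 6000 ^ 2) (by norm_num) (a.trans (by linarith)),
      b.imp_left fun b => K (k := 1) (by norm_num) (b.trans (by linarith))⟩

end Crest.Agent.T156.Alt.Tm92

end
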