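import Crest.Agent.T156.TermB_92
import Crest.Agent.T156.TermC_71

/-!
# Row 156, SR, terminal statement: the numbers of the closing (helper92)
-/

set_option autoImplicit false
set_option linter.unusedSectionVars false

noncomputable section

namespace Crest.Agent.T156.Alt.Tm92

open Real Finset Filter Pre29 Sr L69

/-- the a priori bound of `|J| + ∫ |J|` -/
def jj (E : ℝ) (S : Sc) (M : Md) (Y u : ℝ) : ℝ := √(Xx E Y) + √(Tt E Y) + ll E S M Y u ^ 2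

/-- **the lines for the plateau cost** -/
structure NcL (E : ℝ) (S : Sc) (M : Md) (Y D u Nc : ℝ) : Prop where
  a : ∀ t, Tt E Y ^ ((1 : ℝ) / 3) ≤ t → t ≤ 1 → t * Nc ≤ En E S M Y D u t / 10
  b : ∀ t, ll E S M Y u ≤ t → (1 ≤ 2 * E ^ 360 * t ∨ 1 ≤ (E ^ 360) ^ 6 * u) →
    Nc ≤ max (Tt E Y ^ 2 / E) (Tt E Y * mf (Su E S M Y D u) t) / 10

/-- **the bulk numbers** -/
structure Bk (E : ℝ) (S : Sc) (M N : Md) (Y D u X4 : ℝ) (η : ℝ → ℝ) : Prop where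
  ln : LN (E ^ 360) (Su E S M Y D u) N (ll E S M Y u) (ll E S M Y u) (Vv E S M Y D u) (Xx E Y)
    (Zz E) (X2 E S M Y u) (X3n E S M Y u) (G0 E S M Y u) η
  l4 : ∀ T, L4 (Su E S M Y D u) (Vv E S M Y D u) (Xx E Y) (ll E S M Y u) T X4
  x40 : 0 ≤ X4
  x4 : E * X4 ≤ Xi E S Y u
  cost : ∀ r, ll E S M Y u ≤ r → r ≤ 8 * S.C → r * (cr (Su E S M Y D u) r *
    (η r ^ 2 / mf (Su E S M Y D u) r)) ≤ Xi E S Y u / E ^ 2

section

variable {E : ℝ} {S : Sc} {M : Md} {l lm Ys Y : ℝ} {c : ℕ → ℝ} {D u : ℝ} {F : ℕ → ℝ}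
  (Z : Tm71.Tx KK E S M l lm Ys Y c D u F)
include Z

/-- the bridge -/
theorem tx : Tx E S M l lm Ys Y u := ⟨Z.X, Z.sx, Z.u1, Z.u2⟩

theorem kc : KC E S M Y c D u Z.N := ⟨Z.u0.le, Z.ud, F, Z.k0, rfl⟩

theorem hJ : Z.N.H S.Jp ≤ 8 * S.C := (tx Z).HJ Z.dr (kc Z)

theorem NcL.free {Nc : ℝ} (h : E * Nc ≤ Xi E S Y u) : NcL E S M Y D u Nc := by
  have X := tx Z
  have E3 := Z.X.E3
  have x0 := X.Xi0
  have k : Nc ≤ Xi E S Y u / 10 := by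
    by_contra hc
    nlinarith [not_le.1 hc]
  refine ⟨fun t a b => ?_, fun t a b => ?_⟩
  · have t0 := (rpow_pos_of_pos X.T0 _).trans_le a
    have := X.Xi_le (D := D) t0 b
    nlinarith
  · have := (X.Xi_le' (D := D) (X.l0.trans_le a) b).trans (le_max_right (Tt E Y ^ 2 / E) _)
    linarith

theorem Bk.η1 {N : Md} {X4 : ℝ} {η : ℝ → ℝ} (B : Bk E S M N Y D u X4 η) :
    η 1 ^ 2 ≤ mf (Su E S M Y D u) 1 * Xi E S Y u / E ^ 2 := by
  have X := tx Z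
  have l1 : ll E S M Y u ≤ 1 :=
    (le_mul_of_one_le_left X.l0.le (one_le_pow₀ X.E1)).trans B.ln.l1
  have m0 : 0 < mf (Su E S M Y D u) 1 := X.mf_pos zero_le_one
  have a := B.cost 1 l1 (by linarith [X.cl.C1])
  have b : η 1 ^ 2 / mf (Su E S M Y D u) 1 ≤ Xi E S Y u / E ^ 2 := le_trans (by
    rw [one_mul]
    exact le_mul_of_one_le_left (by positivity) (le_max_left _ _)) a
  rw [div_le_iff₀ m0] at b
  exact b.trans_eq (by ring)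

/-- **the numbers of the closing** -/
theorem hn_of {X4 u2 Nc : ℝ} {η : ℝ → ℝ} (B : Bk E S M Z.N Y D u X4 η) (L : NcL E S M Y D u Nc)
    (h2 : u2 ≤ Tt E Y) :
    Z.Hn (E ^ 360) (ll E S M Y u) (Xx E Y) (X2 E S M Y u) X4 u2 η Nc := by
  have X := tx Z
  have e1 : 1 ≤ (E ^ 360) ^ 2 := one_le_pow₀ (one_le_pow₀ X.E1)
  have k : ∀ t, Z.t0 (E ^ 360) ≤ t → E ^ 360 * t ≤ 1 →
      Tt E Y ^ ((1 : ℝ) / 3) ≤ t ∧ √u ≤ t ∧ t ≤ 1 := fun t a b => by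
    have a' := (le_mul_of_one_le_left ((sqrt_nonneg u).trans (le_max_left _ _)) e1).trans a
    have p := (le_max_right _ _).trans a'
    exact ⟨p, (le_max_left _ _).trans a', (le_mul_of_one_le_left
      ((rpow_pos_of_pos X.T0 _).le.trans p) (one_le_pow₀ X.E1)).trans b⟩
  refine ⟨X.sj_l', X.l3_le, h2, fun t a b => ?_, fun t a b => ?_, fun t a b => ?_⟩
  · obtain ⟨p, -, q⟩ := k t a b
    exact X.h1 B.l4 B.x4 B.x40 ((rpow_pos_of_pos X.T0 _).trans_le p) q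
  · obtain ⟨p, r, q⟩ := k t a b
    exact X.h2 Z.cl' rfl B.cost B.x4 B.x40 (X.l_le.trans p) q
      ((sq_sqrt X.u_pos.le).ge.trans (pow_le_pow_left₀ (sqrt_nonneg _) r 2)) (L.a t p q)
  · have t0 := X.l0.trans_le a
    have x := (X.Xi_le' (D := D) t0 b).trans (le_max_right (Tt E Y ^ 2 / E) _)
    have g := X.Eg_le Z.cl' rfl B.cost B.x4 (Su E S M Y D u).C x
      ((X.root3 t0 b).trans (le_max_right _ _))
    have h := L.b t a b
    have x0 := X.Xi0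
    change _ ≤ max (Tt E Y ^ 2 / E) (Tt E Y * mf (Su E S M Y D u) t) / 2
    unfold Tm71.Eg0
    change ll E S M Y u ^ 5 + (Su E S M Y D u).ms (ll E S M Y u) * ll E S M Y u ^ 3 +
      Tm71.cE Z.N (Su E S M Y D u) η (ll E S M Y u) (Su E S M Y D u).C + X2 E S M Y u ^ 2 + X4 + Nc ≤ _
    linarith

/-- the a priori package -/
theorem ap_N {m : ℕ} {a Vt u1 : ℝ} (hX : Z.N.Phi S m a ≤ 2 * (E ^ 100 * Y))
    (hV : ∀ k, S.J ≤ k → k ≤ S.Jp → u1 ≤ du Z.N k → Z.N.del m a k ≤ Vt)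
    (hJ : Jn Z.S' Z.N (Xx E Y) u1) :
    Ap Z.S' Z.N m a (ll E S M Y u) (Xx E Y) (Xx E Y) Vt u1 (jj E S M Y u) :=
  Tm71.ap_of Z.cl' Z.X.sh.jj hX hV Z.sqG le_rfl hJ

end

end Crest.Agent.T156.Alt.Tm92

end
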