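import Crest.Agent.T156.TermG_92

/-!
# Row 156, SR, terminal statement: the budget of the costs (helper92)
-/

set_option autoImplicit false
set_option linter.unusedSectionVars false

noncomputable section

namespace Crest.Agent.T156.Alt.Tm92

open Real Finset Filter Pre29 Sr L69

theorem Tx.bud_Nc {E : ℝ} {S : Sc} {M : Md} {l lm Ys Y u D : ℝ} (X : Tx E S M l lm Ys Y u) :
    Bud E S M Y D u (100 / E) (Tc28.Nc E S M Y u) := by
  have E0 := X.E0
  have T0 := X.T0
  have t0 := Tc28.th0 X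
  have b1 : Bud E S M Y D u (1 / E) (E ^ 8 * Tc28.Bu E S M Y u) :=
    X.bud_Bd' (mul_pos (pow_pos E0 _) (Tc28.Bu0 X)) (by
      rw [logb_mul (pow_pos E0 _).ne' (Tc28.Bu0 X).ne', Tc28.lg_Bu X, logb_pow]
      push_cast
      linarith [X.lg_E.1])
  have b2 : Bud E S M Y D u (1 / E) (E ^ 8 * Tc28.B6 E S Y u) :=
    X.bud_43 (mul_pos (pow_pos E0 _) (Tc28.B60 X)) (by
      rw [logb_mul (pow_pos E0 _).ne' (Tc28.B60 X).ne', Tc28.B6,
        logb_div (by positivity) (by positivity), logb_mul (by positivity) (by positivity),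
        logb_rpow_eq_mul_logb_of_pos T0, logb_rpow_eq_mul_logb_of_pos t0, logb_pow, logb_pow]
      push_cast
      linarith [X.lg_E.1])
  have u0 := X.sx.big.u0
  have b3 : Bud E S M Y D u (1 / E) (S.θ * S.u0 ^ 3) :=
    X.bud_u0 (le_mul_of_one_le_left (mul_pos X.cl.θ0 (pow_pos u0.1 _)).le (one_le_pow₀ X.E1))
  have b4 : Bud E S M Y D u (1 / E) (u * S.u0 ^ 3) := X.bud_ms fun t a b => by
    have m := X.cl.ms_pos a.le
    have p := mul_pos X.Yd0 (add_pos m X.u_pos)
    refine le_trans ?_ (le_mul_of_one_le_left p.le (one_le_pow₀ X.E1))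
    have q := mul_le_mul_of_nonneg_left u0.2 X.u_pos.le
    have r := mul_le_of_le_one_left (mul_pos X.u_pos (pow_pos u0.1 3)).le b
    linarith [mul_pos X.Yd0 m]
  refine X.bud_mono (((b1.add b2).add (b3.add b4)).of_le (le_of_eq ?_)) ?_
  · rw [Tc28.Nc]
    ring
  · have : 0 < 1 / E := one_div_pos.2 E0
    rw [show 100 / E = 100 * (1 / E) by ring]
    linarith

theorem hBud : HBud := fun _ _ _ _ _ _ _ _ _ _ _ Z _ _ _ => (tx Z).bud_Nc

end Crest.Agent.T156.Alt.Tm92

end
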