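import Crest.Agent.T156.TermF_92
import Crest.Agent.T156.TermM_15

/-!
# Row 156, SR, terminal statement: the bulk numbers `Bk` (helper15)
-/

set_option autoImplicit false

noncomputable section

namespace Crest.Agent.T156.Alt.Tm92.M15

open Sr L69

variable {E : ℝ} {S : Sc} {M N : Md} {l lm Ys Y D u : ℝ}

theorem bk' (X : Tx E S M l lm Ys Y u) (c : Cl (Su E S M Y D u) N) (hs : N.s = M.s)
    (HJ : N.H S.Jp ≤ 8 * S.C) : Bk E S M N Y D u (X4 E S M Y u) (et E S M Y D u) :=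
  ⟨lnN X c hs HJ, l4N X c hs HJ, X40 X, X4_le X, costN X c hs HJ⟩

theorem bk (X : Tx E S M l lm Ys Y u) (c : Cl (Su E S M Y D u) N) (hs : N.s = M.s)
    (HJ : N.H S.Jp ≤ 8 * S.C) : ∃ X4 η, Bk E S M N Y D u X4 η := ⟨_, _, bk' X c hs HJ⟩

/-- on the context of the closing -/
theorem bkZ {c : ℕ → ℝ} {F : ℕ → ℝ} (Z : Tm71.Tx KK E S M l lm Ys Y c D u F) :
    Bk E S M Z.N Y D u (X4 E S M Y u) (et E S M Y D u) := bk' (tx Z) Z.cl' rfl (hJ Z)

end Crest.Agent.T156.Alt.Tm92.M15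

end
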