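import Crest.Agent.T156.TermP_72
import Crest.Agent.T156.TermB_92
import Crest.Agent.T156.TermR_19
import Crest.Agent.T156.TermTD_46

/-!
# Row 156, SR, terminal statement: the numbers of the plateau `LP` (helper72)
-/

set_option autoImplicit false
set_option linter.unusedSectionVars false
set_option linter.unusedVariables false

noncomputable section

namespace Crest.Agent.T156.Alt.Tp72

open Real Finset Pre29 Sr L69 Ps64 Tm92

theorem rp3h {t : ℝ} (ht : 0 < t) : t ^ ((3 : ℝ) / 2) = t * √t := by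
  rw [show (3 : ℝ) / 2 = 1 + 1 / 2 by norm_num, rpow_add ht, rpow_one, sqrt_eq_rpow]

/-- `den ρ² ≥ dm` -/
def dm (S : Sc) : ℝ := (S.n : ℝ) ^ ((1 : ℝ) / 8) / (S.n * max S.θ (nu S))
/-- `w` of the auxiliary model -/
def ww (E : ℝ) (S : Sc) (u : ℝ) : ℝ := E ^ 9 / (S.n * 1 * (S.θ + u))

/-- the context -/
structure Ty (E : ℝ) (S : Sc) (M N : Md) (l lm Ys Y D u r1 r2 u1 Vt γ : ℝ) : Prop where
  X : Tx E S M l lm Ys Y u
  T : Tp KK E S M lm Y r1 r2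
  c : Cl (Su E S M Y D u) N
  hz : N.z = M.z
  hk : N.ck = M.ck
  a1 : r1 ≤ u1
  a2 : u1 ≤ 8 * r1
  V0 : 0 ≤ Vt
  V2 : Vt ≤ E ^ 60000 * (Xx E Y ^ ((1 : ℝ) / 3) + (S.n : ℝ) ^ (-(21 : ℝ) / 400) + √u)
  γ0 : 0 ≤ γ
  γ1 : γ ≤ nu S

section tx

variable {E : ℝ} {S : Sc} {M : Md} {l lm Ys Y u : ℝ} (X : Tx E S M l lm Ys Y u)
include X

theorem mx0 : 0 < max S.θ (nu S) := X.nu0.trans_le (le_max_right _ _)
theorem lm0 : 0 < lm := X.sx.vh.lm0
theorem ww0 : 0 < ww E S u := by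
  have := X.E0; have := X.N0; have := X.cl.θ0; have := X.u_pos
  unfold ww; positivity
theorem dm0 : 0 < dm S := by
  have := X.N0; have := mx0 X
  unfold dm; positivity

theorem lg_mx : -1 / 3 ≤ logb S.n (max S.θ (nu S)) ∧ logb S.n (max S.θ (nu S)) ≤ 0 := by
  refine ⟨X.lg_nu.ge.trans (X.lg_mono X.nu0 (le_max_right _ _)),
    (X.lg_mono (mx0 X) (max_le ?_ ?_)).trans_eq logb_one⟩
  · nlinarith [X.cx.Cθ, X.cl.C1, X.cl.θ0]
  · exact X.nu_u.trans (X.u1.trans (div_le_one_of_le₀ X.E1 X.E0.le))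

theorem lg_dm : logb S.n (dm S) = -7 / 8 - logb S.n (max S.θ (nu S)) := by
  have := X.N0; have := mx0 X
  rw [dm]; lg_norm; rw [X.lg_n]; ring

theorem lg_ww : logb S.n (ww E S u) ≤ 9 * logb S.n E - 1 - logb S.n (max S.θ (nu S)) ∧
    logb S.n (ww E S u) ≤ -1 - logb S.n (mu0 E u) ∧
    logb S.n (ww E S u) - logb S.n lm ≤ logb S.n Y - 99999991 * logb S.n E ∧
    2 * logb S.n (ww E S u) ≤ 3 * logb S.n Y - 299999982 * logb S.n E ∧
    logb S.n (ww E S u) - logb S.n lm ≤ 9 * logb S.n E - 249 / 500 ∧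
    logb S.n (ww E S u) - 2 * logb S.n lm ≤ 9 * logb S.n E - 7 / 25 := by
  have := X.E0; have := X.N0; have θ0 := X.cl.θ0; have := X.u_pos; have := mx0 X; have := lm0 X
  have := X.Yd0
  have θ1 : 0 < S.ms 1 := θ0
  have e : logb S.n (ww E S u) = 9 * logb S.n E - 1 - logb S.n (S.θ + u) := by
    rw [ww]; lg_norm; rw [X.lg_n]; ring
  have a1 := X.lg_mono (mx0 X) (max_le (le_add_of_nonneg_right X.u_pos.le)
    (X.nu_u.trans (le_add_of_nonneg_left θ0.le)))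
  have a2 := X.lg_mono X.u_pos (le_add_of_nonneg_left (a := u) θ0.le)
  have a3 := X.lg_mono θ0 (le_add_of_nonneg_right (a := S.θ) X.u_pos.le)
  have w3 : logb S.n (S.w3 1) = -1 - logb S.n S.θ := by
    rw [Sc.w3, X.cx.sh.F1, Sc.θ]; lg_norm; rw [X.lg_n]; ring
  have w0 : 0 < S.w3 1 := by rw [Sc.w3, X.cx.sh.F1]; positivity
  have l1 : l ≤ 1 := le_of_pow_le_pow_left₀ three_ne_zero zero_le_one (X.cx.sh.l3.trans
    (((le_mul_of_one_le_left X.Y0.le (one_le_pow₀ X.E1)).trans X.cx.EY).trans_eq (one_pow 3).symm))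
  have b1 := X.lg_mono w0 X.sx.vh.w1
  have b2 := X.lg_mono (by positivity) (X.sx.vh.bas 1 l1 X.cl.C1)
  have b3 := X.lg_mono (by positivity) X.sx.w2
  have b4 := X.lg_mono (by positivity) X.sx.lm2
  revert b1 b2 b3 b4
  lg_norm
  rw [X.lg_Yd, X.lg_n, w3]
  intro b1 b2 b3 b4
  rw [X.lg_u] at a2
  refine ⟨?_, ?_, ?_, ?_, ?_, ?_⟩ <;> linarith

theorem lg_nuY : logb S.n (nuY KK E S Y) ≤ logb S.n (mu0 E u) + logb S.n E := by
  have := X.E0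
  have n0 : 0 < nuY KK E S Y := X.nu0.trans_le (le_max_left _ _)
  have a := X.lg_mono (by positivity) X.u0
  revert a
  lg_norm
  rw [X.lg_u]
  intro a
  linarith

theorem le_X3' {x : ℝ} (hx : 0 < x)
    (h : logb S.n x ≤ logb S.n (mu0 E u) + logb S.n Y / 2 - 6000 * logb S.n E) :
    x ≤ X3 E S M Y u := by
  obtain ⟨b1, b2, b3⟩ := X.lg_mu
  obtain ⟨c1, c2⟩ := X.lg_Y
  obtain ⟨d1, d2⟩ := X.lg_E
  have t := X.lg_T
  refine X.le_X3 hx (by linarith) ?_ (by linarith)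
  rcases X.lg_l_lo.2 with a | ⟨a, -⟩ <;> linarith

theorem le_x3 {x : ℝ} (hx : 0 < x) (h : logb S.n x ≤ 10 * logb S.n E - 101 / 200) :
    x ≤ x3 E S := by
  have := X.E0; have := X.N0
  refine X.le_of_lg hx X.x30 ?_
  rw [x3]; lg_norm; rw [X.lg_n]; linarith

theorem nu_y : nu S ≤ √(Xx E Y) := by
  have := X.X0
  refine X.le_of_lg X.nu0 (by positivity) ?_
  lg_norm
  linarith [X.lg_nu, X.lg_X.1, X.lg_Y.1, X.lg_E.1]

theorem wl_Gp : 4 * (ww E S u / lm) * √(Xx E Y) ≤ Gp E S Y ^ 2 := by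
  have := ww0 X; have := lm0 X; have := X.X0; have := X.Gp0
  obtain ⟨-, -, a1, -, a2, -⟩ := lg_ww X
  have g := X.lg_Gp
  have c := (X.lg_num (x := 4) (by norm_num) (by norm_num)).2
  have e := X.lg_E.1
  refine X.le_of_lg (by positivity) (by positivity) ?_
  lg_norm
  rcases le_total (logb S.n Y - 10 ^ 8 * logb S.n E) (-249 / 500) with h | h
  · rw [min_eq_left h] at g; linarith
  · rw [min_eq_right h] at g; linarith

theorem w_nu : ww E S u ≤ (E ^ 5001 * nu S) ^ 2 := by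
  have := X.E0; have := X.nu0
  refine X.le_of_lg (ww0 X) (by positivity) ?_
  lg_norm
  linarith [X.lg_nu, (lg_ww X).1, (lg_mx X).1, X.lg_E.1]

theorem lg6 : 0 ≤ logb S.n (6 * E) ∧ logb S.n (6 * E) ≤ 2 * logb S.n E := by
  have := X.E0
  have c := X.lg_num (x := 6) (by norm_num) (by norm_num)
  lg_norm
  constructor <;> linarith [X.lg_E.1]

theorem log_le {p : ℝ} (h0 : 0 < p) (h : -1 ≤ logb S.n p) : log (1 + 1 / p) ≤ E := by
  have N0 := X.N0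
  have N3 : (3 : ℝ) ≤ S.n := by exact_mod_cast X.cx.n3
  have a : 1 / p ≤ S.n := X.le_of_lg (by positivity) N0 (by lg_norm; rw [X.lg_n]; linarith)
  refine (log_le_log (by positivity) (show 1 + 1 / p ≤ (S.n : ℝ) ^ 2 by nlinarith)).trans ?_
  rw [log_pow]
  exact_mod_cast X.cx.lgE

theorem h_le {p : ℝ} (h0 : 0 < p) (h : -1 ≤ logb S.n p) : 16 * (1 / (S.n : ℝ) ^ 2) ≤ p := by
  have N0 := X.N0
  have c := (X.lg_num (x := 16) (by norm_num) (by norm_num)).2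
  refine X.le_of_lg (by positivity) h0 ?_
  lg_norm
  rw [X.lg_n]
  linarith [X.lg_E.2]

theorem vt_le : Tt46.Vt E S Y u ≤
    E ^ 60000 * (Xx E Y ^ ((1 : ℝ) / 3) + (S.n : ℝ) ^ (-(21 : ℝ) / 400) + √u) := by
  have := X.E0; have := X.N0; have := X.X0
  have a : (S.n : ℝ) ^ (-(1 : ℝ) / 11) ≤ (S.n : ℝ) ^ (-(21 : ℝ) / 400) := rp_le X.cl.n1 (by norm_num)
  have b := min_le_right (√S.θ) ((S.n : ℝ) ^ (-(21 : ℝ) / 400))
  have c : 3 ≤ E ^ 10000 := (show 3 ≤ E by linarith [X.cx.E3]).trans (X.cx.E_le (by norm_num))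
  have x0 : 0 < Xx E Y ^ ((1 : ℝ) / 3) := by positivity
  have p0 : 0 < (S.n : ℝ) ^ (-(21 : ℝ) / 400) := by positivity
  rw [Tt46.Vt, Tt46.B2, show 60000 = 50000 + 10000 from rfl, pow_add, mul_assoc]
  refine mul_le_mul_of_nonneg_left (le_trans ?_ (mul_le_mul_of_nonneg_right c (by positivity)))
    (by positivity)
  linarith [sqrt_nonneg u]

end tx

namespace Ty

variable {E : ℝ} {S : Sc} {M N : Md} {l lm Ys Y D u r1 r2 u1 Vt γ : ℝ}
  (W : Ty E S M N l lm Ys Y D u r1 r2 u1 Vt γ)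
include W

theorem r10 : 0 < r1 := by
  have := W.X.N0; have := mx0 W.X
  exact (pos_iff_pos_of_mul_pos ((rpow_pos_of_pos W.X.N0 _).trans_le W.T.a1)).1 (by positivity)
theorem u10 : 0 < u1 := W.r10.trans_le W.a1

theorem lg_u1 : -21 / 25 ≤ logb S.n u1 ∧ logb S.n u1 ≤ logb S.n E - 101 / 200 ∧
    logb S.n u1 ≤ logb S.n Y - 10 ^ 8 * logb S.n E := by
  have X := W.X
  have := X.N0; have := mx0 X; have := W.r10; have := X.E0
  have a1 := X.lg_mono (by positivity) W.T.a1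
  have a2 := X.lg_mono W.r10 W.T.a2
  have a3 := X.lg_mono (by positivity) (W.T.a3.trans W.T.a4)
  have a4 := X.lg_mono W.r10 W.a1
  have a5 := X.lg_mono W.u10 W.a2
  have c := (X.lg_num (x := 8) (by norm_num) (by norm_num)).2
  have e : ((KK : ℕ) : ℝ) = 10000 := by norm_num [KK]
  revert a1 a2 a3 a5
  lg_norm
  rw [X.lg_n, X.lg_Yd, e]
  intro a1 a2 a3 a5
  refine ⟨?_, ?_, ?_⟩ <;> linarith [(lg_mx X).2, X.lg_E.1]

theorem r1_xs : r1 ≤ 1 - M.xs S := by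
  have X := W.X
  have C0 := X.cl.C0
  have a := X.cl.atom.2
  have b : u1 ≤ 1 / S.C := X.le_of_lg W.u10 (by positivity) (by
    have c := X.lg_mono C0 (show S.C ≤ E by linarith [X.cx.CE1])
    lg_norm
    linarith [W.lg_u1.2.1, X.lg_E.2])
  rw [Md.xs]
  linarith [W.a1]

theorem lg_u0 : -1 ≤ logb S.n S.u0 := by
  have X := W.X
  have := X.N0; have := mx0 X; have := lm0 X; have u0 := X.cx.sh.u0.1; have := X.E0
  have a : lm ≤ E * S.u0 := (W.T.dn _ le_rfl W.r1_xs).trans (mul_le_mul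
    (X.cx.sh.dj.trans (by linarith [X.cx.CE1, X.cl.C0])) ((min_le_left _ _).trans_eq (by ring))
    (le_min (by linarith) (W.r10.le.trans W.r1_xs)) X.E0.le)
  have a1 := X.lg_mono (lm0 X) a
  have a2 := X.lg_mono (by positivity) X.sx.d0
  revert a1 a2
  lg_norm
  rw [X.lg_n]
  intro a1 a2
  linarith [(lg_mx X).2, X.lg_E.2]

theorem pt {k : ℕ} (a : S.J ≤ k) : M.xs S ≤ M.z (k - 1) := W.X.cl.leg.zm (Nat.sub_le_sub_right a 1)

theorem du_eq (k : ℕ) : du N k = 1 - M.z (k - 1) := by rw [du, W.hz]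
theorem dl_eq (k : ℕ) : dl N (Su E S M Y D u) k = M.z (k - 1) - M.xs S + S.u0 := by
  rw [dl, W.hz]; rfl

theorem lm_le {k : ℕ} (a : S.J ≤ k) (b : u1 ≤ du N k) :
    lm ≤ S.den (N.z (k - 1)) * ds N (Su E S M Y D u) k := by
  rw [ds, W.dl_eq, W.du_eq, W.hz]
  exact W.T.dn _ (W.pt a) (W.a1.trans (b.trans_eq (W.du_eq k)))

theorem lg_x : logb S.n (Xx E Y ^ ((1 : ℝ) / 3)) = logb S.n (Xx E Y) / 3 := by
  have := W.X.X0
  lg_norm
  ring

/-- the plateau data -/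
theorem pd : PD (Su E S M Y D u) N (1 / (S.n : ℝ) ^ 2) u1 (Xx E Y) (E ^ 2) lm (dm S) (6 * E) := by
  have X := W.X
  have N0 := X.N0
  have m0 := mx0 X
  have u0 := X.cx.sh.u0.1
  have x0 : 0 < Xx E Y ^ ((1 : ℝ) / 3) := rpow_pos_of_pos X.X0 _
  have xl : -1 ≤ logb S.n (Xx E Y ^ ((1 : ℝ) / 3)) := by
    linarith [W.lg_x, X.lg_X.1, X.lg_Y.1, X.lg_E.1]
  have ul : -1 ≤ logb S.n u1 := by linarith [W.lg_u1.1]
  refine ⟨W.c, by positivity, fun k a b => ?_, X.sx.ue2.trans_lt ?_, h_le X W.u10 ul,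
    h_le X u0 W.lg_u0, X.X0, h_le X x0 xl, ?_, lm0 X, fun k hk => ?_, dm0 X, fun k hk => ?_, ?_, ?_⟩
  · rw [dx, W.hz]; exact X.cx.sh.mesh k a b.le
  · refine (logb_lt_logb_iff X.N1 (by positivity) W.u10).1 ?_
    lg_norm
    rw [X.lg_n]
    linarith [W.lg_u1.1]
  · rw [W.hk]
    change (8 * S.C) ^ 2 * (M.ck S.Jp - M.ck S.J) ≤ _
    have a := X.cx.ct_nn S.J
    rw [M29.ct_mid X.cl X.cl.jl_lt X.cl.i3] at a
    have b := mul_le_mul_of_nonneg_left (show M.ck S.Jp - M.ck S.J ≤ E by linarith [X.cx.sh.ckT])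
      (sq_nonneg (8 * S.C))
    nlinarith [mul_le_mul_of_nonneg_right X.cx.CE2 X.E0.le, mul_pos (pow_pos X.cl.C0 2) X.E0]
  · exact W.lm_le (mem_Icc.1 (mem_filter.1 hk).1).1 (mem_filter.1 hk).2
  · have a := (mem_Icc.1 (mem_filter.1 hk).1).1
    have b := (mem_filter.1 hk).2
    have d0 := X.cl.den0 (N.z (k - 1))
    rw [dm, div_le_iff₀' (by positivity)]
    change _ ≤ _ * (S.den (N.z (k - 1)) * _)
    rcases le_total (dl N (Su E S M Y D u) k) (du N k) with e | e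
    · have c := W.lm_le a b
      have f : S.u0 ≤ ds N (Su E S M Y D u) k := by
        rw [ds, min_eq_left e, W.dl_eq]; linarith [W.pt a]
      refine ((rp_le X.cl.n1 (by norm_num)).trans X.sx.d0).trans
        (mul_le_mul_of_nonneg_left ?_ (by positivity))
      exact (mul_le_mul c f u0.le ((lm0 X).le.trans c)).trans_eq (by ring)
    · rw [ds, min_eq_right e, W.du_eq, W.hz]
      exact W.T.dt _ (W.pt a) (W.a1.trans (b.trans_eq (W.du_eq k)))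
  · change 2 * (log (1 + 1 / S.u0) + _) ≤ _
    linarith [log_le X u0 W.lg_u0, log_le X W.u10 ul]
  · linarith [log_le X x0 xl, log_le X W.u10 ul]

theorem px : PX (Su E S M Y D u) (Xx E Y) Vt (E ^ 60001) γ (ww E S u) := by
  have X := W.X
  have := X.cl.C0
  have x0 : 0 < Xx E Y ^ ((1 : ℝ) / 3) := rpow_pos_of_pos X.X0 _
  refine ⟨X.cx.u0_le.trans (rpow_le_rpow X.Y0.le ?_ (by norm_num)), ?_, W.γ0, W.γ1.trans (nu_y X),
    W.V0, ?_, one_le_pow₀ X.E1, le_rfl⟩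
  · rw [Xx]
    nlinarith [le_mul_of_one_le_left X.Y0.le (one_le_pow₀ (n := 100) X.E1), X.Y0]
  · change 2 * (8 * S.C) * _ ≤ _
    refine X.le_of_lg (by positivity) one_pos ?_
    rw [logb_mul (by positivity) x0.ne', logb_mul (by positivity) (by positivity), W.lg_x, logb_one]
    linarith [X.lg_C.2, (X.lg_num (x := 2) (by norm_num) (by norm_num)).2, X.lg_X.2, X.lg_Y.2,
      X.lg_E.1, X.lg_E.2]
  · have a : Xx E Y ^ ((1 : ℝ) / 3) ≤ 1 := X.le_of_lg x0 one_pos (by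
      rw [W.lg_x, logb_one]
      linarith [X.lg_X.2, X.lg_Y.2, X.lg_E.1])
    have b : (S.n : ℝ) ^ (-(21 : ℝ) / 400) ≤ 1 :=
      rpow_le_one_of_one_le_of_nonpos X.N1.le (by norm_num)
    have c : √u ≤ 1 := sqrt_le_one.2 (X.u1.trans (div_le_one_of_le₀ X.E1 X.E0.le))
    rw [pow_succ]
    exact W.V2.trans (mul_le_mul_of_nonneg_left (by linarith [X.cx.E3]) (pow_pos X.E0 _).le)

/-- **`Far`** -/
theorem far {Lp : ℝ} (h : Zz E ≤ Lp) : Far N (Su E S M Y D u) (Xx E Y) Vt γ u1 Lp := by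
  have X := W.X
  have := X.X0; have := lm0 X
  refine Tp72.far W.pd W.px X.Z0.le h (fun x x' a => X.sx.fa x x' (by rwa [W.hz] at a)) ?_
  refine X.le_of_lg (ww0 X) (by positivity) ?_
  lg_norm
  linarith [(lg_ww X).2.2.2.2.2, X.lg_X.1, X.lg_Y.1, X.lg_E.1, X.lg_E.2]

set_option maxHeartbeats 2000000 in
/-- **`Np 2`** against any number with the lower bounds of `X2` -/
theorem n2g {B : ℝ} (hB : ∀ x, 0 < x → logb S.n x ≤ logb S.n (mu0 E u) - 1 / 150 →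
    logb S.n x ≤ (logb S.n (Tt E Y) + logb S.n (mu0 E u)) / 2 - 1 / 300 →
    logb S.n x ≤ 270000 * logb S.n E + logb S.n (Tt E Y) + logb S.n (mu0 E u) + 1 / 3 →
    (logb S.n x ≤ -361 / 1000 ∨
      logb S.n x ≤ 1 / 12 + 2 / 3 * (logb S.n (Tt E Y) + logb S.n (mu0 E u))) → x ≤ B) :
    Np N (Su E S M Y D u) (Xx E Y) Vt γ u1 (Zz E ^ 3) 2 ≤ B := by
  have X := W.X
  have E0 := X.E0; have w0 := ww0 X; have l0 := lm0 X; have X0 := X.X0; have Z0 := X.Z0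
  have d0 := dm0 X; have u0 := W.u10
  have a := np2 W.pd W.px (s := (ww E S u * E ^ 2) ^ ((1 : ℝ) / 3))
    (q := (16 * E ^ 60001 * (ww E S u / lm) * √(Xx E Y)) ^ ((1 : ℝ) / 3))
    (b := √(27 * E ^ 60001 * (ww E S u / lm) * Xx E Y)) (by positivity) (cube3 (by positivity)).ge
    (by positivity) (cube3 (by positivity)).ge (by positivity) (sq_sqrt (by positivity)).ge Z0
  have g : (9 * Xx E Y * (6 * E) + 3 * γ ^ 2) / Zz E ^ 3 ≤ 60 * Xx E Y * E / Zz E ^ 3 := by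
    have b := pow_le_pow_left₀ W.γ0 W.px.γ1 2
    rw [sq_sqrt X0.le] at b
    gcongr
    nlinarith [mul_le_mul_of_nonneg_left X.E1 X0.le]
  obtain ⟨w1, w2, w3, w4, w5, -⟩ := lg_ww X
  obtain ⟨m1, m2, m3⟩ := X.lg_mu
  obtain ⟨y1, y2⟩ := X.lg_Y
  obtain ⟨e1, e2⟩ := X.lg_E
  obtain ⟨x1, x2⟩ := X.lg_X
  obtain ⟨-, r2, r3⟩ := W.lg_u1
  have t := X.lg_T
  have z := X.lg_Z
  have dd := lg_dm X
  have mx := (lg_mx X).1
  have c6 := (X.lg_num (x := 6) (by norm_num) (by norm_num)).2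
  have c16 := (X.lg_num (x := 16) (by norm_num) (by norm_num)).2
  have c24 := (X.lg_num (x := 24) (by norm_num) (by norm_num)).2
  have c27 := (X.lg_num (x := 27) (by norm_num) (by norm_num)).2
  have c60 := (X.lg_num (x := 60) (by norm_num) (by norm_num)).2
  have t0 : 6 * u1 ≤ B := by
    refine hB _ (by positivity) ?_ ?_ ?_ (.inl ?_) <;> lg_norm <;> linarith
  have t1 : 24 * (Zz E ^ 4 * ((ww E S u * E ^ 2) ^ ((1 : ℝ) / 3)) ^ 2) ≤ B := by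
    refine hB _ (by positivity) ?_ ?_ ?_ (.inl ?_) <;> lg_norm <;> linarith
  have t2 : 24 * (Zz E ^ 4 * (((16 * E ^ 60001 * (ww E S u / lm) * √(Xx E Y)) ^ ((1 : ℝ) / 3)) ^ 2 *
      (6 * E))) ≤ B := by
    refine hB _ (by positivity) ?_ ?_ ?_ (.inl ?_) <;> lg_norm <;> linarith
  have t3 : 24 * (Zz E ^ 4 * (ww E S u / dm S * (ww E S u / lm * (6 * E)))) ≤ B := by
    refine hB _ (by positivity) ?_ ?_ ?_ (.inl ?_) <;> lg_norm <;> linarith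
  have t4 : 24 * (Zz E ^ 4 * (ww E S u / lm)) ≤ B := by
    refine hB _ (by positivity) ?_ ?_ ?_ (.inl ?_) <;> lg_norm <;> linarith
  have t5 : 6 * min (60 * Xx E Y * E / Zz E ^ 3) (√(27 * E ^ 60001 * (ww E S u / lm) * Xx E Y) * (6 * E)) ≤
      B := by
    have p : 0 < min (60 * Xx E Y * E / Zz E ^ 3) (√(27 * E ^ 60001 * (ww E S u / lm) * Xx E Y) * (6 * E)) := by
      positivity
    have k1 := X.lg_mono p (min_le_left _ _)
    have k2 := X.lg_mono p (min_le_right _ _)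
    have k3 := logb_mul (b := S.n) (show (6 : ℝ) ≠ 0 by norm_num) p.ne'
    generalize min (60 * Xx E Y * E / Zz E ^ 3) (√(27 * E ^ 60001 * (ww E S u / lm) * Xx E Y) * (6 * E)) = v
      at *
    revert k1 k2
    lg_norm
    intro k1 k2
    refine hB _ (by positivity) (by linarith) (by linarith) (by linarith) ?_
    rcases le_total (logb S.n Y) (-3 / 10) with h | h
    · exact .inl (by linarith)
    · exact .inr (by linarith)
  have := min_le_min_right (√(27 * E ^ 60001 * (ww E S u / lm) * Xx E Y) * (6 * E)) g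
  linarith

theorem hQ {A B : ℝ} (hA : 0 < A) (h : ∀ x, M.xs S ≤ x → r1 ≤ 1 - x →
    A ≤ B * (S.den x * (1 - x) ^ ((3 : ℝ) / 2))) : ∀ k ∈ nd (Su E S M Y D u) N u1,
    (Su E S M Y D u).w3 1 ≤ ww E S u * B / A *
      ((Su E S M Y D u).den (N.z (k - 1)) * (du N k * √(du N k))) := fun k hk => by
  have a := (mem_Icc.1 (mem_filter.1 hk).1).1
  have b := (mem_filter.1 hk).2
  have c := h _ (W.pt a) (W.a1.trans (b.trans_eq (W.du_eq k)))
  rw [← W.du_eq, rp3h (W.u10.trans_le b), ← W.hz] at c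
  rw [div_mul_eq_mul_div, le_div_iff₀ hA, mul_assoc]
  exact mul_le_mul_of_nonneg_left c (ww0 W.X).le

set_option maxHeartbeats 2000000 in
theorem n3V {V Q : ℝ} (V0 : 0 < V) (Q0 : 0 < Q)
    (hV : E ^ 60000 * ((S.n : ℝ) ^ (-(21 : ℝ) / 400) + √u) ≤ V)
    (hQ : ∀ k ∈ nd (Su E S M Y D u) N u1, (Su E S M Y D u).w3 1 ≤
      Q * ((Su E S M Y D u).den (N.z (k - 1)) * (du N k * √(du N k))))
    (hl : 2 * logb S.n V + logb S.n Y / 2 + logb S.n Q ≤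
      2 * logb S.n (mu0 E u) - 20000 * logb S.n E) :
    Np N (Su E S M Y D u) (Xx E Y) Vt γ u1 (Zz E ^ 3) 3 ≤ X3n E S M Y u := by
  have X := W.X
  have E0 := X.E0; have w0 := ww0 X; have l0 := lm0 X; have X0 := X.X0; have Z0 := X.Z0
  have d0 := dm0 X; have u0 := W.u10; have N0 := X.N0; have up := X.u_pos
  have K1 : 1 ≤ E ^ 60000 := one_le_pow₀ X.E1
  have H := W.px
  have yx := y_x W.pd H
  have xy := cube3 X0.le
  have y2 := sq_sqrt X0.le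
  have g2 := pow_le_pow_left₀ W.γ0 H.γ1 2
  have lx := W.lg_x
  have v2 := W.V2
  have a := np3 W.pd H (a := E ^ 60000 * Xx E Y ^ ((1 : ℝ) / 3)) (V := V) (Q := Q)
    (b := √(32 * V ^ 2 * √(Xx E Y) ^ 3 * Q))
    (R := 4 * E ^ 60000 * (Xx E Y ^ ((1 : ℝ) / 3) + (S.n : ℝ) ^ (-(21 : ℝ) / 400) + √u))
    (le_mul_of_one_le_left (by positivity) K1) (by linarith) (by positivity) hQ
    (sq_sqrt (by positivity)).ge (by
      have := le_mul_of_one_le_left (b := Xx E Y ^ ((1 : ℝ) / 3)) (by positivity) K1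
      have : 0 ≤ E ^ 60000 * ((S.n : ℝ) ^ (-(21 : ℝ) / 400) + √u) := by positivity
      linarith [H.γ1]) Z0
  have x0 : 0 < Xx E Y ^ ((1 : ℝ) / 3) := by positivity
  generalize Xx E Y ^ ((1 : ℝ) / 3) = x at *
  have p0 : 0 < (S.n : ℝ) ^ (-(21 : ℝ) / 400) := by positivity
  have lp := X.lg_rp (-(21 : ℝ) / 400)
  generalize (S.n : ℝ) ^ (-(21 : ℝ) / 400) = p at *
  obtain ⟨w1, w2, w3, w4, w5, -⟩ := lg_ww X
  obtain ⟨m1, m2, m3⟩ := X.lg_mu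
  obtain ⟨y1, y2'⟩ := X.lg_Y
  obtain ⟨e1, e2⟩ := X.lg_E
  obtain ⟨x1, x2⟩ := X.lg_X
  obtain ⟨-, r2, r3⟩ := W.lg_u1
  have z := X.lg_Z
  have dd := lg_dm X
  have lu := X.lg_u
  have mx := (lg_mx X).1
  have c6 := (X.lg_num (x := 6) (by norm_num) (by norm_num)).2
  have c32 := (X.lg_num (x := 32) (by norm_num) (by norm_num)).2
  have c := (X.lg_num (x := 1000) (by norm_num) (by norm_num)).2
  have lK : logb S.n (E ^ 60000) = 60000 * logb S.n E := by lg_norm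
  have K0 : 0 < E ^ 60000 := by positivity
  generalize E ^ 60000 = K at *
  have t0 : 1000 * u1 ≤ x3 E S := by
    refine le_x3 X (by positivity) ?_; lg_norm; linarith
  have t1 : 1000 * (Zz E ^ 6 * (ww E S u * E ^ 2)) ≤ x3 E S := by
    refine le_x3 X (by positivity) ?_; lg_norm; linarith
  have t2 : 1000 * (1000 * (Zz E ^ 6 * (ww E S u / lm * (K ^ 2 * x ^ 2 * E)))) ≤ x3 E S := by
    refine le_x3 X (by positivity) ?_; lg_norm; linarith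
  have t3 : 1000 * (1000 * (Zz E ^ 6 * (ww E S u / lm * (K ^ 2 * p ^ 2 * E)))) ≤ x3 E S := by
    refine le_x3 X (by positivity) ?_; lg_norm; linarith
  have t4 : 1000 * (1000 * (Zz E ^ 6 * (ww E S u / lm * (K ^ 2 * √u ^ 2 * E)))) ≤ X3 E S M Y u := by
    refine le_X3' X (by positivity) ?_; lg_norm; linarith
  have t5 : 1000 * (Zz E ^ 6 * (ww E S u / lm * √(ww E S u / lm))) ≤ x3 E S := by
    refine le_x3 X (by positivity) ?_; lg_norm; linarith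
  have t6 : 1000 * (Zz E ^ 6 * ((ww E S u / dm S) ^ 2 * (ww E S u / lm * E))) ≤ x3 E S := by
    refine le_x3 X (by positivity) ?_; lg_norm; linarith
  have t7 : 1000 * (1000 * (√(ww E S u / lm) * (K ^ 3 * Xx E Y * E))) ≤ X3 E S M Y u := by
    refine le_X3' X (by positivity) ?_; lg_norm; linarith
  have t8 : 1000 * (√(32 * V ^ 2 * √(Xx E Y) ^ 3 * Q) * E) ≤ X3 E S M Y u := by
    refine le_X3' X (by positivity) ?_; lg_norm; linarith
  have s1 : Zz E ^ 6 * (ww E S u / lm * ((4 * K * (x + p + √u)) ^ 2 * E)) ≤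
      Zz E ^ 6 * (ww E S u / lm * (48 * K ^ 2 * (x ^ 2 + p ^ 2 + √u ^ 2) * E)) := by
    gcongr
    nlinarith [mul_nonneg (sq_nonneg K) (add_nonneg (add_nonneg (sq_nonneg (x - p))
      (sq_nonneg (x - √u))) (sq_nonneg (p - √u)))]
  have s2 : √(ww E S u / lm) * ((9 * Xx E Y * (6 * E) + 3 * γ ^ 2 + 216 * (K * x) ^ 3 * (6 * E)) / 2) ≤
      √(ww E S u / lm) * (1000 * (K ^ 3 * Xx E Y * E)) := by
    have k1 : Xx E Y ≤ Xx E Y * E := le_mul_of_one_le_right X0.le X.E1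
    have k2 : Xx E Y * E ≤ K ^ 3 * (Xx E Y * E) :=
      le_mul_of_one_le_left (by positivity) (one_le_pow₀ K1)
    gcongr
    rw [mul_pow, xy]
    linarith
  have s3 : Zz E ^ 6 * (4 * ZA (ww E S u) (E ^ 2) (4 * K * (x + p + √u)) lm (6 * E) +
      4 * ((ww E S u / dm S) ^ 2 * (ww E S u / lm * (6 * E)))) =
      16 * (Zz E ^ 6 * (ww E S u * E ^ 2)) +
      96 * (Zz E ^ 6 * (ww E S u / lm * ((4 * K * (x + p + √u)) ^ 2 * E))) +
      16 * (Zz E ^ 6 * (ww E S u / lm * √(ww E S u / lm))) +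
      24 * (Zz E ^ 6 * ((ww E S u / dm S) ^ 2 * (ww E S u / lm * E))) := by
    rw [ZA]; ring
  rw [s3] at a
  rw [X3n]
  linarith [X.x30, X.X30]

/-- **`Np 3`** -/
theorem n3 : Np N (Su E S M Y D u) (Xx E Y) Vt γ u1 (Zz E ^ 3) 3 ≤ X3n E S M Y u := by
  have X := W.X
  have E0 := X.E0; have w0 := ww0 X; have N0 := X.N0; have up := X.u_pos; have m0 := mx0 X
  have Y0 := X.Y0
  have n0 : 0 < nuY KK E S Y := X.nu0.trans_le (le_max_left _ _)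
  have w1 := (lg_ww X).1
  obtain ⟨y1, y2⟩ := X.lg_Y
  obtain ⟨e1, e2⟩ := X.lg_E
  have lu := X.lg_u
  have c := (X.lg_num (x := 2) (by norm_num) (by norm_num)).2
  have e : ((KK ^ 2 : ℕ) : ℝ) = 10 ^ 8 := by norm_num [KK]
  rcases le_total (√u) ((S.n : ℝ) ^ (-(21 : ℝ) / 400)) with h | h
  · refine W.n3V (V := E ^ 60000 * (2 * (S.n : ℝ) ^ (-(21 : ℝ) / 400))) (by positivity) ?_
      (by gcongr; linarith) (W.hQ (B := S.n * max S.θ (nu S) * nuY KK E S Y ^ 2) ?_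
        fun x a b => (W.T.dy x a b).trans_eq (by ring)) ?_
    · positivity
    · positivity
    · lg_norm
      rw [e, X.lg_n]
      linarith [lg_nuY X]
  · have k := X.lg_mono (by positivity) h
    refine W.n3V (V := E ^ 60000 * (2 * √u)) (by positivity) ?_
      (by gcongr; linarith) (W.hQ ?_ W.T.dq) ?_
    · positivity
    · positivity
    · revert k
      lg_norm
      rw [X.lg_n]
      intro k
      linarith

/-- **`Np 2`** -/
theorem n2 : Np N (Su E S M Y D u) (Xx E Y) Vt γ u1 (Zz E ^ 3) 2 ≤ X2 E S M Y u :=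
  W.n2g fun x hx a b c d => W.X.le_X2 hx a b c (by
    obtain ⟨b1, -, b3, -⟩ := W.X.lg_Bd
    obtain ⟨e1, e2⟩ := W.X.lg_E
    rcases d with d | d <;> linarith)

variable {G0 : ℝ} (hG : E ^ 5001 * nu S + Gp E S Y ≤ G0)
include hG

theorem G_sq : (E ^ 5001 * nu S) ^ 2 + Gp E S Y ^ 2 ≤ G0 ^ 2 := by
  have := W.X.E0; have := W.X.nu0; have := W.X.Gp0
  exact (pow_add_pow_le (by positivity) W.X.Gp0.le two_ne_zero).trans
    (pow_le_pow_left₀ (by positivity) hG 2)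

theorem G_key {t : ℝ} (h : t ≤ 4 * √(Xx E Y)) : ww E S u * t ≤ lm * G0 ^ 2 := by
  have l0 := lm0 W.X
  have a := mul_le_mul_of_nonneg_left (((wl_Gp W.X).trans
    (le_add_of_nonneg_left (sq_nonneg _))).trans (W.G_sq hG)) l0.le
  refine le_trans ?_ a
  rw [show lm * (4 * (ww E S u / lm) * √(Xx E Y)) = ww E S u * (4 * √(Xx E Y)) by field_simp]
  exact mul_le_mul_of_nonneg_left h (ww0 W.X).le

theorem G_w : ww E S u ≤ G0 ^ 2 :=
  ((w_nu W.X).trans (le_add_of_nonneg_right (sq_nonneg _))).trans (W.G_sq hG)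

omit hG in
theorem u1_nu : u1 ≤ nu S := W.X.le_of_lg W.u10 W.X.nu0 (by
  linarith [W.X.lg_nu, W.lg_u1.2.1, W.X.lg_E.2])

theorem g0p : u1 ≤ G0 ∧ ∀ k, S.J ≤ k → k ≤ S.Jp → u1 ≤ du N k →
    (Su E S M Y D u).w3 1 * (Rp N (Su E S M Y D u) (Xx E Y) Vt γ k /
      (Su E S M Y D u).den (N.z (k - 1)) + ds N (Su E S M Y D u) k) ≤ G0 ^ 2 := by
  refine ⟨?_, fun k a b c => (Tp72.g0p W.pd W.px (mem_filter.2 ⟨mem_Icc.2 ⟨a, b⟩, c⟩)).trans ?_⟩
  · linarith [W.u1_nu, W.X.Gp0, le_mul_of_one_le_left W.X.nu0.le (one_le_pow₀ (n := 5001) W.X.E1)]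
  · linarith [wl_Gp W.X, w_nu W.X, W.G_sq hG]

theorem g0c : ∃ lm, 0 < lm ∧ (∀ k, S.J ≤ k → k ≤ S.Jp → u1 ≤ du N k →
      lm ≤ S.den (N.z (k - 1)) * ds N (Su E S M Y D u) k) ∧
    (Su E S M Y D u).w3 1 * (√(Xx E Y) + γ + u1 + S.u0 * Xx E Y ^ ((1 : ℝ) / 3)) ≤ lm * G0 ^ 2 := by
  refine ⟨lm, lm0 W.X, fun k a _ c => W.lm_le a c, W.G_key hG ?_⟩
  have a : S.u0 ≤ _ := W.px.u0
  nlinarith [W.px.γ1, W.u1_nu.trans (nu_y W.X), x_y W.pd W.px, x0 W.pd W.px]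

theorem g0d : (∃ b, 0 < b ∧ (∀ k, S.J ≤ k → k ≤ S.Jp → u1 ≤ du N k →
      b ^ 2 ≤ S.den (N.z (k - 1)) ^ 2 * dl N (Su E S M Y D u) k ^ 3) ∧
      (Su E S M Y D u).w3 1 * (√(Xx E Y) + γ + √S.u0 * Xx E Y ^ ((1 : ℝ) / 3)) ≤ b * G0 ^ 2) ∨
    ∃ d, 0 < d ∧ (∀ k, S.J ≤ k → k ≤ S.Jp → u1 ≤ du N k → d ≤ S.den (N.z (k - 1))) ∧
      (Su E S M Y D u).w3 1 * (Xx E Y ^ ((1 : ℝ) / 3) + γ) ≤ d * G0 ^ 2 := by
  have X := W.X
  have x0 := x0 W.pd W.px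
  have l0 := lm0 X
  rcases X.sx.gd with h | h
  · refine .inl ⟨lm, l0, fun k a _ c => ?_, W.G_key hG ?_⟩
    · rw [W.dl_eq, W.hz]
      exact h _ (W.pt a) (by linarith [W.du_eq k, W.u10])
    · have b : √S.u0 * Xx E Y ^ ((1 : ℝ) / 3) ≤ √(Xx E Y) := by
        refine le_sqrt_of_sq_le ?_
        rw [mul_pow, sq_sqrt X.cx.sh.u0.1.le]
        nth_rewrite 2 [← cube3 X.X0.le]
        exact (mul_le_mul_of_nonneg_right W.px.u0 (sq_nonneg _)).trans_eq (by ring)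
      linarith [W.px.γ1, sqrt_nonneg (Xx E Y)]
  · refine .inr ⟨lm, l0, fun k a _ c => (W.lm_le a c).trans
      (mul_le_of_le_one_right (X.cl.den0 _).le (ds1 W.pd W.px k)), ?_⟩
    have w0 := ww0 X; have := X.Gp0; have := X.N0; have := mx0 X
    have b : ww E S u * (2 * Xx E Y ^ ((1 : ℝ) / 3)) ≤ lm * Gp E S Y ^ 2 := by
      have k := X.lg_mono (by positivity) h
      have g := X.lg_Gp
      have c := (X.lg_num (x := 2) (by norm_num) (by norm_num)).2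
      have lx := W.lg_x
      refine X.le_of_lg (by positivity) (by positivity) ?_
      generalize Xx E Y ^ ((1 : ℝ) / 3) = x at *
      revert k
      lg_norm
      rw [X.lg_n]
      intro k
      have := le_min (show -1 / 2 ≤ logb S.n Y - 10 ^ 8 * logb S.n E by linarith [X.lg_Y.1])
        (show (-1 : ℝ) / 2 ≤ -249 / 500 by norm_num)
      linarith [(lg_ww X).1, X.lg_X.1, X.lg_Y.1, X.lg_E.1, X.lg_E.2]
    exact ((mul_le_mul_of_nonneg_left (by linarith [W.px.γ1, y_x W.pd W.px]) w0.le).trans b).trans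
      (mul_le_mul_of_nonneg_left ((le_add_of_nonneg_left (sq_nonneg _)).trans (W.G_sq hG)) l0.le)

theorem g0e : S.ue ≤ G0 ^ 2 ∧ ∀ k, S.J ≤ k → k ≤ S.Jp → S.ue ≤ du N k → du N k < u1 →
    (Su E S M Y D u).w3 1 ≤ G0 ^ 2 * S.den (N.z (k - 1)) := by
  have X := W.X
  have := X.N0; have := X.E0; have := X.nu0
  refine ⟨(X.sx.ue2.trans (X.le_of_lg (by positivity) (by positivity) ?_)).trans
    ((le_add_of_nonneg_right (sq_nonneg _)).trans (W.G_sq hG)), fun k a _ c d => ?_⟩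
  · lg_norm
    linarith [X.lg_n, X.lg_nu, X.lg_E.1]
  · have e : u1 ≤ (S.n : ℝ) ^ (-(1 : ℝ) / 2) := X.le_of_lg W.u10 (by positivity) (by
      linarith [X.lg_rp (-(1 : ℝ) / 2), W.lg_u1.2.1, X.lg_E.2])
    rw [W.du_eq] at c d
    rw [W.hz]
    exact (W.G_w hG).trans
      (le_mul_of_one_le_right (sq_nonneg _) (X.sx.dl _ (W.pt a) c (d.le.trans e)))

/-- **`LP`** with some cost -/
theorem lp {X2 X3 G1 u2 j Lc ηc τ : ℝ} (η : ℝ → ℝ)
    (rev : ∃ k1, S.Jp ≤ k1 ∧ k1 ≤ N.N ∧ 1 / (Su E S M Y D u).C ≤ ((k1 : ℝ) - S.Jp) * S.v ∧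
      ∀ k, S.Jp ≤ k → k < k1 → (Su E S M Y D u).θ * S.v /
        ((Su E S M Y D u).C * (Su E S M Y D u).F) ≤ N.H (k + 1) - N.H k)
    (fl : N.s S.Jp - N.s S.J ≤ γ) (u12 : u1 ≤ u2) (u2E : E ^ 360 * u2 ≤ 1)
    (h2 : Np N (Su E S M Y D u) (Xx E Y) Vt γ u1 (Zz E ^ 3) 2 ≤ X2) (h3 : X3n E S M Y u ≤ X3)
    (tw : (Su E S M Y D u).w3 1 ≤ τ ^ 3) (Lc1 : Zz E ≤ Lc ∧ Lc ≤ S.n)
    (ηc1 : ∀ v, v = Lc ^ ((2 : ℝ) / 3) * (Su E S M Y D u).w3 1 ^ ((1 : ℝ) / 3) →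
      v ^ 3 + v ^ 2 * ((Su E S M Y D u).θ + j + Xx E Y ^ ((1 : ℝ) / 3)) +
      (√(Lc * gg (Su E S M Y D u) 1) + G0 + X2) * (v + √X2) + X3 + 1 / S.n ≤ ηc ∧
        E ^ 360 * v ^ 2 ≤ mf (Su E S M Y D u) 1)
    (τ0 : Xx E Y ^ ((1 : ℝ) / 3) / Lc + ηc / mf (Su E S M Y D u) 1 ≤ τ)
    (τ1 : τ ≤ Xx E Y ^ ((1 : ℝ) / 3)) (j1 : E ^ 360 * (j + τ) ≤ 1) :
    ∃ N', LP (E ^ 360) (Su E S M Y D u) N (Xx E Y) Vt (Zz E) (Zz E ^ 3) X2 X3 G0 G1 u1 u2 j γ Lc ηc τ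
      η N' := by
  have X := W.X
  have := X.E0; have := X.X0; have := X.nu0; have := X.Z0; have := X.N0
  have key : ∀ a b c d e f g i k p : ℝ, ∃ N, a ≤ N ∧ b ≤ N ∧ c ≤ N ∧ d ≤ N ∧ e ≤ N ∧ f ≤ N ∧
      g ≤ N ∧ i ≤ N ∧ k ≤ N ∧ p ≤ N := fun a b c d e f g i k p => by
    obtain ⟨N, hN⟩ := Finset.exists_le ({a, b, c, d, e, f, g, i, k, p} : Finset ℝ)
    exact ⟨N, by simpa using hN⟩
  have Z1 : 1 ≤ Zz E := one_le_pow₀ X.E1
  have a1 : E ^ 360 * Xx E Y ≤ 1 := X.le_of_lg (by positivity) one_pos (by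
    lg_norm
    linarith [X.lg_X.2, X.lg_Y.2, X.lg_E.1, X.lg_E.2])
  have a2 : E ^ 360 * nu S ≤ 1 := X.le_of_lg (by positivity) one_pos (by
    lg_norm
    linarith [X.lg_nu, X.lg_E.2])
  have a3 : Zz E ^ 3 ≤ S.n := X.le_of_lg (by positivity) X.N0 (by
    lg_norm
    linarith [X.lg_Z, X.lg_n, X.lg_E.2])
  obtain ⟨N', a, b, c, d, e, f, g, i, k, p⟩ := key _ _ _ _ _ _ _ _ _ _
  exact ⟨N', X.cx.sh.u0.1, rev, ⟨X.X0, a1⟩, W.V0, W.pd.ue.le, ⟨u12, u2E⟩, fl,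
    (mul_le_mul_of_nonneg_left W.γ1 (by positivity)).trans a2, ⟨one_le_pow₀ Z1, a3⟩, le_rfl,
    W.far (le_self_pow₀ Z1 (by norm_num)), h2, W.n3.trans h3, W.g0p hG, W.g0c hG, W.g0d hG,
    .inr (W.g0e hG), a, fun _ h => h ▸ b, c, d, e, f, g, tw, i, Lc1, ηc1, τ0, τ1, j1,
    fun _ _ h h' => by subst h h'; exact ⟨k, Or.inl p⟩⟩

end Ty

section z

variable {E : ℝ} {S : Sc} {M : Md} {l lm Ys Y D u r1 r2 Vt γ : ℝ} {c F : ℕ → ℝ}
  (Z : Tm71.Tx KK E S M l lm Ys Y c D u F) (T : Tp KK E S M lm Y r1 r2) (V0 : 0 ≤ Vt)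
  (V2 : Vt ≤ E ^ 60000 * (Xx E Y ^ ((1 : ℝ) / 3) + (S.n : ℝ) ^ (-(21 : ℝ) / 400) + √u))
  (γ0 : M.s S.Jp - M.s S.J ≤ γ) (γ1 : γ ≤ nu S)
include Z T V0 V2 γ0 γ1

theorem ty_of : Ty E S M Z.N l lm Ys Y D u r1 r2 (8 * r1) Vt γ := by
  have X : Tx E S M l lm Ys Y u := ⟨Z.X, Z.sx, Z.u1, Z.u2⟩
  have := X.N0; have := mx0 X
  have r0 : 0 < r1 :=
    (pos_iff_pos_of_mul_pos ((rpow_pos_of_pos X.N0 _).trans_le T.a1)).1 (by positivity)
  exact ⟨X, T, Z.cl', rfl, rfl, by linarith, le_rfl, V0, V2,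
    (sub_nonneg.2 (X.cl.sm X.cl.i3)).trans γ0, γ1⟩

/-- **`LP` on the table** -/
theorem lpZ {G1 j Lc ηc τ : ℝ} (η : ℝ → ℝ) (tw : Z.S'.w3 1 ≤ τ ^ 3) (Lc1 : Zz E ≤ Lc ∧ Lc ≤ Z.S'.n)
    (ηc1 : ∀ v, v = Lc ^ ((2 : ℝ) / 3) * Z.S'.w3 1 ^ ((1 : ℝ) / 3) →
      v ^ 3 + v ^ 2 * (Z.S'.θ + j + Xx E Y ^ ((1 : ℝ) / 3)) +
      (√(Lc * gg Z.S' 1) + G0 E S M Y u + X2 E S M Y u) * (v + √(X2 E S M Y u)) + X3n E S M Y u +
        1 / Z.S'.n ≤ ηc ∧ E ^ 360 * v ^ 2 ≤ mf Z.S' 1)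
    (τ0 : Xx E Y ^ ((1 : ℝ) / 3) / Lc + ηc / mf Z.S' 1 ≤ τ)
    (τ1 : τ ≤ Xx E Y ^ ((1 : ℝ) / 3)) (j1 : E ^ 360 * (j + τ) ≤ 1) :
    ∃ N', LP (E ^ 360) Z.S' Z.N (Xx E Y) Vt (Zz E) (Zz E ^ 3) (X2 E S M Y u) (X3n E S M Y u)
      (G0 E S M Y u) G1 (8 * r1) (2 * r2) j γ Lc ηc τ η N' := by
  have W := ty_of Z T V0 V2 γ0 γ1
  have X := W.X
  have a : 4 * r1 ≤ r2 := (mul_le_mul_of_nonneg_right
    ((show 4 ≤ E by linarith [X.cx.E3]).trans Z.E_Q) W.r10.le).trans T.a3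
  have := X.E0; have := X.Yd0
  have b : E ^ 360 * (2 * Yd KK E Y) ≤ 1 := X.le_of_lg (by positivity) one_pos (by
    lg_norm
    linarith [X.lg_Yd, X.lg_Y.2, X.lg_E.1, (X.lg_num (x := 2) (by norm_num) (by norm_num)).2])
  exact W.lp (by rw [G0]; linarith [X.X20]) η Z.rev' γ0 (by linarith)
    ((mul_le_mul_of_nonneg_left (by linarith [T.a4]) (by positivity)).trans b) W.n2 le_rfl tw Lc1 ηc1
    τ0 τ1 j1

end z

end Crest.Agent.T156.Alt.Tp72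

end
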