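import Crest.Agent.T156.TermTD_46
import Crest.Agent.T156.PlS_64
import Crest.Agent.T156.TermD_71

/-!
# Row 156, SR, terminal statement: the passes of `TLt` at the level of the class (helper46)
-/

set_option autoImplicit false
set_option linter.unusedSectionVars false

noncomputable section

namespace Crest.Agent.T156.Alt.Tt46

open Real Finset L69 Ps64

variable {S : Sc} {M : Md}

theorem third {Z : ℝ} (h : 0 ≤ Z) : (Z ^ 3) ^ ((1 : ℝ) / 3) = Z := by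
  rw [← rpow_natCast, ← rpow_mul h]
  norm_num

theorem third_le {x y : ℝ} (hx : 0 ≤ x) (hy : 0 ≤ y) (h : x ≤ y ^ 3) : x ^ ((1 : ℝ) / 3) ≤ y :=
  (rpow_le_rpow hx h (by norm_num)).trans_eq (third hy)

theorem pd_mono {h u u' Xp D lm dm Λ : ℝ} (P : PD S M h u Xp D lm dm Λ) (hu : u ≤ u') :
    PD S M h u' Xp D lm dm Λ := by
  have u0 := P.u10
  have sub : ∀ k ∈ nd S M u', k ∈ nd S M u := fun k hk =>
    mem_filter.2 ⟨(mem_filter.1 hk).1, hu.trans (mem_filter.1 hk).2⟩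
  have lg : log (1 + 1 / u') ≤ log (1 + 1 / u) := log_le_log (by have := u0.trans_le hu; positivity)
    (add_le_add le_rfl (one_div_le_one_div_of_le u0 hu))
  exact { P with
    ue := P.ue.trans_le hu
    hu1 := P.hu1.trans hu
    lm1 := fun k hk => P.lm1 k (sub k hk)
    dm1 := fun k hk => P.dm1 k (sub k hk)
    l0 := by linarith [P.l0]
    lX := by linarith [P.lX] }

theorem crt_le (c : Cl S M) {t r : ℝ} (ht : 0 < t) (hr : t ≤ r) (h : S.F * S.ms t * t ≤ r ^ 3) :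
    cr S t * t ≤ r := by
  rw [cr, max_mul_of_nonneg _ _ ht.le, one_mul]
  refine max_le hr (le_of_pow_le_pow_left₀ three_ne_zero (ht.le.trans hr) ?_)
  have := c.ms_pos ht.le
  have := c.F1
  rw [mul_pow, cube3 (by positivity)]
  exact (le_of_eq (by field_simp)).trans h

theorem w3_anti (c : Cl S M) {t t' : ℝ} (ht : 0 < t) (h : t ≤ t') : S.w3 t' ≤ S.w3 t := by
  have := c.ms_pos ht.le
  have := c.N0
  have := c.F1
  have := c.msm h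
  have := ht.trans_le h
  unfold Sc.w3
  gcongr

theorem w3_pos (c : Cl S M) {t : ℝ} (ht : 0 < t) : 0 < S.w3 t := by
  have := c.ms_pos ht.le
  have := c.N0
  have := c.F1
  unfold Sc.w3
  positivity

/-- `Far` from the one-sided comparison of the densities -/
theorem far_of (c : Cl S M) {Xp Vt γ u1 Lp lm : ℝ} (hX : 0 ≤ Xp) (hL : 0 ≤ Lp) (l0 : 0 ≤ lm)
    (fa : ∀ i k, S.J ≤ i → i ≤ k → k ≤ S.Jp → u1 ≤ du M k →
      S.den (M.z (i - 1)) ≤ Lp * (1 + S.den (M.z (k - 1))))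
    (hl : ∀ k, S.J ≤ k → k ≤ S.Jp → u1 ≤ du M k → lm ≤ lsh M S k)
    (hw : S.w3 1 ≤ Xp ^ ((1 : ℝ) / 3) * lm ^ 2) : Far M S Xp Vt γ u1 Lp := fun i k a b d e => by
  have w0 := (w3_pos c one_pos).le
  have x0 := rpow_nonneg hX ((1 : ℝ) / 3)
  have d0 := (c.den0 (M.z (k - 1))).le
  have b1 := hl k (a.trans b) d e
  have b0 := l0.trans b1
  have b2 := mul_le_mul_of_nonneg_left (pow_le_pow_left₀ l0 b1 2) x0
  have b3 := mul_le_mul_of_nonneg_left (fa i k a b d e) w0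
  have b4 : S.w3 1 * (1 + S.den (M.z (k - 1))) ≤ (lsh M S k + Xp ^ ((1 : ℝ) / 3)) * lsh M S k ^ 2 +
      S.w3 1 * S.den (M.z (k - 1)) := by nlinarith [pow_nonneg b0 3]
  refine le_trans ?_ (le_mul_of_one_le_right (by positivity) (one_le_pow₀ (le_max_left _ _)))
  linarith [mul_le_mul_of_nonneg_left b4 hL]

/-- the density against the distance to the upper end -/
theorem den_le (c : Cl S M) {D Lq : ℝ} (hD : S.C ^ 2 * (M.ck S.Jp - M.ck S.J) ≤ D) (hL : 0 ≤ Lq)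
    {k : ℕ} (k1 : S.J ≤ k) (k2 : k ≤ S.Jp) (hu : 2 * S.ue ≤ du M k)
    (fa : ∀ i, k ≤ i → i < S.Jp → S.den (M.z (k - 1)) ≤ Lq * (1 + S.den (M.z (i - 1)))) :
    S.den (M.z (k - 1)) * du M k ≤ 2 * Lq * (1 + D) := by
  have C0 := c.C0
  have j0 := c.j0_lt
  have d0 := c.den0 (M.z (k - 1))
  have e : ∑ i ∈ Ico k S.Jp, M.dx i = M.z (S.Jp - 1) - M.z (k - 1) := by
    rw [← Sr.M29.sum_dx M (show k - 1 ≤ S.Jp - 1 by omega)]
    refine sum_congr ?_ fun _ _ => rfl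
    ext i
    simp only [mem_Ico, mem_Ioc]
    omega
  have a1 : ∑ i ∈ Ico k S.Jp, M.dx i * S.den (M.z (i - 1)) ≤ D :=
    calc _ ≤ ∑ i ∈ Ico S.J S.Jp, M.dx i * S.den (M.z (i - 1)) :=
          sum_le_sum_of_subset_of_nonneg (Ico_subset_Ico k1 le_rfl)
            fun i _ _ => mul_nonneg (Sr.M29.dx_nn c i) (c.den0 _).le
      _ ≤ ∑ i ∈ Ico S.J S.Jp, S.C ^ 2 * (M.ck (i + 1) - M.ck i) := by
          refine sum_le_sum fun i hi => ?_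
          obtain ⟨i1, i2⟩ := mem_Ico.1 hi
          have a1 := (c.plat i i1 i2).2
          have a2 := (c.ckm i (by omega) i2).1
          rw [div_le_iff₀ C0] at a2
          have := mul_le_mul_of_nonneg_left a2 C0.le
          simp only [Md.dx]
          nlinarith
      _ ≤ D := by rw [← mul_sum, sum_Ico_sub _ c.i3]; exact hD
  have a2 : ∑ i ∈ Ico k S.Jp, M.dx i * S.den (M.z (k - 1)) ≤
      ∑ i ∈ Ico k S.Jp, Lq * (M.dx i + M.dx i * S.den (M.z (i - 1))) := sum_le_sum fun i hi =>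
    (mul_le_mul_of_nonneg_left (fa i (mem_Ico.1 hi).1 (mem_Ico.1 hi).2) (Sr.M29.dx_nn c i)).trans_eq
      (by ring)
  rw [← sum_mul, ← mul_sum, sum_add_distrib, e] at a2
  have a3 : du M k / 2 ≤ M.z (S.Jp - 1) - M.z (k - 1) := by
    have := c.last
    rw [du] at hu ⊢
    linarith
  have a4 : M.z (S.Jp - 1) - M.z (k - 1) ≤ 1 := by linarith [c.leg.z1 (S.Jp - 1), c.z_pos (k - 1)]
  have a5 := mul_le_mul_of_nonneg_right a3 d0.le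
  have a6 := mul_le_mul_of_nonneg_left (add_le_add a4 a1) hL
  linarith

/-- location above the cut `ρ` -/
def VT (S : Sc) (M : Md) (m : ℕ) (a ρ V : ℝ) : Prop :=
  ∀ k, S.J ≤ k → k ≤ S.Jp → ρ ≤ du M k → M.del m a k ≤ V

theorem VT.mono {m : ℕ} {a ρ V ρ' V' : ℝ} (h : VT S M m a ρ V) (h1 : ρ ≤ ρ') (h2 : V ≤ V') :
    VT S M m a ρ' V' := fun k a b c => (h k a b (h1.trans c)).trans h2

/-- the data of the passes -/
structure PS (E Λ : ℝ) (S : Sc) (M : Md) (m : ℕ) (a Z L ρ0 l0 γ h D lm dm Λ0 : ℝ) : Prop where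
  tt : TtAt E Λ S M m a
  pd : PD S M h ρ0 (Z ^ 3) D lm dm Λ0
  jj : S.j0 = S.jl
  m0 : 0 < m
  Z0 : 0 < Z
  ZE : E * Z ≤ 1
  E1 : 72 * S.C ≤ E
  Λ1 : 1 ≤ Λ
  L0 : 1 ≤ L
  L1 : E ≤ L ^ 3
  Ln : L ^ 3 ≤ S.n
  HJ : M.H S.Jp ≤ S.C
  l0s : E * M.s S.jl ≤ l0
  l0w : S.w3 l0 ≤ l0 ^ 3
  l0Z : l0 ≤ Z
  ms : ∀ t, l0 ≤ t → S.F * S.ms t ≤ t ^ 2 + Z ^ 2
  wZ : S.w3 Z ≤ Z ^ 6
  rev : ∃ k1, S.Jp ≤ k1 ∧ k1 ≤ M.N ∧ 1 / S.C ≤ ((k1 : ℝ) - S.Jp) * S.v ∧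
    ∀ k, S.Jp ≤ k → k < k1 → S.θ * S.v / (S.C * S.F) ≤ M.H (k + 1) - M.H k
  γ0 : M.s S.Jp - M.s S.J ≤ γ
  γ1 : γ ≤ Z
  fa : ∀ i k, S.J ≤ i → i ≤ k → k ≤ S.Jp → ρ0 ≤ du M k →
    S.den (M.z (i - 1)) ≤ L ^ 3 * (1 + S.den (M.z (k - 1)))
  wl : S.w3 1 ≤ Z * lm ^ 2
  n1 : S.w3 1 * D ≤ Z ^ 4
  n2 : S.w3 1 / dm ≤ Z
  n3 : S.w3 1 / lm * Λ0 ≤ Z ^ 4
  n4 : 1 ≤ Λ0 ∧ Λ0 ≤ L ^ 3
  phi : M.Phi S m a ≤ Z ^ 3
  sqG : M.sq S M.G ≤ Z ^ 2
  jn : Jn S M (Z ^ 3) ρ0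
  nZ : 1 / √S.n ≤ Z
  ks : ∃ k', k' ≤ S.Jp ∧ du M k' ≤ ρ0 ∧
    min (√(M.H k' - M.H S.J)) (S.F * (M.H k' - M.H S.J) / S.θ) ≤ Z

namespace PS

variable {E Λ : ℝ} {m : ℕ} {a Z L ρ0 l0 γ h D lm dm Λ0 : ℝ}
  (P : PS E Λ S M m a Z L ρ0 l0 γ h D lm dm Λ0)
include P

theorem CZ : 72 * S.C * Z ≤ 1 := (mul_le_mul_of_nonneg_right P.E1 P.Z0.le).trans P.ZE
theorem Z72 : 72 * Z ≤ 1 := by nlinarith [P.CZ, P.pd.cl.C1, P.Z0]
theorem Z1 : Z ≤ 1 := by linarith [P.Z72, P.Z0]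
theorem Zp {i j : ℕ} (h : i ≤ j) : Z ^ j ≤ Z ^ i := pow_le_pow_of_le_one P.Z0.le P.Z1 h
theorem Zp1 {j : ℕ} (h : 1 ≤ j) : Z ^ j ≤ Z := (P.Zp h).trans_eq (pow_one Z)
theorem E0 : 0 < E := by linarith [P.E1, P.pd.cl.C1]
theorem Ele {x : ℝ} (h : x ≤ Z) : E * x ≤ 1 := (mul_le_mul_of_nonneg_left h P.E0.le).trans P.ZE
theorem l00 : 0 < l0 :=
  (mul_pos P.E0 (P.pd.cl.s_pos (P.pd.cl.i0.trans P.pd.cl.i1))).trans_le P.l0s
theorem γn : 0 ≤ γ := (sub_nonneg.2 (P.pd.cl.sm P.pd.cl.i3)).trans P.γ0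

theorem cl_nn {t : ℝ} (ht : 0 < t) : 0 ≤ cl S Z t :=
  add_nonneg (mul_nonneg (zero_le_one.trans (le_max_left _ _)) ht.le) P.Z0.le

theorem x_lo {t : ℝ} (h1 : l0 ≤ t) (h2 : t ≤ Z) : t * cl S Z t ^ 2 ≤ Z ^ 2 := by
  have t0 := P.l00.trans_le h1
  have Z0 := P.Z0
  have a : cr S t * t ≤ 2 * Z := crt_le P.pd.cl t0 (by linarith) (by
    have b := mul_le_mul ((P.ms t h1).trans (add_le_add (pow_le_pow_left₀ t0.le h2 2) le_rfl)) h2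
      t0.le (by positivity)
    nlinarith [pow_pos Z0 3])
  have b : cl S Z t ≤ 3 * Z := by rw [cl]; linarith
  have d := mul_le_mul h2 (pow_le_pow_left₀ (P.cl_nn t0) b 2) (sq_nonneg _) Z0.le
  nlinarith [mul_le_mul_of_nonneg_right P.Z72 (sq_nonneg Z), pow_pos Z0 3]

theorem x_hi {t : ℝ} (h1 : Z ≤ t) (h2 : t ≤ S.C) :
    t * ws S Z t ^ 2 + (t * ws S Z t ^ 2) ^ ((3 : ℝ) / 7) * (Z ^ 3) ^ ((4 : ℝ) / 7) ≤ 2 * Z ^ 2 := by
  have Z0 := P.Z0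
  have t0 := Z0.trans_le h1
  have a : cr S t * t ≤ 2 * t := crt_le P.pd.cl t0 (by linarith) (by
    have b := mul_le_mul_of_nonneg_right ((P.ms t (P.l0Z.trans h1)).trans
      (add_le_add le_rfl (pow_le_pow_left₀ Z0.le h1 2))) t0.le
    nlinarith [pow_pos t0 3])
  have b : cl S Z t / t ≤ 3 := by rw [div_le_iff₀ t0, cl]; linarith
  have w := w3_pos P.pd.cl t0
  have d : S.w3 t ^ ((1 : ℝ) / 3) ≤ Z ^ 2 := third_le w.le (by positivity)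
    (((w3_anti P.pd.cl Z0 h1).trans P.wZ).trans_eq (by ring))
  have e0 : 0 ≤ ws S Z t := mul_nonneg (div_nonneg (P.cl_nn t0) t0.le) (rpow_nonneg w.le _)
  have e : ws S Z t ≤ 3 * Z ^ 2 := mul_le_mul b d (rpow_nonneg w.le _) (by norm_num)
  have f := mul_le_mul h2 (pow_le_pow_left₀ e0 e 2) (sq_nonneg _) P.pd.cl.C0.le
  have g : t * ws S Z t ^ 2 ≤ Z ^ 2 := by
    have := mul_le_mul_of_nonneg_right P.CZ (pow_pos Z0 3).le
    have := P.Zp (show 2 ≤ 3 by norm_num)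
    have : 0 < S.C * Z ^ 4 := mul_pos P.pd.cl.C0 (pow_pos Z0 4)
    nlinarith
  have i := mul_le_mul (rpow_le_rpow (by positivity) g (show (0 : ℝ) ≤ 3 / 7 by norm_num))
    (rpow_le_rpow (by positivity) (P.Zp (show 2 ≤ 3 by norm_num)) (show (0 : ℝ) ≤ 4 / 7 by norm_num))
    (by positivity) (by positivity)
  rw [← rpow_add (by positivity), show (3 : ℝ) / 7 + 4 / 7 = 1 by norm_num, rpow_one] at i
  linarith

theorem wlm : S.w3 1 / lm ≤ Z ^ 4 :=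
  (le_mul_of_one_le_right (div_nonneg P.pd.w0.le P.pd.lm0.le) P.n4.1).trans P.n3

theorem swl : √(S.w3 1 / lm) ≤ Z :=
  sqrt_le_iff.2 ⟨P.Z0.le, P.wlm.trans (P.Zp (by norm_num))⟩

theorem np {ρ V : ℝ} (h0 : ρ0 ≤ ρ) (h1 : ρ ≤ Z ^ 2) (V0 : 0 ≤ V) (V1 : V ≤ 1) :
    Np M S (Z ^ 3) V γ ρ (L ^ 3) 2 ≤ (5 * L ^ 2 * Z) ^ 2 := by
  have Z0 := P.Z0
  have L0 := P.L0
  have w0 := P.pd.w0
  have l0 := P.pd.lm0
  have d0 := P.pd.dm0
  have a := (pd_mono P.pd h0).Np2 (R := 4) (s := Z) V0 P.γn le_rfl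
    (by rw [third Z0.le]; linarith [P.γ1, P.Z1]) Z0 (by
      have b1 := mul_le_mul P.wlm (P.swl.trans P.Z1) (sqrt_nonneg _) (pow_pos Z0 4).le
      have b2 := mul_le_mul_of_nonneg_right P.Z72 (pow_pos Z0 3).le
      have b3 : S.w3 1 * (D + 4 ^ 2 / lm * Λ0) = S.w3 1 * D + 16 * (S.w3 1 / lm * Λ0) := by ring
      rw [ZA, b3]
      linarith [P.n1, P.n3]) (zero_lt_one.trans_le L0)
  have b1 := mul_le_mul P.n2 (P.n3.trans (P.Zp1 (by norm_num))) (by have := P.n4.1; positivity) Z0.le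
  have b2 : (9 * Z ^ 3 * Λ0 + 3 * γ ^ 2) / L ^ 3 ≤ 12 * Z ^ 2 := by
    rw [div_le_iff₀ (by positivity)]
    have c1 := mul_le_mul (P.Zp (show 2 ≤ 3 by norm_num)) P.n4.2 (by linarith [P.n4.1]) (sq_nonneg Z)
    have c2 := (pow_le_pow_left₀ P.γn P.γ1 2).trans
      (le_mul_of_one_le_right (sq_nonneg Z) (one_le_pow₀ (n := 3) L0))
    linarith
  have b3 := le_mul_of_one_le_left (sq_nonneg Z) (one_le_pow₀ (n := 4) L0)
  have b4 := mul_le_mul_of_nonneg_left b1 (show 0 ≤ L ^ 4 by positivity)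
  nlinarith

/-- **one pass** -/
theorem step {ρ A x y : ℝ} (h0 : ρ0 ≤ ρ) (h1 : ρ ≤ Z ^ 2) (A1 : 1 ≤ A) (x0 : 0 ≤ x) (y0 : 0 ≤ y)
    (hv : VT S M m a ρ (A * (x + Z))) (hb : S.w3 1 / dm * x ^ 2 ≤ y ^ 3)
    (hp : ∀ k, S.J ≤ k → k ≤ S.Jp → 2 * ρ ≤ du M k → S.w3 1 * S.den (M.z (k - 1)) ≤ y ^ 3) :
    VT S M m a (2 * ρ) (20 * Λ * L ^ 3 * A * (y + Z)) := fun k k1 k2 k3 => by
  have c := P.pd.cl
  have Z0 := P.Z0
  have L0 := P.L0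
  have Q := pd_mono P.pd h0
  have r0 := Q.u10
  have e3 := third Z0.le
  obtain ⟨k', s1, s2, s3⟩ := P.ks
  have kk : k ≤ k' := by
    by_contra n
    have := c.leg.zm (show k' - 1 ≤ k - 1 by omega)
    simp only [du] at s2 k3
    linarith
  set V := min 1 (A * (x + Z)) with hV
  have V0 : 0 ≤ V := le_min zero_le_one (by positivity)
  have X2 : 2 * Z ^ 2 ≤ (5 * L ^ 2 * Z) ^ 2 := by
    nlinarith [le_mul_of_one_le_left (sq_nonneg Z) (one_le_pow₀ (n := 4) L0), sq_nonneg Z]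
  have t := P.tt l0 (Z ^ 3) (Z ^ 3) V ((5 * L ^ 2 * Z) ^ 2) ρ (3 * Z) γ (L ^ 3) P.HJ (by positivity)
    (P.Ele (P.Zp1 (by norm_num))) (by positivity) (P.Ele (P.Zp1 (by norm_num))) V0 P.l0s P.l0w
    (P.Ele P.l0Z) (by rw [e3]; linarith [P.x_lo le_rfl P.l0Z, sq_nonneg Z])
    (fun t a b => by
      rw [e3]
      rcases le_total t Z with e | e
      · exact (min_le_left _ _).trans (by linarith [P.x_lo a e, sq_nonneg Z])
      · exact (min_le_right _ _).trans ((P.x_hi e b).trans X2))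
    (by linarith [P.pd.hu0, P.pd.h0]) P.rev Q.ue.le (P.Ele (h1.trans (P.Zp1 (by norm_num)))) P.γ0
    (P.Ele P.γ1) P.L1 P.Ln
    (far_of c (by positivity) (by positivity) P.pd.lm0.le
      (fun i k a b d e => P.fa i k a b d (h0.trans e))
      (fun k a b d => Q.lm1 k (mem_filter.2 ⟨mem_Icc.2 ⟨a, b⟩, d⟩)) (by rw [e3]; exact P.wl))
    (P.np h0 h1 V0 (min_le_left _ _))
    (Tm71.ap_of c P.jj P.phi (fun k a b d => le_min (Tm71.del_le_one P.m0 k) (hv k a b d)) P.sqG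
      (by
        have b1 : √(Z ^ 3) ≤ Z := sqrt_le_iff.2 ⟨Z0.le, P.Zp (by norm_num)⟩
        have b2 := (pow_le_pow_left₀ P.l00.le P.l0Z 2).trans (P.Zp1 (by norm_num))
        rw [sqrt_sq Z0.le]
        linarith)
      ⟨P.jn.dj1, P.jn.dj2, P.jn.u03, fun k a b d => P.jn.fine k a b (h0.trans d)⟩)
    k k1 k2 k3 k' kk s1 (by linarith)
  have hk : k ∈ nd S M ρ := mem_filter.2 ⟨mem_Icc.2 ⟨k1, k2⟩, by linarith⟩
  have b0 := Q.aB0 k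
  have b1 := (Q.aB_le le_rfl hk).1
  have b2 : Rp M S (Z ^ 3) V γ k + Z ≤ 4 * (A * (x + Z)) := by
    have d1 := Q.Rp_le (Vt := V) (γ := γ) k
    have d2 := le_mul_of_one_le_left (show 0 ≤ x + Z by positivity) A1
    rw [e3] at d1
    linarith [P.γ1, min_le_right 1 (A * (x + Z))]
  have b3 : a0 S M (Z ^ 3) V γ k =
      S.w3 1 * S.den (M.z (k - 1)) + aB S M k * (Rp M S (Z ^ 3) V γ k + Z) ^ 2 := by
    rw [a0, aB, e3]
    ring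
  have b4 := mul_le_mul b1 (pow_le_pow_left₀ (add_nonneg (Q.Rp0 V0 P.γn k) Z0.le) b2 2) (sq_nonneg _)
    (b0.trans b1)
  have b5 : a0 S M (Z ^ 3) V γ k ≤ (4 * (A * (y + Z))) ^ 3 := by
    have d1 := mul_le_mul_of_nonneg_right P.n2 (sq_nonneg Z)
    have d2 : S.w3 1 / dm * (x + Z) ^ 2 ≤ 2 * (y + Z) ^ 3 := by
      have := mul_nonneg (b0.trans b1) (sq_nonneg (x - Z))
      have : y ^ 3 + Z ^ 3 ≤ (y + Z) ^ 3 := pow_add_pow_le y0 Z0.le three_ne_zero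
      nlinarith
    have d3 := mul_le_mul (pow_le_pow_right₀ A1 (show 2 ≤ 3 by norm_num)) d2
      (mul_nonneg (b0.trans b1) (sq_nonneg _)) (by positivity)
    have d4 := (pow_le_pow_left₀ y0 (le_add_of_nonneg_right Z0.le) 3).trans
      (le_mul_of_one_le_left (by positivity) (one_le_pow₀ (n := 3) A1))
    have d5 : 0 ≤ A ^ 3 * (y + Z) ^ 3 := by positivity
    rw [b3]
    nlinarith [hp k k1 k2 k3]
  have b6 := third_le (Q.a00 k) (by positivity) b5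
  have b7 := le_mul_of_one_le_left (show 0 ≤ y + Z by positivity) A1
  have b8 : ap M S (Z ^ 3) V γ k ≤ 6 * (A * (y + Z)) := by
    rw [ap_eq0]
    linarith [(Q.aC_le le_rfl hk).trans P.swl, P.n2]
  have b9 := mul_le_mul_of_nonneg_left b8 (show 0 ≤ L ^ 3 by positivity)
  have c1 : Z ≤ L ^ 3 * (A * (y + Z)) :=
    (by linarith : Z ≤ A * (y + Z)).trans (le_mul_of_one_le_left (by positivity) (one_le_pow₀ L0))
  have c2 : L ^ 2 * Z ≤ L ^ 3 * (A * (y + Z)) :=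
    mul_le_mul (pow_le_pow_right₀ L0 (by norm_num)) (by linarith) Z0.le (by positivity)
  rw [sqrt_sq (by positivity)] at t
  refine t.trans ((mul_le_mul_of_nonneg_left (b := _) (c := 20 * (L ^ 3 * (A * (y + Z)))) ?_
    (by linarith [P.Λ1])).trans_eq (by ring))
  linarith [P.γ1, P.nZ]

/-- **the four passes** -/
theorem four {ρ1 y1 y2 y3 p : ℝ} (h0 : 4 * ρ0 ≤ ρ1) (h1 : 2 * ρ1 ≤ Z ^ 2) (y0 : 0 ≤ y2) (y12 : y2 ≤ y1)
    (p0 : 0 ≤ p) (p1 : p ≤ y3) (p2 : p ≤ Z) (b1 : S.w3 1 / dm ≤ y1 ^ 3)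
    (b2 : S.w3 1 / dm * y1 ^ 2 ≤ y2 ^ 3) (b3 : S.w3 1 / dm * y2 ^ 2 ≤ y3 ^ 3)
    (b4 : S.w3 1 / dm * y3 ^ 2 ≤ Z ^ 3)
    (d1 : ∀ k, S.J ≤ k → k ≤ S.Jp → 2 * ρ0 ≤ du M k → S.w3 1 * S.den (M.z (k - 1)) ≤ y2 ^ 3)
    (d2 : ∀ k, S.J ≤ k → k ≤ S.Jp → 2 * ρ1 ≤ du M k → S.w3 1 * S.den (M.z (k - 1)) ≤ p ^ 3) :
    VT S M m a (4 * ρ0) ((20 * Λ * L ^ 3) ^ 2 * (y2 + Z)) ∧
      VT S M m a (4 * ρ1) ((20 * Λ * L ^ 3) ^ 4 * (2 * Z)) := by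
  have r0 := P.pd.u10
  have Z0 := P.Z0
  have H1 : 1 ≤ 20 * Λ * L ^ 3 :=
    one_le_mul_of_one_le_of_one_le (by linarith [P.Λ1]) (one_le_pow₀ P.L0)
  have s1 := P.step (A := 1) (x := 1) le_rfl (by linarith) le_rfl zero_le_one (y0.trans y12)
    (fun k _ _ _ => (Tm71.del_le_one P.m0 k).trans (by linarith)) (by simpa using b1)
    fun k a b c => (d1 k a b c).trans (pow_le_pow_left₀ y0 y12 3)
  rw [mul_one] at s1
  have s2 := P.step (by linarith) (by linarith) H1 (y0.trans y12) y0 s1 b2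
    fun k a b c => d1 k a b (by linarith)
  rw [← sq] at s2
  have s3 := P.step (ρ := ρ1) (by linarith) (by linarith) (one_le_pow₀ H1) y0 (p0.trans p1)
    (s2.mono (by linarith) le_rfl) b3 fun k a b c => (d2 k a b c).trans (pow_le_pow_left₀ p0 p1 3)
  rw [← pow_succ'] at s3
  have s4 := P.step (by linarith) h1 (one_le_pow₀ H1) (p0.trans p1) Z0.le s3 b4
    fun k a b c => (d2 k a b (by linarith)).trans (pow_le_pow_left₀ p0 p2 3)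
  rw [← pow_succ'] at s4
  exact ⟨s2.mono (by linarith) le_rfl, s4.mono (by linarith) (le_of_eq (by ring))⟩

end PS

end Crest.Agent.T156.Alt.Tt46

end
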