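import Crest.Agent.T156.TermT_46
import Crest.Agent.T156.TermG_92

/-!
# Row 156, SR, terminal statement: the head `HVt` (helper46)
-/

set_option autoImplicit false

noncomputable section

namespace Crest.Agent.T156.Alt.Tm92

theorem hVt46 : HVt := fun _ _ _ _ _ _ _ _ _ _ _ Z _ _ T _ _ I h hX =>
  have p := Tt46.vt Z T h (Z.X.cl.n1.trans I.m1) hX Z.rev'
  ⟨p.1, p.2.ap2 (by
    have := (mul_pos Z.Q0 (r_pos Z T)).trans_le T.a3
    linarith)⟩

end Crest.Agent.T156.Alt.Tm92

end
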