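import Crest.Agent.T156.TermD_71
import Crest.Agent.T156.SRDef2_19

/-!
Row 156 (helper71): the context of the terminal range, its numbers and the cost of the residual of
the auxiliary model.
-/

set_option autoImplicit false
set_option linter.unusedSectionVars false
set_option linter.unusedVariables false

noncomputable section

namespace Crest.Agent.T156.Alt.Tm71

open Real Finset Filter Pre29 Sr
open Crest.Agent.T156.Alt.L69 (mf cr GS GP Pla cB Ap)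
open Crest.Agent.T156.Alt.Sr.C71 (dx_nn)

/-- the context of `Term K` -/
structure Tx (K : ℕ) (E : ℝ) (S : Sc) (M : Md) (l lm Ys Y : ℝ) (c : ℕ → ℝ) (D u : ℝ) (F : ℕ → ℝ) :
    Prop where
  X : M29.Cx E S M l Ys Y
  sx : SX K E S M l lm Ys Y
  K3 : 300 ≤ K
  ax : Ax E S M Y c
  D1 : 2 * E ^ 10 * nuY K E S Y ≤ D
  D2 : D ≤ 3 * E ^ 10 * nuY K E S Y
  u1 : E ^ 8 * nuY K E S Y ≤ u
  u2 : u ≤ 1 / E
  ud : u ≤ M.d 0
  k0 : K0 E S M Y c (min u D) F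

namespace Tx

variable {K : ℕ} {E : ℝ} {S : Sc} {M : Md} {l lm Ys Y : ℝ} {c : ℕ → ℝ} {D u : ℝ} {F : ℕ → ℝ}
  (Z : Tx K E S M l lm Ys Y c D u F)

/-- the scale and the model -/
def S' (_ : Tx K E S M l lm Ys Y c D u F) : Sc := scU E (8 * S.C) S M Y D u
def N (_ : Tx K E S M l lm Ys Y c D u F) : Md := Gu71.sh M u (M29.Cx.Ft S M u (min u D) F)
/-- the unit of cost at the level `t` -/
def σ (_ : Tx K E S M l lm Ys Y c D u F) (t : ℝ) : ℝ := Y * (S.ms t + u) / E ^ 25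

include Z

theorem E0 : 0 < E := Z.X.E0
theorem E1 : 1 ≤ E := Z.X.E1
theorem Y0 : 0 < Y := Z.X.Y0
theorem EQ {i : ℕ} (h : i ≤ 300) : E ^ i ≤ E ^ K := Z.X.Ep (h.trans Z.K3)
theorem Q1 : 1 ≤ E ^ K := one_le_pow₀ Z.E1
theorem Q0 : 0 < E ^ K := pow_pos Z.E0 K
theorem Qp {i j : ℕ} (h : i ≤ j) : (E ^ K) ^ i ≤ (E ^ K) ^ j := pow_le_pow_right₀ Z.Q1 h
theorem E_Q : E ≤ E ^ K := Z.X.E_le (by linarith [Z.K3])

theorem big : M29.Cx (E ^ K) S M l Ys (Yd K E Y) :=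
  ⟨Z.X.cl, Z.sx.big, Z.X.A2, Z.X.n3, Z.X.CE.trans Z.E_Q, Z.X.lgE.trans Z.E_Q, Z.X.Clg⟩

theorem Yd0 : 0 < Yd K E Y := Z.big.Y0

theorem QY : (E ^ K) ^ 20 * Yd K E Y ≤ Y := by
  have := Z.K3
  rw [Yd, ← pow_mul, ← mul_div_assoc, div_le_iff₀ (pow_pos Z.E0 _), mul_comm]
  exact mul_le_mul_of_nonneg_left (Z.X.Ep (by nlinarith)) Z.Y0.le

theorem QY' {i : ℕ} (h : i ≤ 20) : (E ^ K) ^ i * Yd K E Y ≤ Y :=
  (mul_le_mul_of_nonneg_right (Z.Qp h) Z.Yd0.le).trans Z.QY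

theorem Y_n : Y ≤ (S.n : ℝ) ^ (-(1 : ℝ) / 10) :=
  (le_mul_of_one_le_left Z.Y0.le (one_le_pow₀ Z.E1)).trans Z.X.sh.Y1

theorem YQ : (E ^ K) ^ 10 * Y ≤ 1 := by
  have k := Z.K3
  have a := pow_le_pow_left₀ Z.Y0.le Z.Y_n 10
  rw [rp_pow, show -(1 : ℝ) / 10 * (10 : ℕ) = -1 by norm_num, rpow_neg_one] at a
  have b : ((E ^ K) ^ 10) ^ 10 ≤ S.n := by
    rw [← pow_mul, ← pow_mul]
    exact (Z.X.Ep (by nlinarith [Nat.mul_le_mul k k])).trans Z.sx.sm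
  refine le_of_pow_le_pow_left₀ (n := 10) (by norm_num) zero_le_one ?_
  rw [mul_pow, one_pow, ← mul_inv_cancel₀ Z.X.cl.N0.ne']
  exact mul_le_mul b a (pow_pos Z.Y0 _).le Z.X.cl.N0.le

theorem W1 : Y ^ ((1 : ℝ) / 3) ≤ 1 :=
  (le_mul_of_one_le_left Z.X.W0.le (one_le_pow₀ Z.E1)).trans Z.X.WE

theorem nu_cube : nu S ^ 3 ≤ Yd K E Y ^ 2 := by
  refine le_trans ?_ (pow_le_pow_left₀ (rp_pos Z.X.cl.n1 _).le Z.sx.big.Y0 2)
  rw [nu, rp_pow, rp_pow]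
  norm_num

theorem νW : E ^ K * nuY K E S Y ≤ (Y ^ ((1 : ℝ) / 3)) ^ 2 := by
  have W3 := Z.X.W3
  have W0 := Z.X.W0
  have W1 := Z.W1
  have Q0 := Z.Q0
  generalize Y ^ ((1 : ℝ) / 3) = W at *
  rw [nuY, mul_max_of_nonneg _ _ Q0.le]
  refine max_le ?_ ?_
  · refine le_of_pow_le_pow_left₀ three_ne_zero (sq_nonneg _) ?_
    have a := pow_le_pow_left₀ (mul_pos (pow_pos Q0 2) Z.Yd0).le (Z.QY' (i := 2) (by norm_num)) 2
    have b := mul_le_mul (Z.Qp (show 3 ≤ 4 by norm_num)) Z.nu_cube (pow_pos Z.X.nu0 _).le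
      (pow_pos Q0 _).le
    calc _ = (E ^ K) ^ 3 * nu S ^ 3 := by ring
      _ ≤ Y ^ 2 := by linarith
      _ = _ := by rw [← W3]; ring
  · rw [mul_div_cancel₀ _ Q0.ne', ← W3]
    exact pow_le_pow_of_le_one W0.le W1 (by norm_num)

theorem ν0 : 0 < nuY K E S Y := Z.X.nu0.trans_le (le_max_left _ _)

theorem ν_u : nuY K E S Y ≤ u := (le_mul_of_one_le_left Z.ν0.le (one_le_pow₀ Z.E1)).trans Z.u1
theorem nu_u : nu S ≤ u := (le_max_left _ _).trans Z.ν_u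
theorem u0 : 0 < u := Z.ν0.trans_le Z.ν_u
theorem u_one : u ≤ 1 := Z.u2.trans (div_le_one_of_le₀ Z.E1 Z.E0.le)
theorem D0 : 0 < D := lt_of_lt_of_le (by have := Z.E0; have := Z.ν0; positivity) Z.D1
theorem w0 : 0 < min u D := lt_min Z.u0 Z.D0

theorem wν : min u D ≤ E ^ 11 * nuY K E S Y :=
  ((min_le_right _ _).trans Z.D2).trans (mul_le_mul_of_nonneg_right
    (by rw [pow_succ' E 10]; exact mul_le_mul_of_nonneg_right (by linarith [Z.X.E3])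
          (pow_pos Z.E0 _).le) Z.ν0.le)

/-- `E^i w ≤ W²` -/
theorem wW {i : ℕ} (h : i ≤ 289) : E ^ i * min u D ≤ (Y ^ ((1 : ℝ) / 3)) ^ 2 := by
  refine (mul_le_mul_of_nonneg_left Z.wν (pow_pos Z.E0 i).le).trans (le_trans ?_ Z.νW)
  rw [← mul_assoc, ← pow_add]
  exact mul_le_mul_of_nonneg_right (Z.EQ (by omega)) Z.ν0.le

theorem dr : Dr E S D := by
  refine ⟨le_trans (mul_le_mul_of_nonneg_left (le_max_left _ _)
    (by have := Z.E0; positivity)) Z.D1, ?_⟩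
  have a : E ^ 100 * D ≤ E ^ K * nuY K E S Y := by
    refine (mul_le_mul_of_nonneg_left Z.D2 (pow_pos Z.E0 100).le).trans ?_
    rw [← mul_assoc]
    refine mul_le_mul_of_nonneg_right (le_trans ?_ (Z.EQ (i := 111) (by norm_num))) Z.ν0.le
    linarith [mul_le_mul_of_nonneg_right (show 3 ≤ E by linarith [Z.X.E3]) (pow_pos Z.E0 110).le]
  refine (a.trans Z.νW).trans (le_of_pow_le_pow_left₀ three_ne_zero (rp_pos Z.X.cl.n1 _).le ?_)
  rw [← pow_mul, mul_comm 2 3, pow_mul, Z.X.W3]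
  refine (pow_le_pow_left₀ Z.Y0.le Z.Y_n 2).trans ?_
  rw [rp_pow, rp_pow]
  exact rp_le Z.X.cl.n1 (by norm_num)

theorem cl' : Cl Z.S' Z.N := Z.X.mem Z.ax Z.dr Z.u0.le Z.ud Z.u2 Z.k0

theorem sjl1 : M.s S.jl ≤ 1 := Z.X.sjl_le.trans Z.W1

theorem ml' {t : ℝ} (ht : M.s S.jl ≤ t) : (E ^ K) ^ 60 * S.ms t ≤ t ^ 2 := by
  rw [← pow_mul, mul_comm K]
  exact Z.sx.ml t ht

theorem Eθ : E * S.θ ≤ 1 := by
  have := Z.ml' Z.sjl1
  rw [one_pow] at this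
  exact (mul_le_mul_of_nonneg_right (Z.E_Q.trans (le_self_pow₀ Z.Q1 (by norm_num)))
    Z.X.cl.θ0.le).trans this

theorem Cθ' : Z.S'.C * Z.S'.θ ≤ 1 / 2 := by
  change 8 * S.C * (S.θ + u) ≤ 1 / 2
  have a := (le_div_iff₀' Z.E0).1 Z.u2
  linarith [Z.Eθ, mul_le_mul_of_nonneg_right Z.X.CE1 (add_pos Z.X.cl.θ0 Z.u0).le]

theorem mf_eq (t : ℝ) : mf Z.S' t = (S.ms t + u) / E ^ 9 := rfl

theorem T_mf (t : ℝ) : Y / E ^ 12 * mf Z.S' t = E ^ 4 * Z.σ t := by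
  have := Z.E0
  rw [mf_eq, σ]
  field_simp

theorem mu0 {t : ℝ} (ht : 0 ≤ t) : 0 < S.ms t + u := add_pos (Z.X.cl.ms_pos ht) Z.u0

theorem σ0 {t : ℝ} (ht : 0 ≤ t) : 0 < Z.σ t := div_pos (mul_pos Z.Y0 (Z.mu0 ht)) (pow_pos Z.E0 _)

theorem σ_ge {t : ℝ} (ht : 0 ≤ t) : (E ^ K) ^ 10 * Yd K E Y * (S.ms t + u) ≤ Z.σ t := by
  rw [σ, le_div_iff₀ (pow_pos Z.E0 _)]
  have a : E ^ 25 ≤ (E ^ K) ^ 10 := (Z.EQ (by norm_num)).trans (le_self_pow₀ Z.Q1 (by norm_num))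
  have m := Z.mu0 ht
  have := Z.Yd0
  have := Z.Q0
  calc _ ≤ (E ^ K) ^ 10 * Yd K E Y * (S.ms t + u) * (E ^ K) ^ 10 := by gcongr
    _ = (E ^ K) ^ 20 * Yd K E Y * (S.ms t + u) := by ring
    _ ≤ _ := mul_le_mul_of_nonneg_right Z.QY m.le

theorem σ_ge' {t : ℝ} (ht : 0 ≤ t) {x : ℝ} (hx : x ≤ (E ^ K) ^ 10) :
    x * (Yd K E Y * (S.ms t + u)) ≤ Z.σ t :=
  (mul_le_mul_of_nonneg_right hx (mul_pos Z.Yd0 (Z.mu0 ht)).le).trans
    ((mul_assoc _ _ _).ge.trans (Z.σ_ge ht))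

theorem σ_u {t : ℝ} (ht : 0 ≤ t) : min u D * Y / E ^ 25 ≤ Z.σ t :=
  div_le_div_of_nonneg_right ((mul_comm _ _).trans_le (mul_le_mul_of_nonneg_left
    ((min_le_left _ _).trans (le_add_of_nonneg_left (Z.X.cl.ms_pos ht).le)) Z.Y0.le))
    (pow_pos Z.E0 _).le

/-! ### the residual -/

/-- mass part of the residual of the member -/
def A1 (_ : Tx K E S M l lm Ys Y c D u F) (t t' : ℝ) : ℝ :=
  ∑ k ∈ Lv M S t t', M.dx k * (M.G k ^ 2 / (S.ms (M.s k) + u))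

theorem A1_loc (t : ℝ) {t' : ℝ} (ht : 0 ≤ t') :
    Z.A1 t t' ≤ E ^ K * (Yd K E Y * (S.ms t' + u)) := by
  have H := Z.X.cl
  have m := Z.mu0 ht
  have a := mul_le_mul_of_nonneg_left ((le_sq H _ (T := Lv M S t t') fun k hk =>
    ⟨(mem_Lv.1 hk).1.1, (mem_Lv.1 hk).1.2.le.trans H.i3⟩).trans Z.sx.big.G2) m.le
  refine le_trans ?_ (a.trans_eq (by ring))
  rw [mul_sum]
  refine sum_le_sum fun k hk => ?_
  rw [mul_left_comm]
  refine mul_le_mul_of_nonneg_left ?_ (dx_nn H k)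
  have p := add_pos (H.ms_pos (H.s_nn k)) Z.X.nu0
  have q := Z.mu0 (H.s_nn k)
  have b1 : S.ms (M.s k) + nu S ≤ S.ms (M.s k) + u := add_le_add le_rfl Z.nu_u
  have b2 : S.ms (M.s k) + nu S ≤ S.ms t' + u := add_le_add (H.msm (mem_Lv.1 hk).2.2) Z.nu_u
  have e : M.G k ^ 2 = (S.ms (M.s k) + nu S) * (M.G k / (S.ms (M.s k) + nu S)) ^ 2 *
      (S.ms (M.s k) + nu S) := by field_simp
  rw [div_le_iff₀ q, e]
  gcongr

theorem θ_top {k : ℕ} (h : S.jl < k) (h' : k < S.J) (hz : 1 / (2 * S.C) < M.z k) :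
    S.θ ≤ E * S.ms (M.s k) := by
  have H := Z.X.cl
  have C0 := H.C0
  have C1 := H.C1
  have a := hz.trans_le (H.z_s (H.i1.trans h.le) h').2
  rw [div_lt_iff₀ (by positivity)] at a
  have b : S.C * S.v ≤ Y ^ ((1 : ℝ) / 3) := by
    linarith [Z.X.Cv_le, Z.X.sjl_le, mul_pos C0 H.v0]
  have d : S.C * (S.C * S.v) ≤ S.C ^ 2 * Y ^ ((1 : ℝ) / 3) :=
    mul_le_mul (by nlinarith) b (mul_pos C0 H.v0).le (by positivity)
  have e : 1 ≤ 4 * S.C ^ 2 * M.s k := by linarith [Z.X.W_le]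
  have f := (H.msm e).trans (H.ms_mul (H.s_nn k) (show 1 ≤ 4 * S.C ^ 2 by nlinarith))
  refine f.trans (mul_le_mul_of_nonneg_right ?_ (H.ms_pos (H.s_nn k)).le)
  linarith [Z.X.CE, pow_pos C0 4]

theorem g2_nn : 0 ≤ S.g2 :=
  (sum_nonneg fun k _ => term_nn Z.X.cl M.G k).trans Z.X.cl.Gtp

theorem A1_θ (t t' : ℝ) : S.θ * Z.A1 t t' ≤ 2 * E ^ K * S.g2 := by
  classical
  have H := Z.X.cl
  have g0 := Z.g2_nn
  have Q0 := Z.Q0
  have k1 : ∀ k ∈ Lv M S t t', S.θ * (M.dx k * (M.G k ^ 2 / (S.ms (M.s k) + u))) ≤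
      E ^ K * S.g2 * M.dx k +
        E ^ K * if 1 / (2 * S.C) < M.z k then M.dx k * M.G k ^ 2 else 0 := fun k hk => by
    obtain ⟨⟨a1, a2⟩, -⟩ := mem_Lv.1 hk
    have d0 := dx_nn H k
    have m0 := H.ms_pos (H.s_nn k)
    have b0 : M.G k ^ 2 / (S.ms (M.s k) + u) ≤ M.G k ^ 2 / S.ms (M.s k) :=
      div_le_div_of_nonneg_left (sq_nonneg _) m0 (le_add_of_nonneg_right Z.u0.le)
    have b1 := mul_le_mul_of_nonneg_left b0 H.θ0.le
    rw [← mul_div_assoc S.θ _ (S.ms (M.s k))] at b1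
    rw [mul_left_comm]
    split_ifs with e
    · have b2 : S.θ * M.G k ^ 2 / S.ms (M.s k) ≤ E ^ K * M.G k ^ 2 := by
        rw [div_le_iff₀ m0]
        linarith [mul_le_mul_of_nonneg_right ((Z.θ_top a1 a2 e).trans
          (mul_le_mul_of_nonneg_right Z.E_Q m0.le)) (sq_nonneg (M.G k))]
      linarith [mul_le_mul_of_nonneg_left (b1.trans b2) d0, mul_nonneg (mul_nonneg Q0.le g0) d0]
    · have b2 : S.θ * M.G k ^ 2 / S.ms (M.s k) ≤ E ^ K * S.g2 := by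
        rw [div_le_iff₀ m0]
        have c1 := pow_le_pow_left₀ (abs_nonneg _) (H.Gmi k a1.le (not_lt.1 e)) 2
        rw [sq_abs] at c1
        linarith [mul_le_mul_of_nonneg_left c1 H.θ0.le,
          Z.sx.gm _ (H.s_lt a1 H.jl_lt) (H.s_le_C (a2.le.trans H.i3))]
      linarith [mul_le_mul_of_nonneg_left (b1.trans b2) d0]
  rw [A1, mul_sum]
  refine (sum_le_sum k1).trans ?_
  rw [sum_add_distrib, ← mul_sum, ← mul_sum, ← sum_filter]
  have b1 := wt_one H (Lv M S t t') fun k hk => Nat.zero_lt_of_lt (mem_Lv.1 hk).1.1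
  have b2 : ∑ k ∈ (Lv M S t t').filter fun k => 1 / (2 * S.C) < M.z k, M.dx k * M.G k ^ 2 ≤ S.g2 :=
    le_trans (sum_le_sum_of_subset_of_nonneg (fun k hk => by
      obtain ⟨a, b⟩ := mem_filter.1 hk
      have := (mem_Lv.1 a).1
      have := H.i3
      exact mem_filter.2 ⟨mem_Icc.2 ⟨by omega, by omega⟩, b⟩) fun k _ _ => term_nn H M.G k) H.Gtp
  linarith [mul_le_mul_of_nonneg_left b1 (mul_nonneg Q0.le g0), mul_le_mul_of_nonneg_left b2 Q0.le]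

/-- the global mass part, weighted by the level -/
theorem A1_glob (r r' : ℝ) {t : ℝ} (h0 : 0 ≤ t) (h1 : t ≤ 1) :
    t * Z.A1 r r' ≤ 2 * (E ^ K) ^ 2 * (Yd K E Y * (S.ms t + u)) := by
  have H := Z.X.cl
  have Q0 := Z.Q0
  have θ0 := H.θ0
  have y0 := Z.Yd0
  have a : t * S.g2 ≤ E ^ K * S.θ * (Yd K E Y * (S.ms t + u)) := by
    rcases le_total Ys t with e | e
    · refine (Z.sx.g3 t e (h1.trans H.C1)).trans ?_
      linarith [mul_pos (mul_pos Q0 θ0) (mul_pos y0 Z.u0)]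
    · have b1 : t * nu S ≤ Yd K E Y :=
        (mul_le_mul_of_nonneg_right (le_min e h1) Z.X.nu0.le).trans Z.sx.big.Y2
      have b2 := mul_le_mul b1 (Z.nu_u.trans (le_add_of_nonneg_left (H.ms_pos h0).le)) Z.X.nu0.le
        y0.le
      linarith [mul_le_mul_of_nonneg_left Z.sx.g5 h0,
        mul_le_mul_of_nonneg_left b2 (mul_pos Q0 θ0).le]
  refine le_of_mul_le_mul_left ?_ θ0
  linarith [mul_le_mul_of_nonneg_left (Z.A1_θ r r') h0,
    mul_le_mul_of_nonneg_left a (show 0 ≤ 2 * E ^ K by positivity)]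

/-- the two parts of the residual of the auxiliary model -/
def gx (_ : Tx K E S M l lm Ys Y c D u F) (k : ℕ) : ℝ :=
  M.G k + (u - min u D) * (M.ct S k - M.q k)
def gy (_ : Tx K E S M l lm Ys Y c D u F) (k : ℕ) : ℝ := F k - min u D * M.q k

theorem G_eq (k : ℕ) : Z.N.G k = Z.gx k + Z.gy k := by
  rw [N, M29.Cx.G_eq, gx, gy]
  ring

theorem gx_sq {k : ℕ} (h : S.jl < k) (h' : k ≤ S.Jp) :
    Z.gx k ^ 2 ≤ 2 * M.G k ^ 2 + 2 * (u ^ 2 * (M.ck k - M.q k) ^ 2) := by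
  rw [gx, M29.ct_mid Z.X.cl h h']
  have a := mul_le_mul_of_nonneg_right (pow_le_pow_left₀ (sub_nonneg.2 (min_le_left u D))
    (sub_le_self u Z.w0.le) 2) (sq_nonneg (M.ck k - M.q k))
  nlinarith [sq_nonneg (M.G k - (u - min u D) * (M.ck k - M.q k))]

theorem A_le (t t' : ℝ) : ∑ k ∈ Lv Z.N Z.S' t t', Z.N.dx k * (Z.gx k ^ 2 / mf Z.S' (Z.N.s k)) ≤
    2 * E ^ 9 * (Z.A1 t t' + u * Yd K E Y) := by
  have H := Z.X.cl
  have E0 := Z.E0
  have u0 := Z.u0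
  have a := mul_le_mul_of_nonneg_left ((le_sq H _ (T := Lv M S t t') fun k hk =>
    ⟨(mem_Lv.1 hk).1.1, (mem_Lv.1 hk).1.2.le.trans H.i3⟩).trans Z.sx.big.ck) u0.le
  refine le_trans ?_ (mul_le_mul_of_nonneg_left (add_le_add le_rfl a) (by positivity))
  rw [A1, mul_sum, ← sum_add_distrib, mul_sum]
  refine sum_le_sum (s := Lv M S t t') fun k hk => ?_
  change M.dx k * (Z.gx k ^ 2 / ((S.ms (M.s k) + u) / E ^ 9)) ≤ _
  have m := Z.mu0 (H.s_nn k)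
  have b1 := div_le_div_of_nonneg_right
    (Z.gx_sq (mem_Lv.1 hk).1.1 ((mem_Lv.1 hk).1.2.le.trans H.i3)) m.le
  have b2 : u ^ 2 * (M.ck k - M.q k) ^ 2 / (S.ms (M.s k) + u) ≤ u * (M.ck k - M.q k) ^ 2 := by
    rw [div_le_iff₀ m]
    linarith [mul_nonneg (mul_nonneg u0.le (sq_nonneg (M.ck k - M.q k))) (H.ms_pos (H.s_nn k)).le]
  rw [add_div, mul_div_assoc, mul_div_assoc] at b1
  have b3 := mul_le_mul_of_nonneg_left (b1.trans (add_le_add le_rfl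
    (mul_le_mul_of_nonneg_left b2 zero_le_two))) (mul_nonneg (dx_nn H k) (pow_pos E0 9).le)
  rw [div_div_eq_mul_div, mul_div_right_comm]
  linarith

/-- **the cost of the residual** -/
theorem cG_bd (t : ℝ) {t' : ℝ} (h : t' ≤ 8 * S.C) :
    cG Z.N Z.S' t t' ≤ 8 * E ^ 9 * Z.A1 t t' + 67 * Z.σ 0 := by
  have H := Z.X.cl
  have E0 := Z.E0
  have C0 := H.C0
  have Q0 := Z.Q0
  have y0 := Z.Y0
  have w0 := Z.w0
  have n0 := Z.X.nu0
  have p := Z.σ_u le_rfl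
  have E3 := Z.X.E3
  have wν := Z.wν
  have vs : S.v ≤ M.s S.jl := by linarith [Z.X.Cv_le, le_mul_of_one_le_left H.v0.le H.C1, H.v0]
  have main : ∀ r, 0 ≤ r → nuY K E S Y * (8 * S.C * (r + 2 * S.v)) ≤ E * (Y / E ^ K) →
      (t' ≤ r ∨ E ^ K * nuY K E S Y ≤ S.ms r) →
      cG Z.N Z.S' t t' ≤ 8 * E ^ 9 * Z.A1 t t' + 67 * Z.σ 0 := fun r r0 r1 r2 => by
    have a := cG_le Z.cl' (x := Z.gx) (y := Z.gy) (t := t) (t' := t') r0
      (show 0 < E ^ 125 * min u D by positivity) (fun k _ => Z.G_eq k) (Z.A_le t t') Z.k0.res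
    have b0 : 8 * E ^ 9 * (Yd K E Y * (S.ms 0 + u)) ≤ Z.σ 0 := Z.σ_ge' le_rfl (le_trans (by
      linarith [mul_le_mul_of_nonneg_right (show 8 ≤ E by linarith) (pow_pos E0 9).le])
      ((Z.EQ (i := 10) (by norm_num)).trans (le_self_pow₀ Z.Q1 (by norm_num))))
    have b0' := mul_pos (mul_pos (pow_pos E0 9) Z.Yd0) (H.ms_pos le_rfl)
    have b1 : (E ^ 125 * min u D) ^ 2 * (Z.S'.C * (r + 2 * Z.S'.v)) ≤ min u D * Y / E ^ 25 := by
      change _ * (8 * S.C * (r + 2 * S.v)) ≤ _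
      have v0 := H.v0
      have c1 : E ^ 287 ≤ E ^ K := Z.EQ (by norm_num)
      calc _ = E ^ 250 * min u D * (min u D * (8 * S.C * (r + 2 * S.v))) := by ring
        _ ≤ E ^ 250 * min u D * (E ^ 11 * nuY K E S Y * (8 * S.C * (r + 2 * S.v))) := by gcongr
        _ = E ^ 261 * min u D * (nuY K E S Y * (8 * S.C * (r + 2 * S.v))) := by ring
        _ ≤ E ^ 261 * min u D * (E * (Y / E ^ 287)) :=
          mul_le_mul_of_nonneg_left (r1.trans (by gcongr)) (by positivity)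
        _ = _ := by field_simp
    have b2 : 16 * min u D ^ 2 * (E ^ 100 * Y) / (E ^ 125 * min u D) =
        16 * (min u D * Y / E ^ 25) := by field_simp
    have b3 : (if t' ≤ r then 0 else 2 * (16 * min u D ^ 2 * (E ^ 100 * Y) / mf Z.S' r)) ≤
        min u D * Y / E ^ 25 := by
      split_ifs with e
      · positivity
      have c0 := r2.resolve_left e
      have m := Z.mu0 r0
      have ν0 := Z.ν0
      have c1 : E ^ 146 * nuY K E S Y ≤ S.ms r + u := by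
        linarith [mul_le_mul_of_nonneg_right (Z.EQ (i := 146) (by norm_num)) ν0.le, Z.u0]
      rw [Z.mf_eq, ← mul_div_assoc, div_div_eq_mul_div, div_le_div_iff₀ m (by positivity)]
      calc _ = 32 * min u D * (E ^ 134 * (min u D * Y)) := by ring
        _ ≤ E * (E ^ 11 * nuY K E S Y) * (E ^ 134 * (min u D * Y)) := by gcongr; linarith
        _ = min u D * Y * (E ^ 146 * nuY K E S Y) := by ring
        _ ≤ _ := by gcongr
    rw [b2] at a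
    linarith
  rcases le_or_gt (nu S) (Y / E ^ K) with e | e
  · refine main (8 * S.C) (by positivity) ?_ (.inl h)
    rw [nuY, max_eq_right e, mul_comm]
    refine mul_le_mul_of_nonneg_right ?_ (by positivity)
    have : S.v ≤ S.C := (vs.trans Z.sjl1).trans H.C1
    linarith [Z.X.CE2, mul_le_mul_of_nonneg_left this C0.le, pow_pos C0 2]
  · have d : Yd K E Y ≤ Y / E ^ K := by
      rw [le_div_iff₀' Q0]
      simpa using Z.QY' (i := 1) (by norm_num)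
    have y2 := Z.sx.big.Y2
    have Y1 : Ys ≤ 1 := by
      by_contra hc
      rw [min_eq_right (not_le.1 hc).le, one_mul] at y2
      linarith
    rw [min_eq_left Y1] at y2
    have vY := vs.trans Z.sx.big.lY
    refine main Ys (H.v0.le.trans vY) ?_ (.inr ?_)
    · rw [nuY, max_eq_left e.le]
      have f : nu S * (Ys + 2 * S.v) ≤ 3 * (Y / E ^ K) := by
        linarith [mul_le_mul_of_nonneg_left vY n0.le]
      have g := mul_le_mul_of_nonneg_left f (show 0 ≤ 8 * S.C by positivity)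
      linarith [mul_le_mul_of_nonneg_right Z.X.CE1 (div_pos y0 Q0).le, mul_pos C0 (div_pos y0 Q0)]
    · rw [nuY, max_eq_left e.le]
      exact (mul_le_mul_of_nonneg_right (le_self_pow₀ Z.Q1 (by norm_num)) n0.le).trans
        (Z.sx.big.star Ys le_rfl (Y1.trans H.C1))

theorem σ_mono : Monotone Z.σ := fun _ _ h => div_le_div_of_nonneg_right
  (mul_le_mul_of_nonneg_left (add_le_add (Z.X.cl.msm h) le_rfl) Z.Y0.le) (pow_pos Z.E0 _).le

theorem c_Q {x : ℝ} (hx : x ≤ 1000) {i : ℕ} (hi : i ≤ 9) : x * E ^ 9 * (E ^ K) ^ i ≤ (E ^ K) ^ 10 := by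
  have a : x * E ^ 9 ≤ E ^ K := le_trans (by
    linarith [mul_le_mul_of_nonneg_right (hx.trans Z.X.E3) (pow_pos Z.E0 9).le])
    (Z.EQ (i := 10) (by norm_num))
  exact (mul_le_mul a (Z.Qp hi) (pow_pos Z.Q0 _).le Z.Q0.le).trans_eq (by ring)

/-- local cost -/
theorem cG_loc (r : ℝ) {t : ℝ} (h0 : 0 ≤ t) (h1 : t ≤ 1) : cG Z.N Z.S' r (4 * t) ≤ 68 * Z.σ t := by
  have H := Z.X.cl
  have a := Z.cG_bd r (t' := 4 * t) (by linarith [H.C1])
  have b := Z.A1_loc r (t' := 4 * t) (by linarith)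
  have d : S.ms (4 * t) + u ≤ 16 * (S.ms t + u) := by
    have := H.ms_pow h0 2
    norm_num at this
    linarith [Z.u0]
  have e := Z.σ_ge' h0 (Z.c_Q (x := 128) (by norm_num) (i := 1) (by norm_num))
  have f := mul_le_mul_of_nonneg_left (b.trans (mul_le_mul_of_nonneg_left
    (mul_le_mul_of_nonneg_left d Z.Yd0.le) Z.Q0.le)) (pow_pos Z.E0 9).le
  linarith [Z.σ_mono h0]

/-- global cost weighted by the level -/
theorem cG_glob (r : ℝ) {t : ℝ} (h0 : 0 ≤ t) (h1 : t ≤ 1) :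
    t * cG Z.N Z.S' r Z.S'.C ≤ 68 * Z.σ t := by
  have a := mul_le_mul_of_nonneg_left (Z.cG_bd r (t' := Z.S'.C) le_rfl) h0
  have e := Z.σ_ge' h0 (Z.c_Q (x := 16) (by norm_num) (i := 2) (by norm_num))
  have f := mul_le_mul_of_nonneg_left (Z.A1_glob r Z.S'.C h0 h1) (pow_pos Z.E0 9).le
  linarith [Z.σ_mono h0, mul_le_mul_of_nonneg_right h1 (Z.σ0 le_rfl).le]

/-- global cost at the top levels, or for a large deposit -/
theorem cG_top (r : ℝ) {t x : ℝ} (h0 : 0 ≤ t) (x0 : 0 ≤ x) (hx : x ≤ E ^ K)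
    (h : 1 ≤ 2 * x * t ∨ 1 ≤ x ^ 6 * u) : cG Z.N Z.S' r Z.S'.C ≤ 68 * Z.σ t := by
  have H := Z.X.cl
  have Q0 := Z.Q0
  have a := Z.cG_bd r (t' := Z.S'.C) le_rfl
  have A0 : 0 ≤ Z.A1 r Z.S'.C := sum_nonneg fun k _ =>
    mul_nonneg (dx_nn H k) (div_nonneg (sq_nonneg _) (Z.mu0 (H.s_nn k)).le)
  have b : Z.A1 r Z.S'.C ≤ 4 * (E ^ K) ^ 8 * (Yd K E Y * (S.ms t + u)) := by
    have p := mul_pos Z.Yd0 (Z.mu0 h0)
    rcases h with h | h
    · have b1 := Z.A1_glob r Z.S'.C (le_min h0 zero_le_one) (min_le_right t 1)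
      have b2 : 1 ≤ 2 * E ^ K * min t 1 := by
        rw [mul_min_of_nonneg _ _ (by positivity)]
        exact le_min (h.trans (by gcongr)) (by linarith [Z.Q1])
      have b3 : S.ms (min t 1) + u ≤ S.ms t + u := add_le_add (H.msm (min_le_left _ _)) le_rfl
      have y0 := Z.Yd0
      have b4 := mul_le_mul_of_nonneg_left (b1.trans (by gcongr : _ ≤ 2 * (E ^ K) ^ 2 *
        (Yd K E Y * (S.ms t + u)))) (show 0 ≤ 2 * E ^ K by positivity)
      linarith [mul_le_mul_of_nonneg_right b2 A0,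
        mul_le_mul_of_nonneg_right (Z.Qp (show 3 ≤ 8 by norm_num)) p.le]
    · have b1 := Z.A1_glob r Z.S'.C zero_le_one le_rfl
      have b2 : S.ms 1 + u ≤ 2 * ((E ^ K) ^ 6 * (S.ms t + u)) := by
        have : S.θ ≤ 1 := (le_mul_of_one_le_left H.θ0.le Z.E1).trans Z.Eθ
        have : x ^ 6 * u ≤ (E ^ K) ^ 6 * (S.ms t + u) := by
          have := Z.u0
          gcongr
          linarith [H.ms_pos h0]
        change S.θ + u ≤ _
        linarith [Z.u_one]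
      linarith [mul_le_mul_of_nonneg_left (mul_le_mul_of_nonneg_left b2 Z.Yd0.le) (pow_pos Q0 2).le]
  have e := Z.σ_ge' h0 (Z.c_Q (x := 32) (by norm_num) (i := 8) (by norm_num))
  linarith [Z.σ_mono h0, mul_le_mul_of_nonneg_left b (pow_pos Z.E0 9).le]

theorem Yd_T {x : ℝ} (hx : x ≤ (E ^ K) ^ 10) : x * Yd K E Y ≤ Y / E ^ 12 := by
  rw [le_div_iff₀ (pow_pos Z.E0 _)]
  have a : E ^ 12 ≤ (E ^ K) ^ 10 := (Z.EQ (by norm_num)).trans (le_self_pow₀ Z.Q1 (by norm_num))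
  have := Z.Yd0
  have := Z.Q0
  have := Z.E0
  calc _ ≤ (E ^ K) ^ 10 * Yd K E Y * (E ^ K) ^ 10 := by gcongr
    _ = (E ^ K) ^ 20 * Yd K E Y := by ring
    _ ≤ _ := Z.QY

theorem Yd_T1 : Yd K E Y ≤ Y / E ^ 12 := by simpa using Z.Yd_T (one_le_pow₀ Z.Q1)

/-- the residual in `L²` -/
theorem sqG : Z.N.sq Z.S' Z.N.G ≤ Y / E ^ 12 := by
  have H := Z.X.cl
  have E0 := Z.E0
  have y0 := Z.Yd0
  have w0 := Z.w0
  have a : Z.N.sq Z.S' Z.N.G ≤ 4 * M.sq S M.G + 4 * (u ^ 2 * M.sq S fun k => M.ck k - M.q k) +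
      2 * M.sq S Z.gy := by
    simp only [Md.sq, mul_sum, ← sum_add_distrib]
    refine sum_le_sum (s := Ioc S.jl S.Jp) fun k hk => ?_
    have b := Z.gx_sq (mem_Ioc.1 hk).1 (mem_Ioc.1 hk).2
    have d : Z.N.G k ^ 2 ≤ 2 * Z.gx k ^ 2 + 2 * Z.gy k ^ 2 := by
      rw [Z.G_eq]
      nlinarith [sq_nonneg (Z.gx k - Z.gy k)]
    change M.dx k * _ ≤ _
    linarith [mul_le_mul_of_nonneg_left d (dx_nn H k), mul_le_mul_of_nonneg_left b (dx_nn H k)]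
  have θ1 : S.θ ≤ 1 := (le_mul_of_one_le_left H.θ0.le Z.E1).trans Z.Eθ
  have b1 : (S.θ + nu S) ^ 2 ≤ 2 ^ 2 := pow_le_pow_left₀ (add_pos H.θ0 Z.X.nu0).le
    (by linarith [Z.nu_u, Z.u_one]) 2
  have b2 := Z.big.sq_G.trans (mul_le_mul_of_nonneg_right
    (mul_le_mul_of_nonneg_left b1 Z.Q0.le) y0.le)
  have b3 := mul_le_mul (pow_le_one₀ (n := 2) Z.u0.le Z.u_one) Z.sx.big.ck (sq_nn H _) zero_le_one
  have b4 := Z.Yd_T (x := 40 * E ^ K) (le_trans (by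
    linarith [mul_le_mul (one_le_pow₀ (n := 9) Z.E1) (le_refl (E ^ K)) Z.Q0.le (pow_pos E0 9).le])
    (Z.c_Q (x := 40) (by norm_num) (i := 1) (by norm_num)))
  have b5 : E ^ 60 * min u D ≤ 1 := (Z.wW (by norm_num)).trans (pow_le_one₀ Z.X.W0.le Z.W1)
  have b6 : 64 * (min u D ^ 2 * (E ^ 100 * Y)) ≤ Y / E ^ 12 := by
    rw [le_div_iff₀ (pow_pos E0 _)]
    have c1 := pow_le_one₀ (n := 2) (by positivity) b5
    have c2 : 64 ≤ E ^ 8 := le_trans (by linarith [Z.X.E3]) (Z.X.E_le (by norm_num))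
    have := Z.Y0
    calc _ = 64 * (E ^ 112 * min u D ^ 2 * Y) := by ring
      _ ≤ E ^ 8 * (E ^ 112 * min u D ^ 2 * Y) := by gcongr
      _ = (E ^ 60 * min u D) ^ 2 * Y := by ring
      _ ≤ _ := mul_le_of_le_one_left Z.Y0.le c1
  have b7 : M.sq S Z.gy ≤ _ := Z.k0.res
  linarith [mul_le_mul_of_nonneg_right Z.Q1 y0.le]

/-- the sup bound of the residual at the level `t` -/
def g (_ : Tx K E S M l lm Ys Y c D u F) (t : ℝ) : ℝ :=
  √(64 * t * S.ms t * Yd K E Y) + E ^ 37 * min u D * Y ^ ((1 : ℝ) / 3)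

theorem g_bd {t : ℝ} (h0 : l ≤ t) (h0' : M.s S.jl < t) (h1 : E * t ≤ 1) (k : ℕ) (a : t ≤ Z.N.s k)
    (b : Z.N.s k ≤ 4 * t) : |Z.N.G k| ≤ Z.g t := by
  have H := Z.X.cl
  have C0 := H.C0
  have C1 := H.C1
  have v0 := H.v0
  change t ≤ M.s k at a
  change M.s k ≤ 4 * t at b
  have t0 := (H.s_nn _).trans_lt h0'
  have kl : S.jl ≤ k := by
    by_contra hc
    linarith [H.sm (not_le.1 hc).le]
  have vt : S.C * S.v ≤ t := by linarith [Z.X.Cv_le, mul_pos C0 v0]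
  have vt' : S.v ≤ t := (le_mul_of_one_le_left v0.le C1).trans vt
  have Ct : 1000 * S.C ^ 2 * t ≤ 1 := (mul_le_mul_of_nonneg_right Z.X.CE2 t0.le).trans h1
  have kJ : k < S.J := by
    by_contra hc
    have i2 := H.i2
    have a1 := H.atom.1.trans (H.z_s (k := S.J - 1) (by have := H.i1; omega) (by omega)).2
    have a2 := H.sm (show S.J - 1 ≤ k by omega)
    rw [div_le_iff₀ C0] at a1
    linarith [mul_le_mul_of_nonneg_left (show M.s (S.J - 1) + 2 * S.v ≤ 6 * t by linarith)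
      (pow_pos C0 2).le]
  have hz : M.z k ≤ 1 / (2 * (8 * S.C)) := by
    refine (H.z_s (H.i1.trans kl) kJ).2.trans ?_
    rw [le_div_iff₀ (by positivity)]
    linarith [mul_le_mul_of_nonneg_left (show M.s k + 2 * S.v ≤ 6 * t by linarith) (pow_pos C0 2).le,
      mul_pos (pow_pos C0 2) t0]
  refine (Z.cl'.Gmi k kl hz).trans ?_
  change max (S.gr (M.s k)) 0 + E ^ 37 * min u D * Y ^ ((1 : ℝ) / 3) +
    (if M.s k ≤ M.s S.jl then u * M.s S.jl else 0) ≤ _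
  rw [if_neg (by linarith), add_zero]
  refine add_le_add (max_le (le_sqrt_of_sq_le ((Z.sx.gs _ (h0.trans a)).trans
    (mul_le_mul_of_nonneg_right ?_ Z.Yd0.le))) (sqrt_nonneg _)) le_rfl
  have m := H.ms_pow t0.le 2
  norm_num at m
  linarith [mul_le_mul b ((H.msm b).trans m) (H.ms_pos (H.s_nn k)).le (by linarith)]

theorem g_sq {t : ℝ} (h0 : 0 < t) : 2 * (Z.g t ^ 2 / t) ≤ Z.σ t + (Y / E ^ 12) ^ 2 / t / 16 := by
  have H := Z.X.cl
  have E0 := Z.E0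
  have m := H.ms_pos h0.le
  have y0 := Z.Yd0
  have W0 := Z.X.W0
  have w0 := Z.w0
  have a : 8 * (E ^ 37 * min u D * Y ^ ((1 : ℝ) / 3)) ≤ Y / E ^ 12 := by
    rw [le_div_iff₀ (pow_pos E0 _)]
    have b := mul_le_mul_of_nonneg_right (Z.wW (i := 50) (by norm_num)) W0.le
    have d := mul_le_mul_of_nonneg_right (show 8 ≤ E by linarith [Z.X.E3])
      (show 0 ≤ E ^ 49 * min u D * Y ^ ((1 : ℝ) / 3) by positivity)
    linarith [Z.X.W3]
  have b := pow_le_pow_left₀ (by positivity) a 2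
  have d : Z.g t ^ 2 ≤ 2 * (64 * t * S.ms t * Yd K E Y) + (Y / E ^ 12) ^ 2 / 32 := by
    have := sq_sqrt (show 0 ≤ 64 * t * S.ms t * Yd K E Y by positivity)
    rw [g]
    nlinarith [sq_nonneg (√(64 * t * S.ms t * Yd K E Y) - E ^ 37 * min u D * Y ^ ((1 : ℝ) / 3))]
  have e := div_le_div_of_nonneg_right d h0.le
  have f : (2 * (64 * t * S.ms t * Yd K E Y) + (Y / E ^ 12) ^ 2 / 32) / t =
      128 * (S.ms t * Yd K E Y) + (Y / E ^ 12) ^ 2 / t / 32 := by field_simp; ring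
  have h := Z.σ_ge' h0.le (x := 256) (le_trans (by
    linarith [one_le_pow₀ (n := 9) Z.E1]) (Z.c_Q (x := 256) (by norm_num) (i := 0) (by norm_num)))
  rw [f] at e
  linarith [mul_pos y0 Z.u0]

end Tx

end Crest.Agent.T156.Alt.Tm71

end
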