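import Crest.Agent.T156.LocG_69

/-!
# Row 156, block (L): the thick pass in normalised form (helper20)

Frame free; `r ^ 2` is the mass, `P` bounds all the constants.
-/

set_option autoImplicit false

namespace Crest.Agent.T156.Rig

open Set Real

/-- a multiple of `|u|` in the error is absorbed in the mass -/
theorem absorb_20 {w μ u e o d D : ℝ} (h : |w - μ * u| ≤ e + o * |u|) (he : 0 ≤ e) (ho : 0 ≤ o)
    (h1 : d + o ≤ μ) (h2 : μ + o ≤ D) : ∃ μ', d ≤ μ' ∧ μ' ≤ D ∧ |w - μ' * u| ≤ e := by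
  rcases eq_or_ne u 0 with rfl | hu
  · exact ⟨μ, by linarith, by linarith, by simpa using h⟩
  have u0 : 0 < |u| := abs_pos.2 hu
  set x := w - μ * u with hx
  have k : |x - max (-e) (min x e)| ≤ o * |u| := by
    have p0 := mul_nonneg ho u0.le
    have := abs_le.1 h
    rcases le_total x e with a | a
    · rw [min_eq_left a]
      rcases le_total (-e) x with b | b
      · rw [max_eq_right b]; simpa using p0
      · rw [max_eq_left b]; exact abs_le.2 ⟨by linarith, by linarith⟩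
    · rw [min_eq_right a, max_eq_right (by linarith)]; exact abs_le.2 ⟨by linarith, by linarith⟩
  have k2 : |(x - max (-e) (min x e)) / u| ≤ o := by rwa [abs_div, div_le_iff₀ u0]
  refine ⟨μ + (x - max (-e) (min x e)) / u, by linarith [(abs_le.1 k2).1],
    by linarith [(abs_le.1 k2).2], ?_⟩
  rw [show w - (μ + (x - max (-e) (min x e)) / u) * u = max (-e) (min x e) by
    rw [hx]; field_simp; ring]
  exact abs_le.2 ⟨le_max_left _ _, max_le (by linarith) (min_le_right _ _)⟩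

namespace Tk

variable {S : Finset ℝ} {a b : ℝ} {W ω ν u : ℝ → ℝ} {gp : ℝ → ℝ → Prop}
  {b₀ b₁ p₀ d D err C₁ δ : ℝ}

/-- **one pass**, normalised: `Z` bounds all the errors -/
theorem one_20 (h : Tk S a b W ω ν u gp b₀ b₁ p₀ d D err C₁ δ) {P r Γ R N Z : ℝ} (P1 : 1 ≤ P)
    (r0 : 0 < r) (hd : r ^ 2 ≤ P * d) (hD : D ≤ P * r ^ 2) (hb1 : b₁ ≤ P) (hC : C₁ ≤ P)
    (hb0 : 1 ≤ b₀ * P) (Γ0 : 0 ≤ Γ) (hΓ : P * Γ ≤ r) (hs : Sh a b gp a b Γ) (N0 : 0 ≤ N)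
    (hR : ∀ t ∈ Icc a b, |u t| ≤ R) (he : 0 ≤ err) (hab : a ≤ b)
    (hZ : P * Γ + δ + p₀ + R * exp (-N) + err / r ^ 2 ≤ Z) :
    (∀ t ∈ Icc (a + N * P * r) (b - N * P * r), |W t| ≤ 5 * P ^ 2 * r ^ 2 * Z) ∧
    (∀ t ∈ Icc (a + N * P * r + Γ) (b - N * P * r), |u t| ≤ 7 * P ^ 3 * Z) ∧
    ∀ t ∈ Icc (a + N * P * r + Γ) (b - N * P * r - r), |ω t| ≤ 18 * P ^ 4 * r * Z := by
  have P0 : 0 < P := by linarith
  have r2 : 0 < r ^ 2 := by positivity
  have d0 := h.d0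
  have D0 : 0 ≤ D := d0.le.trans h.dD
  have R0 : 0 ≤ R := (abs_nonneg _).trans (hR a ⟨le_rfl, hab⟩)
  have δ0 := h.δ0
  have p0 := h.p0
  have b10 := h.b1
  have C0 := h.C0
  have x0 : 0 ≤ R * exp (-N) := by positivity
  have x1 : 0 ≤ err / r ^ 2 := by positivity
  have x2 : 0 ≤ P * Γ := by positivity
  have Z0 : 0 ≤ Z := by linarith
  have e1 : err ≤ r ^ 2 * Z := by
    have : err / r ^ 2 ≤ Z := by linarith
    rwa [div_le_iff₀' r2] at this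
  have PP : P ≤ P ^ 2 := le_self_pow₀ P1 two_ne_zero
  have P2 : 1 ≤ P ^ 2 := P1.trans PP
  have g1 : P ^ 2 * Γ ^ 2 ≤ r ^ 2 := by rw [← mul_pow]; exact pow_le_pow_left₀ x2 hΓ 2
  have g2 : b₁ * Γ ^ 2 ≤ 4 * d := by
    have a1 : P * (b₁ * Γ ^ 2) ≤ P * d := by
      have := mul_le_mul_of_nonneg_right hb1 (mul_nonneg P0.le (sq_nonneg Γ))
      linarith only [this, g1, hd]
    have := le_of_mul_le_mul_left a1 P0
    linarith
  have o1 : C₁ * Γ + δ ≤ Z := by linarith [mul_le_mul_of_nonneg_right hC Γ0]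
  have o0 : 0 ≤ C₁ * Γ + δ := by positivity
  have l0 : 0 ≤ N * P * r := by positivity
  have kl : 1 / (P * r) * (N * P * r) = N := by field_simp
  have k1 : (1 / (P * r)) ^ 2 * D ≤ 2 * b₀ := by
    have a1 : (1 / (P * r)) ^ 2 * (P * r ^ 2) = 1 / P := by field_simp
    have a2 := mul_le_mul_of_nonneg_left hD (sq_nonneg (1 / (P * r)))
    have a3 : 1 / P ≤ b₀ := by rwa [div_le_iff₀ P0]
    linarith [h.b0]
  have k2 : p₀ ≤ (1 / (P * r)) ^ 2 * (P ^ 2 * r ^ 2 * p₀) := le_of_eq (by field_simp)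
  have E : eP b₁ p₀ D err C₁ δ Γ + P ^ 2 * r ^ 2 * p₀ + 2 * (D * R) * exp (-N) ≤
      5 * P ^ 2 * r ^ 2 * Z := by
    have a1 : D * (C₁ * Γ + δ) ≤ P ^ 2 * r ^ 2 * (P * Γ + δ) :=
      mul_le_mul (hD.trans (mul_le_mul_of_nonneg_right PP r2.le))
        (by linarith [mul_le_mul_of_nonneg_right hC Γ0]) o0 (by positivity)
    have a2 : Γ ^ 2 * b₁ ≤ r ^ 2 := by
      have := mul_le_mul_of_nonneg_left (hb1.trans PP) (sq_nonneg Γ)
      linarith
    have a3 : Γ ^ 2 ≤ r ^ 2 := (le_mul_of_one_le_left (sq_nonneg Γ) P2).trans g1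
    have a4 : Γ ^ 2 * b₁ * (C₁ * Γ + δ) ≤ r ^ 2 * Z := mul_le_mul a2 o1 o0 r2.le
    have a5 : Γ ^ 2 * p₀ ≤ r ^ 2 * Z := mul_le_mul a3 (by linarith) p0 r2.le
    have a6 : D * (R * exp (-N)) ≤ P ^ 2 * r ^ 2 * (R * exp (-N)) :=
      mul_le_mul_of_nonneg_right (hD.trans (mul_le_mul_of_nonneg_right PP r2.le)) x0
    have a7 : r ^ 2 * Z ≤ P ^ 2 * r ^ 2 * Z := by
      rw [mul_assoc]; exact le_mul_of_one_le_left (by positivity) P2
    have a8 : P ^ 2 * r ^ 2 * (P * Γ + δ + p₀ + R * exp (-N)) ≤ P ^ 2 * r ^ 2 * Z :=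
      mul_le_mul_of_nonneg_left (by linarith) (by positivity)
    have a9 : P ^ 2 * r ^ 2 * (R * exp (-N)) ≤ P ^ 2 * r ^ 2 * Z :=
      mul_le_mul_of_nonneg_left (by linarith) (by positivity)
    have b1 : 0 ≤ r ^ 2 * Z := by positivity
    have b2 : 0 ≤ Γ ^ 2 * p₀ := by positivity
    unfold eP
    linarith only [a1, a4, a5, a6, a7, a8, a9, e1, b1, b2]
  have c1 := h.abs_W le_rfl le_rfl hs g2 ⟨le_rfl, hab⟩ (hR a ⟨le_rfl, hab⟩)
  have c2 := h.abs_W le_rfl le_rfl hs g2 ⟨hab, le_rfl⟩ (hR b ⟨hab, le_rfl⟩)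
  have q0 : 0 ≤ P ^ 2 * r ^ 2 * p₀ := by positivity
  have w1 : ∀ t ∈ Icc (a + N * P * r) (b - N * P * r), |W t| ≤ 5 * P ^ 2 * r ^ 2 * Z :=
    fun t ht => by
      have := h.pass le_rfl le_rfl hs g2 (by positivity) k1 k2 q0 (mul_nonneg D0 R0) (by linarith)
        (by linarith) l0 ht
      rw [kl] at this
      exact this.trans E
  have s1 : Sh a b gp (a + N * P * r) (b - N * P * r) Γ := fun s s' hg h1 h2 h3 _ _ =>
    hs s s' hg h1 h2 h3 (h2.trans h3) (h1.trans h2)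
  have u1 : ∀ t ∈ Icc (a + N * P * r + Γ) (b - N * P * r), |u t| ≤ 7 * P ^ 3 * Z := fun t ht => by
    refine (h.label (by linarith) (by linarith) Γ0 s1 w1 ht).trans ?_
    have a1 : (5 * P ^ 2 * r ^ 2 * Z + err) / d ≤ 6 * P ^ 3 * Z := by
      rw [div_le_iff₀ d0]
      have a2 : r ^ 2 * Z ≤ P ^ 2 * r ^ 2 * Z := by
        rw [mul_assoc]; exact le_mul_of_one_le_left (by positivity) P2
      have a3 := mul_le_mul_of_nonneg_left hd (by positivity : 0 ≤ 6 * P ^ 2 * Z)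
      linarith only [a2, a3, e1]
    have a4 : Z ≤ P ^ 3 * Z := le_mul_of_one_le_left Z0 (one_le_pow₀ P1)
    linarith
  refine ⟨w1, u1, fun t ht => ?_⟩
  refine (h.slope (a' := a + N * P * r + Γ) (b' := b - N * P * r) (by linarith) (by linarith) r0
    (fun x hx => w1 x ⟨by linarith [hx.1], hx.2⟩) u1 ht).trans ?_
  have a1 : 2 * (5 * P ^ 2 * r ^ 2 * Z) / r = 10 * (P ^ 2 * (r * Z)) := by field_simp; ring
  have rZ : 0 ≤ r * Z := by positivity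
  have a2 : P ^ 2 * (r * Z) ≤ P ^ 4 * (r * Z) :=
    mul_le_mul_of_nonneg_right (pow_le_pow_right₀ P1 (by norm_num)) rZ
  have a3 : b₁ * (P ^ 3 * (r * Z)) ≤ P * (P ^ 3 * (r * Z)) :=
    mul_le_mul_of_nonneg_right hb1 (by positivity)
  have a4 : p₀ * r ≤ Z * r := mul_le_mul_of_nonneg_right (by linarith) r0.le
  have a5 : r * Z ≤ P ^ 4 * (r * Z) := le_mul_of_one_le_left rZ (one_le_pow₀ P1)
  rw [a1]
  linarith only [a2, a3, a4, a5, rZ]

/-- **short gap** inside the zone of small slope -/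
theorem short_20 (h : Tk S a b W ω ν u gp b₀ b₁ p₀ d D err C₁ δ) {s s' Ω e₂ μ₁ : ℝ} (h1 : a ≤ s)
    (h2 : s ≤ s') (h3 : s' ≤ b) (hω : ∀ t ∈ Icc s s', |ω t| ≤ Ω) (hΩ : 2 * Ω ≤ μ₁)
    (hlen : W s' - W s ≤ e₂ - μ₁ * (s' - s)) : μ₁ * (s' - s) ≤ 2 * e₂ := by
  have hp : PC2 S s s' (fun t => W t - (-Ω) * t) (fun t => ω t - (-Ω)) fun t => ν t - 0 :=
    (h.pc.mono h1 h3 (Finset.Subset.refl S)).sub (PC2.of_smooth S s s'
      (fun t => ((hasDerivAt_id' t).const_mul (-Ω)).congr_deriv (mul_one _))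
      fun t => hasDerivAt_const t _)
  have hm := hp.W_le le_rfl h2 le_rfl fun r hr _ => by
    have := (abs_le.1 (hω r ⟨hr.1.le, hr.2.le⟩)).1
    show 0 ≤ ω r - -Ω
    linarith
  have h7 : 0 ≤ (μ₁ - 2 * Ω) * (s' - s) := mul_nonneg (by linarith) (by linarith)
  nlinarith

end Tk

end Crest.Agent.T156.Rig
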