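import Crest.Agent.T156.LInt_31
import Crest.Agent.T156.NdT_51
import Crest.Agent.T156.GsK_95

/-!
# Row 156, block (L): the frame of the bulk read by the lower cuts (helper95)
-/

set_option autoImplicit false

noncomputable section

namespace Crest.Agent.T156.Alt.L63

open Real
open Crest.Agent.T156.Alt.L69 Crest.Agent.T156.Alt.Mp9

/-- the numbers of `Hy` as numbers of `Hx` -/
def pa95 (G1 u1 u2 j γ Lc ηc τ l0 l X Xp Vt Lg Lp X2 X3 G0 : ℝ) (η : ℝ → ℝ) (N : ℝ) : L31.Pa :=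
  ⟨G1, u1, u2, j, γ, Lc, ηc, τ, l0, l, X ^ ((1 : ℝ) / 3), X, Xp, Vt, Vt, Lg, Lp, X2, X3, G0, N, N, η⟩

variable {E L : ℝ} {S : Sc} {M : Md} {m : ℕ} {a G1 u1 u2 j γ Lc ηc τ l0 l X Xp Vt Lg Lp X2 X3 X4
  G0 : ℝ} {η : ℝ → ℝ} {N : ℝ} {g : ℝ → ℝ} {t1 tu ℓ En p0 : ℝ}

namespace Cx

variable (H : Cx E L S M m a G1 u1 u2 j γ Lc ηc τ l0 l X Xp Vt Lg Lp X2 X3 X4 G0 η N g t1 tu ℓ
  En p0)
include H

/-- crude location from the a priori bound -/
theorem cru95 {lam : ℝ} (hl : 3 * S.C ≤ lam) (k : ℕ) :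
    M.rb m a k ≤ lam * L69.cl S (X ^ ((1 : ℝ) / 3)) (max (M.z k) l0) := by
  have h := H.cl
  have C0 := h.C0
  have C1 := h.C1
  have R0 := H.R0
  have z0 := h.z_pos k
  have m1 := le_max_left (M.z k) l0
  have m2 := le_max_right (M.z k) l0
  have a1 : max (M.z k) l0 + X ^ ((1 : ℝ) / 3) ≤ L69.cl S (X ^ ((1 : ℝ) / 3)) (max (M.z k) l0) := by
    have := le_mul_of_one_le_left (z0.le.trans m1) (cr1 S (max (M.z k) l0))
    unfold L69.cl; linarith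
  refine le_trans ?_ (mul_le_mul hl a1 (by positivity) (by linarith))
  have b0 := mul_le_mul_of_nonneg_left m1 C0.le
  have b1 := mul_pos C0 R0
  have b2 := mul_pos C0 z0
  rcases le_total (2 * S.C * M.z k) 1 with c | c
  · have a2 := Sz9.start H.A H.ap.all R0 H.R3.ge
      ((H.dv (by linarith [H.CE]) R0.le H.lt.lX).trans H.l1) c
    have a3 := (h.s_bds h.jl_lt.le).1
    have a4 : (1 : ℝ) ≤ S.jl := by exact_mod_cast h.i0.trans h.i1
    rw [← mul_div_assoc, div_le_iff₀ C0] at a3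
    have a5 : 2 * S.C ^ 2 * M.s S.jl ≤ l0 := H.dv (H.KE 2 (by norm_num)) H.jl0.le H.ln.l0s
    have a6 : S.v ≤ M.s S.jl * S.C := (le_mul_of_one_le_left h.v0.le a4).trans a3
    have a7 : 2 * (S.C * S.v) ≤ max (M.z k) l0 := by
      linarith [mul_le_mul_of_nonneg_left a6 C0.le]
    linarith [mul_le_mul_of_nonneg_left a7 C0.le, le_mul_of_one_le_left R0.le C1]
  · linarith [(rb_mem (M := M) (a := a) H.A.m_pos k).2]

/-- **`Hy` gives `Hx`** -/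
theorem hx95 {lam : ℝ} (hl : 3 * S.C ≤ lam) (hE : lam ^ 1000 ≤ E) :
    L31.Hx E lam S M m a (pa95 G1 u1 u2 j γ Lc ηc τ l0 l X Xp Vt Lg Lp X2 X3 G0 η N) :=
  ⟨H.ce, H.ln, H.lp, H.lp.lc, by rw [H.lt.F1, one_pow]; exact H.E1, H.ap, H.ap.ap2 u2,
    by linarith [H.cl.C1], hE, ((one_mul _).ge.trans (H.dv H.E1 H.R0.le H.lt.lX)).trans
      (le_mul_of_one_le_left H.l0'.le (cr1 S l)), fun k _ => H.cru95 hl k⟩

theorem tJ95 {c : ℝ} (k : ℕ) (hc : c ≤ 10 ^ 9) (hk : k ≤ 13 := by norm_num) :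
    c * S.C ^ k * t1 ≤ tu := H.dv (H.KE k hc hk) H.t10.le H.lt.t1b

/-- the level `t1 / 2` -/
theorem t95 : l ≤ t1 / 2 ∧ 4 * S.C ^ 4 * (t1 / 2) ≤ S.C ∧ 12 * S.C ^ 7 * (t1 / 2) < 1 ∧
    E * (t1 / 2) ≤ S.C := by
  have C0 := H.cl.C0
  have t0 := H.t10
  have tC := H.tuC
  refine ⟨by linarith [H.lt.t1a], by linarith [H.tJ95 (c := 2) 4 (by norm_num)], ?_,
    by linarith [H.lt.t1b, mul_pos (zero_lt_one.trans_le H.E1) t0]⟩
  refine lt_of_mul_lt_mul_left ?_ C0.le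
  linarith [H.tJ95 (c := 12) 8 (by norm_num), mul_pos (pow_pos C0 8) t0]

/-- **the start of the bulk just above the time `x`** -/
theorem nd95 {W : ℝ} {Gn : ℕ → Prop} {V0 v : ℕ}
    (G : L31.Ng E W S M m a (pa95 G1 u1 u2 j γ Lc ηc τ l0 l X Xp Vt Lg Lp X2 X3 G0 η N) Gn V0)
    (W1 : 1 ≤ W) (WE : L * W ≤ E) (V : L31.Ve S M m a Gn V0 v) :
    2 * t1 ≤ sb M m a (v + 1) ∧ ∀ x, 5 / 4 * t1 ≤ x → x ≤ 3 / 2 * t1 → ∃ u,
      L31.Vs M (pa95 G1 u1 u2 j γ Lc ηc τ l0 l X Xp Vt Lg Lp X2 X3 G0 η N) Gn u ∧ u < v ∧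
      t1 ≤ M.s u ∧ M.s u ≤ 2 * t1 ∧ x ≤ sb M m a (u + 1) ∧ E * (sb M m a (u + 1) - x) ≤ 2 * t1 := by
  have h := H.cl
  have C0 := h.C0
  have t0 := H.t10
  have l0' := H.l0'
  have ta := H.lt.t1a
  have tu1 := H.lt.tu1
  have t1u := H.t1u
  have ℓu := H.ℓu
  have E9 := H.E9
  have sm := H.A.sb_mono
  obtain ⟨v1, v2, v3, v4, v5⟩ := V
  have B : G89.NG E W S M m a (2 * S.C) l Lg X2 _ η Gn V0 := max_eq_left H.lt.l2 ▸ G.ng
  refine ⟨by linarith, fun x x1 x2 => ?_⟩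
  obtain ⟨u0, g0, -, -, -, s1, s2⟩ := L31.ng_gs (t := t1) h B (by linarith)
    (((mul_le_mul_of_nonneg_right (H.KL 3 (by norm_num)) (by linarith)).trans WE).trans H.ELg51)
    (by linarith) (by linarith [H.jl_l0, H.ln.l0l])
    (by linarith [H.dv (H.KE (c := 32) 3 (by norm_num)) h.v0.le H.vl51])
    (by linarith [H.tJ95 (c := 2) 2 (by norm_num)])
  have s3 := (H.dsb_cr (k := u0) (by linarith) (by linarith)).2 (by
    rw [le_div_iff₀ (by positivity)]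
    refine le_of_mul_le_mul_left ?_ C0
    have := mul_le_mul_of_nonneg_left s2 (pow_pos C0 3).le
    linarith [H.tJ95 (c := 5) 3 (by norm_num), H.tuC, mul_pos (pow_pos C0 3) t0])
  have uv : u0 ≤ v := by
    by_contra c
    linarith [h.sm (not_le.1 c).le]
  obtain ⟨i, k, ⟨n1, n2, n3, n4, n5, n6⟩, p1, p2⟩ := exists_nx (σ := fun k => sb M m a (k + 1))
    (t := x) uv g0 v1 (by linarith) (by linarith)
  obtain ⟨y, yJ, y1, y2, -⟩ := h.exists_node (t := 2 * t1) (by linarith) (by linarith)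
  have y3 := (h.ss y yJ).2
  have y4 : 1000 * (S.C * S.v) ≤ l := H.Cv.trans H.μ1
  have y5 := (H.dsb_cr (k := y + 1) (by linarith) (by linarith)).1
  have up : ∀ w, sb M m a (w + 1) ≤ 7 / 4 * t1 → M.s w ≤ 2 * t1 := fun w hw => by
    refine le_trans (h.sm ?_) y1
    by_contra c
    linarith [sm (show y + 1 + 1 ≤ w + 1 by omega)]
  have i1 := s1.trans (h.sm n1)
  have i2 := up i (by linarith)
  have sh := B.sh u0 i k ⟨n1, n2, n3.trans v2, n4, n5, n6⟩ (by linarith)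
  have d0 : 0 ≤ G89.ds M m a i k := sub_nonneg.2 (sm (by omega))
  have m0 := (h.ms_pos (show 0 ≤ 2 * t1 by linarith)).le
  have d1 : G89.ds M m a i k ≤ √(S.ms (2 * t1)) := by
    refine le_of_pow_le_pow_left₀ (n := 6) (by norm_num) (sqrt_nonneg _) ?_
    rw [show 6 = 2 * 3 from rfl, pow_mul (√_), sq_sqrt m0]
    refine ((le_mul_of_one_le_left (by positivity) H.E1).trans sh).trans ?_
    rw [H.mf_eq]
    exact pow_le_pow_left₀ (h.ms_pos (by linarith)).le (h.msm i2) 3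
  have d2 := (mul_le_mul_of_nonneg_left d1 (by linarith : 0 ≤ E)).trans
    (H.lt.ml (2 * t1) (by linarith) (by linarith [H.tuC]))
  have d3 : E * (sb M m a (k + 1) - x) ≤ 2 * t1 :=
    (mul_le_mul_of_nonneg_left (by unfold G89.ds; linarith) (by linarith)).trans d2
  have d4 : 8 * (sb M m a (k + 1) - x) ≤ 2 * t1 := H.dv (by linarith) (by linarith) d3
  have k1 := i1.trans (h.sm n2)
  refine ⟨k, ⟨n5, ?_⟩, lt_of_le_of_ne n3 fun c => ?_, k1, up k (by linarith), p2, d3⟩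
  · show 9 / 8 * max l (2 * l0) ≤ _
    rw [max_eq_left H.lt.l2]; linarith
  · rw [c] at d4; linarith

end Cx

end Crest.Agent.T156.Alt.L63

end
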