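import Crest.Agent.T156.TkB_20

/-!
# Row 156, block (L): the thick pass with numbers (helper20)
-/

set_option autoImplicit false

noncomputable section

namespace Crest.Agent.T156.Alt.Mp9

open MeasureTheory Set Real
open Crest.Agent.T156.Pp.Area50 Crest.Agent.T156.Spl27 Crest.Agent.T156.Zb9

/-- the numbers: `P` is large, `r ^ 2` is the mass, `Γ` bounds the gaps, `F` is the final size -/
structure Nk (K T0 : ℝ) (S : Sc) (m : ℕ) (a' b' δ θ e o lam g P r N Γ j F : ℝ) : Prop where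
  P1 : 100 ≤ P
  PC : 32 * S.C ^ 3 ≤ P
  PK : K * S.C ≤ P
  PT : 1 ≤ exp (-(4 * T0)) * P
  r0 : 0 < r
  r2 : r ^ 2 = S.ms a'
  rb : S.ms b' ≤ 16 * r ^ 2
  ra : r ≤ a'
  N1 : 1 ≤ N
  Γ0 : 0 ≤ Γ
  Γr : P ^ 10 * Γ ≤ r
  θ1 : P ^ 3 * θ ≤ 1
  o1 : P ^ 3 * o ≤ r ^ 2
  l1 : P ^ 3 * (N * (lam * Γ)) ≤ r
  vr : S.v ≤ r
  jF : j ≤ F
  δF : δ ≤ F
  vF : S.v ≤ F
  eF : e ≤ F * r ^ 2
  gF : g ≤ F * r ^ 2
  mF : 1 / ((m : ℝ) + 1) ≤ F * r ^ 2
  oF : N * o ≤ F * r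
  NF : exp (-N) ≤ F

theorem Nk.mono {K T0 : ℝ} {S : Sc} {m : ℕ} {a' b' δ θ e o lam g P r N Γ j F Γ' : ℝ}
    (h : Nk K T0 S m a' b' δ θ e o lam g P r N Γ j F) (l0 : 0 ≤ lam) (h0 : 0 ≤ Γ') (h1 : Γ' ≤ Γ) :
    Nk K T0 S m a' b' δ θ e o lam g P r N Γ' j F :=
  have P0 : 0 < P := by linarith [h.P1]
  have N0 : 0 < N := by linarith [h.N1]
  { h with
    Γ0 := h0
    Γr := (mul_le_mul_of_nonneg_left h1 (by positivity)).trans h.Γr
    l1 := le_trans (by gcongr) h.l1 }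

/-- the error of one stage -/
theorem Z_le {C K P r N Γ j F δ e o lam g v w B Wl : ℝ} (C1 : 1 ≤ C) (P1 : 100 ≤ P)
    (PC : 32 * C ^ 3 ≤ P) (PK : K * C ≤ P) (r0 : 0 < r) (hB : B ≤ 16 * r ^ 2)
    (N1 : 1 ≤ N) (Γ0 : 0 ≤ Γ) (o0 : 0 ≤ o) (o1 : o ≤ r ^ 2) (l0 : 0 ≤ lam) (l1 : N * (lam * Γ) ≤ r)
    (v0 : 0 ≤ v) (vr : v ≤ r) (j0 : 0 ≤ j) (jF : j ≤ F) (δF : δ ≤ F) (vF : v ≤ F)
    (eF : e ≤ F * r ^ 2) (gF : g ≤ F * r ^ 2) (w0 : 0 ≤ w) (mF : w ≤ F * r ^ 2) (oF : N * o ≤ F * r)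
    (NF : exp (-N) ≤ F) (hW : Wl = 14 * N * P * r) :
    P * Γ + (δ + C * v) + K * C * j + 1 * exp (-N) +
      (C * (e + 2 * o * (P * r + P * j) + o * Wl + (o + lam * Γ ^ 2) * (C * Wl + C * v)) + g +
        C * w + C ^ 3 * B * v) / r ^ 2 ≤ P ^ 4 * (F + Γ) := by
  subst hW
  have P0 : 0 < P := by linarith
  have F0 : 0 ≤ F := j0.trans jF
  have r2 : 0 < r ^ 2 := by positivity
  have C3 : C ≤ C ^ 3 := le_self_pow₀ C1 (by norm_num)
  have CP : C ≤ P := by linarith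
  have P1' : 1 ≤ P := by linarith
  have q1 : P ≤ P ^ 2 := le_self_pow₀ P1' two_ne_zero
  have q2 : P ^ 2 ≤ P ^ 3 := pow_le_pow_right₀ P1' (by norm_num)
  set X := F * r ^ 2 with hX
  set Y := Γ * r ^ 2 with hY
  have X0 : 0 ≤ X := by positivity
  have Y0 : 0 ≤ Y := by positivity
  have a1 : N * o * r ≤ X := by rw [hX, sq, ← mul_assoc]; exact mul_le_mul_of_nonneg_right oF r0.le
  have a2 : o * r ≤ X := (mul_le_mul_of_nonneg_right (le_mul_of_one_le_left o0 N1) r0.le).trans a1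
  have a3 : o * j ≤ X := by rw [hX, mul_comm F]; exact mul_le_mul o1 jF j0 r2.le
  have a4 : o * v ≤ X := by rw [hX, mul_comm F]; exact mul_le_mul o1 vF v0 r2.le
  have a5 : N * (lam * Γ) * (Γ * r) ≤ Y := by
    rw [hY, sq, ← mul_assoc Γ r, mul_comm (Γ * r) r]
    exact mul_le_mul_of_nonneg_right l1 (by positivity)
  have a6 : lam * Γ * (Γ * v) ≤ Y := by
    rw [hY, sq, ← mul_assoc Γ r, mul_comm (Γ * r) r]
    exact mul_le_mul ((le_mul_of_one_le_left (by positivity) N1).trans l1) (by gcongr)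
      (by positivity) r0.le
  have b1 : P * (o * r) ≤ P ^ 2 * X := mul_le_mul q1 a2 (by positivity) (by positivity)
  have b2 : P * (o * j) ≤ P ^ 2 * X := mul_le_mul q1 a3 (by positivity) (by positivity)
  have b3 : P * (N * o * r) ≤ P ^ 2 * X := mul_le_mul q1 a1 (by positivity) (by positivity)
  have CP2 : C * P ≤ P ^ 2 := by rw [sq]; gcongr
  have b4 : C * P * (N * o * r) ≤ P ^ 2 * X := mul_le_mul CP2 a1 (by positivity) (by positivity)
  have b5 : C * (o * v) ≤ P ^ 2 * X := mul_le_mul (CP.trans q1) a4 (by positivity) (by positivity)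
  have b6 : C * P * (N * (lam * Γ) * (Γ * r)) ≤ P ^ 2 * Y :=
    mul_le_mul CP2 a5 (by positivity) (by positivity)
  have b7 : C * (lam * Γ * (Γ * v)) ≤ P ^ 2 * Y :=
    mul_le_mul (CP.trans q1) a6 (by positivity) (by positivity)
  have b8 : X ≤ P ^ 2 * X := le_mul_of_one_le_left X0 (P1'.trans q1)
  have c1 : e + 2 * o * (P * r + P * j) + o * (14 * N * P * r) +
      (o + lam * Γ ^ 2) * (C * (14 * N * P * r) + C * v) ≤ P ^ 2 * (34 * X + 15 * Y) := by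
    linarith only [b1, b2, b3, b4, b5, b6, b7, b8, eF]
  have c2 := (mul_le_mul_of_nonneg_left c1 (by linarith : 0 ≤ C)).trans
    (mul_le_mul_of_nonneg_right CP (by positivity))
  have c3 : C * w ≤ P ^ 3 * X := mul_le_mul (CP.trans (q1.trans q2)) mF w0 (by positivity)
  have c4 : C ^ 3 * B * v ≤ P ^ 3 * X := by
    have : C ^ 3 * B ≤ P ^ 3 * r ^ 2 := by
      have := mul_le_mul_of_nonneg_left hB (by positivity : 0 ≤ C ^ 3)
      have := mul_le_mul_of_nonneg_right (show 16 * C ^ 3 ≤ P ^ 3 by linarith) r2.le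
      linarith
    have := mul_le_mul this vF v0 (by positivity)
    rw [hX]; linarith
  have c5 : X ≤ P ^ 3 * X := le_mul_of_one_le_left X0 (P1'.trans (q1.trans q2))
  have c6 : (C * (e + 2 * o * (P * r + P * j) + o * (14 * N * P * r) +
      (o + lam * Γ ^ 2) * (C * (14 * N * P * r) + C * v)) + g + C * w + C ^ 3 * B * v) / r ^ 2 ≤
      P ^ 3 * (37 * F + 15 * Γ) := by
    rw [div_le_iff₀ r2]
    have : P ^ 3 * (37 * F + 15 * Γ) * r ^ 2 = P ^ 3 * (37 * X + 15 * Y) := by rw [hX, hY]; ring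
    linarith only [c2, c3, c4, c5, gF, this]
  have d1 : P * Γ ≤ P ^ 3 * Γ := mul_le_mul_of_nonneg_right (q1.trans q2) Γ0
  have d2 : C * v ≤ P ^ 3 * F := mul_le_mul (CP.trans (q1.trans q2)) vF v0 (by positivity)
  have d3 : K * C * j ≤ P ^ 3 * F := mul_le_mul (PK.trans (q1.trans q2)) jF j0 (by positivity)
  have d4 : F ≤ P ^ 3 * F := le_mul_of_one_le_left F0 (P1'.trans (q1.trans q2))
  have d5 : 100 * (P ^ 3 * F) ≤ P * (P ^ 3 * F) := mul_le_mul_of_nonneg_right P1 (by positivity)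
  have d6 : 100 * (P ^ 3 * Γ) ≤ P * (P ^ 3 * Γ) := mul_le_mul_of_nonneg_right P1 (by positivity)
  have d7 : 0 ≤ P ^ 3 * F := by positivity
  have d8 : 0 ≤ P ^ 3 * Γ := by positivity
  linarith only [c6, d1, d2, d3, d4, d5, d6, d7, d8, δF, NF]

theorem Hp_nn {S : Sc} {M : Md} {m : ℕ} {a T : ℝ} (A : At S M m a T) (t : ℝ) :
    0 ≤ Rig.Hp (lh M T) (lb M S m a T) t :=
  add_nonneg (abs_nonneg _) (intervalIntegral.integral_nonneg
    (by rw [A.okh.2]; exact (s_nn A.cl _).trans A.t2) fun _ _ => abs_nonneg _)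

/-- **one stage** -/
theorem Nw.stage (T0 : ℝ) : ∃ K : ℝ, 1 ≤ K ∧ ∀ {S : Sc} {M : Md} {m : ℕ} {a T : ℝ} {Gn : ℕ → Prop}
    {u v : ℕ} {a' b' δ θ e o lam g : ℝ} {c : ℕ → ℝ}, Nw S M m a T Gn u v a' b' δ θ e o lam g c →
    T ≤ T0 → ∀ {P r N Γ j F : ℝ}, Nk K T0 S m a' b' δ θ e o lam g P r N Γ j F →
    (∀ i k, Nx Gn u v i k → sb M m a (k + 1) - sb M m a (i + 1) ≤ Γ) →
    (∀ t ∈ Icc (sb M m a (u + 1)) (sb M m a (v + 1)), Rig.Hp (lh M T) (lb M S m a T) t ≤ j) →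
    sb M m a (v + 1) - sb M m a (u + 1) ≤ 14 * N * P * r →
    (∀ t ∈ Icc (sb M m a (u + 1) + N * P * r + Γ) (sb M m a (v + 1) - N * P * r),
      |uu M S m a T t| ≤ 7 * P ^ 3 * (P ^ 4 * (F + Γ))) ∧
    (∀ k, u ≤ k → k ≤ v → |L0.Gd (lb M S m a T) (sb M m a (k + 1))| ≤
      P * r + P * j + 2 * |uu M S m a T (sb M m a (k + 1))|) ∧
    ∃ c0, ∀ s s' e₂ μ, sb M m a (u + 1) + N * P * r + Γ ≤ s → s ≤ s' →
      s' ≤ sb M m a (v + 1) - N * P * r - r → 2 * (18 * P ^ 4 * r * (P ^ 4 * (F + Γ))) ≤ μ →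
      WW M S m a T c0 s' - WW M S m a T c0 s ≤ e₂ - μ * (s' - s) → μ * (s' - s) ≤ 2 * e₂ := by
  obtain ⟨K0, K01, H0⟩ := Nw.tk T0
  obtain ⟨K1, K11, H1⟩ := gd_le T0
  refine ⟨K0 * K1, one_le_mul_of_one_le_of_one_le K01 K11,
    fun {S M m a T Gn u v a' b' δ θ e o lam g c} W hT {P r N Γ j F} h hΓ hp hW => ?_⟩
  have A := W.at'
  have C1 := A.cl.C1
  have C0 := A.c_pos
  have v0 := v_pos A.cl
  have P1 := h.P1
  have P0 : 0 < P := by linarith
  have P1' : 1 ≤ P := by linarith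
  have r0 := h.r0
  have r2 : 0 < r ^ 2 := by positivity
  have uv := A.sb_mono (Nat.succ_le_succ W.uv)
  have j0 : 0 ≤ j := (Hp_nn A _).trans (hp _ ⟨le_rfl, uv⟩)
  have C3 : S.C ≤ S.C ^ 3 := le_self_pow₀ C1 (by norm_num)
  have C2 : S.C ^ 2 ≤ S.C ^ 3 := pow_le_pow_right₀ C1 (by norm_num)
  have PC := h.PC
  have P3 : P ≤ P ^ 3 := le_self_pow₀ P1' (by norm_num)
  have k0 : K0 * S.C ≤ P := le_trans (by gcongr; exact le_mul_of_one_le_right (by linarith) K11) h.PK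
  have k1 : K1 ≤ P := ((le_mul_of_one_le_left (by linarith) K01).trans
    (le_mul_of_one_le_right (by positivity) C1)).trans h.PK
  have o0 := W.o0
  have l0 := W.lam0
  have Γ0 := h.Γ0
  have N1 := h.N1
  have hQ : ∀ k, u ≤ k → k ≤ v → |L0.Gd (lb M S m a T) (sb M m a (k + 1))| ≤
      P * r + P * j + 2 * |uu M S m a T (sb M m a (k + 1))| := fun k p q => by
    have a1 := H1 A hT W.a0 W.b1 (W.mb p q)
    have a2 : S.ms b' / a' ≤ 16 * r := by
      rw [div_le_iff₀ W.a0]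
      linarith [h.rb, mul_le_mul_of_nonneg_left h.ra r0.le]
    have a3 := mul_le_mul_of_nonneg_left a2 C0.le
    have a4 := mul_le_mul_of_nonneg_right (show 16 * S.C ≤ P by linarith) r0.le
    have a5 := mul_le_mul k1 (hp _ ⟨A.sb_mono (Nat.succ_le_succ p), A.sb_mono (Nat.succ_le_succ q)⟩)
      (Hp_nn A _) P0.le
    linarith
  obtain ⟨c0, hc⟩ := W.anchor hΓ hQ hW
  have Γr : P * Γ ≤ r :=
    (mul_le_mul_of_nonneg_right (le_self_pow₀ P1' (by norm_num)) Γ0).trans h.Γr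
  have Γr' : Γ ≤ r := (le_mul_of_one_le_left Γ0 P1').trans Γr
  have l1 : N * (lam * Γ) ≤ r := (le_mul_of_one_le_left (by positivity) (P1'.trans P3)).trans h.l1
  have l2 : P ^ 3 * (lam * Γ ^ 2) ≤ r ^ 2 := by
    have : P ^ 3 * (lam * Γ) ≤ r :=
      (mul_le_mul_of_nonneg_left (le_mul_of_one_le_left (by positivity) N1) (by positivity)).trans h.l1
    have := mul_le_mul this Γr' Γ0 r0.le
    linarith
  have om : S.C * (6 * o + 2 * (lam * Γ ^ 2)) ≤ S.ms a' / (2 * S.C ^ 2) := by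
    rw [← h.r2, le_div_iff₀ (by positivity)]
    have a1 := mul_le_mul_of_nonneg_right (PC.trans P3) o0
    have a2 := mul_le_mul_of_nonneg_right (PC.trans P3) (by positivity : 0 ≤ lam * Γ ^ 2)
    linarith [h.o1]
  have tk := H0 W hT (by have := W.e0; positivity) (by positivity) om hc hp
  have θ1 : θ ≤ 1 := (le_mul_of_one_le_left W.θ0 (P1'.trans P3)).trans h.θ1
  have bb := A.ms_pos (W.a0.le.trans ((W.mb le_rfl W.uv).1.trans (W.mb le_rfl W.uv).2))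
  have g0 : 0 ≤ g := (abs_nonneg _).trans (W.hg u le_rfl W.uv W.gu)
  obtain ⟨-, x2, x3⟩ := tk.one_20 (P := P) (r := r) (Γ := Γ) (R := 1) (N := N)
    (Z := P ^ 4 * (F + Γ)) P1' r0
    (by
      rw [← h.r2, ← mul_div_assoc, le_div_iff₀ (by positivity)]
      linarith [mul_le_mul_of_nonneg_right (show 2 * S.C ^ 2 ≤ P by linarith) r2.le])
    (by
      linarith [mul_le_mul_of_nonneg_left h.rb (sq_nonneg S.C),
        mul_le_mul_of_nonneg_right (show 32 * S.C ^ 2 ≤ P by linarith) r2.le])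
    (by linarith) (by linarith) h.PT Γ0 Γr (Wd.sh hΓ) (by linarith) (fun t _ => A.abs_uu_one t)
    (by have := W.e0; unfold errW; positivity) uv (by
      have := Z_le (w := 1 / ((m : ℝ) + 1)) C1 P1 PC k0 r0 h.rb N1 Γ0 o0
        ((le_mul_of_one_le_left o0 (P1'.trans P3)).trans h.o1) l0 l1 v0.le h.vr j0 h.jF h.δF h.vF
        h.eF h.gF (by positivity) h.mF h.oF h.NF rfl
      unfold errW
      rwa [mul_one_div] at this)
  have n0 : 0 ≤ N * P * r := by positivity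
  exact ⟨x2, hQ, c0, fun s s' e₂ μ p1 p2 p3 p4 p5 => tk.short_20 (by linarith) p2 (by linarith)
    (fun t ht => x3 t ⟨p1.trans ht.1, ht.2.trans p3⟩) p4 p5⟩

/-- **the thick pass** -/
theorem Nw.main (T0 : ℝ) : ∃ K : ℝ, 1 ≤ K ∧ ∀ {S : Sc} {M : Md} {m : ℕ} {a T : ℝ} {Gn : ℕ → Prop}
    {u v : ℕ} {a' b' δ θ e o lam g : ℝ} {c : ℕ → ℝ}, Nw S M m a T Gn u v a' b' δ θ e o lam g c →
    T ≤ T0 → ∀ {P r N Γ j F : ℝ}, Nk K T0 S m a' b' δ θ e o lam g P r N Γ j F →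
    (∀ i k, Nx Gn u v i k → sb M m a (k + 1) - sb M m a (i + 1) ≤ Γ) →
    (∀ t ∈ Icc (sb M m a (u + 1)) (sb M m a (v + 1)), Rig.Hp (lh M T) (lb M S m a T) t ≤ j) →
    sb M m a (v + 1) - sb M m a (u + 1) ≤ 14 * N * P * r →
    ∀ t ∈ Icc (sb M m a (u + 1) + 6 * (N * P * r)) (sb M m a (v + 1) - 6 * (N * P * r)),
      |uu M S m a T t| ≤ P ^ 12 * F := by
  obtain ⟨K, K1, H⟩ := Nw.stage T0
  refine ⟨K, K1, fun {S M m a T Gn u v a' b' δ θ e o lam g c} W hT {P r N Γ j F} h hΓ hp hW t ht => ?_⟩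
  have A := W.at'
  have C1 := A.cl.C1
  have C0 := A.c_pos
  have v0 := v_pos A.cl
  have P1 := h.P1
  have P0 : 0 < P := by linarith
  have P1' : 1 ≤ P := by linarith
  have r0 := h.r0
  have r2 : 0 < r ^ 2 := by positivity
  have Γ0 := h.Γ0
  have N1 := h.N1
  have o0 := W.o0
  have l0 := W.lam0
  have F0 : 0 ≤ F := v0.le.trans h.vF
  have uv := A.sb_mono (Nat.succ_le_succ W.uv)
  have j0 : 0 ≤ j := (Hp_nn A _).trans (hp _ ⟨le_rfl, uv⟩)
  have Γr : Γ ≤ r := (le_mul_of_one_le_left Γ0 (one_le_pow₀ P1')).trans h.Γr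
  have nr : r ≤ N * P * r := le_mul_of_one_le_left r0.le (one_le_mul_of_one_le_of_one_le N1 P1')
  have pw : ∀ i k : ℕ, i ≤ k → ∀ x : ℝ, 0 ≤ x → P ^ i * x ≤ P ^ k * x := fun i k hk x hx =>
    mul_le_mul_of_nonneg_right (pow_le_pow_right₀ P1' hk) hx
  have pk : ∀ i k : ℕ, i + 1 = k → ∀ x : ℝ, 0 ≤ x → 100 * (P ^ i * x) ≤ P ^ k * x := by
    rintro i _ rfl x hx
    rw [pow_succ', mul_assoc]; exact mul_le_mul_of_nonneg_right P1 (by positivity)
  obtain ⟨x1, x2, c0, x3⟩ := H W hT h hΓ hp hW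
  rcases le_total r (P ^ 10 * F) with hc | hc
  · have ΓF : Γ ≤ F := le_of_mul_le_mul_left (h.Γr.trans hc) (by positivity)
    refine (x1 t ⟨by linarith [ht.1], by linarith [ht.2]⟩).trans ?_
    have a1 := mul_le_mul_of_nonneg_left ΓF (by positivity : 0 ≤ P ^ 7)
    have a2 := pk 7 8 rfl F F0
    have a3 := pw 8 12 (by norm_num) F F0
    have a4 : 0 ≤ P ^ 7 * F := by positivity
    linarith only [a1, a2, a3, a4]
  -- the gaps of the inner window are short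
  have z1 : P ^ 10 * (F + Γ) ≤ 2 * r := by linarith [h.Γr]
  have FΓ : 0 ≤ F + Γ := by positivity
  have u1 : 7 * P ^ 3 * (P ^ 4 * (F + Γ)) ≤ r := by
    linarith only [z1, pk 7 8 rfl _ FΓ, pw 8 10 (by norm_num) _ FΓ, r0]
  have C3 : S.C ≤ S.C ^ 3 := le_self_pow₀ C1 (by norm_num)
  have C2 : S.C ^ 2 ≤ S.C ^ 3 := pow_le_pow_right₀ C1 (by norm_num)
  have PC := h.PC
  have bb := A.ms_pos (W.a0.le.trans ((W.mb le_rfl W.uv).1.trans (W.mb le_rfl W.uv).2))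
  have D1 : S.C ^ 2 * S.ms b' ≤ P * r ^ 2 := by
    linarith [mul_le_mul_of_nonneg_left h.rb (sq_nonneg S.C),
      mul_le_mul_of_nonneg_right (show 16 * S.C ^ 2 ≤ P by linarith) r2.le]
  have l2 : P ^ 3 * (lam * Γ ^ 2) ≤ r ^ 2 := by
    have : P ^ 3 * (lam * Γ) ≤ r :=
      (mul_le_mul_of_nonneg_left (le_mul_of_one_le_left (by positivity) N1) (by positivity)).trans h.l1
    have := mul_le_mul this Γr Γ0 r0.le
    linarith
  have lg : 0 ≤ lam * Γ ^ 2 := by positivity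
  have θ0 := W.θ0
  have θ1 : θ ≤ 1 := (le_mul_of_one_le_left θ0 (one_le_pow₀ P1')).trans h.θ1
  have CP : S.C ≤ P := by linarith
  have mu : r ^ 2 / P ≤
      S.ms a' / S.C - S.C ^ 2 * S.ms b' * θ - S.C * (o + (o + lam * Γ ^ 2) * θ) := by
    have a1 : 2 * (r ^ 2 / P) ≤ S.ms a' / S.C := by
      rw [← h.r2, ← mul_div_assoc, div_le_div_iff₀ P0 C0]
      linarith [mul_le_mul_of_nonneg_left (show 2 * S.C ≤ P by linarith) r2.le]
    have a2 : S.C ^ 2 * S.ms b' * θ + S.C * (o + (o + lam * Γ ^ 2) * θ) ≤ r ^ 2 / P := by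
      rw [le_div_iff₀ P0]
      refine le_of_mul_le_mul_left ?_ P0
      have b1 := mul_le_mul_of_nonneg_right D1 (by positivity : 0 ≤ θ * P ^ 2)
      have b2 := mul_le_mul_of_nonneg_left h.θ1 r2.le
      have b3 : S.C * (o + (o + lam * Γ ^ 2) * θ) ≤ P * (o + (o + lam * Γ ^ 2) * 1) := by gcongr
      have b4 := mul_le_mul_of_nonneg_left b3 (by positivity : 0 ≤ P ^ 2)
      have b5 := mul_le_mul_of_nonneg_right P1 r2.le
      linarith only [b1, b2, b4, b5, l2, h.o1, r2]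
    linarith
  have sl : 2 * (18 * P ^ 4 * r * (P ^ 4 * (F + Γ))) ≤ r ^ 2 / P := by
    rw [le_div_iff₀ P0]
    have a1 := mul_le_mul_of_nonneg_left (show 100 * (P ^ 9 * (F + Γ)) ≤ 2 * r from
      (pk 9 10 rfl _ FΓ).trans z1) r0.le
    linarith only [a1, r2]
  have sh : ∀ i k, Nx Gn u v i k → sb M m a (u + 1) + N * P * r + Γ ≤ sb M m a (i + 1) →
      sb M m a (k + 1) ≤ sb M m a (v + 1) - N * P * r - r →
      sb M m a (k + 1) - sb M m a (i + 1) ≤ P ^ 4 * F := fun i k n p q => by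
    have ik := A.sb_mono (Nat.succ_le_succ n.2.1)
    have g1 := x2 i n.1 (n.2.1.trans n.2.2.1)
    have g2 := x2 k (n.1.trans n.2.1) n.2.2.1
    have g3 := (x1 _ ⟨p, by linarith⟩).trans u1
    have g4 := (x1 (sb M m a (k + 1)) ⟨by linarith, by linarith⟩).trans u1
    have a1 := W.len hp n (Q := P * r + P * j + 2 * r) c0 (hΓ i k n) (by linarith) (by linarith)
    have a2 := x3 _ _ _ _ p ik q sl
      (a1.trans (sub_le_sub_left (mul_le_mul_of_nonneg_right mu (sub_nonneg.2 ik)) _))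
    set X := F * r ^ 2 with hX
    have X0 : 0 ≤ X := by positivity
    have o1 : o ≤ r ^ 2 := (le_mul_of_one_le_left o0 (one_le_pow₀ P1')).trans h.o1
    have l3 : lam * Γ ^ 2 ≤ r ^ 2 := (le_mul_of_one_le_left lg (one_le_pow₀ P1')).trans l2
    have b1 : o * r ≤ X := by
      rw [hX, sq, ← mul_assoc]
      exact mul_le_mul_of_nonneg_right ((le_mul_of_one_le_left o0 N1).trans h.oF) r0.le
    have b2 : o * j ≤ X := by rw [hX, mul_comm F]; exact mul_le_mul o1 h.jF j0 r2.le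
    have b3 : (o + lam * Γ ^ 2) * δ ≤ 2 * r ^ 2 * F :=
      mul_le_mul (by linarith) h.δF W.δ0 (by positivity)
    have b4 : S.C ^ 2 * S.ms b' * (δ + S.C * S.v) ≤ P * r ^ 2 * (F + P * F) :=
      mul_le_mul D1 (add_le_add h.δF (mul_le_mul CP h.vF v0.le P0.le))
        (by have := W.δ0; positivity) (by positivity)
    have b5 : e + 2 * o * (P * r + P * j + 2 * r) + (o + lam * Γ ^ 2) * δ ≤ 11 * (P * X) := by
      have := le_mul_of_one_le_left X0 P1'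
      linarith [mul_le_mul_of_nonneg_left b1 P0.le, mul_le_mul_of_nonneg_left b2 P0.le, h.eF]
    have b6 := (mul_le_mul_of_nonneg_left b5 C0.le).trans
      (mul_le_mul_of_nonneg_right CP (by positivity))
    have b7 := pw 1 2 (by norm_num) X X0
    have b8 := pw 0 2 (by norm_num) X X0
    have b9 : r ^ 2 / P * (sb M m a (k + 1) - sb M m a (i + 1)) ≤ 30 * (P ^ 2 * X) := by
      have : P * r ^ 2 * (F + P * F) = P ^ 1 * X + P ^ 2 * X := by rw [hX]; ring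
      linarith only [a2, b4, b6, b7, b8, h.gF, this]
    rw [div_mul_eq_mul_div, div_le_iff₀ P0] at b9
    refine le_of_mul_le_mul_left ?_ r2
    have c1 := mul_le_mul_of_nonneg_left (pk 3 4 rfl F F0) r2.le
    have c2 : 0 ≤ r ^ 2 * (P ^ 3 * F) := by positivity
    rw [hX] at b9
    linarith only [b9, c1, c2]
  -- the inner window
  obtain ⟨i1, u', n1, p1, p2⟩ := exists_nx (σ := fun k => sb M m a (k + 1))
    (t := sb M m a (u + 1) + N * P * r + Γ) W.uv W.gu W.gv (by linarith) (by linarith [ht.1, ht.2])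
  obtain ⟨v', k1, n2, q1, q2⟩ := exists_nx (σ := fun k => sb M m a (k + 1))
    (t := sb M m a (v + 1) - N * P * r - r) W.uv W.gu W.gv (by linarith [ht.1, ht.2]) (by linarith)
  have s1 := hΓ _ _ n1
  have s2 := hΓ _ _ n2
  have uv' : u' ≤ v' := le_of_not_gt fun hlt => by
    linarith [A.sb_mono (Nat.succ_le_succ hlt.le), ht.1, ht.2]
  have hu : u ≤ u' := n1.1.trans n1.2.1
  have hv : v' ≤ v := n2.2.1.trans n2.2.2.1
  have G0 : 0 ≤ min Γ (P ^ 4 * F) := le_min Γ0 (by positivity)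
  obtain ⟨y1, -⟩ := H (W.sub hu uv' hv n1.2.2.2.2.1 n2.2.2.2.1) hT (h.mono l0 G0 (min_le_left _ _))
    (fun i k n => le_min (hΓ i k (n.up hu hv)) (sh i k (n.up hu hv)
      (p2.trans (A.sb_mono (Nat.succ_le_succ n.1)))
      ((A.sb_mono (Nat.succ_le_succ n.2.2.1)).trans q1)))
    (fun t ht => hp t ⟨(A.sb_mono (Nat.succ_le_succ hu)).trans ht.1,
      ht.2.trans (A.sb_mono (Nat.succ_le_succ hv))⟩) (by linarith)
  refine (y1 t ⟨by linarith [ht.1, min_le_left Γ (P ^ 4 * F)], by linarith [ht.2]⟩).trans ?_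
  have a1 := mul_le_mul_of_nonneg_left (min_le_right Γ (P ^ 4 * F)) (by positivity : 0 ≤ P ^ 7)
  have a2 := pw 7 11 (by norm_num) F F0
  have a3 := pk 11 12 rfl F F0
  have a4 : 0 ≤ P ^ 11 * F := by positivity
  linarith only [a1, a2, a3, a4]

end Crest.Agent.T156.Alt.Mp9

end
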