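import Crest.Agent.T156.CutV_94
import Crest.Agent.T156.EoT_25
import Crest.Agent.T156.TL2Q_63
import Crest.Agent.T156.TL1cD_74

/-!
# Row 156, block (L): the bulk read by the lower cuts of (TkE), statements (helper94)
-/

set_option autoImplicit false

noncomputable section

namespace Crest.Agent.T156.Alt.L63

open MeasureTheory Set Real
open Crest.Agent.R164.GC Crest.Agent.R339.B Crest.Agent.R339.Var Crest.Agent.T157.Pf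
open Crest.Agent.T156.Cut8 (Lb)
open Crest.Agent.T156.Alt.Mp9 Crest.Agent.T156.Alt.L69 Crest.Agent.T156.Alt.C74

/-- the bulk above each time of `[5 t1 / 4, 3 t1 / 2]`, continued above `s` -/
def Bw (E Λ θ : ℝ) (S : Sc) (M : Md) (m : ℕ) (a t1 u2 En s : ℝ) : Prop :=
  2 * t1 ≤ s ∧ s < M.s S.J ∧ (∀ t < s, lvr 1 (lb M S m a (2 * S.C)) t ≤ M.z (S.J - 1)) ∧
  ∀ x, 5 / 4 * t1 ≤ x → x ≤ 3 / 2 * t1 → ∃ A r1 r2 ω β f, x ≤ A ∧ E * (A - x) ≤ 2 * t1 ∧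
    Lb (2 * S.C) θ (Λ * En) (lvr 1 (lh M (2 * S.C))) (lvr 1 (lb M S m a (2 * S.C)))
      (fun t => Pr.Gam (lb M S m a (2 * S.C)) t - Pr.Gam (lh M (2 * S.C)) t)
      (HH M S m a (2 * S.C)) (mm M S m a) A (3 / 2 * t1) s
      (fun E' Y => L25.QT S M m a (2 * S.C) s (Λ * u2) Λ E' (E' + En) Y) r1 r2 ω β f

/-- **(BwS)** -/
def BwS : Prop := ∀ θ : ℝ → ℝ, (∀ C, 0 < θ C ∧ θ C ≤ 1) → CL fun E Λ S M m a =>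
  ∀ G1 u1 u2 j γ Lc ηc τ l0 l X Xp Vt Lg Lp X2 X3 X4 G0 η N g t1 tu ℓ En p0,
  Hy E S M m a G1 u1 u2 j γ Lc ηc τ l0 l X Xp Vt Lg Lp X2 X3 X4 G0 η N g t1 tu ℓ En p0 →
  ∃ s, Bw E Λ (θ S.C) S M m a t1 u2 En s

/-- **(CrJ)** the crude facts -/
def CrJ : Prop := ∀ (E L : ℝ) (S : Sc) (M : Md) (m : ℕ) (a G1 u1 u2 j γ Lc ηc τ l0 l X Xp Vt Lg Lp
    X2 X3 X4 G0 : ℝ) (η : ℝ → ℝ) (N : ℝ) (g : ℝ → ℝ) (t1 tu ℓ En p0 : ℝ),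
  Cx E L S M m a G1 u1 u2 j γ Lc ηc τ l0 l X Xp Vt Lg Lp X2 X3 X4 G0 η N g t1 tu ℓ En p0 →
  (∀ t, t1 ≤ t → t ≤ 2 * t1 → L ^ 13 * |uq S M m a t| ≤ t1) ∧
  (∀ Y t, X ≤ Y → En ≤ Y → t1 ≤ t → t ≤ 2 * S.C → |Jq S M m a t| ≤ 10 * S.C * √Y) ∧
  ∀ Y, X ≤ Y → LO 1 S M m a (2 * t1) u2 Y

end Crest.Agent.T156.Alt.L63

end
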