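import Crest.Agent.T156.TkD_20

/-!
# Row 156, block (L): `TkA` from `NdT` (helper20)
-/

set_option autoImplicit false

noncomputable section

namespace Crest.Agent.T156.Alt.L63

open MeasureTheory Real Finset
open Crest.Agent.T156.Alt.L69 Crest.Agent.T156.Alt.Mp9 Crest.Agent.T156.Alt.Ap63

namespace T20

variable {S : Sc} {M : Md} {m : ℕ} {a : ℝ}
  {K E L G1 u1 u2 j γ Lc ηc τ l0 l X Xp Vt Lg Lp X2 X3 X4 G0 N t1 tu ℓ En p0 : ℝ} {η g : ℝ → ℝ}

/-- two good nodes around the zone -/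
theorem ends (G : Rg K E L S) (F : Fc E L S M m a l X Lg X2 tu ℓ η g) (tu1 : tu ≤ M.s S.J)
    (X0 : 0 ≤ X) {Gn : ℕ → Prop}
    (hN : ∀ U V, 5 / 4 * l ≤ M.s U → M.s V + ℓ / 5 ≤ tu → Nt E L S M m a Lg X X2 η Gn U V)
    {V : ℕ} (h1 : M.s V + ℓ / 4 ≤ tu) (h2 : 3 / 2 * l < sb M m a (V + 1))
    (h3 : 3 / 2 * l + ℓ / 4 ≤ tu) :
    ∃ i k, i ≤ k ∧ Gn i ∧ Gn k ∧ 5 / 4 * l ≤ M.s i ∧ M.s k + ℓ / 5 ≤ tu ∧
      sb M m a (i + 1) ≤ 3 / 2 * l ∧ V ≤ k := by
  have A := F.at'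
  have h := A.cl
  have C1 := h.C1
  have C0 := h.C0
  have v0 := h.v0
  have L1 := G.L1
  have L1' : 1 ≤ L := by linarith
  have l0 := F.l0
  have r0 : 0 < √(S.ms l) := sqrt_pos.2 (h.ms_pos l0.le)
  have ℓ0 : 0 < ℓ := lt_of_lt_of_le (by positivity) F.ℓ1
  have sJ : M.s S.J ≤ S.C := h.s_le_C h.i3
  have vr : S.v ≤ √(S.ms l) := G.vn.trans F.nl
  have C3 : S.C ≤ S.C ^ 3 := le_self_pow₀ C1 (by norm_num)
  have C2 : S.C ^ 2 ≤ S.C ^ 3 := pow_le_pow_right₀ C1 (by norm_num)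
  have LC := G.LC
  have L0 : 0 < L := by linarith
  have Lg1 : 1 ≤ Lg := (one_le_pow₀ L1').trans F.Lg1
  have R0 : 0 ≤ X ^ ((1 : ℝ) / 3) := rpow_nonneg X0 _
  have sm : ∀ y z, 0 ≤ y → L ^ 67 * y ≤ z → 1000 * (L ^ 2 * y) ≤ z := fun y z p q => by
    have a1 := mul_le_mul_of_nonneg_right L1 (by positivity : 0 ≤ L ^ 2 * y)
    have a2 := mul_le_mul_of_nonneg_right (pow_le_pow_right₀ L1' (show 3 ≤ 67 by norm_num)) p
    linarith
  have b2 : S.C * S.v ≤ L ^ 2 * √(S.ms l) :=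
    mul_le_mul (by nlinarith) vr v0.le (by positivity)
  have b4 := sm _ _ r0.le (F.ml l le_rfl (by linarith))
  have b5 := sm _ _ r0.le F.ℓ1
  have b6 := sm _ _ (by positivity) F.R2
  have b7 := sm _ _ (by positivity)
    ((mul_le_mul_of_nonneg_left (div_le_self R0 Lg1) (by positivity)).trans F.R1)
  have win : ∀ p q, S.j0 ≤ p → p ≤ q → q < S.J →
      L ^ 2 * (X ^ ((1 : ℝ) / 3) / Lg) + L ^ 2 * √(S.ms l) ≤ M.s q - M.s p →
      L * (X ^ ((1 : ℝ) / 3) / Lg + S.v) ≤ M.z q - M.z p := fun p q a1 a2 a3 a4 => by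
    refine le_of_mul_le_mul_left (le_trans ?_ (a4.trans (s_z h a1 a2 a3))) (by positivity)
    have a5 := mul_le_mul_of_nonneg_right (show S.C ^ 2 ≤ L by linarith)
      (by positivity : 0 ≤ L * (X ^ ((1 : ℝ) / 3) / Lg + S.v))
    linarith [mul_le_mul_of_nonneg_left vr (sq_nonneg L)]
  obtain ⟨U, u1, u2, u3, u4⟩ := h.exists_node (t := 5 / 4 * l) (by linarith) (by linarith)
  obtain ⟨q, q1, q2, q3, q4⟩ := h.exists_node (t := 21 / 16 * l) (by linarith) (by linarith)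
  obtain ⟨W, w1, w2, w3, w4⟩ := h.exists_node (t := tu - ℓ / 5) (by linarith) (by linarith)
  have u5 := (h.ss U u1).2
  have Uq : U + 1 ≤ q := le_of_not_gt fun c => by linarith [h.sm c.le]
  have qW : q ≤ W := Nat.lt_succ_iff.1 (lt_of_not_ge fun c => by linarith [h.sm c])
  have VW : V ≤ W := Nat.lt_succ_iff.1 (lt_of_not_ge fun c => by linarith [h.sm c])
  have jU : S.j0 ≤ U + 1 := h.i1.trans (le_of_not_gt fun c => by
    nlinarith [h.sm c.le, F.jl, h.s_nn S.jl])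
  have H := hN (U + 1) W u3.le (by linarith)
  obtain ⟨i, i1, i2, gi⟩ := H.ex _ _ le_rfl Uq qW (win _ _ jU Uq q1 (by linarith))
  have s1 := h.sm i1
  have s2 := h.sm i2
  have si := (F.loc i (i2.trans_lt q1) (by linarith) (by linarith)).2 (by linarith)
  have iV : i ≤ V := le_of_not_gt fun c => by linarith [A.sb_mono (Nat.succ_le_succ c.le)]
  obtain ⟨k, k1, k2, gk⟩ := H.ex _ _ (i1.trans iV) VW le_rfl
    (win _ _ (jU.trans (i1.trans iV)) VW w1 (by linarith))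
  exact ⟨i, k, iV.trans k1, gi, gk, by linarith, by linarith [h.sm k2], by linarith, k1⟩

/-- the numbers of the window around `t` -/
theorem nk (G : Rg K E L S) (F : Fc E L S M m a l X Lg X2 tu ℓ η g)
    (H : Hy E S M m a G1 u1 u2 j γ Lc ηc τ l0 l X Xp Vt Lg Lp X2 X3 X4 G0 η N g t1 tu ℓ En p0)
    {t t' b' p : ℝ} (t1' : l ≤ t) (tC : t ≤ S.C) (hb : b' ≤ 2 * t) (p0' : 0 ≤ p) (a1 : l ≤ t')
    (a2 : t' ≤ S.C) (a3 : t' ≤ 2 * t) :
    Nk K (2 * S.C) S m (t / 2) b' (S.C * S.v) (L / Lg) (256 * L * η t')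
      (32 * L ^ 3 * (X2 + uw S Lg t' ^ 2)) (2 * L ^ 3) (g t') L (√(S.ms (t / 2))) (2 * log S.n)
      (4 * √(S.ms (t / 2)) / L ^ 11) p (L ^ 5 * (p + bs S Lg X2 (g t') η t')) := by
  have h := F.at'.cl
  have C1 := h.C1
  have v0 := h.v0
  have n0 := h.N0
  have L1 := G.L1
  have L0 : 0 < L := by linarith
  have L1' : 1 ≤ L := by linarith
  have l0 := F.l0
  have t0 : 0 < t := by linarith
  have t0' : 0 < t' := by linarith
  have m0 := h.ms_pos (half_pos t0).le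
  have m1 := h.ms_pos t0'.le
  have mq : ∀ s, s ≤ 2 * t → S.ms s ≤ 16 * S.ms (t / 2) := fun s hs => by
    have := h.ms_pow (half_pos t0).le 2
    norm_num at this
    exact (h.msm (by linarith)).trans this
  set r := √(S.ms (t / 2)) with hr
  have r0 : 0 < r := sqrt_pos.2 m0
  have r2 : r ^ 2 = S.ms (t / 2) := sq_sqrt m0.le
  have pw : ∀ i k : ℕ, i ≤ k → L ^ i ≤ L ^ k := fun i k => pow_le_pow_right₀ L1'
  have pk : ∀ i k : ℕ, i + 1 = k → 1000 * L ^ i ≤ L ^ k := by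
    rintro i _ rfl
    rw [pow_succ']; exact mul_le_mul_of_nonneg_right L1 (by positivity)
  have mf1 : mf S t' = S.ms t' := by rw [mf, H.lt.F1, div_one]
  have g0 := H.lt.g0 t'
  have ηn := F.ηn t' a1 a2
  have n1 : 0 < 1 / (S.n : ℝ) := by positivity
  have X0 := F.X2
  set Y := X2 + uw S Lg t' ^ 2 with hY
  have Y0 : 0 ≤ Y := by positivity
  have q0 : 0 < √(S.ms t') := sqrt_pos.2 m1
  have q1 : √(S.ms t') ≤ 4 * r := by
    rw [sqrt_le_left (by positivity), mul_pow, r2]; linarith [mq t' a3]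
  set B := bs S Lg X2 (g t') η t' with hB
  have e0 : B = (η t' + g t') / S.ms t' + Y / √(S.ms t') := by rw [hB, bs, mf1]
  have x0 : 0 ≤ (η t' + g t') / S.ms t' := div_nonneg (by linarith) m1.le
  have x1 : 0 ≤ Y / √(S.ms t') := by positivity
  have B0 : 0 ≤ B := by linarith
  have e1 : η t' + g t' ≤ 16 * (B * r ^ 2) := by
    have : (η t' + g t') / S.ms t' ≤ B := by linarith
    rw [div_le_iff₀ m1] at this
    linarith [mul_le_mul_of_nonneg_left (r2 ▸ mq t' a3) B0]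
  have e2 : Y ≤ 4 * (B * r) := by
    have : Y / √(S.ms t') ≤ B := by linarith
    rw [div_le_iff₀ q0] at this
    linarith [mul_le_mul_of_nonneg_left q1 B0]
  have e3 : 1 / (S.n : ℝ) ≤ B := by
    have : η t' + g t' ≤ (η t' + g t') / S.ms t' :=
      le_div_self (by linarith) m1 ((h.ms1 _).trans F.θ1)
    linarith
  have f1 : ∀ y, 0 ≤ y → L ^ 5 * (B * y) ≤ L ^ 5 * (p + B) * y := fun y hy => by
    have : 0 ≤ L ^ 5 * (p * y) := by positivity
    linarith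
  have f2 : ∀ c y, 0 ≤ y → c ≤ L ^ 5 → c * (B * y) ≤ L ^ 5 * (p + B) * y := fun c y hy hc =>
    (mul_le_mul_of_nonneg_right hc (by positivity)).trans (f1 y hy)
  have L5 : 1 ≤ L ^ 5 := one_le_pow₀ L1'
  have f3 : B ≤ L ^ 5 * (p + B) := by simpa using f2 1 1 zero_le_one L5
  have vn := G.vn
  have lg := G.lg
  have lg1 := G.lg1
  have C3 : S.C ≤ S.C ^ 3 := le_self_pow₀ C1 (by norm_num)
  have LC := G.LC
  have rt : r ≤ √(S.ms t) := sqrt_le_sqrt (h.msm (by linarith))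
  have p1 := pk 1 2 rfl
  have p2 := pk 2 3 rfl
  have p4 := pk 4 5 rfl
  have p25 := pw 3 5 (by norm_num)
  rw [pow_one] at p1
  refine ⟨by linarith, LC, G.LK, G.LT, r0, r2, r2 ▸ mq b' hb, ?_, by linarith, by positivity, ?_, ?_,
    ?_, ?_, ?_, ?_, ?_, by linarith, ?_, ?_, ?_, ?_, ?_⟩
  · have := mul_le_mul_of_nonneg_right (show 2 ≤ L ^ 67 by linarith [pw 1 67 (by norm_num)])
      (sqrt_nonneg (S.ms t))
    linarith [F.ml t t1' tC]
  · rw [← mul_div_assoc, div_le_iff₀ (by positivity)]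
    have := mul_le_mul_of_nonneg_left (pk 10 11 rfl) r0.le
    have : 0 ≤ r * L ^ 10 := by positivity
    linarith
  · rw [← mul_div_assoc, div_le_one (lt_of_lt_of_le (by positivity) F.Lg1)]
    linarith [pw 4 67 (by norm_num), F.Lg1]
  · have a4 := H.ln.th2 t' a1 a2
    have a5 := H.ln.th3
    rw [mf, H.lt.F1, div_one] at a4 a5
    have a6 := mul_le_mul_of_nonneg_right G.LE Y0
    have a7 : E * Y ≤ 32 * r ^ 2 := by rw [r2, hY]; linarith [mq t' a3, h.msm a1]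
    have a8 := mul_le_mul_of_nonneg_right (((mul_le_mul_of_nonneg_left (pk 6 7 rfl)
      (by norm_num : (0 : ℝ) ≤ 1000)).trans (pk 7 8 rfl)).trans (pw 8 67 (by norm_num))) Y0
    have : 0 ≤ L ^ 6 * Y := by positivity
    linarith
  · have a4 : L ^ 3 * (2 * log S.n * (2 * L ^ 3 * (4 * r / L ^ 11))) = 16 * log S.n * r / L ^ 5 := by
      field_simp; ring
    rw [a4, div_le_iff₀ (by positivity)]
    linarith [mul_le_mul_of_nonneg_left (show 16 * log S.n ≤ L ^ 5 by linarith) r0.le]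
  · have a4 := h.ms_ge (half_pos t0).le
    rw [rpow_neg_one, ← one_div] at a4
    have : S.ms (t / 2) ≤ r :=
      Real.le_sqrt_of_sq_le (by nlinarith [(h.ms1 (t / 2)).trans F.θ1])
    linarith
  · exact (le_add_of_nonneg_right B0).trans (le_mul_of_one_le_left (by positivity) L5)
  · have := f2 S.C 1 zero_le_one (by linarith)
    linarith [mul_le_mul_of_nonneg_left (vn.trans e3) h.C0.le]
  · have := f2 (4096 * L) _ (sq_nonneg r) (by linarith)
    linarith [mul_le_mul_of_nonneg_left (show η t' ≤ 16 * (B * r ^ 2) by linarith) L0.le]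
  · linarith [f2 16 _ (sq_nonneg r) (by linarith)]
  · have a4 : 1 / ((m : ℝ) + 1) ≤ 1 / S.n := one_div_le_one_div_of_le n0
      (by have : (S.n : ℝ) ≤ m := by exact_mod_cast F.at'.mem.m1
          linarith)
    linarith [f2 16 _ (sq_nonneg r) (by linarith)]
  · have a4 := f2 (256 * L ^ 4) _ r0.le (by linarith [pow_pos L0 4])
    have a5 := mul_le_mul_of_nonneg_right lg (by positivity : 0 ≤ L ^ 3 * Y)
    linarith [mul_le_mul_of_nonneg_left e2 (pow_pos L0 4).le]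
  · have : exp (-(2 * log S.n)) ≤ 1 / S.n := by
      rw [one_div, ← exp_log (inv_pos.2 n0), log_inv]
      exact exp_le_exp.2 (by linarith)
    linarith

set_option maxHeartbeats 1600000 in
/-- **`TkA` at a fixed size** -/
theorem tkA_at (T0 : ℝ) : ∃ K : ℝ, ∀ {S : Sc} {M : Md} {m : ℕ} {a : ℝ}
    {E L G1 u1 u2 j γ Lc ηc τ l0 l X Xp Vt Lg Lp X2 X3 X4 G0 N t1 tu ℓ En p0 : ℝ} {η g : ℝ → ℝ},
    2 * S.C = T0 → Cl S M → S.In m a → Rg K E L S →
    Hy E S M m a G1 u1 u2 j γ Lc ηc τ l0 l X Xp Vt Lg Lp X2 X3 X4 G0 η N g t1 tu ℓ En p0 →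
    ∀ Gn : ℕ → Prop,
    (∀ U V, 5 / 4 * l ≤ M.s U → M.s V + ℓ / 5 ≤ tu → Nt E L S M m a Lg X X2 η Gn U V) →
    ∀ p x y V, 3 / 2 * l ≤ x → M.s V + ℓ / 4 ≤ tu → sb M m a (V + 1) + ℓ / 4 ≤ tu →
    y ≤ sb M m a (V + 1) → (∀ t, x ≤ t → t ≤ y → Hq S M m a t ≤ p) →
    ∀ t, x + L ^ 17 * √(S.ms t) ≤ t → t + L ^ 17 * √(S.ms t) ≤ y →
    ∀ t', l ≤ t' → t' ≤ tu → t' ≤ 2 * t → t ≤ 2 * t' →
      |uq S M m a t| ≤ L ^ 17 * (p + bs S Lg X2 (g t') η t') := by
  obtain ⟨K, -, HK⟩ := Nw.main T0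
  refine ⟨K, fun {S M m a E L G1 u1 u2 j γ Lc ηc τ l0 l X Xp Vt Lg Lp X2 X3 X4 G0 N t1 tu ℓ En p0 η g}
    hT h hm G H Gn hN p x y V hx hV hV' hy hp t ht ht' t' a1 a2 a3 a4 => ?_⟩
  subst hT
  have F := fc h hm G H
  have A := F.at'
  have L1 := G.L1
  have L0 : 0 < L := by linarith
  have L1' : 1 ≤ L := by linarith
  have l0' := F.l0
  have tu1 := H.lt.tu1
  have sJ : M.s S.J ≤ S.C := h.s_le_C h.i3
  have ℓ0 : 0 < ℓ := lt_of_lt_of_le (mul_pos (pow_pos L0 _) (sqrt_pos.2 (h.ms_pos l0'.le))) F.ℓ1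
  have x0 : 0 ≤ L ^ 17 * √(S.ms t) := by positivity
  have t0 : 0 < t := by linarith
  have q0 : 0 < √(S.ms t) := sqrt_pos.2 (h.ms_pos t0.le)
  have x1 : 0 < L ^ 17 * √(S.ms t) := by positivity
  have p0' : 0 ≤ p := (Hp_nn A t).trans (hp t (by linarith) (by linarith))
  obtain ⟨i0, i1, i01, g0, g1, s0, s1, b0, b1⟩ := ends G F tu1 H.ln.X0.le hN hV (by linarith) (by linarith)
  have Nd := hN i0 i1 s0 s1
  have m0 := h.ms_pos (half_pos t0).le
  have mq : ∀ s, s ≤ 2 * t → S.ms s ≤ 16 * S.ms (t / 2) := fun s hs => by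
    have := h.ms_pow (half_pos t0).le 2
    norm_num at this
    exact (h.msm (by linarith)).trans this
  have nk' := fun (b' : ℝ) (hb : b' ≤ 2 * t) =>
    nk G F H (by linarith : l ≤ t) (by linarith) hb p0' a1 (by linarith) a3
  set r := √(S.ms (t / 2)) with hr
  have r0 : 0 < r := sqrt_pos.2 m0
  have r2 : r ^ 2 = S.ms (t / 2) := sq_sqrt m0.le
  have rt : r ≤ √(S.ms t) := sqrt_le_sqrt (h.msm (by linarith))
  have pw : ∀ i k : ℕ, i ≤ k → L ^ i ≤ L ^ k := fun i k => pow_le_pow_right₀ L1'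
  set w := 2 * log S.n * L * r with hw
  have lg := G.lg
  have lg1 := G.lg1
  have w1 : r ≤ w := le_mul_of_one_le_left r0.le (one_le_mul_of_one_le_of_one_le (by linarith) L1')
  have w2 : 28 * w ≤ L ^ 17 * √(S.ms t) := by
    have b2 : 56 * log S.n * L ≤ L ^ 17 := by
      have := mul_le_mul (show 56 ≤ L by linarith) (mul_le_mul_of_nonneg_right lg L0.le)
        (by positivity) L0.le
      linarith [pw 3 17 (by norm_num)]
    linarith [mul_le_mul b2 rt r0.le (by positivity)]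
  have w3 : L ^ 17 * √(S.ms t) ≤ t :=
    (mul_le_mul_of_nonneg_right (pw 17 67 (by norm_num)) q0.le).trans (F.ml t (by linarith) (by linarith))
  have kJ : ∀ k, k ≤ i1 → k < S.J := fun k hk => lt_of_not_ge fun c => by
    linarith [h.sm (c.trans hk)]
  have lo : ∀ k, i0 ≤ k → k ≤ i1 → 15 / 16 * M.s k ≤ sb M m a (k + 1) ∧
      (M.s k + l / 8 ≤ M.s S.J → sb M m a (k + 1) ≤ 17 / 16 * M.s k) := fun k p q =>
    F.loc k (kJ k q) (by linarith [h.sm p]) (by linarith [h.sm q])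
  have Γr : 4 * r / L ^ 11 ≤ r := by
    rw [div_le_iff₀ (by positivity)]
    linarith [mul_le_mul_of_nonneg_left (show 4 ≤ L ^ 11 by linarith [pw 1 11 (by norm_num)]) r0.le]
  have sh : ∀ i k, Nx Gn i0 i1 i k → sb M m a (i + 1) ≤ t + 7 * w →
      sb M m a (k + 1) - sb M m a (i + 1) ≤ 4 * r / L ^ 11 := fun i k n c => by
    have d0 := sub_nonneg.2 (A.sb_mono (Nat.succ_le_succ n.2.1))
    have d1 := Nd.sh i k n
    have d2 := mq (M.s i) (by linarith [(lo i n.1 (n.2.1.trans n.2.2.1)).1])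
    have d3 := pow_le_pow_left₀ (h.ms_pos (h.s_nn i)).le d2 3
    refine le_of_pow_le_pow_left₀ (n := 6) (by norm_num) (by positivity) ?_
    rw [div_pow, le_div_iff₀ (by positivity)]
    refine le_of_mul_le_mul_left ?_ L0
    have d4 := mul_le_mul_of_nonneg_right G.LE (pow_nonneg d0 6)
    have d5 := mul_le_mul_of_nonneg_left d3 L0.le
    rw [← r2] at d5
    linarith only [d1, d4, d5]
  obtain ⟨i', u, n1, c1, c2⟩ := exists_nx (σ := fun k => sb M m a (k + 1)) (t := t - 7 * w) i01 g0 g1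
    (by linarith) (by linarith [A.sb_mono (Nat.succ_le_succ b1)])
  obtain ⟨v, k', n2, c3, c4⟩ := exists_nx (σ := fun k => sb M m a (k + 1)) (t := t + 7 * w) i01 g0 g1
    (by linarith) (by linarith [A.sb_mono (Nat.succ_le_succ b1)])
  have c5 := (sh _ _ n1 (by linarith)).trans Γr
  have c6 := (sh _ _ n2 c3).trans Γr
  have hu : i0 ≤ u := n1.1.trans n1.2.1
  have hv : v ≤ i1 := n2.2.1.trans n2.2.2.1
  have uv : u ≤ v := le_of_not_gt fun c => by linarith [A.sb_mono (Nat.succ_le_succ c.le)]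
  have su : t / 2 ≤ M.s u := le_of_not_gt fun c => by
    linarith [(lo u hu (uv.trans hv)).2 (by linarith)]
  have sv : M.s v ≤ 2 * t := by linarith [(lo v (hu.trans uv) hv).1]
  have X0 := F.X2
  have mlq : ∀ s, l ≤ s → s ≤ S.C → √(S.ms s) ≤ s := fun s p q =>
    (le_mul_of_one_le_left (sqrt_nonneg _) (one_le_pow₀ L1')).trans (F.ml s p q)
  have nd : ∀ i, u ≤ i → i ≤ v → η (M.s i) ≤ 256 * η t' ∧ 0 ≤ uw S Lg (M.s i) ∧
      uw S Lg (M.s i) ^ 2 ≤ 16 * uw S Lg t' ^ 2 := fun i p q => by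
    have d1 := h.sm p
    have d2 := h.sm (hu.trans p)
    obtain ⟨d3, d4⟩ := uw_le h H.lt.F1 Lg (s := M.s i) (t := t') (by linarith)
      (mlq _ a1 (by linarith)) (mlq _ (by linarith) (h.s_le_C ((kJ i (q.trans hv)).le.trans h.i3)))
      (by linarith)
    have d5 := H.ln.ηa (show t' / 4 ≤ M.s i by linarith)
    have d6 := H.ln.η2 (t' / 4) (by linarith)
    have d7 := H.ln.η2 (2 * (t' / 4)) (by linarith)
    rw [show 2 * (2 * (t' / 4)) = t' by ring] at d7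
    exact ⟨by linarith, d3, by linarith [pow_le_pow_left₀ d3 d4 2]⟩
  have Lg0 : 0 < Lg := lt_of_lt_of_le (by positivity) F.Lg1
  have η0 : 0 ≤ η t' := le_trans (by have := h.N0; positivity) (F.ηn t' a1 (by linarith))
  have L3 : L ≤ L ^ 3 := le_self_pow₀ L1' (by norm_num)
  have W : Nw S M m a (2 * S.C) Gn u v (t / 2) (max (M.s v) (sb M m a (v + 1))) (S.C * S.v) (L / Lg)
      (256 * L * η t') (32 * L ^ 3 * (X2 + uw S Lg t' ^ 2)) (2 * L ^ 3) (g t')
      fun y => L * E61.u4 M m a y ^ 2 := by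
    refine ⟨A, lt_of_not_ge fun c => ?_, uv, n1.2.2.2.2.1, n2.2.2.2.1, half_pos t0,
      max_lt (by linarith [h.sm hv]) (by linarith), su, le_max_left _ _, by linarith,
      le_max_right _ _, (mul_pos h.C0 h.v0).le, by positivity, by positivity, by positivity,
      by positivity, fun i k n => Nd.gap i k (n.up hu hv), fun i k y n p q => ?_,
      fun i k p q s gi gk => ?_, fun k p q _ => H.lt.g1 t' k ?_ (kJ k (q.trans hv))
        (by linarith [h.sm (hu.trans p)]) (by linarith [h.sm q]) (by linarith [h.sm (q.trans hv)])⟩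
    · nlinarith [h.sm c, h.sm hu, F.jl, h.s_nn S.jl]
    · obtain ⟨-, d1, d2⟩ := nd i n.1 (n.2.1.trans n.2.2.1)
      have d3 := pow_le_pow_left₀ (sqrt_nonneg _) (Nd.u4 i k y (n.up hu hv) p q) 2
      have d4 : (uw S Lg (M.s i) + (sb M m a (k + 1) - sb M m a (i + 1))) ^ 2 ≤
          32 * uw S Lg t' ^ 2 + 2 * (sb M m a (k + 1) - sb M m a (i + 1)) ^ 2 := by
        linarith [sq_nonneg (uw S Lg (M.s i) - (sb M m a (k + 1) - sb M m a (i + 1)))]
      have d5 := mul_le_mul_of_nonneg_left d4 (pow_pos L0 3).le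
      have d6 := mul_le_mul_of_nonneg_left d3 L0.le
      have d7 : 0 ≤ L ^ 3 * X2 := by positivity
      change L * E61.u4 M m a y ^ 2 ≤ _ at d6
      linarith only [d5, d6, d7]
    · obtain ⟨d1, -, d2⟩ := nd i p (q.trans s)
      refine (Nd.e1 i k (hu.trans p) q (s.trans hv) gi gk).trans ?_
      have d3 : L * ∑ y ∈ Ioo i k, M.dz m a y * E61.u4 M m a y ^ 2 =
          ∑ y ∈ Ioo i k, (M.z y - M.z (y - 1)) * (L * E61.u4 M m a y ^ 2) := by
        rw [mul_sum]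
        refine sum_congr rfl fun y hy => ?_
        rw [Md67.dz_up h.leg (Nat.zero_lt_of_lt (mem_Ioo.1 hy).1)]; ring
      have d0 := sub_nonneg.2 (A.sb_mono (Nat.succ_le_succ q))
      have d4 : L * uw S Lg (M.s i) ^ 2 ≤ 32 * L ^ 3 * (X2 + uw S Lg t' ^ 2) := by
        have e1 := mul_le_mul L3 d2 (sq_nonneg _) (pow_pos L0 3).le
        have e2 : 0 ≤ L ^ 3 * X2 := by positivity
        have e3 : 0 ≤ L ^ 3 * uw S Lg t' ^ 2 := by positivity
        linarith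
      have d5 : L * X2 ≤ 32 * L ^ 3 * (X2 + uw S Lg t' ^ 2) := by
        have e1 := mul_le_mul_of_nonneg_right L3 X0
        have e2 : 0 ≤ L ^ 3 * X2 := by positivity
        have e3 : 0 ≤ L ^ 3 * uw S Lg t' ^ 2 := by positivity
        linarith
      have d6 := mul_le_mul_of_nonneg_right d4 (add_nonneg
        (abs_nonneg (T156.L0.Gd (lb M S m a (2 * S.C)) (sb M m a (i + 1))))
        (abs_nonneg (T156.L0.Gd (lb M S m a (2 * S.C)) (sb M m a (k + 1)))))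
      have d7 := mul_le_mul_of_nonneg_right d5 d0
      have d8 := mul_le_mul_of_nonneg_left d1 L0.le
      simp only [Nat.succ_eq_add_one] at d7
      linarith only [d3, d6, d7, d8]
    · exact lt_of_not_ge fun c => by nlinarith [h.sm c, h.sm (hu.trans p), F.jl, h.s_nn S.jl]
  have fin := HK W le_rfl (nk' _ (max_le sv (by linarith)))
    (fun i k n => sh i k (n.up hu hv)
      ((A.sb_mono (Nat.succ_le_succ (n.2.1.trans n.2.2.1))).trans c3))
    (fun s hs => hp s (by linarith [hs.1]) (by linarith [hs.2])) (by linarith) t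
    ⟨by linarith, by linarith⟩
  exact fin.trans_eq (by ring)

end T20

open T20

/-- **(A)** -/
theorem tkA_of (H : NdT) : TkA := by
  unfold TkA
  refine CL.glue' H (fun E Λ Λ' S M m a h1 h2 h G1 u1 u2 j γ Lc ηc τ l0 l X Xp Vt Lg Lp X2 X3 X4 G0 η
    N g t1 tu ℓ En p0 hy p x y V b1 b2 b3 b4 b5 t c1 c2 t' d1 d2 d3 d4 => ?_) 2 le_rfl 67 17
    fun C A ε η hε hη => ?_
  · have e := mul_le_mul_of_nonneg_right h2 (sqrt_nonneg (S.ms t))
    have := h _ _ _ _ _ _ _ _ _ _ _ _ _ _ _ _ _ _ _ _ _ _ _ _ _ _ _ hy p x y V b1 b2 b3 b4 b5 t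
      (by linarith) (by linarith) t' d1 d2 d3 d4
    exact this.trans (mul_le_mul_of_nonneg_right h2
      (nonneg_of_mul_nonneg_right ((abs_nonneg _).trans this) (by linarith)))
  obtain ⟨K, HK⟩ := tkA_at (2 * C)
  refine ⟨max (max (32 * C ^ 3) (K * C)) (exp (4 * (2 * C))),
    fun S M m a G _ e1 _ h hm P G1 u1 u2 j γ Lc ηc τ l0 l X Xp Vt Lg Lp X2 X3 X4 G0 η' N g t1 tu ℓ En
      p0 hy => ?_⟩
  rw [pow_one] at hy
  obtain ⟨Gn, hN⟩ := P _ _ _ _ _ _ _ _ _ _ _ _ _ _ _ _ _ _ _ _ _ _ _ _ _ _ _ hy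
  have k := G.K_le
  have n0 := G.N0
  refine HK (by rw [G.hC]) h hm ⟨G.num_le, ?_, ?_, ?_, G.log_le, G.log1, ?_, ?_⟩ hy Gn hN
  · rw [G.hC]; exact ((le_max_left _ _).trans (le_max_left _ _)).trans k
  · rw [G.hC]; exact ((le_max_right _ _).trans (le_max_left _ _)).trans k
  · rw [G.hC, exp_neg, ← div_eq_inv_mul, one_le_div (exp_pos _)]; exact (le_max_right _ _).trans k
  · rw [← rpow_natCast, ← rpow_mul n0.le]
    exact rpow_le_rpow_of_exponent_le G.N1.le (by rw [mul_comm]; exact e1)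
  · have a1 : S.C ≤ S.n := by
      have := G.C_log
      rw [← G.hC] at this
      linarith [log_le_sub_one_of_pos n0, h.C0]
    have a2 : (S.n : ℝ) ^ 2 ≤ (S.n : ℝ) ^ S.A := pow_le_pow_right₀ G.N1.le (G.hA ▸ G.A2)
    have a3 := (mul_le_mul_of_nonneg_left a2 h.v0.le).trans (h.v2.trans a1)
    rw [le_div_iff₀ n0]
    exact le_of_mul_le_mul_right (by linarith) n0

end Crest.Agent.T156.Alt.L63

end
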