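import Crest.Agent.T156.ClE1b_61

/-!
# Row 156, block (L): the test nodes of (E1) for a coarser mesh (helper33)
-/

set_option autoImplicit false

noncomputable section

namespace Crest.Agent.T156.Alt.Ms33

open Real Finset
open Crest.Agent.T157.E Crest.Agent.T157.Casc Crest.Agent.T157.SL
open Crest.Agent.T156.Cas Crest.Agent.T156.Cas.Sy41 Crest.Agent.T156.Cas.Q33
open Crest.Agent.T156.Alt.Md67 Crest.Agent.T156.Alt.Mp9 Crest.Agent.T156.Alt.E61

variable {S : Sc} {M : Md} {m : ℕ} {a ms ms' : ℝ} {u : ℕ → ℝ}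

theorem pb_ms (G : Lg M m a) (h0 : 0 < ms) (h1 : 2600 * ms' ≤ M.z 0) (k : ℕ) :
    pb M m a ms' k ≤ 2 * pb M m a ms k := by
  have s := sb_nn G k
  have z := G.zm (Nat.zero_le k)
  have z0 := G.z_nonneg k
  have r := rb_nonneg (M := M) (a := a) G.m0 k
  have : min 1 (2600 * (sb M m a (k + 1) + ms')) ≤
      min 1 (2600 * (sb M m a (k + 1) + ms)) + M.z k := by
    rcases le_total 1 (2600 * (sb M m a (k + 1) + ms)) with h | h
    · rw [min_eq_left h]; linarith [min_le_left 1 (2600 * (sb M m a (k + 1) + ms'))]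
    · rw [min_eq_right h]; linarith [min_le_right 1 (2600 * (sb M m a (k + 1) + ms'))]
  have : 0 ≤ min 1 (2600 * (sb M m a (k + 1) + ms)) := le_min zero_le_one (by positivity)
  unfold pb
  linarith

theorem pb_pz (G : Lg M m a) (h0 : 0 < ms) {k : ℕ} (hk : k < M.N) :
    pb M m a ms k ≤ 2600 * (eD M m a u ms).pz (k + 1) := by
  have e : (eD M m a u ms).sg (k + 1) = sb M m a (k + 1) + ms :=
    congrArg (· + ms) (tm_eq (u := u) (ms := ms) G hk)
  have s := add_pos_of_nonneg_of_pos (sb_nn G k) h0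
  have z0 := G.z_nonneg k
  have r := rb_nonneg (M := M) (a := a) G.m0 k
  rw [E91.Dat.pz, e, eD_q hk, eD_L, ex_succ G.toLeg, pb]
  set σ := sb M m a (k + 1) + ms
  have b : σ ≤ Ker15.PB 6 σ := by
    have := one_le_exp (show 0 ≤ 1 / 2 + √σ by positivity)
    rw [Ker15.PB]
    push_cast
    nlinarith
  have : min 1 (2600 * σ) ≤ 2600 * min 1 (Ker15.PB 6 σ) := by
    rcases le_total 1 (Ker15.PB 6 σ) with h | h
    · rw [min_eq_left h]; linarith [min_le_left 1 (2600 * σ)]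
    · rw [min_eq_right h]; linarith [min_le_right 1 (2600 * σ)]
  linarith

theorem gm_ms (G : Lg M m a) (h0 : 0 < ms) (h0' : 0 < ms') (h1 : 2600 * ms' ≤ M.z 0) {i j : ℕ}
    (hi : i ≤ j) (hj : j ≤ M.N) {g : ℝ} (h : (eD M m a u ms).Gm (i + 1) g) :
    (eD M m a u ms').Gm (j + 1) (5200 * g) := by
  refine ⟨by linarith [h.1], fun φ p q => ?_⟩
  have := h.2 (fun y => φ y / 5200) (fun y => ?_) (fun y hy => by rw [q y hy, zero_div])
  · have e : ∀ f : ℕ → ℝ, ((eD M m a u ms').I fun y => φ y * f y) ^ 2 =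
        5200 ^ 2 * ((eD M m a u ms).I fun y => φ y / 5200 * f y) ^ 2 := fun f => by
      rw [← mul_pow, E91.Dat.I, E91.Dat.I, mul_sum]
      exact congrArg (· ^ 2) (sum_congr rfl fun y _ => by rw [eD_L, eD_L]; ring)
    simp only [e, Pe.pE_const_mul, mul_pow]
    exact ⟨mul_le_mul_of_nonneg_left this.1 (by norm_num),
      mul_le_mul_of_nonneg_left this.2 (by norm_num)⟩
  · rw [abs_div, abs_of_pos (by norm_num : (0 : ℝ) < 5200), div_le_iff₀ (by norm_num)]
    have p' := p y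
    unfold E91.Dat.gz at p' ⊢
    rcases y with _ | k
    · rw [q 0 eD_t0, abs_zero, if_pos (Nat.succ_pos _)]
      have : 0 ≤ (eD M m a u ms).pz 0 := by
        refine add_nonneg (add_nonneg (le_min zero_le_one (Ker15.PB_nonneg _ ?_)) le_rfl) G.a0
        show 0 < Ker15.tm _ 0 + ms
        simpa [Ker15.tm, cacc] using h0
      positivity
    by_cases c : k < i
    · have hk : k < M.N := by omega
      rw [if_pos (by omega)] at p' ⊢
      linarith [pz_le (u := u) G h0' hk, pb_ms G h0 h1 k, pb_pz (u := u) G h0 hk]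
    rw [if_neg (by omega)]
    split_ifs at p' with d
    · have hk : k < M.N := by omega
      linarith [pz_le (u := u) G h0' hk, pb_le (ms := ms') G k]
    · linarith

/-- **a test node for the coarser mesh** -/
theorem tn_ms (G : Lg M m a) (h0 : 0 < ms) (h2 : ms ≤ ms') (h1 : 2600 * ms' ≤ M.z 0)
    (i4 : S.Jp ≤ M.N) {j : ℕ} {g : ℝ} (T : Tn S M m a u ms j g) : Tn S M m a u ms' j (5200 * g) :=
  ⟨T.lo, T.hi, T.dz.trans h2, gm_ms G h0 (h0.trans_le h2) h1 le_rfl (T.hi.trans i4) T.gm⟩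

theorem n3_ms (G : Lg M m a) (hu : Mj M m a u) (h0 : 0 < ms) (h1 : 2600 * ms' ≤ M.z 0) {i j : ℕ}
    (hi : i ≤ j) : n3 true M m a u ms' j ≤ 3 * n3 true M m a u ms i := by
  simp only [n3, if_true, N3, mul_sum]
  refine sum_le_sum fun k _ => ?_
  have := mul_nonneg (G.dz_nonneg k) (pow_nonneg (hu.u0 k).1 3)
  split_ifs
  · nlinarith [pb_ms G h0 h1 k, pb_nn G h0 k]
  · nlinarith [pb_le (ms := ms') G k]
  · omega
  · nlinarith

theorem n3_nn (G : Lg M m a) (hu : Mj M m a u) (h0 : 0 < ms) (j : ℕ) :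
    0 ≤ n3 true M m a u ms j := by
  simp only [n3, if_true, N3]
  refine sum_nonneg fun k _ => mul_nonneg (G.dz_nonneg k) (mul_nonneg ?_ (pow_nonneg (hu.u0 k).1 3))
  split_ifs
  exacts [pb_nn G h0 k, zero_le_one]

theorem VVn_nn (G : Lg M m a) (j : ℕ) : 0 ≤ VVn M m a j :=
  sum_nonneg fun k _ => mul_nonneg (G.dz_nonneg k) (Eg33.vt_nonneg Link33.wt1 _ _ _ _ _)

/-- **the node error for the coarser mesh** -/
theorem en_ms (G : Lg M m a) (hu : Mj M m a u) (h0 : 0 < ms) (h0' : 0 ≤ ms')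
    (h1 : 2600 * ms' ≤ M.z 0) {j : ℕ} (hj : j < M.N) (g : ℝ) (g0 : 0 ≤ g) :
    en M m a u ms' (n3 true M m a u ms' j) (5200 * g) j ≤
      5200 * en M m a u ms (n3 true M m a u ms j) g j + 61441 * ms' := by
  have u0 := hu.u0 j
  have r4 : r2 M m a j ≤ 4 := (r2_le G.m0 j).trans ((U2_le hu hj).trans (by nlinarith))
  have a1 := mul_le_mul_of_nonneg_left r4 (show 0 ≤ 15360 * ms' by positivity)
  have a2 := mul_le_mul_of_nonneg_right (pb_ms G h0 h1 j) (Vn_nn (M := M) (m := m) (a := a) j)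
  have a3 := n3_ms G hu h0 h1 (le_refl j)
  have p1 : 0 ≤ ms * r2 M m a j := mul_nonneg h0.le (r2_nn j)
  have p2 := mul_nonneg (pb_nn G h0 j) (Vn_nn (M := M) (m := m) (a := a) j)
  have p3 := VVn_nn G j
  have p4 := pow_nonneg u0.1 3
  have p5 := n3_nn G hu h0 j
  have n1 := Nu_nn G hu 1
  have p6 : 0 ≤ (u j + Nu M m a u 1) * (Nu M m a u 2 + Nu M m a u 1 ^ 2) :=
    mul_nonneg (add_nonneg u0.1 n1) (add_nonneg (Nu_nn G hu 2) (sq_nonneg _))
  have p7 := Nu_nn G hu 4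
  have := g0
  unfold en
  linarith

end Crest.Agent.T156.Alt.Ms33

end
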