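import Crest.Agent.T156.GapB_27
import Crest.Agent.T156.CutB_8

/-!
Row 156 (helper27): the bulk part of the energy input `Cut8.Res` from good times.
-/

set_option autoImplicit false

namespace Crest.Agent.T156.Gap27

open MeasureTheory Set
open Crest.Agent.R164.GC Crest.Agent.R339.B Crest.Agent.R339.Var Crest.Agent.T157.Pf
open Crest.Agent.T156.L0 Crest.Agent.T156.Cut8

noncomputable section

/-- the numeric condition at a level: quartic form or mass form -/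
def Num (θ m f A0 A1 A2 : ℝ) : Prop :=
  (∃ lam, 0 ≤ lam ∧ A0 ≤ θ * lam ^ 3 ∧ A1 + A2 ^ 2 / θ ≤ θ * lam ^ 2 ∧ 2 * lam ^ 4 ≤ f) ∨
    (0 < m ∧ 0 ≤ A0 ∧ A0 ^ 2 ≤ θ ^ 2 * m * f ∧ A1 + A2 ^ 2 / θ ≤ θ * m)

/-- the bound of the pairing -/
def xi (θ m f ι d J : ℝ) : ℝ := θ * (2 * d ^ 4 + 2 * m * d ^ 2 + J ^ 2 + ι ^ 2 + f)

theorem xi_nn {θ m f ι d J : ℝ} (hθ : 0 ≤ θ) (hm : 0 ≤ m) (hf : 0 ≤ f) : 0 ≤ xi θ m f ι d J := by
  unfold xi; positivity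

theorem xi_pt {θ m f A0 A1 A2 r β d J ι : ℝ} (hθ : 0 < θ) (hm : 0 ≤ m) (hβ : 0 ≤ β)
    (h : |r| + β ≤ A0 + A1 * |d| + A2 * (|J| + ι)) (hN : Num θ m f A0 A1 A2) :
    r * d + β * |d| ≤ xi θ m f ι d J := by
  have e : r * d + β * |d| ≤ (|r| + β) * |d| := by
    have := le_abs_self (r * d)
    rw [abs_mul] at this
    linarith
  have h' : |(|r| + β)| ≤ A0 + A1 * |(|d|)| + A2 * (|J| + ι) := by
    rw [abs_abs, abs_of_nonneg (add_nonneg (abs_nonneg _) hβ)]; exact h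
  have e2 : |d| ^ 2 = d ^ 2 := sq_abs d
  have e4 : |d| ^ 4 = d ^ 4 := by rw [show |d| ^ 4 = (|d| ^ 2) ^ 2 by ring, e2]; ring
  unfold xi
  rcases hN with ⟨lam, l0, a, b, c⟩ | ⟨m0, a0, a, b⟩
  · have := young4 hθ l0 h' a b
    rw [e4] at this
    refine e.trans (this.trans (mul_le_mul_of_nonneg_left ?_ hθ.le))
    have : 0 ≤ 2 * m * d ^ 2 := by positivity
    linarith
  · have := young2 hθ m0 a0 h' a b
    rw [e2] at this
    refine e.trans (this.trans (mul_le_mul_of_nonneg_left ?_ hθ.le))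
    have : 0 ≤ 2 * d ^ 4 := by positivity
    linarith

/-- a gap `[p, q]` around the time `t` with its numbers; `e` bounds all extra pointwise errors -/
def GapAt (lb lh : List (ℝ × ℝ)) (T C b θ : ℝ) (φ : ℝ → ℝ) (m f e t : ℝ) : Prop :=
  ∃ p q Gm Dz jh D η ω : ℝ, 0 ≤ p ∧ p ≤ t ∧ t ≤ q ∧ q ≤ T ∧ q - p ≤ Gm ∧ 0 ≤ ω ∧
    lvr 1 lb q - lvr 1 lb p + (lvr 1 lh q - lvr 1 lh p) ≤ Dz ∧
    (∀ s ∈ Icc p q, |Gd lh s| ≤ jh) ∧ (∀ s ∈ Icc p q, |φ s - φ p| ≤ D) ∧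
    |Pr.Gam lb p - p / b + φ p| ≤ η + ω * |Gd lb p| ∧
    |Pr.Gam lb q - q / b + φ q| ≤ η + ω * |Gd lb q| ∧
    Num θ m f (3 * η + 2 * D + e + (3 * ω + 2 * Gm ^ 2) * (jh + (2 + 3 * C * Gm) * Dz))
      ((3 * ω + 2 * Gm ^ 2) * (2 + 3 * C * Gm)) (3 * C * (3 * ω + 2 * Gm ^ 2))

variable {lb lh : List (ℝ × ℝ)} {T C b θ : ℝ}

/-- the pointwise field `pair` of `Res` -/
theorem pair_pt (hC : 0 ≤ C) (hA : HLip Pr.AA T C) (hN : HLip Pr.NN T C) (hb : Pr.Ok lb)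
    (hh : Pr.Ok lh) (eb : TT lb = T) (eh : TT lh = T) (hθ : 0 < θ) {φ : ℝ → ℝ}
    {m f e t r β : ℝ} (hm : 0 ≤ m) (hβ : 0 ≤ β) (g : GapAt lb lh T C b θ φ m f e t)
    (hr : |r - (Pr.Gam lb t - t / b + φ t)| + β ≤ e) :
    r * (lvr 1 lb t - lvr 1 lh t) + β * |lvr 1 lb t - lvr 1 lh t| ≤
      xi θ m f (∫ s in (0 : ℝ)..T, |Sc48.Jf lh lb T s|) (lvr 1 lb t - lvr 1 lh t)
        (Sc48.Jf lh lb T t) := by
  obtain ⟨p, q, Gm, Dz, jh, D, η, ω, p0, pt, tq, qT, hG, hω, hz, hj, hD, hp, hq, n⟩ := g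
  have a := gap_pt hC hA hN hb hh eb eh p0 qT hG hω hz hj hD hp hq ⟨pt, tq⟩
  refine xi_pt hθ hm hβ ?_ n
  have := abs_sub_abs_le_abs_sub r (Pr.Gam lb t - t / b + φ t)
  linarith

/-- **bulk `Res`**: `hb` = marks along `lb`, `H` = (clamped) mass term,
`|H - (hb - (t - b Γh)) / b| + β ≤ e` -/
theorem res_bulk (hC : 0 ≤ C) (hA : HLip Pr.AA T C) (hN : HLip Pr.NN T C) (hb : Pr.Ok lb)
    (hh : Pr.Ok lh) (eb : TT lb = T) (eh : TT lh = T) (hθ : 0 < θ) (b0 : b ≠ 0)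
    {hm H r2 ω β m f e : ℝ → ℝ} {A B : ℝ} (hT : 0 ≤ T) (lH : LB T H) (lω : LB T ω) (lm : LB T m)
    (lf : LB T f) (ω0 : ∀ t, A < t → t < B → 0 ≤ ω t)
    (slow : ∀ s t, A ≤ s → s ≤ t → t ≤ B → |r2 t - r2 s| ≤ (∫ u in s..t, ω u) + β s + β t)
    (H0 : ∀ t, A < t → t < B → 0 ≤ H t * (lvr 1 lb t - lvr 1 lh t))
    (nn : ∀ t, A < t → t < B → 0 ≤ m t ∧ 0 ≤ f t ∧ 0 ≤ β t)
    (he : ∀ t, A < t → t < B → |H t - (hm t - (t - b * Pr.Gam lh t)) / b| + β t ≤ e t)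
    (g : ∀ t, A < t → t < B →
      GapAt lb lh T C b θ (fun s => hm s / b - r2 s) (m t) (f t) (e t) t) :
    Res T (fun t => lvr 1 lb t - lvr 1 lh t) (fun t => Pr.Gam lb t - Pr.Gam lh t) H
      (fun t => Pr.Gam lb t - Pr.Gam lh t + H t - r2 t) r2 ω β
      (fun t => xi θ (m t) (f t) (∫ s in (0 : ℝ)..T, |Sc48.Jf lh lb T s|)
        (lvr 1 lb t - lvr 1 lh t) (Sc48.Jf lh lb T t)) A B := by
  have ld : LB T fun t => lvr 1 lb t - lvr 1 lh t :=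
    (LB.of_mono (Sc48.lvr_mono hb.1)).sub (LB.of_mono (Sc48.lvr_mono hh.1))
  have lJ : LB T (Sc48.Jf lh lb T) := .of_cont (ld.tail (right_mem_Icc.mpr hT))
  have l4 : LB T fun t => (lvr 1 lb t - lvr 1 lh t) ^ 4 := by simpa [← pow_mul] using ld.sq.sq
  refine ⟨lH, lω, ?_, fun t _ _ => by ring, ω0, slow, H0,
    fun t x y => xi_nn hθ.le (nn t x y).1 (nn t x y).2.1, fun t x y => ?_⟩
  · exact (LB.const θ).mul ((((((LB.const 2).mul l4).add (((LB.const 2).mul lm).mul ld.sq)).add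
      lJ.sq).add (LB.const _)).add lf)
  · refine pair_pt hC hA hN hb hh eb eh hθ (nn t x y).1 (nn t x y).2.2 (g t x y) ?_
    refine le_trans (le_of_eq ?_) (he t x y)
    congr 2
    field_simp
    ring

/-- the integral of `xi` -/
theorem int_xi {d J m f : ℝ → ℝ} {A B : ℝ} (ld : LB T d) (lJ : LB T J) (lm : LB T m) (lf : LB T f)
    (hA : 0 ≤ A) (hAB : A ≤ B) (hB : B ≤ T) (hθ : 0 ≤ θ) :
    ∫ t in A..B, xi θ (m t) (f t) (∫ s in (0 : ℝ)..T, |J s|) (d t) (J t) ≤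
      θ * (2 * (∫ t in A..B, d t ^ 4) + 2 * (∫ t in A..B, m t * d t ^ 2) +
        (1 + T ^ 2) * (∫ t in (0 : ℝ)..T, J t ^ 2) + ∫ t in A..B, f t) := by
  have ma : A ∈ Icc 0 T := ⟨hA, hAB.trans hB⟩
  have mb : B ∈ Icc 0 T := ⟨hA.trans hAB, hB⟩
  have hT : 0 ≤ T := ma.1.trans ma.2
  have l4 : LB T fun t => d t ^ 4 := by simpa [← pow_mul] using ld.sq.sq
  set ι := ∫ s in (0 : ℝ)..T, |J s|
  have i1 := ((LB.const 2).mul l4).ii ma mb
  have i2 := ((LB.const 2).mul (lm.mul ld.sq)).ii ma mb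
  have i3 := lJ.sq.ii ma mb
  have i4 := (LB.const (T := T) (ι ^ 2)).ii ma mb
  have i5 := lf.ii ma mb
  have e : (fun t => xi θ (m t) (f t) ι (d t) (J t)) =
      fun t => θ * (2 * d t ^ 4 + 2 * (m t * d t ^ 2) + J t ^ 2 + ι ^ 2 + f t) := by
    funext t; unfold xi; ring
  rw [e, intervalIntegral.integral_const_mul,
    intervalIntegral.integral_add (((i1.add i2).add i3).add i4) i5,
    intervalIntegral.integral_add ((i1.add i2).add i3) i4,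
    intervalIntegral.integral_add (i1.add i2) i3, intervalIntegral.integral_add i1 i2,
    intervalIntegral.integral_const_mul, intervalIntegral.integral_const_mul,
    intervalIntegral.integral_const, smul_eq_mul]
  refine mul_le_mul_of_nonneg_left ?_ hθ
  have a := int_sub_le lJ.sq le_rfl hA hAB hB le_rfl fun _ _ _ => sq_nonneg _
  have c := sq_int_le lJ le_rfl hT le_rfl
  rw [sub_zero] at c
  have c2 : (B - A) * ι ^ 2 ≤ T * (T * ∫ t in (0 : ℝ)..T, J t ^ 2) :=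
    mul_le_mul (by linarith) c (sq_nonneg _) hT
  nlinarith

end

end Crest.Agent.T156.Gap27
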