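import Crest.Agent.T156.TxX_84
import Crest.Agent.T156.TxE2_87
import Crest.Agent.T156.TLt_5

/-!
# Row 156, block (L) (helper51): the geometry of the corner pair
-/

set_option autoImplicit false

noncomputable section

namespace Crest.Agent.T156.Alt.X84

open MeasureTheory Set Real
open Crest.Agent.R164.GC Crest.Agent.R339.B Crest.Agent.R339.Var Crest.Agent.T157.Pf
open Crest.Agent.T156.Alt.Mp9 Crest.Agent.T156.Alt.L69 Crest.Agent.T156.Alt.L31

/-- the size `A` of `LC.c5` -/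
def aA (S : Sc) (p : Pa) : ℝ := S.θ + p.j + p.τ + p.γ
/-- the location radius -/
def rR (S : Sc) (M : Md) (p : Pa) : ℝ :=
  p.Xp ^ ((1 : ℝ) / 3) + p.γ + Ve83.Gam S M ^ ((1 : ℝ) / 3)

/-- **the geometry lines of `corner51`** -/
structure Geo (S : Sc) (M : Md) (m : ℕ) (a : ℝ) (c : Dt) (v1 v2 w : ℕ) : Prop where
  j1 : S.jl < v1
  J2 : v2 < S.J
  lo : G89.Lo S M v1
  tp : S.J ≤ v1 + v1 / 3
  jj : ∀ t ∈ Icc 0 (2 * S.C), |Sc48.Jf (lh M (2 * S.C)) (lb M S m a (2 * S.C)) (2 * S.C) t| +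
    ∫ s in (0 : ℝ)..2 * S.C, |Sc48.Jf (lh M (2 * S.C)) (lb M S m a (2 * S.C)) (2 * S.C) s| ≤
      c.D * aA S c.p
  Dd : sb M m a (w + 1) - M.s S.J ≤ c.D ^ 4 * aA S c.p
  Lr : sb M m a (w + 1) - ys S M m a v1 ≤ c.D ^ 45 * S.F * rR S M c.p
  tl : 0 < M.s S.J / 2 ∧ M.s S.J / 2 ≤ sb M m a (v1 + 1) ∧ M.s S.J / 2 ≤ M.s (S.J - 1) ∧
    S.C * S.θ / (M.s S.J / 2) ≤ c.D * aA S c.p
  mu : mf S 1 / c.D * (M.z v2 - M.z v1) ≤ M.H v2 - M.H v1
  rho : M.rb m a v2 - M.rb m a v1 ≤ c.D ^ 45 * S.F * rR S M c.p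
  Cv : S.C * S.v ≤ c.p.τ

variable {E : ℝ} {S : Sc} {M : Md} {m : ℕ} {a : ℝ} {c : Dt}

theorem sq51 {Y d D y : ℝ} (y0 : 0 ≤ y) (D0 : 0 < D) (hd : 1 ≤ D ^ 6 * d) (h : Y ≤ y ^ 2) :
    √(Y / d) ≤ D ^ 3 * y := by
  have d0 : 0 < d := (mul_pos_iff_of_pos_left (by positivity)).1 (one_pos.trans_le hd)
  refine sqrt_le_iff.2 ⟨by positivity, ?_⟩
  rw [div_le_iff₀ d0]
  linarith [mul_le_mul_of_nonneg_left hd (sq_nonneg y)]

theorem cb51 {x : ℝ} (x0 : 0 ≤ x) (x1 : x ≤ 1) :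
    0 ≤ x ^ ((1 : ℝ) / 3) ∧ x ≤ (x ^ ((1 : ℝ) / 3)) ^ 2 ∧ x ≤ x ^ ((1 : ℝ) / 3) := by
  have p0 := rpow_nonneg x0 ((1 : ℝ) / 3)
  have p1 : x ^ ((1 : ℝ) / 3) ≤ 1 := rpow_le_one x0 x1 (by norm_num)
  have p3 := Ve83.cb3 x0
  exact ⟨p0, p3.ge.trans (pow_le_pow_of_le_one p0 p1 (by norm_num)),
    p3.ge.trans (pow_le_of_le_one p0 p1 three_ne_zero)⟩

/-- location of a plateau node -/
theorem Cy.up51 (X : Cy E S M m a c) {w : ℕ} (w1 : S.J ≤ w) (w2 : w ≤ S.Jp)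
    (hw : 1 ≤ c.D ^ 6 * du M w) {Y y : ℝ} (y0 : 0 ≤ y)
    (hY : M.En S m a M.q 2 (M.s S.J / 2) S.C ≤ Y) (h1 : Y ≤ y ^ 2) (h2 : GP M S ≤ y ^ 2) :
    sb M m a (w + 1) - M.s S.J ≤ c.D ^ 4 * (c.p.γ + y) := by
  have A := X.tw.at'
  have h := A.cl
  have Z := X.cw.Z
  have D4 := Z.D4
  have C1 := h.C1
  have γ0 := X.tw.γ0
  have D0 : 0 < c.D := by linarith
  have d0 : 0 < du M w := (mul_pos_iff_of_pos_left (by positivity)).1 (one_pos.trans_le hw)
  have a1 := SzT98.del_up h A.m_pos Z.hθ hY X.hx.lp.γ0 w1 w2 d0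
  have a2 := sq51 y0 D0 hw h1
  have a3 := sq51 y0 D0 hw h2
  have a4 := Nd33.G_up A X.hx.lp.γ0 w1 w2 d0
  have a5 := Nd33.sb_up A X.hx.lp.γ0 w2 (V := c.p.γ + 2 * (c.D ^ 3 * y)) (by positivity)
    (by linarith)
  have a6 := mul_le_mul_of_nonneg_right Z.hθ γ0
  have c1 : 10000 * S.C ≤ c.D := by simpa using Z.Cp (k := 1) (by norm_num)
  have d3 : 1 ≤ c.D ^ 3 := one_le_pow₀ (by linarith)
  have q : 0 ≤ c.D ^ 3 * y := by positivity
  have a7 := mul_le_mul_of_nonneg_right c1 q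
  have a8 := mul_le_mul_of_nonneg_right C1 q
  have a9 := mul_le_mul_of_nonneg_right c1 γ0
  have b1 := mul_le_mul_of_nonneg_right C1 γ0
  have b2 := mul_le_mul_of_nonneg_right d3 (mul_nonneg D0.le γ0)
  linarith

theorem En51 (h : Cl S M) (t t' : ℝ) : M.En S m a M.q 2 t t' ≤ Phi M S m a := by
  unfold Phi Md.En Md.blk
  exact Finset.sum_le_sum_of_subset_of_nonneg (fun k hk => by
    have q := (Finset.mem_filter.1 hk).1
    exact Finset.mem_filter.2 ⟨q, h.s_nn k, h.s_le_C (Finset.mem_Ioc.1 q).2⟩)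
    fun k _ _ => mul_nonneg (sub_nonneg.2 (h.leg.zm (Nat.sub_le k 1))) (by positivity)

set_option maxHeartbeats 800000 in
/-- **the geometry of the corner pair** -/
theorem Cy.geo51 (X : Cy E S M m a c) {v v1 v2 w : ℕ} (N : Nd S M m a c v v1 v2) (w1 : S.J ≤ w)
    (w2 : w ≤ S.Jp) (hw : 1 ≤ c.D ^ 6 * du M w) : Geo S M m a c v1 v2 w := by
  have W := X.tw
  have A := W.at'
  have h := A.cl
  have Z := X.cw.Z
  have H := X.cw.cc X.hx
  have lp := X.hx.lp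
  have D4 := Z.D4
  have C1 := h.C1
  have C0 := h.C0
  have F1 := h.F1
  have v0 := h.v0
  have θ0 := h.θ0
  have γ0 := W.γ0
  have τ0 := W.τ0
  have j0 := W.gj.1
  have E1 := Z.E1
  have D0 : 0 < c.D := by linarith
  have J2 : v2 < S.J := by have := N.mg.1; omega
  have o1 := N.o1
  have o2 := N.o2
  have jv := N.jv
  have i1 := h.i1
  have s1 : 3 / 4 * M.s S.J ≤ M.s v1 := N.v2e.s1.trans (h.sm o1)
  have s2 : M.s v1 ≤ M.s v2 := h.sm o2.le
  have s3 : M.s v2 ≤ M.s (S.J - 1) := h.sm (by omega)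
  have s4 : M.s (S.J - 1) ≤ M.s S.J := h.sm (by omega)
  have l1 := abs_le.1 (W.loc v1 s1 (by omega))
  have l2 := abs_le.1 (W.loc v2 (s1.trans s2) J2.le)
  have sJ := Ab33.sJ_ge h
  have sp : 0 < M.s S.J := (mul_pos_iff_of_pos_left (by positivity)).1 (one_pos.trans_le sJ)
  have z1 : M.z v ≤ M.z v1 := h.leg.zm o1
  have z2 : M.z v1 ≤ M.z (S.J - 1) := h.leg.zm (by omega)
  have nr : c.D * (M.z (S.J - 1) - M.z v1) ≤ 1 := by
    refine le_trans ?_ N.near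
    exact mul_le_mul (le_self_pow₀ (by linarith) two_ne_zero) (by linarith) (by linarith)
      (by positivity)
  have lo := H.lo_of (i := v1) (by omega) (by omega) nr
  have jE : c.p.j ≤ 1 := by
    linarith [lp.j1, mul_le_mul_of_nonneg_right E1 (show 0 ≤ c.p.j + c.p.τ by positivity)]
  have X1 : c.p.Xp ≤ 1 := by linarith [lp.Xp0.2, mul_le_mul_of_nonneg_right E1 lp.Xp0.1.le]
  have g0 : 0 ≤ GS M S (M.s S.J / 2) S.C :=
    Finset.sum_nonneg fun k _ => mul_nonneg (Ve83.dx_nn h k) (sq_nonneg _)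
  have g1 : 0 ≤ GP M S := Finset.sum_nonneg fun k _ => mul_nonneg (Ve83.dx_nn h k) (sq_nonneg _)
  have g2 : GP M S ≤ Ve83.Gam S M := by unfold Ve83.Gam; linarith
  have g3 : Ve83.Gam S M ≤ 1 := W.gj.2.trans (pow_le_one₀ j0 jE)
  obtain ⟨r0, r1, r2⟩ := cb51 lp.Xp0.1.le X1
  obtain ⟨q0, q1, -⟩ := cb51 (g1.trans g2) g3
  have τ1 := lp.τ1
  have dd : Ve83.DD S M c.p.Xp c.p.γ = 10 * S.C ^ 3 * rR S M c.p := rfl
  have hr : rR S M c.p = c.p.Xp ^ ((1 : ℝ) / 3) + c.p.γ + Ve83.Gam S M ^ ((1 : ℝ) / 3) := rfl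
  have ha : aA S c.p = S.θ + c.p.j + c.p.τ + c.p.γ := rfl
  generalize c.p.Xp ^ ((1 : ℝ) / 3) = R at *
  generalize Ve83.Gam S M ^ ((1 : ℝ) / 3) = G at *
  have R0 : 0 ≤ rR S M c.p := by rw [hr]; positivity
  have a0 : 0 ≤ aA S c.p := by rw [ha]; positivity
  have Cv : S.C * S.v ≤ c.p.τ := by
    have n1 : (1 : ℝ) ≤ S.n := by exact_mod_cast h.n1
    have b1 : 1 ≤ S.n * S.w3 1 := by
      have m0 := h.ms_pos zero_le_one
      rw [Sc.w3, ← mul_div_assoc, le_div_iff₀ (by positivity), mul_one, one_mul]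
      gcongr
      linarith [h.ms1 1, X.cw.θ1]
    have t1 : c.p.τ ≤ 1 := by
      linarith [lp.j1, mul_le_mul_of_nonneg_right E1 (show 0 ≤ c.p.j + c.p.τ by positivity)]
    have b2 : S.w3 1 ≤ c.p.τ := lp.tw.trans (pow_le_of_le_one τ0.le t1 three_ne_zero)
    have b3 : 1 ≤ S.n * c.p.τ := b1.trans (by gcongr)
    have b4 : S.C * S.v * S.n ≤ 1 := le_trans (by
      have := le_self_pow₀ n1 two_ne_zero
      gcongr) Z.hv
    exact le_of_mul_le_mul_right (b4.trans (b3.trans_eq (mul_comm _ _))) (by linarith)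
  have tc1 : tc S c ≤ S.F * rR S M c.p := by
    unfold tc
    exact mul_le_mul_of_nonneg_left (by linarith) (by linarith)
  have FR := le_mul_of_one_le_left R0 F1
  have FR0 := R0.trans FR
  have k1 : M.s S.J - M.s v1 ≤ S.C ^ 2 * (c.D ^ 44 * (S.F * rR S M c.p)) + S.F * rR S M c.p := by
    have b1 := (h.s_tel (i := v1) (j := S.J - 1) (by omega) (by omega)).2
    have b2 := (h.z_tel (i := v1) (j := S.J - 1) (by omega) (by omega) (by omega)).1
    rw [← mul_div_assoc, div_le_iff₀ C0] at b2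
    have b3 := mul_le_mul_of_nonneg_left b2 C0.le
    have b4 : M.z (S.J - 1) - M.z v1 ≤ c.D ^ 44 * (S.F * rR S M c.p) := by
      linarith [N.lo, mul_le_mul_of_nonneg_left tc1 (show 0 ≤ c.D ^ 44 by positivity)]
    have b5 := mul_le_mul_of_nonneg_left b4 (sq_nonneg S.C)
    linarith [A.s_pred.2]
  have c2 : 10000 * S.C ^ 2 ≤ c.D := Z.Cp (by norm_num)
  have c3 : 10000 * S.C ^ 3 ≤ c.D := Z.Cp (by norm_num)
  have P0 : 0 ≤ c.D ^ 44 * (S.F * rR S M c.p) := by positivity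
  have k2 := mul_le_mul_of_nonneg_right c2 P0
  have k3 : c.D * (S.F * rR S M c.p) ≤ c.D ^ 44 * (S.F * rR S M c.p) :=
    mul_le_mul_of_nonneg_right (le_self_pow₀ (by linarith) (by norm_num)) FR0
  have k4 : c.D ^ 4 * rR S M c.p ≤ c.D ^ 44 * (S.F * rR S M c.p) :=
    mul_le_mul (Z.Dp (by norm_num)) FR R0 (by positivity)
  have k5 := mul_le_mul c3 FR R0 D0.le
  have k6 := mul_le_mul_of_nonneg_right D4 FR0
  have k7 := mul_le_mul_of_nonneg_right D4 P0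
  have u1 := X.up51 w1 w2 hw (y := R + G) (by positivity) X.hx.ap.top
    (r1.trans (pow_le_pow_left₀ r0 (by linarith) 2))
    (g2.trans (q1.trans (pow_le_pow_left₀ q0 (by linarith) 2)))
  rw [show c.p.γ + (R + G) = rR S M c.p by rw [hr]; ring] at u1
  have aj := X.hx.ap.j0
  have x1 : c.p.X ≤ c.p.j ^ 2 := (sqrt_le_left j0).1 (by
    linarith [sqrt_nonneg (GS M S 0 S.C + GP M S), sq_nonneg c.p.l0])
  have u2 := X.up51 w1 w2 hw j0 ((En51 h _ _).trans X.hx.ap.all) x1 (g2.trans W.gj.2)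
  refine ⟨by omega, J2, lo, H.tp_of (by omega) (by omega) (by linarith), fun t ht => ?_,
    u2.trans (mul_le_mul_of_nonneg_left (by linarith) (by positivity)), ?_,
    ⟨by linarith, by linarith [W.D1], by linarith, ?_⟩, ?_, ?_, Cv⟩
  · have b1 := T5.hp_le A (Z := aA S c.p) Z.hθ
      (by linarith [Z.ln.l0s, mul_le_mul_of_nonneg_right E1 (h.s_nn S.jl)])
      (Z.ln.l0l.trans W.l1) Z.ln.X0
      (by linarith [Z.ln.X1, mul_le_mul_of_nonneg_right E1 Z.ln.X0.le]) lp.γ0 X.hx.ap.all aj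
      (by linarith) (by linarith [X.cw.vθ]) (by linarith [Gd65.inv_le A]) ht
    unfold Rig.Hp at b1
    rw [A.okh.2] at b1
    have b2 := mul_le_mul_of_nonneg_right (Z.Cp (k := 5) (by norm_num)) a0
    have b3 := mul_le_mul_of_nonneg_right C1 (show 0 ≤ S.C ^ 4 * aA S c.p by positivity)
    have b4 : 0 ≤ S.C ^ 5 * aA S c.p := by positivity
    linarith
  · unfold ys
    rcases min_cases (sb M m a (v1 + 1)) (M.s S.J) with ⟨e, -⟩ | ⟨e, -⟩ <;> rw [e] <;> linarith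
  · rw [div_le_iff₀ (by linarith)]
    have b1 := mul_le_mul_of_nonneg_left sJ (show 0 ≤ S.C * S.θ by positivity)
    have b2 := mul_le_mul (Z.Cp (k := 4) (by norm_num)) (show S.θ ≤ aA S c.p by linarith) θ0.le D0.le
    have b3 := mul_le_mul_of_nonneg_right b2 sp.le
    have b4 : 0 ≤ S.C ^ 4 * S.θ * M.s S.J := by positivity
    linarith
  · have b0 := H.ls lo
    have lp' := Z.lp
    have b1 := (Z.cmp (t := M.s v1) (t' := 1) (by linarith) W.l1 (Z.sC (by omega)) (H.lev lo)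
      ((Z.sC (y := v1) (by omega)).trans (by linarith only [le_self_pow₀ C1 two_ne_zero, C0]))).2.1
    have b2 := h.H_tel (i := v1) (j := v2) (by omega) o2.le (by have := h.i3; omega)
    have b3 := (h.z_tel (i := v1) (j := v2) (by omega) o2.le J2).2
    have b4 : (0 : ℝ) ≤ (v2 : ℝ) - v1 := sub_nonneg.2 (by exact_mod_cast o2.le)
    have m0 : 0 < mf S 1 := by have := h.ms_pos zero_le_one; unfold mf; positivity
    have b5 : mf S 1 / c.D ≤ mf S (M.s v1) / S.C ^ 2 := by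
      rw [div_le_div_iff₀ D0 (by positivity)]
      linarith only [b1, show 0 ≤ S.C ^ 2 * mf S 1 by positivity]
    refine le_trans (mul_le_mul b5 b3 (sub_nonneg.2 (h.leg.zm o2.le))
      (le_trans (by positivity) b5)) (le_trans (le_of_eq ?_) b2)
    unfold mf
    field_simp
  · have b1 := H.rb_ds o2.le J2
    unfold G89.ds at b1
    linarith

end Crest.Agent.T156.Alt.X84

end
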