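import Crest.Agent.T156.ClMid2_36

/-!
# Row 156, text (L) (helper36): the rise at the corner when the floor point lags
-/

set_option autoImplicit false

noncomputable section

namespace Crest.Agent.T156.Pr.Cor36

open MeasureTheory Set
open Crest.Agent.R164.GC Crest.Agent.R339.B Crest.Agent.R339.Var Crest.Agent.T157.Pf
open Crest.Agent.T156.Pr.Reg48

/-- lower form of `Gd_two` -/
theorem Gd_two_lo (T0 : ℝ) : ∃ C : ℝ, 1 ≤ C ∧ ∀ lb lh, Ok lb → Ok lh → TT lb = TT lh →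
    TT lh ≤ T0 → ∀ s ∈ Icc 0 (TT lh), ∀ s1, 0 ≤ s1 → s1 ≤ s → ∀ j,
      |Sc48.Jf lh lb (TT lh) s| + Hm.IJ lh lb 0 (TT lh) ≤ j →
      Real.exp (-(4 * T0)) ≤ AA lb s ∧ AA lb s ≤ 1 ∧
      Gd lh s1 - 2 * AA lb s * (lvr 1 lb s - lvr 1 lh s1) - C * (j + (s - s1)) ≤ Gd lb s := by
  obtain ⟨C, c1, hC⟩ := Hm.fun_H T0
  obtain ⟨K, k1, hK⟩ := Atom48.NN_lip T0
  obtain ⟨C', -, hO⟩ := Pp.Ode3.odeS T0
  refine ⟨3 * C + K + 30, by linarith, fun lb lh hb hh e hT s hs s1 h0 h1 j hj => ?_⟩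
  obtain ⟨⟨-, g, a, n, -⟩, -⟩ := hC lh lb hh.1 hb.1 e hT s hs _ rfl
  have m := mul_le_mul_of_nonneg_left hj (by linarith : 0 ≤ C)
  have j0 : 0 ≤ j := le_trans (by
    have : 0 ≤ C * (|Sc48.Jf lh lb (TT lh) s| + Hm.IJ lh lb 0 (TT lh)) := (abs_nonneg _).trans g
    exact (mul_nonneg_iff_of_pos_left (by linarith)).1 this) hj
  have a1 := (abs_le.1 (a.trans m)).2
  have n1 := (abs_le.1 (n.trans m)).1
  have n2 := (abs_le.1 (hK lh hh hT s1 s h0 h1 hs.2)).1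
  obtain ⟨-, -, -, hbd⟩ := hO lh hh hT
  obtain ⟨-, -, -, -, -, -, -, -, -, -, -, -, a2⟩ := hbd s hs
  have a3 := (abs_le.1 (a2 s1 ⟨h0, h1.trans hs.2⟩).1).2
  rw [abs_of_nonneg (sub_nonneg.2 h1)] at a3
  have z1 := Pp.Ode3.lvr_pos hh.1 s1
  have z2 := Pp.Ode3.lvr_le_one hh.1 s1
  have hsb : s ∈ Icc 0 (TT lb) := by rwa [e]
  refine ⟨Rig.Am_ge (Pp.Ode3.AP.of_ok hb) (e.trans_le hT) hsb, ((ode hb).2.2.2 s hsb).2, ?_⟩
  have d0 := sub_nonneg.2 h1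
  have p : lvr 1 lh s1 * (AA lb s - AA lh s1) ≤ C * j + 15 * (s - s1) := by
    have q : AA lb s - AA lh s1 ≤ C * j + 15 * (s - s1) := by linarith
    have q0 : 0 ≤ C * j + 15 * (s - s1) := by positivity
    exact (mul_le_mul_of_nonneg_left q z1.le).trans (mul_le_of_le_one_left q0 z2)
  have r1 : 0 ≤ C * (s - s1) := by positivity
  have r2 : 0 ≤ K * j := by positivity
  unfold Gd
  nlinarith

/-- list form: `G' ≥ -a` on `[y, f)` when the floor point lags -/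
theorem Sg.lag {lb : List (ℝ × ℝ)} {σ f M a b g0 L y : ℝ} (h : Sg lb σ f M a) (hb : 0 < b)
    (g00 : 0 ≤ g0) (hf : b * GG lb f ≤ 1 + g0) (fM : f ≤ M) (y0 : 0 ≤ y) (hL : M - min f y ≤ L)
    (hy : f ≤ y ∨ (σ ≤ y ∧ ∀ s, y ≤ s → s < f → -a ≤ Gd lb s)) :
    (∀ s, y ≤ s → s ≤ M → b * GG lb s ≤ 1 + (g0 + b * a * min (2 * a) L)) ∧
    ∀ p q, y ≤ p → p ≤ q → q ≤ M →
      p - b * Gam lb p - (g0 * L + b * a * min (2 * a) L ^ 2) ≤ q - b * Gam lb q := by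
  have l1 : M - f ≤ L := by linarith [min_le_left f y]
  have l2 : M - y ≤ L := by linarith [min_le_right f y]
  have a0 := h.a0
  rcases hy with hy | ⟨hy, hd⟩
  · refine ⟨fun s s0 s1 => h.mu hb hf l1 (hy.trans s0) s1, fun p q p0 pq q1 => ?_⟩
    have k := h.rise hb hf l1 (hy.trans p0) pq q1
    have := mul_le_mul_of_nonneg_left (show q - p ≤ L by linarith) g00
    linarith
  · have mu : ∀ s, y ≤ s → s ≤ M → b * GG lb s ≤ 1 + (g0 + b * a * min (2 * a) L) := by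
      intro s s0 s1
      rcases le_total f s with c | c
      · exact h.mu hb hf l1 c s1
      · have k := GG_lo h.ok (y0.trans s0) c (fM.trans h.MT) (K := -a) fun r hr =>
          hd r (s0.trans hr.1) hr.2
        have k3 : f - s ≤ min (2 * a) L := le_min (by linarith [h.Ma]) (by linarith)
        have k4 := mul_le_mul_of_nonneg_left k3 a0
        have k5 : GG lb s ≤ GG lb f + a * min (2 * a) L := by linarith
        have := mul_le_mul_of_nonneg_left k5 hb.le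
        nlinarith
    refine ⟨mu, fun p q p0 pq q1 => ?_⟩
    have k := Mh_ge h.ok hb (y0.trans p0) pq (q1.trans h.MT)
      (e := -(g0 + b * a * min (2 * a) L)) fun r hr => by
        linarith [mu r (p0.trans hr.1) (hr.2.le.trans q1)]
    have k3 : q - p ≤ min (2 * a) L := le_min (by linarith [h.Ma]) (by linarith)
    have m0 : 0 ≤ min (2 * a) L := (sub_nonneg.2 pq).trans k3
    have k4 : b * a * min (2 * a) L * (q - p) ≤ b * a * min (2 * a) L * min (2 * a) L :=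
      mul_le_mul_of_nonneg_left k3 (by positivity)
    have := mul_le_mul_of_nonneg_left (show q - p ≤ L by linarith) g00
    nlinarith

end Crest.Agent.T156.Pr.Cor36

namespace Crest.Agent.T156.Alt.Mp9.At

open MeasureTheory Set Real
open Crest.Agent.R164.GC Crest.Agent.R339.B Crest.Agent.R339.Var Crest.Agent.T157.Pf
open Crest.Agent.T156.Pr.Cor36

/-- **RiseLag**: mass and rise on `[y, Mt]`, lead (`f ≤ y`) or lag (`s J ≤ y`, labels `≤ x*`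
before `f`); the numbers are those of `sg36` -/
theorem riseLag (T0 : ℝ) : ∃ C0 : ℝ, 1 ≤ C0 ∧ ∀ {S : Sc} {M : Md} {m : ℕ} {a T : ℝ},
    At S M m a T → T ≤ T0 → ∀ {f y Mt τ tl jj D aa g L : ℝ},
    Sg (lb M S m a T) (M.s S.J) f Mt aa → 0 < tl → tl ≤ M.s (S.J - 1) →
    2 * (S.C * S.v) ≤ τ → 0 ≤ D → Mt - M.s S.J ≤ D →
    (∀ t ∈ Icc 0 T, |Sc48.Jf (lh M T) (lb M S m a T) T t| +
      ∫ s in (0 : ℝ)..T, |Sc48.Jf (lh M T) (lb M S m a T) T s| ≤ jj) →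
    C0 * S.C * (S.C * S.θ / tl + jj + τ + D) ≤ aa → 0 ≤ g →
    M.b * Pr.GG (lb M S m a T) f ≤ 1 + g → f ≤ Mt → 0 ≤ y → Mt - min f y ≤ L →
    (f ≤ y ∨ (M.s S.J ≤ y ∧ ∀ t, y ≤ t → t < f → lvr 1 (lb M S m a T) t ≤ M.z (S.J - 1))) →
    (∀ s, y ≤ s → s ≤ Mt →
      M.b * Pr.GG (lb M S m a T) s ≤ 1 + (g + M.b * aa * min (2 * aa) L)) ∧
    ∀ p q, y ≤ p → p ≤ q → q ≤ Mt →
      p - M.b * Pr.Gam (lb M S m a T) p - (g * L + M.b * aa * min (2 * aa) L ^ 2) ≤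
        q - M.b * Pr.Gam (lb M S m a T) q := by
  obtain ⟨C0, c1, H⟩ := Gd_two_lo T0
  refine ⟨C0, c1, fun {S M m a T} A hT {f y Mt τ tl jj D aa g L} sg l0 l2 hτ D0 hD hj ha g0 hf fM y0
    hL hy => sg.lag A.b_pos g0 hf fM y0 hL (hy.imp_right fun ⟨h1, h2⟩ => ⟨h1, fun s s0 s1 => ?_⟩)⟩
  obtain ⟨p1, p2⟩ := A.s_pred
  have MT : Mt ≤ T := by have := sg.MT; rwa [A.okb.2] at this
  have sT : s ∈ Icc 0 T := ⟨y0.trans s0, by linarith⟩
  obtain ⟨k1, k2, k3⟩ := H _ _ A.okb.1 A.okh.1 (A.okb.2.trans A.okh.2.symm) (by rwa [A.okh.2]) s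
    (by rwa [A.okh.2]) (M.s (S.J - 1)) (s_nn A.cl _) (by linarith) jj (by
      unfold Hm.IJ
      rw [A.okh.2]
      exact hj s sT)
  rw [A.zh_pred] at k3
  have c0 := A.c_pos
  have C1 := A.cl.C1
  have v0 := v_pos A.cl
  have cv : 0 ≤ S.C * S.v := by positivity
  have θ0 : 0 ≤ S.θ := (A.ms_pos le_rfl).le.trans (A.cl.ms1 0)
  have j0 : 0 ≤ jj := le_trans (add_nonneg (abs_nonneg _) (intervalIntegral.integral_nonneg
    (sT.1.trans sT.2) fun _ _ => abs_nonneg _)) (hj s sT)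
  have g1 : -(S.C * S.θ / tl) ≤ Pr.Reg48.Gd (lh M T) (M.s (S.J - 1)) := by
    refine le_trans (neg_le_neg ?_) (neg_le_of_abs_le (A.gd_h (s_nn A.cl _) p1))
    rw [mul_div_assoc]
    exact mul_le_mul_of_nonneg_left (div_le_div₀ θ0 (A.cl.ms1 _) l0 (l2.trans (le_max_left _ _)))
      c0.le
  have q := mul_nonneg ((exp_pos _).le.trans k1) (sub_nonneg.2 (h2 s s0 s1))
  have w0 : 0 ≤ S.C * S.θ / tl := by positivity
  have S0 : 0 ≤ S.C * S.θ / tl + jj + τ + D := by linarith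
  have w1 : C0 * (S.C * S.θ / tl + jj + τ + D) ≤ aa :=
    le_trans (by rw [mul_assoc]; gcongr; exact le_mul_of_one_le_left S0 C1) ha
  have w2 : C0 * (jj + (s - M.s (S.J - 1))) ≤ C0 * (jj + τ + D) :=
    mul_le_mul_of_nonneg_left (by linarith) (by linarith)
  have w3 : S.C * S.θ / tl ≤ C0 * (S.C * S.θ / tl) := le_mul_of_one_le_left w0 c1
  linarith

end Crest.Agent.T156.Alt.Mp9.At

end
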