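import Crest.Agent.T156.TopM_47
import Crest.Agent.T156.TxR_36
import Crest.Agent.T156.GapW_89

/-!
# Row 156, text (L) (helper51): the floor point between two corner nodes, mass and rise above
-/

set_option autoImplicit false

noncomputable section

namespace Crest.Agent.T156.Alt.Mp9.At

open MeasureTheory Set Real
open Crest.Agent.R164.GC Crest.Agent.R339.B Crest.Agent.R339.Var Crest.Agent.T157.Pf
open Crest.Agent.T156.Pr.Cor36

variable {S : Sc} {M : Md} {m : ℕ} {a T : ℝ}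

/-- **the floor point** between the nodes `v1 ≤ v2` -/
theorem floor51 (A : At S M m a T) {v1 v2 : ℕ} {ec la al μ0 : ℝ} (h1 : S.jl < v1) (h12 : v1 ≤ v2)
    (h2 : v2 ≤ S.Jp)
    (e1 : res M S m a T v2 - res M S m a T v1 ≤
      ec + la * G89.ds M m a v1 v2 + al * (M.z v2 - M.z v1))
    (hH : μ0 * (M.z v2 - M.z v1) ≤ M.H v2 - M.H v1) (hal : M.b * al ≤ μ0 / 2)
    (hec : M.b * (ec + 1 / (m + 1)) < μ0 / 2 * (M.z v2 - M.z v1)) :
    ∃ f, sb M m a (v1 + 1) ≤ f ∧ f < sb M m a (v2 + 1) ∧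
      M.b * Pr.GG (lb M S m a T) f ≤ 1 + M.b * la := by
  have b0 := A.b_pos
  have m1 : (0 : ℝ) < m + 1 := by positivity
  have z0 : 0 ≤ M.z v2 - M.z v1 := sub_nonneg.2 (A.cl.leg.zm h12)
  refine Pr.Cor36.floor_pt A.okb.1 b0 (A.sb_mem (h12.trans h2)).1 (A.sb_mono (Nat.succ_le_succ h12))
    (by rw [A.okb.2]; exact (A.sb_mem h2).2) ?_
  have r1 := A.R_node h1 (h12.trans h2)
  have r2 := A.R_node (h1.trans_le h12) h2
  have e : ∀ x y z : ℝ, x - (y - z) / M.b = (M.b * x - y + z) / M.b := fun x y z => by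
    field_simp; ring
  rw [e, div_eq_iff b0.ne'] at r1 r2
  have q : M.rb m a v2 / (m + 1) ≤ M.rb m a v1 / (m + 1) + 1 / (m + 1) := by
    rw [← add_div]
    exact div_le_div_of_nonneg_right
      (by linarith [(rb_mem (M := M) (a := a) A.m_pos v1).1,
        (rb_mem (M := M) (a := a) A.m_pos v2).2]) m1.le
  have k1 := mul_le_mul_of_nonneg_left e1 b0.le
  have k2 := mul_le_mul_of_nonneg_left q b0.le
  have k3 := mul_le_mul_of_nonneg_right hal z0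
  unfold G89.ds at k1
  nlinarith

/-- **mass and rise above the upper corner node** -/
theorem corner51 (T0 : ℝ) : ∃ C0 : ℝ, 1 ≤ C0 ∧ ∀ {S : Sc} {M : Md} {m : ℕ} {a T : ℝ},
    At S M m a T → T ≤ T0 → ∀ {v1 v2 w : ℕ} {ec la al μ0 tl τ Dd jj aa Lr : ℝ},
    S.jl < v1 → v1 ≤ v2 → v2 < S.J → v2 ≤ w → w ≤ S.Jp → 0 ≤ la →
    res M S m a T v2 - res M S m a T v1 ≤
      ec + la * G89.ds M m a v1 v2 + al * (M.z v2 - M.z v1) →
    μ0 * (M.z v2 - M.z v1) ≤ M.H v2 - M.H v1 → M.b * al ≤ μ0 / 2 →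
    M.b * (ec + 1 / (m + 1)) < μ0 / 2 * (M.z v2 - M.z v1) →
    0 < tl → tl ≤ sb M m a (v1 + 1) → tl ≤ M.s (S.J - 1) →
    M.z (S.J - 1) - τ ≤ M.z v1 → 2 * (S.C * S.v) ≤ τ → 0 ≤ Dd →
    sb M m a (w + 1) - M.s S.J ≤ Dd →
    (∀ t ∈ Icc 0 T, |Sc48.Jf (lh M T) (lb M S m a T) T t| +
      ∫ s in (0 : ℝ)..T, |Sc48.Jf (lh M T) (lb M S m a T) T s| ≤ jj) →
    C0 * S.C * (S.C * S.θ / tl + jj + τ + Dd) ≤ aa →
    sb M m a (w + 1) - ys S M m a v1 ≤ Lr →
    (∀ s, ys S M m a v2 ≤ s → s ≤ sb M m a (w + 1) →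
      M.b * Pr.GG (lb M S m a T) s ≤ 1 + (M.b * la + M.b * aa * min (2 * aa) Lr)) ∧
    ∀ p q, ys S M m a v2 ≤ p → p ≤ q → q ≤ sb M m a (w + 1) →
      p - M.b * Pr.Gam (lb M S m a T) p - (M.b * la * Lr + M.b * aa * min (2 * aa) Lr ^ 2) ≤
        q - M.b * Pr.Gam (lb M S m a T) q := by
  obtain ⟨C1, c1, H1⟩ := sg36 T0
  obtain ⟨C2, c2, H2⟩ := riseLag T0
  refine ⟨C1 + C2, by linarith, fun {S M m a T} A hT {v1 v2 w ec la al μ0 tl τ Dd jj aa Lr} h1 h12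
    h2 h2w hw la0 e1 hH hal hec l0 l1 l2 zf hτ D0 hD hj ha hL => ?_⟩
  have vp : v2 ≤ S.Jp := h2w.trans hw
  obtain ⟨f, f1, f2, f3⟩ := A.floor51 h1 h12 vp e1 hH hal hec
  have c0 := A.c_pos
  have v0 := v_pos A.cl
  have cv : 0 ≤ S.C * S.v := by positivity
  have θ0 : 0 ≤ S.θ := (A.ms_pos le_rfl).le.trans (A.cl.ms1 0)
  have T0' : 0 ≤ T := (s_nn A.cl _).trans A.t2
  have j0 : 0 ≤ jj := le_trans (add_nonneg (abs_nonneg _) (intervalIntegral.integral_nonneg T0'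
    fun _ _ => abs_nonneg _)) (hj 0 ⟨le_rfl, T0'⟩)
  have S0 : 0 ≤ S.C * (S.C * S.θ / tl + jj + τ + Dd) :=
    mul_nonneg c0.le (by have : 0 ≤ S.C * S.θ / tl := by positivity
                         linarith)
  have a1 : C1 * S.C * (S.C * S.θ / tl + jj + τ + Dd) ≤ aa := by nlinarith
  have a2 : C2 * S.C * (S.C * S.θ / tl + jj + τ + Dd) ≤ aa := by nlinarith
  have sM := A.sb_mono (Nat.succ_le_succ h2w)
  have s12 := A.sb_mono (Nat.succ_le_succ h12)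
  have zf' : M.z (S.J - 1) - τ ≤ lvr 1 (lb M S m a T) f := by
    have := Sc48.lvr_mono A.okb.1.1 f1
    rw [A.lvb_node h1.le (h12.trans vp)] at this
    linarith
  have sg := H1 A hT l0 (l1.trans f1) l2 (A.sb_mem hw).2 hτ D0 hD zf' hj a1
  have y0 : 0 ≤ ys S M m a v2 := le_min (A.sb_mem vp).1 (s_nn A.cl _)
  refine H2 A hT sg l0 l2 hτ D0 hD hj a2 (mul_nonneg A.b_pos.le la0) f3 (f2.le.trans sM) y0 ?_ ?_
  · have : ys S M m a v1 ≤ min f (ys S M m a v2) :=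
      le_min ((min_le_left _ _).trans f1) (min_le_min_right _ s12)
    linarith
  · rcases le_or_gt f (ys S M m a v2) with c | c
    · exact .inl c
    · refine .inr ⟨?_, fun t _ t1 => ?_⟩
      · rcases min_cases (sb M m a (v2 + 1)) (M.s S.J) with ⟨e, -⟩ | ⟨e, -⟩
        · exact absurd (c.trans f2) (by unfold ys; rw [e]; exact lt_irrefl _)
        · unfold ys; rw [e]
      · have := Sc48.lvr_mono A.okb.1.1 (t1.trans f2).le
        rw [A.lvb_node (h1.le.trans h12) vp] at this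
        exact this.trans (A.cl.leg.zm (by omega))

end Crest.Agent.T156.Alt.Mp9.At

end
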