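import Crest.Agent.T156.TopH_51
import Crest.Agent.T156.TopR_51

/-!
# Row 156, block (L) (helper51): mass and rise above the corner pair, in the letters of `TxD`
-/

set_option autoImplicit false

noncomputable section

namespace Crest.Agent.T156.Alt.X84

open MeasureTheory Set Real
open Crest.Agent.R164.GC Crest.Agent.R339.B Crest.Agent.R339.Var Crest.Agent.T157.Pf
open Crest.Agent.T156.Alt.Mp9 Crest.Agent.T156.Alt.L69 Crest.Agent.T156.Alt.L31

/-- the slope of the residual -/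
def laI (S : Sc) (c : Dt) (ρ : ℝ) : ℝ := c.D ^ 4 * (c.p.X2 + √(ρ * S.w3 1))
/-- the width of the corner -/
def aaI (S : Sc) (c : Dt) : ℝ := c.D ^ 46 * S.F * aA S c.p
/-- the length of the zone -/
def LrI (S : Sc) (M : Md) (c : Dt) : ℝ := c.D ^ 45 * S.F * rR S M c.p

/-- **mass and rise above the corner pair** -/
theorem cor51 (C : ℝ) : ∃ K0 : ℝ, 1 ≤ K0 ∧ ∀ {E : ℝ} {S : Sc} {M : Md} {m : ℕ} {a : ℝ} {c : Dt},
    S.C = C → Cy E S M m a c → K0 ≤ c.D → ∀ {v v1 v2 w : ℕ} {ρ : ℝ}, Nd S M m a c v v1 v2 →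
    S.J ≤ w → w ≤ S.Jp → 1 ≤ c.D ^ 6 * du M w → M.rb m a v2 - M.rb m a v1 ≤ ρ →
    (∀ s, ys S M m a v2 ≤ s → s ≤ sb M m a (w + 1) →
      M.b * Pr.GG (lb M S m a (2 * S.C)) s ≤
        1 + (M.b * laI S c ρ + M.b * aaI S c * min (2 * aaI S c) (LrI S M c))) ∧
    ∀ p q, ys S M m a v2 ≤ p → p ≤ q → q ≤ sb M m a (w + 1) →
      p - M.b * Pr.Gam (lb M S m a (2 * S.C)) p -
        (M.b * laI S c ρ * LrI S M c + M.b * aaI S c * min (2 * aaI S c) (LrI S M c) ^ 2) ≤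
        q - M.b * Pr.Gam (lb M S m a (2 * S.C)) q := by
  obtain ⟨C0, c1, HC⟩ := At.corner51 (2 * C)
  refine ⟨C0, c1, fun {E S M m a c} hC X hK {v v1 v2 w ρ} N w1 w2 hw hρ => ?_⟩
  have G := X.geo51 N w1 w2 hw
  have W := X.tw
  have A := W.at'
  have h := A.cl
  have Z := X.cw.Z
  have H := X.cw.cc X.hx
  have lp := X.hx.lp
  have D4 := Z.D4
  have C1 := h.C1
  have C0' := h.C0
  have F1 := h.F1
  have θ0 := h.θ0
  have γ0 := W.γ0
  have τ0 := W.τ0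
  have j0 := W.gj.1
  have E1 := Z.E1
  have D0 : 0 < c.D := by linarith
  have b0 := A.b_pos
  have b1 := h.b1
  have J2 := G.J2
  have X0 : 0 ≤ c.p.X2 := Z.X20
  have m0 : 0 < mf S 1 := by have := h.ms_pos zero_le_one; unfold mf; positivity
  obtain ⟨ψ1, ψ9⟩ := psi_spec h
  have ψ6 : psi S ^ 6 ≤ S.F := (pow_le_pow_right₀ ψ1 (by norm_num)).trans_eq ψ9
  have ψ4 : psi S ^ 4 ≤ S.F := (pow_le_pow_right₀ ψ1 (by norm_num)).trans_eq ψ9
  have cD : 10000 * S.C ≤ c.D := by simpa using Z.Cp (k := 1) (by norm_num)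
  have DF : c.D ^ 18 * S.F ≤ E := by
    refine le_of_pow_le_pow_left₀ two_ne_zero (by linarith) ?_
    calc _ = c.D ^ 36 * S.F ^ 2 := by ring
      _ ≤ E * E := mul_le_mul (Z.DpE (by norm_num))
          ((pow_le_pow_right₀ F1 (by norm_num)).trans X.hx.F40) (by positivity) (by linarith)
      _ = _ := by ring
  have u0 := sq_nonneg (Nd22.U S c.p.Lc 1)
  have uE := H.thk
  have e1 := (le_abs_self _).trans (H.nce2 X.w3 G.lo G.tp N.o2.le N.g1 N.g2 N.mg hρ)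
  have ha : aA S c.p = S.θ + c.p.j + c.p.τ + c.p.γ := rfl
  have a0 : 0 ≤ aA S c.p := by rw [ha]; positivity
  have tγ : 0 < c.p.τ + c.p.γ := by linarith
  have p44 : 1 ≤ c.D ^ 44 := one_le_pow₀ (by linarith)
  refine HC A (by rw [hC]) G.j1 N.o2.le J2 (by omega) w2
    (show 0 ≤ c.D ^ 4 * (c.p.X2 + √(ρ * S.w3 1)) by positivity) e1 G.mu ?_ ?_ G.tl.1
    G.tl.2.1 G.tl.2.2.1 N.lo ?_ (by positivity) G.Dd G.jj ?_ G.Lr
  · rw [div_div, le_div_iff₀ (by positivity)]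
    calc _ ≤ S.C * (c.D ^ 16 * S.F * Nd22.U S c.p.Lc 1 ^ 2) * (c.D * 2) := by gcongr
      _ = 2 * S.C * (c.D ^ 17 * S.F) * Nd22.U S c.p.Lc 1 ^ 2 := by ring
      _ ≤ c.D * (c.D ^ 17 * S.F) * Nd22.U S c.p.Lc 1 ^ 2 := by gcongr; linarith
      _ = c.D ^ 18 * S.F * Nd22.U S c.p.Lc 1 ^ 2 := by ring
      _ ≤ _ := (mul_le_mul_of_nonneg_right DF u0).trans uE
  · have L1 := H.L1
    have r0 := H.R0
    have k1 : c.p.ηc ≤ c.p.τ * mf S 1 := by
      rw [← div_le_iff₀ m0]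
      linarith [lp.τ0, show 0 ≤ c.p.Xp ^ ((1 : ℝ) / 3) / c.p.Lc by positivity]
    have k2 : Nd22.U S c.p.Lc 1 ^ 2 * c.p.γ ≤ mf S 1 * c.p.γ :=
      mul_le_mul_of_nonneg_right ((le_mul_of_one_le_left u0 E1).trans uE) γ0
    have k3 : 1 / ((m : ℝ) + 1) ≤ c.p.ηc := by
      have n1 : (S.n : ℝ) ≤ m := by exact_mod_cast A.mem.m1
      have n2 := one_div_le_one_div_of_le h.N0 (show (S.n : ℝ) ≤ m + 1 by linarith)
      have := H.u0
      have := H.Z.G00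
      have := H.Z.X30
      have : 0 ≤ Nd22.U S c.p.Lc 1 ^ 3 + Nd22.U S c.p.Lc 1 ^ 2 *
          (S.θ + c.p.j + c.p.Xp ^ ((1 : ℝ) / 3)) + (√(c.p.Lc * gg S 1) + c.p.G0 + c.p.X2) *
          (Nd22.U S c.p.Lc 1 + √c.p.X2) + c.p.X3 := by positivity
      linarith [H.ηc1]
    have k0 : 0 < mf S 1 * (c.p.τ + c.p.γ) := by positivity
    have k4 : c.p.ηc + Nd22.U S c.p.Lc 1 ^ 2 * c.p.γ ≤ mf S 1 * (c.p.τ + c.p.γ) := by linarith
    have k5 : 1 / ((m : ℝ) + 1) ≤ c.D ^ 29 * S.F * (mf S 1 * (c.p.τ + c.p.γ)) := by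
      refine le_trans ?_ (le_mul_of_one_le_left k0.le
        (one_le_mul_of_one_le_of_one_le (one_le_pow₀ (by linarith)) F1))
      linarith [mul_nonneg m0.le γ0]
    have k6 : c.D ^ 29 * psi S ^ 6 * (c.p.ηc + Nd22.U S c.p.Lc 1 ^ 2 * c.p.γ) ≤
        c.D ^ 29 * S.F * (mf S 1 * (c.p.τ + c.p.γ)) :=
      (mul_le_mul_of_nonneg_left k4 (by positivity)).trans (by gcongr)
    have k7 : c.D ^ 43 * (S.F * (c.p.τ + c.p.γ)) ≤ M.z v2 - M.z v1 := by
      have := N.wd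
      unfold tc at this
      linarith
    have P0 : 0 < c.D ^ 29 * S.F * (mf S 1 * (c.p.τ + c.p.γ)) := by positivity
    calc _ ≤ S.C * (2 * (c.D ^ 29 * S.F * (mf S 1 * (c.p.τ + c.p.γ)))) :=
          (mul_le_mul_of_nonneg_left (by linarith) b0.le).trans
            (mul_le_mul_of_nonneg_right b1 (by positivity))
      _ < c.D / 2 * (c.D ^ 29 * S.F * (mf S 1 * (c.p.τ + c.p.γ))) := by
          rw [← mul_assoc]
          exact mul_lt_mul_of_pos_right (by linarith) P0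
      _ = mf S 1 / c.D / 2 * (c.D ^ 31 * (S.F * (c.p.τ + c.p.γ))) := by field_simp
      _ ≤ _ := by
          refine mul_le_mul_of_nonneg_left (le_trans ?_ k7) (by positivity)
          exact mul_le_mul_of_nonneg_right (Z.Dp (by norm_num)) (by positivity)
  · have k1 : c.D * (c.p.τ + c.p.γ) ≤ c.D ^ 44 * tc S c :=
      mul_le_mul (le_self_pow₀ (by linarith) (by norm_num)) (le_mul_of_one_le_left tγ.le F1) tγ.le
        (by positivity)
    linarith [G.Cv, mul_le_mul_of_nonneg_right D4 tγ.le]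
  · have k0 := le_mul_of_one_le_left a0 F1
    have k1 : c.D ^ 44 * tc S c ≤ c.D ^ 44 * (S.F * aA S c.p) :=
      mul_le_mul_of_nonneg_left (mul_le_mul_of_nonneg_left (by linarith) (by linarith))
        (by positivity)
    have k2 : c.D * aA S c.p ≤ c.D ^ 44 * (S.F * aA S c.p) :=
      mul_le_mul (le_self_pow₀ (by linarith) (by norm_num)) k0 a0 (by positivity)
    have k3 : c.D ^ 4 * aA S c.p ≤ c.D ^ 44 * (S.F * aA S c.p) :=
      mul_le_mul (Z.Dp (by norm_num)) k0 a0 (by positivity)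
    calc _ ≤ C0 * S.C * (4 * (c.D ^ 44 * (S.F * aA S c.p))) :=
          mul_le_mul_of_nonneg_left (by linarith [G.tl.2.2.2]) (by positivity)
      _ = C0 * (4 * S.C) * (c.D ^ 44 * (S.F * aA S c.p)) := by ring
      _ ≤ c.D * c.D * (c.D ^ 44 * (S.F * aA S c.p)) := by gcongr; linarith
      _ = _ := by unfold aaI; ring

end Crest.Agent.T156.Alt.X84

end
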