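import Mathlib

/-!
# Row 156: measurable maximisers, top eigenvectors, Davis–Kahan (helper24)

Frame-free.  `exists_measurable_argmax`: a Carathéodory function on a compact subset of `ι → ℝ`
has a measurable maximiser.  `l1 M`, `tv M`, `Mp M`: top eigenvalue, a measurable top eigenvector
and the rest of a symmetric array `M : ι → ι → ℝ`.
-/

set_option autoImplicit false
set_option linter.unusedSectionVars false

noncomputable section

namespace Crest.Agent.T156.Top24

open Set Filter Topology MeasureTheory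

/-! ### measurable maximisers -/

section sel
variable {α E : Type*} [MeasurableSpace α] [PseudoMetricSpace E]

theorem meas_gt {C : Set E} (hC : IsCompact C) (F : α → E → ℝ) (hc : ∀ a, Continuous (F a))
    (hm : ∀ x, Measurable fun a => F a x) (g : α → ℝ) (hg : Measurable g) :
    MeasurableSet {a | ∃ v ∈ C, g a < F a v} := by
  obtain ⟨t, hts, htc, hcl⟩ := hC.isSeparable.exists_countable_dense_subset
  have : {a | ∃ v ∈ C, g a < F a v} = ⋃ x ∈ t, {a | g a < F a x} := by
    ext a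
    simp only [mem_ofPred_eq, mem_iUnion]
    constructor
    · rintro ⟨v, hv, h⟩
      have ho : IsOpen {y | g a < F a y} := isOpen_lt continuous_const (hc a)
      obtain ⟨y, hy, hyt⟩ := mem_closure_iff.1 (hcl hv) _ ho h
      exact ⟨y, hyt, hy⟩
    · rintro ⟨x, hx, h⟩
      exact ⟨x, hts hx, h⟩
  rw [this]
  exact MeasurableSet.biUnion htc fun x _ => measurableSet_lt hg (hm x)

theorem meas_ge {C : Set E} (hC : IsCompact C) (F : α → E → ℝ) (hc : ∀ a, Continuous (F a))
    (hm : ∀ x, Measurable fun a => F a x) :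
    MeasurableSet {a | ∃ v ∈ C, 0 ≤ F a v} := by
  have : {a | ∃ v ∈ C, 0 ≤ F a v} =
      ⋂ m : ℕ, {a | ∃ v ∈ C, -(1 / ((m : ℝ) + 1)) < F a v} := by
    ext a
    simp only [mem_ofPred_eq, mem_iInter]
    constructor
    · rintro ⟨v, hv, h⟩ m
      refine ⟨v, hv, lt_of_lt_of_le ?_ h⟩
      have : (0 : ℝ) < 1 / ((m : ℝ) + 1) := by positivity
      linarith
    · intro h
      obtain ⟨v0, hv0, -⟩ := h 0
      obtain ⟨v, hv, hmax⟩ := hC.exists_isMaxOn ⟨v0, hv0⟩ (hc a).continuousOn
      refine ⟨v, hv, ?_⟩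
      by_contra hneg
      push Not at hneg
      obtain ⟨m, hm'⟩ := exists_nat_one_div_lt (neg_pos.2 hneg)
      obtain ⟨y, hy, hlt⟩ := h m
      have := hmax hy
      simp only [mem_ofPred_eq] at this
      linarith
  rw [this]
  exact MeasurableSet.iInter fun m => meas_gt hC F hc hm _ measurable_const

/-- the largest value of `φ` on the set where `F a` is nonnegative is measurable -/
theorem exists_val {K : Set E} (hK : IsCompact K) (F : α → E → ℝ) (hc : ∀ a, Continuous (F a))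
    (hm : ∀ x, Measurable fun a => F a x) (hne : ∀ a, ∃ v ∈ K, 0 ≤ F a v) (φ : E → ℝ)
    (hφ : Continuous φ) :
    ∃ c : α → ℝ, Measurable c ∧ ∀ a, ∃ v ∈ K, 0 ≤ F a v ∧ φ v = c a := by
  have key : ∀ a, ∃ v ∈ K, 0 ≤ F a v ∧ ∀ y ∈ K, 0 ≤ F a y → φ y ≤ φ v := by
    intro a
    have hS : IsCompact (K ∩ {v | 0 ≤ F a v}) :=
      hK.inter_right (isClosed_le continuous_const (hc a))
    obtain ⟨v0, h0, h1⟩ := hne a
    obtain ⟨v, hv, hmax⟩ := hS.exists_isMaxOn ⟨v0, h0, h1⟩ hφ.continuousOn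
    exact ⟨v, hv.1, hv.2, fun y hy hy' => hmax ⟨hy, hy'⟩⟩
  choose v hvK hvF hvm using key
  refine ⟨fun a => φ (v a), ?_, fun a => ⟨v a, hvK a, hvF a, rfl⟩⟩
  refine measurable_of_Ici fun t => ?_
  have : (fun a => φ (v a)) ⁻¹' Ici t = {a | ∃ y ∈ K ∩ {y | t ≤ φ y}, 0 ≤ F a y} := by
    ext a
    simp only [mem_preimage, mem_Ici, mem_ofPred_eq, mem_inter_iff]
    constructor
    · intro h
      exact ⟨v a, ⟨hvK a, h⟩, hvF a⟩
    · rintro ⟨y, ⟨hy, ht⟩, hF⟩
      exact ht.trans (hvm a y hy hF)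
  rw [this]
  exact meas_ge (hK.inter_right (isClosed_le continuous_const hφ)) F hc hm

end sel

section sel2
variable {α ι : Type*} [MeasurableSpace α] [Fintype ι]

/-- measurable selection from `{v ∈ K | 0 ≤ F a v}` -/
theorem exists_measurable_sel {K : Set (ι → ℝ)} (hK : IsCompact K) (F : α → (ι → ℝ) → ℝ)
    (hc : ∀ a, Continuous (F a)) (hm : ∀ x, Measurable fun a => F a x)
    (hne : ∀ a, ∃ v ∈ K, 0 ≤ F a v) :
    ∃ g : α → ι → ℝ, Measurable g ∧ ∀ a, g a ∈ K ∧ 0 ≤ F a (g a) := by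
  classical
  have key : ∀ S : Finset ι, ∃ c : α → ι → ℝ, Measurable c ∧
      ∀ a, ∃ v ∈ K, 0 ≤ F a v ∧ ∀ j ∈ S, v j = c a j := by
    intro S
    induction S using Finset.induction_on with
    | empty =>
      refine ⟨fun _ _ => 0, measurable_const, fun a => ?_⟩
      obtain ⟨v, hv, h⟩ := hne a
      exact ⟨v, hv, h, by simp⟩
    | insert j S hj ih =>
      obtain ⟨c, hcm, hcv⟩ := ih
      obtain ⟨d, hdm, hd⟩ := exists_val hK
        (fun a v => min (F a v) (-∑ i ∈ S, |v i - c a i|))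
        (fun a => (hc a).min (by fun_prop))
        (fun x => (hm x).min (Measurable.neg (Finset.measurable_sum _ fun i _ =>
          (measurable_const.sub ((measurable_pi_apply i).comp hcm)).abs)))
        (fun a => by
          obtain ⟨v, hv, h, h'⟩ := hcv a
          refine ⟨v, hv, le_min h ?_⟩
          rw [Finset.sum_eq_zero fun i hi => by rw [h' i hi]; simp]
          simp)
        (fun v => v j) (continuous_apply j)
      refine ⟨fun a => Function.update (c a) j (d a), ?_, fun a => ?_⟩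
      · refine measurable_pi_lambda _ fun i => ?_
        by_cases hi : i = j
        · subst hi; simpa using hdm
        · simp only [Function.update_of_ne hi]
          exact (measurable_pi_apply i).comp hcm
      · obtain ⟨v, hv, h, h'⟩ := hd a
        refine ⟨v, hv, (le_min_iff.1 h).1, fun i hi => ?_⟩
        rcases Finset.mem_insert.1 hi with rfl | hi'
        · simpa using h'
        · have hne' : i ≠ j := fun e => hj (e ▸ hi')
          simp only [Function.update_of_ne hne']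
          have h2 := (le_min_iff.1 h).2
          have h3 : ∑ i ∈ S, |v i - c a i| = 0 :=
            le_antisymm (by linarith) (Finset.sum_nonneg fun _ _ => abs_nonneg _)
          have := (Finset.sum_eq_zero_iff_of_nonneg fun _ _ => abs_nonneg _).1 h3 i hi'
          exact sub_eq_zero.1 (abs_eq_zero.1 this)
  obtain ⟨c, hcm, hcv⟩ := key Finset.univ
  refine ⟨c, hcm, fun a => ?_⟩
  obtain ⟨v, hv, h, h'⟩ := hcv a
  have : v = c a := funext fun j => h' j (Finset.mem_univ j)
  exact this ▸ ⟨hv, h⟩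

/-- **measurable maximiser** of a Carathéodory function on a compact set -/
theorem exists_measurable_argmax {K : Set (ι → ℝ)} (hK : IsCompact K) (hne : K.Nonempty)
    (f : α → (ι → ℝ) → ℝ) (hc : ∀ a, Continuous (f a)) (hm : ∀ x, Measurable fun a => f a x) :
    ∃ g : α → ι → ℝ, Measurable g ∧ ∀ a, g a ∈ K ∧ ∀ y ∈ K, f a y ≤ f a (g a) := by
  have key : ∀ a, ∃ v ∈ K, ∀ y ∈ K, f a y ≤ f a v := fun a => by
    obtain ⟨v, hv, h⟩ := hK.exists_isMaxOn hne (hc a).continuousOn
    exact ⟨v, hv, fun y hy => h hy⟩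
  choose v hvK hvm using key
  have hl : Measurable fun a => f a (v a) := by
    refine measurable_of_Ioi fun t => ?_
    have : (fun a => f a (v a)) ⁻¹' Ioi t = {a | ∃ y ∈ K, t < f a y} := by
      ext a
      simp only [mem_preimage, mem_Ioi, mem_ofPred_eq]
      exact ⟨fun h => ⟨v a, hvK a, h⟩, fun ⟨y, hy, h⟩ => h.trans_le (hvm a y hy)⟩
    rw [this]
    exact meas_gt hK f hc hm _ measurable_const
  obtain ⟨g, hg, h⟩ := exists_measurable_sel hK (fun a y => f a y - f a (v a))
    (fun a => (hc a).sub continuous_const) (fun x => (hm x).sub hl)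
    (fun a => ⟨v a, hvK a, by simp⟩)
  exact ⟨g, hg, fun a => ⟨(h a).1, fun y hy => by have := (h a).2; have := hvm a y hy; linarith⟩⟩

end sel2

/-! ### quadratic forms -/

variable {ι : Type*} [Fintype ι]

/-- bilinear form of an array -/
def qf (M : ι → ι → ℝ) (u v : ι → ℝ) : ℝ := ∑ i, ∑ j, M i j * u i * v j
/-- scalar product -/
def dot (u v : ι → ℝ) : ℝ := ∑ i, u i * v i
/-- squared Hilbert–Schmidt norm -/
def fro (M : ι → ι → ℝ) : ℝ := ∑ i, ∑ j, M i j ^ 2
/-- symmetry -/
def Sy (M : ι → ι → ℝ) : Prop := ∀ i j, M i j = M j i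
/-- positive semidefinite -/
def Ps (M : ι → ι → ℝ) : Prop := ∀ u, 0 ≤ qf M u u

theorem dot_self (u : ι → ℝ) : dot u u = ∑ i, u i ^ 2 := by simp [dot, sq]
theorem dot_nonneg (u : ι → ℝ) : 0 ≤ dot u u := Finset.sum_nonneg fun _ _ => mul_self_nonneg _
theorem dot_comm (u v : ι → ℝ) : dot u v = dot v u := by simp [dot, mul_comm]
theorem fro_nonneg (M : ι → ι → ℝ) : 0 ≤ fro M :=
  Finset.sum_nonneg fun _ _ => Finset.sum_nonneg fun _ _ => sq_nonneg _
theorem dot_sq_le (u v : ι → ℝ) : dot u v ^ 2 ≤ dot u u * dot v v := by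
  rw [dot_self, dot_self]; exact Finset.sum_mul_sq_le_sq_mul_sq _ _ _

theorem qf_comm {M : ι → ι → ℝ} (h : Sy M) (u v : ι → ℝ) : qf M u v = qf M v u := by
  unfold qf; rw [Finset.sum_comm]
  exact Finset.sum_congr rfl fun i _ => Finset.sum_congr rfl fun j _ => by rw [h j i]; ring

theorem qf_eq_dot (M : ι → ι → ℝ) (u v : ι → ℝ) :
    qf M u v = dot u fun i => ∑ j, M i j * v j := by
  unfold qf dot
  exact Finset.sum_congr rfl fun i _ => by
    rw [Finset.mul_sum]; exact Finset.sum_congr rfl fun j _ => by ring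

/-- Cauchy–Schwarz for arrays -/
theorem hs_sq_le (M N : ι → ι → ℝ) : (∑ i, ∑ j, M i j * N i j) ^ 2 ≤ fro M * fro N := by
  unfold fro
  rw [← Fintype.sum_prod_type', ← Fintype.sum_prod_type', ← Fintype.sum_prod_type']
  exact Finset.sum_mul_sq_le_sq_mul_sq _ (fun p : ι × ι => M p.1 p.2) fun p => N p.1 p.2

theorem fro_outer (u v : ι → ℝ) : fro (fun i j => u i * v j) = dot u u * dot v v := by
  unfold fro; rw [dot_self, dot_self, Finset.sum_mul_sum]
  exact Finset.sum_congr rfl fun i _ => Finset.sum_congr rfl fun j _ => by ring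

/-- operator norm ≤ Hilbert–Schmidt norm -/
theorem qf_sq_le (M : ι → ι → ℝ) (u v : ι → ℝ) : qf M u v ^ 2 ≤ fro M * (dot u u * dot v v) := by
  rw [← fro_outer]
  have := hs_sq_le M fun i j => u i * v j
  simpa [qf, mul_assoc] using this

theorem abs_qf_le (M : ι → ι → ℝ) (u : ι → ℝ) : |qf M u u| ≤ √(fro M) * dot u u := by
  have h := qf_sq_le M u u
  have h1 : qf M u u ^ 2 ≤ (√(fro M) * dot u u) ^ 2 := by
    rw [mul_pow, Real.sq_sqrt (fro_nonneg M)]; nlinarith
  exact abs_le_of_sq_le_sq' h1 (mul_nonneg (Real.sqrt_nonneg _) (dot_nonneg u)) |> abs_le.2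

theorem qf_lin (M : ι → ι → ℝ) (a b : ℝ) (u v : ι → ℝ) :
    qf M (fun i => a * u i + b * v i) (fun i => a * u i + b * v i) =
      a ^ 2 * qf M u u + a * b * (qf M u v + qf M v u) + b ^ 2 * qf M v v := by
  simp only [qf, Finset.mul_sum, mul_add, ← Finset.sum_add_distrib]
  exact Finset.sum_congr rfl fun i _ => Finset.sum_congr rfl fun j _ => by ring

theorem dot_lin (a b : ℝ) (u v : ι → ℝ) :
    dot (fun i => a * u i + b * v i) (fun i => a * u i + b * v i) =
      a ^ 2 * dot u u + 2 * a * b * dot u v + b ^ 2 * dot v v := by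
  simp only [dot, Finset.mul_sum, ← Finset.sum_add_distrib]
  exact Finset.sum_congr rfl fun i _ => by ring

theorem dot_lin' (a b : ℝ) (u v w : ι → ℝ) :
    dot w (fun i => a * u i + b * v i) = a * dot w u + b * dot w v := by
  simp only [dot, Finset.mul_sum, ← Finset.sum_add_distrib]
  exact Finset.sum_congr rfl fun i _ => by ring

theorem qf_sub (M N : ι → ι → ℝ) (u v : ι → ℝ) :
    qf (fun i j => M i j - N i j) u v = qf M u v - qf N u v := by
  simp only [qf, ← Finset.sum_sub_distrib]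
  exact Finset.sum_congr rfl fun i _ => Finset.sum_congr rfl fun j _ => by ring

theorem qf_outer (c : ℝ) (v u w : ι → ℝ) :
    qf (fun i j => c * v i * v j) u w = c * dot v u * dot v w := by
  unfold qf dot
  rw [mul_assoc, Finset.sum_mul_sum, Finset.mul_sum]
  refine Finset.sum_congr rfl fun i _ => ?_
  rw [Finset.mul_sum]
  exact Finset.sum_congr rfl fun j _ => by ring

theorem isCompact_sph : IsCompact {v : ι → ℝ | dot v v = 1} := by
  refine Metric.isCompact_of_isClosed_isBounded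
    (isClosed_eq (by unfold dot; fun_prop) continuous_const) ?_
  refine (Metric.isBounded_closedBall (x := (0 : ι → ℝ)) (r := 1)).subset fun v hv => ?_
  rw [mem_closedBall_zero_iff, pi_norm_le_iff_of_nonneg zero_le_one]
  intro i
  have h1 : v i ^ 2 ≤ ∑ j, v j ^ 2 :=
    Finset.single_le_sum (f := fun j => v j ^ 2) (fun _ _ => sq_nonneg _) (Finset.mem_univ i)
  rw [← dot_self, show dot v v = 1 from hv] at h1
  rw [Real.norm_eq_abs]
  exact (sq_le_one_iff_abs_le_one _).1 h1

variable [Nonempty ι]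

theorem sph_ne : {v : ι → ℝ | dot v v = 1}.Nonempty := by
  classical
  obtain ⟨i⟩ := ‹Nonempty ι›
  refine ⟨Pi.single i 1, ?_⟩
  simp [dot, Pi.single_apply]

theorem ex_tv : ∃ g : (ι → ι → ℝ) → ι → ℝ, Measurable g ∧
    ∀ M, g M ∈ {v : ι → ℝ | dot v v = 1} ∧
      ∀ y ∈ {v : ι → ℝ | dot v v = 1}, qf M y y ≤ qf M (g M) (g M) :=
  exists_measurable_argmax isCompact_sph sph_ne (fun M v => qf M v v)
    (fun M => by unfold qf; fun_prop) fun x => by unfold qf; fun_prop

/-- a measurable top eigenvector -/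
def tv (M : ι → ι → ℝ) : ι → ℝ := (ex_tv (ι := ι)).choose M
/-- the top eigenvalue -/
def l1 (M : ι → ι → ℝ) : ℝ := qf M (tv M) (tv M)
/-- the rest -/
def Mp (M : ι → ι → ℝ) : ι → ι → ℝ := fun i j => M i j - l1 M * tv M i * tv M j

theorem measurable_tv : Measurable (tv (ι := ι)) := (ex_tv (ι := ι)).choose_spec.1
theorem dot_tv (M : ι → ι → ℝ) : dot (tv M) (tv M) = 1 := ((ex_tv (ι := ι)).choose_spec.2 M).1
theorem qf_le_l1 (M : ι → ι → ℝ) {u : ι → ℝ} (hu : dot u u = 1) : qf M u u ≤ l1 M :=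
  ((ex_tv (ι := ι)).choose_spec.2 M).2 u hu

theorem abs_tv_le (M : ι → ι → ℝ) (i : ι) : |tv M i| ≤ 1 := by
  have h1 : tv M i ^ 2 ≤ ∑ j, tv M j ^ 2 :=
    Finset.single_le_sum (f := fun j => tv M j ^ 2) (fun _ _ => sq_nonneg _) (Finset.mem_univ i)
  rw [← dot_self, dot_tv] at h1
  exact (sq_le_one_iff_abs_le_one _).1 h1

theorem qf_le (M : ι → ι → ℝ) (u : ι → ℝ) : qf M u u ≤ l1 M * dot u u := by
  rcases (dot_nonneg u).eq_or_lt with h | h
  · have := abs_qf_le M u
    rw [← h] at this ⊢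
    have := (abs_le.1 this).2
    simpa using this
  · have hs : 0 < √(dot u u) := Real.sqrt_pos.2 h
    have hq := qf_lin M (√(dot u u))⁻¹ 0 u u
    have hd := dot_lin (√(dot u u))⁻¹ 0 u u
    have e : (√(dot u u))⁻¹ ^ 2 = (dot u u)⁻¹ := by rw [inv_pow, Real.sq_sqrt h.le]
    rw [e] at hq hd
    have h1 := qf_le_l1 M (u := fun i => (√(dot u u))⁻¹ * u i + 0 * u i)
      (by rw [hd]; field_simp; ring)
    rw [hq] at h1
    have h2 : (dot u u)⁻¹ * qf M u u ≤ l1 M := by linarith
    rwa [inv_mul_le_iff₀ h, mul_comm] at h2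

/-- eigenvector equation, weak form -/
theorem qf_tv {M : ι → ι → ℝ} (h : Sy M) (w : ι → ℝ) : qf M (tv M) w = l1 M * dot (tv M) w := by
  have key : ∀ t : ℝ, 2 * t * (qf M (tv M) w - l1 M * dot (tv M) w) +
      t ^ 2 * (qf M w w - l1 M * dot w w) ≤ 0 := by
    intro t
    have h1 := qf_le M fun i => 1 * tv M i + t * w i
    rw [qf_lin, dot_lin, dot_tv, qf_comm h w] at h1
    have : qf M (tv M) (tv M) = l1 M := rfl
    rw [this] at h1
    nlinarith
  set a := qf M (tv M) w - l1 M * dot (tv M) w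
  set b := qf M w w - l1 M * dot w w
  by_contra hne
  have ha : a ≠ 0 := sub_ne_zero.2 hne
  have hb : 0 < |b| + 1 := by positivity
  have h1 := key (a / (|b| + 1))
  have ha2 : 0 < a ^ 2 := by positivity
  have h2 : 2 * (a / (|b| + 1)) * a + (a / (|b| + 1)) ^ 2 * b =
      a ^ 2 / (|b| + 1) ^ 2 * (2 * (|b| + 1) + b) := by field_simp
  rw [h2] at h1
  have h3 : 0 < 2 * (|b| + 1) + b := by have := neg_abs_le b; have := abs_nonneg b; linarith
  have : 0 < a ^ 2 / (|b| + 1) ^ 2 * (2 * (|b| + 1) + b) := by positivity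
  linarith

/-- eigenvector equation -/
theorem mul_tv {M : ι → ι → ℝ} (h : Sy M) (i : ι) : ∑ j, M i j * tv M j = l1 M * tv M i := by
  classical
  have h1 := qf_tv h (Pi.single i 1)
  rw [qf_comm h, qf_eq_dot] at h1
  simpa [dot, Pi.single_apply] using h1

theorem l1_sub_le (M N : ι → ι → ℝ) : l1 M - l1 N ≤ √(fro fun i j => M i j - N i j) := by
  have h1 := qf_le_l1 N (dot_tv M)
  have h2 := (abs_le.1 (abs_qf_le (fun i j => M i j - N i j) (tv M))).2
  rw [qf_sub, dot_tv, mul_one] at h2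
  have : qf M (tv M) (tv M) = l1 M := rfl
  linarith

theorem fro_sub_comm (M N : ι → ι → ℝ) :
    (fro fun i j => M i j - N i j) = fro fun i j => N i j - M i j :=
  Finset.sum_congr rfl fun i _ => Finset.sum_congr rfl fun j _ => by ring

/-- Weyl: the top eigenvalue is 1-Lipschitz in Hilbert–Schmidt norm -/
theorem abs_l1_sub_le (M N : ι → ι → ℝ) : |l1 M - l1 N| ≤ √(fro fun i j => M i j - N i j) := by
  have h1 := l1_sub_le M N
  have h2 := l1_sub_le N M
  rw [← fro_sub_comm] at h2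
  exact abs_le.2 ⟨by linarith, h1⟩

theorem continuous_l1 : Continuous (l1 (ι := ι)) := by
  refine continuous_iff_continuousAt.2 fun N => ?_
  have hc : Continuous fun M : ι → ι → ℝ => √(fro fun i j => M i j - N i j) := by
    unfold fro; fun_prop
  have h0 : Tendsto (fun M : ι → ι → ℝ => √(fro fun i j => M i j - N i j)) (𝓝 N) (𝓝 0) := by
    have := hc.tendsto N
    simpa [fro] using this
  refine tendsto_iff_dist_tendsto_zero.2 (squeeze_zero (fun _ => dist_nonneg) (fun M => ?_) h0)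
  rw [Real.dist_eq]; exact abs_l1_sub_le M N

theorem measurable_l1 : Measurable (l1 (ι := ι)) := continuous_l1.measurable

theorem measurable_Mp : Measurable (Mp (ι := ι)) := by
  refine measurable_pi_lambda _ fun i => measurable_pi_lambda _ fun j => ?_
  have h1 : ∀ k : ι, Measurable fun M : ι → ι → ℝ => tv M k :=
    fun k => (measurable_pi_apply k).comp measurable_tv
  exact (by fun_prop : Measurable fun M : ι → ι → ℝ => M i j).sub
    ((measurable_l1.mul (h1 i)).mul (h1 j))

theorem convexOn_l1 : ConvexOn ℝ univ (l1 (ι := ι)) := by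
  refine ⟨convex_univ, fun M _ N _ a b ha hb _ => ?_⟩
  have h1 := qf_le_l1 M (dot_tv (a • M + b • N))
  have h2 := qf_le_l1 N (dot_tv (a • M + b • N))
  have h3 : l1 (a • M + b • N) = a * qf M (tv (a • M + b • N)) (tv (a • M + b • N)) +
      b * qf N (tv (a • M + b • N)) (tv (a • M + b • N)) := by
    simp only [l1, qf, Finset.mul_sum, ← Finset.sum_add_distrib, Pi.add_apply, Pi.smul_apply,
      smul_eq_mul]
    exact Finset.sum_congr rfl fun i _ => Finset.sum_congr rfl fun j _ => by ring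
  rw [h3, smul_eq_mul, smul_eq_mul]
  nlinarith [mul_le_mul_of_nonneg_left h1 ha, mul_le_mul_of_nonneg_left h2 hb]

theorem abs_l1_le (M : ι → ι → ℝ) : |l1 M| ≤ √(fro M) := by
  have := abs_qf_le M (tv M)
  rwa [dot_tv, mul_one] at this

theorem l1_nonneg {M : ι → ι → ℝ} (h : Ps M) : 0 ≤ l1 M := h _

theorem sy_Mp {M : ι → ι → ℝ} (h : Sy M) : Sy (Mp M) := fun i j => by
  simp only [Mp, h i j]; ring

theorem qf_Mp (M : ι → ι → ℝ) (u w : ι → ℝ) :
    qf (Mp M) u w = qf M u w - l1 M * dot (tv M) u * dot (tv M) w := by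
  rw [← qf_outer, ← qf_sub]; rfl

theorem qf_Mp_tv {M : ι → ι → ℝ} (h : Sy M) (w : ι → ℝ) : qf (Mp M) (tv M) w = 0 := by
  rw [qf_Mp, qf_tv h, dot_tv]; ring

theorem Mp_mul_tv {M : ι → ι → ℝ} (h : Sy M) (i : ι) : ∑ j, Mp M i j * tv M j = 0 := by
  have h1 := dot_tv M
  simp only [Mp, sub_mul, Finset.sum_sub_distrib, mul_tv h, mul_assoc, ← Finset.mul_sum]
  unfold dot at h1
  rw [h1]; ring

/-- the component of `u` orthogonal to the top eigenvector -/
def pp (M : ι → ι → ℝ) (u : ι → ℝ) : ι → ℝ := fun i => 1 * u i + -dot (tv M) u * tv M i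

theorem dot_tv_pp (M : ι → ι → ℝ) (u : ι → ℝ) : dot (tv M) (pp M u) = 0 := by
  unfold pp; rw [dot_lin', dot_tv]; ring

theorem dot_pp (M : ι → ι → ℝ) (u : ι → ℝ) :
    dot (pp M u) (pp M u) = dot u u - dot (tv M) u ^ 2 := by
  unfold pp; rw [dot_lin, dot_tv, dot_comm u (tv M)]; ring

/-- `Mp = P M P` -/
theorem qf_Mp_eq {M : ι → ι → ℝ} (h : Sy M) (u : ι → ℝ) :
    qf (Mp M) u u = qf M (pp M u) (pp M u) := by
  unfold pp
  rw [qf_lin, qf_Mp, qf_comm h u (tv M), qf_tv h, qf_tv h, dot_tv]; ring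

theorem qf_Mp_pp {M : ι → ι → ℝ} (h : Sy M) (u : ι → ℝ) :
    qf (Mp M) (pp M u) (pp M u) = qf (Mp M) u u := by
  rw [qf_Mp, dot_tv_pp, qf_Mp_eq h]; ring

theorem ps_Mp {M : ι → ι → ℝ} (h : Sy M) (hp : Ps M) : Ps (Mp M) := fun u => by
  rw [qf_Mp_eq h]; exact hp _

/-- Pythagoras -/
theorem fro_eq {M : ι → ι → ℝ} (h : Sy M) : fro M = l1 M ^ 2 + fro (Mp M) := by
  have h1 : fro M = fro (Mp M) + 2 * l1 M * qf (Mp M) (tv M) (tv M) +
      l1 M ^ 2 * fro (fun i j => tv M i * tv M j) := by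
    simp only [fro, qf, Mp, Finset.mul_sum, ← Finset.sum_add_distrib]
    exact Finset.sum_congr rfl fun i _ => Finset.sum_congr rfl fun j _ => by ring
  rw [h1, qf_Mp_tv h, fro_outer, dot_tv]; ring

/-- energy gap away from the top eigenvector -/
theorem gap_le {M : ι → ι → ℝ} (h : Sy M) {u : ι → ℝ} (hu : dot u u = 1) :
    (l1 M - √(fro (Mp M))) * (1 - dot (tv M) u ^ 2) ≤ l1 M - qf M u u := by
  have h1 := (abs_le.1 (abs_qf_le (Mp M) (pp M u))).2
  rw [qf_Mp_pp h, dot_pp, hu, qf_Mp] at h1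
  nlinarith

theorem fro_proj {u v : ι → ℝ} (hu : dot u u = 1) (hv : dot v v = 1) :
    (fro fun i j => u i * u j - v i * v j) = 2 * (1 - dot u v ^ 2) := by
  have h1 : (fro fun i j => u i * u j - v i * v j) = fro (fun i j => u i * u j) +
      fro (fun i j => v i * v j) - 2 * qf (fun i j => 1 * u i * u j) v v := by
    simp only [fro, qf, Finset.mul_sum, ← Finset.sum_add_distrib, ← Finset.sum_sub_distrib]
    exact Finset.sum_congr rfl fun i _ => Finset.sum_congr rfl fun j _ => by ring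
  rw [h1, fro_outer, fro_outer, qf_outer, hu, hv]; ring

theorem one_sub_nonneg {u v : ι → ℝ} (hu : dot u u = 1) (hv : dot v v = 1) :
    0 ≤ 1 - dot u v ^ 2 := by
  have := dot_sq_le u v
  rw [hu, hv] at this; linarith

/-- **Davis–Kahan** for an almost maximiser `u` of the form of `N` -/
theorem davis_kahan' {M : ι → ι → ℝ} (h : Sy M) (N : ι → ι → ℝ) {u : ι → ℝ} (hu : dot u u = 1)
    {e : ℝ} (he : l1 N ≤ qf N u u + e) :
    (l1 M - √(fro (Mp M))) * (1 - dot (tv M) u ^ 2) ≤
      √(fro fun i j => M i j - N i j) * √(2 * (1 - dot (tv M) u ^ 2)) + e := by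
  have h1 := gap_le h hu
  have h2 := qf_le_l1 N (dot_tv M)
  have h3 := hs_sq_le (fun i j => M i j - N i j) fun i j => tv M i * tv M j - u i * u j
  rw [fro_proj (dot_tv M) hu] at h3
  have h4 : ∑ i, ∑ j, (M i j - N i j) * (tv M i * tv M j - u i * u j) =
      l1 M - qf N (tv M) (tv M) - (qf M u u - qf N u u) := by
    simp only [l1, qf, ← Finset.sum_sub_distrib]
    exact Finset.sum_congr rfl fun i _ => Finset.sum_congr rfl fun j _ => by ring
  rw [h4] at h3
  have h5 := Real.le_sqrt_of_sq_le h3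
  rw [Real.sqrt_mul (fro_nonneg _)] at h5
  linarith

/-- **Davis–Kahan** -/
theorem davis_kahan {M : ι → ι → ℝ} (h : Sy M) (N : ι → ι → ℝ) {g : ℝ} (hg : 0 ≤ g)
    (hgap : g ≤ l1 M - √(fro (Mp M))) :
    g ^ 2 * (1 - dot (tv M) (tv N) ^ 2) ≤ 2 * fro fun i j => M i j - N i j := by
  have h1 := davis_kahan' h N (dot_tv N) (e := 0) (by rw [add_zero]; rfl)
  have h0 := one_sub_nonneg (dot_tv M) (dot_tv N)
  set s := 1 - dot (tv M) (tv N) ^ 2
  have hF := fro_nonneg fun i j => M i j - N i j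
  set F := fro fun i j => M i j - N i j
  have h2 : g * s ≤ √F * √(2 * s) := by nlinarith
  have h3 : (g * s) ^ 2 ≤ F * (2 * s) := by
    have := pow_le_pow_left₀ (mul_nonneg hg h0) h2 2
    rwa [mul_pow (√F), Real.sq_sqrt hF, Real.sq_sqrt (by linarith)] at this
  rcases h0.eq_or_lt with h4 | h4
  · rw [← h4]; linarith
  · have : (g ^ 2 * s) * s ≤ (2 * F) * s := by nlinarith
    exact le_of_mul_le_mul_right this h4

/-- choice of the sign -/
theorem sign_close {u v : ι → ℝ} (hu : dot u u = 1) (hv : dot v v = 1) :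
    ∑ i, (u i - (if 0 ≤ dot u v then 1 else -1) * v i) ^ 2 ≤ 2 * (1 - dot u v ^ 2) := by
  have h0 := one_sub_nonneg hu hv
  have h1 := dot_lin 1 (-(if 0 ≤ dot u v then 1 else -1)) u v
  rw [dot_self, hu, hv] at h1
  have h2 : ∑ i, (u i - (if 0 ≤ dot u v then 1 else -1) * v i) ^ 2 =
      ∑ i, (1 * u i + -(if 0 ≤ dot u v then 1 else -1) * v i) ^ 2 :=
    Finset.sum_congr rfl fun i _ => by ring
  rw [h2, h1]
  split_ifs with hc
  · nlinarith
  · push Not at hc; nlinarith

/-- for positive semidefinite `M`, `|M u|² ≤ l1 · u'Mu` -/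
theorem mul_sq_le {M : ι → ι → ℝ} (h : Sy M) (hp : Ps M) (u : ι → ℝ) :
    ∑ i, (∑ j, M i j * u j) ^ 2 ≤ l1 M * qf M u u := by
  set w : ι → ℝ := fun i => ∑ j, M i j * u j with hw
  have e1 : qf M w u = dot w w := by rw [qf_eq_dot]
  have hcs : qf M w u ^ 2 ≤ qf M w w * qf M u u := by
    have key : ∀ t : ℝ, 0 ≤ qf M w w * (t * t) + 2 * qf M w u * t + qf M u u := fun t => by
      have := hp fun i => t * w i + 1 * u i
      rw [qf_lin, qf_comm h u w] at this
      nlinarith
    have := discrim_le_zero key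
    unfold discrim at this
    nlinarith
  rw [← dot_self]
  rw [e1] at hcs
  have h2 := qf_le M w
  have h3 := hp u
  rcases (dot_nonneg w).eq_or_lt with h4 | h4
  · rw [← h4]; exact mul_nonneg (l1_nonneg hp) h3
  · have : dot w w * dot w w ≤ (l1 M * qf M u u) * dot w w := by nlinarith
    exact le_of_mul_le_mul_right this h4

/-- `|M|_F² ≤ l1 · tr M` for positive semidefinite `M` -/
theorem fro_le_tr {M : ι → ι → ℝ} (h : Sy M) (hp : Ps M) : fro M ≤ l1 M * ∑ i, M i i := by
  classical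
  unfold fro
  rw [Finset.sum_comm, Finset.mul_sum]
  refine Finset.sum_le_sum fun j _ => ?_
  have := mul_sq_le h hp (Pi.single j 1)
  simpa [qf, Pi.single_apply] using this

/-! ### uniqueness, symmetries, products of positive arrays -/

/-- with a gap the maximiser is unique up to sign -/
theorem dot_sq_eq_one {M : ι → ι → ℝ} (h : Sy M) (hg : √(fro (Mp M)) < l1 M) {u : ι → ℝ}
    (hu : dot u u = 1) (hq : l1 M ≤ qf M u u) : dot (tv M) u ^ 2 = 1 := by
  have h1 := gap_le h hu
  have h2 := one_sub_nonneg (dot_tv M) hu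
  have h3 : 0 < l1 M - √(fro (Mp M)) := sub_pos.2 hg
  have h4 : 1 - dot (tv M) u ^ 2 ≤ 0 := by
    by_contra hc
    push Not at hc
    have := mul_pos h3 hc
    linarith
  linarith

theorem outer_eq {u v : ι → ℝ} (hu : dot u u = 1) (hv : dot v v = 1) (h : dot u v ^ 2 = 1)
    (i j : ι) : u i * u j = v i * v j := by
  have h1 := fro_proj hu hv
  rw [h, sub_self, mul_zero] at h1
  have h2 := (Finset.sum_eq_zero_iff_of_nonneg fun _ _ =>
    Finset.sum_nonneg fun _ _ => sq_nonneg _).1 h1 i (Finset.mem_univ i)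
  have h3 := (Finset.sum_eq_zero_iff_of_nonneg fun _ _ => sq_nonneg _).1 h2 j (Finset.mem_univ j)
  exact sub_eq_zero.1 (pow_eq_zero_iff two_ne_zero |>.1 h3)

/-- signed permutation of an array -/
def act (s : ι → ℝ) (e : ι ≃ ι) (M : ι → ι → ℝ) : ι → ι → ℝ :=
  fun i j => s i * s j * M (e i) (e j)

theorem qf_act (s : ι → ℝ) (e : ι ≃ ι) (M : ι → ι → ℝ) (u v : ι → ℝ) :
    qf (act s e M) u v =
      qf M (fun k => s (e.symm k) * u (e.symm k)) fun k => s (e.symm k) * v (e.symm k) := by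
  unfold qf act
  rw [← e.sum_comp fun k => ∑ j, M k j * (s (e.symm k) * u (e.symm k)) *
    (s (e.symm j) * v (e.symm j))]
  refine Finset.sum_congr rfl fun i _ => ?_
  rw [← e.sum_comp fun j => M (e i) j * (s (e.symm (e i)) * u (e.symm (e i))) *
    (s (e.symm j) * v (e.symm j))]
  exact Finset.sum_congr rfl fun j _ => by simp only [e.symm_apply_apply]; ring

theorem dot_act {s : ι → ℝ} (hs : ∀ i, s i ^ 2 = 1) (e : ι ≃ ι) (u v : ι → ℝ) :
    dot (fun k => s (e k) * u (e k)) (fun k => s (e k) * v (e k)) = dot u v := by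
  unfold dot
  rw [← e.sum_comp fun k => u k * v k]
  exact Finset.sum_congr rfl fun i _ => by linear_combination (u (e i) * v (e i)) * hs (e i)

theorem l1_act {s : ι → ℝ} (hs : ∀ i, s i ^ 2 = 1) (e : ι ≃ ι) (M : ι → ι → ℝ) :
    l1 (act s e M) = l1 M := by
  refine le_antisymm ?_ ?_
  · rw [l1, qf_act]
    exact qf_le_l1 M (by rw [dot_act hs, dot_tv])
  · have h1 : dot (fun i => s i * tv M (e i)) (fun i => s i * tv M (e i)) = 1 := by
      rw [← dot_tv M]
      unfold dot
      rw [← e.sum_comp fun k => tv M k * tv M k]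
      exact Finset.sum_congr rfl fun i _ => by
        linear_combination (tv M (e i) * tv M (e i)) * hs i
    have h2 := qf_le_l1 (act s e M) h1
    rw [qf_act] at h2
    have h3 : (fun k => s (e.symm k) * (s (e.symm k) * tv M (e (e.symm k)))) = tv M :=
      funext fun k => by
        rw [e.apply_symm_apply]; linear_combination tv M k * hs (e.symm k)
    rwa [h3] at h2

theorem fro_act {s : ι → ℝ} (hs : ∀ i, s i ^ 2 = 1) (e : ι ≃ ι) (M : ι → ι → ℝ) :
    fro (act s e M) = fro M := by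
  unfold fro act
  rw [← e.sum_comp fun k => ∑ j, M k j ^ 2]
  refine Finset.sum_congr rfl fun i _ => ?_
  rw [← e.sum_comp fun j => M (e i) j ^ 2]
  exact Finset.sum_congr rfl fun j _ => by rw [mul_pow, mul_pow, hs, hs]; ring

theorem sy_act (s : ι → ℝ) (e : ι ≃ ι) {M : ι → ι → ℝ} (h : Sy M) : Sy (act s e M) :=
  fun i j => by simp only [act, h (e i) (e j)]; ring

theorem fro_Mp_act {s : ι → ℝ} (hs : ∀ i, s i ^ 2 = 1) (e : ι ≃ ι) {M : ι → ι → ℝ} (h : Sy M) :
    fro (Mp (act s e M)) = fro (Mp M) := by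
  have h1 := fro_eq h
  have h2 := fro_eq (sy_act s e h)
  rw [l1_act hs, fro_act hs] at h2
  linarith

theorem posSemidef {M : ι → ι → ℝ} (h : Sy M) (hp : Ps M) : (Matrix.of M).PosSemidef := by
  rw [Matrix.posSemidef_iff_dotProduct_mulVec]
  refine ⟨Matrix.IsHermitian.ext fun i j => by simp [h j i], fun x => ?_⟩
  have := hp x
  rw [qf_eq_dot] at this
  simpa [dot, dotProduct, Matrix.mulVec] using this

/-- **(PS)** `tr A B ≥ 0` for positive semidefinite arrays -/
theorem hs_nonneg {A B : ι → ι → ℝ} (hA : Sy A) (pA : Ps A) (hB : Sy B) (pB : Ps B) :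
    0 ≤ ∑ i, ∑ j, A i j * B i j := by
  have h := ((posSemidef hA pA).hadamard (posSemidef hB pB)).dotProduct_mulVec_nonneg fun _ => 1
  simpa [dotProduct, Matrix.mulVec, Matrix.hadamard] using h

/-- **PSD sandwich**: `-δ B ≤ F ≤ δ B` gives `|tr A F| ≤ δ tr A B` -/
theorem hs_sandwich {A B F : ι → ι → ℝ} (hA : Sy A) (pA : Ps A) (hB : Sy B) (hF : Sy F) {δ : ℝ}
    (h : ∀ u, |qf F u u| ≤ δ * qf B u u) :
    |∑ i, ∑ j, A i j * F i j| ≤ δ * ∑ i, ∑ j, A i j * B i j := by
  have key : ∀ c : ℝ, c ^ 2 = 1 →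
      0 ≤ δ * (∑ i, ∑ j, A i j * B i j) + c * ∑ i, ∑ j, A i j * F i j := by
    intro c hc
    have h1 := hs_nonneg (B := fun i j => δ * B i j + c * F i j) hA pA
      (fun i j => by simp only [hB i j, hF i j]) fun u => by
        have e : qf (fun i j => δ * B i j + c * F i j) u u = δ * qf B u u + c * qf F u u := by
          simp only [qf, Finset.mul_sum, ← Finset.sum_add_distrib]
          exact Finset.sum_congr rfl fun i _ => Finset.sum_congr rfl fun j _ => by ring
        rw [e]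
        have h2 := abs_le.1 (h u)
        rcases sq_eq_one_iff.1 hc with rfl | rfl <;> linarith [h2.1, h2.2]
    refine h1.trans_eq ?_
    simp only [Finset.mul_sum, ← Finset.sum_add_distrib]
    exact Finset.sum_congr rfl fun i _ => Finset.sum_congr rfl fun j _ => by ring
  have h1 := key 1 (by norm_num)
  have h2 := key (-1) (by norm_num)
  exact abs_le.2 ⟨by linarith, by linarith⟩

/-- `tr A B ≤ l1 A · tr B` for symmetric `A` and positive semidefinite `B` -/
theorem hs_le_l1_tr {A B : ι → ι → ℝ} (hA : Sy A) (hB : Sy B) (pB : Ps B) :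
    ∑ i, ∑ j, A i j * B i j ≤ l1 A * ∑ i, B i i := by
  classical
  have h1 := hs_nonneg (A := fun i j => (if i = j then l1 A else 0) - A i j) (B := B)
    (fun i j => by simp only [hA i j, eq_comm]) (fun u => by
      rw [qf_sub]
      have h2 := qf_le A u
      have h3 : qf (fun i j => if i = j then l1 A else 0) u u = l1 A * dot u u := by
        simp [qf, dot, Finset.mul_sum, mul_assoc]
      linarith) hB pB
  simp only [sub_mul, Finset.sum_sub_distrib, ite_mul, zero_mul, Finset.sum_ite_eq,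
    Finset.mem_univ, if_true, ← Finset.mul_sum] at h1
  linarith

end Crest.Agent.T156.Top24

end
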