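import Crest.Agent.T156.LPw_3
import Crest.Agent.T156.TpR_66

/-!
# Row 156 (helper3): `EZ` and `EL` for the table P
-/

set_option autoImplicit false

namespace Crest.Agent.T156.Alt.Tp66

open Lq3

variable {c η ε μ s l v uu B ξ a0 χ2 γ χ3 b : ℝ} (h : RP c η ε μ s l v uu B ξ a0 χ2 γ χ3 b)
include h

set_option maxHeartbeats 600000 in
theorem RP.bx3 : BX η ε μ l v uu ξ χ2 χ3 γ (b + η) (ε + (ξ - (B / 3 - c / 50)))
    (3 / 2 * ξ + c / 100) (B - 3 * c / 100) := by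
  obtain ⟨v1, v2⟩ := h.hv
  obtain ⟨u1, u2⟩ := h.hu
  rp66 <;>
  exact ⟨⟨c0, by linarith⟩, ⟨by linarith, by linarith⟩, ⟨by linarith, by linarith⟩,
    ⟨by linarith, by linarith⟩, ⟨by linarith, by linarith⟩, ⟨by linarith, by linarith⟩,
    ⟨by linarith, by linarith⟩, ⟨by linarith, by linarith⟩, ⟨by linarith, by linarith⟩,
    ⟨by linarith, by linarith⟩, by linarith, ⟨by linarith, by linarith⟩, by linarith, by linarith,
    by linarith, by linarith, by linarith, by linarith, by linarith, by linarith, by linarith,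
    by linarith, by linarith, by linarith, by linarith, by linarith⟩

/-- **`EL` for the table P** -/
theorem RP.el : ∃ p2 p3 d1 d2 q r lm z b' α ε' a' m β δ, EL η ε μ l v uu ξ (-(1 / 20))
    (uu - 1 / 100) (uu - 1 / 100) 0 (ε + (ξ - (B / 3 - c / 50))) (ε + (ξ - (B / 3 - c / 50)))
    χ2 χ3 γ (3 / 2 * ξ + c / 100) (μ + ξ - η) ξ (b + η) (B - 3 * c / 100)
    p2 p3 d1 d2 q r lm z b' α ε' a' m β δ := h.bx3.el

/-- **`EZ` for the table P** with `p2 = -9/20 + 2 s` -/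
theorem RP.ez : EZ η μ l v uu ξ (-(1 / 20)) (uu - 1 / 100) 0 (-(9 / 20) + 2 * s) χ3
    (uu - 1 / 100 - η) (3 / 2 * ξ - uu / 2 + 2 * η)
    ((-1 - μ + 9 / 2 * ξ - uu / 2 + 4 * η) / 2) := by
  have z := h.bx3.ez
  obtain ⟨u1, u2⟩ := h.hu
  have S := z.S
  refine ⟨z.c1, z.c2, z.c3, z.D1, S.hq, S.uU, S.L1, S.far, ?_, ?_, ?_, S.z1, S.z2, S.z3, S.z4, S.z5,
    S.r1, S.r2, ?_, ?_, ?_, ?_, S.b1, S.b2, S.b3, S.b4, S.b5⟩ <;> clear z S <;>
  rp66 <;> linarith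

end Crest.Agent.T156.Alt.Tp66
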