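import Crest.Agent.T156.TpX_30
import Crest.Agent.T156.TpR_66
import Crest.Agent.T156.NbT_44
import Crest.Agent.T156.R1Tp_4
import Crest.Agent.T156.SrP_66

/-!
# Row 156 (helper30): the regime of the quadratic branch, from the graded path
-/

set_option autoImplicit false

noncomputable section

namespace Crest.Agent.T156.Alt.Tp66

open Real
open Crest.Agent.T156.Alt.Kn72 (nu)

theorem rp_lin {c η ε μ ν s l v uu B φ : ℝ} (c0 : 0 < η) (c1 : 100000 * η ≤ c) (c2 : c ≤ 1 / 2000)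
    (e0 : 5 * η ≤ ε) (e1 : 1000 * ε ≤ c) (s0 : 0 ≤ s) (s1 : s ≤ 1 / 19)
    (m0 : -(1 / 3) - 23 / 40 * c ≤ μ) (m1 : μ ≤ -(4 / 15) + 4 / 5 * s - c / 4)
    (n1 : μ ≤ ν + η) (n2 : ν ≤ μ)
    (pl : (0 ≤ ν + 1 / 3 ∧ l = -(1 / 6) - c / 2 - (ν + 1 / 3) / 2 ∧ v = -(1 / 6) + 3 * c / 4 ∧
      uu = -(5 / 6) - c / 4 - ν) ∨
    (ν + 1 / 3 ≤ 0 ∧ l = -(1 / 6) - c / 2 - (ν + 1 / 3) / 3 ∧
      v = -(1 / 6) + 3 * c / 4 - (ν + 1 / 3) / 3 ∧ uu = -(5 / 6) - c / 4 - ν + (ν + 1 / 3) / 3))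
    (hB : B = 3 / 5 * c + 2 * s + 2 * l) (b : 5 / 8 * c + 2 * s + 2 * l ≤ φ)
    (hφ : φ ≤ -(1 / 3) + c / 4 - 2 / 3 * (μ + 1 / 3) ∨ φ ≤ 5 / 2 * s - 5 / 12 + c / 4) :
    ∃ ξ a0 χ2 γ χ3 b, RP c η ε μ s l v uu B ξ a0 χ2 γ χ3 b ∧ φ ≤ 3 * ξ := by
  have k : (-(1 / 3) - 3 / 5 * c - μ / 2 ≤ l ∧ l ≤ -(1 / 3) - c / 2 - μ / 2 + η ∧
      l ≤ -(5 / 18) - c / 2 - μ / 3 + η) ∧ (-(1 / 6) ≤ v ∧ v ≤ -(1 / 6) + c) ∧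
      (-(5 / 6) - c / 2 - μ ≤ uu ∧ uu ≤ -(5 / 6) - μ) := by
    rcases pl with ⟨_, rfl, rfl, rfl⟩ | ⟨_, rfl, rfl, rfl⟩ <;>
      refine ⟨⟨?_, ?_, ?_⟩, ⟨?_, ?_⟩, ?_, ?_⟩ <;> linarith
  obtain ⟨⟨l0, l1, l2⟩, hv, hu⟩ := k
  rcases le_total (5 / 2 * s - 5 / 12 + c / 4) (-(5 / 9) + c / 4 - 2 / 3 * μ) with q | q
  · have f : φ ≤ 3 * (-(5 / 27) + c / 12 - 2 / 9 * μ) := by rcases hφ with _ | _ <;> linarith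
    exact ⟨_, _, _, _, _, _, ⟨c0, c1, c2, e0, e1, s0, s1, m0, m1, l0, l1, l2, hv, hu, hB,
      by linarith, .inl ⟨rfl, by linarith, rfl, rfl, rfl, rfl, rfl⟩⟩, f⟩
  · have f : φ ≤ 3 * (5 / 6 * s - 5 / 36 + c / 12) := by rcases hφ with _ | _ <;> linarith
    exact ⟨_, _, _, _, _, _, ⟨c0, c1, c2, e0, e1, s0, s1, m0, m1, l0, l1, l2, hv, hu, hB,
      by linarith, .inr ⟨rfl, by linarith, rfl, rfl, rfl, rfl, rfl⟩⟩, f⟩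

variable {β c0 C0 : ℝ} {A : ℕ} {c η K' ε K c0' C0' η' : ℝ} {p : Pm} {σ t : ℝ} {Q : Pl}

/-- in the regime of the quadratic branch `sM = s` -/
theorem lg_sM (X : Nr44.Cx β c0 C0 A c η K' p σ t) (h : logb p.n (p.muG t) ≤ -(1 / 10)) :
    logb p.n (p.sM t) = logb p.n p.s := by
  have H := X.H
  have a := pow_pos H.κ0 2
  rw [Pm.sM, lg_min H.N1 H.s0 (div_pos a X.θ0), logb_div a.ne' X.θ0.ne', logb_pow, H.lg_κ]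
  push_cast
  exact min_eq_left (by linarith [H.lg_s.2, X.hc, H.c_pos])

/-- **`RP` on the graded path**, from `Cx` -/
theorem rp_cx (X : Nr44.Cx β c0 C0 A c η K' p σ t) (hη : 100000 * η ≤ c) (e0 : 5 * η ≤ ε)
    (e1 : 1000 * ε ≤ c) (h : p.PtN σ t < p.PhN t)
    (r : logb p.n (p.muG t) ≤ -(4 / 15) + 4 / 5 * logb p.n p.s - p.c / 4) :
    ∃ ξ a0 χ2 γ χ3 b, RP c η ε (logb p.n (p.muG t)) (logb p.n p.s) (logb p.n (p.laG σ))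
      (logb p.n (p.Vc (nu p σ))) (logb p.n (p.u2 (nu p σ))) (logb p.n (Tp4.Bt p σ t))
      ξ a0 χ2 γ χ3 b ∧ logb p.n (p.PhN t) ≤ 3 * ξ ∧ p.PhN t ≤ ((p.n : ℝ) ^ ξ) ^ 3 := by
  have H := X.H
  rw [H.hc] at r
  obtain ⟨m0, b⟩ := X.t2 h
  have s := H.lg_s
  have m1 : logb p.n (p.muG t) ≤ -(1 / 10) := by linarith [H.c_pos]
  have e := lg_sM X m1
  have m := H.muG_pos X.Mσ
  have o := H.lg_mono m (H.oct_mu X.o).1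
  have n2 : logb p.n (nu p σ) ≤ logb p.n (p.muG t) :=
    ((H.lg_mt m).le.trans (min_le_right _ _)).trans (max_le o (by linarith [H.c_pos]))
  rw [e] at b
  obtain ⟨ξ, a0, χ2, γ, χ3, b, R, f⟩ := rp_lin H.η_pos hη X.hc e0 e1 s.1 s.2 m0 r X.lg_θν n2 X.lg_pl
    ((Tp4.lg_Bt X).trans (by rw [e])) b (X.phP' m0 m1)
  refine ⟨ξ, a0, χ2, γ, χ3, b, R, f, H.le_of_lg X.Ph0 (pow_pos (H.rp0 _) 3) ?_⟩
  rw [logb_pow, H.lg_rp]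
  exact_mod_cast f

/-- **`RP` on the graded path** -/
theorem rp_gst {ε0 : ℝ} (G : Gd66 β c0 C0 A c η K' ε0 K c0' C0' η' p σ t Q) (hc : c ≤ 1 / 2000)
    (e0 : 5 * η ≤ ε) (e1 : 1000 * ε ≤ c) (h : p.PtN σ t < p.PhN t)
    (r : logb p.n (p.muG t) ≤ -(4 / 15) + 4 / 5 * logb p.n p.s - p.c / 4) :
    ∃ ξ a0 χ2 γ χ3 b, RP c η ε (logb p.n (p.muG t)) (logb p.n p.s) (logb p.n (p.laG σ))
      (logb p.n (p.Vc (nu p σ))) (logb p.n (p.u2 (nu p σ))) (logb p.n (Tp4.Bt p σ t))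
      ξ a0 χ2 γ χ3 b ∧ p.PhN t ≤ ((p.n : ℝ) ^ ξ) ^ 3 := by
  have a := G.hη
  have b := G.hε
  obtain ⟨ξ, a0, χ2, γ, χ3, b, R, -, f⟩ :=
    rp_cx ⟨G.R, hc, by linarith [G.R.η_pos], G.O⟩ (by linarith) e0 e1 h r
  exact ⟨ξ, a0, χ2, γ, χ3, b, R, f⟩

end Crest.Agent.T156.Alt.Tp66

end
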