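import Crest.Agent.T156.HyB_4
import Crest.Agent.T156.TpY_30

/-!
# Row 156 (helper66): the linear lines of `Hy` at the table of the quadratic branch
-/

set_option autoImplicit false

namespace Crest.Agent.T156.Alt.Tp66

open Real
open Crest.Agent.T156.Alt.Ln97 Crest.Agent.T156.Alt.Hl4
open Crest.Agent.T156.Alt.Lt52 (TL)
open Crest.Agent.T156.Alt.Kn72 (nu)

/-- the same facts with integer coefficients; `a`, `L` = exponents of `l`, `Lg` -/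
structure RI (c η ε μ s l v uu B ξ a0 χ2 γ χ3 b a L : ℝ) : Prop where
  v0 : -1 ≤ 6 * v
  v1 : 6 * v ≤ -1 + 6 * c
  u0 : -5 - 3 * c - 6 * μ ≤ 6 * uu
  u1 : 6 * uu ≤ -5 - 6 * μ
  c0 : 0 < η
  c1 : 100000 * η ≤ c
  c2 : 2000 * c ≤ 1
  e0 : 5 * η ≤ ε
  e1 : 1000 * ε ≤ c
  s0 : 0 ≤ s
  s1 : 19 * s ≤ 1
  m0 : -40 - 69 * c ≤ 120 * μ
  m1 : 60 * μ ≤ -16 + 48 * s - 15 * c
  l0 : -10 - 18 * c - 15 * μ ≤ 30 * l
  l1 : 6 * l ≤ -2 - 3 * c - 3 * μ + 6 * η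
  l2 : 18 * l ≤ -5 - 9 * c - 6 * μ + 18 * η
  hB : 5 * B = 3 * c + 10 * s + 10 * l
  Bx : B ≤ 3 * ξ
  ha : 150 * a = -18 * c - 150 * ξ + 50 * B
  hL : 150 * L = 150 * ε + 150 * ξ - 50 * B + 3 * c
  tb : (108 * ξ = -20 + 9 * c - 24 * μ ∧ 30 * s - 5 + 3 * c ≤ 36 * ξ ∧
      450 * a0 = -79 - 75 * μ ∧ 1000 * χ2 = 2000 * ξ + 1000 * a0 + 3 ∧
      30 * γ = -14 + 27 * c - 12 * μ ∧ 600 * χ3 = -403 - 300 * μ ∧
      3000 * b = -2003 - 600 * c - 1500 * μ) ∨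
    (36 * ξ = 30 * s - 5 + 3 * c ∧ -20 + 9 * c - 24 * μ ≤ 108 * ξ ∧
      200 * a0 = -27 + 82 * s ∧ 1000 * χ2 = 2000 * ξ + 1000 * a0 + 1 ∧
      1000 * γ = -383 + 1540 * s ∧ 1000 * χ3 = -587 + 2570 * s ∧ 1000 * b = -587 + 2570 * s)

theorem RP.ri {c η ε μ s l v uu B ξ a0 χ2 γ χ3 b : ℝ} (h : RP c η ε μ s l v uu B ξ a0 χ2 γ χ3 b) :
    RI c η ε μ s l v uu B ξ a0 χ2 γ χ3 b (-(c / 10) - (ξ - (B / 3 - c / 50)))
      (ε + (ξ - (B / 3 - c / 50))) :=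
  ⟨by linarith only [h.hv.1], by linarith only [h.hv.2], by linarith only [h.hu.1],
    by linarith only [h.hu.2], h.c0, h.c1, by linarith only [h.c2], h.e0, h.e1, h.s0, by linarith only [h.s1],
    by linarith only [h.m0], by linarith only [h.m1], by linarith only [h.l0],
    by linarith only [h.l1], by linarith only [h.l2], by linarith only [h.hB], h.Bx, by ring, by ring,
    h.tb.imp (fun ⟨a, b, c, d, e, f, g⟩ => ⟨by linarith only [a], by linarith only [b],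
      by linarith only [c], by linarith only [d], by linarith only [e], by linarith only [f],
      by linarith only [g]⟩) fun ⟨a, b, c, d, e, f, g⟩ => ⟨by linarith only [a],
      by linarith only [b], by linarith only [c], by linarith only [d], by linarith only [e],
      by linarith only [f], by linarith only [g]⟩⟩

set_option hygiene false in
macro "ri66" : tactic => `(tactic| (
  obtain ⟨-, -, -, -, c0, c1, c2, e0, e1, s0, s1, m0, m1, l0, l1, l2, hB, Bx, ha, hL, tb⟩ := h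
  rcases tb with ⟨t0, t1, t2, t3, t4, t5, t6⟩ | ⟨t0, t1, t2, t3, t4, t5, t6⟩))

set_option hygiene false in
macro "ru66" : tactic => `(tactic| (
  obtain ⟨v0, v1, u0, u1, c0, c1, c2, e0, e1, s0, s1, m0, m1, l0, l1, l2, hB, Bx, ha, hL, tb⟩ := h
  rcases tb with ⟨t0, t1, t2, t3, t4, t5, t6⟩ | ⟨t0, t1, t2, t3, t4, t5, t6⟩))

namespace RI

variable {c η ε μ s l v uu B ξ a0 χ2 γ χ3 b a L T Y m : ℝ}
  (h : RI c η ε μ s l v uu B ξ a0 χ2 γ χ3 b a L)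
include h

/-- one lower bound of the mass -/
theorem ms (q : Ms c η μ T m) (hT : a0 ≤ T) :
    (T + 3 * c ≤ 0 ∧ 2 * μ - 2 * η + 3 * T + 9 * c ≤ 2 * m) ∨ (0 ≤ T + 3 * c ∧ μ ≤ m) := by
  rcases q.lo with ⟨x, d | d⟩ | d
  · refine .inl ⟨by linarith only [x], ?_⟩
    ri66 <;> linarith
  · exact .inl ⟨by linarith only [x], by linarith only [d]⟩
  · exact .inr ⟨by linarith only [d.1], d.2⟩

theorem a0a : a0 + η ≤ a := by ri66 <;> linarith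

set_option maxHeartbeats 1000000 in
theorem m12 (q : Ms c η μ a m) : M12 η L ξ χ2 χ3 γ a m b ∧ b ≤ 3 / 2 * m - ε - η := by
  have k := h.ms q (by linarith only [h.a0a, h.c0])
  clear q
  rcases k with ⟨q1, q2⟩ | ⟨q1, q2⟩ <;> ri66 <;>
    refine ⟨⟨?_, ?_, ?_, ?_, ?_, ?_, ?_, ?_, ?_, ?_, ?_, ?_⟩, ?_⟩ <;> linarith

set_option maxHeartbeats 1000000 in
theorem gv (h0 : a0 ≤ T) (h1 : T ≤ η) (hY : Y ≤ T ∨ Y ≤ ξ) (q : Ms c η μ T m) :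
    GV η ξ χ2 χ3 T Y m := by
  have k := h.ms q h0
  clear q
  rcases le_total T ξ with x | x
  · have y : Y ≤ ξ := hY.elim (fun a => a.trans x) id
    clear hY
    constructor
    · rcases le_total (η + T + 2 * ξ) χ2 with z | z
      · exact .inl (by linarith)
      · refine .inr ?_
        rcases k with ⟨q1, q2⟩ | ⟨q1, q2⟩ <;> ri66 <;> constructor <;> linarith
    · rcases le_total (η + T + 4 * ξ) χ3 with z | z
      · exact .inl (by linarith)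
      · refine .inr ?_
        rcases k with ⟨q1, q2⟩ | ⟨q1, q2⟩ <;> ri66 <;> constructor <;> linarith
  · have y : Y ≤ T := hY.elim id fun a => a.trans x
    clear hY
    constructor <;> refine .inr ?_ <;>
      rcases k with ⟨q1, q2⟩ | ⟨q1, q2⟩ <;> ri66 <;> constructor <;> linarith

set_option maxHeartbeats 1000000 in
theorem gx {m0 : ℝ} (q0 : Ms c η μ a0 m0) (q : Ms c η μ a m) : GX η ε a0 a ξ L χ2 χ3 γ m0 m := by
  have k0 := h.ms q0 le_rfl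
  have k := h.ms q (by linarith only [h.a0a, h.c0])
  clear q q0
  refine ⟨?_, ?_, ?_, ?_, ?_, ?_, ?_, ?_, ⟨?_, ?_⟩, ⟨?_, ?_⟩, ⟨?_, ?_⟩, ?_⟩
  · rcases k0 with ⟨q1, q2⟩ | ⟨q1, q2⟩ <;> ri66 <;> linarith
  all_goals clear k0
  all_goals rcases k with ⟨q1, q2⟩ | ⟨q1, q2⟩ <;> ri66 <;> linarith

theorem lnL : LnL c η μ (s + c / 7 - 1 / 6) ε a0 a ξ L χ2 χ3 γ := by
  have a1 : a0 ≤ a := by linarith only [h.a0a, h.c0]
  refine ⟨⟨by linarith only [h.e0, h.c0], by linarith only [h.e1, h.e0, h.c0]⟩,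
    by ri66 <;> linarith, a1, fun m0 m q0 q => h.gx q0 q,
    fun T Y m a d e q => h.gv a d e q, fun T Y m a d e q => ?_, fun m q => ?_,
    fun m q => (h.m12 q).1.mono (h.m12 q).2⟩
  · rcases h.ms q a with ⟨q1, q2⟩ | ⟨q1, q2⟩ <;> rcases e with e | e <;> ri66 <;> linarith
  · rcases h.ms q a1 with ⟨q1, q2⟩ | ⟨q1, q2⟩ <;> ri66 <;> linarith

set_option maxHeartbeats 1000000 in
/-- `M12` at every level above `l` -/
theorem m12' (hT : a ≤ T) (q : Ms c η μ T m) : M12 η L ξ χ2 χ3 γ T m b := by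
  have k := h.ms q (by linarith only [h.a0a, h.c0, hT])
  clear q
  rcases k with ⟨q1, q2⟩ | ⟨q1, q2⟩ <;> ri66 <;>
    refine ⟨?_, ?_, ?_, ?_, ?_, ?_, ?_, ?_, ?_, ?_, ?_, ?_⟩ <;> linarith

theorem mtop (hT : -(5 * η) ≤ T) : M12 η L ξ χ2 χ3 γ T μ b := by
  ri66 <;> refine ⟨?_, ?_, ?_, ?_, ?_, ?_, ?_, ?_, ?_, ?_, ?_, ?_⟩ <;> linarith

set_option maxHeartbeats 1000000 in
theorem tl {Tu : ℝ} (lq : ε + μ / 2 ≤ B / 3 - c / 50) (u0 : -(4 * η) ≤ Tu)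
    (q : Ms c η μ (a + η) m) :
    TL η c ε a ξ L χ2 (B - 3 * c / 100) (a + η) m Tu (B / 3 - c / 50) (B - c / 50)
      (B / 2 - c / 200) μ ∧ m + 2 * χ2 + 3 * η ≤ B - c / 50 + (a + η) ∧
      m + 8 * L - 4 / 3 * (1 + (a + η) + m) + 3 * η ≤ B - c / 50 + (a + η) := by
  have k := h.ms q (by linarith only [h.a0a, h.c0])
  have u3 := q.u3
  clear q
  refine ⟨⟨?_, ?_, ?_, ?_, lq, ?_, ?_, ?_, ?_, ?_, ?_, ?_, ?_, ?_, ?_, ?_, ?_⟩, ?_, ?_⟩ <;> clear lq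
  any_goals (clear k; ri66 <;> linarith)
  all_goals rcases k with ⟨q1, q2⟩ | ⟨q1, q2⟩ <;> ri66 <;> linarith

set_option maxHeartbeats 1000000 in
theorem ltL {Tu : ℝ} (lq : ε + μ / 2 ≤ B / 3 - c / 50) (u0 : -(4 * η) ≤ Tu) (u1 : Tu ≤ η) :
    LtL c η μ l (s + c / 7 - 1 / 6) ε a0 a ξ L χ2 χ3 (B - 3 * c / 100) γ (B - 3 * c / 100)
      (μ + l + η) (a + η) Tu (B / 3 - c / 50) (B - c / 50) (B / 2 - c / 200) := by
  refine ⟨by ri66 <;> linarith, h.a0a, le_rfl, by linarith only [h.c1, h.c0],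
    by ri66 <;> linarith, .inr ⟨le_rfl, by ri66 <;> linarith, by ri66 <;> linarith⟩,
    fun m q => h.tl lq u0 q, fun T m a1 a2 q => (h.m12' (by linarith only [a1]) q).mono ?_,
    fun T m a1 a2 q => ⟨(h.m12' a1 q).mono ?_, ?_, ?_, ?_⟩⟩
  all_goals have k := h.ms q (by linarith only [h.a0a, h.c0, a1])
  all_goals clear q lq
  rotate_left 2
  · rcases k with ⟨q1, q2⟩ | ⟨q1, q2⟩
    · exact .inl (by linarith only [q1, h.c1, h.c0])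
    · refine .inr ?_
      ri66 <;> linarith
  all_goals rcases k with ⟨q1, q2⟩ | ⟨q1, q2⟩ <;> ri66 <;> linarith

theorem fl : Hy43.FL η ε a0 (3 * ξ) (3 * ξ) (3 / 2 * ξ + c / 100) L (B / 3 - c / 50) μ l := by
  ri66 <;> constructor <;> linarith

set_option maxHeartbeats 1000000 in
theorem ez {q r : ℝ} (hq : 2 * q = 3 * ξ - uu + 4 * η) (hr : 2 * r = -1 - μ + 3 * ξ + q + 2 * η) :
    Lq3.EZ η μ l v uu ξ (-(1 / 20)) (uu - 1 / 100) 0 (r + 3 * η) χ3 (uu - 1 / 100 - η) q r := by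
  refine ⟨?_, ?_, ?_, ⟨?_, ?_, ?_⟩, ⟨.inl ⟨?_, ?_⟩, ?_, ?_, ?_, ?_, ?_, ?_, ?_, ?_, .inl ?_, ?_, ?_, ?_,
    ?_, ?_, ?_, ?_, ?_, ?_, ?_, ?_, ?_, ?_⟩⟩ <;> ru66 <;> linarith

set_option maxHeartbeats 1000000 in
theorem ea {q r : ℝ} (hq : 2 * q = 3 * ξ - uu + 4 * η) (hr : 2 * r = -1 - μ + 3 * ξ + q + 2 * η) :
    Lq3.EA η ε μ l ξ (-1 - μ) (uu - 1 / 100) (uu - 1 / 100) 0 (r + 3 * η) χ3 L L χ2 χ3 γ
      (3 / 2 * ξ + c / 100) (μ + ξ - η) ξ := by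
  constructor <;> ru66 <;> linarith

set_option maxHeartbeats 1000000 in
theorem ec {q r : ℝ} (hq : 2 * q = 3 * ξ - uu + 4 * η) (hr : 2 * r = -1 - μ + 3 * ξ + q + 2 * η) :
    Lq3.EC η ε μ (2 / 3 * l) l v uu (2 * μ + 2 * l + 3 * η) ξ (-(1 / 20)) (-1 - μ) (uu - 1 / 100)
      (uu - 1 / 100 - η) (r + 3 * η) L χ2 γ (3 / 2 * ξ + c / 100) (μ + ξ - η) ξ (b + η)
      (B - 3 * c / 100) q η (-1 - μ - 1 / 20 + q + 3 * η) (B - 3 * c / 100 - 6 * L - 4 * η) 0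
      ((B - 3 * c / 100 + μ) / 2) (ξ + η) ξ (3 * ξ + 2 * η) (2 * ξ + 2 * η) := by
  refine ⟨.inl ⟨?_, ?_⟩, ⟨?_, ?_, .inl le_rfl, ?_, ?_, ?_⟩, .inl ⟨?_, ?_, ?_, ?_⟩, ?_, ?_, ?_, ?_, ?_,
    .inr ?_, ?_, ?_, ?_, ?_, ?_, ?_, ?_, ?_, .inl ?_, ?_, ?_, ?_, ?_, ?_, ?_, .inr le_rfl, ?_, ?_,
    .inl ?_, ?_, ?_, .inl ?_⟩ <;> ru66 <;> linarith

/-- **all the lines of `Hy`** -/
theorem hyL {Tu : ℝ} (lq : ε + μ / 2 ≤ B / 3 - c / 50) (u0 : -(4 * η) ≤ Tu) (u1 : Tu ≤ η) :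
    HyL c η μ l (s + c / 7 - 1 / 6) v uu ε a0 a ξ L χ2 χ3 (B - 3 * c / 100) γ (B - 3 * c / 100)
      (μ + l + η) (a + η) Tu (B / 3 - c / 50) (B - c / 50) (B / 2 - c / 200) ξ (-(1 / 20))
      (uu - 1 / 100) (uu - 1 / 100) 0 L (3 / 2 * ξ + c / 100) (μ + ξ - η) ξ (b + η) := by
  have hq : 2 * ((3 * ξ - uu + 4 * η) / 2) = 3 * ξ - uu + 4 * η := by ring
  generalize (3 * ξ - uu + 4 * η) / 2 = q at hq
  have hr : 2 * ((-1 - μ + 3 * ξ + q + 2 * η) / 2) = -1 - μ + 3 * ξ + q + 2 * η := by ring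
  generalize (-1 - μ + 3 * ξ + q + 2 * η) / 2 = r at hr
  exact ⟨h.ltL lq u0 u1, h.fl, by rw [add_sub_cancel_right]; exact h.mtop (by linarith only [h.c0]),
    _, _, _, _, _, _, _, _, _, _, _, _, _, _, _,
    ⟨h.ez hq hr, (h.ez hq hr).D1, h.ea hq hr, h.ec hq hr⟩⟩

end RI

/-- **all the lines of `LN` and `Hy` at the table** -/
theorem RP.pl {c η ε μ s l v uu B ξ a0 χ2 γ χ3 b Tu : ℝ}
    (h : RP c η ε μ s l v uu B ξ a0 χ2 γ χ3 b) (lq : ε + μ / 2 ≤ B / 3 - c / 50)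
    (u0 : -(4 * η) ≤ Tu) (u1 : Tu ≤ η) :
    LnL c η μ (s + c / 7 - 1 / 6) ε a0 (-(c / 10) - (ξ - (B / 3 - c / 50))) ξ
      (ε + (ξ - (B / 3 - c / 50))) χ2 χ3 γ ∧
    HyL c η μ l (s + c / 7 - 1 / 6) v uu ε a0 (-(c / 10) - (ξ - (B / 3 - c / 50))) ξ
      (ε + (ξ - (B / 3 - c / 50))) χ2 χ3 (B - 3 * c / 100) γ (B - 3 * c / 100) (μ + l + η)
      (-(c / 10) - (ξ - (B / 3 - c / 50)) + η) Tu (B / 3 - c / 50) (B - c / 50) (B / 2 - c / 200) ξ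
      (-(1 / 20)) (uu - 1 / 100) (uu - 1 / 100) 0 (ε + (ξ - (B / 3 - c / 50)))
      (3 / 2 * ξ + c / 100) (μ + ξ - η) ξ (b + η) :=
  ⟨h.ri.lnL, h.ri.hyL lq u0 u1⟩

/-- the line `lq` on the graded path -/
theorem lq_cx {β c0 C0 : ℝ} {A : ℕ} {c η K' ε : ℝ} {p : Pm} {σ t : ℝ}
    (X : Nr44.Cx β c0 C0 A c η K' p σ t) (hη : 100000 * η ≤ c) (e1 : 1000 * ε ≤ c)
    (h : p.PtN σ t < p.PhN t)
    (r : logb p.n (p.muG t) ≤ -(4 / 15) + 4 / 5 * logb p.n p.s - p.c / 4) :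
    ε + logb p.n (p.muG t) / 2 ≤ logb p.n (Tp4.Bt p σ t) / 3 - c / 50 := by
  have H := X.H
  rw [H.hc] at r
  obtain ⟨m0, -⟩ := X.t2 h
  have s := H.lg_s
  have c0 := H.c_pos
  have m1 : logb p.n (p.muG t) ≤ -(1 / 10) := by linarith
  have m := H.muG_pos X.Mσ
  have o := H.lg_mono m (H.oct_mu X.o).1
  have n2 : logb p.n (nu p σ) ≤ logb p.n (p.muG t) :=
    ((H.lg_mt m).le.trans (min_le_right _ _)).trans (max_le o (by linarith))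
  have n1 := X.lg_θν
  have hc := X.hc
  rw [Tp4.lg_Bt X, lg_sM X m1]
  rcases X.lg_pl with ⟨_, a, -⟩ | ⟨_, a, -⟩ <;> rw [a] <;> linarith [H.η_pos]

end Crest.Agent.T156.Alt.Tp66
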