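import Crest.Agent.T156.TpR_66
import Crest.Agent.T156.HyB_4

/-!
# Row 156 (helper29): the lines of `LT2` and of the frame for the table of the quadratic branch
-/

set_option autoImplicit false

namespace Crest.Agent.T156.Alt.Tp66

open Ln97 (M12)
open Hl4 (Ms LtL)

variable {c η ε μ s l v uu B ξ a0 χ2 γ χ3 b T m Tu : ℝ}
  (h : RP c η ε μ s l v uu B ξ a0 χ2 γ χ3 b)
include h

set_option maxHeartbeats 1000000 in
theorem RP.m29 (a : -(c / 10) - (ξ - (B / 3 - c / 50)) ≤ T) (M : Ms c η μ T m) :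
    M12 η (ε + (ξ - (B / 3 - c / 50))) ξ χ2 χ3 γ T m b := by
  obtain ⟨lo, -, -, -⟩ := M
  rp66 <;> rcases lo with ⟨k0, k1 | k1⟩ | ⟨k0, k1⟩ <;>
  exact ⟨by linarith, by linarith, by linarith, by linarith, by linarith, by linarith,
    by linarith, by linarith, by linarith, by linarith, by linarith, by linarith⟩

theorem RP.b29 (a : -(c / 10) - (ξ - (B / 3 - c / 50)) ≤ T) (a1 : T ≤ η) (M : Ms c η μ T m) :
    b ≤ (B - c / 50 + m - T - 6 * η) / 2 ∧ b ≤ B / 2 - c / 200 - 6 * η + m - T ∧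
    T + χ2 + 5 * η ≤ B / 2 - c / 200 + m / 2 ∧
    T + 4 * (ε + (ξ - (B / 3 - c / 50))) - 2 / 3 * (1 + T + m) + 5 * η ≤
      B / 2 - c / 200 + m / 2 := by
  obtain ⟨lo, -, -, -⟩ := M
  rp66 <;> rcases lo with ⟨k0, k1 | k1⟩ | ⟨k0, k1⟩ <;>
  exact ⟨by linarith, by linarith, by linarith, by linarith⟩

theorem RP.g29 (a1 : T ≤ η) (M : Ms c η μ T m) :
    T + 4 * η ≤ 0 ∨ μ + l + η ≤ B / 2 - c / 200 - 5 * η + m - T := by
  obtain ⟨c0, c1, c2, e0, e1, s0, s1, m0, m1, l0, l1, l2, -, -, rfl, -, -⟩ := h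
  rcases M.lo with ⟨k0, -⟩ | ⟨k0, k1⟩
  · exact .inl (by linarith)
  · exact .inr (by linarith)

theorem RP.t29 (M : Ms c η μ (-(c / 10) - (ξ - (B / 3 - c / 50)) + η) m) :
    3 * η - (1 + m) - (1 + (-(c / 10) - (ξ - (B / 3 - c / 50)) + η) + m) / 3 ≤ B - 3 * c / 100 ∧
    8 * η - 3 * (1 + (-(c / 10) - (ξ - (B / 3 - c / 50)) + η) + m) + 21 * ξ ≤
      6 * (B - 3 * c / 100) ∧
    m + 2 * χ2 + 3 * η ≤ B - c / 50 + (-(c / 10) - (ξ - (B / 3 - c / 50)) + η) ∧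
    m + 8 * (ε + (ξ - (B / 3 - c / 50))) -
      4 / 3 * (1 + (-(c / 10) - (ξ - (B / 3 - c / 50)) + η) + m) + 3 * η ≤
        B - c / 50 + (-(c / 10) - (ξ - (B / 3 - c / 50)) + η) := by
  obtain ⟨lo, -, u2, u3⟩ := M
  rp66 <;> rcases lo with ⟨k0, k1 | k1⟩ | ⟨k0, k1⟩ <;>
  exact ⟨by linarith, by linarith, by linarith, by linarith⟩

theorem RP.c29 (h3 : -(1 / 3) - c / 2 - μ / 2 ≤ l ∨ μ ≤ -(1 / 3)) :
    s + c / 7 - 1 / 6 ≤ -(c / 10) - (ξ - (B / 3 - c / 50)) ∧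
    a0 + η ≤ -(c / 10) - (ξ - (B / 3 - c / 50)) ∧ μ + 2 * l + 3 * η ≤ B - c / 50 ∧
    2 / 3 * l + 4 * η ≤ B / 3 - c / 50 ∧ ε + (μ + l + η) ≤ 3 / 2 * μ ∧
    ε + ξ ≤ -(c / 10) - (ξ - (B / 3 - c / 50)) ∧ ε + μ / 2 ≤ B / 3 - c / 50 ∧
    ε + (B / 3 - c / 50) ≤ -(4 * η) ∧
    ε + 3 * ξ ≤ 4 * (-(c / 10) - (ξ - (B / 3 - c / 50)) + η) ∧ 2 * χ2 + η ≤ B - c / 50 ∧
    ε + (B / 2 - c / 200) ≤ -(c / 10) - (ξ - (B / 3 - c / 50)) ∧
    ε + (B / 2 - c / 200) ≤ B / 3 - c / 50 := by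
  rp66 <;>
  exact ⟨by linarith, by linarith, by linarith, by linarith, by linarith, by linarith,
    by rcases h3 with h3 | h3 <;> linarith, by linarith, by linarith, by linarith, by linarith,
    by linarith⟩

/-- **the lines of `LT2`** -/
theorem RP.ltL29 (h3 : -(1 / 3) - c / 2 - μ / 2 ≤ l ∨ μ ≤ -(1 / 3)) (u0 : -(4 * η) ≤ Tu)
    (u1 : Tu ≤ η) : LtL c η μ l (s + c / 7 - 1 / 6) ε a0 (-(c / 10) - (ξ - (B / 3 - c / 50))) ξ
      (ε + (ξ - (B / 3 - c / 50))) χ2 χ3 (B - 3 * c / 100) γ (B - 3 * c / 100) (μ + l + η)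
      (-(c / 10) - (ξ - (B / 3 - c / 50)) + η) Tu (B / 3 - c / 50) (B - c / 50)
      (B / 2 - c / 200) := by
  obtain ⟨d1, d2, d3, d4, d5, d6, d7, d8, d9, d10, d11, d12⟩ := h.c29 h3
  have c0 := h.c0
  have c1 := h.c1
  have e0 := h.e0
  have e1 := h.e1
  have bx := h.Bx
  refine ⟨d1, d2, le_rfl, by linarith, d3, .inr ⟨le_rfl, d4, d5⟩, fun m M => ?_,
    fun T m a0 a1 M => ?_, fun T m a0 a1 M => ?_⟩
  · obtain ⟨t1, t2, t3, t4⟩ := h.t29 M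
    exact ⟨⟨e0, by linarith, d6, by linarith, d7, by linarith, by linarith, d9, t1, t2, d10,
      by linarith, by linarith, by linarith, by linarith, d11, d12⟩, t3, t4⟩
  · exact (h.m29 (by linarith) M).mono (h.b29 (by linarith) a1 M).1
  · obtain ⟨-, t2, t3, t4⟩ := h.b29 a0 (a1.trans u1) M
    exact ⟨(h.m29 a0 M).mono t2, h.g29 (a1.trans u1) M, t3, t4⟩

/-- **the lines of the frame** -/
theorem RP.fl29 : Hy43.FL η ε a0 (3 * ξ) (3 * ξ) (3 / 2 * ξ + c / 100) (ε + (ξ - (B / 3 - c / 50)))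
    (B / 3 - c / 50) μ l := by
  rp66 <;> exact ⟨by linarith, by linarith, by linarith, by linarith, by linarith⟩

end Crest.Agent.T156.Alt.Tp66
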