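import Crest.Agent.T156.SupD_82
import Crest.Agent.T156.TpI_66
import Crest.Agent.T156.TpY_55
import Crest.Agent.T156.VtG_18
import Crest.Agent.T156.R1LocB_77

/-!
# Row 156 (helper18): the leaf `SupP` from the table of the quadratic branch
-/

set_option autoImplicit false

noncomputable section

namespace Crest.Agent.T156.Alt.Tw18

open Real
open Crest.Agent.T156.Alt.L69 (TLt)
open Crest.Agent.T156.Alt.Hl4 (pw)
open Crest.Agent.T156.Alt.Kn72 (nu)
open Crest.Agent.T156.Alt.R77 (OnG)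

/-- **`SupP`** -/
theorem supP {β e : ℝ} (hβ : 1 < β) (he : 0 < e) (e1 : e ≤ 1 / 1000) (T : TLt) :
    OnG (Sup82.SupP e) β :=
  R77.OnG.cl' hβ CL.triv (Vt18.vtX hβ T) one_pos (c1 := 1 / 2000) (by norm_num) ⌈5 / e⌉₊ 0
    (fun _ => 1) fun K c0 C0 A c η K' c0' C0' η' p σ t Q G hc _ hj _ _ V R m a I hΦ hP => by
      have H := G.R
      have cp := H.c_pos
      have η0 := H.η_pos
      have N0 := H.N0
      have a1 : 5 * η ≤ e * c := by
        have b1 := mul_le_mul_of_nonneg_right (Nat.le_ceil (5 / e)) η0.le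
        have b2 := mul_le_mul_of_nonneg_left (b1.trans hj) he.le
        rwa [show e * (5 / e * η) = 5 * η by field_simp] at b2
      have a2 : 1000 * (e * c) ≤ c := by nlinarith
      obtain ⟨ξ, a0, χ2, γ, χ3, b, h, hX⟩ := Tp66.rp_gst G hc a1 a2 hP R
      obtain ⟨s0, s1, s2⟩ := Hl4.lg_sJ G
      have u0 : 0 < p.u2 (nu p σ) := H.u20 (Kn72.nu0 H G.O)
      have eu : pw p (logb p.n (p.u2 (nu p σ)) - 1 / 100) =
          p.u1N σ * (p.n : ℝ) ^ (-(1 / 100 : ℝ)) := by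
        rw [pw, sub_eq_add_neg, rpow_add N0, rpow_logb N0 H.N1.ne' u0]; rfl
      obtain ⟨h1, h2⟩ := h.pl (Tp66.lq_cx (Hl4.cx G hc) h.c1 a2 hP R) s1 s2
      rw [← H.lg_r] at h1 h2
      have y := Hl4.hyN G hc (m := m) (a := a) h1
        (hΦ.trans hX) (Or.inl le_rfl)
        (fun k k0 k1 hu => V m a I hΦ (by linarith [h.m1, h.s1])
          (by rw [H.hc]; linarith [h.m0]) k k0 k1 (eu ▸ hu)) s0 le_rfl h2
      obtain ⟨z1, z2⟩ := Tp55.outP G hc rfl h rfl rfl rfl rfl h1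
      rw [H.hc]
      exact ⟨_, _, _, _, _, _, _, _, _, _, _, _, _, _, _, _, _, _, _, _, _, _, _, _, _, _, _, y,
        Or.inr ⟨rfl, z1, Or.inl ⟨_, _, z2, le_rfl⟩⟩⟩

end Crest.Agent.T156.Alt.Tw18

end
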