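import Crest.Agent.T156.NRn_44

/-!
# Row 156 (helper30): the total energy in the regime of the quadratic branch
-/

set_option autoImplicit false

noncomputable section

namespace Crest.Agent.T156.Alt.Nr44

open Real

theorem Ex.phP {s c ε x μ φ : ℝ} (h : Ex s c ε x μ φ) (h1 : -(1 / 3) - 23 / 40 * c ≤ μ)
    (h2 : μ ≤ -(1 / 10)) :
    φ ≤ -(1 / 3) + c / 4 - 2 / 3 * (μ + 1 / 3) ∨ φ ≤ 5 / 2 * s - 5 / 12 + c / 4 := by
  obtain ⟨c0, c1, e0, e1, s0, s1, x0, x1, m0, m1, m2, up⟩ := h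
  rcases up with up | up | ⟨up, _, _⟩ | up | ⟨up, _⟩ | up | up | ⟨up, _, _⟩ | ⟨up, _⟩ | up |
    ⟨up, _⟩
  all_goals first | (left; linarith) | (right; linarith)

variable {β c0 C0 : ℝ} {A : ℕ} {c η K : ℝ} {p : Pm} {σ t : ℝ}

/-- **`phP`**, disjunctive form -/
theorem Cx.phP' (X : Cx β c0 C0 A c η K p σ t) (h1 : -(1 / 3) - 23 / 40 * c ≤ logb p.n (p.muG t))
    (h2 : logb p.n (p.muG t) ≤ -(1 / 10)) :
    logb p.n (p.PhN t) ≤ -(1 / 3) + c / 4 - 2 / 3 * (logb p.n (p.muG t) + 1 / 3) ∨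
      logb p.n (p.PhN t) ≤ 5 / 2 * logb p.n p.s - 5 / 12 + c / 4 :=
  (ex X.H X.hy).phP h1 h2

/-- **`phP`** -/
theorem Cx.phP (X : Cx β c0 C0 A c η K p σ t) (h1 : -(1 / 3) - 23 / 40 * c ≤ logb p.n (p.muG t))
    (h2 : logb p.n (p.muG t) ≤ -(1 / 10)) :
    logb p.n (p.PhN t) ≤ max (-(1 / 3) + c / 4 - 2 / 3 * (logb p.n (p.muG t) + 1 / 3))
      (5 / 2 * logb p.n p.s - 5 / 12 + c / 4) :=
  le_max_iff.2 (X.phP' h1 h2)

end Crest.Agent.T156.Alt.Nr44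

end
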