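import Crest.Agent.T156.HyA_4
import Crest.Agent.T156.LPq_3
import Crest.Agent.T156.LT2x_52

/-!
# Row 156 (helper67): the exponent table of the linear regime of the top zone
-/

set_option autoImplicit false
set_option maxHeartbeats 4000000

noncomputable section

namespace Crest.Agent.T156.Alt.Tq67

open Real
open Crest.Agent.T156.Alt.Ln97 (M12 GX GV)
open Crest.Agent.T156.Alt.Hl4 (Ms LnL)
open Crest.Agent.T156.Alt.Lt76 (BL)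

/-- the exponents: data `S μ ν a V U` (of `s θ ν la Vc u2`), choices `ξ ρ L al χ2 χ3 γ lm` -/
structure RQ (c η ε S μ ν a V U ξ ρ L al χ2 χ3 γ lm : ℝ) : Prop where
  c1 : c ≤ 1 / 1000
  η0 : 0 ≤ η
  ηε : 5 * η ≤ ε
  ηc : 100000 * η ≤ c
  εc : 1000 * ε ≤ c
  S0 : 0 ≤ S
  S1 : S ≤ 1 / 19
  W0 : 1 / 15 + 4 / 5 * S - c / 4 ≤ μ + 1 / 3
  W1 : μ ≤ -(1 / 6)
  ν0 : μ - η ≤ ν
  ν1 : ν ≤ μ
  ha : a = -(1 / 6) - c / 2 - (ν + 1 / 3) / 2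
  hV : V = -(1 / 6) + 3 * c / 4
  hU : U = -(5 / 6) - c / 4 - ν
  xA : -(5 / 9) - 2 / 3 * μ ≤ 3 * ξ
  xB : 25 / 8 * S - 25 / 48 - μ / 4 ≤ 3 * ξ
  xu : 3 * ξ ≤ -(5 / 9) - 2 / 3 * μ ∨ 3 * ξ ≤ 25 / 8 * S - 25 / 48 - μ / 4
  hρ : ρ = c / 4 + 2 * S + 2 * a
  xρ : ρ + c / 4 ≤ 3 * ξ
  hL : L = ξ - ρ / 3 + c / 100
  hl : al = ρ / 3 - ξ - c / 50
  h2 : χ2 = 3 * ξ + c / 100
  h3 : χ3 = -(12 / 25) + 7 / 10 * S
  γ1 : 3 * ξ + c / 100 ≤ γ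
  γ2 : -1 - μ + 3 / 2 * ξ - a + c / 50 ≤ 2 * γ
  γu : γ ≤ 3 * ξ + c / 100 ∨ 2 * γ ≤ -1 - μ + 3 / 2 * ξ - a + c / 50
  m1 : μ / 2 + c / 100 ≤ lm
  m2 : ξ + c / 100 ≤ lm
  mu : lm ≤ μ / 2 + c / 100 ∨ lm ≤ ξ + c / 100

/-- all the facts in the context, `ξ` and `γ` split -/
macro "rq " h:ident : tactic => `(tactic|
  (obtain ⟨c1, η0, ηε, ηc, εc, S0, S1, W0, W1, ν0, ν1, ha, hV, hU, xA, xB, xu, hρ, xρ, hL, hl, h2, h3,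
    γ1, γ2, γu, m1, m2, mu⟩ := $h
   subst ha hV hU hρ hL hl h2 h3
   rcases xu with xu | xu <;> rcases γu with γu | γu))
/-- the same, only `ξ` split -/
macro "rq1 " h:ident : tactic => `(tactic|
  (obtain ⟨c1, η0, ηε, ηc, εc, S0, S1, W0, W1, ν0, ν1, ha, hV, hU, xA, xB, xu, hρ, xρ, hL, hl, h2, h3,
    γ1, γ2, -, m1, m2, -⟩ := $h
   subst ha hV hU hρ hL hl h2 h3
   rcases xu with xu | xu))

variable {c η ε S μ ν a V U ξ ρ L al χ2 χ3 γ lm T m : ℝ}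
  (h : RQ c η ε S μ ν a V U ξ ρ L al χ2 χ3 γ lm)
include h

theorem RQ.ms (M : Ms c η μ T m) (h0 : ξ ≤ T) (h1 : T ≤ η) : μ + 3 / 2 * T - 2 * η ≤ m := by
  obtain ⟨⟨a, b | b⟩ | ⟨a, b⟩, -⟩ := M <;>
    linarith [h.xA, h.W1, h.c1, h.η0, h.ηc, h.W0, h.S0]

theorem RQ.ord : ξ ≤ al - c ∧ al ≤ -(c / 10) ∧ -(3 / 100) ≤ al ∧ 0 ≤ c ∧ ξ ≤ -(9 / 100) ∧
    -(3 / 20) ≤ ξ ∧ S + c / 7 - 1 / 6 ≤ ξ ∧ μ ≤ ξ := by
  rq1 h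
  all_goals refine ⟨?_, ?_, ?_, ?_, ?_, ?_, ?_, ?_⟩ <;> linarith

/-- the residual at every level above `l` -/
theorem RQ.m12 (h0 : al ≤ T) (hm : μ + 3 / 2 * al - 2 * η ≤ m) :
    M12 η L ξ χ2 χ3 γ T m (χ3 + c / 100) := by
  have o := h.ord
  rq h
  all_goals constructor <;> linarith [o.1, o.2.1, o.2.2.1]

theorem RQ.lnL : LnL c η μ (S + c / 7 - 1 / 6) ε ξ al ξ L χ2 χ3 γ := by
  obtain ⟨o1, o2, o3, o4, o5, o6, o7, o8⟩ := h.ord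
  have η0 := h.η0
  have ηc := h.ηc
  refine ⟨⟨by linarith [h.ηε], by linarith [h.εc]⟩, o7, by linarith, fun m0 m a b => ?_,
    fun T Y m a b d e => ?_, fun T Y m a b d e => ?_, fun m a => ?_, fun m a => ?_⟩
  · have a' := h.ms a le_rfl (by linarith)
    have b' := h.ms b (by linarith) (by linarith)
    rq h
    all_goals refine ⟨?_, ?_, ?_, ?_, ?_, ?_, ?_, ?_, ⟨?_, ?_⟩, ⟨?_, ?_⟩, ⟨?_, ?_⟩, ?_⟩ <;> linarith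
  · have e' := h.ms e a b
    have y : Y ≤ T := d.elim id fun d => d.trans a
    rq1 h
    all_goals refine ⟨.inr ⟨?_, ?_⟩, .inr ⟨?_, ?_⟩⟩ <;> linarith
  · have e' := h.ms e a (by linarith)
    have y : Y ≤ T := d.elim id fun d => d.trans a
    rq1 h
    all_goals linarith
  · have a' := h.ms a (by linarith) (by linarith)
    rq1 h
    all_goals linarith
  · have a' := h.ms a (by linarith) (by linarith)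
    refine (h.m12 le_rfl a').mono ?_
    rq1 h
    all_goals linarith

/-- the costs; `N = n^(ρ - c/10)`, `τ = x`, `u1 = u2 = U`, `Vt = 1` -/
theorem RQ.ec {g : ℝ} (hg : g ≤ 2 * μ + 2 * a + 3 * η) :
    Lq3.EC η ε μ (2 / 3 * a) a V U g ξ 0 (-1 - μ) U (U - η) χ3 L χ2 γ (3 / 2 * ξ + c / 100)
      (χ3 + c / 10) ξ (χ3 + c / 50) (ρ - c / 10) (3 / 2 * ξ - U / 2 + 2 * η) η
      (-1 - μ + 3 / 2 * ξ - U / 2 + 5 * η) (-1 - μ - a - 1 / 10) 0 (χ2 + η) (ξ + η) ξ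
      (3 * ξ + 2 * η) (2 * ξ + 2 * η) := by
  obtain ⟨o1, o2, o3, o4, o5, o6, o7, o8⟩ := h.ord
  rq h
  all_goals
    refine ⟨.inl ⟨?_, ?_⟩, ⟨?_, ?_, .inl ?_, ?_, ?_, ?_⟩, .inl ⟨?_, ?_, ?_, ?_⟩, ?_, ?_, ?_, ?_, ?_,
      .inl ?_, ?_, ?_, ?_, ?_, ?_, ?_, ?_, ?_, .inl ?_, ?_, ?_, ?_, ?_, ?_, ?_, .inr ?_, ?_, ?_,
      .inl ?_, ?_, ?_, .inl ?_⟩ <;> linarith

/-- the constant lines of `LT2`; `t1 = n^(-c/100)` -/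
theorem RQ.tl {Tu m1 : ℝ} (hu : -(4 * η) ≤ Tu) (hm : μ ≤ m1) :
    Lt52.TL η c ε al ξ L χ2 (ρ - c / 10) (-(c / 100)) m1 Tu lm (ρ - c / 20) (ρ / 2) μ := by
  obtain ⟨o1, o2, o3, o4, o5, o6, o7, o8⟩ := h.ord
  have mu := h.mu
  rq1 h
  all_goals rcases mu with mu | mu <;> constructor <;> linarith

theorem RQ.bl1 {m1 : ℝ} (hm : m1 ≤ μ) (hm' : μ ≤ m1) :
    BL η L χ2 (-(c / 100)) m1 (χ3 + c / 100) m1 (ρ / 2 - c / 10) := by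
  obtain ⟨o1, o2, o3, o4, o5, o6, o7, o8⟩ := h.ord
  rq1 h
  all_goals constructor <;> linarith

/-- below the top: `b = χ3 + c/100` -/
theorem RQ.blp (h0 : al ≤ T) (h1 : T ≤ η) (hm : μ + 3 / 2 * T - 2 * η ≤ m) :
    BL η L χ2 T m (χ3 + c / 100) T (ρ / 2 - 5 * η) := by
  obtain ⟨o1, o2, o3, o4, o5, o6, o7, o8⟩ := h.ord
  rq1 h
  all_goals constructor <;> linarith

/-- at the top: `b = μ + ρ/2 - c/20` dominates the residual -/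
theorem RQ.blt {r : ℝ} (h0 : -(5 * η) ≤ T) (h1 : r ≤ η) (hm : μ ≤ m) :
    BL η L χ2 T m (μ + ρ / 2 - c / 20) r (ρ / 2 - c / 50) ∧ χ3 + c / 100 ≤ μ + ρ / 2 - c / 20 ∧
      μ + a + 3 * η ≤ μ + ρ / 2 - c / 20 ∧ ε + μ + a + 3 * η ≤ 3 / 2 * μ := by
  obtain ⟨o1, o2, o3, o4, o5, o6, o7, o8⟩ := h.ord
  rq1 h
  all_goals refine ⟨⟨?_, ?_, ?_⟩, ?_, ?_, ?_⟩ <;> linarith

/-- the remaining lines of `en` -/
theorem RQ.en : 2 * (ρ / 2 - c / 10) + 3 * η ≤ ρ - c / 20 + -(c / 100) ∧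
    η + 2 * (χ3 + c / 100) + 6 * η ≤ ρ - c / 20 + μ ∧
    2 * μ + 2 * a + 4 * η ≤ ρ - c / 20 + μ := by
  obtain ⟨o1, o2, o3, o4, o5, o6, o7, o8⟩ := h.ord
  rq1 h
  all_goals refine ⟨?_, ?_, ?_⟩ <;> linarith

end Crest.Agent.T156.Alt.Tq67

end
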