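import Crest.Agent.T156.TqG_23
import Crest.Agent.T156.TqL_67

/-!
# Row 156 (helper23): the lines of `L63.LQ` on the table of the linear regime
-/

set_option autoImplicit false
set_option maxHeartbeats 4000000

noncomputable section

namespace Crest.Agent.T156.Alt.Tq23

open Real Tr3 Lp86 Lq3 Lx13 Plt13 L69 Kn72 Tq67

section lin

variable {c η ε S μ ν a V U ξ ρ L al χ2 χ3 γ lm : ℝ}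
  (h : RQ c η ε S μ ν a V U ξ ρ L al χ2 χ3 γ lm)
include h

/-- the sizes at `Vt = 1`, `Lp = 1`, `u1 = U` -/
theorem ezQ : EZ η μ a V U ξ 0 U 0 χ3 χ3 (U - η) (3 / 2 * ξ - U / 2 + 2 * η) (χ3 - 3 * η) := by
  obtain ⟨o1, o2, o3, o4, o5, o6, o7, o8⟩ := h.ord
  rq1 h
  all_goals
    refine ⟨?_, ?_, ?_, ⟨?_, ?_, ?_⟩, ⟨.inl ⟨?_, ?_⟩, ?_, ?_, ?_, ?_, ?_, ?_, ?_, ?_, .inl ?_, ?_, ?_,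
      ?_, ?_, ?_, ?_, ?_, ?_, ?_, ?_, ?_, ?_, ?_⟩⟩ <;> linarith

theorem eqQ {ε1 εJ β : ℝ} (h1 : ε1 ≤ χ3 + c / 10) (hJ : εJ ≤ χ3 + c / 10) (hb : β ≤ ρ / 2) :
    EQ η ε μ (2 / 3 * a) a V U (2 * μ + 2 * a + 3 * η) ξ 0 (-1 - μ) L χ2 γ χ3 (3 / 2 * ξ + c / 100)
      ε1 εJ β (ρ / 3) ρ U (U - η) (-ε) (U / 2 - c) ((-1 - μ) / 3) (μ + ρ / 2 - η) 0
      (3 / 2 * ξ - U / 2 + 2 * η) ((-1 - μ + 2 * ξ - a + 4 * η) / 3) (-1 - μ - a + 2 * η)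
      ((3 * ξ + ε) / 2) (3 / 2 * ξ - a + 2 * η) (-(1 / 8)) (-1 - μ + 2 * ξ - a + 4 * η)
      ((-1 - μ + 2 * ξ - (U / 2 - c) + 5 * η) / 3) (2 * (-1 - μ - a) + 3 * η) := by
  obtain ⟨o1, o2, o3, o4, o5, o6, o7, o8⟩ := h.ord
  rq h
  all_goals
    refine ⟨?_, ?_, ?_, ?_, ?_, ?_, ?_, ?_, ?_, ?_, ?_, ?_, ?_, ?_, ?_, ?_, ?_, ?_, ?_, ?_, ?_, ?_, ?_,
      .inr ?_, .inr ⟨?_, ?_⟩, ⟨?_, ?_, .inr ?_, ?_, ?_, ?_⟩, ?_, ?_, ?_, ?_, ?_, ?_, ?_, ?_, .inl ?_,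
      .inl ⟨?_, ?_⟩, ?_, ?_, ?_, ?_, ?_, ?_, ?_, ?_, ?_, ?_⟩ <;> linarith

/-- **all the lines of `LQ` on the table** -/
theorem egQ {ε1 εJ β : ℝ} (h1 : ε1 ≤ χ3 + c / 10) (hJ : εJ ≤ χ3 + c / 10) (hb : β ≤ ρ / 2) :
    EG η ε μ a V U ξ 0 U U (-ε) 0 L χ2 γ (3 / 2 * ξ + c / 100) ε1 εJ β (ρ / 3) ρ χ3 χ3 (U - η)
      (U - η) (U / 2 - c) (3 / 2 * ξ - U / 2 + 2 * η) (χ3 - 3 * η) ((-1 - μ) / 3) (μ + ρ / 2 - η) 0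
      (3 / 2 * ξ - U / 2 + 2 * η) ((-1 - μ + 2 * ξ - a + 4 * η) / 3) (-1 - μ - a + 2 * η)
      ((3 * ξ + ε) / 2) (3 / 2 * ξ - a + 2 * η) (-(1 / 8)) (-1 - μ + 2 * ξ - a + 4 * η)
      ((-1 - μ + 2 * ξ - (U / 2 - c) + 5 * η) / 3) (2 * (-1 - μ - a) + 3 * η) := by
  have Z := ezQ h
  refine ⟨Z, by linarith [h.ηε, h.η0], Z.c1, by linarith [h.εc, h.c1], Z.D1, ?_, eqQ h h1 hJ hb⟩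
  obtain ⟨o1, o2, o3, o4, o5, o6, o7, o8⟩ := h.ord
  rq1 h
  all_goals constructor <;> linarith

end lin

variable {β c0 C0 c0' C0' η' : ℝ} {A : ℕ} {c η K K' : ℝ} {p : Pm} {σ t : ℝ} {Q : Pl}

/-- **`LQ` on the table** (pure powers of `n`) -/
theorem lqQ (X : Nr44.Cx β c0 C0 A c η K' p σ t) (G : GrD K c0' C0' η' p σ t Q) (hA : 4 ≤ A)
    (P : p.PlX σ t Q) {ε S ν ξ ρ L al χ2 χ3 γ lm ε1 εJ β' g' : ℝ} {φ : ℝ → ℝ}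
    (h : RQ c η ε S (logb p.n (p.muG t)) ν (logb p.n (p.laG σ)) (logb p.n (p.Vc (nu p σ)))
      (logb p.n (p.u2 (nu p σ))) ξ ρ L al χ2 χ3 γ lm)
    (h1 : ε1 ≤ χ3 + c / 10) (hJ : εJ ≤ χ3 + c / 10) (hb : β' ≤ ρ / 2)
    (φ0 : 0 ≤ φ 1) (φ1 : φ 1 ≤ (p.n : ℝ) ^ ε1)
    (φJ : φ ((p.gst Q t).s (p.scG K σ t Q).J / 2) ≤ (p.n : ℝ) ^ εJ)
    (φb : bs (p.scG K σ t Q) ((p.n : ℝ) ^ L) ((p.n : ℝ) ^ χ2) g' φ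
      ((p.gst Q t).s (p.scG K σ t Q).J) ≤ (p.n : ℝ) ^ β')
    (g0 : 0 ≤ g') (g1 : ∀ k, (p.scG K σ t Q).jl < k → k < (p.scG K σ t Q).J →
      (p.gst Q t).s (p.scG K σ t Q).J / 2 ≤ (p.gst Q t).s k →
      (p.gst Q t).s k + (p.n : ℝ) ^ (ρ / 3) / 8 ≤ (p.gst Q t).s (p.scG K σ t Q).J →
      |(p.gst Q t).G k| ≤ g') :
    L63.LQ ((p.n : ℝ) ^ ε) (p.scG K σ t Q) (p.gst Q t) (((p.n : ℝ) ^ ξ) ^ 3) (((p.n : ℝ) ^ ξ) ^ 3)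
      ((p.n : ℝ) ^ (0 : ℝ)) ((p.n : ℝ) ^ L) (((p.n : ℝ) ^ (0 : ℝ)) ^ 3) ((p.n : ℝ) ^ χ2)
      ((p.n : ℝ) ^ γ) ((p.n : ℝ) ^ logb p.n (p.u2 (nu p σ))) ((p.n : ℝ) ^ logb p.n (p.u2 (nu p σ)))
      ((p.n : ℝ) ^ (3 / 2 * ξ + c / 100)) 0 φ ((p.n : ℝ) ^ (ρ / 3)) g' ((p.n : ℝ) ^ ρ) :=
  have H := B.of X.H
  have r : ∀ y : ℝ, T p.n ((p.n : ℝ) ^ y) y := fun y => ⟨H.up y, B.dp y⟩
  lq_lg X G hA P (r _) (r _) (H.up _) (r _) (r _) (r _) (r _) (H.up _) (H.up _) (H.up _) ⟨φ0, φ1⟩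
    φJ φb g0 g1 (egQ h h1 hJ hb)

end Crest.Agent.T156.Alt.Tq23

end
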