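import Crest.Agent.T156.TqL_23
import Crest.Agent.T156.LPu_3

/-!
# Row 156 (helper23): `L63.LQ` on the graded path from linear lines
-/

set_option autoImplicit false

noncomputable section

namespace Crest.Agent.T156.Alt.Tq23

open Real Tr3 Lp86 Lq3 Lx13 Plt13 L69 Kn72

/-- **all the lines of `LQ`**: `μ a v uu` = exponents of `θ la Vc u2` -/
structure EG (η e μ a v uu ξ vt μ1 μ2 μ3 lp L χ γ ι ε1 εJ β A ρ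
    p2 p3 d1 d2 d3 q r o ε v2 q2 s b2 v3 q3 lm z α b3 : ℝ) : Prop where
  Z : EZ η μ a v uu ξ vt μ1 lp p2 p3 d1 q r
  e0 : 0 ≤ e
  c2 : -(9 / 10) ≤ μ2
  c3 : -(9 / 10) ≤ μ3
  D2 : LD η (2 / 3 * a) uu μ2 d2
  D3 : LD η (2 / 3 * a) uu μ3 d3
  Q : EQ η e μ (2 / 3 * a) a v uu (2 * μ + 2 * a + 3 * η) ξ vt (-1 - μ) L χ γ p2 ι ε1 εJ β A ρ
    μ2 d2 μ3 d3 o ε v2 q2 s b2 v3 q3 lm z α b3

variable {β c0 C0 c0' C0' η' : ℝ} {A : ℕ} {c η K K' : ℝ} {p : Pm} {σ t : ℝ} {Q : Pl}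

/-- **`LQ` from the lines** -/
theorem lq_lg (X : Nr44.Cx β c0 C0 A c η K' p σ t) (G : GrD K c0' C0' η' p σ t Q) (hA : 4 ≤ A)
    (P : p.PlX σ t Q) {E x Vt u1 u2 L Lg X2 G0 j g' : ℝ} {φ : ℝ → ℝ}
    {e ξ vt μ1 μ2 μ3 lp Lg' χ γ ι ε1 εJ β' a ρ p2 p3 d1 d2 d3 q r o ε v2 q2 s b2 v3 q3 lm z α b3 : ℝ}
    (hE : T p.n E e) (hx : T p.n x ξ) (hV : U p.n Vt vt) (h1 : T p.n u1 μ1) (h2 : T p.n u2 μ2)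
    (hL : T p.n L lp) (hg : T p.n Lg Lg') (hX : U p.n X2 χ) (hG : U p.n G0 γ) (hj : U p.n j ι)
    (hφ : U p.n (φ 1) ε1) (hJ : φ ((p.gst Q t).s (p.scG K σ t Q).J / 2) ≤ (p.n : ℝ) ^ εJ)
    (hb : bs (p.scG K σ t Q) Lg X2 g' φ ((p.gst Q t).s (p.scG K σ t Q).J) ≤ (p.n : ℝ) ^ β')
    (g0 : 0 ≤ g') (g1 : ∀ k, (p.scG K σ t Q).jl < k → k < (p.scG K σ t Q).J →
      (p.gst Q t).s (p.scG K σ t Q).J / 2 ≤ (p.gst Q t).s k →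
      (p.gst Q t).s k + (p.n : ℝ) ^ a / 8 ≤ (p.gst Q t).s (p.scG K σ t Q).J →
      |(p.gst Q t).G k| ≤ g')
    (Z : EG η e (logb p.n (p.muG t)) (logb p.n (p.laG σ)) (logb p.n (p.Vc (nu p σ)))
      (logb p.n (p.u2 (nu p σ))) ξ vt μ1 μ2 μ3 lp Lg' χ γ ι ε1 εJ β' a ρ
      p2 p3 d1 d2 d3 q r o ε v2 q2 s b2 v3 q3 lm z α b3) :
    L63.LQ E (p.scG K σ t Q) (p.gst Q t) (x ^ 3) (x ^ 3) Vt Lg (L ^ 3) X2 G0 u1 u2 j 0 φ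
      ((p.n : ℝ) ^ a) g' ((p.n : ℝ) ^ ρ) := by
  have H := B.of X.H
  have Y := xd X G
  have F := gx_gst X.H hA X.o G P
  obtain ⟨_, _, _, S⟩ := ns X G hx hV h1 hL Z.Z
  have N := nq_lg Y (ct X G hx h2.2 Z.c2 Z.Z.c2 Z.Z.c3) (ct X G hx (B.dp μ3) Z.c3 Z.Z.c2 Z.Z.c3)
    (H.le B.one hE.2 Z.e0) (H.le B.one (H.dmul (tw X G).2 (H.dmul B.dn Y.θd)) (by linarith))
    hE.1 hx.1 hV (tw X G).1 hg.1 hg.2 hX hG (H.up p2) hj (H.up ε1) (H.up εJ) (H.up β') h2.1 h2.2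
    (dm_d H (tu X G).2 Y.ud h2.2 Z.D2) (H.up μ3) (B.dp μ3) (dm_d H (tu X G).2 Y.ud (B.dp μ3) Z.D3)
    (lam X) Z.Q
  exact lq F (θ_eq G ▸ N) hφ.1 hφ.2 hJ (Np0 F S.ct S.V0 (w_eq G).le (by linarith [S.L1]) 2)
    (np2 F S (w_eq G).le) g0 g1 hb

end Crest.Agent.T156.Alt.Tq23

end
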