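import Crest.Agent.T156.TqW_90

/-!
# Row 156 (helper90): the table of regime Q on the graded path
-/

set_option autoImplicit false

noncomputable section

namespace Crest.Agent.T156.Alt.Tq90

open Real
open Crest.Agent.T156.Alt.Hl4

theorem phQ {s c ε x μ φ y : ℝ} (h : Nr44.Ex s c ε x μ φ)
    (h1 : -(4 / 15) + 4 / 5 * s - c / 4 ≤ μ) (h2 : μ ≤ -(1 / 6)) (a : -(5 / 9) - 2 / 3 * μ ≤ y)
    (b : 25 / 8 * s - 25 / 48 - μ / 4 ≤ y) : φ ≤ y := by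
  obtain ⟨c0, c1, e0, e1, s0, s1, x0, x1, m0, m1, m2, up⟩ := h
  rcases up with up | up | ⟨up, _, _⟩ | up | ⟨up, _⟩ | up | up | ⟨up, _, _⟩ | ⟨_, up⟩ | up |
    ⟨_, up⟩
  all_goals linarith

theorem rqI : RqI := by
  intro β c0 C0 A c η K' ε0 K c0' C0' η' p σ t Q ε G hc h5 hε hP R
  have H := G.R
  have X := cx G hc
  have c0' := H.c_pos
  have η0 := H.η_pos
  have ηc' := ηc G
  have s := H.lg_s
  obtain ⟨R1, R2⟩ := R
  rw [H.hc] at R1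
  obtain ⟨-, ⟨n1, -⟩, n2, pl, -⟩ := Lx13.lg_gst X G.D
  rw [max_eq_left (by linarith)] at n2
  obtain ⟨-, ha, hV, hU⟩ := pl.resolve_right fun a => by linarith [a.1]
  have sM : logb p.n p.s ≤ logb p.n (p.sM t) := by
    refine H.lg_mono H.s0 (le_min le_rfl (H.le_of_lg H.s0 (div_pos (pow_pos H.κ0 2) X.θ0) ?_))
    rw [logb_div (pow_pos H.κ0 2).ne' X.θ0.ne', logb_pow, H.lg_κ]
    push_cast
    linarith
  have pt : 5 / 8 * c + 2 * (logb p.n (p.sM t) + logb p.n (p.laG σ)) ≤ logb p.n (p.PhN t) := by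
    have a := X.la0
    have b := X.sM0
    have d := H.lg_mono (mul_pos (H.rp0 _) (pow_pos (mul_pos b a) 2)) ((Tp4.Pt_eq X hP).ge.trans hP.le)
    rw [logb_mul (H.rp0 _).ne' (pow_pos (mul_pos b a) 2).ne', H.lg_rp, logb_pow,
      logb_mul b.ne' a.ne', H.hc] at d
    exact_mod_cast d
  have ex := Nr44.ex H X.hy
  generalize logb p.n (p.muG t) = μ at *
  generalize logb p.n p.s = S at *
  generalize logb p.n (p.laG σ) = a at *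
  obtain ⟨ξ, xA, xB, xu⟩ : ∃ ξ : ℝ, -(5 / 9) - 2 / 3 * μ ≤ 3 * ξ ∧
      25 / 8 * S - 25 / 48 - μ / 4 ≤ 3 * ξ ∧
      (3 * ξ ≤ -(5 / 9) - 2 / 3 * μ ∨ 3 * ξ ≤ 25 / 8 * S - 25 / 48 - μ / 4) := by
    rcases le_total (-(5 / 9) - 2 / 3 * μ) (25 / 8 * S - 25 / 48 - μ / 4) with h | h
    · exact ⟨(25 / 8 * S - 25 / 48 - μ / 4) / 3, by linarith, by linarith, .inr (by linarith)⟩
    · exact ⟨(-(5 / 9) - 2 / 3 * μ) / 3, by linarith, by linarith, .inl (by linarith)⟩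
  obtain ⟨γ, γ1, γ2, γu⟩ : ∃ γ : ℝ, 3 * ξ + c / 100 ≤ γ ∧ -1 - μ + 3 / 2 * ξ - a + c / 50 ≤ 2 * γ ∧
      (γ ≤ 3 * ξ + c / 100 ∨ 2 * γ ≤ -1 - μ + 3 / 2 * ξ - a + c / 50) := by
    rcases le_total (2 * (3 * ξ + c / 100)) (-1 - μ + 3 / 2 * ξ - a + c / 50) with h | h
    · exact ⟨(-1 - μ + 3 / 2 * ξ - a + c / 50) / 2, by linarith, by linarith, .inr (by linarith)⟩
    · exact ⟨_, le_rfl, h, .inl le_rfl⟩
  obtain ⟨lm, m1, m2, mu⟩ : ∃ lm : ℝ, μ / 2 + c / 100 ≤ lm ∧ ξ + c / 100 ≤ lm ∧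
      (lm ≤ μ / 2 + c / 100 ∨ lm ≤ ξ + c / 100) := by
    rcases le_total (μ / 2) ξ with h | h
    · exact ⟨_, by linarith, le_rfl, .inr le_rfl⟩
    · exact ⟨_, le_rfl, by linarith, .inl le_rfl⟩
  have ph := phQ ex R1 R2 xA xB
  exact ⟨_, ξ, _, _, _, _, _, γ, lm, ⟨by linarith, η0.le, h5, ηc', hε, s.1, s.2, by linarith, R2, n1,
    n2, ha, hV, hU, xA, xB, xu, rfl, by linarith, rfl, rfl, rfl, rfl, γ1, γ2, γu, m1, m2, mu⟩, ph⟩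

end Crest.Agent.T156.Alt.Tq90

end
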