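import Crest.Agent.T156.TqS_23
import Crest.Agent.T156.LPq_3

/-!
# Row 156 (helper23): the numbers `Tq23.NQ` in exponents
-/

set_option autoImplicit false

noncomputable section

namespace Crest.Agent.T156.Alt.Tq23

open Real Tr3 Lp86 Lq3

/-- **the lines of `LQ`** (`X = Xp = x³`).  Exponents `e ξ vt ω L χ γ p2 ι ε1 εJ β A ρ` of
`E x Vt w Lg X2 G0 P2 j e1 eJ b aa R2`; cuts `μ2 d2` (`u2`, `dm2`), `μ3 d3`; the rest is auxiliary -/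
structure EQ (η e t a0 l v uu g ξ vt ω L χ γ p2 ι ε1 εJ β A ρ μ2 d2 μ3 d3
    o ε v2 q2 s b2 v3 q3 lm z α b3 : ℝ) : Prop where
  t0 : t ≤ 0
  o1 : ω ≤ 3 * o
  a1 : e + ξ ≤ L + A
  a2 : e + εJ ≤ t + A
  a3 : 3 * e + ω ≤ 3 * A
  a4 : ι + η ≤ L + A
  a4' : t + η ≤ L + A
  a5 : a0 ≤ A
  s1 : e + A + η ≤ t / 2
  s2 : e + ι + η ≤ t / 2
  s3 : e + β + η ≤ t / 2
  e1 : ε1 + η ≤ ε
  e2 : 2 * γ + η ≤ ε
  e3 : p2 + η ≤ ε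
  e4 : 4 * L + 2 * o + ι + η ≤ ε
  e5 : 4 * L + 2 * o + ξ + η ≤ ε
  e6 : 4 * L + 2 * o + t / 2 + η ≤ ε
  e7 : (ω + 3 * ξ) / 2 + 2 * η ≤ ε
  e8 : (ω + 3 / 2 * t) / 2 + 2 * η ≤ ε
  e9 : χ + ξ + η ≤ ε
  q1 : 2 * ε + η ≤ 2 * t + ρ
  q1' : g + η ≤ 2 * t + ρ
  u3 : e + μ3 ≤ 0
  v3' : vt ≤ v3 ∨ (3 * ξ - μ3) / 2 ≤ v3
  hq3 : LQ η l v uu ξ v3 q3
  hz : LZ η a0 l v uu ξ v3 q3 ω μ3 lm z
  m1 : ω + 2 * η ≤ 3 * α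
  m2 : ω + lm - μ3 + η ≤ 3 * α
  m3 : ω + 2 * ξ - d3 + 5 * η ≤ 3 * α
  m4 : ω + 2 * v3 - d3 + 3 * η ≤ 3 * α
  d1 : 3 * (ω - d3) + (ω - l) + 2 * η ≤ b3
  d1' : 2 * (ω - l) + 3 * η ≤ b3
  q21 : 8 * L + α + z + 4 * η ≤ 2 * t + ρ
  q22 : 8 * L + b3 + 4 * η ≤ 2 * t + ρ
  v2' : vt ≤ v2 ∨ (3 * ξ - μ2) / 2 ≤ v2
  hq2 : LQ η l v uu ξ v2 q2
  g1 : ω + l + 2 * η ≤ 3 * s
  g2 : ω + 2 * ξ - l + 4 * η ≤ 3 * s
  g3 : ω + 3 / 2 * ξ + q2 + 3 * η ≤ 3 * s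
  f1 : ω - d2 + (ω - l) + 2 * η ≤ b2
  f2 : ω - l + 2 * η ≤ b2
  q31 : 4 * L + 2 * s + 4 * η ≤ ρ
  q32 : 4 * L + b2 + 4 * η ≤ ρ
  q41 : μ2 + η ≤ ρ
  q42 : 2 * χ + η ≤ ρ
  q5 : e + 2 * ρ ≤ 3 * t

/-- **`NQ` from the lines** -/
theorem nq_lg {n η C θ u0 la V U' Γ t a0 l v uu g E h x Vt w u2 dm2 u3 dm3 Λ P2 Lg X2 G0 j e1 eJ b : ℝ}
    {e ξ vt ω L χ γ p2 ι ε1 εJ β A ρ μ2 d2 μ3 d3 o ε v2 q2 s b2 v3 q3 lm z α b3 : ℝ}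
    (X : XD n η C θ u0 la V U' Γ t a0 l v uu g) (T2 : Ct n C u0 U' h x u2 dm2 Λ)
    (T3 : Ct n C u0 U' h x u3 dm3 Λ) (E1 : 1 ≤ E) (w1 : 1 ≤ w * (n * θ))
    (hE : U n E e) (hx : U n x ξ) (hV : U n Vt vt) (hw : U n w ω) (hL : U n Lg L) (hL' : D n Lg L)
    (hX : U n X2 χ) (hG : U n G0 γ) (hP : U n P2 p2) (hj : U n j ι) (he : U n e1 ε1)
    (hJ : U n eJ εJ) (hb : U n b β) (hu : U n u2 μ2) (hu' : D n u2 μ2) (hd : D n dm2 d2)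
    (h3 : U n u3 μ3) (h3' : D n u3 μ3) (hd3 : D n dm3 d3) (hΛ : U n Λ (2 * η))
    (K : EQ η e t a0 l v uu g ξ vt ω L χ γ p2 ι ε1 εJ β A ρ μ2 d2 μ3 d3
      o ε v2 q2 s b2 v3 q3 lm z α b3) :
    NQ E n C θ u0 la V U' h Γ (x ^ 3) x Vt Lg X2 G0 P2 w (n ^ o) u2 j e1 eJ (n ^ A) b (n ^ ρ)
      (n ^ ε) Λ dm2 (n ^ v2) (n ^ q2) (n ^ s) u3 dm3 (n ^ v3) (n ^ q3) (n ^ z) (n ^ α) := by
  have H := X.b
  have η0 := H.η0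
  have cs : ∀ y : ℝ, 0 ≤ y → y ≤ 1000 → U n y η := fun y => H.cst
  have c2 := cs 2 (by norm_num) (by norm_num)
  have LA := H.dmul hL' (B.dp A)
  have tρ := H.dmul (H.dpow X.θd 2) (B.dp ρ)
  have cut : ∀ {u μ v' : ℝ}, D n u μ → (vt ≤ v' ∨ (3 * ξ - μ) / 2 ≤ v') →
      Vt ≤ n ^ v' ∨ √(x ^ 3 / u) ≤ n ^ v' := fun hu c => c.imp (H.le hV (B.dp _))
    fun c => H.le (H.sqrt (H.div (H.pow hx 3) hu)) (B.dp _) (by push_cast; linarith)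
  refine ⟨E1, H.le X.θu B.done K.t0, w1, (H.rp o).le, H.le hw (H.dpow (B.dp o) 3) K.o1,
    (H.pow hx 3).1, hX.1, hj.1, hV.1, ?_, H.le (H.mul hE hJ) (H.dmul X.θd (B.dp A)) K.a2,
    H.le (H.mul (H.pow hE 3) hw) (H.dpow (B.dp A) 3) K.a3,
    H.le (H.add hj X.θu K.a4 K.a4') LA le_rfl, H.le X.au (B.dp A) K.a5,
    H.le (H.mul hE (H.add3 (c := t / 2 - e) (H.up A) hj hb ?_ ?_ ?_)) (H.dsqrt X.θd) ?_, ?_,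
    H.le (H.add (c := 2 * t + ρ) (H.pow (H.up ε) 2) X.Γ K.q1 K.q1') tρ le_rfl, T3,
    H.le (H.mul hE h3) B.done K.u3, cut h3' K.v3', qq X hx (H.up v3) K.hq3,
    zz X hx (H.up v3) hw h3' K.hz, (H.rp α).le,
    H.le (H.mul hw (H.add3 (c := 3 * α - ω) c2 (H.div (lM_u X h3' K.hz) h3')
      (H.div (H.pow (H.add (c := (3 * α - ω + d3 - η) / 2) (H.mul c2 hx) (H.up v3) ?_ ?_) 2) hd3)
      ?_ ?_ ?_)) (H.dpow (B.dp α) 3) ?_,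
    H.le (H.mul hΛ (H.mul (H.pow hL 8) (H.add (c := 2 * t + ρ - 8 * L - 2 * η)
      (H.mul (cs 8 (by norm_num) (by norm_num)) (H.mul (H.up α) (H.up z)))
      (H.mul (cs 64 (by norm_num) (by norm_num)) (bD_u (b := b3) X hw hd3 2 ?_ ?_)) ?_ ?_))) tρ ?_,
    T2, cut hu' K.v2', qq X hx (H.up v2) K.hq2, (H.rp s).le,
    H.le (H.mul hw (H.add (c := 3 * s - ω) (H.mul c2 X.lu) (H.add (c := 3 * s - ω - η)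
      (H.div (H.mul (H.mul (cs 64 (by norm_num) (by norm_num)) X.C) (H.pow hx 2)) X.ld)
      (H.mul (H.mul c2 (sq3 X hx)) (H.up q2)) ?_ ?_) ?_ ?_)) (H.dpow (B.dp s) 3) ?_,
    H.le (H.mul hΛ (H.mul (H.pow hL 4) (H.add (c := ρ - 4 * L - 2 * η)
      (H.mul c2 (H.pow (H.up s) 2))
      (H.mul (cs 4 (by norm_num) (by norm_num)) (bD_u (b := b2) X hw hd 0 ?_ ?_)) ?_ ?_)))
      (B.dp ρ) ?_,
    (H.add hu (H.pow hX 2) K.q41 K.q42).2,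
    H.le (H.mul hE (H.pow (H.up ρ) 2)) (H.dpow X.θd 3) K.q5⟩
  · rw [third hx.1]; exact H.le (H.mul hE hx) LA K.a1
  · linarith [K.s1]
  · linarith [K.s2]
  · linarith [K.s3]
  · linarith
  · have y := H.mul (H.pow hL 4) (H.pow (H.up o) 2)
    have p1 := H.pc he K.e1
    have p2 := H.pc (c := ε) (H.pow hG 2) K.e2
    have p3 := H.pc hP K.e3
    have p4 := H.pc (c := ε) (H.mul y X.θu) (by push_cast; linarith [K.e6, K.t0])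
    have p5 := H.pc (c := ε) (H.mul y hj) K.e4
    have p6 := H.pc (c := ε) (H.mul y hx) K.e5
    have p7 := H.pc (c := ε) (H.mul y (H.sqrt X.θu)) (by push_cast; linarith [K.e6])
    have p8 := H.pc (c := ε) (H.sqrt (H.mul hw (H.add (c := 2 * ε - 2 * η - ω) (H.pow hx 3)
      (H.pow (H.sqrt X.θu) 3) (by push_cast; linarith [K.e7]) (by push_cast; linarith [K.e8]))))
      (by linarith)
    have p9 := H.pc (H.mul hX hx) K.e9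
    rw [third hx.1]
    exact (H.tot 9 (by linarith) (by linarith)).2
  all_goals
    push_cast
    linarith [K.m1, K.m2, K.m3, K.m4, K.d1, K.d1', K.q21, K.q22, K.g1, K.g2, K.g3, K.f1, K.f2,
      K.q31, K.q32]

end Crest.Agent.T156.Alt.Tq23

end
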