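import Crest.Agent.T156.HyB_4
import Crest.Agent.T156.TqG_23
import Crest.Agent.T156.TqL_67
import Crest.Agent.T156.SupD_82

/-!
# Row 156 (helper90): the branch `TLq` of `SupT` from linear lines in free exponents
-/

set_option autoImplicit false
set_option linter.unusedSectionVars false

noncomputable section

namespace Crest.Agent.T156.Alt.Tq90

open Real Finset
open Crest.Agent.T156.Alt.L69 Crest.Agent.T156.Alt.Ln97 Crest.Agent.T156.Alt.Hl4 Tr3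
open Crest.Agent.T156.Alt.Kn72 (nu)
open Crest.Agent.T156.Alt.R77 (Dt OnG)

/-- **all the lines of the regime Q**; `bt` = exponent of `Bt`, `φ` = exponent of `PhN`; the residual is
below `n ^ g`; on the top levels `η ≤ n ^ (b0 + η)`, `bs ≤ n ^ (B + η)`; `aa = n ^ A`, `R2 = n ^ R` -/
structure QL (c η μ al ρ v uu bt φ e a0 a ξ L χ2 χ3 χ4 γ ν g T1 lm ε q vt μ1 μ2 lp lc ι κ τ ε1
    b0 b B εJ βb A R : ℝ) : Prop where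
  ph : φ ≤ 3 * ξ
  vt0 : 0 ≤ vt
  ln : LnL c η μ ρ e a0 a ξ L χ2 χ3 γ
  hy : ∀ Tu, -(4 * η) ≤ Tu → Tu ≤ η → HyL c η μ al ρ v uu e a0 a ξ L χ2 χ3 χ4 γ ν g T1 Tu lm ε q
    ξ vt μ1 μ2 lp lc ι κ τ ε1
  eg : ∃ μ3 p2 p3 d1 d2 d3 q' r o ε' v2 q2 s b2 v3 q3 lm' z α b3, Tq23.EG η e μ al v uu ξ vt μ1 μ2 μ3
    lp L χ2 γ ι ε1 εJ βb A R p2 p3 d1 d2 d3 q' r o ε' v2 q2 s b2 v3 q3 lm' z α b3
  eJ : b0 + η ≤ εJ
  eB : B + η ≤ βb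
  bb : b0 ≤ b
  e5 : 5 * η ≤ e
  m : M12 η L ξ χ2 χ3 γ (-(5 * η)) μ b0
  gb : g ≤ b + η
  bl : Lt76.BL η L χ2 (-(5 * η)) μ b 0 B
  g1 : μ + al + η ≤ g
  g2 : 2 / 3 * al + 4 * η ≤ A
  x1 : e + 3 * ξ ≤ 3 * lm
  x2 : a0 ≤ lm
  x3 : lm + 2 * η ≤ 0
  o1 : 2 * q + 2 * η ≤ bt
  o2 : 2 * B + 4 * η ≤ bt
  o3 : lm + 2 * ι + 4 * η ≤ bt
  o4 : 3 * A + η ≤ bt
  o5 : R + η ≤ bt

variable {β c0 C0 : ℝ} {A : ℕ} {c η K' ε0 K c0' C0' η' : ℝ} {p : Pm} {σ t : ℝ} {Q : Pl}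

theorem Bt0 (G : Gd66 β c0 C0 A c η K' ε0 K c0' C0' η' p σ t Q) : 0 < Tp4.Bt p σ t :=
  mul_pos (G.R.rp0 _) (pow_pos (mul_pos (lt_min G.R.s0 (div_pos (pow_pos G.R.κ0 2) (G.R.muG_pos G.M)))
    (G.R.laG0 G.M0)) 2)

/-- **the branch `TLq` at a point** -/
theorem sq_pt (G : Gd66 β c0 C0 A c η K' ε0 K c0' C0' η' p σ t Q) (hc : c ≤ 1 / 2000) {e0 : ℝ}
    (h : p.PtN σ t < p.PhN t → ∃ a0 a ξ L χ2 χ3 χ4 γ ν g T1 lm ε q vt μ1 μ2 lp lc ι κ τ ε1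
      b0 b B εJ βb A R, QL c η (logb p.n (p.muG t)) (logb p.n (p.laG σ)) (logb p.n p.r)
        (logb p.n (p.Vc (nu p σ))) (logb p.n (p.u2 (nu p σ))) (logb p.n (Tp4.Bt p σ t))
        (logb p.n (p.PhN t)) (e0 * c) a0 a ξ L χ2 χ3 χ4 γ ν g T1 lm ε q vt μ1 μ2 lp lc ι κ τ ε1
        b0 b B εJ βb A R) :
    Tp4.SupT e0 p σ t (p.scG K σ t Q) (p.gst Q t) := by
  intro m a' hi hΦ hP
  obtain ⟨a0, a, ξ, L, χ2, χ3, χ4, γ, ν, g, T1, lm, ε, q, vt, μ1, μ2, lp, lc, ι, κ, τ, ε1,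
    b0, b, B', εJ, βb, A', R, T⟩ := h hP
  have H := G.R
  have Z := Tr3.B.of H
  have X := cx G hc
  have cl := G.D.cl.1
  have η0 := H.η_pos
  have r := H.rp0
  have θ0 := H.muG_pos G.M
  have la0 := H.laG0 G.M0
  have K1 := G.D.nb.K1
  obtain ⟨s0, s1, s2⟩ := lg_sJ G
  have x3 : p.PhN t ≤ pw p ξ ^ 3 :=
    Z.le (Z.ul (mul_pos (r _) (H.PhG0 G.M (r _)))) (Z.dpow (B.dp ξ) 3) (by push_cast; exact T.ph)
  have Ty := T.hy _ s1 s2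
  have hy := hyN G hc (m := m) (a := a') T.ln (hΦ.trans x3) (.inl le_rfl) (fun k _ _ _ => by
    have a1 := Md67.rb_le_one (M := p.gst Q t) (a := a') (H.n0.trans_le hi.m1) k
    have a2 := Md67.q_nonneg (M := p.gst Q t) k
    have a3 : 1 ≤ pw p vt := Z.le B.one (B.dp _) T.vt0
    rw [Md.del]
    linarith) s0 le_rfl Ty
  have fx := fxN G T.ln
  have e5 : 5 * η ≤ logb p.n (pw p (e0 * c)) := by rw [H.lg_rp]; exact T.e5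
  have E1 : 1 ≤ pw p (e0 * c) := Z.le B.one (B.dp _) (by linarith [T.e5])
  have m1 : M12 η (logb p.n (pw p L)) (logb p.n (pw p ξ)) (logb p.n (pw p χ2)) (logb p.n (pw p χ3))
      (logb p.n (pw p γ)) (-(5 * η)) (logb p.n (p.muG t)) b0 := by simpa only [H.lg_rp] using T.m
  have bl : Lt76.BL η (logb p.n (pw p L)) (logb p.n (pw p χ2)) (-(5 * η)) (logb p.n (p.muG t)) b 0
      B' := by simpa only [H.lg_rp] using T.bl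
  have gb : pw p g ≤ (p.n : ℝ) ^ (b + η) := Z.le (Z.up _) (B.dp _) T.gb
  have bsU : ∀ {y g' : ℝ}, (p.gst Q t).s (p.scG K σ t Q).J / 64 ≤ y → 0 ≤ g' → g' ≤ pw p g →
      U p.n (bs (p.scG K σ t Q) (pw p L) (pw p χ2) g' (etaN p (p.scG K σ t Q) a ξ L χ2 χ3 γ) y)
        (B' + η) := fun hy g0 g1 =>
    ⟨Lt76.bs_nn cl (lv64 G hy).1.le (fx.eta_pos _).le g0 (r _).le,
      bs_top G fx (r _) e5 (lv64 G hy).1 le_rfl (lv64 G hy).2 (m1.mono T.bb) (g1.trans gb) bl⟩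
  have bJ := bsU (y := (p.gst Q t).s (p.scG K σ t Q).J) (by linarith) (r g).le le_rfl
  have bt := Z.dl (Bt0 G)
  have x0 : 0 ≤ e0 * c := by linarith [T.e5]
  rw [← H.hc] at hy
  refine ⟨_, _, _, _, _, _, _, _, _, _, _, _, _, _, _, _, _, _, _, _, _, _, _, _, _, _, _, hy,
    .inr ⟨rfl, fun y y1 _ => ?_, .inr ⟨?_, pw p A', pw p g, pw p R, ?_, ?_⟩⟩⟩
  · exact Z.le (Z.pow (Z.add (c := logb p.n (Tp4.Bt p σ t) / 2) (Z.up q)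
      (bsU y1 (Lt38.gL_nn (r g).le y) (Lt38.gL_le (r g).le y)) (by linarith [T.o1])
      (by linarith [T.o2])) 2) bt (by push_cast; linarith)
  · rw [H.hc]
    exact Z.le (Z.mul (Z.up _) (Z.pow (Z.up ξ) 3)) (Z.dpow (B.dp lm) 3) (by push_cast; exact T.x1)
  · rw [H.hc]
    obtain ⟨_, _, _, _, _, _, _, _, _, _, _, _, _, _, _, _, _, _, _, _, eg⟩ := T.eg
    have e1 := eta_top G fx (r _) e5 one_pos (T := 0) (by linarith) logb_one.ge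
      (b := ε1 - η) (by simpa only [H.lg_rp] using Ty.e1)
    rw [sub_add_cancel] at e1
    have h2 : (p.gst Q t).s (p.scG K σ t Q).J / 64 ≤ (p.gst Q t).s (p.scG K σ t Q).J / 2 := by
      linarith
    refine Tq23.lq_lg X G.D G.A4 G.X (Lq3.tp Z _) (Lq3.tp Z _) (Z.up _) (Lq3.tp Z _) (Lq3.tp Z _)
      (Lq3.tp Z _) (Lq3.tp Z _) (Z.up _) (Z.up _) (Z.up _) ⟨(fx.eta_pos _).le, e1⟩
      (Z.mono ⟨(fx.eta_pos _).le, eta_top G fx (r _) e5 (lv64 G h2).1 le_rfl (lv64 G h2).2 m1⟩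
        T.eJ).2 (Z.mono bJ T.eB).2 (r g).le (fun k k1 k2 _ k4 => ?_) eg
    have C := (Lq3.xd X G.D).C
    have a1 : 16 * ((8 * K ^ 2) ^ 2 * (log p.n * Plt13.u0 p (nu p σ))) ≤ pw p A' :=
      Z.le (Z.mul (Z.cst (by norm_num) (by norm_num)) (Z.mul (Z.pow C 2)
        (Z.mul ⟨by linarith [H.log1], H.log_le⟩ (Lq3.tu X G.D).1))) (B.dp _)
        (by push_cast; linarith [T.g2])
    refine (Lt38.G_off H G.O G.D G.X k1 k2 ?_).trans ?_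
    · change _ + 2 * (8 * K ^ 2) ^ 2 * (log p.n * Plt13.u0 p (nu p σ)) ≤ _
      linarith
    · rw [show 4 * (p.muG t * K * p.laG σ) = 4 * K * (p.muG t * p.laG σ) by ring]
      exact Z.le (Z.mul (a := η) ⟨by positivity, by linarith [G.BK]⟩ (Z.mul (Z.ul θ0) (Z.ul la0))) (B.dp _)
        (by linarith [T.g1])
  · have a1 : U p.n ((p.gst Q t).s (p.scG K σ t Q).jl) a0 :=
      ⟨cl.s_nn _, (le_mul_of_one_le_left (cl.s_nn _) E1).trans fx.l0s⟩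
    rw [Lp86.third (r ξ).le]
    have a2 := Z.add3 (c := lm + η) (Z.up lm) (Z.up ξ) a1 le_rfl (by linarith [T.x1])
      (by linarith [T.x2])
    have a3 := Z.pow (Z.add (c := (logb p.n (Tp4.Bt p σ t) - lm) / 2 - η) (Z.up ι) bJ
      (by linarith [T.o3]) (by linarith [T.o2, T.x3])) 2
    have p1 := Z.pc (c := logb p.n (Tp4.Bt p σ t)) (Z.pow (Z.up q) 2)
      (by push_cast; linarith [T.o1])
    have p2 := Z.pc (c := logb p.n (Tp4.Bt p σ t)) (Z.mul a2 a3) (by push_cast; linarith)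
    have p3 := Z.pc (c := logb p.n (Tp4.Bt p σ t)) (Z.pow (Z.up A') 3)
      (by push_cast; linarith [T.o4])
    have p4 := Z.pc (c := logb p.n (Tp4.Bt p σ t)) (Z.up R) T.o5
    exact Z.le (Z.tot 4 (by linarith) (by linarith)) bt le_rfl

open Tq67 (RQ)

/-- the lines of `Hy` on the table -/
def HyQ : Prop := ∀ c η ε S μ ν a V U ξ ρ L al χ2 χ3 γ lm : ℝ,
  RQ c η ε S μ ν a V U ξ ρ L al χ2 χ3 γ lm → ∀ Tu, -(4 * η) ≤ Tu → Tu ≤ η →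
  HyL c η μ a (S + c / 7 - 1 / 6) V U ε ξ al ξ L χ2 χ3 (ρ - c / 10) γ (ρ - c / 10) (μ + a + η)
    (-(c / 100)) Tu lm (ρ - c / 20) (ρ / 2) ξ 0 U U 0 L (3 / 2 * ξ + c / 100) (χ3 + c / 10) ξ
    (χ3 + c / 50)

/-- the lines of `LQ` on the table -/
def EgQ : Prop := ∀ c η ε S μ ν a V U ξ ρ L al χ2 χ3 γ lm : ℝ,
  RQ c η ε S μ ν a V U ξ ρ L al χ2 χ3 γ lm → ∃ εJ βb, χ3 + c / 100 + η ≤ εJ ∧
  ρ / 2 - c / 50 + η ≤ βb ∧ ∃ μ3 p2 p3 d1 d2 d3 q' r o ε' v2 q2 s b2 v3 q3 lm' z α b3,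
  Tq23.EG η ε μ a V U ξ 0 U U μ3 0 L χ2 γ (3 / 2 * ξ + c / 100) (χ3 + c / 50) εJ βb (ρ / 3) ρ
    p2 p3 d1 d2 d3 q' r o ε' v2 q2 s b2 v3 q3 lm' z α b3

/-- the table on the graded path -/
def RqI : Prop := ∀ (β c0 C0 : ℝ) (A : ℕ) (c η K' ε0 K c0' C0' η' : ℝ) (p : Pm) (σ t : ℝ) (Q : Pl)
  (ε : ℝ), Gd66 β c0 C0 A c η K' ε0 K c0' C0' η' p σ t Q → c ≤ 1 / 2000 → 5 * η ≤ ε →
  1000 * ε ≤ c → p.PtN σ t < p.PhN t → Sup82.RQ p σ t → ∃ ν ξ ρ L al χ2 χ3 γ lm,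
  RQ c η ε (logb p.n p.s) (logb p.n (p.muG t)) ν (logb p.n (p.laG σ)) (logb p.n (p.Vc (nu p σ)))
    (logb p.n (p.u2 (nu p σ))) ξ ρ L al χ2 χ3 γ lm ∧ logb p.n (p.PhN t) ≤ 3 * ξ

theorem out_rq {c η ε S μ ν a V U ξ ρ L al χ2 χ3 γ lm : ℝ}
    (h : RQ c η ε S μ ν a V U ξ ρ L al χ2 χ3 γ lm) :
    lm + 2 * η ≤ 0 ∧ lm + 3 * ξ + c / 50 + 4 * η ≤ ρ + 7 / 20 * c := by
  obtain ⟨o1, o2, o3, o4, o5, o6, o7, o8⟩ := h.ord
  have mu := h.mu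
  rq1 h
  all_goals rcases mu with mu | mu <;> constructor <;> linarith

theorem ql_rq (h1 : HyQ) (h2 : EgQ) {c η ε S μ ν a V U ξ ρ L al χ2 χ3 γ lm bt φ : ℝ}
    (h : RQ c η ε S μ ν a V U ξ ρ L al χ2 χ3 γ lm) (hφ : φ ≤ 3 * ξ)
    (hb : 3 / 5 * c + 2 * S + 2 * a ≤ bt) : ∃ εJ βb,
    QL c η μ a (S + c / 7 - 1 / 6) V U bt φ ε ξ al ξ L χ2 χ3 (ρ - c / 10) γ (ρ - c / 10) (μ + a + η)
      (-(c / 100)) lm (ρ - c / 20) (ρ / 2) 0 U U 0 L (3 / 2 * ξ + c / 100) (χ3 + c / 10) ξ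
      (χ3 + c / 50) (χ3 + c / 100) (μ + ρ / 2 - c / 20) (ρ / 2 - c / 50) εJ βb (ρ / 3) ρ := by
  obtain ⟨εJ, βb, e1, e2, eg⟩ := h2 _ _ _ _ _ _ _ _ _ _ _ _ _ _ _ _ _ h
  obtain ⟨o1, o2, o3, o4, o5, o6, o7, o8⟩ := h.ord
  obtain ⟨u1, u2⟩ := out_rq h
  have η0 := h.η0
  have ηc := h.ηc
  have hρ := h.hρ
  have S0 := h.S0
  obtain ⟨b1, b2, b3, -⟩ := h.blt (T := -(5 * η)) (m := μ) (r := 0) le_rfl η0 le_rfl
  exact ⟨εJ, βb, hφ, le_rfl, h.lnL, h1 _ _ _ _ _ _ _ _ _ _ _ _ _ _ _ _ _ h, eg, e1, e2, b2, h.ηε,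
    h.m12 (by linarith) (by linarith), by linarith, b1, le_rfl, by linarith,
    by linarith [h.m2, h.εc], by linarith [h.m2], u1, by linarith, by linarith, by linarith,
    by linarith, by linarith⟩

/-- **the leaf of regime Q** -/
theorem supQ_of (hβ : 1 < β) (h1 : HyQ) (h2 : EgQ) (h3 : RqI) :
    OnG (Sup82.SupQ (1 / 100000)) β := by
  refine OnG.cl' (c1 := 1 / 2000) hβ CL.triv (OnG.triv β) one_pos (by norm_num) 500000 0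
    (fun _ => 1) fun K c0 C0 A c η K' c0' C0' η' p σ t Q G hc _ hη _ _ _ R => sq_pt G hc fun hP => ?_
  have H := G.R
  have X := cx G hc
  have c0' := H.c_pos
  push_cast at hη
  obtain ⟨ν, ξ, ρ, L, al, χ2, χ3, γ, lm, h, hφ⟩ := h3 _ _ _ _ _ _ _ _ _ _ _ _ _ _ _ _
    (1 / 100000 * c) G hc (by linarith) (by linarith) hP R
  have sM : logb p.n p.s ≤ logb p.n (p.sM t) := by
    refine H.lg_mono H.s0 (le_min le_rfl (H.le_of_lg H.s0 (div_pos (pow_pos H.κ0 2) X.θ0) ?_))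
    rw [logb_div (pow_pos H.κ0 2).ne' X.θ0.ne', logb_pow, H.lg_κ]
    push_cast
    linarith [h.S1, h.W1]
  obtain ⟨εJ, βb, T⟩ := ql_rq h1 h2 (bt := logb p.n (Tp4.Bt p σ t)) h hφ
    (by rw [Tp4.lg_Bt X]; linarith)
  rw [← H.lg_r] at T
  exact ⟨_, _, _, _, _, _, _, _, _, _, _, _, _, _, _, _, _, _, _, _, _, _, _, _, _, _, _, _, _, _, T⟩

end Crest.Agent.T156.Alt.Tq90

end
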