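import Crest.Agent.T156.Tri_18
import Crest.Agent.T156.CDef_40

/-!
# Row 156 (helper18): triangular truncation in the names of `CDef_40`
-/

set_option autoImplicit false
set_option linter.all false

noncomputable section

namespace Crest.Agent.T156.Cas.Tri18

open Finset Real
open Crest.Agent.T157.E Crest.Agent.T157.Casc Crest.Agent.T157.SL
open Crest.Agent.T156.Rect52 C40

/-- Cauchy-Schwarz under the path law -/
theorem pE_cs {Ω : Type} [Fintype Ω] {w : Ω → ℝ} (hw : Wt w) (L : List (Lv Ω)) (h : Ω → ℝ)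
    {F G : (NI L → ℝ) → Ω → ℝ} (hF : ∀ x, Eg fun g => F g x) (hG : ∀ x, Eg fun g => G g x)
    {a b : ℝ} (ha : pE w L h (fun g x => F g x ^ 2) ≤ a) (hb : pE w L h (fun g x => G g x ^ 2) ≤ b) :
    |pE w L h fun g x => F g x * G g x| ≤ √a * √b := by
  have nn : ∀ {F : (NI L → ℝ) → Ω → ℝ}, (∀ x, Eg fun g => F g x) →
      0 ≤ pE w L h (fun g x => F g x ^ 2) := fun {F} hF => by
    have := Eg33.pE_mono' hw L h (F := fun _ _ => 0 * 0) (G := fun g x => F g x ^ 2)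
      (fun _ => Eg.const _) (fun x => (hF x).pow 2) fun g x => by simpa using sq_nonneg (F g x)
    rwa [Pe.pE_const_mul w L h 0 (fun _ _ => 0), zero_mul] at this
  refine le_sqrt_of_forall ((nn hF).trans ha) ((nn hG).trans hb) fun t ht => ?_
  have key : ∀ ε : ℝ, ε ^ 2 = 1 → ε * pE w L h (fun g x => F g x * G g x) ≤ (t * a + b / t) / 2 := by
    intro ε hε
    have h1 := Eg33.pE_mono' hw L h (F := fun g x => ε * (F g x * G g x))
      (G := fun g x => t / 2 * F g x ^ 2 + 1 / (2 * t) * G g x ^ 2)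
      (fun x => (Eg.const _).mul ((hF x).mul (hG x)))
      (fun x => ((Eg.const _).mul ((hF x).pow 2)).add ((Eg.const _).mul ((hG x).pow 2)))
      fun g x => by
        have e : t / 2 * F g x ^ 2 + 1 / (2 * t) * G g x ^ 2 - ε * (F g x * G g x) =
            (t * F g x - ε * G g x) ^ 2 / (2 * t) + (1 - ε ^ 2) * G g x ^ 2 / (2 * t) := by
          field_simp; ring
        have : 0 ≤ (t * F g x - ε * G g x) ^ 2 / (2 * t) := by positivity
        rw [hε] at e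
        linarith [show (1 - 1 : ℝ) * G g x ^ 2 / (2 * t) = 0 by simp]
    rw [Eg33.pE_add' hw L h (fun x => (Eg.const _).mul ((hF x).pow 2))
      (fun x => (Eg.const _).mul ((hG x).pow 2)), Pe.pE_const_mul, Pe.pE_const_mul,
      Pe.pE_const_mul] at h1
    have h2 := mul_le_mul_of_nonneg_left ha (show 0 ≤ t / 2 by positivity)
    have h3 := mul_le_mul_of_nonneg_left hb (show 0 ≤ 1 / (2 * t) by positivity)
    have e : (t * a + b / t) / 2 = t / 2 * a + 1 / (2 * t) * b := by field_simp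
    linarith
  rw [abs_le]
  constructor
  · have := key (-1) (by norm_num); linarith
  · have := key 1 (by norm_num); linarith

variable (D : CD)

/-- centred node (`false`) or leaf (`true`) variable along the path -/
def cv (b : Bool) (t : ℕ) (p : NI D.B → ℝ) (x : Cube D.n) : ℝ :=
  (bif b then D.lf t p x else D.nd t p) - D.del t

/-- covariance of two centred path variables -/
def Cov (b b' : Bool) (i j : ℕ) : ℝ :=
  pE (fun _ => 1) D.B 0 fun p x => cv D b i p x * cv D b' j p x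

theorem wt1 : Wt (fun _ : Cube D.n => (1 : ℝ)) := ⟨fun _ => zero_le_one, by simp⟩

theorem eg_cv (b : Bool) (t : ℕ) (x : Cube D.n) : Eg fun p => cv D b t p x := by
  cases b
  · exact (Pe.eg_st D.B 0 t (eg_qf (wt1 D) _ (oU D.q t))).sub (Eg.const _)
  · exact (Pe.eg_st D.B 0 t (Φ := fun z => Pf (fun _ => 1) (D.B.drop t) z (oU D.q t x))
      (Eg.sum _ fun y _ => (eg_P (wt1 D) _ y).mul_const _)).sub (Eg.const _)

theorem pE_cv (b b' : Bool) (I I' : Finset ℕ) (φ ψ : ℕ → ℝ) :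
    pE (fun _ => 1) D.B 0 (fun p x => (∑ i ∈ I, φ i * cv D b i p x) * ∑ j ∈ I', ψ j * cv D b' j p x) =
      ∑ i ∈ I, ∑ j ∈ I', φ i * ψ j * Cov D b b' i j := by
  simp only [Finset.sum_mul_sum]
  rw [Eg33.pE_sum' (wt1 D) _ _ _ fun i x => Eg.sum _ fun j _ =>
    ((Eg.const _).mul (eg_cv D b i x)).mul ((Eg.const _).mul (eg_cv D b' j x))]
  refine Finset.sum_congr rfl fun i _ => ?_
  rw [Eg33.pE_sum' (wt1 D) _ _ _ fun j x =>
    ((Eg.const _).mul (eg_cv D b i x)).mul ((Eg.const _).mul (eg_cv D b' j x))]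
  refine Finset.sum_congr rfl fun j _ => ?_
  rw [Cov, ← Pe.pE_const_mul]
  congr 1
  funext p x
  ring

variable {D}

theorem add_cv {A : ℕ → ℝ} (hA : D.Add A) (b : Bool) (φ : ℕ → ℝ) :
    pE (fun _ => 1) D.B 0 (fun p x => (∑ t ∈ D.up, D.dx t * φ t * cv D b t p x) ^ 2) ≤
      ∑ t ∈ D.up, φ t ^ 2 * (D.dx t * A t) := by
  have e : D.I (fun t => φ t ^ 2 * A t) = ∑ t ∈ D.up, φ t ^ 2 * (D.dx t * A t) :=
    Finset.sum_congr rfl fun t _ => by ring
  rw [← e]
  cases b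
  · exact (hA.2 φ).1
  · exact (hA.2 φ).2

theorem wk_cv {μ F f : ℕ → ℝ} (hW : D.Wk μ F f) (b : Bool) (y : ℕ) :
    pE (fun _ => 1) D.B 0 (fun p x => (∑ t ∈ D.tail y, μ t * cv D b t p x) ^ 2) ≤ f y ^ 2 := by
  cases b
  · exact hW.varN y
  · exact hW.varL y

/-- the additive variance bound dominates the covariances -/
theorem cr_add (hx : ∀ t, 0 ≤ D.dx t) {A : ℕ → ℝ} (hA : D.Add A) (b b' : Bool) :
    Cr (fun i j => D.dx i * D.dx j * Cov D b b' i j) (fun t => D.dx t * A t)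
      (fun t => D.dx t * A t) D.up := by
  refine ⟨fun i _ => mul_nonneg (hx i) (hA.1 i), fun i _ => mul_nonneg (hx i) (hA.1 i),
    fun φ ψ => ?_⟩
  have h1 := pE_cs (wt1 D) D.B 0
    (fun x => Eg.sum _ fun t _ => (Eg.const (D.dx t * φ t)).mul (eg_cv D b t x))
    (fun x => Eg.sum _ fun t _ => (Eg.const (D.dx t * ψ t)).mul (eg_cv D b' t x))
    (add_cv hA b φ) (add_cv hA b' ψ)
  rw [pE_cv] at h1
  convert h1 using 4 with i _ j _
  ring

/-- additive variance against the tails of the weak input -/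
theorem add_tail {A μ F f : ℕ → ℝ} (hA : D.Add A) (hW : D.Wk μ F f) (b b' : Bool) (φ : ℕ → ℝ)
    {y : ℕ} (hy : D.J + 1 ≤ y) :
    |∑ i ∈ D.up, φ i * ∑ j ∈ Ico y D.K, D.dx i * μ j * Cov D b b' i j| ≤
      √(∑ i ∈ D.up, φ i ^ 2 * (D.dx i * A i)) * f y := by
  have h1 := pE_cs (wt1 D) D.B 0
    (fun x => Eg.sum _ fun t _ => (Eg.const (D.dx t * φ t)).mul (eg_cv D b t x))
    (fun x => Eg.sum _ fun t _ => (Eg.const (μ t)).mul (eg_cv D b' t x))
    (add_cv hA b φ) (wk_cv hW b' y)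
  rw [pE_cv, Real.sqrt_sq (hW.nn y).2, CD.tail, max_eq_left hy] at h1
  convert h1 using 3 with i _
  rw [Finset.mul_sum]
  exact Finset.sum_congr rfl fun j _ => by ring

theorem up_eq (D : CD) : D.up = Ico (D.J + 1) D.K := rfl

theorem sum_dv (hdv : ∀ t ∈ D.up, 0 ≤ D.dv t) {f : ℕ → ℝ} (hf : ∀ t, 0 ≤ f t) :
    ∑ y ∈ Ico (D.J + 1) (D.K - 1), D.dv (y + 1) * f (y + 1) ≤ D.sv f D.J := by
  rw [Finset.sum_Ico_add' (fun y => D.dv y * f y)]
  exact Finset.sum_le_sum_of_subset_of_nonneg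
    (fun t ht => by have := mem_Ico.1 ht; exact mem_Ioo.2 (by omega))
    fun t ht _ => mul_nonneg (hdv t ht) (hf t)

/-- the three parts of `TFa` -/
def T1 (D : CD) (a l A : ℕ → ℝ) : ℝ := log (D.K + 2) * (1 + D.sv (fun _ => 1) D.J) ^ 2 *
  D.I (fun t => a t ^ 2 * A t / l t + l t * A t)
def T2 (D : CD) (a A : ℕ → ℝ) : ℝ := log (D.K + 2) * (1 + D.sv (fun _ => 1) D.J) ^ 2 *
  (√(D.I fun t => D.e t ^ 2 * A t) * √(D.I fun t => a t ^ 2 * A t))
def T3 (D : CD) (a A : ℕ → ℝ) : ℝ := log (D.K + 2) * (1 + D.sv (fun _ => 1) D.J) ^ 2 *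
  (D.sv D.f0 D.J * √(D.I fun t => a t ^ 2 * A t))
def T4 (D : CD) : ℝ := D.Iw fun j => D.f0 j * (D.f0 j + D.sv D.f0 D.J)

theorem TFa_eq (D : CD) (a l A : ℕ → ℝ) :
    D.TFa a l A = T1 D a l A + T2 D a A + T3 D a A + T4 D := by
  unfold CD.TFa T1 T2 T3 T4; ring

theorem log_pos' (D : CD) : 1 / 2 ≤ log ((D.K : ℝ) + 2) := by
  have h2 := Real.log_two_gt_d9
  have hN : Real.log 2 ≤ Real.log (D.K + 2) :=
    Real.log_le_log (by norm_num) (by have : (0 : ℝ) ≤ D.K := Nat.cast_nonneg _; linarith)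
  linarith

theorem sv_nn (hdv : ∀ t ∈ D.up, 0 ≤ D.dv t) {f : ℕ → ℝ} (hf : ∀ t, 0 ≤ f t) : 0 ≤ D.sv f D.J :=
  Finset.sum_nonneg fun t ht => mul_nonneg (hdv t ht) (hf t)

theorem T_nn (hx : ∀ t, 0 ≤ D.dx t) (hdv : ∀ t ∈ D.up, 0 ≤ D.dv t) (hf : ∀ t, 0 ≤ D.f0 t)
    (a : ℕ → ℝ) {l A : ℕ → ℝ} (hl : ∀ j, 0 < l j) (hA : ∀ j, 0 ≤ A j) :
    0 ≤ T1 D a l A ∧ 0 ≤ T2 D a A ∧ 0 ≤ T3 D a A ∧ 0 ≤ T4 D := by
  have h1 := log_pos' D
  have h2 := sv_nn hdv hf
  have h3 : 0 ≤ D.I (fun t => a t ^ 2 * A t / l t + l t * A t) :=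
    Finset.sum_nonneg fun t _ => by have := hx t; have := hl t; have := hA t; positivity
  refine ⟨by unfold T1; positivity, by unfold T2; positivity, by unfold T3; positivity, ?_⟩
  unfold T4 CD.Iw
  exact Finset.sum_nonneg fun t _ => mul_nonneg (abs_nonneg _)
    (mul_nonneg (hf t) (add_nonneg (hf t) h2))

section main
variable {C κ : ℕ → ℕ → ℝ} {A : ℕ → ℝ} {B : ℝ}

/-- **marked level below** (`i < j`, density `a i`) -/
theorem up_le (h : Cr C (fun t => D.dx t * A t) (fun t => D.dx t * A t) D.up)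
    (hdv : ∀ t ∈ D.up, 0 ≤ D.dv t) (hB : 0 < B) (a : ℕ → ℝ) {l : ℕ → ℝ} (hl : ∀ j, 0 < l j)
    (hm : ∀ j, l j ≤ l (j + 1))
    (h0 : ∀ i j, D.J < i → i < j → j < D.K → |κ i j| ≤ B)
    (h1 : ∀ i y, D.J < i → i < y → y + 1 < D.K → |κ i (y + 1) - κ i y| ≤ B * D.dv (y + 1)) :
    |∑ j ∈ D.up, ∑ i ∈ Ioo D.J j, κ i j * (a i * C i j)| ≤ 2 * B * T1 D a l A := by
  obtain ⟨k, hk, hk'⟩ := exists_k D.K
  have hV := sum_dv hdv (f := fun _ => 1) fun _ => zero_le_one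
  simp only [mul_one] at hV
  have hV0 := sv_nn hdv (f := fun _ => 1) fun _ => zero_le_one
  have key := h.tri (κ := fun i j => a i * κ i j) (r := fun i => B * |a i|)
    (s := fun y => D.dv (y + 1)) (l := fun i => B * l i) (fun _ => 1) (a := D.J + 1) (b := D.K)
    (k := k) (by omega) (Finset.Subset.refl _)
    (fun y hy => hdv _ (by have := mem_Ico.1 hy; exact mem_Ioo.2 (by omega))) hV
    (fun i => mul_pos hB (hl i))
    (monotone_nat_of_le_succ fun i => mul_le_mul_of_nonneg_left (hm i) hB.le)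
    (fun i j hi hij hj => by
      rw [abs_mul, mul_comm]
      exact mul_le_mul_of_nonneg_right (h0 i j hi hij hj) (abs_nonneg _))
    (fun i y hi hiy hy => by
      rw [← mul_sub, abs_mul]
      have := mul_le_mul_of_nonneg_left (h1 i y hi hiy hy) (abs_nonneg (a i))
      linarith [show |a i| * (B * D.dv (y + 1)) = B * |a i| * D.dv (y + 1) by ring])
  have e1 : ∑ j ∈ D.up, ∑ i ∈ Ioo D.J j, κ i j * (a i * C i j) =
      ∑ j ∈ Ico (D.J + 1) D.K, ∑ i ∈ Ico (D.J + 1) j, a i * κ i j * (1 * C i j) :=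
    Finset.sum_congr rfl fun j _ => Finset.sum_congr rfl fun i _ => by ring
  have e2 : ∑ i ∈ Ico (D.J + 1) D.K, ((B * |a i|) ^ 2 * (D.dx i * A i) / (B * l i) +
      B * l i * (1 ^ 2 * (D.dx i * A i))) = B * D.I (fun t => a t ^ 2 * A t / l t + l t * A t) := by
    rw [CD.I, Finset.mul_sum]
    refine Finset.sum_congr rfl fun i _ => ?_
    have := hl i
    rw [mul_pow, sq_abs]
    field_simp
  rw [e1]
  rw [e2] at key
  refine key.trans ?_
  have h3 : 0 ≤ D.I (fun t => a t ^ 2 * A t / l t + l t * A t) :=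
    Finset.sum_nonneg fun t ht => by
      have := h.nn t ht; have := hl t
      rw [show D.dx t * (a t ^ 2 * A t / l t + l t * A t) =
        a t ^ 2 * (D.dx t * A t) / l t + l t * (D.dx t * A t) by ring]
      positivity
  unfold T1
  generalize D.I (fun t => a t ^ 2 * A t / l t + l t * A t) = P at *
  generalize D.sv (fun _ => 1) D.J = V at *
  have h4 := log_pos' D
  generalize log ((D.K : ℝ) + 2) = g at *
  have h5 : 0 ≤ (1 + V) * (B * P) := by positivity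
  have h6 : 0 ≤ g * V * ((1 + V) * (B * P)) := by positivity
  have h7 : 0 ≤ g * ((1 + V) * (B * P)) := by positivity
  nlinarith [mul_le_mul_of_nonneg_right hk' h5]

/-- **marked level above** (`i < j`, density `a j`, parity factor `e i`) -/
theorem dn_le (h : Cr C (fun t => D.dx t * A t) (fun t => D.dx t * A t) D.up)
    (hdv : ∀ t ∈ D.up, 0 ≤ D.dv t) (hB : 0 ≤ B) (a : ℕ → ℝ)
    (h0 : ∀ i j, D.J < i → i < j → j < D.K → |κ i j| ≤ B * D.e i)
    (h1 : ∀ i y, D.J < i → i < y → y + 1 < D.K →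
      |κ i (y + 1) - κ i y| ≤ B * D.e i * D.dv (y + 1)) :
    |∑ j ∈ D.up, ∑ i ∈ Ioo D.J j, κ i j * (a j * C i j)| ≤ 3 * B * T2 D a A := by
  obtain ⟨k, hk, hk'⟩ := exists_k D.K
  have hV := sum_dv hdv (f := fun _ => 1) fun _ => zero_le_one
  simp only [mul_one] at hV
  have hV0 := sv_nn hdv (f := fun _ => 1) fun _ => zero_le_one
  have key := h.tri_sqrt (κ := κ) (r := fun i => B * D.e i)
    (s := fun y => D.dv (y + 1)) a (a := D.J + 1) (b := D.K)
    (k := k) (by omega) (Finset.Subset.refl _)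
    (fun y hy => hdv _ (by have := mem_Ico.1 hy; exact mem_Ioo.2 (by omega))) hV h0 h1
  have e1 : √(∑ i ∈ Ico (D.J + 1) D.K, (B * D.e i) ^ 2 * (D.dx i * A i)) =
      B * √(D.I fun t => D.e t ^ 2 * A t) := by
    rw [← Real.sqrt_sq hB, ← Real.sqrt_mul (sq_nonneg B), Real.sqrt_sq hB, CD.I, Finset.mul_sum]
    congr 1
    exact Finset.sum_congr rfl fun i _ => by ring
  have e2 : ∑ j ∈ Ico (D.J + 1) D.K, a j ^ 2 * (D.dx j * A j) = D.I fun t => a t ^ 2 * A t :=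
    Finset.sum_congr rfl fun i _ => by ring
  rw [e1, e2] at key
  refine key.trans ?_
  unfold T2
  have p1 := Real.sqrt_nonneg (D.I fun t => D.e t ^ 2 * A t)
  have p2 := Real.sqrt_nonneg (D.I fun t => a t ^ 2 * A t)
  generalize √(D.I fun t => D.e t ^ 2 * A t) = P at *
  generalize √(D.I fun t => a t ^ 2 * A t) = Q at *
  generalize D.sv (fun _ => 1) D.J = V at *
  have h4 := log_pos' D
  generalize log ((D.K : ℝ) + 2) = g at *
  have h5 : 0 ≤ (1 + V) * (B * P * Q) := by positivity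
  have h6 : 0 ≤ g * V * ((1 + V) * (B * P * Q)) := by positivity
  nlinarith [mul_le_mul_of_nonneg_right hk' h5]

/-- **full rows**: density `a i`, coefficient Lipschitz in `j` on `[m, K)`, tails `f` -/
theorem off_le {I : Finset ℕ} {f : ℕ → ℝ} {m : ℕ} (hA : ∀ i ∈ I, 0 ≤ D.dx i * A i)
    (hdv : ∀ t ∈ D.up, 0 ≤ D.dv t) (hB : 0 ≤ B) (a : ℕ → ℝ) (hm : D.J < m) (hf : ∀ y, 0 ≤ f y)
    (hC : ∀ (φ : ℕ → ℝ) (y : ℕ), m ≤ y → |∑ i ∈ I, φ i * ∑ j ∈ Ico y D.K, C i j| ≤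
      √(∑ i ∈ I, φ i ^ 2 * (D.dx i * A i)) * f y)
    (h0 : ∀ i ∈ I, |κ i m| ≤ B)
    (h1 : ∀ i ∈ I, ∀ y, m ≤ y → y + 1 < D.K → |κ i (y + 1) - κ i y| ≤ B * D.dv (y + 1)) :
    |∑ i ∈ I, ∑ j ∈ Ico m D.K, κ i j * (a i * C i j)| ≤
      B * (√(∑ i ∈ I, D.dx i * (a i ^ 2 * A i)) * (f m + D.sv f D.J)) := by
  have key := abel_tail (C := C) (κ := fun i j => a i * κ i j) (I := I)
    (A := fun t => D.dx t * A t) (r := fun i => B * |a i|) (s := fun y => D.dv (y + 1)) (f := f)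
    (m := m) (b := D.K) hA
    (fun y hy => hdv _ (by have := mem_Ico.1 hy; exact mem_Ioo.2 (by omega))) (fun y _ => hf y) hC
    (fun i hi => by
      rw [abs_mul, mul_comm]
      exact mul_le_mul_of_nonneg_right (h0 i hi) (abs_nonneg _))
    (fun i hi y hy => by
      rw [← mul_sub, abs_mul]
      have := mul_le_mul_of_nonneg_left
        (h1 i hi y (mem_Ico.1 hy).1 (by have := mem_Ico.1 hy; omega)) (abs_nonneg (a i))
      linarith [show |a i| * (B * D.dv (y + 1)) = B * |a i| * D.dv (y + 1) by ring])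
  have e1 : ∑ i ∈ I, ∑ j ∈ Ico m D.K, κ i j * (a i * C i j) =
      ∑ i ∈ I, ∑ j ∈ Ico m D.K, a i * κ i j * C i j :=
    Finset.sum_congr rfl fun j _ => Finset.sum_congr rfl fun i _ => by ring
  have e2 : √(∑ i ∈ I, (B * |a i|) ^ 2 * (D.dx i * A i)) =
      B * √(∑ i ∈ I, D.dx i * (a i ^ 2 * A i)) := by
    rw [← Real.sqrt_sq hB, ← Real.sqrt_mul (sq_nonneg B), Real.sqrt_sq hB, Finset.mul_sum]
    congr 1
    exact Finset.sum_congr rfl fun i _ => by rw [mul_pow, sq_abs]; ring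
  rw [e1]
  rw [e2] at key
  refine key.trans ?_
  rw [mul_assoc]
  refine mul_le_mul_of_nonneg_left (mul_le_mul_of_nonneg_left ?_ (Real.sqrt_nonneg _)) hB
  have h2 := sum_dv hdv hf
  have h3 : ∑ y ∈ Ico m (D.K - 1), D.dv (y + 1) * f (y + 1) ≤
      ∑ y ∈ Ico (D.J + 1) (D.K - 1), D.dv (y + 1) * f (y + 1) :=
    Finset.sum_le_sum_of_subset_of_nonneg (Finset.Ico_subset_Ico hm le_rfl) fun y hy _ =>
      mul_nonneg (hdv _ (by have := mem_Ico.1 hy; exact mem_Ioo.2 (by omega))) (hf _)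
  linarith

end main

end Crest.Agent.T156.Cas.Tri18

end
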