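import Crest.Agent.T156.Ab2_52

/-!
# Row 156 (helper18): triangular truncation for kernels that are Lipschitz in one variable

Frame-free.  `Cr C A A' S` says that the cross kernel `C i j` (a covariance) is dominated by the
additive variances `A`, `A'`.  The coefficient `κ i j` only has to be Lipschitz in the upper
variable; the triangle costs one factor `k` with `b - a ≤ 2 ^ k`.
-/

set_option autoImplicit false
set_option linter.all false

namespace Crest.Agent.T156.Cas.Tri18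
open Finset
open Crest.Agent.T156.Rect52

/-- cross kernel dominated by additive variances -/
structure Cr (C : ℕ → ℕ → ℝ) (A A' : ℕ → ℝ) (S : Finset ℕ) : Prop where
  nn : ∀ i ∈ S, 0 ≤ A i
  nn' : ∀ i ∈ S, 0 ≤ A' i
  le : ∀ φ ψ : ℕ → ℝ, |∑ i ∈ S, ∑ j ∈ S, φ i * ψ j * C i j| ≤
    √(∑ i ∈ S, φ i ^ 2 * A i) * √(∑ j ∈ S, ψ j ^ 2 * A' j)

theorem Cr.tr {C A A' S} (h : Cr C A A' S) : Cr (fun i j => C j i) A' A S := by
  refine ⟨h.nn', h.nn, fun φ ψ => ?_⟩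
  have := h.le ψ φ
  rw [Finset.sum_comm, mul_comm]
  convert this using 4 with i _ j _
  ring

theorem Cr.rect {C A A' S} (h : Cr C A A' S) {I I' : Finset ℕ} (hI : I ⊆ S) (hI' : I' ⊆ S)
    (φ ψ : ℕ → ℝ) : |∑ i ∈ I, ∑ j ∈ I', φ i * ψ j * C i j| ≤
      √(∑ i ∈ I, φ i ^ 2 * A i) * √(∑ j ∈ I', ψ j ^ 2 * A' j) := by
  have h1 := h.le (fun i => if i ∈ I then φ i else 0) (fun j => if j ∈ I' then ψ j else 0)
  have e1 : ∑ i ∈ S, ∑ j ∈ S, (if i ∈ I then φ i else 0) * (if j ∈ I' then ψ j else 0) * C i j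
      = ∑ i ∈ I, ∑ j ∈ I', φ i * ψ j * C i j := by
    rw [← sum_ind hI]
    refine Finset.sum_congr rfl fun i _ => ?_
    split_ifs
    · rw [← sum_ind hI']
      refine Finset.sum_congr rfl fun j _ => ?_
      split_ifs <;> simp
    · simp
  have e2 : ∀ (I : Finset ℕ) (u A : ℕ → ℝ), I ⊆ S →
      ∑ i ∈ S, (if i ∈ I then u i else 0) ^ 2 * A i = ∑ i ∈ I, u i ^ 2 * A i := by
    intro I u A hA
    rw [← sum_ind hA]
    refine Finset.sum_congr rfl fun i _ => ?_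
    split_ifs <;> simp
  rwa [e1, e2 I φ A hI, e2 I' ψ A' hI'] at h1

theorem Cr.mono {C A A' S} (h : Cr C A A' S) {T : Finset ℕ} (hT : T ⊆ S) : Cr C A A' T :=
  ⟨fun i hi => h.nn i (hT hi), fun i hi => h.nn' i (hT hi), fun φ ψ => h.rect hT hT φ ψ⟩

/-- Cauchy-Schwarz for a symmetric positive bilinear form -/
theorem ip_cs {V : Type*} [AddCommGroup V] [Module ℝ V] (ip : LinearMap.BilinForm ℝ V)
    (sym : ∀ u v, ip u v = ip v u) (pos : ∀ u, 0 ≤ ip u u) (u v : V) {a b : ℝ}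
    (ha : ip u u ≤ a) (hb : ip v v ≤ b) : |ip u v| ≤ √a * √b := by
  refine le_sqrt_of_forall ((pos u).trans ha) ((pos v).trans hb) fun t ht => ?_
  have h1 := pos (t • u + v)
  have h2 := pos (t • u - v)
  simp only [map_add, map_sub, map_smul, LinearMap.add_apply, LinearMap.sub_apply,
    LinearMap.smul_apply, smul_eq_mul, sym v u] at h1 h2
  have e1 : (t * a + b / t) / 2 = (t ^ 2 * a + b) / (2 * t) := by field_simp
  have h3 := mul_le_mul_of_nonneg_left ha (sq_nonneg t)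
  rw [e1, abs_le]
  constructor
  · rw [← neg_div, div_le_iff₀ (by positivity)]; nlinarith
  · rw [le_div_iff₀ (by positivity)]; nlinarith

theorem ip_sum {V : Type*} [AddCommGroup V] [Module ℝ V] (ip : LinearMap.BilinForm ℝ V)
    (I I' : Finset ℕ) (φ ψ : ℕ → ℝ) (u u' : ℕ → V) :
    ip (∑ i ∈ I, φ i • u i) (∑ j ∈ I', ψ j • u' j) =
      ∑ i ∈ I, ∑ j ∈ I', φ i * ψ j * ip (u i) (u' j) := by
  simp only [map_sum, map_smul, LinearMap.sum_apply, LinearMap.smul_apply, smul_eq_mul,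
    Finset.mul_sum]
  rw [Finset.sum_comm]
  refine Finset.sum_congr rfl fun i _ => Finset.sum_congr rfl fun j _ => by ring

/-- two families of vectors with additive variances -/
theorem Cr.of_ip {V : Type*} [AddCommGroup V] [Module ℝ V] (ip : LinearMap.BilinForm ℝ V)
    (sym : ∀ u v, ip u v = ip v u) (pos : ∀ u, 0 ≤ ip u u) (u u' : ℕ → V) {A A' : ℕ → ℝ}
    {S : Finset ℕ} (hA : ∀ i ∈ S, 0 ≤ A i) (hA' : ∀ i ∈ S, 0 ≤ A' i)
    (h : ∀ φ : ℕ → ℝ, ip (∑ i ∈ S, φ i • u i) (∑ i ∈ S, φ i • u i) ≤ ∑ i ∈ S, φ i ^ 2 * A i)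
    (h' : ∀ φ : ℕ → ℝ, ip (∑ i ∈ S, φ i • u' i) (∑ i ∈ S, φ i • u' i) ≤ ∑ i ∈ S, φ i ^ 2 * A' i) :
    Cr (fun i j => ip (u i) (u' j)) A A' S :=
  ⟨hA, hA', fun φ ψ => by rw [← ip_sum]; exact ip_cs ip sym pos _ _ (h φ) (h' ψ)⟩

theorem sqrt_coef {I : Finset ℕ} {A φ r : ℕ → ℝ} {s : ℝ} (hs : 0 ≤ s) (hA : ∀ i ∈ I, 0 ≤ A i)
    (h : ∀ i ∈ I, |φ i| ≤ r i * s) :
    √(∑ i ∈ I, φ i ^ 2 * A i) ≤ s * √(∑ i ∈ I, r i ^ 2 * A i) := by
  rw [← Real.sqrt_sq hs, ← Real.sqrt_mul (sq_nonneg s), Finset.mul_sum]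
  refine Real.sqrt_le_sqrt (Finset.sum_le_sum fun i hi => ?_)
  have h1 : φ i ^ 2 ≤ (r i * s) ^ 2 := by
    rw [← sq_abs (φ i)]; exact pow_le_pow_left₀ (abs_nonneg _) (h i hi) 2
  have := mul_le_mul_of_nonneg_right h1 (hA i hi)
  linarith [show (r i * s) ^ 2 * A i = s ^ 2 * (r i ^ 2 * A i) by ring]

/-- **Abel summation in the second variable against tails** -/
theorem abel_tail {C κ : ℕ → ℕ → ℝ} {I : Finset ℕ} {A r s f : ℕ → ℝ} {m b : ℕ}
    (hA : ∀ i ∈ I, 0 ≤ A i) (hs : ∀ y ∈ Ico m (b - 1), 0 ≤ s y)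
    (hf : ∀ y, m ≤ y → 0 ≤ f y)
    (hC : ∀ (φ : ℕ → ℝ) (y : ℕ), m ≤ y → |∑ i ∈ I, φ i * ∑ j ∈ Ico y b, C i j| ≤
      √(∑ i ∈ I, φ i ^ 2 * A i) * f y)
    (h0 : ∀ i ∈ I, |κ i m| ≤ r i)
    (h1 : ∀ i ∈ I, ∀ y ∈ Ico m (b - 1), |κ i (y + 1) - κ i y| ≤ r i * s y) :
    |∑ i ∈ I, ∑ j ∈ Ico m b, κ i j * C i j| ≤
      √(∑ i ∈ I, r i ^ 2 * A i) * (f m + ∑ y ∈ Ico m (b - 1), s y * f (y + 1)) := by
  have e : ∑ i ∈ I, ∑ j ∈ Ico m b, κ i j * C i j = ∑ i ∈ I, κ i m * ∑ j ∈ Ico m b, C i j +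
      ∑ y ∈ Ico m (b - 1), ∑ i ∈ I, (κ i (y + 1) - κ i y) * ∑ j ∈ Ico (y + 1) b, C i j := by
    rw [Finset.sum_comm (s := Ico m (b - 1)), ← Finset.sum_add_distrib]
    exact Finset.sum_congr rfl fun i _ => abel_id' (κ i) (C i) m b
  rw [e, mul_add, Finset.mul_sum]
  refine (abs_add_le _ _).trans (add_le_add ?_ ((Finset.abs_sum_le_sum_abs _ _).trans
    (Finset.sum_le_sum fun y hy => ?_)))
  · refine (hC _ m le_rfl).trans (mul_le_mul_of_nonneg_right ?_ (hf m le_rfl))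
    have := sqrt_coef (s := 1) (r := r) zero_le_one hA (fun i hi => by simpa using h0 i hi)
    simpa using this
  · have hy' : m ≤ y + 1 := by have := (mem_Ico.1 hy).1; omega
    refine (hC _ (y + 1) hy').trans ?_
    have := mul_le_mul_of_nonneg_right
      (sqrt_coef (hs y hy) hA (fun i hi => h1 i hi y hy)) (hf _ hy')
    linarith [show s y * √(∑ i ∈ I, r i ^ 2 * A i) * f (y + 1) =
      √(∑ i ∈ I, r i ^ 2 * A i) * (s y * f (y + 1)) by ring]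

/-- one rectangle, coefficient Lipschitz in the second variable, any factor `ρ` -/
theorem Cr.rect_lip {C A A' S} (h : Cr C A A' S) {κ : ℕ → ℕ → ℝ} {I : Finset ℕ} {r s : ℕ → ℝ}
    (ρ : ℕ → ℝ) {m b : ℕ} (hI : I ⊆ S) (hI' : Ico m b ⊆ S) (hs : ∀ y ∈ Ico m (b - 1), 0 ≤ s y)
    (h0 : ∀ i ∈ I, |κ i m| ≤ r i)
    (h1 : ∀ i ∈ I, ∀ y ∈ Ico m (b - 1), |κ i (y + 1) - κ i y| ≤ r i * s y) :
    |∑ i ∈ I, ∑ j ∈ Ico m b, κ i j * (ρ j * C i j)| ≤
      (1 + ∑ y ∈ Ico m (b - 1), s y) *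
        (√(∑ i ∈ I, r i ^ 2 * A i) * √(∑ j ∈ Ico m b, ρ j ^ 2 * A' j)) := by
  have := abel_tail (C := fun i j => ρ j * C i j) (κ := κ) (I := I) (A := A) (r := r) (s := s)
    (f := fun _ => √(∑ j ∈ Ico m b, ρ j ^ 2 * A' j)) (m := m) (b := b)
    (fun i hi => h.nn i (hI hi)) hs (fun _ _ => Real.sqrt_nonneg _) (fun φ y hy => by
      have s1 : Ico y b ⊆ Ico m b := Finset.Ico_subset_Ico hy le_rfl
      have h2 := h.rect hI (s1.trans hI') φ ρ
      have e : ∑ i ∈ I, φ i * ∑ j ∈ Ico y b, ρ j * C i j =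
          ∑ i ∈ I, ∑ j ∈ Ico y b, φ i * ρ j * C i j := by
        simp only [Finset.mul_sum, mul_assoc]
      rw [e]
      refine h2.trans (mul_le_mul_of_nonneg_left (Real.sqrt_le_sqrt
        (Finset.sum_le_sum_of_subset_of_nonneg s1 fun j hj _ =>
          mul_nonneg (sq_nonneg _) (h.nn' j (hI' hj)))) (Real.sqrt_nonneg _))) h0 h1
  refine this.trans (le_of_eq ?_)
  rw [← Finset.sum_mul]
  ring

/-- **dyadic decomposition of the triangle** -/
theorem dyad {f : ℕ → ℕ → ℝ} {α γ : ℕ → ℝ} {a₀ b₀ : ℕ} (hα : ∀ i ∈ Ico a₀ b₀, 0 ≤ α i)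
    (hγ : ∀ i ∈ Ico a₀ b₀, 0 ≤ γ i)
    (H : ∀ a m b, a₀ ≤ a → a < m → m < b → b ≤ b₀ →
      |∑ i ∈ Ico a m, ∑ j ∈ Ico m b, f i j| ≤ ∑ i ∈ Ico a m, α i + ∑ j ∈ Ico m b, γ j) (k : ℕ) :
    ∀ a b : ℕ, b - a ≤ 2 ^ k → a₀ ≤ a → b ≤ b₀ →
      |∑ j ∈ Ico a b, ∑ i ∈ Ico a j, f i j| ≤ k * (∑ i ∈ Ico a b, α i + ∑ j ∈ Ico a b, γ j) := by
  induction k with
  | zero =>
    intro a b hab _ _
    have : ∑ j ∈ Ico a b, ∑ i ∈ Ico a j, f i j = 0 := by
      refine Finset.sum_eq_zero fun j hj => ?_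
      have := mem_Ico.1 hj
      rw [Finset.Ico_eq_empty (by simp at hab ⊢; omega)]; simp
    rw [this]; simp
  | succ k ih =>
    intro a b hab ha hb
    have nn : ∀ (w : ℕ → ℝ) (c d : ℕ), (∀ i ∈ Ico a₀ b₀, 0 ≤ w i) → a₀ ≤ c → d ≤ b₀ →
        0 ≤ ∑ i ∈ Ico c d, w i := fun w c d hw hc hd =>
      Finset.sum_nonneg fun i hi => hw i (Finset.Ico_subset_Ico hc hd hi)
    by_cases hb' : b - a ≤ 2 ^ k
    · refine (ih a b hb' ha hb).trans (mul_le_mul_of_nonneg_right (by push_cast; linarith) ?_)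
      have := nn α a b hα ha hb
      have := nn γ a b hγ ha hb
      positivity
    · have hp : 0 < 2 ^ k := by positivity
      have hm1 : a ≤ a + 2 ^ k := Nat.le_add_right _ _
      have hm2 : a + 2 ^ k ≤ b := by omega
      have i1 := ih a (a + 2 ^ k) (by omega) ha (by omega)
      have i2 := ih (a + 2 ^ k) b (by rw [pow_succ] at hab; omega) (by omega) hb
      have i3 := H a (a + 2 ^ k) b ha (by omega) (by omega) hb
      rw [tri_split _ hm1 hm2, ← Finset.sum_Ico_consecutive α hm1 hm2,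
        ← Finset.sum_Ico_consecutive γ hm1 hm2]
      have p1 := nn α (a + 2 ^ k) b hα (by omega) hb
      have p2 := nn γ a (a + 2 ^ k) hγ ha (by omega)
      refine (abs_add_le _ _).trans ?_
      refine (add_le_add (abs_add_le _ _) le_rfl).trans ?_
      push_cast
      linarith

/-- **triangular truncation**: `κ i j` (`i < j`) of size `r i`, Lipschitz in `j`; any factor `ρ j`;
any nondecreasing weight `l > 0` -/
theorem Cr.tri {C A A' S} (h : Cr C A A' S) {κ : ℕ → ℕ → ℝ} {r s l : ℕ → ℝ} (ρ : ℕ → ℝ)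
    {a b k : ℕ} {V : ℝ} (hk : b - a ≤ 2 ^ k) (hS : Ico a b ⊆ S) (hs : ∀ y ∈ Ico a (b - 1), 0 ≤ s y)
    (hV : ∑ y ∈ Ico a (b - 1), s y ≤ V) (hl : ∀ i, 0 < l i) (hm : Monotone l)
    (h0 : ∀ i j, a ≤ i → i < j → j < b → |κ i j| ≤ r i)
    (h1 : ∀ i y, a ≤ i → i < y → y + 1 < b → |κ i (y + 1) - κ i y| ≤ r i * s y) :
    |∑ j ∈ Ico a b, ∑ i ∈ Ico a j, κ i j * (ρ j * C i j)| ≤
      k * ((1 + V) / 2 * ∑ i ∈ Ico a b, (r i ^ 2 * A i / l i + l i * (ρ i ^ 2 * A' i))) := by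
  have hV0 : 0 ≤ V := (Finset.sum_nonneg hs).trans hV
  have key := dyad (f := fun i j => κ i j * (ρ j * C i j))
    (α := fun i => (1 + V) / 2 * (r i ^ 2 * A i / l i))
    (γ := fun i => (1 + V) / 2 * (l i * (ρ i ^ 2 * A' i))) (a₀ := a) (b₀ := b)
    (fun i hi => by have := h.nn i (hS hi); have := hl i; positivity)
    (fun i hi => by have := h.nn' i (hS hi); have := hl i; positivity)
    (fun c m d hc hcm hmd hd => by
      have s1 : Ico c m ⊆ S := (Finset.Ico_subset_Ico hc (by omega)).trans hS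
      have s2 : Ico m d ⊆ S := (Finset.Ico_subset_Ico (by omega) hd).trans hS
      have s3 : Ico m (d - 1) ⊆ Ico a (b - 1) := Finset.Ico_subset_Ico (by omega) (by omega)
      have h2 := h.rect_lip (κ := κ) (r := r) (s := s) ρ s1 s2 (fun y hy => hs y (s3 hy))
        (fun i hi => h0 i m (by have := mem_Ico.1 hi; omega) (mem_Ico.1 hi).2 (by omega))
        (fun i hi y hy => h1 i y (by have := mem_Ico.1 hi; omega)
          (by have := mem_Ico.1 hi; have := mem_Ico.1 hy; omega)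
          (by have := mem_Ico.1 hy; omega))
      refine h2.trans ?_
      have hsV : ∑ y ∈ Ico m (d - 1), s y ≤ V :=
        (Finset.sum_le_sum_of_subset_of_nonneg s3 fun y hy _ => hs y hy).trans hV
      have hP : 0 ≤ ∑ i ∈ Ico c m, r i ^ 2 * A i :=
        Finset.sum_nonneg fun i hi => mul_nonneg (sq_nonneg _) (h.nn i (s1 hi))
      have hQ : 0 ≤ ∑ j ∈ Ico m d, ρ j ^ 2 * A' j :=
        Finset.sum_nonneg fun i hi => mul_nonneg (sq_nonneg _) (h.nn' i (s2 hi))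
      have hP' : (∑ i ∈ Ico c m, r i ^ 2 * A i) / l m ≤ ∑ i ∈ Ico c m, r i ^ 2 * A i / l i := by
        rw [Finset.sum_div]
        exact Finset.sum_le_sum fun i hi => div_le_div_of_nonneg_left
          (mul_nonneg (sq_nonneg _) (h.nn i (s1 hi))) (hl i) (hm (mem_Ico.1 hi).2.le)
      have hQ' : l m * ∑ j ∈ Ico m d, ρ j ^ 2 * A' j ≤ ∑ j ∈ Ico m d, l j * (ρ j ^ 2 * A' j) := by
        rw [Finset.mul_sum]
        exact Finset.sum_le_sum fun i hi => mul_le_mul_of_nonneg_right (hm (mem_Ico.1 hi).1)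
          (mul_nonneg (sq_nonneg _) (h.nn' i (s2 hi)))
      rw [← Finset.mul_sum, ← Finset.mul_sum, ← mul_add]
      generalize ∑ i ∈ Ico c m, r i ^ 2 * A i = P at *
      generalize ∑ j ∈ Ico m d, ρ j ^ 2 * A' j = Q at *
      have hL := hl m
      have am : √P * √Q ≤ (P / l m + l m * Q) / 2 := by
        have e1 : (P / l m + l m * Q) / 2 = (P + l m ^ 2 * Q) / (2 * l m) := by field_simp
        rw [e1, le_div_iff₀ (by positivity)]
        nlinarith [sq_nonneg (√P - l m * √Q), Real.sq_sqrt hP, Real.sq_sqrt hQ]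
      have h3 : 0 ≤ √P * √Q := by positivity
      nlinarith [mul_le_mul_of_nonneg_right (show 1 + ∑ y ∈ Ico m (d - 1), s y ≤ 1 + V by linarith) h3,
        mul_le_mul_of_nonneg_left am (show 0 ≤ 1 + V by linarith),
        mul_le_mul_of_nonneg_left (add_le_add hP' hQ') (show 0 ≤ 1 + V by linarith)])
    k a b hk le_rfl le_rfl
  refine key.trans (le_of_eq ?_)
  rw [← Finset.mul_sum, ← Finset.mul_sum, ← mul_add, Finset.sum_add_distrib]

/-- the same without a weight -/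
theorem Cr.tri_sqrt {C A A' S} (h : Cr C A A' S) {κ : ℕ → ℕ → ℝ} {r s : ℕ → ℝ} (ρ : ℕ → ℝ)
    {a b k : ℕ} {V : ℝ} (hk : b - a ≤ 2 ^ k) (hS : Ico a b ⊆ S) (hs : ∀ y ∈ Ico a (b - 1), 0 ≤ s y)
    (hV : ∑ y ∈ Ico a (b - 1), s y ≤ V)
    (h0 : ∀ i j, a ≤ i → i < j → j < b → |κ i j| ≤ r i)
    (h1 : ∀ i y, a ≤ i → i < y → y + 1 < b → |κ i (y + 1) - κ i y| ≤ r i * s y) :
    |∑ j ∈ Ico a b, ∑ i ∈ Ico a j, κ i j * (ρ j * C i j)| ≤
      k * (1 + V) * (√(∑ i ∈ Ico a b, r i ^ 2 * A i) * √(∑ j ∈ Ico a b, ρ j ^ 2 * A' j)) := by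
  have hV0 : 0 ≤ V := (Finset.sum_nonneg hs).trans hV
  have hP : 0 ≤ ∑ i ∈ Ico a b, r i ^ 2 * A i :=
    Finset.sum_nonneg fun i hi => mul_nonneg (sq_nonneg _) (h.nn i (hS hi))
  have hQ : 0 ≤ ∑ j ∈ Ico a b, ρ j ^ 2 * A' j :=
    Finset.sum_nonneg fun i hi => mul_nonneg (sq_nonneg _) (h.nn' i (hS hi))
  rcases Nat.eq_zero_or_pos k with rfl | hk0
  · have := h.tri (l := fun _ => 1) ρ hk hS hs hV (fun _ => one_pos) monotone_const h0 h1
    simpa using this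
  have hc : (0 : ℝ) < k * (1 + V) := by positivity
  rw [mul_comm, ← div_le_iff₀ hc]
  refine le_sqrt_of_forall hP hQ fun t ht => ?_
  have := h.tri (l := fun _ => 1 / t) ρ hk hS hs hV (fun _ => by positivity) monotone_const h0 h1
  rw [div_le_iff₀ hc]
  refine this.trans (le_of_eq ?_)
  rw [Finset.sum_add_distrib, ← Finset.sum_div, ← Finset.mul_sum]
  field_simp

/-- the number of scales -/
theorem exists_k (N : ℕ) : ∃ k : ℕ, N ≤ 2 ^ k ∧ (k : ℝ) ≤ 3 * Real.log (N + 2) := by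
  refine ⟨Nat.log 2 N + 1, (Nat.lt_pow_succ_log_self (by norm_num) N).le, ?_⟩
  have h2 : (1 / 2 : ℝ) < Real.log 2 := by
    have := Real.log_two_gt_d9; linarith
  have hN : Real.log 2 ≤ Real.log (N + 2) :=
    Real.log_le_log (by norm_num) (by have : (0 : ℝ) ≤ N := Nat.cast_nonneg _; linarith)
  rcases Nat.eq_zero_or_pos N with rfl | hN0
  · simp; linarith
  have h1 : (2 : ℝ) ^ Nat.log 2 N ≤ N := by exact_mod_cast Nat.pow_log_le_self 2 hN0.ne'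
  have h3 : (Nat.log 2 N : ℝ) * Real.log 2 ≤ Real.log (N + 2) := by
    rw [← Real.log_pow]
    exact Real.log_le_log (by positivity) (by linarith)
  have h4 := Real.log_two_gt_d9
  have h5 : (0 : ℝ) ≤ Nat.log 2 N := Nat.cast_nonneg _
  push_cast
  nlinarith

end Crest.Agent.T156.Cas.Tri18
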