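import Crest.Agent.T156.ClMid2_36

/-!
# Row 156, text (L) (helper6): the distance of the last sloped node to the corner point
-/

set_option autoImplicit false

noncomputable section

namespace Crest.Agent.T156.Alt.Mp9.At

open MeasureTheory Set Real
open Crest.Agent.R164.GC Crest.Agent.R339.B Crest.Agent.R339.Var Crest.Agent.T157.Pf
open Crest.Agent.T156.Spl27 Crest.Agent.T156.Zb9 Crest.Agent.T156.Pr.Mid8
open Crest.Agent.T156.Cut8

variable {S : Sc} {M : Md} {m : ℕ} {a T : ℝ}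

theorem ld6 (A : At S M m a T) : LB T fun t => lvr 1 (lb M S m a T) t - lvr 1 (lh M T) t :=
  (LB.of_mono (Sc48.lvr_mono A.okb.1.1)).sub (LB.of_mono (Sc48.lvr_mono A.okh.1.1))

theorem ff0_6 (l l' : List (ℝ × ℝ)) (σ t : ℝ) : 0 ≤ Mid.ff l l' σ t := by
  unfold Mid.ff; split_ifs <;> positivity

theorem lw6 (A : At S M m a T) (σ : ℝ) :
    LB T fun t => |t - σ| * Mid.ff (lb M S m a T) (lh M T) σ t :=
  (LB.of_cont (f := fun t => |t - σ|) (by fun_prop)).mul
    (Pr.Reg48.LB_ite (Pr.Reg48.LB_max A.ld6) A.ld6.abs)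

/-- before the time of the node `k` the mean profile is below the label of `k` -/
theorem zb_lt6 (A : At S M m a T) {k : ℕ} {t : ℝ} (h0 : 0 ≤ t) (h : t < sb M m a (k + 1)) :
    lvr 1 (lb M S m a T) t ≤ M.z k := by
  obtain ⟨i, c⟩ := exists_Cell A.ub t
  rw [A.lvb h0, c.stp A.ub]
  exact A.xb_mono (c.lt A.ub (Nat.succ_pos k) h).le

/-- a window inside `[y, Q]` on which the weight is large -/
theorem win6 (A : At S M m a T) {y p q Q W c σ : ℝ} (y0 : 0 ≤ y) (h1 : y ≤ p) (h2 : p ≤ q)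
    (h3 : q ≤ Q) (h4 : Q ≤ T)
    (hW : ∫ t in y..Q, |t - σ| * Mid.ff (lb M S m a T) (lh M T) σ t ≤ W)
    (h : ∀ t, p < t → t < q → c ≤ |t - σ| * Mid.ff (lb M S m a T) (lh M T) σ t) :
    (q - p) * c ≤ W := by
  have a1 := int_sub_le (A.lw6 σ) y0 h1 h2 h3 h4 fun t _ _ =>
    mul_nonneg (abs_nonneg _) (ff0_6 _ _ _ _)
  have a2 := int_mono (LB.const c) (A.lw6 σ) (y0.trans h1) h2 (h3.trans h4) h
  rw [intervalIntegral.integral_const, smul_eq_mul] at a2
  linarith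

/-- the pieces of `sb J - y` -/
theorem dq_split (A : At S M m a T) {y τ γ : ℝ} (y0 : 0 ≤ y) (y1 : y ≤ M.s S.J)
    (y2 : y ≤ sb M m a S.J) (hτ : 2 * (S.C * S.v) ≤ τ) (hγ : M.s S.Jp - M.s S.J ≤ γ)
    (hz : ∀ t, y ≤ t → t < M.s S.J → M.z (S.J - 1) - τ ≤ lvr 1 (lb M S m a T) t) :
    ∃ l1 l2, 0 ≤ l1 ∧ 0 ≤ l2 ∧ l2 ≤ T ∧ sb M m a S.J - y ≤ l1 + γ + l2 ∧ y + l1 ≤ sb M m a S.J ∧
      (l1 ≤ 8 * S.C * τ ∨ ∀ t, y < t → t < y + l1 / 2 → l1 / 2 ≤ M.s S.Jp - t ∧
        l1 / (4 * S.C) ≤ lvr 1 (lb M S m a T) t - lvr 1 (lh M T) t) ∧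
      (l2 = 0 ∨ (M.s S.Jp + l2 = sb M m a S.J ∧ ∀ t, M.s S.Jp < t → t < M.s S.Jp + l2 →
        lvr 1 (lb M S m a T) t - lvr 1 (lh M T) t ≤ -(1 / S.C))) := by
  have c0 := A.c_pos
  have sJ : M.s S.J ≤ M.s S.Jp := A.cl.sm A.cl.i3
  have s0 := s_nn A.cl S.Jp
  have eJ := A.J_pred.2.2
  have bT : sb M m a S.J ≤ T := by
    have := (A.sb_mem (k := S.J - 1) (by have := A.cl.i3; omega)).2
    rwa [eJ] at this
  have m1 := min_le_left (sb M m a S.J) (M.s S.J)
  have m2 := min_le_right (sb M m a S.J) (M.s S.J)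
  refine ⟨min (sb M m a S.J) (M.s S.J) - y, max (sb M m a S.J - M.s S.Jp) 0,
    sub_nonneg.2 (le_min y2 y1), le_max_right _ _, max_le (by linarith) (s0.trans A.t2), ?_,
    by linarith, ?_, ?_⟩
  · have m3 := le_max_left (sb M m a S.J - M.s S.Jp) 0
    have m4 := le_max_right (sb M m a S.J - M.s S.Jp) 0
    rcases le_total (sb M m a S.J) (M.s S.J) with c | c
    · rw [min_eq_left c]; linarith
    · rw [min_eq_right c]; linarith
  · generalize hl : min (sb M m a S.J) (M.s S.J) - y = l at *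
    refine (le_total l (8 * S.C * τ)).imp_right fun c t t0 t1 => ⟨by linarith, ?_⟩
    have k1 := A.slope36 (s := t) (by linarith) (by linarith)
    have k2 := hz t t0.le (by linarith)
    have k3 : l / (4 * S.C) + 2 * τ ≤ 1 / S.C * (M.s S.J - t) := by
      rw [one_div_mul_eq_div, le_div_iff₀ c0]
      have : l / (4 * S.C) * S.C = l / 4 := by field_simp
      linarith
    linarith
  · rcases le_total (sb M m a S.J - M.s S.Jp) 0 with c | c
    · exact .inl (max_eq_right c)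
    · rw [max_eq_left c]
      refine .inr ⟨by ring, fun t t0 t1 => ?_⟩
      have k1 := A.zb_lt6 (k := S.J - 1) (t := t) (by linarith) (by rw [eJ]; linarith)
      rw [A.lvh' (by linarith), A.cl.lv1 t t0.le]
      linarith [A.cl.atom.2]

theorem three3 {x y z : ℝ} (hx : 0 ≤ x) (hy : 0 ≤ y) (hz : 0 ≤ z) (n : ℕ) :
    (x + y + z) ^ n ≤ 3 ^ n * (x ^ n + y ^ n + z ^ n) := by
  have key : ∀ w, 0 ≤ w → x ≤ w → y ≤ w → z ≤ w → (x + y + z) ^ n ≤ 3 ^ n * w ^ n :=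
    fun w _ a b c => by
      rw [← mul_pow]; exact pow_le_pow_left₀ (by positivity) (by linarith) n
  have p1 := pow_nonneg hx n
  have p2 := pow_nonneg hy n
  have p3 := pow_nonneg hz n
  have p : (0 : ℝ) ≤ 3 ^ n := by positivity
  rcases le_total x y with a | a <;> rcases le_total y z with b | b <;>
    rcases le_total x z with c | c
  all_goals first
    | exact (key x hx le_rfl (by linarith) (by linarith)).trans
        (mul_le_mul_of_nonneg_left (by linarith) p)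
    | exact (key y hy (by linarith) le_rfl (by linarith)).trans
        (mul_le_mul_of_nonneg_left (by linarith) p)
    | exact (key z hz (by linarith) (by linarith) le_rfl).trans
        (mul_le_mul_of_nonneg_left (by linarith) p)

/-- **cubic bound of `sb J - y` from the gain** -/
theorem dq3 (A : At S M m a T) (hT : T ≤ 2 * S.C) {y τ γ Q W : ℝ} (y0 : 0 ≤ y)
    (y1 : y ≤ M.s S.J) (y2 : y ≤ sb M m a S.J) (hτ : 2 * (S.C * S.v) ≤ τ)
    (hγ : M.s S.Jp - M.s S.J ≤ γ)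
    (hz : ∀ t, y ≤ t → t < M.s S.J → M.z (S.J - 1) - τ ≤ lvr 1 (lb M S m a T) t)
    (hQ : sb M m a S.J ≤ Q) (hQT : Q ≤ T)
    (hW : ∫ t in y..Q, |t - M.s S.Jp| * Mid.ff (lb M S m a T) (lh M T) (M.s S.Jp) t ≤ W) :
    (sb M m a S.J - y) ^ 3 ≤ 14000 * S.C ^ 3 * (W + τ ^ 3 + γ ^ 3) := by
  obtain ⟨l1, l2, p1, p2, p3, hD, p4, h1, h2⟩ := A.dq_split y0 y1 y2 hτ hγ hz
  have c0 := A.c_pos
  have c1 := A.cl.C1
  have v0 := v_pos A.cl
  have τ0 : 0 ≤ τ := le_trans (by positivity) hτ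
  have sJ : M.s S.J ≤ M.s S.Jp := A.cl.sm A.cl.i3
  have γ0 : 0 ≤ γ := by linarith
  have W0 : 0 ≤ W := by
    simpa using A.win6 (c := 0) y0 le_rfl le_rfl (y2.trans hQ) hQT hW
      (fun t a b => absurd (a.trans b) (lt_irrefl _))
  have q3 : 1 ≤ S.C ^ 3 := one_le_pow₀ c1
  have q1 : S.C ≤ S.C ^ 3 := le_self_pow₀ c1 (by norm_num)
  have q2 : S.C ^ 2 ≤ S.C ^ 3 := pow_le_pow_right₀ c1 (by norm_num)
  have t3 := pow_nonneg τ0 3
  have g3 := pow_nonneg γ0 3
  have w1 := mul_le_mul_of_nonneg_right q1 W0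
  have w2 := mul_le_mul_of_nonneg_right q2 W0
  have w3 := mul_le_mul_of_nonneg_right q3 g3
  have w4 : 0 ≤ S.C ^ 3 * τ ^ 3 := by positivity
  have w5 : 0 ≤ S.C * W := by positivity
  have a1 : l1 ^ 3 ≤ 16 * (S.C * W) + 512 * (S.C ^ 3 * τ ^ 3) := by
    rcases h1 with h | h
    · have := pow_le_pow_left₀ p1 h 3
      linarith
    · have := A.win6 (c := l1 / 2 * (l1 / (4 * S.C))) y0 le_rfl (show y ≤ y + l1 / 2 by linarith)
        (by linarith) hQT hW fun t t0 t1 => by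
          obtain ⟨k1, k2⟩ := h t t0 t1
          refine mul_le_mul (k1.trans (by rw [abs_sub_comm]; exact le_abs_self _)) ?_
            (by positivity) (abs_nonneg _)
          unfold Mid.ff
          split_ifs
          · exact k2.trans (le_max_left _ _)
          · exact k2.trans (le_abs_self _)
      have e : (y + l1 / 2 - y) * (l1 / 2 * (l1 / (4 * S.C))) * S.C = l1 ^ 3 / 16 := by
        field_simp; ring
      have := mul_le_mul_of_nonneg_right this c0.le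
      linarith
  have a2 : l2 ^ 3 ≤ 8 * (S.C ^ 2 * W) := by
    rcases h2 with h | ⟨e, h⟩
    · have : 0 ≤ S.C ^ 2 * W := by positivity
      rw [h]; linarith
    · have := A.win6 (c := l2 / 2 * (1 / S.C)) (p := M.s S.Jp + l2 / 2) (q := M.s S.Jp + l2) y0
        (by linarith) (by linarith) (by linarith) hQT hW fun t t0 t1 => by
          refine mul_le_mul (le_trans (by linarith) (le_abs_self _)) ?_
            (by positivity) (abs_nonneg _)
          unfold Mid.ff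
          rw [if_neg (by linarith)]
          exact le_trans (by linarith [h t (by linarith) t1]) (neg_le_abs _)
      have e : (M.s S.Jp + l2 - (M.s S.Jp + l2 / 2)) * (l2 / 2 * (1 / S.C)) * S.C = l2 ^ 2 / 4 := by
        field_simp; ring
      have k := mul_le_mul_of_nonneg_right this c0.le
      have k2 : l2 ^ 2 * l2 ≤ 4 * (W * S.C) * (2 * S.C) :=
        mul_le_mul (by linarith) (p3.trans hT) p2 (by positivity)
      linarith
  have b := (pow_le_pow_left₀ (sub_nonneg.2 y2) hD 3).trans (three3 p1 γ0 p2 3)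
  have w6 : 0 ≤ S.C ^ 3 * W := by positivity
  linarith

/-- **quintic bound of `sb J - y` from the energy** -/
theorem dq5 (A : At S M m a T) (hT : T ≤ 2 * S.C) {y τ γ A0 E : ℝ} (h0 : 0 ≤ A0) (y0 : A0 ≤ y)
    (y1 : y ≤ M.s S.J) (y2 : y ≤ sb M m a S.J) (hτ : 2 * (S.C * S.v) ≤ τ)
    (hγ : M.s S.Jp - M.s S.J ≤ γ)
    (hz : ∀ t, y ≤ t → t < M.s S.J → M.z (S.J - 1) - τ ≤ lvr 1 (lb M S m a T) t)
    (hE : ∫ t in A0..T, Jf T (lvr 1 (lh M T)) (lvr 1 (lb M S m a T)) t ^ 2 ≤ E) :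
    (sb M m a S.J - y) ^ 5 ≤ 8000000 * S.C ^ 5 * (E + τ ^ 5 + γ ^ 5) := by
  obtain ⟨l1, l2, p1, p2, p3, hD, p4, h1, h2⟩ := A.dq_split (h0.trans y0) y1 y2 hτ hγ hz
  have c0 := A.c_pos
  have c1 := A.cl.C1
  have v0 := v_pos A.cl
  have τ0 : 0 ≤ τ := le_trans (by positivity) hτ
  have sJ : M.s S.J ≤ M.s S.Jp := A.cl.sm A.cl.i3
  have γ0 : 0 ≤ γ := by linarith
  have bT : sb M m a S.J ≤ T := by
    have := (A.sb_mem (k := S.J - 1) (by have := A.cl.i3; omega)).2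
    rwa [A.J_pred.2.2] at this
  have T0 : 0 ≤ T := by linarith
  have lJ := (LB.of_cont (Lab36.jf_cont A.ld6 T0)).sq
  have sub : ∀ p q, A0 ≤ p → p ≤ q → q ≤ T →
      ∫ t in p..q, Jf T (lvr 1 (lh M T)) (lvr 1 (lb M S m a T)) t ^ 2 ≤ E := fun p q a b c =>
    (int_sub_le lJ h0 a b c le_rfl fun _ _ _ => sq_nonneg _).trans hE
  have E0 : 0 ≤ E := by simpa using sub y y y0 le_rfl (by linarith)
  have q5 : 1 ≤ S.C ^ 5 := one_le_pow₀ c1
  have q2 : S.C ^ 2 ≤ S.C ^ 5 := pow_le_pow_right₀ c1 (by norm_num)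
  have q4 : S.C ^ 4 ≤ S.C ^ 5 := pow_le_pow_right₀ c1 (by norm_num)
  have t5 := pow_nonneg τ0 5
  have g5 := pow_nonneg γ0 5
  have w1 := mul_le_mul_of_nonneg_right q2 E0
  have w2 := mul_le_mul_of_nonneg_right q4 E0
  have w3 := mul_le_mul_of_nonneg_right q5 g5
  have w4 : 0 ≤ S.C ^ 5 * τ ^ 5 := by positivity
  have w5 : 0 ≤ S.C ^ 2 * E := by positivity
  have a1 : l1 ^ 5 ≤ 8192 * (S.C ^ 2 * E) + 32768 * (S.C ^ 5 * τ ^ 5) := by
    rcases h1 with h | h
    · have := pow_le_pow_left₀ p1 h 5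
      linarith
    · have := (Lab36.gap_pos A.ld6 (u := y) (ℓ := l1 / 2) (κ := l1 / (4 * S.C)) (h0.trans y0)
        (by positivity) (by linarith) (by positivity) fun t t0 t1 => (h t t0 t1).2).trans
        (sub _ _ y0 (by linarith) (by linarith))
      have e : (l1 / (4 * S.C)) ^ 2 * (l1 / 2) ^ 3 / 64 * S.C ^ 2 = l1 ^ 5 / 8192 := by
        field_simp; ring
      have := mul_le_mul_of_nonneg_right this (sq_nonneg S.C)
      linarith
  have a2 : l2 ^ 5 ≤ 256 * (S.C ^ 4 * E) := by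
    rcases h2 with h | ⟨e, h⟩
    · have : 0 ≤ S.C ^ 4 * E := by positivity
      rw [h]; linarith
    · have := (Lab36.gap_neg A.ld6 (u := M.s S.Jp) (ℓ := l2) (κ := 1 / S.C) (s_nn A.cl _) p2
        (by linarith) (by positivity) h).trans (sub _ _ (by linarith) (by linarith) (by linarith))
      have e : (1 / S.C) ^ 2 * l2 ^ 3 / 64 * S.C ^ 2 = l2 ^ 3 / 64 := by field_simp
      have k := mul_le_mul_of_nonneg_right this (sq_nonneg S.C)
      have k2 : l2 ^ 3 * l2 ^ 2 ≤ 64 * (E * S.C ^ 2) * (2 * S.C) ^ 2 :=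
        mul_le_mul (by linarith) (pow_le_pow_left₀ p2 (p3.trans hT) 2) (sq_nonneg _)
          (by positivity)
      linarith
  have b := (pow_le_pow_left₀ (sub_nonneg.2 y2) hD 5).trans (three3 p1 γ0 p2 5)
  have w6 : 0 ≤ S.C ^ 5 * E := by positivity
  linarith

/-- the label hypothesis at `y = min (sb (v + 1)) (s J)` -/
theorem hz6 (A : At S M m a T) {v : ℕ} {τ : ℝ} (hv : S.jl ≤ v) (hJ : v < S.J)
    (zv : M.z (S.J - 1) - τ ≤ M.z v) :
    0 ≤ min (sb M m a (v + 1)) (M.s S.J) ∧ min (sb M m a (v + 1)) (M.s S.J) ≤ M.s S.J ∧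
      min (sb M m a (v + 1)) (M.s S.J) ≤ sb M m a S.J ∧
      ∀ t, min (sb M m a (v + 1)) (M.s S.J) ≤ t → t < M.s S.J →
        M.z (S.J - 1) - τ ≤ lvr 1 (lb M S m a T) t := by
  have vp : v ≤ S.Jp := hJ.le.trans A.cl.i3
  refine ⟨le_min (A.sb_mem vp).1 (s_nn A.cl _), min_le_right _ _,
    (min_le_left _ _).trans (A.sb_mono hJ), fun t h1 h2 => zv.trans ?_⟩
  rw [← A.lvb_node hv vp]
  exact Sc48.lvr_mono A.okb.1.1 ((min_le_iff.1 h1).resolve_right (not_le.2 h2))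

end Crest.Agent.T156.Alt.Mp9.At

end
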