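import Crest.Agent.T156.TxJ_8
import Crest.Agent.T156.TxL_8
import Crest.Agent.T156.TxD_6

/-!
# Row 156, text (L) (helper8): zone I of (TxS), cost and gains
-/

set_option autoImplicit false

noncomputable section

namespace Crest.Agent.T156.Alt.Mp9

open MeasureTheory Set Real
open Crest.Agent.R164.GC Crest.Agent.R339.B Crest.Agent.R339.Var Crest.Agent.T157.Pf
open Crest.Agent.T156.Cut8 Crest.Agent.T156.Gap27 Crest.Agent.T156.Zb9 Crest.Agent.T156.Spl27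
open Crest.Agent.T156.Alt.C74 (JJ io)
open Crest.Agent.T156.Alt.L69 (GS)
open Crest.Agent.T156.Alt.X84 (Il Z1e rr)

variable {S : Sc} {M : Md} {m : ℕ} {a T : ℝ} {Gc : ℕ → Prop} {v v2 : ℕ}
  {y Dq ec la al w th κ0 tl : ℝ}

theorem At.gt_GS8 (A : At S M m a T) {s y t1 : ℝ} (h0 : M.s (S.jl + 1) ≤ s) (sy : s ≤ y)
    (y2 : y ≤ M.s S.J) (h1 : t1 + S.C * S.v ≤ s) :
    ∫ t in s..y, gt M S t ^ 2 ≤ S.C ^ 2 * GS M S t1 S.C := by
  have zm := A.cl.leg.zm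
  have nn : ∀ k, 0 ≤ L69.dx M k * M.G k ^ 2 := fun k =>
    mul_nonneg (sub_nonneg.2 (zm (Nat.sub_le k 1))) (sq_nonneg _)
  rcases sy.eq_or_lt with rfl | sy'
  · rw [intervalIntegral.integral_same]
    exact mul_nonneg (sq_nonneg _) (Finset.sum_nonneg fun k _ => nn k)
  obtain ⟨i, p1, p2, p3, p4⟩ := A.exists_ref h0 (sy'.trans_le y2)
  have q := (A.cl.ss i p2).2
  have sp : M.s S.J ≤ M.s S.Jp := A.cl.sm A.cl.i3
  refine (int_sub_le (LB_gt T M S).sq (s_nn A.cl i) p3 sy y2 (sp.trans A.t2)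
    fun _ _ _ => sq_nonneg _).trans ((A.int_gt (by have := A.cl.i1; omega) p2.le le_rfl).trans
      (mul_le_mul_of_nonneg_left ?_ (sq_nonneg _)))
  refine Finset.sum_le_sum_of_subset_of_nonneg (fun k hk => ?_) fun k _ _ => nn k
  rw [Finset.mem_Ico] at hk
  rw [Finset.mem_filter, Finset.mem_Ioo]
  exact ⟨⟨by omega, hk.2⟩, by linarith [A.cl.sm hk.1],
    ((A.cl.sm hk.2.le).trans sp).trans A.cl.sT⟩

theorem At.zh_top8 (A : At S M m a T) {t : ℝ} (h1 : M.s (S.J - 1) ≤ t) (h2 : t < M.s S.J) :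
    lvr 1 (lh M T) t = M.z (S.J - 1) := by
  rw [A.lvh' ((s_nn A.cl _).trans h1)]
  exact A.cl.lv _ A.J_pred.1 t h1 (by rw [A.J_pred.2.2]; exact h2)

theorem At.four8 (A : At S M m a T) {c B : ℝ} (F : Fr T c B (okT T) (lvr 1) Pr.Gam Pr.GG)
    (hT : T ≤ 2 * S.C) {A0 E : ℝ} (jv : S.jl ≤ v) (vJ : v < S.J) (s0 : 0 < sb M m a (v + 1))
    (sy : sb M m a (v + 1) ≤ y) (y1 : y ≤ sb M m a S.J) (y2 : y ≤ M.s S.J) (a0 : 0 ≤ A0)
    (loc : |sb M m a (v + 1) - M.s v| + 2 * S.v ≤ 2 * (sb M m a (v + 1) - A0))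
    (δ1 : S.C * S.v ≤ 1) (hE : ∫ t in A0..T, JJ M S m a T t ^ 2 ≤ E) (E0 : 0 ≤ E) :
    ∫ t in sb M m a (v + 1)..y, uu M S m a T t ^ 4 ≤
      (67 * S.C) ^ 2 * (E + 12 * S.C ^ 3 * (S.C * S.v)) := by
  have C0 := A.c_pos
  have C1 := A.cl.C1
  have v0 := v_pos A.cl
  have δ0 := mul_pos C0 v0
  rcases sy.eq_or_lt with rfl | sy'
  · rw [intervalIntegral.integral_same]; positivity
  set s := sb M m a (v + 1) with hs
  obtain ⟨p1, p2⟩ := A.s_pred
  have sJ : s < M.s S.J := sy'.trans_le y2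
  have JT := A.sJ_T
  have T0 := A.T_nn
  set b := max s (M.s (S.J - 1)) with hb
  have bJ : b < M.s S.J := max_lt sJ p1
  have mh := Sc48.lvr_mono A.okh.1.1
  have mb := Sc48.lvr_mono A.okb.1.1
  have sv : M.s v < M.s S.J := (s_lt A.cl vJ).trans_le (A.cl.sm vJ)
  have e1 := A.lvb_node jv (vJ.le.trans A.cl.i3)
  have e2 := A.lvh_node (A.cl.i1.trans jv) vJ
  have l0 := abs_nonneg (s - M.s v)
  have u0 : |lvr 1 (lb M S m a T) s - lvr 1 (lh M T) s| ≤ S.C * |s - M.s v| + S.C * S.v := by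
    rw [e1, ← e2]
    rcases le_total s (M.s v) with h | h
    · rw [abs_of_nonneg (sub_nonneg.2 (mh h)), abs_sub_comm, abs_of_nonneg (sub_nonneg.2 h)]
      exact (A.sl sv _ _ s0.le h le_rfl).2
    · rw [abs_sub_comm, abs_of_nonneg (sub_nonneg.2 (mh h)), abs_of_nonneg (sub_nonneg.2 h)]
      exact (A.sl sJ _ _ (s_nn A.cl _) h le_rfl).2
  have sx : s ≤ min y b := le_min sy (le_max_left _ _)
  have k := F.four_loc A.okb A.okh (a := A0) (x := s) (s := min y b) (b := b) (γ := s - A0)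
    (C1 := S.C) (δ := S.C * S.v) a0 (by linarith) (by linarith) sx (min_le_right _ _)
    (by linarith) C0 δ0 (fun p t h1 h2 h3 => (A.sl bJ p t (a0.trans h1) h2 h3).2)
    (by nlinarith [mul_le_mul_of_nonneg_left loc C0.le])
    (fun t ht => by
      rw [A.zh_top8 (le_max_right _ _) bJ]
      have := A.zb_lt6 (k := S.J - 1) (t := max t 0) (le_max_right _ _) (by
        rw [A.J_pred.2.2]
        exact max_lt ((ht.trans_le (min_le_left _ _)).trans_le y1) (by linarith))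
      linarith [mb (le_max_left t 0)])
  have lu : LB T (uu M S m a T) := A.LB_u
  have l4 : LB T fun t => uu M S m a T t ^ 4 := by simpa only [← pow_mul] using lu.sq.sq
  have k2 := int_le_const l4 (K := 1) (s0.le.trans sx) (min_le_left y b) (by linarith)
    fun t _ _ => by
      have q1 := Pp.Ode3.lvr_pos A.okb.1.1 t
      have q2 := Pp.Ode3.lvr_pos A.okh.1.1 t
      have q3 := Pp.Ode3.lvr_le_one A.okb.1.1 t
      have q4 := Pp.Ode3.lvr_le_one A.okh.1.1 t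
      have : |uu M S m a T t| ≤ 1 := by unfold uu; exact abs_le.2 ⟨by linarith, by linarith⟩
      have := pow_le_one₀ (abs_nonneg _) this (n := 4)
      rwa [show |uu M S m a T t| ^ 4 = uu M S m a T t ^ 4 from Even.pow_abs (by decide) _] at this
  have k3 : y - min y b ≤ S.C * S.v := by
    rcases le_total y b with h | h
    · rw [min_eq_left h]; linarith
    · rw [min_eq_right h]; linarith [le_max_right s (M.s (S.J - 1))]
  rw [int_split l4 ⟨s0.le, by linarith⟩ ⟨s0.le.trans sx, by linarith [min_le_left y b]⟩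
    ⟨by linarith, by linarith⟩]
  set δ := S.C * S.v
  have c3 : S.C ≤ S.C ^ 3 := le_self_pow₀ C1 (by norm_num)
  have r1 : δ ^ 2 * T ^ 3 ≤ δ * (2 * S.C) ^ 3 :=
    mul_le_mul (pow_le_of_le_one δ0.le δ1 two_ne_zero) (pow_le_pow_left₀ T0 hT 3) (by positivity)
      δ0.le
  have r2 : δ ^ 4 * T ≤ δ * (2 * S.C ^ 3) :=
    mul_le_mul (pow_le_of_le_one δ0.le δ1 (by norm_num)) (by linarith) T0 δ0.le
  have r3 : δ / S.C ≤ δ * S.C ^ 3 :=
    (div_le_self δ0.le C1).trans (le_mul_of_one_le_right δ0.le (C1.trans c3))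
  have r4 : (64 * S.C + 3) ^ 2 ≤ (67 * S.C) ^ 2 := pow_le_pow_left₀ (by positivity) (by linarith) 2
  have r5 : δ ≤ (67 * S.C) ^ 2 * (S.C ^ 3 * δ) := by
    have : 1 ≤ (67 * S.C) ^ 2 := one_le_pow₀ (by linarith)
    nlinarith [mul_le_mul this (C1.trans c3) zero_le_one (by positivity)]
  have r6 := k.trans (mul_le_mul r4 (show _ ≤ E + 11 * S.C ^ 3 * δ from add_le_add hE (by linarith))
    (add_nonneg (intervalIntegral.integral_nonneg (by linarith) fun _ _ => sq_nonneg _)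
      (by positivity)) (by positivity))
  have : ∫ t in s..min y b, uu M S m a T t ^ 4 ≤ _ := r6
  linarith

theorem numP1 {C θ L Mq N τ : ℝ} (C0 : 0 < C) (hL : 1 ≤ L * θ) (hθ : 0 < θ) (N0 : 0 ≤ N)
    (n3 : Mq * τ ^ 3 ≤ N) :
    Mq * (6 * τ ^ 3 / (θ * (θ / (68 * C)))) ≤ 408 * C * (L ^ 2 * N) := by
  rw [show Mq * (6 * τ ^ 3 / (θ * (θ / (68 * C)))) = 408 * C * (Mq * τ ^ 3 / θ ^ 2) by
    field_simp; ring]
  refine mul_le_mul_of_nonneg_left ?_ (by positivity)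
  rw [div_le_iff₀ (by positivity)]
  nlinarith [mul_le_mul_of_nonneg_left (one_le_pow₀ hL (n := 2)) N0]

theorem numP2 {C θ D k th : ℝ} (C0 : 0 < C) (hθ : 0 < θ) (D0 : 0 ≤ D) (k0 : 0 ≤ k) (th0 : 0 ≤ th)
    (th1 : 4 * C * th ≤ 1) :
    6 * (θ / (68 * C)) ^ 2 / θ * D ^ 3 + 8 * θ / (1 / C) * (k + th * D) ^ 3 ≤
      32 * (θ * C * k ^ 3) + θ / C ^ 2 * D ^ 3 := by
  have x0 : 0 ≤ θ / C ^ 2 * D ^ 3 := by positivity
  have a1 : (k + th * D) ^ 3 ≤ 4 * (k ^ 3 + (th * D) ^ 3) := by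
    have := mul_nonneg th0 D0
    nlinarith [mul_nonneg (add_nonneg k0 this) (sq_nonneg (k - th * D))]
  have a2 : (4 * C * th) ^ 3 ≤ 1 := pow_le_one₀ (by positivity) th1
  have a3 := mul_le_mul_of_nonneg_left a2 x0
  have a4 : θ / C ^ 2 * D ^ 3 * (4 * C * th) ^ 3 = 64 * (θ * C * (th * D) ^ 3) := by
    field_simp; ring
  have a5 := mul_le_mul_of_nonneg_left a1 (show 0 ≤ 8 * (θ * C) by positivity)
  rw [show 8 * θ / (1 / C) = 8 * (θ * C) by field_simp,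
    show 6 * (θ / (68 * C)) ^ 2 / θ * D ^ 3 = 6 / 4624 * (θ / C ^ 2 * D ^ 3) by field_simp; ring]
  rw [a4] at a3
  generalize θ / C ^ 2 * D ^ 3 = x at *
  generalize (k + th * D) ^ 3 = z at *
  generalize (th * D) ^ 3 = z' at *
  linarith

theorem numP4 {C θ μ N D I eb R3 : ℝ} (C1 : 1 ≤ C) (hθ : 0 < θ) (θ1 : θ ≤ 1 / 600) (μ0 : 0 < μ)
    (I0 : 0 ≤ I) (hμ : 384 * C ^ 3 * μ ≤ eb) (N0 : 0 ≤ N)
    (d3 : D ^ 3 ≤ 14000 * C ^ 3 * (I + R3)) (n5 : μ * R3 ≤ N) :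
    μ * (θ / C ^ 2 * D ^ 3) ≤ eb / 16 * I + 14000 * (C * N) := by
  have C0 : 0 < C := by linarith
  have c3 : C ≤ C ^ 3 := le_self_pow₀ C1 (by norm_num)
  have a1 := mul_le_mul_of_nonneg_left d3 (show 0 ≤ μ * (θ / C ^ 2) by positivity)
  have a2 : μ * (θ / C ^ 2) * (14000 * C ^ 3 * (I + R3)) =
      14000 * (θ * (C * μ * I)) + 14000 * (C * (θ * (μ * R3))) := by field_simp
  have a3 : C * μ * I ≤ C ^ 3 * μ * I := by gcongr
  have a4 := mul_le_mul_of_nonneg_right hμ I0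
  have a5 := mul_le_mul_of_nonneg_right θ1 (show 0 ≤ C * μ * I by positivity)
  have a6 : θ * (μ * R3) ≤ N :=
    (mul_le_mul_of_nonneg_left n5 hθ.le).trans (mul_le_of_le_one_left N0 (by linarith))
  have a7 := mul_le_mul_of_nonneg_left a6 C0.le
  have a8 : 0 ≤ C * μ * I := by positivity
  rw [a2, mul_assoc] at a1
  linarith

theorem numP5 {C θ ν D : ℝ} (C1 : 1 ≤ C) (hθ : 0 < θ) (ν0 : 0 ≤ ν) (D0 : 0 ≤ D) :
    ν ^ 2 * (θ / C ^ 2 * D ^ 3) ≤ θ * ν ^ 5 + θ * D ^ 5 := by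
  have a1 : θ / C ^ 2 * D ^ 3 ≤ θ * D ^ 3 := mul_le_mul_of_nonneg_right
    (div_le_self hθ.le (one_le_pow₀ C1)) (by positivity)
  have a2 : ν ^ 2 * D ^ 3 ≤ ν ^ 5 + D ^ 5 := by
    rcases le_total ν D with h | h
    · have := mul_le_mul_of_nonneg_right (pow_le_pow_left₀ ν0 h 2) (pow_nonneg D0 3)
      linarith [pow_nonneg ν0 5]
    · have := mul_le_mul_of_nonneg_left (pow_le_pow_left₀ D0 h 3) (pow_nonneg ν0 2)
      linarith [pow_nonneg D0 5]
  have a3 := mul_le_mul_of_nonneg_left a1 (sq_nonneg ν)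
  have a4 := mul_le_mul_of_nonneg_left a2 hθ.le
  generalize θ / C ^ 2 * D ^ 3 = x at *
  linarith

theorem numP {C θ L μ ν N En D k th τ I eb R3 R5 : ℝ} (C1 : 1 ≤ C) (hL : 1 ≤ L * θ) (hθ : 0 < θ)
    (θ1 : θ ≤ 1 / 600) (μ0 : 0 < μ) (ν0 : 0 ≤ ν) (D0 : 0 ≤ D) (k0 : 0 ≤ k) (th0 : 0 ≤ th)
    (th1 : 4 * C * th ≤ 1) (I0 : 0 ≤ I) (hμ : 384 * C ^ 3 * μ ≤ eb) (N0 : 0 ≤ N)
    (d3 : D ^ 3 ≤ 14000 * C ^ 3 * (I + R3)) (d5 : D ^ 5 ≤ 8000000 * C ^ 5 * (En + R5))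
    (n3 : (μ + ν ^ 2) * τ ^ 3 ≤ N) (n4 : (μ + ν ^ 2) * k ^ 3 ≤ N) (n5 : μ * R3 ≤ N)
    (n6 : ν ^ 5 ≤ N) (n7 : R5 ≤ N) :
    (μ + ν ^ 2) * (6 * τ ^ 3 / (θ * (θ / (68 * C))) + 6 * (θ / (68 * C)) ^ 2 / θ * D ^ 3 +
      8 * θ / (1 / C) * (k + th * D) ^ 3) + 18 * θ / (1 / C) * ν ^ 5 ≤
      eb / 16 * I + 8000000 * (C ^ 5 * (θ * En)) + 408 * C * (L ^ 2 * N) + 100000 * (C ^ 5 * N) := by
  have C0 : 0 < C := by linarith
  have M0 : 0 < μ + ν ^ 2 := by positivity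
  have c5 : C ≤ C ^ 5 := le_self_pow₀ C1 (by norm_num)
  have t1 := numP1 C0 hL hθ N0 n3
  have t2 := mul_le_mul_of_nonneg_left (numP2 C0 hθ D0 k0 th0 th1) M0.le
  have t4 := numP4 C1 hθ θ1 μ0 I0 hμ N0 d3 n5
  have t5 := numP5 C1 hθ ν0 D0
  have t6 := mul_le_mul_of_nonneg_left d5 hθ.le
  have t7 : θ * R5 ≤ 1 / 600 * N :=
    (mul_le_mul_of_nonneg_left n7 hθ.le).trans (mul_le_mul_of_nonneg_right θ1 N0)
  have t8 := mul_le_mul_of_nonneg_left t7 (show 0 ≤ C ^ 5 by positivity)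
  have t9 : θ * ν ^ 5 ≤ N :=
    (mul_le_mul_of_nonneg_left n6 hθ.le).trans (mul_le_of_le_one_left N0 (by linarith))
  have t10 := mul_le_mul_of_nonneg_left t9 C0.le
  have t11 : θ * ((μ + ν ^ 2) * k ^ 3) ≤ N :=
    (mul_le_mul_of_nonneg_left n4 hθ.le).trans (mul_le_of_le_one_left N0 (by linarith))
  have t12 := mul_le_mul_of_nonneg_left t11 C0.le
  have t14 := mul_le_mul_of_nonneg_right c5 N0
  have t15 := mul_le_mul_of_nonneg_right C1 N0
  rw [show 18 * θ / (1 / C) = 18 * (C * θ) by field_simp, add_assoc (6 * τ ^ 3 / _), mul_add]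
  generalize (μ + ν ^ 2) * (6 * τ ^ 3 / (θ * (θ / (68 * C)))) = a1 at *
  generalize (μ + ν ^ 2) * (6 * (θ / (68 * C)) ^ 2 / θ * D ^ 3 +
    8 * θ / (1 / C) * (k + th * D) ^ 3) = a2 at *
  generalize θ / C ^ 2 * D ^ 3 = x at *
  generalize C ^ 5 = c at *
  generalize D ^ 5 = d at *
  generalize ν ^ 5 = n at *
  generalize k ^ 3 = k3 at *
  generalize ν ^ 2 = n2 at *
  linarith

theorem numQ {C P I γ l τ κ δ th D R : ℝ} (C1 : 1 ≤ C) (P0 : 0 ≤ P) (I0 : 0 ≤ I) (γ0 : 0 ≤ γ)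
    (l0 : 0 ≤ l) (τ0 : 0 ≤ τ) (κ0 : 0 ≤ κ) (δ0 : 0 ≤ δ) (th0 : 0 ≤ th) (D0 : 0 ≤ D)
    (th1 : 4 * C * th ≤ 1) (hR : τ ^ 3 + γ ^ 3 + (δ + κ) ^ 3 ≤ R)
    (fc : (1 / C) ^ 3 * l ^ 3 ≤ 256 * (1 / C) * P + 512 * (δ + κ + th * D) ^ 3)
    (d3 : D ^ 3 ≤ 14000 * C ^ 3 * (I + τ ^ 3 + γ ^ 3)) :
    (γ + 2 * l + 2 * C * τ + C * κ + D) ^ 3 / 2 + 2 * C * P ≤
      1000000000 * (C ^ 3 * (P + I + R)) := by
  have C0 : 0 < C := by linarith
  have c1 : 1 ≤ C ^ 3 := one_le_pow₀ C1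
  have c2 : C ^ 2 ≤ C ^ 3 := pow_le_pow_right₀ C1 (by norm_num)
  have c3 : C ≤ C ^ 3 := le_self_pow₀ C1 (by norm_num)
  have g3 := pow_nonneg γ0 3
  have t3 := pow_nonneg τ0 3
  have k3 := pow_nonneg (add_nonneg δ0 κ0) 3
  have R0 : 0 ≤ R := by linarith
  have f1 : l ^ 3 ≤ 256 * (C ^ 2 * P) + 512 * (C * (δ + κ + th * D)) ^ 3 := by
    have := mul_le_mul_of_nonneg_left fc (pow_nonneg C0.le 3)
    rw [show C ^ 3 * ((1 / C) ^ 3 * l ^ 3) = l ^ 3 by field_simp,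
      show C ^ 3 * (256 * (1 / C) * P + 512 * (δ + κ + th * D) ^ 3) =
        256 * (C ^ 2 * P) + 512 * (C * (δ + κ + th * D)) ^ 3 by field_simp] at this
    exact this
  have f2 : C * (δ + κ + th * D) ≤ C * (δ + κ) + D / 4 + 0 := by
    nlinarith [mul_le_mul_of_nonneg_right th1 D0]
  have f3 := (pow_le_pow_left₀ (by positivity) f2 3).trans
    (At.three3 (by positivity) (by positivity) le_rfl 3)
  have b1 := At.three3 (x := γ + 2 * C * τ + C * κ) (y := 2 * l) (z := D) (by positivity)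
    (by positivity) D0 3
  have b2 := At.three3 (x := γ) (y := 2 * C * τ) (z := C * κ) γ0 (by positivity) (by positivity) 3
  have b3 : (C * κ) ^ 3 ≤ (C * (δ + κ)) ^ 3 :=
    pow_le_pow_left₀ (by positivity) (mul_le_mul_of_nonneg_left (by linarith) C0.le) 3
  have r1 : (C * (δ + κ)) ^ 3 ≤ C ^ 3 * R := by
    rw [mul_pow]; exact mul_le_mul_of_nonneg_left (by linarith) (by positivity)
  have r2 : (2 * C * τ) ^ 3 ≤ 8 * (C ^ 3 * R) := by
    have := mul_le_mul_of_nonneg_left (show τ ^ 3 ≤ R by linarith) (pow_nonneg C0.le 3)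
    linarith
  have r3 : γ ^ 3 ≤ C ^ 3 * R := (show γ ^ 3 ≤ R by linarith).trans (le_mul_of_one_le_left R0 c1)
  have r4 : D ^ 3 ≤ 14000 * (C ^ 3 * I) + 14000 * (C ^ 3 * R) := by
    have := mul_le_mul_of_nonneg_left (show τ ^ 3 + γ ^ 3 ≤ R by linarith) (pow_nonneg C0.le 3)
    linarith
  have r5 := mul_le_mul_of_nonneg_right c2 P0
  have r6 := mul_le_mul_of_nonneg_right c3 P0
  have r7 : 0 ≤ C ^ 3 * P := by positivity
  have r8 : 0 ≤ C ^ 3 * I := by positivity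
  have r9 : 0 ≤ C ^ 3 * R := by positivity
  rw [show γ + 2 * l + 2 * C * τ + C * κ + D = γ + 2 * C * τ + C * κ + 2 * l + D by ring, mul_add,
    mul_add]
  rw [show (2 * l) ^ 3 = 8 * l ^ 3 by ring] at b1
  rw [show (D / 4) ^ 3 = D ^ 3 / 64 by ring] at f3
  generalize (γ + 2 * C * τ + C * κ + 2 * l + D) ^ 3 = a1 at *
  generalize (γ + 2 * C * τ + C * κ) ^ 3 = a2 at *
  generalize (C * (δ + κ + th * D)) ^ 3 = a3 at *
  generalize (C * (δ + κ)) ^ 3 = a4 at *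
  generalize (2 * C * τ) ^ 3 = a5 at *
  generalize (C * κ) ^ 3 = a6 at *
  norm_num at f3 b1 b2
  linarith

namespace ZI

/-- the linear gain of the zone -/
theorem il (Z : ZI S M m a T Gc v v2 y Dq ec la al w th κ0 tl) {τc γ : ℝ}
    (hy : y = min (sb M m a (v2 + 1)) (M.s S.J)) (zv : M.z (S.J - 1) - τc ≤ M.z v2)
    (hτ : 2 * (S.C * S.v) ≤ τc) (hγ : M.s S.Jp - M.s S.J ≤ γ) :
    Il S M m a T (sb M m a (v + 1)) y ≤
      (γ + 2 * (y - sb M m a (v + 1)) + 2 * S.C * τc + S.C * κ0 + Dq) ^ 3 / 2 +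
        2 * S.C * ∫ t in sb M m a (v + 1)..y, uu M S m a T t ^ 2 := by
  have A := Z.A
  have C0 := A.c_pos
  have C1 := A.cl.C1
  have v0 := v_pos A.cl
  have cv := mul_pos C0 v0
  obtain ⟨-, -, -, -, n5, n6⟩ := Z.nn
  have D0 := Z.D0
  have sy := Z.sy
  have sp : M.s S.J ≤ M.s S.Jp := A.cl.sm A.cl.i3
  have x1 : 0 ≤ S.C * τc := mul_nonneg C0.le (by linarith)
  have x2 := mul_nonneg C0.le n6
  set s := sb M m a (v + 1) with hs
  set B := γ + 2 * (y - s) + 2 * S.C * τc + S.C * κ0 + Dq with hB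
  have B1 : y - s ≤ B := by linarith
  have lu : LB T (uu M S m a T) := A.LB_u
  have ms : s ∈ Icc 0 T := ⟨Z.s0.le, sy.trans Z.yT⟩
  have my : y ∈ Icc 0 T := ⟨Z.s0.le.trans sy, Z.yT⟩
  have k := int_mono (A.lw6 (M.s S.Jp)) ((LB.const (B ^ 2 / 2)).add ((LB.const (2 * S.C)).mul lu.sq))
    Z.s0.le sy Z.yT fun t t1 t2 => by
      have tJ := t2.trans_le Z.y2
      have e : Pr.Mid8.Mid.ff (lb M S m a T) (lh M T) (M.s S.Jp) t = max (uu M S m a T t) 0 :=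
        if_pos (by linarith)
      rw [e, abs_sub_comm, abs_of_nonneg (by linarith)]
      set p := max (uu M S m a T t) 0 with hp
      have p0 : 0 ≤ p := le_max_right _ _
      have p1 : uu M S m a T t ≤ p := le_max_left _ _
      have p2 : p ^ 2 ≤ uu M S m a T t ^ 2 := by
        rcases le_total (uu M S m a T t) 0 with h | h
        · rw [hp, max_eq_right h]; nlinarith
        · rw [hp, max_eq_left h]
      have q : M.s S.Jp - t ≤ B + S.C * p := by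
        have x3 := mul_nonneg C0.le p0
        rcases lt_or_ge (sb M m a (v2 + 1)) (M.s S.J) with h | h
        · have w1 := Z.wid v2 Z.vv le_rfl h
          obtain ⟨r1, r2⟩ := A.s_pred
          have r3 : max t (M.s (S.J - 1)) < M.s S.J := max_lt tJ r1
          have l := (A.sl r3 t _ (Z.s0.le.trans t1.le) (le_max_left _ _) le_rfl).1
          rw [A.zh_top8 (le_max_right _ _) r3, one_div_mul_eq_div, sub_le_iff_le_add,
            div_le_iff₀ C0] at l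
          have e0 := A.lvb_node Z.jv.le
            (show v ≤ S.Jp by have := A.cl.i3; have := Z.vJ; have := Z.vv; omega)
          have mb := Sc48.lvr_mono A.okb.1.1 t1.le
          have r4 := mul_le_mul_of_nonneg_right (show M.z (S.J - 1) - lvr 1 (lh M T) t + S.C * S.v ≤
            τc + κ0 + th * (y - s + Dq) + p + S.C * S.v by unfold uu at p1; linarith) C0.le
          have r5 := mul_le_mul_of_nonneg_right Z.th1 (show 0 ≤ y - s + Dq by linarith)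
          have r6 := mul_le_mul_of_nonneg_left hτ C0.le
          have r7 := mul_le_mul_of_nonneg_right C1 cv.le
          linarith [le_max_right t (M.s (S.J - 1))]
        · rw [min_eq_right h] at hy
          linarith
      nlinarith [mul_le_mul_of_nonneg_right q p0, sq_nonneg (B - p),
        mul_le_mul_of_nonneg_left p2 C0.le, mul_le_mul_of_nonneg_right C1 (sq_nonneg p)]
  rw [intervalIntegral.integral_add ((LB.const _).ii ms my) (((LB.const _).mul lu.sq).ii ms my),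
    intervalIntegral.integral_const, smul_eq_mul, intervalIntegral.integral_const_mul] at k
  have := mul_le_mul_of_nonneg_right B1 (show 0 ≤ B ^ 2 / 2 by positivity)
  unfold Il
  linarith

set_option maxHeartbeats 400000 in
/-- **zone I: cost and gains** -/
theorem z1e (Z : ZI S M m a T Gc v v2 y Dq ec la al w th κ0 tl)
    {K c B βs ν θ L τ μ e t0 t1 τc γ Mt A0 En N : ℝ} (K0 : 0 ≤ K)
    (hA : HLip Pr.AA T K) (hN : HLip Pr.NN T K)
    (hL : ∀ s t : ℝ, 0 ≤ s → s ≤ t → t ≤ T → |L0.Gd (lb M S m a T) t - L0.Gd (lb M S m a T) s| ≤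
      K * (t - s) + 2 * (lvr 1 (lb M S m a T) t - lvr 1 (lb M S m a T) s))
    (F : Fr T c B (okT T) (lvr 1) Pr.Gam Pr.GG) (hT : T ≤ 2 * S.C)
    (hy : y = min (sb M m a (v2 + 1)) (M.s S.J)) (hD : Dq = sb M m a S.J - y)
    (hμ : μ = e / (384 * S.C ^ 4 * S.F)) (e0 : 0 < e) (e1 : e ≤ S.ms t0 / S.C)
    (t01 : t0 ≤ sb M m a (v + 1)) (he : S.θ ≤ L * e) (hθ : 1 ≤ L * θ) (θ0 : 0 < θ)
    (θ1 : θ ≤ 1 / 600) (ν0 : 0 ≤ ν) (τ0 : 0 ≤ τ) (β0 : 0 ≤ βs)
    (zv : M.z (S.J - 1) - τc ≤ M.z v2) (hτ : 2 * (S.C * S.v) ≤ τc) (hγ : M.s S.Jp - M.s S.J ≤ γ)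
    (M1 : sb M m a S.J ≤ Mt) (M2 : Mt ≤ T) (a0 : 0 ≤ A0)
    (loc : |sb M m a (v + 1) - M.s v| + 2 * S.v ≤ 2 * (sb M m a (v + 1) - A0))
    (hE : (∫ t in A0..T, JJ M S m a T t ^ 2) + (∫ t in (0 : ℝ)..A0, |JJ M S m a T t|) ^ 2 ≤ En)
    (h0 : βs + (3 * (ec + 1 / (m + 1) + al * (κ0 + S.C * S.v)) +
      2 * (S.C ^ 2 * S.F * S.θ) * (S.C * S.v) + 4 * (S.C * S.v) * w ^ 2) ≤ (μ + ν ^ 2) * τ)
    (hk : 3 * (la + 2 * al * th) + 2 * (S.C ^ 2 * S.F * S.θ) * th + 2 * (S.C * (S.θ / tl)) * w +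
        (2 * K + 4 * th) * w ^ 2 ≤ (μ + ν ^ 2) * (θ / (68 * S.C)))
    (h4 : 4 * w ^ 2 + (6 * K * w ^ 2) ^ 2 / θ ≤ θ * (μ + ν ^ 2))
    (n1 : S.C * S.v ≤ N) (n1' : S.C * S.v ≤ 1) (t11 : t1 + S.C * S.v ≤ sb M m a (v + 1))
    (n2 : 2 * S.C ^ 5 * S.θ ^ 2 * S.v ^ 2 + S.C ^ 2 * GS M S t1 S.C ≤ μ * N)
    (n3 : (μ + ν ^ 2) * τ ^ 3 ≤ N) (n4 : (μ + ν ^ 2) * (S.C * S.v + κ0) ^ 3 ≤ N)
    (n5 : μ * (τc ^ 3 + γ ^ 3) ≤ N) (n6 : ν ^ 5 ≤ N) (n7 : τc ^ 5 + γ ^ 5 ≤ N) :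
    Z1e S M m a T (resN (lb M S m a T) M.b (sb M m a) (hb M) (v + 1)) βs (sb M m a (v + 1)) y Mt
      (10 ^ 7 * S.C ^ 5 * (θ * En + L ^ 2 * N)) (10 ^ 12 * S.C ^ 7 * S.F * L) N e := by
  have A := Z.A
  have C0 := A.c_pos
  have C1 := A.cl.C1
  have F1 := A.cl.F1
  have v0 := v_pos A.cl
  have cv := mul_pos C0 v0
  have N0 : 0 ≤ N := cv.le.trans n1
  have L1 : 1 ≤ L := by
    by_contra h
    linarith [mul_le_mul_of_nonneg_right (not_le.1 h).le θ0.le]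
  have sp : M.s S.J ≤ M.s S.Jp := A.cl.sm A.cl.i3
  have γ0 : 0 ≤ γ := by linarith
  have τc0 : 0 ≤ τc := by linarith
  obtain ⟨-, -, -, -, n8, n9⟩ := Z.nn
  obtain ⟨b1, b2⟩ := A.b_mem
  have sy := Z.sy
  have s0 := Z.s0
  have yT := Z.yT
  have T0 := A.T_nn
  have μ0 : 0 < μ := by rw [hμ]; positivity
  have μe : 384 * S.C ^ 4 * S.F * μ = e := by rw [hμ]; field_simp
  have μ1 : μ ≤ mm M S m a (sb M m a (v + 1)) := by
    refine le_trans ?_ (A.mm_ge _)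
    rw [le_div_iff₀ C0] at e1
    rw [le_div_iff₀ A.K_pos]
    linarith [A.cl.msm t01, show μ * (384 * S.C ^ 5 * S.F) = e * S.C by rw [← μe]; ring]
  have μb : 384 * S.C ^ 3 * μ ≤ e / M.b := by
    rw [le_div_iff₀ (by linarith), ← μe]
    have := mul_le_mul b2 F1 zero_le_one C0.le
    linarith only [mul_le_mul_of_nonneg_left this (show 0 ≤ 384 * S.C ^ 3 * μ by positivity)]
  obtain ⟨y0, y1, y2, hz⟩ := A.hz6 (Z.jv.le.trans Z.vv) Z.vJ zv
  rw [← hy] at y0 y1 y2 hz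
  have as : A0 ≤ sb M m a (v + 1) := by linarith [abs_nonneg (sb M m a (v + 1) - M.s v)]
  have lu : LB T (uu M S m a T) := A.LB_u
  have lJ : LB T (JJ M S m a T) := .of_cont (lu.tail ⟨T0, le_rfl⟩)
  have j0 : 0 ≤ ∫ t in A0..T, JJ M S m a T t ^ 2 :=
    intervalIntegral.integral_nonneg (by linarith) fun _ _ => sq_nonneg _
  have j1 : ∫ t in A0..T, JJ M S m a T t ^ 2 ≤ En := by
    linarith [sq_nonneg (∫ t in (0 : ℝ)..A0, |JJ M S m a T t|)]
  have E0 := j0.trans j1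
  have I0 : 0 ≤ Il S M m a T y Mt := intervalIntegral.integral_nonneg (y2.trans M1) fun _ _ =>
    mul_nonneg (abs_nonneg _) (At.ff0_6 _ _ _ _)
  have d3 := A.dq3 hT y0 y1 y2 hτ hγ hz M1 M2 (W := Il S M m a T y Mt) le_rfl
  have d5 := A.dq5 hT a0 (as.trans sy) y1 y2 hτ hγ hz j1
  rw [← hD] at d3 d5
  have P0 : 0 ≤ ∫ t in sb M m a (v + 1)..y, uu M S m a T t ^ 2 :=
    intervalIntegral.integral_nonneg sy fun _ _ => sq_nonneg _
  have θμ : S.θ ≤ 384 * S.C ^ 4 * S.F * L * μ := by rw [← μe] at he; linarith only [he]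
  have W0 : 0 ≤ 384 * S.C ^ 4 * S.F * L := by positivity
  have W1 : 1000000000 * S.C ^ 3 * (384 * S.C ^ 4 * S.F * L) * 2 ≤ 10 ^ 12 * S.C ^ 7 * S.F * L := by
    have : 0 ≤ S.C ^ 7 * S.F * L := by positivity
    linarith only [this]
  have c3 : 1 ≤ S.C ^ 3 := one_le_pow₀ C1
  refine ⟨_, (Z.seg K0 hA hN hL μ0 μ1 ν0 θ0 (by positivity) τ0 β0 h0 hk ?_ h4).mono ?_, ?_, ?_⟩
  · rw [show 4608 * (θ / (68 * S.C)) ^ 2 = 4608 / 4624 * (θ ^ 2 * (1 / S.C) ^ 2) by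
      field_simp; ring]
    have : 0 ≤ θ ^ 2 * (1 / S.C) ^ 2 := by positivity
    linarith only [this]
  · have q1 := A.four8 F hT Z.jv.le (Z.vv.trans_lt Z.vJ) s0 sy y2 y1 a0 loc n1' j1 E0
    have q2 : ∫ t in sb M m a (v + 1)..y, JJ M S m a T t ^ 2 ≤ En :=
      (int_sub_le lJ.sq a0 as sy yT le_rfl fun _ _ _ => sq_nonneg _).trans j1
    have q3 : io M S m a T ^ 2 ≤ 6 * S.C * En := by
      have := io_sq lJ (x := A0) (y := T) (len := 2 * S.C) (ε := ∫ t in (0 : ℝ)..A0, |JJ M S m a T t|)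
        a0 (by linarith) le_rfl (by linarith) (by simp) j1
      unfold io
      linarith only [this, hE, j0, mul_le_mul_of_nonneg_right C1 E0]
    have q4 : (y - sb M m a (v + 1)) * io M S m a T ^ 2 ≤ 2 * S.C * (6 * S.C * En) :=
      mul_le_mul (by linarith) q3 (sq_nonneg _) (by positivity)
    have q5 : ∫ t in sb M m a (v + 1)..y, (S.C ^ 2 * S.θ * S.v + |gt M S t|) ^ 2 ≤ 2 * (μ * N) := by
      have lg := LB_gt T M S
      have G0 : 0 ≤ GS M S t1 S.C := Finset.sum_nonneg fun k _ =>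
        mul_nonneg (sub_nonneg.2 (A.cl.leg.zm (Nat.sub_le k 1))) (sq_nonneg _)
      have ms : sb M m a (v + 1) ∈ Icc 0 T := ⟨s0.le, sy.trans yT⟩
      have my : y ∈ Icc 0 T := ⟨y0, yT⟩
      have k := int_mono ((LB.const (S.C ^ 2 * S.θ * S.v)).add lg.abs).sq
        ((LB.const (2 * (S.C ^ 2 * S.θ * S.v) ^ 2)).add ((LB.const 2).mul lg.sq)) s0.le sy yT
        fun t _ _ => by
          linarith only [sq_nonneg (S.C ^ 2 * S.θ * S.v - |gt M S t|), sq_abs (gt M S t)]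
      rw [intervalIntegral.integral_add ((LB.const _).ii ms my) (((LB.const _).mul lg.sq).ii ms my),
        intervalIntegral.integral_const, smul_eq_mul, intervalIntegral.integral_const_mul] at k
      have := mul_le_mul_of_nonneg_right (show y - sb M m a (v + 1) ≤ 2 * S.C by linarith)
        (show 0 ≤ 2 * (S.C ^ 2 * S.θ * S.v) ^ 2 by positivity)
      linarith only [A.gt_GS8 Z.s1 sy y1 t11, k, this, n2, mul_nonneg (sq_nonneg S.C) G0]
    have q6 : 2 / (θ * μ) * (∫ t in sb M m a (v + 1)..y, (S.C ^ 2 * S.θ * S.v + |gt M S t|) ^ 2) ≤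
        4 * (L * N) := by
      refine (mul_le_mul_of_nonneg_left q5 (by positivity)).trans ?_
      rw [show 2 / (θ * μ) * (2 * (μ * N)) = 4 * (N / θ) by field_simp; ring]
      refine mul_le_mul_of_nonneg_left ?_ (by norm_num)
      rw [div_le_iff₀ θ0]
      linarith only [mul_le_mul_of_nonneg_left hθ N0]
    have q7 := numP (En := En) C1 hθ θ0 θ1 μ0 ν0 Z.D0 (add_nonneg cv.le n9) n8 Z.th1 I0 μb N0
      (by rw [← add_assoc]; exact d3) (by rw [← add_assoc]; exact d5) n3 n4 n5 n6 n7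
    have q8 := mul_le_mul_of_nonneg_right θ1 (mul_nonneg μ0.le P0)
    have c25 : S.C ^ 2 ≤ S.C ^ 5 := pow_le_pow_right₀ C1 (by norm_num)
    have c15 : S.C ≤ S.C ^ 5 := le_self_pow₀ C1 (by norm_num)
    have c5 : 0 ≤ S.C ^ 5 := by positivity
    have l2 : L * N ≤ L ^ 2 * N := mul_le_mul_of_nonneg_right (le_self_pow₀ L1 two_ne_zero) N0
    have l1 : N ≤ L * N := le_mul_of_one_le_left N0 L1
    have q9 : 6 * (∫ t in sb M m a (v + 1)..y, uu M S m a T t ^ 4) +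
        (∫ t in sb M m a (v + 1)..y, JJ M S m a T t ^ 2) +
        (y - sb M m a (v + 1)) * io M S m a T ^ 2 ≤
        30000 * (S.C ^ 5 * En) + 400000 * (S.C ^ 5 * N) := by
      linarith only [q1, q2, q4, mul_le_mul_of_nonneg_right c25 E0,
        mul_le_mul_of_nonneg_right (C1.trans c15) E0, mul_le_mul_of_nonneg_left n1 c5,
        mul_nonneg c5 N0, mul_nonneg c5 E0]
    have r1 := mul_le_mul_of_nonneg_left q9 θ0.le
    have r2 := mul_le_mul_of_nonneg_right θ1 (mul_nonneg c5 N0)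
    have r3 := mul_le_mul_of_nonneg_left (l1.trans l2) c5
    have r4 := mul_le_mul_of_nonneg_right c15 (N0.trans (l1.trans l2))
    have r5 := mul_le_mul_of_nonneg_right (C1.trans c15) (N0.trans (l1.trans l2))
    have r6 := mul_nonneg c5 (mul_nonneg θ0.le E0)
    have r7 := mul_nonneg μ0.le P0
    have r8 := mul_nonneg c5 N0
    refine (add_le_add (add_le_add (add_le_add (add_le_add le_rfl r1) q6) le_rfl) le_rfl).trans ?_
    rw [add_assoc]
    refine (add_le_add le_rfl q7).trans ?_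
    linarith only [q8, r2, r3, r4, r5, r6, r7, r8, l2]
  · have k := int_mono (LB_min lu (LB.const 0)).sq lu.sq s0.le sy yT fun t _ _ => by
      rcases le_total (uu M S m a T t) 0 with h | h
      · rw [min_eq_left h]
      · rw [min_eq_right h]; linarith only [sq_nonneg (uu M S m a T t)]
    have k1 := mul_le_mul θμ k (intervalIntegral.integral_nonneg sy fun _ _ => sq_nonneg _)
      (by positivity)
    refine k1.trans ?_
    rw [mul_assoc _ μ]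
    exact mul_le_mul (by linarith only [mul_le_mul_of_nonneg_right c3 W0, W0, W1]) (by linarith only [N0])
      (mul_nonneg μ0.le P0) (by positivity)
  · have k := (Z.il hy zv hτ hγ).trans (numQ C1 P0 I0 γ0 (sub_nonneg.2 sy) τc0 n9 cv.le n8 Z.D0
      Z.th1 le_rfl (fall_cube lu s0.le sy yT (by positivity)
        (add_nonneg (add_nonneg cv.le n9) (mul_nonneg n8 Z.D0)) Z.fall) d3)
    have i0 : 0 ≤ Il S M m a T (sb M m a (v + 1)) y := intervalIntegral.integral_nonneg sy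
      fun _ _ => mul_nonneg (abs_nonneg _) (At.ff0_6 _ _ _ _)
    have k1 := mul_le_mul θμ k i0 (by positivity)
    have k2 : μ * Il S M m a T y Mt ≤ e / M.b * Il S M m a T y Mt :=
      mul_le_mul_of_nonneg_right (by linarith only [μb, mul_le_mul_of_nonneg_right c3 μ0.le, μ0]) I0
    have k3 : μ * (S.C * S.v + κ0) ^ 3 ≤ N := le_trans (mul_le_mul_of_nonneg_right
      (le_add_of_nonneg_right (sq_nonneg ν)) (pow_nonneg (add_nonneg cv.le n9) 3)) n4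
    have r7 := mul_nonneg μ0.le P0
    have r8 := mul_nonneg μ0.le I0
    refine k1.trans (le_trans (le_of_eq ?_) ((mul_le_mul_of_nonneg_left
      (show μ * ((∫ t in sb M m a (v + 1)..y, uu M S m a T t ^ 2) + Il S M m a T y Mt +
        (τc ^ 3 + γ ^ 3 + (S.C * S.v + κ0) ^ 3)) ≤ 2 * (μ * (∫ t in sb M m a (v + 1)..y,
          uu M S m a T t ^ 2) + N + e / M.b * Il S M m a T y Mt) by linarith only [k2, k3, n5, r7, r8])
      (show 0 ≤ 1000000000 * S.C ^ 3 * (384 * S.C ^ 4 * S.F * L) by positivity)).trans ?_))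
    · ring
    · rw [← mul_assoc]
      exact mul_le_mul_of_nonneg_right W1 (by linarith only [k2, r7, r8, N0])

end ZI

end Crest.Agent.T156.Alt.Mp9

end
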