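import Crest.Agent.T156.TxA_83
import Crest.Agent.T156.TxP_8
import Crest.Agent.T156.TxG2_61
import Crest.Agent.T156.TxT_48

/-!
Row 156, block (L) (helper9): frame, geometry and wrapper of zone I (`TxB`).
-/

set_option autoImplicit false

noncomputable section

namespace Crest.Agent.T156.Alt.X84

open MeasureTheory Set Real
open Crest.Agent.R164.GC Crest.Agent.R339.B Crest.Agent.R339.Var Crest.Agent.T157.Pf
open Crest.Agent.T156.Cut8 Crest.Agent.T156.Alt.Mp9 Crest.Agent.T156.Alt.L69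
open Crest.Agent.T156.Alt.L31
open Crest.Agent.T156.Gap27 (resN HLip)
open Crest.Agent.T156.Alt.C74 (JJ)

/-- the constants of the frame of zone I, all below `Λ` -/
structure Fz (E Λ : ℝ) (S : Sc) (M : Md) (m : ℕ) (a K' : ℝ) : Prop where
  K1 : 1 ≤ K'
  KΛ : K' ≤ Λ
  hA : HLip Pr.AA (2 * S.C) K'
  hN : HLip Pr.NN (2 * S.C) K'
  hL : ∀ l, Pp.Ode3.AP l → TT l = 2 * S.C → ∀ s t : ℝ, 0 ≤ s → s ≤ t → t ≤ 2 * S.C →
    |L0.Gd l t - L0.Gd l s| ≤ K' * (t - s) + 2 * (lvr 1 l t - lvr 1 l s)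
  C20 : 10 ^ 12 * S.C ^ 20 ≤ Λ
  v4 : S.v ≤ 1 / (S.n : ℝ) ^ 4
  nc : ∀ D, Λ ≤ D → D ^ 10 ≤ E → C33.Fn S M m a → Tx61.NcB E D S M m a

theorem hlip_mono9 {F : List (ℝ × ℝ) → ℝ → ℝ} {T K K' : ℝ} (h : HLip F T K) (T0 : 0 ≤ T)
    (hK : K ≤ K') : HLip F T K' := fun l l' a b c d t ht =>
  (h l l' a b c d t ht).trans (mul_le_mul_of_nonneg_right hK (add_nonneg (abs_nonneg _)
    (intervalIntegral.integral_nonneg T0 fun _ _ => abs_nonneg _)))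

theorem Fz.mono {E Λ Λ' K' : ℝ} {S : Sc} {M : Md} {m : ℕ} {a : ℝ} (F : Fz E Λ S M m a K')
    (h : Λ ≤ Λ') : Fz E Λ' S M m a K' :=
  ⟨F.K1, F.KΛ.trans h, F.hA, F.hN, F.hL, F.C20.trans h, F.v4, fun D d => F.nc D (h.trans d)⟩

theorem fzS9 : CL fun E Λ S M m a => ∃ K', Fz E Λ S M m a K' := by
  obtain ⟨f, hf⟩ := Tx61.ncD
  refine CL.triv.glue fun C => ⟨5, fun A hA5 ε η hε hη => ?_⟩
  obtain ⟨K1, k1, h1⟩ := Hm.hlip (2 * C)
  obtain ⟨K2, k2, h2⟩ := L0.Gd_up (2 * C)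
  refine ⟨ε, η, max (K1 + K2) (max (10 ^ 12 * C ^ 20) (f C)), hε, hη,
    fun S M m a R h _ _ => ⟨K1 + K2, ?_⟩⟩
  have k := R.K_le
  have e := R.hC
  subst e
  have C0 := h.C0
  obtain ⟨-, -, hA, hN, -⟩ := h1 _ le_rfl
  exact ⟨by linarith, (le_max_left _ _).trans k, hlip_mono9 hA (by linarith) (by linarith),
    hlip_mono9 hN (by linarith) (by linarith), fun l b e s t s0 st tT =>
      (h2 l b e.le s t s0 st (e ▸ tT)).trans (by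
        linarith [mul_le_mul_of_nonneg_right (show K2 ≤ K1 + K2 by linarith) (sub_nonneg.2 st)]),
    ((le_max_left _ _).trans (le_max_right _ _)).trans k, L25.v4_of R h hA5,
    fun D d DE fn => hf _ D S M m a fn ((((le_max_right _ _).trans (le_max_right _ _)).trans k).trans d)
      DE⟩

/-- a leaf from a pointwise statement with the frame -/
theorem LF.of9 {P : ℝ → Sc → Md → ℕ → ℝ → Dt → Prop}
    (h : ∀ E S M m a c K', Cy E S M m a c → Fz E c.D S M m a K' → P E S M m a c) : LF P :=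
  fzS9.mono fun E _ S M m a _ _ _ _ ⟨K', F⟩ c Y d => h E S M m a c K' Y (F.mono d)

variable {E K' : ℝ} {S : Sc} {M : Md} {m : ℕ} {a : ℝ} {c : Dt} {v v1 v2 : ℕ}

namespace Cy

variable (Y : Cy E S M m a c)
include Y

theorem X49 : 0 ≤ c.X4 := by
  have h := Y.tw.at'.cl
  have C0 := h.C0
  have E1 := Y.cw.Z.E1
  have t4 : c.t4 ≤ S.C := by
    by_contra k
    nlinarith [Y.t4]
  refine le_trans ?_ (Y.l4 S.C t4 le_rfl)
  have c0 : 0 ≤ cl S c.p.V S.C := add_nonneg (mul_nonneg (zero_le_one.trans (le_max_left _ _))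
    C0.le) Y.hx.ln.V0
  have w0 : 0 ≤ ws S c.p.V S.C := mul_nonneg (div_nonneg c0 C0.le)
    (rpow_nonneg (Y.cw.Z.w3p C0).le _)
  have x0 : 0 ≤ min c.p.X (cl S c.p.V S.C ^ 3) := le_min Y.hx.ln.X0.le (by positivity)
  positivity

/-- the parts of the cost -/
theorem Nn9 : c.p.N + c.p.X2 ^ 2 + 1 / (S.n : ℝ) ^ 3 ≤ Nn S M c.p c.X4 c.t4 := by
  have h := Y.tw.at'.cl
  have cb : 0 ≤ cB M S c.p.η c.t4 S.C :=
    Finset.sum_nonneg fun k _ => mul_nonneg (L25.dx_nn h k) (add_nonneg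
      (mul_nonneg (zero_le_one.trans (le_max_left _ _))
        (div_nonneg (sq_nonneg _) (L25.mf_pos' h (h.s_nn k)).le))
      (le_min (by positivity) (div_nonneg (sq_nonneg _) (L25.mf_pos' h (h.s_nn k)).le)))
  unfold L31.Nn
  linarith [Y.X49]

theorem N9 : 0 ≤ c.p.N := by
  have h := Y.tw.at'.cl
  have := h.θ0
  have := Y.tw.τ0
  have := Y.hx.lp.u0
  exact le_trans (by positivity) Y.hx.lc.c3

theorem Nb9 : 0 ≤ Nb S M c := by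
  have := Y.tw.at'.cl.F1
  have := Y.N9
  exact mul_nonneg (by positivity) (le_trans (by positivity) Y.Nn9)

/-- **zone I** from the net and the number lines -/
theorem txB_at (F : Fz E c.D S M m a K') (N : Nd S M m a c v v1 v2)
    {ec la al w th k0 ν τ θ' μ NN βs Mt A0 En : ℝ}
    (Z : ZI S M m a (2 * S.C) (GC S M m a c) v v2 (ys S M m a v2)
      (sb M m a S.J - ys S M m a v2) ec la al w th k0 (M.s S.J / 4))
    (M1 : sb M m a S.J ≤ Mt) (M2 : Mt ≤ 2 * S.C) (a0 : 0 ≤ A0) (a1 : 8 * A0 ≤ M.s S.J)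
    (hE : (∫ t in A0..2 * S.C, JJ M S m a (2 * S.C) t ^ 2) +
      (∫ t in (0 : ℝ)..A0, |JJ M S m a (2 * S.C) t|) ^ 2 ≤ En) (β0 : 0 ≤ βs)
    (hμ : μ = At.e48 S / (384 * S.C ^ 4 * S.F)) (θ0 : 0 < θ') (θ1 : 1 ≤ c.D ^ 3 * θ')
    (θ2 : 2 * 10 ^ 7 * S.C ^ 5 * c.K * θ' ≤ 1) (ν0 : 0 ≤ ν) (τ0 : 0 ≤ τ)
    (hN : NN ≤ c.D ^ 790 * Nb S M c)
    (h0 : βs + (3 * (ec + 1 / (m + 1) + al * (k0 + S.C * S.v)) +
      2 * (S.C ^ 2 * S.F * S.θ) * (S.C * S.v) + 4 * (S.C * S.v) * w ^ 2) ≤ (μ + ν ^ 2) * τ)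
    (hk : 3 * (la + 2 * al * th) + 2 * (S.C ^ 2 * S.F * S.θ) * th +
      2 * (S.C * (S.θ / (M.s S.J / 4))) * w + (2 * K' + 4 * th) * w ^ 2 ≤
        (μ + ν ^ 2) * (θ' / (68 * S.C)))
    (h4 : 4 * w ^ 2 + (6 * K' * w ^ 2) ^ 2 / θ' ≤ θ' * (μ + ν ^ 2))
    (n1 : S.C * S.v ≤ NN)
    (n2 : 2 * S.C ^ 5 * S.θ ^ 2 * S.v ^ 2 + S.C ^ 2 * GS M S (1 / (8 * S.C ^ 2)) S.C ≤ μ * NN)
    (n3 : (μ + ν ^ 2) * τ ^ 3 ≤ NN) (n4 : (μ + ν ^ 2) * (S.C * S.v + k0) ^ 3 ≤ NN)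
    (n5 : μ * ((c.D ^ 44 * tc S c) ^ 3 + c.p.γ ^ 3) ≤ NN) (n6 : ν ^ 5 ≤ NN)
    (n7 : (c.D ^ 44 * tc S c) ^ 5 + c.p.γ ^ 5 ≤ NN) :
    Z1e S M m a (2 * S.C) (resN (lb M S m a (2 * S.C)) M.b (sb M m a) (hb M) (v + 1)) βs
      (sb M m a (v + 1)) (ys S M m a v2) Mt (c.θ1 / 2 * En + c.D ^ 800 * Nb S M c)
      (c.D ^ 20 * S.F) (c.D ^ 800 * Nb S M c) (At.e48 S) := by
  have A := Y.tw.at'
  have h := A.cl
  have C1 := h.C1
  have F1 := h.F1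
  have v0 := h.v0
  have D4 := Y.cw.Z.D4
  have D1 : 1 ≤ c.D := by linarith
  obtain ⟨K1, -, -⟩ := Y.K83
  obtain ⟨t0, -, vt, -⟩ := Y.tc83
  obtain ⟨e1, e2, e3, -, e5⟩ := A.e_pack Y.cw.θ1
  obtain ⟨Ch, -, hC⟩ := Hm.hlip (2 * S.C)
  have Nb0 := Y.Nb9
  have N0 : 0 ≤ NN := le_trans (by positivity) n6
  have sJ := Y.ck83.sJ
  have s1 := N.v2e.s1
  have t1 := N.v2e.t1
  have w1 := Y.tw.v1
  have vJ : v ≤ S.J := (Z.vv.trans Z.vJ.le)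
  have lc := (Y.tw.loc v s1 vJ).trans (show Ve83.DD S M c.p.Xp c.p.γ ≤ M.s S.J / 16 by
    linarith [Y.tw.D1])
  have cv : S.v ≤ S.C * S.v := le_mul_of_one_le_left v0.le C1
  have c5 : 1 ≤ S.C ^ 5 := one_le_pow₀ C1
  have c7 : 10 ^ 12 * S.C ^ 7 ≤ c.D := le_trans (mul_le_mul_of_nonneg_left
    (pow_le_pow_right₀ C1 (show 7 ≤ 20 by norm_num)) (by norm_num)) F.C20
  have c5' : 10 ^ 12 * S.C ^ 5 ≤ c.D := le_trans (mul_le_mul_of_nonneg_left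
    (pow_le_pow_right₀ C1 (show 5 ≤ 20 by norm_num)) (by norm_num)) F.C20
  have d3 : c.D ≤ c.D ^ 3 := le_self_pow₀ D1 (by norm_num)
  have sC : M.s S.J ≤ 2 * S.C := (h.sm h.i3).trans A.t2
  have q8 : 1 / (8 * S.C ^ 2) ≤ M.s S.J / 4 := by
    rw [div_le_iff₀ (by positivity)]; linarith
  have kθ : 0 ≤ c.K * θ' := by positivity
  have hC1 : S.C ≤ c.D := by linarith [Y.cw.Z.Cp (k := 1) (by norm_num), pow_one S.C]
  have d44 : 2 * c.D ≤ c.D ^ 44 := by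
    have : c.D ^ 2 ≤ c.D ^ 44 := pow_le_pow_right₀ D1 (by norm_num)
    linarith [mul_le_mul_of_nonneg_right D4 (show 0 ≤ c.D by linarith)]
  have z := Z.z1e (L := c.D ^ 3) (t0 := At.t48 S) (t1 := 1 / (8 * S.C ^ 2))
    (τc := c.D ^ 44 * tc S c) (γ := c.p.γ) (by linarith [F.K1]) F.hA F.hN
    (F.hL _ ⟨A.okb.1.1, A.okb.1.2⟩ A.okb.2) (hC _ le_rfl).2.2.2.2.2.2.2 le_rfl rfl rfl hμ e3 le_rfl
    (by linarith) (e5.trans (mul_le_mul_of_nonneg_right (by linarith [pow_nonneg h.C0.le 7]) e3.le))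
    θ1 θ0 (by linarith [mul_le_mul c5 (le_mul_of_one_le_left θ0.le K1) θ0.le (by positivity)])
    ν0 τ0 β0 (N.lo.trans (h.leg.zm N.o2.le))
    (by linarith [mul_le_mul hC1 vt v0.le (by linarith), mul_le_mul_of_nonneg_right d44 t0.le])
    Y.hx.lp.γ0 M1 M2 a0 (by linarith) hE h0 hk h4 n1
    ((le_mul_of_one_le_right (mul_pos h.C0 v0).le
      (one_le_pow₀ (by exact_mod_cast h.n1))).trans Y.cw.Z.hv)
    (by linarith) n2 n3 n4 n5 n6 n7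
  have yM : ys S M m a v2 ≤ Mt :=
    ((min_le_left _ _).trans (A.sb_mono (Nat.succ_le_of_lt Z.vJ))).trans M1
  have hI : 0 ≤ At.e48 S / M.b * Il S M m a (2 * S.C) (ys S M m a v2) Mt :=
    mul_nonneg (div_nonneg e3.le (by linarith [A.b_mem.1]))
      (intervalIntegral.integral_nonneg yM fun _ _ => mul_nonneg (abs_nonneg _) (L25.ff_nn _ _ _ _))
  have En0 : 0 ≤ En := le_trans (add_nonneg (intervalIntegral.integral_nonneg
    (by linarith [h.s_nn S.J]) fun _ _ => sq_nonneg _) (sq_nonneg _)) hE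
  have up : ∀ {i k : ℕ}, i ≤ k → c.D ^ i * Nb S M c ≤ c.D ^ k * Nb S M c := fun e =>
    mul_le_mul_of_nonneg_right (pow_le_pow_right₀ D1 e) Nb0
  refine z.mono Z.sy hI ?_ (by positivity) ?_ N0 (hN.trans (up (by norm_num)))
  · have x1 : 10 ^ 7 * S.C ^ 5 * θ' ≤ c.θ1 / 2 := by
      refine le_of_mul_le_mul_left ?_ (show 0 < c.K by linarith)
      linarith [Y.θ1]
    have x2 : 10 ^ 7 * S.C ^ 5 * ((c.D ^ 3) ^ 2 * NN) ≤ c.D ^ 797 * Nb S M c :=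
      calc _ ≤ c.D * ((c.D ^ 3) ^ 2 * (c.D ^ 790 * Nb S M c)) :=
            mul_le_mul (by linarith) (mul_le_mul_of_nonneg_left hN (by positivity)) (by positivity)
              (by linarith)
        _ = _ := by ring
    linarith [mul_le_mul_of_nonneg_right x1 En0, up (show 797 ≤ 800 by norm_num)]
  · calc _ = 10 ^ 12 * S.C ^ 7 * c.D ^ 3 * S.F := by ring
      _ ≤ c.D * c.D ^ 3 * S.F := by gcongr
      _ = c.D ^ 4 * S.F := by ring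
      _ ≤ _ := mul_le_mul_of_nonneg_right (pow_le_pow_right₀ D1 (by norm_num)) (by linarith)

end Cy

end Crest.Agent.T156.Alt.X84

end
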