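import Crest.Agent.T156.TxC_65

/-!
# Row 156, block (L): the corner context is monotone in its loss (helper65)
-/

set_option autoImplicit false

noncomputable section

namespace Crest.Agent.T156.Alt.L31

open Real

theorem up65 {D D' x y : ℝ} (D0 : 0 < D) (h : D ≤ D') (x0 : 0 ≤ x) (b : x ≤ D * y) : x ≤ D' * y :=
  b.trans (mul_le_mul_of_nonneg_right h (nonneg_of_mul_nonneg_right (x0.trans b) D0 |> id))

variable {D D' E Λ L W3 lam : ℝ} {S : Sc} {M : Md} {m : ℕ} {a : ℝ} {p : Pa}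

theorem Cw.D1 (W : Cw D E Λ L W3 lam S M m a p) : 1 ≤ D := W.Z.Λ1.trans W.Z.ΛD

theorem Cw.mono (W : Cw D E Λ L W3 lam S M m a p) (h : D ≤ D') (hE : D' ^ 500 ≤ E) :
    Cw D' E Λ L W3 lam S M m a p := by
  have d1 := W.D1
  have d0 : 0 < D := by linarith
  have c := W.Z.A.cl
  have Z := W.Z
  have ln := Z.ln
  have C0 := c.C0
  have E1 := Z.E1
  have l0 : 0 < p.l0 := Tg64.l0_pos c E1 ln.l0s
  have G00 : 0 ≤ p.G0 := le_trans (by positivity) ln.g0a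
  have X20 : 0 ≤ p.X2 := le_trans (by positivity) ln.x2a
  have X30 : 0 ≤ p.X3 := le_trans (by positivity) ln.x3a
  have η1 : 0 ≤ p.η 1 := (X30.trans (Sz9.X3_η c ln C0 ((Tg64.le1 E1 ln.l1).trans c.C1) le_rfl G00
    X20)).trans (ln.ηa c.C1)
  obtain ⟨t2, t3, pa⟩ := W.tp
  refine ⟨⟨Z.A, Z.ce, Z.ln, Z.ni, Z.no, Z.Vl, Z.hW, Z.CD.trans h, Z.Λ1, Z.ΛD.trans h, Z.LD.trans h,
    Z.lg.trans h, (pow_le_pow_right₀ (d1.trans h) (by norm_num)).trans hE, Z.hv, Z.mn, Z.hθ⟩,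
    W.fn, W.lL, hE, W.θ1, W.vθ, W.j0, W.γ0, W.far,
    ⟨t2.trans (mul_le_mul_of_nonneg_right h X20),
      t3.trans (mul_le_mul_of_nonneg_right h (by linarith)),
      pa.trans (mul_le_mul_of_nonneg_right h (sq_nonneg _))⟩,
    fun k x y => (W.outX k x y).mono d1 h, fun k x y => (W.out k x y).mono d1 h,
    fun k κ e b1 b2 b3 b4 b5 => up65 d0 h ?_ (W.sw k κ e b1 b2 b3 b4 b5)⟩
  exact E61.u4_nn k

end Crest.Agent.T156.Alt.L31

end
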