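import Crest.Agent.T156.TxL_8
import Crest.Agent.T156.TopM_47
import Crest.Agent.T156.TxT_48
import Crest.Agent.T156.TL1cD_74

/-!
Row 156, block (L) (helper84): the continuation above the bulk from the three zones.
-/

set_option autoImplicit false

noncomputable section

namespace Crest.Agent.T156.Alt.X84

open MeasureTheory Set Real
open Crest.Agent.R164.GC Crest.Agent.R339.B Crest.Agent.R339.Var Crest.Agent.T157.Pf
open Crest.Agent.T156.Spl27 Crest.Agent.T156.Zb9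
open Crest.Agent.T156.Cut8 Crest.Agent.T156.Alt.Mp9 Crest.Agent.T156.Alt.L25
open Crest.Agent.T156.Gap27 (resN)
open Crest.Agent.T156.Alt.C74 (JJ)

variable {S : Sc} {M : Md} {m : ℕ} {a T : ℝ}

/-- **the continuation above the bulk** -/
theorem fin (A : At S M m a T) {c0 C' : ℝ} (F : Fr T c0 C' (okT T) (lvr 1) Pr.Gam Pr.GG)
    {L x N N' ν τ γ y Gm Rs βs κ c θ' u2 X1 W Y A1 A0 En : ℝ} {v v2 w : ℕ}
    (h2 : TM S M m a T L x N ν τ γ y Gm Rs (At.e48 S) (At.t48 S) βs v v2 w)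
    (h3 : At.TO S M m a T L κ c θ' βs N' u2 v w) (hθ : 1 ≤ L * θ') (W0 : 0 ≤ W)
    (h1 : Z1e S M m a T (resN (lb M S m a T) M.b (sb M m a) (hb M) (v + 1)) βs (sb M m a (v + 1))
      (ys S M m a v2) (sb M m a (w + 1)) X1 W Y (At.e48 S)) (hY : L ^ 23 * N' ≤ Y)
    (hY' : L ^ 6 * N ≤ Y) (hs : sb M m a (v + 1) ≤ M.s S.J)
    (a0 : 0 ≤ A1) (a1 : A1 ≤ sb M m a (v + 1)) (b0 : 0 ≤ A0) (b1 : A0 ≤ sb M m a (v + 1))
    (hE : (∫ t in A0..T, JJ M S m a T t ^ 2) + (∫ t in (0 : ℝ)..A0, |JJ M S m a T t|) ^ 2 ≤ En) :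
    Cont T (uu M S m a T) (rr S M m a T) (resN (lb M S m a T) M.b (sb M m a) (hb M) (v + 1)) βs A1
      (sb M m a (v + 1)) (X1 + 17 * θ' * En + 11 * Y)
      (QT S M m a T (sb M m a (v + 1)) (8 * u2) (320 * L ^ 3 + W) En Y) := by
  obtain ⟨P, PT, Pu, hc⟩ := h3.cont
  obtain ⟨v1, v2', v3, v4, v5⟩ := h2.v1
  have C1 := A.cl.C1
  have L64 : 64 ≤ L := by linarith [h2.L1]
  have L1 : 1 ≤ L := by linarith
  have θ0 := A.cl.θ0
  have sy : sb M m a (v + 1) ≤ ys S M m a v2 := le_min (A.sb_mono (by omega)) hs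
  have yM : ys S M m a v2 ≤ sb M m a (w + 1) := (min_le_left _ _).trans (A.sb_mono (by omega))
  have yJ : ys S M m a v2 ≤ M.s S.J := min_le_right _ _
  have sJ : M.s S.J ≤ M.s S.Jp := A.cl.sm A.cl.i3
  have hE' : ∫ t in A0..T, Jf T (lvr 1 (lh M T)) (lvr 1 (lb M S m a T)) t ^ 2 ≤ En :=
    le_trans (le_add_of_nonneg_right (sq_nonneg _)) hE
  have H := h2.md3 A hθ b0 (b1.trans sy) hE'
  obtain ⟨ν0, -, νN, -⟩ := h2.ν0
  have N0 : 0 ≤ N := by linarith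
  obtain ⟨τ1, -, τ3, -⟩ := h2.τ0
  obtain ⟨γ1, -, -, γ4⟩ := h2.γ0
  have τ0 : 0 ≤ τ := le_trans (by have := A.cl.v0; positivity) τ1
  have p1 : L * N ≤ L ^ 6 * N :=
    mul_le_mul_of_nonneg_right (le_self_pow₀ L1 (by norm_num)) N0
  have p0 : N ≤ L * N := le_mul_of_one_le_left N0 L1
  have hw : S.θ * (2 * S.C * τ * τ ^ 2) ≤ Y := by
    have := mul_le_mul (show 2 * S.C ≤ L by linarith [h2.L1]) τ3 (by positivity) (by linarith)
    linarith
  have hγ : S.θ * (M.s S.Jp - M.s S.J) ^ 2 ≤ Y := by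
    have := mul_le_mul_of_nonneg_left (pow_le_pow_left₀ (by linarith) γ1 2) θ0.le
    linarith
  have k := chainE A (X2 := 9 * θ' * En + L ^ 6 * N) a0 a1 sy yJ yM (A.sb_mem v5).2 PT h2.β0.1 W0 L1
    h3.κ1 h3.c1 h3.b1 h3.e1 h3.gap H.w0 τ0 (fun t c d => H.pos t c.le d)
    (fun t c d => H.dlo t ⟨c.le, d⟩) hw hγ hY Pu b0 (by linarith) hE' h1
    (h2.seg A F hθ b0 (b1.trans sy) hE')
    (hc A1 A0 En a0 (by linarith) b0 (by linarith) hE)
  exact k.mono (by linarith) fun _ _ q => q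

end Crest.Agent.T156.Alt.X84

end
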