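import Crest.Agent.T156.Lag_8
import Crest.Agent.T156.ClLev_27
import Crest.Agent.T156.TopD_36
import Crest.Agent.T156.L0B_49

/-!
# Row 156, text (L) (helper8): the zone between the bulk and the corner
-/

set_option autoImplicit false

noncomputable section

namespace Crest.Agent.T156.Cut8

open MeasureTheory Set intervalIntegral

variable {T : ℝ}

/-- the difference falls on `[p, q)` -/
theorem fall_cube {p q c1 κ : ℝ} {d : ℝ → ℝ} (ld : LB T d) (p0 : 0 ≤ p) (pq : p ≤ q) (qT : q ≤ T)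
    (hc : 0 < c1) (κ0 : 0 ≤ κ) (h : ∀ s t, p ≤ s → s ≤ t → t < q →
      c1 * (t - s) - c1 / 4 * (q - p) - κ ≤ d s - d t) :
    c1 ^ 3 * (q - p) ^ 3 ≤ 256 * c1 * (∫ t in p..q, d t ^ 2) + 512 * κ ^ 3 := by
  set g := q - p with hg
  have g0 : 0 ≤ g := by linarith
  have m1 : p ∈ Icc 0 T := ⟨p0, pq.trans qT⟩
  have m2 : p + g / 2 ∈ Icc 0 T := ⟨by linarith, by linarith⟩
  have m3 : q ∈ Icc 0 T := ⟨p0.trans pq, qT⟩
  have e : ∫ t in (p + g / 2)..q, d t ^ 2 = ∫ t in p..(p + g / 2), d (t + g / 2) ^ 2 := by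
    rw [intervalIntegral.integral_comp_add_right (fun t => d t ^ 2)]
    congr 1; rw [hg]; ring
  have i2 : IntervalIntegrable (fun t => d (t + g / 2) ^ 2) volume p (p + g / 2) := by
    have := (ld.sq.ii m2 m3).comp_add_right (g / 2)
    rwa [show p + g / 2 - g / 2 = p by ring, show q - g / 2 = p + g / 2 by rw [hg]; ring] at this
  have k := intervalIntegral.integral_mono_on_of_le_Ioo (show p ≤ p + g / 2 by linarith)
    (intervalIntegrable_const (c := (c1 * g) ^ 2 / 64 - κ ^ 2 / 2)) ((ld.sq.ii m1 m2).add i2)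
    fun s hs => by
      have a := h s (s + g / 2) hs.1.le (by linarith) (by linarith [hs.2])
      have b : c1 * g / 4 ≤ |d s - d (s + g / 2)| + κ := by
        linarith [le_abs_self (d s - d (s + g / 2))]
      have b2 := pow_le_pow_left₀ (by positivity) b 2
      nlinarith [sq_nonneg (|d s - d (s + g / 2)| - κ), sq_abs (d s - d (s + g / 2)),
        sq_nonneg (d s + d (s + g / 2))]
  rw [intervalIntegral.integral_add (ld.sq.ii m1 m2) i2, ← e, ← int_split ld.sq m1 m2 m3] at k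
  simp only [intervalIntegral.integral_const, smul_eq_mul, add_sub_cancel_left] at k
  have k2 := mul_le_mul_of_nonneg_left k hc.le
  set x := c1 * g with hx
  have x0 : 0 ≤ x := by positivity
  have k3 : 32 * κ ^ 2 * x ≤ x ^ 3 / 2 + 256 * κ ^ 3 := by
    rcases le_total x (8 * κ) with c | c
    · nlinarith [mul_le_mul_of_nonneg_left c (sq_nonneg κ), pow_nonneg x0 3]
    · nlinarith [mul_le_mul_of_nonneg_right (pow_le_pow_left₀ (by positivity) c 2) x0,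
        pow_nonneg κ0 3]
  have e3 : c1 ^ 3 * g ^ 3 = x ^ 3 := by rw [hx]; ring
  have e4 : c1 * (g / 2 * (x ^ 2 / 64 - κ ^ 2 / 2)) = x ^ 3 / 128 - κ ^ 2 * x / 4 := by
    rw [hx]; ring
  rw [e3]
  rw [e4] at k2
  linarith

theorem numI1 {lam M ℓ τ Dq α : ℝ} (hl : 0 < lam) (M0 : 0 < M) (l0 : 0 ≤ ℓ) (τ0 : 0 ≤ τ)
    (D0 : 0 ≤ Dq) (α0 : 0 ≤ α) (hα : α ≤ M * (τ + lam * (ℓ + Dq))) :
    ℓ * (α ^ 2 / M) ≤ 3 * M * (τ ^ 3 / lam + 3 * (lam ^ 2 * ℓ ^ 3) + lam ^ 2 * Dq ^ 3) := by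
  have a1 : α ^ 2 / M ≤ 3 * M * (τ ^ 2 + lam ^ 2 * ℓ ^ 2 + lam ^ 2 * Dq ^ 2) := by
    rw [div_le_iff₀ M0]
    have b : (τ + lam * (ℓ + Dq)) ^ 2 ≤ 3 * (τ ^ 2 + lam ^ 2 * ℓ ^ 2 + lam ^ 2 * Dq ^ 2) := by
      nlinarith [sq_nonneg (τ - lam * ℓ), sq_nonneg (τ - lam * Dq), sq_nonneg (lam * ℓ - lam * Dq)]
    calc α ^ 2 ≤ (M * (τ + lam * (ℓ + Dq))) ^ 2 := pow_le_pow_left₀ α0 hα 2
      _ = M ^ 2 * (τ + lam * (ℓ + Dq)) ^ 2 := by ring
      _ ≤ M ^ 2 * (3 * (τ ^ 2 + lam ^ 2 * ℓ ^ 2 + lam ^ 2 * Dq ^ 2)) := by gcongr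
      _ = _ := by ring
  have a2 : ℓ * τ ^ 2 ≤ τ ^ 3 / lam + lam ^ 2 * ℓ ^ 3 := by
    rcases le_total (lam * ℓ) τ with c | c
    · have : ℓ * τ ^ 2 ≤ τ ^ 3 / lam := by
        rw [le_div_iff₀ hl]; linarith [mul_le_mul_of_nonneg_left c (sq_nonneg τ)]
      have : 0 ≤ lam ^ 2 * ℓ ^ 3 := by positivity
      linarith
    · have := mul_le_mul_of_nonneg_left (pow_le_pow_left₀ τ0 c 2) l0
      have : 0 ≤ τ ^ 3 / lam := by positivity
      linarith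
  have a3 : ℓ * Dq ^ 2 ≤ ℓ ^ 3 + Dq ^ 3 := by
    rcases le_total ℓ Dq with c | c
    · linarith [mul_le_mul_of_nonneg_right c (sq_nonneg Dq), pow_nonneg l0 3]
    · linarith [mul_le_mul_of_nonneg_left (pow_le_pow_left₀ D0 c 2) l0, pow_nonneg D0 3]
  have b := mul_le_mul_of_nonneg_left a3 (sq_nonneg lam)
  calc _ ≤ ℓ * (3 * M * (τ ^ 2 + lam ^ 2 * ℓ ^ 2 + lam ^ 2 * Dq ^ 2)) := by gcongr
    _ = 3 * M * (ℓ * τ ^ 2 + lam ^ 2 * ℓ ^ 3 + lam ^ 2 * (ℓ * Dq ^ 2)) := by ring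
    _ ≤ _ := mul_le_mul_of_nonneg_left (by linarith) (by positivity)

theorem numI2 {c1 ν P Q ℓ k : ℝ} (hc : 0 < c1) (ν0 : 0 ≤ ν) (P0 : 0 ≤ P) (l0 : 0 ≤ ℓ) (k0 : 0 ≤ k)
    (h2 : c1 ^ 2 * ℓ ^ 3 ≤ 256 * P + 512 * k) (h3 : ν ^ 2 * P ≤ Q + ℓ * ν ^ 4 / 4) :
    ν ^ 2 * P ≤ 2 * Q + 6 * (ν ^ 5 / c1) + 2 * (ν ^ 2 * k) := by
  have a6 : ℓ * ν ^ 4 ≤ 12 * (ν ^ 5 / c1) + ν ^ 2 * (c1 ^ 2 * ℓ ^ 3) / 144 := by
    rcases le_total (c1 * ℓ) (12 * ν) with c | c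
    · have : ℓ * ν ^ 4 ≤ 12 * (ν ^ 5 / c1) := by
        rw [← mul_div_assoc, le_div_iff₀ hc]
        linarith [mul_le_mul_of_nonneg_right c (pow_nonneg ν0 4)]
      have : 0 ≤ ν ^ 2 * (c1 ^ 2 * ℓ ^ 3) / 144 := by positivity
      linarith
    · have := mul_le_mul_of_nonneg_left (pow_le_pow_left₀ (by positivity) c 2)
        (mul_nonneg (sq_nonneg ν) l0)
      have : 0 ≤ ν ^ 5 / c1 := by positivity
      linarith
  have b := mul_le_mul_of_nonneg_left h2 (sq_nonneg ν)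
  have : 0 ≤ ν ^ 2 * P := by positivity
  have : 0 ≤ ν ^ 2 * k := by positivity
  linarith

theorem numI {θ c1 lam m ν P Q ℓ κ τ Dq α : ℝ} (hθ : 0 < θ) (hc : 0 < c1) (hl : 0 < lam)
    (hm : 0 < m) (ν0 : 0 ≤ ν) (P0 : 0 ≤ P) (l0 : 0 ≤ ℓ) (κ0 : 0 ≤ κ) (τ0 : 0 ≤ τ) (D0 : 0 ≤ Dq)
    (α0 : 0 ≤ α) (hα : α ≤ (m + ν ^ 2) * (τ + lam * (ℓ + Dq)))
    (h1 : 4608 * lam ^ 2 ≤ θ ^ 2 * c1 ^ 2)
    (h2 : c1 ^ 3 * ℓ ^ 3 ≤ 256 * c1 * P + 512 * κ ^ 3) (h3 : ν ^ 2 * P ≤ Q + ℓ * ν ^ 4 / 4) :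
    2 * θ * (m + ν ^ 2) * P + 2 / θ * (ℓ * (α ^ 2 / (m + ν ^ 2))) ≤
      3 * θ * (m * P) + 6 * θ * Q + (m + ν ^ 2) * (6 * τ ^ 3 / (θ * lam) +
        6 * lam ^ 2 / θ * Dq ^ 3 + 8 * θ / c1 * κ ^ 3) + 18 * θ / c1 * ν ^ 5 := by
  obtain ⟨M, hM⟩ : ∃ M, M = m + ν ^ 2 := ⟨_, rfl⟩
  rw [← hM] at hα ⊢
  have M0 : 0 < M := by rw [hM]; positivity
  have a4 := numI1 hl M0 l0 τ0 D0 α0 hα
  have h2' : c1 ^ 2 * ℓ ^ 3 ≤ 256 * P + 512 * (κ ^ 3 / c1) := by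
    refine le_of_mul_le_mul_left ?_ hc
    have : c1 * (256 * P + 512 * (κ ^ 3 / c1)) = 256 * c1 * P + 512 * κ ^ 3 := by field_simp
    rw [this]; linarith
  have k0 : 0 ≤ κ ^ 3 / c1 := by positivity
  have a5 : 18 / θ * (lam ^ 2 * ℓ ^ 3) ≤ θ * (P + 2 * (κ ^ 3 / c1)) := by
    rw [div_mul_eq_mul_div, div_le_iff₀ hθ]
    have b := mul_le_mul_of_nonneg_right h1 (pow_nonneg l0 3)
    have c := mul_le_mul_of_nonneg_left h2' (sq_nonneg θ)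
    linarith
  have a7 := numI2 hc ν0 P0 l0 k0 h2' h3
  have b1 := mul_le_mul_of_nonneg_left a4 (show 0 ≤ 2 / θ by positivity)
  have b2 := mul_le_mul_of_nonneg_left a5 M0.le
  have b3 := mul_le_mul_of_nonneg_left a7 hθ.le
  have b4 : θ * (ν ^ 2 * (κ ^ 3 / c1)) ≤ θ * (M * (κ ^ 3 / c1)) :=
    mul_le_mul_of_nonneg_left (mul_le_mul_of_nonneg_right (by linarith) k0) hθ.le
  have e1 : 2 / θ * (3 * M * (τ ^ 3 / lam + 3 * (lam ^ 2 * ℓ ^ 3) + lam ^ 2 * Dq ^ 3)) =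
      M * (6 * τ ^ 3 / (θ * lam)) + M * (18 / θ * (lam ^ 2 * ℓ ^ 3)) +
        M * (6 * lam ^ 2 / θ * Dq ^ 3) := by field_simp; ring
  have e2 : M * (6 * τ ^ 3 / (θ * lam) + 6 * lam ^ 2 / θ * Dq ^ 3 + 8 * θ / c1 * κ ^ 3) =
      M * (6 * τ ^ 3 / (θ * lam)) + M * (6 * lam ^ 2 / θ * Dq ^ 3) +
        8 * (θ * (M * (κ ^ 3 / c1))) := by ring
  have e3 : 18 * θ / c1 * ν ^ 5 = 18 * (θ * (ν ^ 5 / c1)) := by ring
  have e4 : θ * M * P = θ * (m * P) + θ * (ν ^ 2 * P) := by rw [hM]; ring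
  rw [e1] at b1
  rw [e2, e3]
  linarith

/-- **one fall as a segment** -/
theorem segI {d ρ ζ J : ℝ → ℝ} {s y c0 βs m ν θ lam c1 τ α Dq A1 A2 κ ι : ℝ} (ld : LB T d)
    (lζ : LB T ζ) (lJ : LB T J) (s0 : 0 ≤ s) (sy : s ≤ y) (yT : y ≤ T) (hm : 0 < m) (ν0 : 0 ≤ ν)
    (hθ : 0 < θ) (hc : 0 < c1) (hl : 0 < lam) (κ0 : 0 ≤ κ) (τ0 : 0 ≤ τ) (D0 : 0 ≤ Dq)
    (β0 : 0 ≤ βs) (α0 : 0 ≤ α) (hα : α ≤ (m + ν ^ 2) * (τ + lam * (y - s + Dq)))
    (h1 : 4608 * lam ^ 2 ≤ θ ^ 2 * c1 ^ 2) (h4 : A1 + A2 ^ 2 / θ ≤ θ * (m + ν ^ 2))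
    (pt : ∀ t, s ≤ t → t < y → ∃ r, (ρ t + m * d t - c0) * d t ≤ r * d t + ζ t * |d t| ∧ 0 ≤ ζ t ∧
      |r| + βs ≤ α + A1 * |d t| + A2 * (|J t| + ι))
    (fall : ∀ p t, s ≤ p → p ≤ t → t < y → c1 * (t - p) - c1 / 4 * (y - s) - κ ≤ d p - d t) :
    Seg T d ρ c0 βs s y (3 * θ * (m * ∫ t in s..y, d t ^ 2) +
      θ * (6 * (∫ t in s..y, d t ^ 4) + (∫ t in s..y, J t ^ 2) + (y - s) * ι ^ 2) +
      2 / (θ * m) * (∫ t in s..y, ζ t ^ 2) + (m + ν ^ 2) * (6 * τ ^ 3 / (θ * lam) +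
        6 * lam ^ 2 / θ * Dq ^ 3 + 8 * θ / c1 * κ ^ 3) + 18 * θ / c1 * ν ^ 5)
      (m * ∫ t in s..y, d t ^ 2) := by
  set M := m + ν ^ 2 with hM
  have M0 : 0 < M := by positivity
  have ms : s ∈ Icc 0 T := ⟨s0, sy.trans yT⟩
  have my : y ∈ Icc 0 T := ⟨s0.trans sy, yT⟩
  have l4 : LB T fun t => d t ^ 4 := by simpa only [← pow_mul] using ld.sq.sq
  have k1 := (LB.const (2 * θ * M)).mul ld.sq
  have k2 := (LB.const θ).mul lJ.sq
  have k3 := LB.const (T := T) (θ * ι ^ 2 + 2 / θ * (α ^ 2 / M))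
  have k4 := (LB.const (2 / (θ * m))).mul lζ.sq
  refine ⟨fun t => m * d t, _, (LB.const m).mul ld, ((k1.add k2).add k3).add k4,
    fun t a b => ⟨by rw [mul_assoc]; exact mul_nonneg hm.le (mul_self_nonneg _), by positivity, ?_⟩,
    ?_, by rw [← intervalIntegral.integral_const_mul]; exact integral_congr fun t _ => by ring⟩
  · obtain ⟨r, p1, p2, p3⟩ := pt t a b
    have y2 := Gap27.young2 (r := |r| + βs + ζ t) (d := |d t|) (J := J t) (ι := ι) (A0 := α + ζ t)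
      (A1 := A1) (A2 := A2) (f := 2 * (α ^ 2 + ζ t ^ 2) / (θ ^ 2 * M)) hθ M0 (by positivity)
      (by rw [abs_of_nonneg (by positivity), abs_abs]; linarith)
      (by rw [mul_div_cancel₀ _ (by positivity)]; nlinarith [sq_nonneg (α - ζ t)]) h4
    have e : r * d t ≤ |r| * |d t| := (le_abs_self _).trans_eq (abs_mul _ _)
    have q : 2 / (θ * M) * ζ t ^ 2 ≤ 2 / (θ * m) * ζ t ^ 2 :=
      mul_le_mul_of_nonneg_right (div_le_div_of_nonneg_left (by norm_num) (by positivity)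
        (mul_le_mul_of_nonneg_left (by linarith [sq_nonneg ν]) hθ.le)) (sq_nonneg _)
    have e2 : θ * (2 * M * |d t| ^ 2 + J t ^ 2 + ι ^ 2 + 2 * (α ^ 2 + ζ t ^ 2) / (θ ^ 2 * M)) =
        2 * θ * M * d t ^ 2 + θ * J t ^ 2 + (θ * ι ^ 2 + 2 / θ * (α ^ 2 / M)) +
          2 / (θ * M) * ζ t ^ 2 := by rw [sq_abs]; field_simp; ring
    rw [e2] at y2
    linarith
  · rw [intervalIntegral.integral_add (((k1.add k2).add k3).ii ms my) (k4.ii ms my),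
      intervalIntegral.integral_add ((k1.add k2).ii ms my) (k3.ii ms my),
      intervalIntegral.integral_add (k1.ii ms my) (k2.ii ms my), intervalIntegral.integral_const,
      smul_eq_mul]
    simp only [intervalIntegral.integral_const_mul]
    have q := int_mono ((LB.const (ν ^ 2)).mul ld.sq) (l4.add (LB.const (ν ^ 4 / 4))) s0 sy yT
      fun t _ _ => by nlinarith [sq_nonneg (d t ^ 2 - ν ^ 2 / 2)]
    rw [intervalIntegral.integral_add (l4.ii ms my) ((LB.const _).ii ms my),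
      intervalIntegral.integral_const, smul_eq_mul, intervalIntegral.integral_const_mul] at q
    have := numI (Q := ∫ t in s..y, d t ^ 4) hθ hc hl hm ν0
      (intervalIntegral.integral_nonneg sy fun t _ => sq_nonneg (d t)) (sub_nonneg.2 sy) κ0 τ0 D0 α0
      hα h1 (fall_cube ld s0 sy yT hc κ0 fall) (by linarith)
    linarith

end Crest.Agent.T156.Cut8

namespace Crest.Agent.T156.Gap27

open MeasureTheory Set
open Crest.Agent.R164.GC Crest.Agent.R339.B Crest.Agent.R339.Var Crest.Agent.T157.Pf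
open Crest.Agent.T156.Pp.Ode3 Crest.Agent.T156.L0 Crest.Agent.T156.Cut8

variable {lb lh : List (ℝ × ℝ)} {T C : ℝ}

/-- the residual inside a gap, the reference is read at the time `t` only -/
theorem gap_one (hC : 0 ≤ C) (hA : HLip Pr.AA T C) (hN : HLip Pr.NN T C) (hb : Pr.Ok lb)
    (hh : Pr.Ok lh) (eb : TT lb = T) (eh : TT lh = T)
    (hL : ∀ s t : ℝ, 0 ≤ s → s ≤ t → t ≤ T →
      |Gd lb t - Gd lb s| ≤ C * (t - s) + 2 * (lvr 1 lb t - lvr 1 lb s))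
    {φ : ℝ → ℝ} {b p q Dz jh D η t : ℝ} (p0 : 0 ≤ p) (qT : q ≤ T)
    (hz : lvr 1 lb q - lvr 1 lb p ≤ Dz) (hj : |Gd lh t| ≤ jh) (hD : ∀ s ∈ Icc p q, |φ s - φ p| ≤ D)
    (hp : |Pr.Gam lb p - p / b + φ p| ≤ η) (hq : |Pr.Gam lb q - q / b + φ q| ≤ η)
    (ht : t ∈ Icc p q) :
    |Pr.Gam lb t - t / b + φ t| ≤ 3 * η + 2 * D + 2 * (jh + C * (q - p) + 2 * Dz +
      2 * |lvr 1 lb t - lvr 1 lh t| +
        3 * C * (|Sc48.Jf lh lb T t| + ∫ s in (0 : ℝ)..T, |Sc48.Jf lh lb T s|)) * (q - p) ^ 2 := by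
  have hpq : p ≤ q := ht.1.trans ht.2
  have mb := Sc48.lvr_mono hb.1
  have a := Gd_le_ref hA hN hb hh eb eh (t := t) ⟨p0.trans ht.1, ht.2.trans qT⟩
  have k : ∀ r ∈ Icc p q, |Gd lb r| ≤ jh + C * (q - p) + 2 * Dz + 2 * |lvr 1 lb t - lvr 1 lh t| +
      3 * C * (|Sc48.Jf lh lb T t| + ∫ s in (0 : ℝ)..T, |Sc48.Jf lh lb T s|) := fun r hr => by
    have := abs_sub_abs_le_abs_sub (Gd lb r) (Gd lb t)
    have := mb hr.1; have := mb hr.2; have := mb ht.1; have := mb ht.2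
    rcases le_total r t with c | c
    · have e := hL r t (p0.trans hr.1) c (ht.2.trans qT)
      rw [abs_sub_comm] at e
      have := mul_le_mul_of_nonneg_left (show t - r ≤ q - p by linarith [hr.1, ht.2]) hC
      linarith
    · have e := hL t r (p0.trans ht.1) c (hr.2.trans qT)
      have := mul_le_mul_of_nonneg_left (show r - t ≤ q - p by linarith [hr.2, ht.1]) hC
      linarith
  have ap := ap_of_ok hb
  have sub : Icc p q ⊆ Icc 0 (TT lb) := Icc_subset_Icc p0 (by rw [eb]; exact qT)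
  exact gap_core (R := fun s => Gam lb s - s / b) (u := fun s => Gp lb s - 1 / b) (u' := Gd lb)
    (φ := φ) (D := D) (η := η) (((Gam_cont ap).mono sub).sub (by fun_prop))
    (((Gp_cont ap).mono sub).sub continuousOn_const)
    (fun r hr => (Gam_rder ap (p0.trans hr.1) (by rw [eb]; exact hr.2.trans_le qT)).sub
      ((hasDerivWithinAt_id r (Ici r)).div_const b))
    (fun r hr => (Gp_rder ap (p0.trans hr.1) (by rw [eb]; exact hr.2.trans_le qT)).sub_const _)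
    ((abs_nonneg _).trans (k t ht)) (fun r hr => k r ⟨hr.1, hr.2.le⟩) hD hp hq ht

end Crest.Agent.T156.Gap27

end
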