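import Crest.Agent.T156.TxX_84
import Crest.Agent.T156.TxU_12
import Crest.Agent.T156.TopG_51
import Crest.Agent.T156.TxN_48
import Crest.Agent.T156.TL1c_74

/-!
# Row 156, block (L): the data of the middle zone in the context of `TxS` (helper12)
-/

set_option autoImplicit false

noncomputable section

namespace Crest.Agent.T156.Alt.X84.Cy

open Real
open Crest.Agent.R164.GC Crest.Agent.R339.B Crest.Agent.R339.Var Crest.Agent.T157.Pf
open Crest.Agent.T156.Alt.Mp9 Crest.Agent.T156.Alt.L69 Crest.Agent.T156.Alt.L31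
open Crest.Agent.T156.Pr.Reg48 (Sm)

variable {E : ℝ} {S : Sc} {M : Md} {m : ℕ} {a : ℝ} {c : Dt} (Y : Cy E S M m a c)
include Y

theorem E12 : 10000 ≤ c.D ∧ c.D ≤ E :=
  ⟨Y.cw.Z.D4, (le_self_pow₀ Y.cw.D1 (by norm_num)).trans Y.cw.DE⟩

theorem U12 : Tm12 E S M c.p := tm12 Y.tw Y.hx Y.cw.θ1 (by linarith [Y.E12.1, Y.E12.2])

/-- the class cost is below the unit of the costs -/
theorem nb12 : S.F ^ 10 * c.p.N ≤ Nb S M c := by
  have h := Y.tw.at'.cl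
  have t4 : c.t4 ≤ S.C := by
    rcases le_total c.t4 0 with d | d
    · linarith [h.C0]
    · exact (le_mul_of_one_le_left d (by linarith [Y.E12.1, Y.E12.2])).trans Y.t4
  have x4 : 0 ≤ c.X4 := C74.L4_nn h Y.hx.ln.V0 Y.hx.ln.X0.le h.C0 le_rfl
    fun t a1 a2 => Y.l4 t (t4.trans a1) a2
  have cb := C74.cB_nn h c.p.η c.t4 S.C
  have F1 := h.F1
  refine mul_le_mul_of_nonneg_left ?_ (by positivity)
  have : (0 : ℝ) ≤ 1 / (S.n : ℝ) ^ 3 := by positivity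
  unfold Nn
  linarith [sq_nonneg c.p.X2]

/-- the floor of the costs -/
theorem nu12 : 0 < 1 / (S.n : ℝ) ^ 2 ∧ 1 / (S.n : ℝ) ^ 2 ≤ 1 ∧ 1 / (S.n : ℝ) ^ 2 ≤ c.p.N ∧
    log (1 + 2 * S.C / (1 / (S.n : ℝ) ^ 2)) ≤ 3 * c.D ∧ S.C * S.v ≤ 1 / (S.n : ℝ) ^ 2 := by
  have A := Y.tw.at'
  have h := A.cl
  have Z := Y.cw.Z
  have C1 := h.C1
  have θ0 := h.θ0
  have n1 : (1 : ℝ) ≤ S.n := by exact_mod_cast h.n1
  have n2 : (1 : ℝ) ≤ (S.n : ℝ) ^ 2 := one_le_pow₀ n1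
  have B := X48.at48 A Y.hx (by linarith [Y.E12.1, Y.E12.2]) Y.cw.θ1
  have q0 : (0 : ℝ) < 1 / S.n := by positivity
  have q1 : (1 : ℝ) / S.n ≤ 1 := (div_le_one (by linarith)).2 n1
  refine ⟨by positivity, (div_le_one (by linarith)).2 n2, ?_, ?_,
    (le_div_iff₀ (by linarith)).2 Z.hv⟩
  · rw [← one_div_pow]
    rcases min_le_iff.1 Y.hx.lc.c8 with d | d
    · refine le_trans ?_ ((rpow_le_rpow q0.le B.a7.1 (by norm_num)).trans d)
      rw [← rpow_natCast]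
      exact rpow_le_rpow_of_exponent_ge q0 q1 (by norm_num)
    · exact ((pow_le_pow_left₀ q0.le B.a7.1 2).trans
        (le_div_self (sq_nonneg _) θ0 Y.cw.θ1)).trans d
  · rw [div_div_eq_mul_div, div_one]
    have k1 : 1 + 2 * S.C * (S.n : ℝ) ^ 2 ≤ 3 * S.C * (S.n : ℝ) ^ 2 := by
      linarith [one_le_mul_of_one_le_of_one_le C1 n2]
    refine (log_le_log (by positivity) k1).trans ?_
    rw [log_mul (by positivity) (by positivity), log_pow]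
    have := log_le_sub_one_of_pos (show 0 < 3 * S.C by positivity)
    have k2 := Z.Cp (k := 1) (by norm_num)
    rw [pow_one] at k2
    push_cast
    linarith [Z.lg]

set_option maxHeartbeats 800000 in
/-- **the data of the middle zone** -/
theorem tm12 {v v1 v2 w : ℕ} (n : Nd S M m a c v v1 v2) {x N Rs βs : ℝ} (w1 : S.J ≤ w)
    (w2 : w ≤ S.Jp) (hN : c.D ^ 266 * S.F ^ 4 * c.p.N ≤ N) (hm : 1 / ((m : ℝ) + 1) ≤ x)
    (hx : Sm S.θ 1 N 1 x) (β0 : 0 ≤ βs) (β1 : βs ≤ x) (R0 : 0 ≤ Rs) (R1 : Rs ≤ x)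
    (rise : ∀ p q, ys S M m a v2 ≤ p → p ≤ q → q ≤ sb M m a (w + 1) →
      p - M.b * Pr.Gam (lb M S m a (2 * S.C)) p - Rs ≤
        q - M.b * Pr.Gam (lb M S m a (2 * S.C)) q)
    (aM : res M S m a (2 * S.C) v - res M S m a (2 * S.C) w ≤ x ∧ M.G w ≤ x)
    (cn : res M S m a (2 * S.C) v2 - res M S m a (2 * S.C) v ≤ x)
    (net : ∀ k, v2 ≤ k → k < w → (N / S.θ) ^ ((1 : ℝ) / 3) < M.z k - M.z (S.J - 1) →
      ∃ i K1 K2, S.J ≤ i ∧ i ≤ k ∧
      M.z k - M.z (S.J - 1) ≤ 4 * (M.z i - M.z (S.J - 1)) ∧ 0 ≤ K1 ∧ 0 ≤ K2 ∧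
      res M S m a (2 * S.C) i - res M S m a (2 * S.C) v ≤ x + K1 + K2 ∧
      (M.z k - M.z (S.J - 1)) * K1 ^ 2 ≤ S.θ * N ∧ (M.z k - M.z (S.J - 1)) * K2 ^ 3 ≤ N ^ 2) :
    ∃ Gm, TM S M m a (2 * S.C) (c.D ^ 6) x N (1 / (S.n : ℝ) ^ 2) (c.D ^ 44 * tc S c) c.p.γ
      ((N / S.θ) ^ ((1 : ℝ) / 3)) Gm Rs (At.e48 S) (At.t48 S) βs v v2 w := by
  have A := Y.tw.at'
  have h := A.cl
  have Z := Y.cw.Z
  have U := Y.U12
  have C0 := h.C0
  have C1 := h.C1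
  have F1 := h.F1
  have θ0 := h.θ0
  have θ1 := Y.cw.θ1
  have γ0 := Y.tw.γ0
  have τ0 := Y.tw.τ0
  obtain ⟨D4, DE⟩ := Y.E12
  obtain ⟨ν0, ν1, ν2, ν3, ν4⟩ := Y.nu12
  have D1 : 1 ≤ c.D := by linarith
  have D6 : c.D ≤ c.D ^ 6 := le_self_pow₀ D1 (by norm_num)
  have N0 := U.N0
  have cp : ∀ k, k ≤ 10 → 10000 * S.C ^ k ≤ c.D := fun k hk => Z.Cp hk
  have c1 := cp 1 (by norm_num)
  rw [pow_one] at c1
  -- the scale of costs
  have up : ∀ i j : ℕ, i ≤ 264 → j ≤ 4 →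
      1000 * (c.D ^ i * S.F ^ j * c.p.N) ≤ c.D ^ 265 * S.F ^ 4 * c.p.N := fun i j hi hj => by
    have e1 : c.D ^ i * S.F ^ j * c.p.N ≤ c.D ^ 264 * S.F ^ 4 * c.p.N :=
      mul_le_mul_of_nonneg_right (mul_le_mul (pow_le_pow_right₀ D1 hi) (pow_le_pow_right₀ F1 hj)
        (by positivity) (by positivity)) N0.le
    have e2 := mul_le_mul_of_nonneg_right D4
      (show 0 ≤ c.D ^ 264 * S.F ^ 4 * c.p.N by positivity)
    have e3 : 0 ≤ c.D ^ i * S.F ^ j * c.p.N := by positivity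
    linarith
  obtain ⟨N1, hN1⟩ : ∃ N1, N1 = c.D ^ 265 * S.F ^ 4 * c.p.N := ⟨_, rfl⟩
  have n0 : 0 ≤ N1 := by rw [hN1]; positivity
  have n1 : c.D * N1 ≤ N := by rw [hN1]; linarith
  have n2 : N1 ≤ N := (le_mul_of_one_le_left n0 D1).trans n1
  have n3 : c.p.N ≤ N1 := by
    have := up 0 0 (by norm_num) (by norm_num)
    rw [← hN1] at this
    simp only [pow_zero, one_mul] at this
    linarith
  have n4 : 125 * S.C ^ 9 * N1 ≤ N :=
    (mul_le_mul_of_nonneg_right (by linarith [cp 9 (by norm_num), pow_pos C0 9]) n0).trans n1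
  rw [← hN1] at up
  -- the margin
  have W1 : 1 ≤ c.D ^ 44 * S.F := one_le_mul_of_one_le_of_one_le (one_le_pow₀ D1) F1
  have t1 : c.D ^ 44 * tc S c = c.D ^ 44 * S.F * (c.p.τ + c.p.γ) := by unfold tc; ring
  have t0 : 0 ≤ c.D ^ 44 * tc S c := by rw [t1]; positivity
  obtain ⟨m1, m2, m3, -, m5⟩ := U.mar h γ0 (zero_le_one.trans W1) t0
    (t1.trans_le (mul_le_mul_of_nonneg_left U.cu (zero_le_one.trans W1)))
  have m1' : c.D ^ 44 * tc S c ≤ 1 := m1 (by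
    refine le_of_pow_le_pow_left₀ two_ne_zero (by linarith) ?_
    have e1 : (3 * c.D ^ 44) ^ 2 ≤ E := by
      have e2 : 3 * c.D ^ 44 ≤ c.D ^ 45 := by
        linarith [mul_le_mul_of_nonneg_right D4 (show 0 ≤ c.D ^ 44 by positivity),
          show 0 ≤ c.D ^ 44 by positivity]
      refine (pow_le_pow_left₀ (by positivity) e2 2).trans ?_
      rw [← pow_mul]
      exact (pow_le_pow_right₀ D1 (by norm_num)).trans Y.cw.DE
    have e2 : S.F ^ 2 ≤ E := (pow_le_pow_right₀ F1 (by norm_num)).trans Y.hx.F40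
    linarith [mul_le_mul e1 e2 (by positivity) (by linarith)])
  have hv : 2 * (S.C * S.v) ≤ c.D ^ 44 * tc S c := by
    have n1' : (1 : ℝ) ≤ S.n := by exact_mod_cast h.n1
    have ms0 := h.ms_pos zero_le_one
    have e1 : 1 / (S.n : ℝ) ^ 2 ≤ S.w3 1 := by
      unfold Sc.w3
      refine div_le_div₀ (by linarith) F1 (by positivity) ?_
      have := mul_le_mul_of_nonneg_left ((h.ms1 1).trans θ1) (show (0 : ℝ) ≤ S.n by linarith)
      linarith [le_self_pow₀ n1' two_ne_zero]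
    have w0 : 0 ≤ S.w3 1 := ν0.le.trans e1
    have e2 : S.w3 1 ≤ c.p.τ ^ 3 := by
      have := pow_le_pow_left₀ (rpow_nonneg w0 _) Y.tw.w1 3
      rwa [← rpow_natCast, ← rpow_mul w0, show (1 : ℝ) / 3 * (3 : ℕ) = 1 by norm_num,
        rpow_one] at this
    have e3 : c.D * c.p.τ ≤ c.D ^ 44 * tc S c := by
      rw [t1]
      exact mul_le_mul ((le_self_pow₀ D1 (by norm_num)).trans
        (le_mul_of_one_le_right (by positivity) F1)) (by linarith) τ0.le (by positivity)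
    have e4 := mul_le_mul_of_nonneg_right D4 τ0.le
    have e5 : c.p.τ ^ 3 ≤ c.p.τ := pow_le_of_le_one τ0.le (by linarith) three_ne_zero
    linarith
  have zv : M.z (S.J - 1) - c.D ^ 44 * tc S c ≤ M.z v2 := n.lo.trans (h.leg.zm n.o2.le)
  generalize c.D ^ 44 * tc S c = τ at *
  have b3 : S.θ * τ ^ 3 ≤ N1 := by
    linarith [up 132 3 (by norm_num) (by norm_num),
      show 0 ≤ c.D ^ 132 * S.F ^ 3 * c.p.N by positivity]
  have b6 : τ ^ 6 ≤ N1 := by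
    refine le_of_mul_le_mul_left (a := S.F ^ 2) (m3.trans ?_) (by positivity)
    linarith [mul_le_mul_of_nonneg_left (up 264 4 le_rfl le_rfl) (sq_nonneg S.F),
      show 0 ≤ c.D ^ 264 * S.F ^ 6 * c.p.N by positivity]
  have b7 : S.θ * c.p.γ * τ ≤ N1 := by
    linarith [up 44 2 (by norm_num) (by norm_num),
      show 0 ≤ c.D ^ 44 * S.F ^ 2 * c.p.N by positivity]
  have γ1 : c.p.γ ≤ 1 := (le_mul_of_one_le_left γ0 (by linarith)).trans U.γ1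
  have γ3 : S.θ * c.p.γ ^ 3 ≤ N1 :=
    ((mul_le_of_le_one_left (by positivity) θ1).trans U.γ3).trans n3
  have hG : GS M S (1 / (8 * S.C ^ 2)) S.C ≤ S.θ * N1 := by
    have e := Y.hx.lc.c2
    rw [div_le_iff₀ θ0] at e
    linarith [Nd33.GP_nn h, sq_nonneg c.p.G1, sq_nonneg (S.θ * c.p.γ),
      mul_le_mul_of_nonneg_left n3 θ0.le]
  have hl : M.s S.jl < 1 / (8 * S.C ^ 2) := by
    rw [lt_div_iff₀ (by positivity)]
    have s0 := h.s_nn S.jl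
    have e1 := mul_le_mul_of_nonneg_right ((cp 2 (by norm_num)).trans DE) s0
    linarith [Y.hx.ln.l0s, Y.hx.ln.l0l, Y.tw.l1]
  obtain ⟨Gm, g⟩ := A.gm51 (v := v2) (L := c.D ^ 6) θ1 Y.hx.lp.γ0 γ3 t0 b3 ν4 ν1 (ν2.trans n3) zv hG
    hl n4 (by linarith [cp 2 (by norm_num), sq_nonneg S.C])
  obtain ⟨e1, e2, e3, e4, e5⟩ := A.e_pack θ1
  have vv : v ≤ v2 := n.o1.trans n.o2.le
  have vJ : v2 < S.J := by have := n.mg.1; omega
  have sy : At.t48 S ≤ ys S M m a v2 := le_min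
    (by linarith [n.v2e.t1, A.sb_mono (Nat.succ_le_succ vv)]) (by linarith)
  have D36 : 3 * c.D ≤ c.D ^ 6 := by
    linarith [mul_le_mul_of_nonneg_right D4 (show 0 ≤ c.D by linarith),
      pow_le_pow_right₀ D1 (show 2 ≤ 6 by norm_num)]
  exact ⟨Gm, by linarith, by linarith, θ1, ⟨e5.trans (mul_le_mul_of_nonneg_right
      (by linarith [cp 7 (by norm_num), pow_pos C0 7]) e3.le), e4, le_rfl⟩, ⟨e1.le, sy⟩,
    ⟨ν0, ν1, (ν2.trans n3).trans n2, ν3.trans D36, ν4⟩, ⟨hm, hx⟩, ⟨β0, β1⟩,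
    ⟨n.jv, vv, vJ, by omega, w2⟩,
    ⟨Y.hx.lp.γ0, γ1, (U.γ3.trans n3).trans n2, (U.γ2.trans n3).trans n2⟩,
    ⟨hv, m1', b3.trans n2, b6.trans n2, b7.trans n2⟩, zv, ⟨R0, R1⟩, rise, aM, ⟨cn, g⟩,
    U.gp.trans (mul_le_mul_of_nonneg_left (n3.trans n2) θ0.le), net⟩

end Crest.Agent.T156.Alt.X84.Cy

end
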