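import Crest.Agent.T156.NdS_89
import Crest.Agent.T156.ClAp_63
import Crest.Agent.T156.Abel_33
import Crest.Agent.T156.LDefX_64

/-!
# Row 156, block (L): the last node of the bulk (helper83)
-/

set_option autoImplicit false

noncomputable section

namespace Crest.Agent.T156.Alt.Ve83

open Real Finset
open Crest.Agent.T156.Alt.Mp9 Crest.Agent.T156.Alt.L69 Crest.Agent.T156.Alt.G89
open Crest.Agent.T156.Alt.Ap63

variable {S : Sc} {M : Md} {m : ℕ} {a T : ℝ}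

/-- the residual on the top window and on the plateau -/
def Gam (S : Sc) (M : Md) : ℝ := GS M S (M.s S.J / 2) S.C + GP M S

theorem dx_nn (h : Cl S M) (k : ℕ) : 0 ≤ dx M k := sub_nonneg.2 (h.leg.zm (Nat.sub_le k 1))

theorem GS_mono (h : Cl S M) {t t' u u' : ℝ} (h1 : u ≤ t) (h2 : t' ≤ u') :
    GS M S t t' ≤ GS M S u u' :=
  sum_le_sum_of_subset_of_nonneg (fun k hk => by
    rw [mem_filter] at hk ⊢
    exact ⟨hk.1, h1.trans hk.2.1, hk.2.2.trans h2⟩) fun k _ _ =>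
      mul_nonneg (dx_nn h k) (sq_nonneg _)

theorem Gam_nn (h : Cl S M) : 0 ≤ Gam S M :=
  add_nonneg (sum_nonneg fun k _ => mul_nonneg (dx_nn h k) (sq_nonneg _))
    (sum_nonneg fun k _ => mul_nonneg (dx_nn h k) (sq_nonneg _))

theorem Sx_G (h : Cl S M) {lo : ℕ} (h0 : S.jl ≤ lo) (h1 : lo < S.J)
    (h2 : M.s S.J / 2 ≤ M.s (lo + 1)) : Sx M.z M.G lo S.Jp 2 ≤ Gam S M := by
  have i3 := h.i3
  rw [Sx_two, ← sum_Ioc_consecutive _ (show lo ≤ S.J - 1 by omega) (show S.J - 1 ≤ S.Jp by omega)]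
  refine add_le_add (sum_le_sum_of_subset_of_nonneg (fun k hk => ?_) fun k _ _ =>
    mul_nonneg (dx_nn h k) (sq_nonneg _)) (sum_le_sum_of_subset_of_nonneg (fun k hk => ?_)
      fun k _ _ => mul_nonneg (dx_nn h k) (sq_nonneg _))
  · rw [mem_Ioc] at hk
    exact mem_filter.2 ⟨mem_Ioo.2 ⟨by omega, by omega⟩, h2.trans (h.sm (by omega)),
      h.s_le_C (by omega)⟩
  · rw [mem_Ioc] at hk
    exact mem_Icc.2 ⟨by omega, hk.2⟩

theorem cub {C R ρ e Φ : ℝ} (C1 : 1 ≤ C) (hR : 0 ≤ R) (he : 0 ≤ e) (hΦ : Φ ≤ R ^ 3)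
    (h : C ^ 2 * R + e < ρ) : C ^ 2 * Φ < ρ ^ 2 * (ρ - e) := by
  have c2 : 1 ≤ C ^ 2 := one_le_pow₀ C1
  have a : R ≤ ρ := by nlinarith
  have r0 : 0 < ρ := by nlinarith
  have b : R ^ 2 ≤ ρ ^ 2 := pow_le_pow_left₀ hR a 2
  calc C ^ 2 * Φ ≤ C ^ 2 * R ^ 3 := by gcongr
    _ = R ^ 2 * (C ^ 2 * R) := by ring
    _ ≤ ρ ^ 2 * (C ^ 2 * R) := by gcongr
    _ < _ := mul_lt_mul_of_pos_left (by linarith) (by positivity)

/-- **location of the times on the top window** -/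
theorem loc (A : At S M m a T) {Xp γ R ρ : ℝ} (jl : 2 * M.s S.jl ≤ M.s S.J)
    (top : M.En S m a M.q 2 (M.s S.J / 2) S.C ≤ Xp) (hγ : M.s S.Jp - M.s S.J ≤ γ) (R0 : 0 ≤ R)
    (R1 : R ≤ 1) (hR : 3 * (S.C ^ 2 * Xp + Gam S M + (S.C / (m + 1)) ^ 2) ≤ R ^ 3)
    (hρ : S.C ^ 2 * R + S.C ^ 3 * S.v + 2 * (S.C * S.v) + γ ≤ ρ) (h8 : 8 * ρ ≤ M.s S.J) {k : ℕ}
    (hs : 3 / 4 * M.s S.J ≤ M.s k) (hk : k ≤ S.J) : |sb M m a (k + 1) - M.s k| ≤ 2 * ρ := by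
  have h := A.cl
  have C0 := h.C0
  have C1 := h.C1
  have v0 := h.v0
  have i1 := h.i1
  have i2 := h.i2
  have i3 := h.i3
  have s0 : 0 < M.s S.J := h.s_pos (by omega)
  have sw := sw_s h hγ
  have g0 := sw.g0 h
  obtain ⟨lo, l1, l2, l3, l4⟩ := h.exists_node (t := M.s S.J / 2) (by linarith) (by linarith)
  have l0 : S.jl ≤ lo := Nat.lt_succ_iff.1 (h.sm.reflect_lt (by linarith))
  have lk : lo < k := h.sm.reflect_lt (by linarith)
  have e1 : Sx M.z (M.del m a) lo S.Jp 2 ≤ Xp := by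
    refine le_trans (sum_le_sum_of_subset_of_nonneg (fun y hy => ?_) fun y _ _ =>
      mul_nonneg (dx_nn h y) (by positivity)) top
    rw [mem_Ioc] at hy
    exact mem_filter.2 ⟨mem_Ioc.2 ⟨by omega, hy.2⟩, l3.le.trans (h.sm (by omega)), h.s_le_C hy.2⟩
  have e2 : Sx M.z (fun j => sb M m a (j + 1) - M.s j) lo S.Jp 2 ≤ R ^ 3 := by
    refine (A.dsb_sum (lo := lo) (by omega)).2.trans (le_trans ?_ hR)
    have := Sx_G h l0 l1 l3.le
    have := mul_le_mul_of_nonneg_left e1 (sq_nonneg S.C)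
    linarith
  have p0 : 0 ≤ S.C ^ 2 * R := by positivity
  have p1 : 0 ≤ S.C ^ 3 * S.v := by positivity
  have p2 : 0 < S.C * S.v := by positivity
  have ρ0 : 0 < ρ := by linarith
  have fm : Monotone fun j => sb M m a (j + 1) := fun _ _ e => A.sb_mono (Nat.succ_le_succ e)
  have no := not_le.2 (cub (e := S.C ^ 3 * S.v + S.C * S.v + γ) (ρ := ρ) C1 R0 (by positivity) e2
    (by linarith))
  have lip : ∀ i k, lo ≤ i → i ≤ k → k < S.Jp → M.s (k + 1) - M.s i ≤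
      S.C ^ 2 * (M.z k - M.z i) + (S.C ^ 3 * S.v + S.C * S.v + γ) := fun i k e =>
    sw.lip h i k (by omega)
  refine abs_le.2 ⟨not_lt.1 fun c => ?_, not_lt.1 fun c => ?_⟩
  · rcases Ap63.dn (ρ := ρ) h.leg.zm fm (sq_nonneg S.C) sw.mono lip lk (by omega) ρ0.le
      (by linarith) 2 with b | b
    · linarith [(h.ss lo l1).2]
    · exact no b
  · rcases Ap63.up (ρ := ρ) h.leg.zm fm (sq_nonneg S.C) sw.mono lip lk (by omega) ρ0.le
      c.le 2 with b | b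
    · rw [h.top _ le_rfl] at b
      have a1 : 1 / S.C ≤ 1 - M.z (k - 1) := by
        linarith [h.atom.2, h.leg.zm (show k - 1 ≤ S.J - 1 by omega)]
      have a2 := (mul_le_mul_of_nonneg_left a1 (sq_nonneg ρ)).trans (b.trans e2)
      rw [mul_one_div, div_le_iff₀ C0] at a2
      have a3 : (S.C ^ 2 * R) ^ 2 < ρ ^ 2 := pow_lt_pow_left₀ (by linarith) p0 two_ne_zero
      have a4 : R * S.C ≤ S.C ^ 4 :=
        (mul_le_of_le_one_left C0.le R1).trans (le_self_pow₀ C1 (by norm_num))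
      linarith [mul_le_mul_of_nonneg_left a4 (sq_nonneg R)]
    · exact no b

variable {E W lo Lg X2 τ1 D : ℝ} {η : ℝ → ℝ} {Gn : ℕ → Prop} {V0 : ℕ}

/-- **the last node of the bulk** -/
structure VE (S : Sc) (M : Md) (m : ℕ) (a W Lg τ1 : ℝ) (Gn : ℕ → Prop) (V0 v : ℕ) : Prop where
  gn : Gn v
  le : v ≤ V0
  s1 : 3 / 4 * M.s S.J ≤ M.s v
  t1 : 5 / 8 * M.s S.J ≤ sb M m a (v + 1)
  t2 : sb M m a (v + 1) < M.s S.J
  dich : v = V0 ∨ ∃ v1, v < v1 ∧ Nx Gn v V0 v v1 ∧ M.s S.J ≤ sb M m a (v1 + 1)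
  wid : ∀ k, v ≤ k → k < S.J → sb M m a (k + 1) < M.s S.J →
    M.z k ≤ M.z v + W * τ1 + W / Lg * G89.ds M m a v (S.J - 1)

/-- a good node of the top level below `V0` -/
theorem first (A : At S M m a T) (G : NG E W S M m a T lo Lg X2 τ1 η Gn V0) (W0 : 0 ≤ W)
    (L0 : 0 < Lg) (jl : 2 * M.s S.jl ≤ M.s S.J) (hlo : lo ≤ 3 / 4 * M.s S.J)
    (hv : 64 * (S.C * S.v) ≤ M.s S.J) (hL : 64 * S.C * W ≤ Lg)
    (hτ : 16 * (S.C ^ 2 * (W * τ1 + W / Lg * T)) ≤ M.s S.J) :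
    ∃ u, Gn u ∧ u ≤ V0 ∧ 3 / 4 * M.s S.J ≤ M.s u ∧ M.s u ≤ 13 / 16 * M.s S.J := by
  have h := A.cl
  have C0 := h.C0
  have v0 := h.v0
  have i1 := h.i1
  have i2 := h.i2
  have i3 := h.i3
  have hV := G.hV
  have s0 : 0 < M.s S.J := h.s_pos (by omega)
  have cv : 0 < S.C * S.v := by positivity
  obtain ⟨k, k1, k2, k3, k4⟩ := h.exists_node (t := 3 / 4 * M.s S.J) (by linarith) (by linarith)
  have k5 := (h.ss k k1).2
  obtain ⟨n, n1, n2⟩ : ∃ n : ℕ, M.s S.J / 64 ≤ n * (S.C * S.v) ∧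
      n * (S.C * S.v) ≤ M.s S.J / 64 + S.C * S.v :=
    ⟨⌈M.s S.J / 64 / (S.C * S.v)⌉₊, (div_le_iff₀ cv).1 (Nat.le_ceil _), by
      have := (lt_div_iff₀ cv).1 (sub_lt_iff_lt_add.2 (Nat.ceil_lt_add_one
        (show 0 ≤ M.s S.J / 64 / (S.C * S.v) by positivity)))
      linarith⟩
  have q1 : k + 1 + n < S.J := by
    by_contra c
    have a1 := (h.s_tel (i := k + 1) (j := S.J) k1 le_rfl).2
    have a2 : (S.J : ℝ) ≤ ((k + 1 : ℕ) : ℝ) + n := by exact_mod_cast not_lt.1 c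
    linarith [mul_le_mul_of_nonneg_right (sub_le_iff_le_add'.2 a2) cv.le]
  have q2 : M.s (k + 1 + n) ≤ 13 / 16 * M.s S.J := by
    have a1 := (h.s_tel (i := k + 1) (j := k + 1 + n) (by omega) q1.le).2
    push_cast at a1
    linarith
  have q3 : 2 * (k + 1 + n) ≤ 3 * (k + 1) := by
    have a1 := (h.s_bds (k := k + 1) k1).2
    have a2 : 2 * (n : ℝ) ≤ ((k + 1 : ℕ) : ℝ) := le_of_mul_le_mul_right (by linarith) cv
    have a3 : 2 * n ≤ k + 1 := by exact_mod_cast a2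
    omega
  obtain ⟨u, u1, u2, u3⟩ := G.ex (k + 1) (k + 1 + n) (by linarith) (by omega) q1 q3 (by
    have a1 : M.s (k + 1) ≤ M.s S.J := h.sm k1
    have a2 := mul_le_mul_of_nonneg_left a1 W0
    have a3 := mul_le_mul_of_nonneg_left n1 (show 0 ≤ 64 * W by positivity)
    have a4 := mul_le_mul_of_nonneg_right hL (show 0 ≤ n * S.v by positivity)
    have a5 : 0 ≤ Lg * S.v := by positivity
    push_cast
    linarith)
  have u4 := (h.sm u2).trans q2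
  have u5 := k3.le.trans (h.sm u1)
  refine ⟨u, u3, not_lt.1 fun c => ?_, u5, u4⟩
  have a0 : S.jl < u := h.sm.reflect_lt (by linarith)
  have a1 := s_z h (i := u) (k := S.J - 1) (by omega) (by omega) (by omega)
  have a2 := (h.ss (S.J - 1) (by omega)).2
  rw [show S.J - 1 + 1 = S.J by omega] at a2
  have a3 : G89.ds M m a V0 (S.J - 1) ≤ T := by
    unfold G89.ds
    linarith [(A.sb_mem (k := S.J - 1) (by omega)).2, (A.sb_mem (k := V0) (by omega)).1]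
  have a4 := mul_le_mul_of_nonneg_left a3 (div_nonneg W0 L0.le)
  have a5 : M.z (S.J - 1) - M.z u ≤ W * τ1 + W / Lg * T := by
    linarith [G.top, h.leg.zm c.le]
  linarith [mul_le_mul_of_nonneg_left a5 (sq_nonneg S.C)]

theorem ve (A : At S M m a T) (G : NG E W S M m a T lo Lg X2 τ1 η Gn V0) (W0 : 0 ≤ W)
    (L0 : 0 < Lg) (τ0 : 0 ≤ τ1) (jl : 2 * M.s S.jl ≤ M.s S.J) (hlo : lo ≤ 3 / 4 * M.s S.J)
    (hv : 64 * (S.C * S.v) ≤ M.s S.J) (hL : 64 * S.C * W ≤ Lg)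
    (hτ : 16 * (S.C ^ 2 * (W * τ1 + W / Lg * T)) ≤ M.s S.J) (hD : 8 * D ≤ M.s S.J)
    (lc : ∀ k, 3 / 4 * M.s S.J ≤ M.s k → k < S.J → |sb M m a (k + 1) - M.s k| ≤ D) :
    ∃ v, VE S M m a W Lg τ1 Gn V0 v := by
  classical
  have h := A.cl
  have hV := G.hV
  have s0 : 0 < M.s S.J := h.s_pos (by omega)
  obtain ⟨u, u1, u2, u3, u4⟩ := first A G W0 L0 jl hlo hv hL hτ
  have u5 : sb M m a (u + 1) < M.s S.J := by linarith [(abs_le.1 (lc u u3 (by omega))).2]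
  set P := fun k => Gn k ∧ sb M m a (k + 1) < M.s S.J with hP
  have b1 : u ≤ Nat.findGreatest P V0 := Nat.le_findGreatest u2 ⟨u1, u5⟩
  have b2 : Nat.findGreatest P V0 ≤ V0 := Nat.findGreatest_le _
  have b3 : P (Nat.findGreatest P V0) := Nat.findGreatest_spec u2 ⟨u1, u5⟩
  have b4 : ∀ k, Nat.findGreatest P V0 < k → k ≤ V0 → ¬ P k := fun k => Nat.findGreatest_is_greatest
  generalize Nat.findGreatest P V0 = v at b1 b2 b3 b4
  have s1 := u3.trans (h.sm b1)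
  have wl : 0 ≤ W / Lg := div_nonneg W0 L0.le
  have di : v = V0 ∨ ∃ v1, v < v1 ∧ Nx Gn v V0 v v1 ∧ M.s S.J ≤ sb M m a (v1 + 1) := by
    rcases b2.eq_or_lt with e | e
    · exact Or.inl e
    have ex : ∃ y, v < y ∧ Gn y := ⟨V0, e, G.gV⟩
    obtain ⟨c1, c2⟩ := Nat.find_spec ex
    have c3 : Nat.find ex ≤ V0 := Nat.find_min' ex ⟨e, G.gV⟩
    exact Or.inr ⟨_, c1, ⟨le_rfl, c1.le, c3, b3.1, c2, fun k k1 k2 g => Nat.find_min ex k2 ⟨k1, g⟩⟩,
      not_lt.1 fun c => b4 _ c1 c3 ⟨c2, c⟩⟩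
  refine ⟨v, b3.1, b2, s1, by linarith [(abs_le.1 (lc v s1 (by omega))).1], b3.2, di,
    fun k k1 k2 k3 => ?_⟩
  rcases di with e | ⟨v1, c1, ⟨-, -, c3, -, c2, c4⟩, c5⟩
  · subst e
    linarith [G.top, h.leg.zm (show k ≤ S.J - 1 by omega)]
  · have a1 : k < v1 := not_le.1 fun c => by
      linarith [A.sb_mono (Nat.succ_le_succ c)]
    have a2 := (G.lab v v1 (by linarith) c1 (by omega) b3.1 (Or.inl c2) c4).1
    have a3 : G89.ds M m a v v1 ≤ G89.ds M m a v (S.J - 1) := by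
      unfold G89.ds
      linarith [A.sb_mono (show v1 + 1 ≤ S.J - 1 + 1 by omega)]
    linarith [mul_le_mul_of_nonneg_left a3 wl, h.leg.zm (show k ≤ v1 - 1 by omega),
      mul_nonneg W0 τ0]

/-! ### numbers -/

/-- the location radius of the top window -/
def DD (S : Sc) (M : Md) (Xp γ : ℝ) : ℝ :=
  10 * S.C ^ 3 * (Xp ^ ((1 : ℝ) / 3) + γ + Gam S M ^ ((1 : ℝ) / 3))

theorem cb3 {x : ℝ} (h : 0 ≤ x) : (x ^ ((1 : ℝ) / 3)) ^ 3 = x := by
  rw [← rpow_natCast, ← rpow_mul h]; norm_num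

theorem cb_le {x Q : ℝ} (h : 0 ≤ x) (h1 : Q ^ 3 * x ≤ 1) : Q * x ^ ((1 : ℝ) / 3) ≤ 1 := by
  refine le_of_pow_le_pow_left₀ (n := 3) (by norm_num) zero_le_one ?_
  rwa [mul_pow, cb3 h, one_pow]

section num

variable {G1 u1 u2 j γ Lc ηc τ l0 X Xp Vt V2 Lp X3 G0 N N' : ℝ}

theorem tau_nn (h : Cl S M) (lp : LP E S M Xp Vt Lg Lp X2 X3 G0 G1 u1 u2 j γ Lc ηc τ η N') :
    0 < τ := by
  have : 0 < S.w3 1 := by
    have := h.N0
    have := h.ms_pos zero_le_one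
    have := h.F1
    unfold Sc.w3; positivity
  exact (Odd.pow_pos_iff (by decide : Odd 3)).1 (this.trans_le lp.tw)

theorem w1_le (h : Cl S M) (lp : LP E S M Xp Vt Lg Lp X2 X3 G0 G1 u1 u2 j γ Lc ηc τ η N') :
    Sz9.w1 S 1 ≤ τ := by
  have : 0 < S.w3 1 := by
    have := h.N0
    have := h.ms_pos zero_le_one
    have := h.F1
    unfold Sc.w3; positivity
  refine le_of_pow_le_pow_left₀ (n := 3) (by norm_num) (tau_nn h lp).le ?_
  rw [Sz9.w1, cb3 this.le]; exact lp.tw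

theorem n_le (h : Cl S M) (θ1 : S.θ ≤ 1)
    (lp : LP E S M Xp Vt Lg Lp X2 X3 G0 G1 u1 u2 j γ Lc ηc τ η N') : 1 / (S.n : ℝ) ≤ Xp := by
  have n0 := h.N0
  have t0 := h.θ0
  have a1 : 1 / (S.n : ℝ) ≤ S.w3 1 := by
    unfold Sc.w3
    rw [div_le_div_iff₀ n0 (by have := h.ms_pos zero_le_one; positivity)]
    have : S.ms 1 ≤ S.F := θ1.trans h.F1
    nlinarith
  rw [← cb3 lp.Xp0.1.le]
  exact a1.trans (lp.tw.trans (pow_le_pow_left₀ (tau_nn h lp).le lp.τ1 3))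

theorem Gam_j (h : Cl S M) (ap : Ap S M m a l0 X Xp Vt u1 j) : 0 ≤ j ∧ Gam S M ≤ j ^ 2 := by
  have a1 : Gam S M ≤ GS M S 0 S.C + GP M S :=
    add_le_add (GS_mono h (by linarith [h.s_nn S.J]) le_rfl) le_rfl
  have a2 : √(GS M S 0 S.C + GP M S) ≤ j := by linarith [ap.j0, sqrt_nonneg X, sq_nonneg l0]
  exact ⟨(sqrt_nonneg _).trans a2, a1.trans (Real.sqrt_le_iff.1 a2).2⟩

theorem sJ_lo (h : Cl S M) (hv : 64 * (S.C * S.v) ≤ M.s S.J) : 1 ≤ 2 * S.C ^ 2 * M.s S.J := by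
  have C0 := h.C0
  have i1 := h.i1
  have i2 := h.i2
  have a1 := h.atom.1.trans (h.z_s (k := S.J - 1) (by omega) (by omega)).2
  rw [div_le_iff₀ C0] at a1
  have a2 := h.sm (Nat.sub_le S.J 1)
  have a3 : S.v ≤ S.C * S.v := le_mul_of_one_le_left h.v0.le h.C1
  have a4 : M.s (S.J - 1) + 2 * S.v ≤ 2 * M.s S.J := by linarith [h.s_nn S.J]
  linarith [mul_le_mul_of_nonneg_left a4 (sq_nonneg S.C)]

theorem Gam_N (h : Cl S M) (hv : 64 * (S.C * S.v) ≤ M.s S.J)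
    (lc : LC E S M Xp Vt V2 Lg Lp X2 G0 G1 u1 u2 j γ ηc τ η N) : Gam S M ≤ S.θ * N := by
  have C0 := h.C0
  have a1 := sJ_lo h hv
  have a2 : 1 / (8 * S.C ^ 2) ≤ M.s S.J / 2 := by
    rw [div_le_iff₀ (by positivity)]; linarith
  have a3 := lc.c2
  rw [div_le_iff₀' h.θ0] at a3
  unfold Gam
  linarith [GS_mono h a2 (le_refl S.C), sq_nonneg G1, sq_nonneg (S.θ * γ)]

/-- **location of the times from the numbers** -/
theorem loc_of (A : At S M m a T) (θ1 : S.θ ≤ 1) (vn : S.v ≤ 1 / S.n)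
    (hE : (2000 * S.C ^ 6) ^ 3 ≤ E) (jl : 2 * M.s S.jl ≤ M.s S.J)
    (lp : LP E S M Xp Vt Lg Lp X2 X3 G0 G1 u1 u2 j γ Lc ηc τ η N')
    (ap : Ap S M m a l0 X Xp Vt u1 j) : 16 * DD S M Xp γ ≤ M.s S.J ∧ 64 * (S.C * S.v) ≤ M.s S.J ∧
    ∀ k, 3 / 4 * M.s S.J ≤ M.s k → k ≤ S.J → |sb M m a (k + 1) - M.s k| ≤ DD S M Xp γ := by
  have h := A.cl
  have C0 := h.C0
  have C1 := h.C1
  have v0 := h.v0
  have n0 := h.N0
  have X0 := lp.Xp0.1
  have g0 := Gam_nn (M := M) h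
  have γ0 : 0 ≤ γ := (sub_nonneg.2 (h.sm h.i3)).trans lp.γ0
  obtain ⟨j0, j1⟩ := Gam_j h ap
  have n1 := n_le h θ1 lp
  have τ0 := tau_nn h lp
  have sJ := Ab33.sJ_ge h
  have c3 : 1 ≤ S.C ^ 3 := one_le_pow₀ C1
  have c6 : 1 ≤ S.C ^ 6 := one_le_pow₀ C1
  set Q := 2000 * S.C ^ 6 with hQ
  have Q1 : 1 ≤ Q := by linarith
  have QE : Q ≤ E := (le_self_pow₀ Q1 (by norm_num)).trans hE
  have E0 : 0 ≤ E := by linarith
  have jE : E * j ≤ 1 := by linarith [lp.j1, mul_nonneg E0 τ0.le]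
  have jj : j ≤ 1 := by nlinarith
  have x1 := cb_le X0.le ((mul_le_mul_of_nonneg_right hE X0.le).trans lp.Xp0.2)
  have y1 := cb_le (Q := Q) g0 (by
    have := mul_le_mul hE (j1.trans (show j ^ 2 ≤ j by nlinarith)) g0 E0
    linarith)
  have z1 : Q * γ ≤ 1 := (mul_le_mul_of_nonneg_right QE γ0).trans lp.γ1
  have x3 := cb3 X0.le
  have y3 := cb3 g0
  have x0 : 0 ≤ Xp ^ ((1 : ℝ) / 3) := by positivity
  have y0 : 0 ≤ Gam S M ^ ((1 : ℝ) / 3) := by positivity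
  unfold DD
  generalize Xp ^ ((1 : ℝ) / 3) = x at *
  generalize Gam S M ^ ((1 : ℝ) / 3) = y at *
  have xx : x ≤ 1 := by nlinarith
  have vx : S.v ≤ x := by
    rw [← x3] at n1
    exact vn.trans (n1.trans (pow_le_of_le_one x0 xx (by norm_num)))
  have s1 : 16 * (10 * S.C ^ 3 * (x + γ + y)) ≤ M.s S.J := by
    refine le_of_mul_le_mul_left ?_ (show 0 < 3 * S.C ^ 3 by positivity)
    linarith
  have cc : S.C ≤ S.C ^ 3 := le_self_pow₀ C1 (by norm_num)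
  have b1 := mul_le_mul_of_nonneg_left vx (show 0 ≤ S.C ^ 3 by positivity)
  have b2 := mul_le_mul cc vx v0.le (by positivity)
  have b3 := mul_le_mul_of_nonneg_right c3 γ0
  have b4 : 0 ≤ S.C ^ 3 * y := by positivity
  have b5 : 0 ≤ S.C ^ 3 * γ := by positivity
  have b6 : 0 ≤ S.C ^ 3 * x := by positivity
  refine ⟨s1, by linarith, fun k k1 k2 => ?_⟩
  have m1 : (S.C / (m + 1)) ^ 2 ≤ S.C ^ 2 * Xp := by
    have a1 : (S.n : ℝ) ≤ m := by exact_mod_cast A.mem.m1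
    have a2 : (1 : ℝ) ≤ S.n := by exact_mod_cast h.n1
    rw [div_pow, div_le_iff₀ (by positivity), mul_assoc]
    refine le_mul_of_one_le_right (by positivity) ?_
    rw [div_le_iff₀ n0] at n1
    exact n1.trans (mul_le_mul_of_nonneg_left (by nlinarith) X0.le)
  have := loc A (R := 2 * S.C * (x + y)) (ρ := 5 * S.C ^ 3 * (x + γ + y)) jl ap.top lp.γ0
    (by positivity) (by
      have a1 : S.C ≤ S.C ^ 6 := le_self_pow₀ C1 (by norm_num)
      linarith [mul_le_mul_of_nonneg_right a1 (add_nonneg x0 y0)]) (by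
      have a1 : x ^ 3 + y ^ 3 ≤ (x + y) ^ 3 := by nlinarith [mul_nonneg x0 y0]
      have a2 := mul_le_mul_of_nonneg_left a1 (show 0 ≤ 8 * S.C ^ 3 by positivity)
      have a3 := mul_le_mul_of_nonneg_right (pow_le_pow_right₀ C1 (show 2 ≤ 3 by norm_num)) X0.le
      have a4 := mul_le_mul_of_nonneg_right c3 g0
      have a5 : 0 ≤ S.C ^ 3 * Xp := by positivity
      rw [x3, y3] at a2
      linarith) (by linarith) (by linarith) k1 k2
  linarith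

end num

end Crest.Agent.T156.Alt.Ve83

end
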