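import Crest.Agent.T156.TxF_84
import Crest.Agent.T156.TxCm_65
import Crest.Agent.T156.TxV2_83
import Crest.Agent.T156.PgT_33

/-!
Row 156, block (L) (helper84): the context and the leaves of `TxS`.
-/

set_option autoImplicit false

noncomputable section

namespace Crest.Agent.T156.Alt.X84

open MeasureTheory Set Real
open Crest.Agent.R164.GC Crest.Agent.R339.B Crest.Agent.R339.Var Crest.Agent.T157.Pf
open Crest.Agent.T156.Cut8 Crest.Agent.T156.Alt.Mp9 Crest.Agent.T156.Alt.L69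
open Crest.Agent.T156.Alt.L31
open Crest.Agent.T156.Gap27 (resN)
open Crest.Agent.T156.Alt.C74 (JJ)
open Crest.Agent.T156.Pr.Reg48 (Sm)

/-- the free data -/
structure Dt where
  (lam K θ1 X4 t4 D Λ0 L W3 : ℝ)
  p : Pa
  Gn : ℕ → Prop
  V0 : ℕ

/-- **the context** at the loss `D` (`cw.DE : D ^ 500 ≤ E`, `cw.cc hx : Cc D ..`) -/
structure Cy (E : ℝ) (S : Sc) (M : Md) (m : ℕ) (a : ℝ) (c : Dt) : Prop where
  hx : Hx E c.lam S M m a c.p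
  lK : c.lam ≤ c.K
  KE : c.K ^ 1000 ≤ E
  θ1 : 1 ≤ c.K * c.θ1
  t4 : E * c.t4 ≤ S.C
  l4 : L4 S c.p.V c.p.X c.t4 S.C c.X4
  ng : Ng E c.K S M m a c.p c.Gn c.V0
  cw : Cw c.D E c.Λ0 c.L c.W3 c.lam S M m a c.p
  w3 : c.W3 ≤ c.D * c.p.X3
  KD : c.K ≤ c.D
  tw : Tw E S M m a c.p

/-- a leaf: the class loss is absorbed in `D` -/
def LF (P : ℝ → Sc → Md → ℕ → ℝ → Dt → Prop) : Prop :=
  CL fun E Λ S M m a => ∀ c, Cy E S M m a c → Λ ≤ c.D → P E S M m a c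

section defs

variable (S : Sc) (M : Md) (m : ℕ) (a : ℝ) (c : Dt)

/-- the unit of the margins of the corner -/
def tc : ℝ := S.F * (c.p.τ + c.p.γ)
/-- the unit of the costs -/
def Nb : ℝ := S.F ^ 10 * Nn S M c.p c.X4 c.t4
/-- the good nodes of the corner -/
def GC : ℕ → Prop := G89.Gc S M m a c.p.l0 c.p.V c.L c.p.Lc

/-- **the nodes**: `v` last node of the bulk, `v1 < v2` the pair below the corner -/
structure Nd (v v1 v2 : ℕ) : Prop where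
  ve : Ve S M m a c.Gn c.V0 v
  v2e : Ve83.VE2 S M m a c.K c.p.Lg (t1 S c.p) (4 * S.C / c.p.Lc) (c.D ^ 45 * tc S c) c.Gn
    (GC S M m a c) c.V0 v
  near : c.D ^ 2 * (M.z (S.J - 1) - M.z v) ≤ 1
  wz : M.z (S.J - 1) - M.z v ≤ c.D ^ 46 * (t1 S c.p + tc S c + Ve83.DD S M c.p.Xp c.p.γ)
  jv : S.jl < v
  o1 : v ≤ v1
  o2 : v1 < v2
  g1 : GC S M m a c v1
  g2 : GC S M m a c v2
  mg : G89.Mg S c.p.Lc v2
  lo : M.z (S.J - 1) - c.D ^ 44 * tc S c ≤ M.z v1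
  wd : M.z v1 + c.D ^ 43 * tc S c ≤ M.z v2
  hi : M.z v2 + c.D ^ 41 * tc S c ≤ M.z (S.J - 1)

end defs

/-- **(A) the nodes** -/
def TxA : Prop := LF fun _ S M m a c => ∃ v v1 v2, Nd S M m a c v v1 v2

/-- **(B) zone I** -/
def TxB : Prop := LF fun _ S M m a c => ∀ v v1 v2, Nd S M m a c v v1 v2 → ∀ Mt A0 En βs,
  sb M m a S.J ≤ Mt → Mt ≤ 2 * S.C → 0 ≤ A0 → 8 * A0 ≤ M.s S.J →
  (∫ t in A0..2 * S.C, JJ M S m a (2 * S.C) t ^ 2) +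
    (∫ t in (0 : ℝ)..A0, |JJ M S m a (2 * S.C) t|) ^ 2 ≤ En → 0 ≤ βs →
  βs ≤ c.K * bE S M m a c.p (sb M m a (v + 1)) →
  Z1e S M m a (2 * S.C) (resN (lb M S m a (2 * S.C)) M.b (sb M m a) (hb M) (v + 1)) βs
    (sb M m a (v + 1)) (ys S M m a v2) Mt (c.θ1 / 2 * En + c.D ^ 800 * Nb S M c)
    (c.D ^ 20 * S.F) (c.D ^ 800 * Nb S M c) (At.e48 S)

/-- **(C) the supply on the plateau** -/
def TxC : Prop := LF fun _ S M m a c => ∀ v v1 v2, Nd S M m a c v v1 v2 →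
  ∃ G ev N2 g x vc, N2 ≤ 1 ∧ Sm S.θ 1 (c.D ^ 200 * Nb S M c) 1 x ∧
    Nd33.PV c.D S M m a (2 * S.C) c.p.Xp c.p.γ c.p.V2 c.p.Lp c.p.Lg G ev N2 g x
      (3 * max c.p.u1 (c.p.u2 / 8)) vc v

/-- **(D) the corner** -/
def TxD : Prop := LF fun _ S M m a c => ∀ v v1 v2, Nd S M m a c v v1 v2 → ∀ w, S.J ≤ w →
  w ≤ S.Jp → 1 ≤ c.D ^ 6 * du M w → ∃ Rs g, 0 ≤ Rs ∧ Sm S.θ 1 (c.D ^ 600 * Nb S M c) 1 Rs ∧
    (∀ p q, ys S M m a v2 ≤ p → p ≤ q → q ≤ sb M m a (w + 1) →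
      p - M.b * Pr.Gam (lb M S m a (2 * S.C)) p - Rs ≤
        q - M.b * Pr.Gam (lb M S m a (2 * S.C)) q) ∧ 0 ≤ g ∧
    (sb M m a (w + 1) < M.s S.Jp →
      M.b * Pr.GG (lb M S m a (2 * S.C)) (sb M m a (w + 1)) ≤ 1 + g) ∧
    (g ^ 3 ≤ c.D ^ 600 * Nb S M c ∨ c.D ^ 24 * g ≤ S.θ)

/-- **(E) the slow errors**: `βs`, `res v2 - res v`, `1 / (m + 1)` -/
def TxE : Prop := LF fun _ S M m a c => ∀ v v1 v2, Nd S M m a c v v1 v2 → ∃ x,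
  Sm S.θ 1 (c.D ^ 200 * Nb S M c) 1 x ∧ c.K * bE S M m a c.p (sb M m a (v + 1)) ≤ x ∧
    res M S m a (2 * S.C) v2 - res M S m a (2 * S.C) v ≤ x ∧ 1 / ((m : ℝ) + 1) ≤ x

/-- **(M) the middle zone and the top** -/
def TxM : Prop := LF fun _ S M m a c => ∀ v v1 v2, Nd S M m a c v v1 v2 → ∀ βs θ', 0 ≤ βs →
  βs ≤ c.K * bE S M m a c.p (sb M m a (v + 1)) → 1 ≤ c.D ^ 6 * θ' →
  ∃ w x N N' ν τ γ y Gm Rs κ c0, S.J ≤ w ∧ N ≤ c.D ^ 800 * Nb S M c ∧ N' ≤ c.D ^ 700 * Nb S M c ∧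
    TM S M m a (2 * S.C) (c.D ^ 6) x N ν τ γ y Gm Rs (At.e48 S) (At.t48 S) βs v v2 w ∧
    At.TO S M m a (2 * S.C) (c.D ^ 6) κ c0 θ' βs N' c.p.u2 v w

end Crest.Agent.T156.Alt.X84

end
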