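import Crest.Agent.T156.TxS_89
import Crest.Agent.T156.TxA_83
import Crest.Agent.T156.TxCz_5
import Crest.Agent.T156.TxEr_75
import Crest.Agent.T156.TxMo_60
import Crest.Agent.T156.SzP_98
import Crest.Agent.T156.SzS_50

/-!
Row 156, block (L) (helper89): `TxS` from zone I and the corner.
-/

set_option autoImplicit false

namespace Crest.Agent.T156.Alt.X84

/-- **(TxS)** from zone I and the corner -/
theorem txS_BD (hB : TxB) (hD : TxD) : L31.TxS :=
  txS_of (L31.czS2_of (S50.szS_of SzT98.szQ)) txA hB (O60.txM_of txC5 hD txE75)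

end Crest.Agent.T156.Alt.X84
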