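import Crest.Agent.T156.U2Def_30
import Crest.Agent.T157.EdTri_62
import Crest.Agent.T157.EdOsc_7
import Crest.Agent.T157.EdCnt_6
import Crest.Agent.T157.EdLb_88

/-!
# Row 156, (U2): the probabilistic core of `U2Glue` (helper30)
-/

set_option autoImplicit false

noncomputable section

namespace Crest.Agent.T156.U2

open MeasureTheory ProbabilityTheory Finset
open scoped ENNReal
open Crest.Agent.T157 Crest.Agent.T157.E Crest.Agent.T157.Eig Crest.Agent.T157.Ed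
open Crest.Agent.T157.Conc (ex ex_add ex_mono ex_ne_top ex_zero measurable_ex)

/-- two-sided multiplicative closeness -/
def Eqv (a b : ℝ≥0∞) (t : ℝ) : Prop := a ≤ ex t * b ∧ b ≤ ex t * a

lemma Eqv.trans {a b c : ℝ≥0∞} {t u : ℝ} (h : Eqv a b t) (h' : Eqv b c u) : Eqv a c (t + u) := by
  constructor
  · rw [ex_add, mul_assoc]; exact h.1.trans (mul_le_mul_right h'.1 _)
  · rw [add_comm, ex_add, mul_assoc]; exact h'.2.trans (mul_le_mul_right h.2 _)

lemma Eqv.mono {a b : ℝ≥0∞} {t u : ℝ} (h : Eqv a b t) (htu : t ≤ u) : Eqv a b u :=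
  ⟨h.1.trans (mul_le_mul_left (ex_mono htu) _), h.2.trans (mul_le_mul_left (ex_mono htu) _)⟩

lemma end1 {a I : ℝ≥0∞} {ε ρ D w : ℝ} (hε : 0 ≤ ε) (hρ : 0 ≤ ρ) (hw : ρ * Real.exp D ≤ w)
    (h : a ≤ ex ε * I + ENNReal.ofReal ρ) (hI : ex (-D) ≤ I) : a ≤ ex (ε + w) * I := by
  have hw0 : 0 ≤ w := le_trans (by positivity) hw
  have h1 : ENNReal.ofReal ρ ≤ ENNReal.ofReal w * I := by
    refine le_trans ?_ (mul_le_mul_right hI _)
    rw [ex, ← ENNReal.ofReal_mul hw0]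
    refine ENNReal.ofReal_le_ofReal ?_
    have := mul_le_mul_of_nonneg_right hw (Real.exp_pos (-D)).le
    rwa [mul_assoc, ← Real.exp_add, add_neg_cancel, Real.exp_zero, mul_one] at this
  refine h.trans ((add_le_add le_rfl h1).trans ?_)
  rw [← add_mul]
  refine mul_le_mul_left ?_ _
  rw [ex, ex, ← ENNReal.ofReal_add (Real.exp_pos _).le hw0]
  refine ENNReal.ofReal_le_ofReal ?_
  rw [Real.exp_add]
  have h2 := Real.add_one_le_exp w
  have h3 := Real.add_one_le_exp ε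
  nlinarith [Real.exp_pos ε]

lemma end2 {a I : ℝ≥0∞} {ε ρ D w : ℝ} (hρ : 0 ≤ ρ) (hw : ρ * Real.exp D ≤ w) (hw1 : w ≤ 1 / 2)
    (h : a ≤ ex ε * I + ENNReal.ofReal ρ) (ha : ex (-D) ≤ a) (ha' : a ≠ ∞) :
    a ≤ ex (ε + 2 * w) * I := by
  have hw0 : 0 ≤ w := le_trans (by positivity) hw
  have h1 : ENNReal.ofReal ρ ≤ ENNReal.ofReal w * a := by
    refine le_trans ?_ (mul_le_mul_right ha _)
    rw [ex, ← ENNReal.ofReal_mul hw0]
    refine ENNReal.ofReal_le_ofReal ?_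
    have := mul_le_mul_of_nonneg_right hw (Real.exp_pos (-D)).le
    rwa [mul_assoc, ← Real.exp_add, add_neg_cancel, Real.exp_zero, mul_one] at this
  have h2 : ENNReal.ofReal (1 - w) * a + ENNReal.ofReal w * a ≤ ex ε * I + ENNReal.ofReal w * a := by
    rw [← add_mul, ← ENNReal.ofReal_add (by linarith) hw0, sub_add_cancel, ENNReal.ofReal_one,
      one_mul]
    exact h.trans (add_le_add le_rfl h1)
  have h3 : ENNReal.ofReal (1 - w) * a ≤ ex ε * I :=
    (ENNReal.add_le_add_iff_right (ENNReal.mul_ne_top ENNReal.ofReal_ne_top ha')).1 h2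
  have h4 : 1 ≤ ex (2 * w) * ENNReal.ofReal (1 - w) := by
    rw [ex, ← ENNReal.ofReal_mul (Real.exp_pos _).le, ← ENNReal.ofReal_one]
    refine ENNReal.ofReal_le_ofReal ?_
    have := Real.add_one_le_exp (2 * w)
    nlinarith [mul_le_mul_of_nonneg_right this (by linarith : 0 ≤ 1 - w)]
  calc a = 1 * a := (one_mul a).symm
    _ ≤ ex (2 * w) * ENNReal.ofReal (1 - w) * a := mul_le_mul_left h4 _
    _ ≤ ex (2 * w) * (ex ε * I) := by rw [mul_assoc]; exact mul_le_mul_right h3 _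
    _ = _ := by rw [← mul_assoc, ← ex_add, add_comm]

section gen
variable {Ω : Type*} [MeasurableSpace Ω] {μ ν : Measure Ω} {X Y : Ω → ℝ} {D : ℝ}

lemma lo [IsProbabilityMeasure μ] (h : ∀ ω, |X ω| ≤ D) : ex (-D) ≤ ∫⁻ ω, ex (X ω) ∂μ := by
  have := lintegral_mono (μ := μ) (f := fun _ => ex (-D)) fun ω => ex_mono (abs_le.1 (h ω)).1
  simpa using this

lemma hi [IsProbabilityMeasure μ] (h : ∀ ω, |X ω| ≤ D) : ∫⁻ ω, ex (X ω) ∂μ ≤ ex D := by
  have := lintegral_mono (μ := μ) (g := fun _ => ex D) fun ω => ex_mono (abs_le.1 (h ω)).2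
  simpa using this

lemma Cl.exp [IsProbabilityMeasure ν] {ε η w : ℝ} (h : Cl μ ν ε η) (hε : 0 ≤ ε) (hη : 0 ≤ η)
    (hX : Measurable X) (hD : ∀ ω, |X ω| ≤ D) (hw : η * Real.exp (2 * D) ≤ w) :
    ∫⁻ ω, ex (X ω) ∂μ ≤ ex (ε + w) * ∫⁻ ω, ex (X ω) ∂ν := by
  have h1 := h (fun ω => ex (X ω - D)) (by fun_prop) fun ω => by
    rw [← ex_zero]; exact ex_mono (by linarith [(abs_le.1 (hD ω)).2])
  have e : ∀ ξ : Measure Ω, ∫⁻ ω, ex (X ω) ∂ξ = ex D * ∫⁻ ω, ex (X ω - D) ∂ξ := fun ξ => by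
    rw [← lintegral_const_mul' _ _ (ex_ne_top _)]
    exact lintegral_congr fun ω => by rw [← ex_add]; congr 1; ring
  refine end1 (ρ := η * Real.exp D) (D := D) hε (by positivity) ?_ ?_ (lo hD)
  · rwa [mul_assoc, ← Real.exp_add, ← two_mul]
  · rw [e μ, e ν]
    refine (mul_le_mul_right h1 _).trans (le_of_eq ?_)
    rw [mul_add, mul_left_comm, ENNReal.ofReal_mul hη, mul_comm (ENNReal.ofReal η)]
    rfl

lemma split (hY : Measurable Y) {e : ℝ} {r : Ω → ℝ≥0∞} {ρ : ℝ≥0∞}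
    (h : ∀ ω, ex (X ω) ≤ ex e * ex (Y ω) + r ω) (hr : ∫⁻ ω, r ω ∂μ ≤ ρ) :
    ∫⁻ ω, ex (X ω) ∂μ ≤ ex e * ∫⁻ ω, ex (Y ω) ∂μ + ρ := by
  refine (lintegral_mono h).trans ?_
  rw [lintegral_add_left (by fun_prop), lintegral_const_mul' _ _ (ex_ne_top _)]
  exact add_le_add le_rfl hr

lemma split_bad (hY : Measurable Y) {e η : ℝ} {S : Set Ω} (hη : 0 ≤ η)
    (hS : μ S ≤ ENNReal.ofReal η) (hD : ∀ ω, X ω ≤ D) (h : ∀ ω, ω ∉ S → X ω ≤ Y ω + e) :
    ∫⁻ ω, ex (X ω) ∂μ ≤ ex e * ∫⁻ ω, ex (Y ω) ∂μ + ENNReal.ofReal (η * Real.exp D) := by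
  refine split hY (r := S.indicator fun _ => ex D) (fun ω => ?_) ?_
  · by_cases hω : ω ∈ S
    · rw [Set.indicator_of_mem hω]
      exact (ex_mono (hD ω)).trans le_add_self
    · rw [← ex_add]
      exact (ex_mono (by linarith [h ω hω])).trans le_self_add
  · refine (lintegral_indicator_const_le _ _).trans ?_
    rw [ENNReal.ofReal_mul hη, mul_comm]
    exact mul_le_mul_left hS _

lemma bad [IsProbabilityMeasure μ] (hX : Measurable X) (hY : Measurable Y) {e η w : ℝ}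
    {S : Set Ω} (he : 0 ≤ e) (hη : 0 ≤ η) (hS : μ S ≤ ENNReal.ofReal η) (hD : ∀ ω, |X ω| ≤ D)
    (hD' : ∀ ω, |Y ω| ≤ D) (h : ∀ ω, ω ∉ S → |X ω - Y ω| ≤ e) (hw : η * Real.exp (2 * D) ≤ w) :
    Eqv (∫⁻ ω, ex (X ω) ∂μ) (∫⁻ ω, ex (Y ω) ∂μ) (e + w) := by
  have hw' : η * Real.exp D * Real.exp D ≤ w := by rwa [mul_assoc, ← Real.exp_add, ← two_mul]
  exact ⟨end1 he (by positivity) hw' (split_bad hY hη hS (fun ω => (abs_le.1 (hD ω)).2)
      fun ω hω => by linarith [(abs_le.1 (h ω hω)).2]) (lo hD'),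
    end1 he (by positivity) hw' (split_bad hX hη hS (fun ω => (abs_le.1 (hD' ω)).2)
      fun ω hω => by linarith [(abs_le.1 (h ω hω)).1]) (lo hD)⟩

end gen

/-- clamp to `[-B, B]` -/
def cl (B x : ℝ) : ℝ := max (-B) (min x B)

lemma abs_cl_le {B : ℝ} (hB : 0 ≤ B) (x : ℝ) : |cl B x| ≤ B :=
  abs_le.2 ⟨le_max_left _ _, max_le (by linarith) (min_le_right _ _)⟩

lemma cl_of_abs_le {B x : ℝ} (h : |x| ≤ B) : cl B x = x := by
  rw [cl, min_eq_left (abs_le.1 h).2, max_eq_right (abs_le.1 h).1]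

lemma cl_sub_le (B x y : ℝ) : |cl B x - cl B y| ≤ |min x B - min y B| := by
  rw [cl, cl, max_comm, max_comm (-B)]
  exact abs_max_sub_max_le_abs _ _ _

lemma cl_lip (B x y : ℝ) : |cl B x - cl B y| ≤ |x - y| :=
  (cl_sub_le B x y).trans ((abs_min_sub_min_le_max _ _ _ _).trans (max_le le_rfl (by simp)))

lemma continuous_cl (B : ℝ) : Continuous (cl B) := by unfold cl; fun_prop

/-- the clamped reference functional -/
def ref {K : ℕ} (F : (Fin K → ℝ) → ℝ) (B : ℝ) (J : ℕ) (δ : ℝ) (z : Fin J → ℝ) : ℝ :=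
  F fun k => cl B (Phi J δ z k)

section lip
variable {K : ℕ} {F : (Fin K → ℝ) → ℝ} {R : ℝ}

lemma lip_cont (hF : ∀ x y, |F x - F y| ≤ R * ‖x - y‖) : Continuous F := by
  refine continuous_iff_continuousAt.2 fun x => ?_
  rw [ContinuousAt, tendsto_iff_norm_sub_tendsto_zero]
  refine squeeze_zero (fun _ => norm_nonneg _) (fun y => hF y x) ?_
  have : Continuous fun y : Fin K → ℝ => R * ‖y - x‖ := by fun_prop
  simpa using this.tendsto x

lemma lip_le (hF : ∀ x y, |F x - F y| ≤ R * ‖x - y‖) (hR : 0 ≤ R) {x y : Fin K → ℝ} {e : ℝ}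
    (he : 0 ≤ e) (h : ∀ k, |x k - y k| ≤ e) : |F x - F y| ≤ R * e :=
  (hF x y).trans (mul_le_mul_of_nonneg_left ((pi_norm_le_iff_of_nonneg he).2 h) hR)

lemma abs_ref_le (hF : ∀ x y, |F x - F y| ≤ R * ‖x - y‖) (hR : 0 ≤ R) (h0 : F 0 = 0) {B : ℝ}
    (hB : 0 ≤ B) (J : ℕ) (δ : ℝ) (z : Fin J → ℝ) : |ref F B J δ z| ≤ R * B := by
  have := lip_le hF hR (x := fun k => cl B (Phi J δ z k)) (y := 0) hB fun k => by
    simpa using abs_cl_le hB _
  rwa [h0, sub_zero] at this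

lemma continuous_ref (hF : ∀ x y, |F x - F y| ≤ R * ‖x - y‖) (B : ℝ) (J : ℕ) (δ : ℝ) :
    Continuous (ref F B J δ) :=
  (lip_cont hF).comp (continuous_pi fun k => (continuous_cl B).comp (continuous_Phi J δ k))

end lip

lemma gauss_tail (J : ℕ) {t : ℝ} (ht : 0 ≤ t) :
    gv (Fin J) {ξ | ∃ j, t ≤ |ξ j|} ≤ ENNReal.ofReal (J * (2 * Real.exp (-t ^ 2 / 2))) := by
  have h : ∀ j : Fin J, gv (Fin J) {ξ | t ≤ |ξ j|} ≤
      ENNReal.ofReal (2 * Real.exp (-t ^ 2 / 2)) := fun j => by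
    have := Conc.tail_lip_abs (Clt80.elip_coord j) ht
    simp only [Clt80.mean_coord, sub_zero, one_pow, mul_one] at this
    rw [← ofReal_measureReal]
    exact ENNReal.ofReal_le_ofReal this
  rw [Set.ofPred_exists]
  refine (measure_iUnion_fintype_le _ _).trans ((sum_le_sum fun j _ => h j).trans (le_of_eq ?_))
  rw [sum_const, card_univ, Fintype.card_fin, nsmul_eq_mul, ENNReal.ofReal_mul (Nat.cast_nonneg _),
    ENNReal.ofReal_natCast]

/-- step (4): the mesh -/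
lemma step_mesh (hM : MeshStmt) {K : ℕ} {F : (Fin K → ℝ) → ℝ} {R B e w δ δ' c c' M' : ℝ} {J : ℕ}
    (hF : ∀ x y, |F x - F y| ≤ R * ‖x - y‖) (hR : 0 ≤ R) (h0 : F 0 = 0) (hB : 0 ≤ B)
    (hM' : 0 ≤ M') (he : 0 ≤ e)
    (k5 : 4 * J * |1 / δ' ^ 2 - 1 / δ ^ 2| + (J : ℝ) ^ 2 * |δ' - δ| + |c' - c| * (J * M') ≤ e)
    (k6 : J * (2 * Real.exp (-M' ^ 2 / 2)) * Real.exp (2 * (R * B)) ≤ w) :
    Eqv (∫⁻ ξ, ex (ref F B J δ' fun j => c' * ξ j) ∂gv (Fin J))
      (∫⁻ ξ, ex (ref F B J δ fun j => c * ξ j) ∂gv (Fin J)) (R * e + w) := by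
  refine bad ((continuous_ref hF B J δ').comp (by fun_prop)).measurable
    ((continuous_ref hF B J δ).comp (by fun_prop)).measurable (by positivity) (by positivity)
    (gauss_tail J hM') (fun _ => abs_ref_le hF hR h0 hB _ _ _)
    (fun _ => abs_ref_le hF hR h0 hB _ _ _) (fun ξ hξ => ?_) k6
  refine lip_le hF hR he fun k => (cl_lip _ _ _).trans ((hM J δ δ' _ _ k).trans ?_)
  refine le_trans (add_le_add le_rfl ?_) k5
  simp only [Set.mem_ofPred_eq, not_exists, not_le] at hξ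
  have : ∀ j ∈ (univ : Finset (Fin J)), |c' * ξ j - c * ξ j| ≤ |c' - c| * M' := fun j _ => by
    rw [← sub_mul, abs_mul]
    exact mul_le_mul_of_nonneg_left (hξ j).le (abs_nonneg _)
  refine (sum_le_sum this).trans (le_of_eq ?_)
  rw [sum_const, card_univ, Fintype.card_fin, nsmul_eq_mul]; ring

/-- step (3): `χ` to Gauss -/
lemma step_blk (hB : BlkStmt) {K : ℕ} {F : (Fin K → ℝ) → ℝ} {R B w δ' s M ε : ℝ} {n p J : ℕ}
    (hF : ∀ x y, |F x - F y| ≤ R * ‖x - y‖) (hR : 0 ≤ R) (h0 : F 0 = 0) (hB0 : 0 ≤ B)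
    (hp : 1 ≤ p) (hn : 2 * ((J + 1) * p) ≤ n) (hs : 0 < s) (hM : 2 ≤ M) (hMn : 64 * M ^ 2 ≤ n)
    (hε : ε = ((J : ℝ) + 1) * p * (20 * M ^ 3 / Real.sqrt n + 4 * Real.exp (-M ^ 2 / 2)))
    (k4 : Real.exp ε * (((J : ℝ) + 1) * p * (2 * Real.exp (-M ^ 2 / 2))) *
      Real.exp (2 * (R * B)) ≤ w) :
    Eqv (∫⁻ g, ex (ref F B J δ' (zblk s (rowA n g) (rowX n g) p J)) ∂gm n)
      (∫⁻ ξ, ex (ref F B J δ' fun j => 2 * s / Real.sqrt p * ξ j) ∂gv (Fin J)) (ε + w) := by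
  obtain ⟨h1, h2⟩ := hB n p J s M ε hp hn hs hM hMn hε
  have m1 : Measurable fun g => zblk s (rowA n g) (rowX n g) p J :=
    (continuous_zblk n s p J).measurable
  have m2 : Measurable fun (ξ : Fin J → ℝ) j => 2 * s / Real.sqrt p * ξ j := by fun_prop
  have m3 := (continuous_ref hF B J δ').measurable
  have := Measure.isProbabilityMeasure_map (μ := gm n) m1.aemeasurable
  have := Measure.isProbabilityMeasure_map (μ := gv (Fin J)) m2.aemeasurable
  have hε0 : 0 ≤ ε := by rw [hε]; have : 0 ≤ M := by linarith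
                         positivity
  have a1 := h1.exp hε0 (by positivity) m3 (fun z => abs_ref_le hF hR h0 hB0 J δ' z) k4
  have a2 := h2.exp hε0 (by positivity) m3 (fun z => abs_ref_le hF hR h0 hB0 J δ' z) k4
  rw [lintegral_map (by fun_prop) m1, lintegral_map (by fun_prop) m2] at a1 a2
  exact ⟨a1, a2⟩

/-- steps (1), (2): the tridiagonal model and the reference operator -/
lemma step_det (hD : DetQ) {K : ℕ} {F : (Fin K → ℝ) → ℝ} {R κ B e T θ L δ w c : ℝ} {n p J l : ℕ}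
    (hF : ∀ x y, |F x - F y| ≤ R * ‖x - y‖) (hR : 0 ≤ R) (h0 : F 0 = 0) (hKR : (K : ℝ) ≤ R)
    (hκ : 0 ≤ κ) (hB : 60 * R + κ ≤ B) (he0 : 0 < e) (he1 : e ≤ 1 / 2) (hT : T = B + κ + 1)
    (hθ : θ = e / (8 * (128 * T + 1))) (hL : L = 128 * (T + 1) + 256 / e) (hKJ : K ≤ J)
    (hn : 8 ≤ n) (hKn : 8 * K ≤ n) (hl : 1 ≤ l)
    (hk : ∫⁻ g, ex (8 * R * kap n (sx n) (rowA n g) (rowX n g) l) ∂gm n ≤ ex c)
    (d1 : 3 * (L + 3 + 15 * L ^ 2) / θ ≤ sx n ^ 2) (hp : 1 ≤ p)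
    (d2 : (p : ℝ) ≤ θ / (3 * (2 * L + 1) * T) * sx n ^ 2)
    (d3 : L * sx n ^ 2 ≤ ((J : ℝ) + 1) * p) (d4 : ((J : ℝ) + 1) * p ≤ 2 * L * sx n ^ 2)
    (hδ : 0 < δ) (d5 : (p : ℝ) ≤ 2 * δ * sx n ^ 2) (hw : w ≤ 1 / 4)
    (k1 : Real.exp (60 * R ^ 2 - 7 * R * κ + c) * Real.exp (R * B) ≤ w)
    (k2 : Real.exp (-(8 * R * κ) + c) * Real.exp (2 * (R * B)) ≤ w)
    (k3 : ((J : ℝ) + 1) * (4 * Real.exp (-((θ / 21) ^ 2 / (16 * δ)))) *
      Real.exp (2 * (R * B)) ≤ w) :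
    Eqv (∫⁻ g, ex (F (LamV n K (Tm n g))) ∂gm n)
      (∫⁻ g, ex (ref F B J (p / sx n ^ 2) (zblk (sx n) (rowA n g) (rowX n g) p J)) ∂gm n)
      (R * e + 4 * w) := by
  have hn1 : 1 ≤ n := by omega
  have hs := sx_pos hn1
  have hB0 : 0 ≤ B := by linarith
  have hθ0 : 0 < θ := by rw [hθ, hT]; positivity
  set kp : (Fin n → Fin n → ℝ) → ℝ := fun g => kap n (sx n) (rowA n g) (rowX n g) l with hkp
  have mk : Measurable kp := measurable_kap n _ _
  set η2 := ((J : ℝ) + 1) * (4 * Real.exp (-((θ / 21) ^ 2 / (16 * δ)))) with hη2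
  have hη20 : 0 ≤ η2 := by positivity
  set S2 := {g | ∃ j, j ≤ J ∧ (θ / 21 * sx n ≤ osc (rowA n g) p j ∨
    θ / 21 * sx n ≤ osc (rowX n g) p j)} with hS2
  have b2 : gm n S2 ≤ ENNReal.ofReal η2 :=
    top_osc Osc7.oscStmt n p J hp hs (by positivity) hδ d5 le_rfl
  set S1 := {g | κ < kp g} with hS1
  have b0 : ∀ a : ℝ, ∫⁻ g, ex (a + 8 * R * kp g) ∂gm n ≤ ENNReal.ofReal (Real.exp (a + c)) :=
    fun a => by
      simp only [ex_add]
      rw [lintegral_const_mul' _ _ (ex_ne_top _)]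
      exact (mul_le_mul_right hk _).trans (le_of_eq (ex_add a c).symm)
  have b1 : gm n S1 ≤ ENNReal.ofReal (Real.exp (-(8 * R * κ) + c)) := by
    refine le_trans ?_ (b0 _)
    rw [← lintegral_indicator_one (measurableSet_lt measurable_const mk)]
    refine lintegral_mono fun g => ?_
    by_cases hg : g ∈ S1
    · rw [Set.indicator_of_mem hg, Pi.one_apply, ← ex_zero]
      have : κ < kp g := hg
      exact ex_mono (by nlinarith [mul_le_mul_of_nonneg_left this.le hR])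
    · rw [Set.indicator_of_notMem hg]; exact zero_le
  have nA : ∀ g, ‖LamV n K (Tm n g)‖ ≤ 60 * R + kp g := fun g => by
    have := top_norm_le hKn (Tm n g) (kap_nonneg _ _ _ _ _)
      (top_kapL_le Osc7.betStmt Lb88.lbStmt cntStmt hn hl g)
    linarith
  have fA : ∀ g, |F (LamV n K (Tm n g))| ≤ R * (60 * R + kp g) := fun g => by
    have := hF (LamV n K (Tm n g)) 0
    rw [h0, sub_zero, sub_zero] at this
    exact this.trans (mul_le_mul_of_nonneg_left (nA g) hR)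
  have good : ∀ g, g ∉ S1 ∪ S2 → |F (LamV n K (Tm n g)) -
      ref F B J (p / sx n ^ 2) (zblk (sx n) (rowA n g) (rowX n g) p J)| ≤ R * e := fun g hg => by
    simp only [hS1, hS2, Set.mem_union, Set.mem_ofPred_eq, not_or, not_lt, not_exists, not_and,
      not_le] at hg
    refine lip_le hF hR he0.le fun k => ?_
    have hk2 := k.2
    have c1 := hD B κ e T θ L hB0 hκ he0 he1 hT hθ hL n (sx n) (bet n) (rowA n g) (rowX n g) p J
      (Osc7.betStmt n hn1) d1 hp d2 d3 d4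
      ((Lb88.lbStmt n (sx n) (bet n) (rowA n g) (rowX n g) l hn (Osc7.betStmt n hn1) hl).mono hg.1)
      (fun j hj => ⟨(hg.2 j hj).1.le, (hg.2 j hj).2.le⟩) k (by omega)
    rw [← Lam_Tm g (by omega : (k : ℕ) < n)] at c1
    have c2 : |LamV n K (Tm n g) k| ≤ B :=
      (norm_le_pi_norm (LamV n K (Tm n g)) k).trans ((nA g).trans (by linarith [hg.1]))
    rw [← cl_of_abs_le c2]
    exact (cl_sub_le _ _ _).trans c1
  have mX : Measurable fun g => F (LamV n K (Tm n g)) :=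
    (lip_cont hF).measurable.comp ((measurable_LamV n K).comp (measurable_Tm n))
  have mY : Measurable fun g =>
      ref F B J (p / sx n ^ 2) (zblk (sx n) (rowA n g) (rowX n g) p J) :=
    ((continuous_ref hF B J _).comp (continuous_zblk n _ p J)).measurable
  have bY := fun g : Fin n → Fin n → ℝ => abs_ref_le hF hR h0 hB0 J (p / sx n ^ 2)
    (zblk (sx n) (rowA n g) (rowX n g) p J)
  have hw0 : 0 ≤ w := le_trans (by positivity) k1
  have e2 : Real.exp (2 * (R * B)) = Real.exp (R * B) * Real.exp (R * B) := by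
    rw [← Real.exp_add, two_mul]
  constructor
  · refine le_trans (end1 (ε := R * e) (w := 2 * w) (D := R * B)
      (ρ := Real.exp (60 * R ^ 2 - 7 * R * κ + c) + η2 * Real.exp (R * B)) (by positivity)
      (by positivity) ?_ ?_ (lo bY)) (mul_le_mul_left (ex_mono (by linarith)) _)
    · rw [e2] at k3; linarith
    refine split mY (r := fun g => ex (60 * R ^ 2 - 7 * R * κ + 8 * R * kp g) +
      S2.indicator (fun _ => ex (R * B)) g) (fun g => ?_) ?_
    · by_cases h1 : g ∈ S1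
      · refine le_trans (ex_mono ?_) (le_self_add.trans le_add_self)
        have : κ < kp g := h1
        nlinarith [(abs_le.1 (fA g)).2, mul_le_mul_of_nonneg_left this.le hR]
      by_cases h2 : g ∈ S2
      · rw [Set.indicator_of_mem h2]
        refine le_trans (ex_mono ?_) (le_add_self.trans le_add_self)
        have : kp g ≤ κ := not_lt.1 h1
        exact (abs_le.1 (fA g)).2.trans (mul_le_mul_of_nonneg_left (by linarith) hR)
      · rw [← ex_add]
        refine le_trans (ex_mono ?_) le_self_add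
        linarith [(abs_le.1 (good g (by simp [h1, h2]))).2]
    · rw [lintegral_add_left (by fun_prop), ENNReal.ofReal_add (by positivity) (by positivity)]
      refine add_le_add (b0 _) ((lintegral_indicator_const_le _ _).trans ?_)
      rw [ENNReal.ofReal_mul hη20, mul_comm]
      exact mul_le_mul_left b2 _
  · have b3 : gm n (S1 ∪ S2) ≤ ENNReal.ofReal (Real.exp (-(8 * R * κ) + c) + η2) := by
      rw [ENNReal.ofReal_add (by positivity) hη20]
      exact (measure_union_le _ _).trans (add_le_add b1 b2)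
    refine le_trans (end2 (ε := R * e) (w := 2 * w) (D := R * B) (by positivity) ?_ (by linarith)
      (split_bad mX (by positivity) b3 (fun g => (abs_le.1 (bY g)).2)
        fun g hg => by linarith [(abs_le.1 (good g hg)).1]) (lo bY)
      (ne_top_of_le_ne_top (ex_ne_top _) (hi bY))) (mul_le_mul_left (ex_mono (by linarith)) _)
    rw [e2] at k2 k3; linarith

end Crest.Agent.T156.U2

end
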