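import Crest.Agent.T156.U2Def_30

/-!
# Row 156, (U2): the block increments are close to independent Gaussians (helper63)

`blkGlue : BlkGlue`.
-/

set_option autoImplicit false

noncomputable section

namespace Crest.Agent.T156.U2

open MeasureTheory ProbabilityTheory Finset Matrix
open scoped ENNReal
open Crest.Agent.T157 Crest.Agent.T157.E Crest.Agent.T157.Eig Crest.Agent.T157.Ed

namespace Blk63

lemma gv_mapU {ι κ : Type*} [Fintype ι] [Fintype κ] [DecidableEq κ] {U : Matrix κ ι ℝ}
    (hU : U * Uᵀ = 1) : (gv ι).map (fun z => U *ᵥ z) = gv κ := by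
  have := Cond.ext_vec (μ := gv ι) (ν := gv κ) (X := fun z => U *ᵥ z) (Y := id) (by fun_prop)
    measurable_id fun t => by
      have e : ∀ z : ι → ℝ, t ⬝ᵥ U *ᵥ z = (Uᵀ *ᵥ t) ⬝ᵥ z := fun z => by
        rw [dotProduct_mulVec, mulVec_transpose]
      simp only [e, id]
      rw [Cond.CF_gv, Cond.CF_gv, ← e, mulVec_mulVec, hU, one_mulVec]
  rwa [Measure.map_id] at this

lemma blk_sum {n p J : ℕ} (hp : 1 ≤ p) (hn : (J + 1) * p ≤ n + 1) (v : ℕ → ℝ) (j : Fin J) :
    ∑ k : Fin n, (if ((k : ℕ) + 1) / p = j + 1 then v (k + 1) else 0) =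
      ∑ r ∈ range p, v ((j + 1) * p + r) := by
  have h := Clt80.sum_blk hp hn (fun a i => if a = j + 1 then v i else 0) (fun i => by simp)
    fun a i ha => if_neg (by have := j.2; omega)
  rw [h, sum_eq_single j]
  · simp
  · intro b _ hb
    exact sum_eq_zero fun r _ => if_neg fun e => hb (Fin.ext (by omega))
  · simp

/-- the block-averaging matrix -/
def Um (n p J : ℕ) : Matrix (Fin J) (Fin n) ℝ :=
  fun j k => if ((k : ℕ) + 1) / p = j + 1 then 1 / Real.sqrt p else 0

lemma Um_mul {n p J : ℕ} (hp : 1 ≤ p) (hn : (J + 1) * p ≤ n + 1) :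
    Um n p J * (Um n p J)ᵀ = 1 := by
  have hp0 : (0 : ℝ) < p := by exact_mod_cast hp
  ext j j'
  rw [mul_apply, one_apply]
  simp only [transpose_apply, Um]
  split_ifs with h
  · subst h
    have h1 := blk_sum hp hn (fun _ => 1 / (p : ℝ)) j
    rw [sum_const, card_range, nsmul_eq_mul, mul_one_div_cancel hp0.ne'] at h1
    refine Eq.trans (sum_congr rfl fun k _ => ?_) h1
    split_ifs
    · rw [div_mul_div_comm, Real.mul_self_sqrt hp0.le, one_mul]
    · simp
  · refine sum_eq_zero fun k _ => ?_
    by_cases h1 : ((k : ℕ) + 1) / p = j + 1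
    · rw [if_neg (fun e : ((k : ℕ) + 1) / p = j' + 1 => h (Fin.ext (by omega))), mul_zero]
    · rw [if_neg h1, zero_mul]

lemma act {n p J : ℕ} (hp : 1 ≤ p) {j : Fin J} {k : Fin n} (h : ((k : ℕ) + 1) / p = j + 1) :
    (k : ℕ) + 1 < (J + 1) * p :=
  (Nat.div_lt_iff_lt_mul hp).1 (by have := j.2; omega)

lemma sum_act {n N : ℕ} {c : ℝ} (hc : 0 ≤ c) :
    ∑ k : Fin n, (if (k : ℕ) + 1 < N then c else 0) ≤ N * c := by
  rw [← sum_filter, sum_const, nsmul_eq_mul]
  refine mul_le_mul_of_nonneg_right ?_ hc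
  have : (univ.filter fun k : Fin n => (k : ℕ) + 1 < N).card ≤ (range N).card :=
    card_le_card_of_injOn (fun k => (k : ℕ)) (fun k hk => by
      have := (mem_filter.1 (mem_coe.1 hk)).2
      exact mem_coe.2 (mem_range.2 (Nat.lt_of_succ_lt this))) fun a _ b _ e => Fin.ext e
  rw [card_range] at this
  exact_mod_cast this

end Blk63

open Blk63 in
theorem blkGlue : BlkGlue := by
  intro hPi hRow n p J s M ε hp hn hs hM hMn hε
  have hp0 : (0 : ℝ) < p := by exact_mod_cast hp
  have hn' : (J + 1) * p ≤ n + 1 := by omega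
  set N := (J + 1) * p with hN
  set E0 := 20 * M ^ 3 / Real.sqrt n + 4 * Real.exp (-M ^ 2 / 2) with hE0
  set H0 := 2 * Real.exp (-M ^ 2 / 2) with hH0
  have hE : 0 ≤ E0 := by
    have : 0 ≤ M := by linarith
    positivity
  have hH : 0 ≤ H0 := by positivity
  let e : Fin n → (Fin n → ℝ) → ℝ := fun k y =>
    if (k : ℕ) + 1 < N then Clt80.eta (univ.filter (k < ·)) k y else 0
  let t : Fin n → ℝ → ℝ := fun k u => if (k : ℕ) + 1 < N then 2 * u else 0
  have me : ∀ k, Measurable (e k) := fun k => by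
    by_cases h : (k : ℕ) + 1 < N
    · simp only [e, if_pos h]; exact (Clt80.elip_eta _ k).continuous.measurable
    · simp only [e, if_neg h]; exact measurable_const
  have mt : ∀ k, Measurable (t k) := fun k => by
    by_cases h : (k : ℕ) + 1 < N
    · simp only [t, if_pos h]; fun_prop
    · simp only [t, if_neg h]; exact measurable_const
  let μ : Fin n → Measure ℝ := fun k => (gv (Fin n)).map (e k)
  let ν : Fin n → Measure ℝ := fun k => (gaussianReal 0 1).map (t k)
  have : ∀ k, IsProbabilityMeasure (μ k) := fun k =>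
    Measure.isProbabilityMeasure_map (me k).aemeasurable
  have : ∀ k, IsProbabilityMeasure (ν k) := fun k =>
    Measure.isProbabilityMeasure_map (mt k).aemeasurable
  let a : Fin n → ℝ := fun k => if (k : ℕ) + 1 < N then E0 else 0
  let b : Fin n → ℝ := fun k => if (k : ℕ) + 1 < N then H0 else 0
  have ha : ∀ k, 0 ≤ a k := fun k => by simp only [a]; split_ifs <;> simp [hE]
  have hb : ∀ k, 0 ≤ b k := fun k => by simp only [b]; split_ifs <;> simp [hH]
  have hc : ∀ k, Cl2 (μ k) (ν k) (a k) (b k) := fun k => by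
    by_cases h : (k : ℕ) + 1 < N
    · have := hRow n k M hM (by omega) hMn
      simpa only [μ, ν, a, b, e, t, if_pos h] using this
    · have e1 : μ k = Measure.dirac 0 := by
        simp only [μ, e, if_neg h]; rw [Measure.map_const]; simp
      have e2 : ν k = Measure.dirac 0 := by
        simp only [ν, t, if_neg h]; rw [Measure.map_const]; simp
      simp only [e1, e2, a, b, if_neg h]
      exact ⟨Cl.refl _, Cl.refl _⟩
  have hNr : (N : ℝ) = ((J : ℝ) + 1) * p := by rw [hN]; push_cast; ring
  have sa : ∑ k, a k ≤ ε := by rw [hε, ← hNr]; exact sum_act hE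
  have sb : ∑ k, b k ≤ ((J : ℝ) + 1) * p * H0 := by rw [← hNr]; exact sum_act hH
  have sc : Real.exp (∑ k, a k) * ∑ k, b k ≤ Real.exp ε * (((J : ℝ) + 1) * p * H0) :=
    mul_le_mul (Real.exp_le_exp.2 sa) sb (sum_nonneg fun k _ => hb k) (Real.exp_pos _).le
  let Z : (Fin n → ℝ) → Fin J → ℝ := fun v j => s / Real.sqrt p * (Um n p J *ᵥ v) j
  have mZ : Measurable Z := by
    refine measurable_pi_lambda _ fun j => measurable_const.mul ?_
    simp only [mulVec, dotProduct]
    fun_prop
  have me' : Measurable fun (x : Fin n → Fin n → ℝ) i => e i (x i) :=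
    measurable_pi_lambda _ fun k => (me k).comp (measurable_pi_apply k)
  have mt' : Measurable fun (x : Fin n → ℝ) i => t i (x i) :=
    measurable_pi_lambda _ fun k => (mt k).comp (measurable_pi_apply k)
  have h1 : (gm n).map (fun g => zblk s (rowA n g) (rowX n g) p J) = (Measure.pi μ).map Z := by
    rw [← Measure.pi_map_pi (μ := fun _ : Fin n => gv (Fin n)) (f := e)
      fun k => (me k).aemeasurable, Measure.map_map mZ me']
    congr 1
    funext g j
    have h2 := blk_sum hp hn' (fun i => rowA n g i + rowX n g i) j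
    simp only [zblk, Function.comp, Z, mulVec, dotProduct]
    rw [← h2, mul_sum, mul_sum]
    refine sum_congr rfl fun k _ => ?_
    simp only [Um]
    split_ifs with h
    · have h3 : (k : ℕ) + 1 < N := act hp h
      simp only [e, if_pos h3]
      rw [Clt80.row_eq, ← mul_assoc, div_mul_div_comm, Real.mul_self_sqrt hp0.le, mul_one]
    · simp
  have h2 : (gv (Fin J)).map (fun ξ j => 2 * s / Real.sqrt p * ξ j) = (Measure.pi ν).map Z := by
    rw [← Measure.pi_map_pi (μ := fun _ : Fin n => gaussianReal 0 1) (f := t)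
      fun k => (mt k).aemeasurable, Measure.map_map mZ mt',
      ← gv_mapU (Um_mul hp hn'), Measure.map_map (by fun_prop) (by fun_prop)]
    congr 1
    funext ξ j
    simp only [Function.comp, Z, mulVec, dotProduct]
    rw [mul_sum, mul_sum]
    refine sum_congr rfl fun k _ => ?_
    simp only [Um]
    split_ifs with h
    · have h3 : (k : ℕ) + 1 < N := act hp h
      simp only [t, if_pos h3]; ring
    · simp
  rw [h1, h2]
  exact ⟨((hPi n μ ν a b ha hb fun k => (hc k).1).mono sa sc).map mZ,
    ((hPi n ν μ a b ha hb fun k => (hc k).2).mono sa sc).map mZ⟩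

end Crest.Agent.T156.U2

end
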