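import Crest.Agent.T156.U2Def_30
import Crest.Agent.T157.EdDet_88
import Crest.Agent.T157.EdOsc_7

/-!
# Row 156, (U2): `DetQ`, `KapQ`, `MeshStmt` (helper65)

Quantitative forms of `T157.Ed.Det.detStmt`, `T157.Ed.Osc7.kapGlue`, `top_Phi_mesh`.
-/

set_option autoImplicit false

noncomputable section

namespace Crest.Agent.T156.U2

open MeasureTheory ProbabilityTheory Finset
open scoped ENNReal
open Crest.Agent.T157 Crest.Agent.T157.E Crest.Agent.T157.Eig Crest.Agent.T157.Ed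
open Crest.Agent.T157.Conc (ex ex_add ex_mono ex_ne_top)
open Crest.Agent.T157.Ed.Det Crest.Agent.T157.Ed.Osc7

theorem detQ : DetQ := by
  intro x0 κ e T θ L hx hκ he0 he1 hT hθ hLdef n s β a x p J hc hSs hp hpδ hL1 hL3 htwo ho k hk
  have hT1 : 1 ≤ T := by linarith
  have hθe : θ * (128 * T + 1) = e / 8 := by rw [hθ]; field_simp
  have hθ0 : 0 < θ := by rw [hθ]; positivity
  have hθ1 : θ ≤ 1 := by nlinarith
  have hLe : 0 < 256 / e := by positivity
  have h1e : e * (256 / e) = 256 := by field_simp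
  have hL : 128 * (T + 1) ≤ L := by linarith
  have hL2 : 256 ≤ L := by linarith
  have heL : 256 ≤ e * L ^ 2 := by
    have h2 : 256 ≤ e * L := by rw [hLdef]; nlinarith
    nlinarith
  have hL0 : 0 < L := by linarith
  have hs := hc.hs
  have hs1 := one_le_of_pow_six hs hc.hn
  have hs2 : 1 ≤ s ^ 2 := one_le_pow₀ hs1
  have hp0 : (0 : ℝ) < p := by exact_mod_cast hp
  have hS1 : 3 * (L + 3 + 15 * L ^ 2) ≤ s ^ 2 * θ := by rwa [div_le_iff₀ hθ0] at hSs
  have h3L : 3 * L ≤ s ^ 2 := by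
    have := mul_le_mul_of_nonneg_left hθ1 (sq_nonneg s)
    linarith [sq_nonneg L]
  have hn3 : 3 * L * s ^ 2 ≤ n := by
    rw [← hc.hn, show s ^ 6 = s ^ 2 * s ^ 2 * s ^ 2 by ring]
    refine mul_le_mul_of_nonneg_right (h3L.trans ?_) (sq_nonneg s)
    exact le_mul_of_one_le_right (sq_nonneg s) hs2
  have hPn : (J + 1) * p ≤ n := by
    have : (((J + 1) * p : ℕ) : ℝ) ≤ n := by
      push_cast; linarith [mul_nonneg hL0.le (sq_nonneg s)]
    exact_mod_cast this
  have hP : (J + 1) * p ≤ n + 1 := by omega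
  have hkn : k < n := by
    have : (J + 1) * 1 ≤ (J + 1) * p := Nat.mul_le_mul_left _ hp
    omega
  obtain ⟨δ, hδ⟩ : ∃ δ, δ = (p : ℝ) / s ^ 2 := ⟨_, rfl⟩
  have hδ0 : 0 < δ := by rw [hδ]; positivity
  have hδ1 : δ * (3 * (2 * L + 1) * T) ≤ θ := by
    rw [← le_div_iff₀ (by positivity), hδ, div_le_iff₀ (by positivity)]; exact hpδ
  have hTδ : T * δ ≤ θ := by
    have := mul_nonneg hL0.le (mul_pos hδ0 (by linarith : 0 < T)).le
    have := mul_pos hδ0 (by linarith : 0 < T)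
    linarith
  have hη0 : 0 ≤ (2 * L + 1) * δ + 7 * (θ / 21) + (L + 3 + 15 * L ^ 2) / s ^ 2 := by positivity
  have hηθ : (2 * L + 1) * δ + 7 * (θ / 21) + (L + 3 + 15 * L ^ 2) / s ^ 2 ≤ θ := by
    have h1 : (L + 3 + 15 * L ^ 2) / s ^ 2 ≤ θ / 3 := by
      rw [div_le_iff₀ (by positivity)]; linarith
    have h2 := mul_le_mul_of_nonneg_left hT1 (mul_pos hδ0 (by linarith : 0 < 2 * L + 1)).le
    linarith
  have cmp : ∀ v, Sup ((J + 1) * p) v → |Qf n s a (bx β x) v - kin n s v -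
      p * ∑ j ∈ range (J + 1), (j * δ - ext (zblk s a x p J) j) * v (j * p) ^ 2| ≤
      ((2 * L + 1) * δ + 7 * (θ / 21) + (L + 3 + 15 * L ^ 2) / s ^ 2) *
        (kin n s v + nrm n v) := fun v hv =>
    hδ ▸ hv.cmp hP hc hp (by linarith) hL3 hn3 (by positivity) ho
  have hI : 32 * s ^ 4 / (((J + 1) * p : ℕ) : ℝ) ^ 2 ≤ e / 8 := by
    rw [div_le_iff₀ (by positivity)]
    have h1 : (L * s ^ 2) ^ 2 ≤ (((J + 1) * p : ℕ) : ℝ) ^ 2 := by
      push_cast; gcongr
    have h2 := mul_le_mul_of_nonneg_left h1 he0.le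
    have h3 := mul_le_mul_of_nonneg_right heL (by positivity : 0 ≤ s ^ 4)
    linarith
  have hA := fine_coarse hs hp hP hkn hδ htwo hx hκ hT he0 he1 hθe hTδ hη0 hηθ hL hL1
    (abs_bx_le hc hp (by linarith) ho) hI cmp
  have hB := coarse_fine hs hp hP hkn hk hδ htwo hx hκ hT he1 hθe hTδ hη0 hηθ cmp
  rw [← hδ, abs_le]
  generalize -lam (Hm n s a (bx β x)) k = t at hA hB ⊢
  generalize Phi J δ (zblk s a x p J) k = f at hA hB ⊢
  constructor
  · rcases lt_or_ge t x0 with h | h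
    · have := hA h
      rw [min_eq_left h.le]
      linarith [min_le_left f x0]
    · rw [min_eq_right h]
      linarith [min_le_right f x0]
  · rcases lt_or_ge f x0 with h | h
    · have := hB h
      rw [min_eq_left h.le]
      linarith [min_le_left t x0]
    · rw [min_eq_right h]
      linarith [min_le_right t x0]

theorem kapQ : KapQ := by
  obtain ⟨q, hq⟩ : ∃ q : ℝ, q = Real.exp (-(1 / (64 * 153600))) := ⟨_, rfl⟩
  have hq0 : 0 < q := hq ▸ Real.exp_pos _
  have hq1 : q < 1 := hq ▸ Real.exp_lt_one_iff.2 (by norm_num)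
  have hq2 : 0 < (1 - q)⁻¹ := inv_pos.2 (by linarith)
  have hq3 : 0 ≤ Real.log (1 - q)⁻¹ :=
    Real.log_nonneg ((one_le_inv₀ (by linarith)).2 (by linarith))
  refine ⟨153600 ^ 2 + 3 + Real.log (1 - q)⁻¹, by positivity, fun A n hA hn hAs => ?_⟩
  obtain ⟨h, hh⟩ : ∃ h : ℝ, h = 1 / (153600 * A) := ⟨_, rfl⟩
  rw [← hh]
  have hpos : 0 < h := by rw [hh]; positivity
  have h1 : 1 ≤ h * sx n ^ 2 := by
    rw [hh, one_div, inv_mul_eq_div, le_div_iff₀ (by positivity)]; linarith
  have hqA : q = Real.exp (-(A * h / 64)) := by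
    rw [hq, hh]; congr 2; field_simp
  have hAh : A / h ^ 2 = 153600 ^ 2 * A ^ 3 := by rw [hh]; field_simp
  have hO := oscStmt
  have hs := sx_pos hn
  set s := sx n
  set l := ⌈h * s ^ 2⌉₊ with hl
  have hl1 : h * s ^ 2 ≤ l := Nat.le_ceil _
  have hl2 : (l : ℝ) ≤ 2 * (h * s ^ 2) := by
    have := Nat.ceil_lt_add_one (a := h * s ^ 2) (by linarith)
    linarith
  have hl3 : 1 ≤ l := by exact_mod_cast h1.trans hl1
  have hl0 : (0 : ℝ) < l := by linarith
  have hle : 16 * (4800 * A) * l ≤ s ^ 2 := by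
    have e : 16 * (4800 * A) * (2 * (h * s ^ 2)) = s ^ 2 := by rw [hh]; field_simp; ring
    rw [← e]; exact mul_le_mul_of_nonneg_left hl2 (by positivity)
  have mA := fun j => measurable_osc (fun i => (continuous_rowA n i).measurable) l j
  have mX := fun j => measurable_osc (fun i => (continuous_rowX n i).measurable) l j
  have key : ∀ j : ℕ, ∫⁻ g, ex (2400 * A * (osc (rowA n g) l j / s) ^ 2 +
      2400 * A * (osc (rowX n g) l j / s) ^ 2) ∂gm n ≤ ex 3 := fun j => by
    have a1 := lint_osc_sq (gm n) (mA j) (fun g => osc_nonneg _ _ _) hs (by positivity) hl3 hle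
      fun t ht => (hO n l j t hl3 ht).1
    have a2 := lint_osc_sq (gm n) (mX j) (fun g => osc_nonneg _ _ _) hs (by positivity) hl3 hle
      fun t ht => (hO n l j t hl3 ht).2
    have := mA j
    refine Conc.lint_ex_add_le (Measurable.aemeasurable (by fun_prop)) ?_ ?_
    · simpa only [← mul_assoc, show (2 : ℝ) * 2400 = 4800 by norm_num] using a1
    · simpa only [← mul_assoc, show (2 : ℝ) * 2400 = 4800 by norm_num] using a2
  calc ∫⁻ g, ex (A * kap n s (rowA n g) (rowX n g) l) ∂gm n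
      ≤ ∫⁻ g, ∑ j : Fin (n + 1), ex (A / h ^ 2 - (j : ℕ) * (A * h / 64)) *
          ex (2400 * A * (osc (rowA n g) l j / s) ^ 2 +
            2400 * A * (osc (rowX n g) l j / s) ^ 2) ∂gm n := by
        refine lintegral_mono fun g => ?_
        obtain ⟨j, hj⟩ := exists_eq_ciSup_of_finite (f := fun j : Fin (n + 1) =>
          2400 * ((osc (rowA n g) l j / s) ^ 2 + (osc (rowX n g) l j / s) ^ 2) + (s ^ 2 / l) ^ 2 -
            ((j : ℕ) : ℝ) * l / (64 * s ^ 2))
        refine le_trans ?_ (single_le_sum (f := fun j : Fin (n + 1) =>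
          ex (A / h ^ 2 - (j : ℕ) * (A * h / 64)) *
          ex (2400 * A * (osc (rowA n g) l j / s) ^ 2 +
            2400 * A * (osc (rowX n g) l j / s) ^ 2)) (fun _ _ => zero_le) (mem_univ j))
        rw [← ex_add]
        refine ex_mono ?_
        rw [kap, ← hj]
        have b1 : (s ^ 2 / l) ^ 2 ≤ 1 / h ^ 2 := by
          rw [← one_pow 2, ← div_pow]
          refine pow_le_pow_left₀ (by positivity) ?_ 2
          rw [div_le_div_iff₀ hl0 hpos]; linarith
        have b2 : ((j : ℕ) : ℝ) * (h / 64) ≤ ((j : ℕ) : ℝ) * l / (64 * s ^ 2) := by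
          rw [mul_div_assoc]
          refine mul_le_mul_of_nonneg_left ?_ (Nat.cast_nonneg _)
          rw [div_le_div_iff₀ (by norm_num) (by positivity)]; linarith
        have b3 := mul_le_mul_of_nonneg_left b1 hA.le
        have b4 := mul_le_mul_of_nonneg_left b2 hA.le
        rw [mul_one_div] at b3
        linarith
    _ ≤ ∑ j : Fin (n + 1), ex (A / h ^ 2 - (j : ℕ) * (A * h / 64)) * ex 3 := by
        rw [lintegral_finsetSum _ fun j _ => by have := mA j; have := mX j; fun_prop]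
        refine sum_le_sum fun j _ => ?_
        rw [lintegral_const_mul' _ _ (ex_ne_top _)]
        exact mul_le_mul_right (key j) _
    _ = ENNReal.ofReal (Real.exp (A / h ^ 2 + 3) * ∑ j ∈ range (n + 1), q ^ j) := by
        rw [mul_sum, ENNReal.ofReal_sum_of_nonneg fun _ _ => by positivity, Finset.sum_range]
        refine sum_congr rfl fun j _ => ?_
        rw [← ex_add, ex, hqA, ← Real.exp_nat_mul, ← Real.exp_add]
        congr 2; ring
    _ ≤ ENNReal.ofReal (Real.exp (A / h ^ 2 + 3) * (1 - q)⁻¹) := by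
        refine ENNReal.ofReal_le_ofReal (mul_le_mul_of_nonneg_left ?_ (Real.exp_pos _).le)
        rw [← tsum_geometric_of_lt_one hq0.le hq1]
        exact (summable_geometric_of_lt_one hq0.le hq1).sum_le_tsum _ fun _ _ => by positivity
    _ = ex (A / h ^ 2 + 3 + Real.log (1 - q)⁻¹) := by
        rw [ex, Real.exp_add _ (Real.log _), Real.exp_log hq2]
    _ ≤ _ := by
        refine ex_mono ?_
        have := mul_nonneg (by positivity : 0 ≤ 3 + Real.log (1 - q)⁻¹) (pow_pos hA 3).le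
        rw [hAh]
        nlinarith

lemma sum_ite_le_of_inj {J : ℕ} (P : Fin J → Prop) [DecidablePred P]
    (hP : ∀ a b, P a → P b → a = b) {D : ℝ} (hD : 0 ≤ D) :
    ∑ j, (if P j then D else 0) ≤ D := by
  rw [← sum_filter, sum_const, nsmul_eq_mul]
  have h : (univ.filter P).card ≤ 1 :=
    card_le_one.2 fun a ha b hb => hP a b (mem_filter.1 ha).2 (mem_filter.1 hb).2
  have h' : ((univ.filter P).card : ℝ) ≤ 1 := by exact_mod_cast h
  nlinarith

theorem meshStmt : MeshStmt := by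
  intro J δ δ' z z' k
  have h3 := abs_lam_sub_le (Hc_herm J δ z) (Hc_herm J δ' z') k
  rw [Phi, Phi, neg_sub_neg]
  refine h3.trans ?_
  obtain ⟨D, hD⟩ : ∃ D, D = |1 / δ' ^ 2 - 1 / δ ^ 2| := ⟨_, rfl⟩
  obtain ⟨E, hE⟩ : ∃ E, E = |δ' - δ| := ⟨_, rfl⟩
  have hD0 : 0 ≤ D := hD ▸ abs_nonneg _
  have hE0 : 0 ≤ E := hE ▸ abs_nonneg _
  have h4 : ∀ i j : Fin J, |Hc J δ z i j - Hc J δ' z' i j| ≤
      (if i = j then |z' i - z i| + 2 * D + J * E else 0) +
        (if (i : ℕ) + 1 = j then D else 0) + (if (j : ℕ) + 1 = i then D else 0) := by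
    intro i j
    have hD' : |1 / δ ^ 2 - 1 / δ' ^ 2| = D := by rw [hD, abs_sub_comm]
    have p1 : (0 : ℝ) ≤ if (i : ℕ) + 1 = j then D else 0 := by split_ifs <;> simp [hD0]
    have p2 : (0 : ℝ) ≤ if (j : ℕ) + 1 = i then D else 0 := by split_ifs <;> simp [hD0]
    unfold Hc tri
    by_cases hij : i = j
    · rw [if_pos hij, if_pos hij, if_pos hij]
      simp only [ext_succ]
      have hi : (((i : ℕ) + 1 : ℕ) : ℝ) ≤ J := by exact_mod_cast i.2
      have e : z i - 2 / δ ^ 2 - (((i : ℕ) + 1 : ℕ) : ℝ) * δ -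
          (z' i - 2 / δ' ^ 2 - (((i : ℕ) + 1 : ℕ) : ℝ) * δ') =
          -(z' i - z i) + 2 * (1 / δ' ^ 2 - 1 / δ ^ 2) + (((i : ℕ) + 1 : ℕ) : ℝ) * (δ' - δ) := by
        ring
      rw [e]
      have a1 := abs_add_three (-(z' i - z i)) (2 * (1 / δ' ^ 2 - 1 / δ ^ 2))
        ((((i : ℕ) + 1 : ℕ) : ℝ) * (δ' - δ))
      rw [abs_neg, abs_mul, abs_mul, ← hD, ← hE, abs_two, Nat.abs_cast] at a1
      have a2 := mul_le_mul_of_nonneg_right hi hE0
      linarith
    · rw [if_neg hij, if_neg hij, if_neg hij, zero_add]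
      by_cases h1 : (i : ℕ) + 1 = j
      · rw [if_pos h1, if_pos h1, if_pos h1]; beta_reduce; rw [hD']; linarith
      · rw [if_neg h1, if_neg h1, if_neg h1, zero_add]
        by_cases h2 : (j : ℕ) + 1 = i
        · rw [if_pos h2, if_pos h2, if_pos h2]; beta_reduce; rw [hD']
        · rw [if_neg h2, if_neg h2, if_neg h2]; simp
  have h5 : ∀ i : Fin J, ∑ j, |Hc J δ z i j - Hc J δ' z' i j| ≤
      |z' i - z i| + (4 * D + J * E) := fun i => by
    refine (sum_le_sum fun j _ => h4 i j).trans ?_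
    rw [sum_add_distrib, sum_add_distrib, sum_ite_eq, if_pos (mem_univ _)]
    have b1 := sum_ite_le_of_inj (fun j : Fin J => (i : ℕ) + 1 = j)
      (fun a b ha hb => Fin.ext (by omega)) hD0
    have b2 := sum_ite_le_of_inj (fun j : Fin J => (j : ℕ) + 1 = i)
      (fun a b ha hb => Fin.ext (by omega)) hD0
    linarith
  refine (sum_le_sum fun i _ => h5 i).trans (le_of_eq ?_)
  rw [sum_add_distrib, sum_const, card_univ, Fintype.card_fin, nsmul_eq_mul, ← hD, ← hE]
  ring

end Crest.Agent.T156.U2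

end
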