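import Crest.Agent.T156.U2Def_30

/-!
# Row 156, (U2): `PiStmt` and `DensStmt` (helper22)
-/

set_option autoImplicit false

noncomputable section

namespace Crest.Agent.T156.U2

open MeasureTheory ProbabilityTheory Finset
open scoped ENNReal
open Crest.Agent.T157 Crest.Agent.T157.Conc

namespace Pi22

lemma prod2 {X Y : Type*} [MeasurableSpace X] [MeasurableSpace Y] {μ₁ ν₁ : Measure X}
    {μ₂ ν₂ : Measure Y} [IsProbabilityMeasure μ₁] [IsProbabilityMeasure ν₁]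
    [IsProbabilityMeasure μ₂] [IsProbabilityMeasure ν₂] {ε₁ ε₂ η₁ η₂ : ℝ}
    (h₁ : Cl μ₁ ν₁ ε₁ η₁) (h₂ : Cl μ₂ ν₂ ε₂ η₂) (hη₁ : 0 ≤ η₁) (hη₂ : 0 ≤ η₂) :
    Cl (μ₁.prod μ₂) (ν₁.prod ν₂) (ε₁ + ε₂) (η₁ + Real.exp ε₁ * η₂) := by
  intro f hf h1
  rw [lintegral_prod _ hf.aemeasurable, lintegral_prod _ hf.aemeasurable]
  have hg : Measurable fun x => ∫⁻ y, f (x, y) ∂μ₂ := hf.lintegral_prod_right'
  have hg' : Measurable fun x => ∫⁻ y, f (x, y) ∂ν₂ := hf.lintegral_prod_right'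
  have hle : ∀ x, ∫⁻ y, f (x, y) ∂μ₂ ≤ 1 := fun x => by
    calc ∫⁻ y, f (x, y) ∂μ₂ ≤ ∫⁻ _, 1 ∂μ₂ := lintegral_mono fun y => h1 _
      _ = 1 := by simp
  have A := h₁ _ hg hle
  have B : ∫⁻ x, ∫⁻ y, f (x, y) ∂μ₂ ∂ν₁ ≤
      ex ε₂ * ∫⁻ x, ∫⁻ y, f (x, y) ∂ν₂ ∂ν₁ + ENNReal.ofReal η₂ := by
    calc ∫⁻ x, ∫⁻ y, f (x, y) ∂μ₂ ∂ν₁
        ≤ ∫⁻ x, (ex ε₂ * ∫⁻ y, f (x, y) ∂ν₂ + ENNReal.ofReal η₂) ∂ν₁ :=
          lintegral_mono fun x => h₂ _ (hf.comp measurable_prodMk_left) fun y => h1 _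
      _ = _ := by
          rw [lintegral_add_right _ measurable_const, lintegral_const_mul _ hg', lintegral_const,
            measure_univ, mul_one]
  refine A.trans ?_
  rw [ENNReal.ofReal_add hη₁ (mul_nonneg (Real.exp_pos _).le hη₂),
    ENNReal.ofReal_mul (Real.exp_pos _).le, ex_add]
  calc ex ε₁ * ∫⁻ x, ∫⁻ y, f (x, y) ∂μ₂ ∂ν₁ + ENNReal.ofReal η₁
      ≤ ex ε₁ * (ex ε₂ * ∫⁻ x, ∫⁻ y, f (x, y) ∂ν₂ ∂ν₁ + ENNReal.ofReal η₂) +
        ENNReal.ofReal η₁ := by gcongr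
    _ = _ := by simp only [ex]; ring

lemma ex_le_meas {μ : Measure ℝ} [IsProbabilityMeasure μ] {I : Set ℝ} (hI : MeasurableSet I)
    {η : ℝ} (h0 : 0 ≤ η) (h1 : η ≤ 1 / 2) (h : μ Iᶜ ≤ ENNReal.ofReal η) :
    ex (-(2 * η)) ≤ μ I := by
  have hs : μ I + μ Iᶜ = 1 := by rw [measure_add_measure_compl hI, measure_univ]
  have h2 : Real.exp (-(2 * η)) ≤ 1 - η := by
    have a := Real.add_one_le_exp (2 * η)
    have b : Real.exp (-(2 * η)) * Real.exp (2 * η) = 1 := by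
      rw [← Real.exp_add]; simp
    have c := Real.exp_pos (-(2 * η))
    have d : Real.exp (-(2 * η)) * (2 * η + 1) ≤ 1 := by nlinarith
    have e : (1 : ℝ) ≤ (1 - η) * (2 * η + 1) := by nlinarith
    exact le_of_mul_le_mul_right (d.trans e) (by linarith)
  have h3 : ENNReal.ofReal (1 - η) + ENNReal.ofReal η = 1 := by
    rw [← ENNReal.ofReal_add (by linarith) h0]; simp
  have h4 : ENNReal.ofReal (1 - η) ≤ μ I := by
    refine (ENNReal.add_le_add_iff_right (a := ENNReal.ofReal η) ENNReal.ofReal_ne_top).1 ?_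
    rw [h3, ← hs]; gcongr
  exact (ENNReal.ofReal_le_ofReal h2).trans h4

lemma split_le {μ : Measure ℝ} {I : Set ℝ} (hI : MeasurableSet I) {η : ℝ}
    (h : μ Iᶜ ≤ ENNReal.ofReal η) {f : ℝ → ℝ≥0∞} (h1 : ∀ x, f x ≤ 1) :
    ∫⁻ x, f x ∂μ ≤ ∫⁻ x in I, f x ∂μ + ENNReal.ofReal η := by
  rw [← lintegral_add_compl f hI]
  gcongr
  calc ∫⁻ x in Iᶜ, f x ∂μ ≤ ∫⁻ _ in Iᶜ, 1 ∂μ := lintegral_mono fun x => h1 x
    _ = μ Iᶜ := by simp
    _ ≤ _ := h

end Pi22

open Pi22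

theorem piStmt : PiStmt := by
  intro n
  induction n with
  | zero =>
    intro μ ν _ _ ε η _ _ _
    have : Measure.pi μ = Measure.pi ν := by
      congr 1; exact Subsingleton.elim _ _
    rw [this]
    simpa using Cl.refl (Measure.pi ν)
  | succ n ih =>
    intro μ ν _ _ ε η hε hη h
    have hS : 0 ≤ ∑ i : Fin n, ε (Fin.succAbove 0 i) := sum_nonneg fun i _ => hε _
    have hT : 0 ≤ ∑ i : Fin n, η (Fin.succAbove 0 i) := sum_nonneg fun i _ => hη _
    have I := ih (fun i => μ (Fin.succAbove 0 i)) (fun i => ν (Fin.succAbove 0 i))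
      (fun i => ε (Fin.succAbove 0 i)) (fun i => η (Fin.succAbove 0 i)) (fun i => hε _)
      (fun i => hη _) fun i => h _
    have P := (prod2 (h 0) I (hη 0) (mul_nonneg (Real.exp_pos _).le hT)).map
      (MeasurableEquiv.piFinSuccAbove (fun _ : Fin (n + 1) => ℝ) 0).symm.measurable
    rw [((measurePreserving_piFinSuccAbove μ 0).symm).map_eq,
      ((measurePreserving_piFinSuccAbove ν 0).symm).map_eq] at P
    refine P.mono ?_ ?_
    · rw [Fin.sum_univ_succAbove ε 0]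
    · rw [Fin.sum_univ_succAbove ε 0, Fin.sum_univ_succAbove η 0, Real.exp_add]
      have a : 1 ≤ Real.exp (ε 0) * Real.exp (∑ i : Fin n, ε (Fin.succAbove 0 i)) :=
        one_le_mul_of_one_le_of_one_le (Real.one_le_exp (hε 0)) (Real.one_le_exp hS)
      have b := hη 0
      nlinarith

theorem densStmt : DensStmt := by
  intro μ ν _ _ I c φ e η hI hφ hb h0 h1 hμ hν H
  have up : ∀ f : ℝ → ℝ≥0∞, Measurable f →
      ∫⁻ y in I, ex (φ y) * f y ∂ν ≤ ex e * ∫⁻ y in I, f y ∂ν := fun f hf => by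
    rw [← lintegral_const_mul _ hf]
    refine setLIntegral_mono' hI fun y hy => ?_
    exact mul_le_mul_left (ex_mono (abs_le.1 (hb y hy)).2) _
  have lo : ∀ f : ℝ → ℝ≥0∞, Measurable f →
      ex (-e) * ∫⁻ y in I, f y ∂ν ≤ ∫⁻ y in I, ex (φ y) * f y ∂ν := fun f hf => by
    rw [← lintegral_const_mul _ hf]
    refine setLIntegral_mono' hI fun y hy => ?_
    exact mul_le_mul_left (ex_mono (abs_le.1 (hb y hy)).1) _
  have H1 := H (fun _ => 1) measurable_const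
  have up1 := up (fun _ => 1) measurable_const
  have lo1 := lo (fun _ => 1) measurable_const
  simp only [lintegral_const, one_mul, Measure.restrict_apply MeasurableSet.univ,
    Set.univ_inter] at H1 up1 lo1
  have mμ := ex_le_meas hI h0 h1 hμ
  have mν := ex_le_meas hI h0 h1 hν
  -- upper bound on `c`
  have cu : c * ex e ≤ ex (2 * e + 2 * η) := by
    have a : c * (ex (-e) * ex (-(2 * η))) ≤ 1 := by
      calc c * (ex (-e) * ex (-(2 * η))) ≤ c * (ex (-e) * ν I) := by gcongr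
        _ ≤ c * ∫⁻ y in I, ex (φ y) * 1 ∂ν := by gcongr
        _ = μ I := H1.symm
        _ ≤ 1 := prob_le_one
    calc c * ex e = c * (ex (-e) * ex (-(2 * η))) * ex (2 * e + 2 * η) := by
          rw [mul_assoc, ← ex_add, ← ex_add]; congr 2; ring
      _ ≤ 1 * ex (2 * e + 2 * η) := by gcongr
      _ = _ := one_mul _
  -- lower bound on `c`
  have cl : 1 ≤ ex (2 * e + 2 * η) * (c * ex (-e)) := by
    have a : ex (-(2 * η)) ≤ c * ex e := by
      calc ex (-(2 * η)) ≤ μ I := mμ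
        _ = c * ∫⁻ y in I, ex (φ y) * 1 ∂ν := H1
        _ ≤ c * (ex e * ν I) := by gcongr
        _ ≤ c * (ex e * 1) := by gcongr; exact prob_le_one
        _ = _ := by rw [mul_one]
    calc (1 : ℝ≥0∞) = ex (2 * η) * ex (-(2 * η)) := by rw [← ex_add]; simp [ex_zero]
      _ ≤ ex (2 * η) * (c * ex e) := by gcongr
      _ = c * (ex (2 * η) * ex e) := by ring
      _ = c * (ex (2 * e + 2 * η) * ex (-e)) := by
          rw [← ex_add, ← ex_add]; congr 2; ring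
      _ = _ := by ring
  constructor
  · intro f hf hf1
    refine (split_le hI hμ hf1).trans ?_
    gcongr
    calc ∫⁻ x in I, f x ∂μ = c * ∫⁻ y in I, ex (φ y) * f y ∂ν := H f hf
      _ ≤ c * (ex e * ∫⁻ y in I, f y ∂ν) := by gcongr; exact up f hf
      _ = c * ex e * ∫⁻ y in I, f y ∂ν := by ring
      _ ≤ ex (2 * e + 2 * η) * ∫⁻ y, f y ∂ν := by
          gcongr; exact Measure.restrict_le_self
  · intro f hf hf1
    refine (split_le hI hν hf1).trans ?_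
    gcongr
    calc ∫⁻ x in I, f x ∂ν = 1 * ∫⁻ x in I, f x ∂ν := (one_mul _).symm
      _ ≤ ex (2 * e + 2 * η) * (c * ex (-e)) * ∫⁻ x in I, f x ∂ν := by gcongr
      _ = ex (2 * e + 2 * η) * (c * (ex (-e) * ∫⁻ x in I, f x ∂ν)) := by ring
      _ ≤ ex (2 * e + 2 * η) * (c * ∫⁻ y in I, ex (φ y) * f y ∂ν) := by
          gcongr; exact lo f hf
      _ = ex (2 * e + 2 * η) * ∫⁻ y in I, f y ∂μ := by rw [H f hf]
      _ ≤ ex (2 * e + 2 * η) * ∫⁻ y, f y ∂μ := by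
          gcongr; exact Measure.restrict_le_self

end Crest.Agent.T156.U2

end
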