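import Crest.Agent.T156.U2Def_30
import Crest.Agent.T157.EdOsc_7
import Crest.Agent.R146.Sph1_409

/-!
# Row 156, (U2): the noise of one row is close to `N(0, 4)` (helper32)

`rowGlue : RowGlue` (`DensStmt → RowStmt`), text `docs/T156_30.md` (3).
-/

set_option autoImplicit false

noncomputable section

namespace Crest.Agent.T156.U2

open MeasureTheory ProbabilityTheory Finset
open scoped ENNReal NNReal
open Crest.Agent.T157 Crest.Agent.T157.E Crest.Agent.T157.Eig Crest.Agent.T157.Ed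
open Crest.Agent.T157.Conc (ex)
open Crest.Agent.R146.Sph_409 (radLaw gDen lintegral_radLaw measurable_gDen)

namespace Row32

/-- keep a first factor fixed -/
lemma cl_prod {X Y : Type*} [MeasurableSpace X] [MeasurableSpace Y] (ρ : Measure X)
    [IsProbabilityMeasure ρ] {μ ν : Measure Y} [SFinite μ] [SFinite ν] {ε η : ℝ}
    (h : Cl μ ν ε η) : Cl (ρ.prod μ) (ρ.prod ν) ε η := fun f hf h1 => by
  rw [lintegral_prod _ hf.aemeasurable, lintegral_prod _ hf.aemeasurable]
  calc ∫⁻ x, ∫⁻ y, f (x, y) ∂μ ∂ρ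
      ≤ ∫⁻ x, (ex ε * ∫⁻ y, f (x, y) ∂ν + ENNReal.ofReal η) ∂ρ :=
        lintegral_mono fun x => h _ (hf.comp measurable_prodMk_left) fun y => h1 _
    _ = _ := by
        rw [lintegral_add_right _ measurable_const, lintegral_const, measure_univ, mul_one,
          lintegral_const_mul _ hf.lintegral_prod_right']

/-- the log-density ratio -/
def phi (m : ℕ) (β y : ℝ) : ℝ :=
  ((m : ℝ) - 1) * (Real.log y - Real.log β) - (y ^ 2 - β ^ 2) / 2 + (y - β) ^ 2

lemma phi_bound {m : ℕ} {β M y : ℝ} (hM : 2 ≤ M) (hβ : 5 * M ≤ β) (h1 : (m : ℝ) - 2 ≤ β ^ 2)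
    (h2 : β ^ 2 ≤ m) (hy : |y - β| < M) : |phi m β y| ≤ 2 * M ^ 3 / β := by
  have hb : 0 < β := by linarith
  set u := (y - β) / β with hu
  have hyu : y = β * (1 + u) := by rw [hu]; field_simp; ring
  have hu1 : |u| ≤ M / β := by
    rw [hu, abs_div, abs_of_pos hb]
    exact div_le_div_of_nonneg_right hy.le hb.le
  have hu2 : M / β ≤ 1 / 5 := by rw [div_le_iff₀ hb]; linarith
  have hu3 : |u| ≤ 1 / 5 := hu1.trans hu2
  have hu4 : 0 < 1 + u := by have := (abs_le.1 hu3).1; linarith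
  have hl : Real.log y - Real.log β = Real.log (1 + u) := by
    rw [hyu, Real.log_mul hb.ne' hu4.ne']; ring
  have hr := Real.abs_log_sub_add_sum_range_le (x := -u) (by rw [abs_neg]; linarith) 2
  simp only [sum_range_succ, range_zero, sum_empty, abs_neg, sub_neg_eq_add] at hr
  set r := Real.log (1 + u) - (u - u ^ 2 / 2) with hrd
  have hr' : |r| ≤ 5 / 4 * |u| ^ 3 := by
    have e : r = 0 + (-u) ^ (0 + 1) / (((0 : ℕ) : ℝ) + 1) + (-u) ^ (1 + 1) / (((1 : ℕ) : ℝ) + 1) +
        Real.log (1 + u) := by rw [hrd]; push_cast; ring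
    rw [e]
    refine hr.trans ?_
    rw [div_le_iff₀ (by linarith)]
    have : 0 ≤ |u| ^ 3 := by positivity
    norm_num
    nlinarith
  have e : phi m β y = ((m : ℝ) - 1 - β ^ 2) * (u - u ^ 2 / 2) + ((m : ℝ) - 1) * r := by
    rw [phi, hl, hrd, hyu]; ring
  have a1 : |(m : ℝ) - 1 - β ^ 2| ≤ 1 := abs_le.2 ⟨by linarith, by linarith⟩
  have a2 : |u - u ^ 2 / 2| ≤ 2 * |u| := by
    have : u - u ^ 2 / 2 = u * (1 - u / 2) := by ring
    rw [this, abs_mul, mul_comm]
    refine mul_le_mul_of_nonneg_right (abs_le.2 ⟨?_, ?_⟩) (abs_nonneg _) <;>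
      linarith [(abs_le.1 hu3).1, (abs_le.1 hu3).2]
  have hb2 : 100 ≤ β ^ 2 := by nlinarith
  have a3 : |(m : ℝ) - 1| ≤ 6 / 5 * β ^ 2 := abs_le.2 ⟨by linarith, by linarith⟩
  have a4 : |u| ^ 3 ≤ (M / β) ^ 3 := pow_le_pow_left₀ (abs_nonneg _) hu1 3
  have a5 : |((m : ℝ) - 1 - β ^ 2) * (u - u ^ 2 / 2)| ≤ 2 * (M / β) := by
    rw [abs_mul]
    calc _ ≤ 1 * (2 * |u|) := mul_le_mul a1 a2 (abs_nonneg _) zero_le_one
      _ ≤ _ := by linarith
  have a6 : |((m : ℝ) - 1) * r| ≤ 6 / 5 * β ^ 2 * (5 / 4 * (M / β) ^ 3) := by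
    rw [abs_mul]
    exact mul_le_mul a3 (hr'.trans (by linarith)) (abs_nonneg _) (by positivity)
  have a7 : 6 / 5 * β ^ 2 * (5 / 4 * (M / β) ^ 3) = 3 / 2 * M ^ 3 / β := by field_simp; ring
  have a8 : 2 * (M / β) ≤ 1 / 2 * M ^ 3 / β := by
    rw [← mul_div_assoc]
    refine div_le_div_of_nonneg_right ?_ hb.le
    have : 4 ≤ M ^ 2 := by nlinarith
    nlinarith
  have a9 : 2 * M ^ 3 / β = 1 / 2 * M ^ 3 / β + 3 / 2 * M ^ 3 / β := by ring
  rw [e, a9]
  refine (abs_add_le _ _).trans ?_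
  linarith

/-- the densities of `χ_m` and `N(β, 1/2)` are proportional up to `exp (phi)` -/
lemma dens (m : ℕ) (hm : 1 ≤ m) {β : ℝ} (hβ : 0 < β) {I : Set ℝ} (hI : MeasurableSet I)
    (hI0 : I ⊆ Set.Ioi 0) : ∃ c : ℝ≥0∞, ∀ f : ℝ → ℝ≥0∞, Measurable f →
      ∫⁻ y in I, f y ∂radLaw m =
        c * ∫⁻ y in I, ex (phi m β y) * f y ∂gaussianReal β (1 / 2) := by
  have : NeZero m := ⟨by omega⟩
  set σ := Crest.ProbabilityR.Perceptron.sphereLaw m Set.univ with hσ
  set K : ℝ := (√(2 * Real.pi))⁻¹ ^ m * β ^ (m - 1) * Real.exp (-β ^ 2 / 2) *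
    √(2 * Real.pi * ((1 / 2 : ℝ≥0) : ℝ)) with hK
  have hK0 : 0 ≤ K := by positivity
  refine ⟨σ * ENNReal.ofReal K, fun f hf => ?_⟩
  have hφ : Measurable (phi m β) := by unfold phi; fun_prop
  have hg : Measurable fun y => ex (phi m β y) * f y := (Conc.measurable_ex.comp hφ).mul hf
  rw [← lintegral_indicator hI, lintegral_radLaw m (hf.indicator hI),
    gaussianReal_of_var_ne_zero β (by norm_num), restrict_withDensity hI,
    lintegral_withDensity_eq_lintegral_mul _ (measurable_gaussianPDF _ _) hg,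
    ← lintegral_const_mul _ ((measurable_gaussianPDF _ _).mul hg),
    ← lintegral_indicator hI, ← lintegral_indicator measurableSet_Ioi]
  refine lintegral_congr fun y => ?_
  by_cases hy : y ∈ I
  · have hy0 : 0 < y := hI0 hy
    rw [Set.indicator_of_mem (hI0 hy), Set.indicator_of_mem hy, Set.indicator_of_mem hy]
    simp only [Pi.mul_apply, gDen, gaussianPDF, ex]
    have key : y ^ (m - 1) * ((√(2 * Real.pi))⁻¹ ^ m * Real.exp (-y ^ 2 / 2)) =
        K * (gaussianPDFReal β (1 / 2) y * Real.exp (phi m β y)) := by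
      have hs : 0 < √(2 * Real.pi * ((1 / 2 : ℝ≥0) : ℝ)) := by
        apply Real.sqrt_pos.2; have := Real.pi_pos; positivity
      have e1 : y ^ (m - 1) = Real.exp (((m : ℝ) - 1) * Real.log y) := by
        rw [← Nat.cast_pred (by omega), Real.exp_nat_mul, Real.exp_log hy0]
      have e2 : β ^ (m - 1) = Real.exp (((m : ℝ) - 1) * Real.log β) := by
        rw [← Nat.cast_pred (by omega), Real.exp_nat_mul, Real.exp_log hβ]
      have e3 : Real.exp (((m : ℝ) - 1) * Real.log y) * Real.exp (-y ^ 2 / 2) =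
          Real.exp (((m : ℝ) - 1) * Real.log β) * Real.exp (-β ^ 2 / 2) *
            (Real.exp (-(y - β) ^ 2 / (2 * ((1 / 2 : ℝ≥0) : ℝ))) * Real.exp (phi m β y)) := by
        simp only [← Real.exp_add]
        congr 1
        rw [phi]; push_cast; ring
      rw [hK, e1, e2, gaussianPDFReal]
      set w := √(2 * Real.pi * ((1 / 2 : ℝ≥0) : ℝ))
      calc _ = (√(2 * Real.pi))⁻¹ ^ m *
            (Real.exp (((m : ℝ) - 1) * Real.log y) * Real.exp (-y ^ 2 / 2)) := by ring
        _ = _ := by rw [e3]; field_simp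
    rw [← ENNReal.ofReal_mul (by positivity), key, ENNReal.ofReal_mul hK0,
      ENNReal.ofReal_mul (gaussianPDFReal_nonneg _ _ _)]
    ring
  · rw [Set.indicator_of_notMem hy]
    by_cases h0 : y ∈ Set.Ioi (0 : ℝ)
    · rw [Set.indicator_of_mem h0, Set.indicator_of_notMem hy, mul_zero]
    · rw [Set.indicator_of_notMem h0]

/-- law of the norm of the coordinates in `S` -/
lemma map_Bn {n : ℕ} (S : Finset (Fin n)) : (gv (Fin n)).map (Clt80.Bn S) = radLaw S.card := by
  have hi : iIndepFun (fun (i : Fin n) (ω : Fin n → ℝ) => ω i) (gv (Fin n)) :=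
    iIndepFun_pi (X := fun _ x => x) fun _ => aemeasurable_id
  set e := S.orderEmbOfFin rfl with he
  have h1 := (hi.precomp (g := e) e.injective).map_fun_eq_pi_map
    fun j => (measurable_pi_apply (e j)).aemeasurable
  have h2 : ∀ j, (gv (Fin n)).map (fun ω : Fin n → ℝ => ω (e j)) = gaussianReal 0 1 := fun j =>
    (measurePreserving_eval (fun _ : Fin n => gaussianReal 0 1) (e j)).map_eq
  simp only [h2] at h1
  rw [radLaw, ← map_pi_eq_stdGaussian, ← h1,
    Measure.map_map (WithLp.measurable_toLp 2 _) (by fun_prop),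
    Measure.map_map measurable_norm ((WithLp.measurable_toLp 2 _).comp (by fun_prop))]
  congr 1
  funext y
  simp only [Function.comp, Clt80.Bn, EuclideanSpace.norm_eq, Real.norm_eq_abs, sq_abs]
  congr 1
  rw [← Finset.sum_coe_sort S, ← (S.orderIsoOfFin rfl).toEquiv.sum_comp]
  rfl

/-- joint law of a coordinate outside `S` and the norm of the coordinates in `S` -/
lemma map_joint {n : ℕ} (S : Finset (Fin n)) {k : Fin n} (hk : k ∉ S) :
    (gv (Fin n)).map (fun y => (y k, Clt80.Bn S y)) = (gaussianReal 0 1).prod (radLaw S.card) := by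
  have hi : iIndepFun (fun (i : Fin n) (ω : Fin n → ℝ) => ω i) (gv (Fin n)) :=
    iIndepFun_pi (X := fun _ x => x) fun _ => aemeasurable_id
  have m1 : Measurable fun z : ({k} : Finset (Fin n)) → ℝ => z ⟨k, mem_singleton_self k⟩ :=
    measurable_pi_apply _
  have m2 : Measurable fun z : S → ℝ => Real.sqrt (∑ j, z j ^ 2) := by fun_prop
  have h1 := (hi.indepFun_finset {k} S (by simpa using hk) fun i => measurable_pi_apply i).comp
    m1 m2
  have h2 : IndepFun (fun y : Fin n → ℝ => y k) (Clt80.Bn S) (gv (Fin n)) := by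
    have e : Clt80.Bn S = (fun z : S → ℝ => Real.sqrt (∑ j, z j ^ 2)) ∘
        fun (a : Fin n → ℝ) (i : S) => a i := by
      funext y
      simp only [Function.comp, Clt80.Bn]
      rw [← Finset.sum_coe_sort S]
    rw [e]
    exact h1
  rw [h2.map_prod_eq_prod_map_map (measurable_pi_apply k).aemeasurable
    (Clt80.elip_Bn S).continuous.measurable.aemeasurable, map_Bn,
    (measurePreserving_eval (fun _ : Fin n => gaussianReal 0 1) k).map_eq]

lemma map_T (β : ℝ) :
    ((gaussianReal 0 1).prod (gaussianReal β (1 / 2))).map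
        (fun p : ℝ × ℝ => Real.sqrt 2 * p.1 + 2 * (p.2 - β)) =
      (gaussianReal 0 1).map fun u : ℝ => 2 * u := by
  have h1 : (gaussianReal β (1 / 2)).map (fun r : ℝ => 2 * (r - β)) = gaussianReal 0 2 := by
    have : (fun r : ℝ => 2 * (r - β)) = (fun r : ℝ => 2 * r) ∘ fun r => r - β := rfl
    rw [this, ← Measure.map_map (by fun_prop) (by fun_prop), gaussianReal_map_sub_const,
      gaussianReal_map_const_mul]
    congr 1
    · ring
    · ext; push_cast; norm_num
  have h2 : (gaussianReal 0 1).map (fun u : ℝ => Real.sqrt 2 * u) = gaussianReal 0 2 := by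
    rw [gaussianReal_map_const_mul]
    congr 1
    · ring
    · ext; push_cast; norm_num
  have h3 : (gaussianReal 0 1).map (fun u : ℝ => 2 * u) = gaussianReal (0 + 0) (2 + 2) := by
    rw [gaussianReal_map_const_mul]
    congr 1
    · ring
    · ext; push_cast; norm_num
  rw [h3, ← gaussianReal_conv_gaussianReal, Measure.conv]
  conv_rhs => rw [← h2]
  have h4 : ((gaussianReal 0 1).map fun u : ℝ => Real.sqrt 2 * u).prod
      ((gaussianReal 0 1).map fun u : ℝ => Real.sqrt 2 * u) =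
      ((gaussianReal 0 1).map fun u : ℝ => Real.sqrt 2 * u).prod
        ((gaussianReal β (1 / 2)).map fun r : ℝ => 2 * (r - β)) := by rw [h1, h2]
  rw [h4, Measure.map_prod_map _ _ (by fun_prop) (by fun_prop),
    Measure.map_map (by fun_prop) (by fun_prop)]
  rfl

lemma tail_gauss (β : ℝ) {M : ℝ} (hM : 0 ≤ M) :
    (gaussianReal β (1 / 2)).real {y | M ≤ |y - β|} ≤ 2 * Real.exp (-M ^ 2 / 2) := by
  have hm : (gaussianReal β (1 / 2)).map (fun y : ℝ => y - β) = gaussianReal 0 (1 / 2) := by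
    rw [gaussianReal_map_sub_const, sub_self]
  have h : HasSubgaussianMGF (fun y : ℝ => y - β) 1 (gaussianReal β (1 / 2)) := by
    refine ⟨fun t => ?_, fun t => ?_⟩
    · have := integrable_exp_mul_gaussianReal (μ := 0) (v := 1 / 2) t
      rw [← hm, integrable_map_measure (by fun_prop) (by fun_prop)] at this
      exact this
    · rw [mgf_gaussianReal hm]
      refine Real.exp_le_exp.2 ?_
      push_cast
      nlinarith [sq_nonneg t]
  simpa using Conc.subG_abs h hM

end Row32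

open Row32 in
theorem rowGlue : RowGlue := by
  intro hD n k M hM hk hn
  set S : Finset (Fin n) := univ.filter (k < ·) with hS
  set β := ∫ x, Clt80.Bn S x ∂gv (Fin n) with hβ
  have hcard : (S.card : ℝ) = (n : ℝ) - (k + 1) := by
    have h3 : S = Finset.Ioi k := by ext j; simp [hS]
    rw [h3, Fin.card_Ioi]
    have := k.2
    rw [Nat.cast_sub (by omega), Nat.cast_sub (by omega)]
    push_cast; ring
  have hkn : 2 * ((k : ℝ) + 1) ≤ n := by exact_mod_cast hk
  have hch : (n : ℝ) - (k + 1) - 2 ≤ β ^ 2 ∧ β ^ 2 ≤ (n : ℝ) - (k + 1) := Osc7.chi_mean k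
  rw [← hcard] at hch
  have hβ0 : 0 ≤ β := integral_nonneg fun _ => Clt80.Bn_nonneg _ _
  have hM2 : 4 ≤ M ^ 2 := by nlinarith
  have hβ5 : 5 * M ≤ β := by
    refine (pow_le_pow_iff_left₀ (by linarith) hβ0 two_ne_zero).1 ?_
    nlinarith [hch.1]
  have hβp : 0 < β := by linarith
  have hm1 : 1 ≤ S.card := by
    have : (1 : ℝ) ≤ S.card := by linarith
    exact_mod_cast this
  set I : Set ℝ := {y | |y - β| < M} with hI
  have hIm : MeasurableSet I := measurableSet_lt (by fun_prop) measurable_const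
  have hI0 : I ⊆ Set.Ioi 0 := fun y hy => by
    have := (abs_lt.1 (show |y - β| < M from hy)).1
    show 0 < y
    linarith
  have hIc : Iᶜ = {y | M ≤ |y - β|} := by ext y; simp [hI]
  obtain ⟨c, hc⟩ := dens S.card hm1 hβp hIm hI0
  have hη : 2 * Real.exp (-M ^ 2 / 2) ≤ 1 / 2 := by
    have h1 : Real.exp (-M ^ 2 / 2) ≤ Real.exp (-2) := Real.exp_le_exp.2 (by linarith)
    have h2 : Real.exp (-2) * Real.exp 2 = 1 := by rw [← Real.exp_add]; simp
    have h3 : 4 ≤ Real.exp 2 := by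
      have := Real.add_one_le_exp 1
      have e : Real.exp 2 = Real.exp 1 * Real.exp 1 := by rw [← Real.exp_add]; norm_num
      nlinarith
    nlinarith [Real.exp_pos (-2)]
  have hsq : Real.sqrt n ≤ 2 * β := by
    refine Real.sqrt_le_iff.2 ⟨by linarith, ?_⟩
    nlinarith [hch.1]
  have hsp : 0 < Real.sqrt n := Real.sqrt_pos.2 (by linarith)
  have hφ : ∀ y ∈ I, |phi S.card β y| ≤ 10 * M ^ 3 / Real.sqrt n := fun y hy => by
    refine (phi_bound hM hβ5 hch.1 hch.2 hy).trans ?_
    rw [div_le_div_iff₀ hβp hsp]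
    have : 0 ≤ M ^ 3 := by positivity
    nlinarith
  have t1 : radLaw S.card Iᶜ ≤ ENNReal.ofReal (2 * Real.exp (-M ^ 2 / 2)) := by
    have h := Conc.tail_lip_abs (Clt80.elip_Bn S) (t := M) (by linarith)
    rw [← map_Bn, Measure.map_apply (Clt80.elip_Bn S).continuous.measurable hIm.compl, hIc,
      ← ofReal_measureReal (measure_ne_top _ _)]
    refine ENNReal.ofReal_le_ofReal ?_
    simpa using h
  have t2 : gaussianReal β (1 / 2) Iᶜ ≤ ENNReal.ofReal (2 * Real.exp (-M ^ 2 / 2)) := by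
    rw [hIc, ← ofReal_measureReal (measure_ne_top _ _)]
    exact ENNReal.ofReal_le_ofReal (tail_gauss β (by linarith))
  have h := hD (radLaw S.card) (gaussianReal β (1 / 2)) I c (phi S.card β) _ _ hIm
    (by unfold phi; fun_prop) hφ (by positivity) hη t1 t2 hc
  have hT : Measurable fun p : ℝ × ℝ => Real.sqrt 2 * p.1 + 2 * (p.2 - β) := by fun_prop
  have e1 : (gv (Fin n)).map (Clt80.eta S k) = ((gaussianReal 0 1).prod (radLaw S.card)).map
      fun p : ℝ × ℝ => Real.sqrt 2 * p.1 + 2 * (p.2 - β) := by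
    rw [← map_joint S (k := k) (by simp [hS]), Measure.map_map hT
      ((measurable_pi_apply k).prodMk (Clt80.elip_Bn S).continuous.measurable)]
    rfl
  have e2 : 20 * M ^ 3 / Real.sqrt n + 4 * Real.exp (-M ^ 2 / 2) =
      2 * (10 * M ^ 3 / Real.sqrt n) + 2 * (2 * Real.exp (-M ^ 2 / 2)) := by ring
  rw [e1, ← map_T β, e2]
  exact ⟨(cl_prod _ h.1).map hT, (cl_prod _ h.2).map hT⟩

end Crest.Agent.T156.U2

end
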