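import Crest.Agent.T156.U2B_30
import Crest.Agent.T156.U2Blk_63
import Crest.Agent.T156.U2Det_65
import Crest.Agent.T156.U2Pi_22
import Crest.Agent.T156.U2Row_32

/-!
# Row 156, (U2a): power-rate universality in `n` of the GOE edge, tilted form — unconditional
-/

set_option autoImplicit false

namespace Crest.Agent.T156.U2

theorem blkStmt : BlkStmt := blkGlue piStmt (rowGlue densStmt)

theorem u2Stmt : U2Stmt := u2Glue blkStmt detQ kapQ meshStmt

end Crest.Agent.T156.U2
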