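import Crest.Agent.T156.U2A_30

/-!
# Row 156, (U2): numerics and `U2Glue` (helper30)
-/

set_option autoImplicit false

noncomputable section

namespace Crest.Agent.T156.U2

open MeasureTheory ProbabilityTheory Finset
open scoped ENNReal
open Crest.Agent.T157 Crest.Agent.T157.E Crest.Agent.T157.Eig Crest.Agent.T157.Ed
open Crest.Agent.T157.Conc (ex ex_add ex_mono ex_ne_top ex_zero measurable_ex)

section num
variable {R : ℝ}

lemma pw (hR : 1 ≤ R) {a b : ℕ} (h : a ≤ b) : R ^ a ≤ R ^ b := pow_le_pow_right₀ hR h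

lemma cpw {c : ℝ} (hR : 1 ≤ R) (hc : c ≤ R) {a b : ℕ} (h : a < b) : c * R ^ a ≤ R ^ b :=
  (mul_le_mul_of_nonneg_right hc (by positivity)).trans (by rw [← pow_succ']; exact pw hR h)

lemma exp_neg_le {x : ℝ} (hR : 0 < R) (h : x ≤ -R ^ 4) : Real.exp x ≤ 1 / R ^ 4 := by
  refine (Real.exp_le_exp.2 h).trans ?_
  rw [Real.exp_neg, one_div]
  exact inv_anti₀ (by positivity) (by linarith [Real.add_one_le_exp (R ^ 4)])

/-- `12 R^24 e^{-R^7} e^{4R^4} ≤ R^{-4}` -/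
lemma small (hR : 100 ≤ R) {a b : ℝ} (_ha0 : 0 ≤ a) (ha : a ≤ 12 * R ^ 24) (hb : b ≤ -R ^ 7) :
    a * Real.exp b * Real.exp (2 * (R * (2 * R ^ 3))) ≤ 1 / R ^ 4 := by
  have h1 : (1 : ℝ) ≤ R := by linarith
  have h2 : R ^ 25 ≤ Real.exp (25 * R) := by
    rw [show (25 : ℝ) * R = (25 : ℕ) * R by norm_num, Real.exp_nat_mul]
    exact pow_le_pow_left₀ (by linarith) (by linarith [Real.add_one_le_exp R]) _
  have h3 : a ≤ Real.exp (25 * R) := ha.trans ((cpw h1 (by linarith) (by norm_num)).trans h2)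
  refine le_trans (mul_le_mul_of_nonneg_right (mul_le_mul_of_nonneg_right h3 (Real.exp_pos _).le)
    (Real.exp_pos _).le) ?_
  rw [← Real.exp_add, ← Real.exp_add]
  refine exp_neg_le (by linarith) ?_
  have h4 : 30 * R ^ 4 ≤ R ^ 7 := cpw h1 (by linarith) (by norm_num)
  have h5 : R ^ 1 ≤ R ^ 4 := pw h1 (by norm_num)
  have e : 2 * (R * (2 * R ^ 3)) = 4 * R ^ 4 := by ring
  rw [pow_one] at h5
  linarith

lemma pow_exp_le {u : ℝ} (hu : 400 ≤ u) :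
    u ^ 8 * Real.exp (-u ^ 2 / 2) ≤ Real.exp (-u ^ 2 / 4) := by
  have h0 : 0 ≤ u ^ 2 / 4 := by positivity
  have h1 := Real.pow_div_factorial_le_exp _ h0 5
  have h2 : u ^ 8 ≤ Real.exp (u ^ 2 / 4) := by
    refine le_trans ?_ h1
    have h3 : (160000 : ℝ) ≤ u ^ 2 := by nlinarith
    have h4 := mul_le_mul_of_nonneg_right h3 (by positivity : 0 ≤ u ^ 8)
    have e : (u ^ 2 / 4) ^ 5 / (Nat.factorial 5 : ℕ) = u ^ 2 * u ^ 8 / 122880 := by
      norm_num [Nat.factorial]; ring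
    have h5 : 0 ≤ u ^ 8 := by positivity
    rw [e]; linarith
  refine (mul_le_mul_of_nonneg_right h2 (Real.exp_pos _).le).trans (le_of_eq ?_)
  rw [← Real.exp_add]; congr 1; ring

lemma mesh1 {δ δ' t : ℝ} (hδ : 0 < δ) (h1 : δ ≤ δ') (h2 : δ' ≤ δ + t) :
    |1 / δ' ^ 2 - 1 / δ ^ 2| ≤ 2 * t / δ ^ 3 := by
  have hδ' : 0 < δ' := by linarith
  have ht : 0 ≤ t := by linarith
  have e : 1 / δ ^ 2 - 1 / δ' ^ 2 = (δ' - δ) * ((δ' + δ) / δ' ^ 2) / δ ^ 2 := by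
    field_simp; ring
  have h3 : (δ' + δ) / δ' ^ 2 ≤ 2 / δ := by
    rw [div_le_div_iff₀ (by positivity) hδ]; nlinarith
  rw [abs_sub_comm, e, abs_of_nonneg (div_nonneg (mul_nonneg (by linarith) (by positivity))
    (by positivity))]
  have h4 : (δ' - δ) * ((δ' + δ) / δ' ^ 2) ≤ t * (2 / δ) :=
    mul_le_mul (by linarith) h3 (by positivity) ht
  refine (div_le_div_of_nonneg_right h4 (by positivity)).trans (le_of_eq ?_)
  field_simp

lemma mesh2 {δ δ' t : ℝ} (hδ : 0 < δ) (hδ1 : δ ≤ 1) (h1 : δ ≤ δ') (h2 : δ' ≤ δ + t) :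
    |2 / Real.sqrt δ' - 2 / Real.sqrt δ| ≤ t / δ ^ 2 := by
  have hδ' : 0 < δ' := by linarith
  obtain ⟨a, ha, rfl⟩ : ∃ a, 0 < a ∧ δ = a ^ 2 :=
    ⟨Real.sqrt δ, Real.sqrt_pos.2 hδ, (Real.sq_sqrt hδ.le).symm⟩
  obtain ⟨b, hb, rfl⟩ : ∃ b, 0 < b ∧ δ' = b ^ 2 :=
    ⟨Real.sqrt δ', Real.sqrt_pos.2 hδ', (Real.sq_sqrt hδ'.le).symm⟩
  have hab : a ≤ b := (pow_le_pow_iff_left₀ ha.le hb.le two_ne_zero).1 h1
  have ha1 : a ≤ 1 := by nlinarith
  rw [Real.sqrt_sq ha.le, Real.sqrt_sq hb.le, abs_sub_comm]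
  have e : 2 / a - 2 / b = 2 * (b - a) / (a * b) := by field_simp
  rw [e, abs_of_nonneg (div_nonneg (by linarith) (by positivity)),
    div_le_div_iff₀ (by positivity) (by positivity)]
  have h3 : (b - a) * (2 * a) ≤ t := by nlinarith
  have h4 : a ^ 3 ≤ a * b := by nlinarith [mul_nonneg ha.le (sub_nonneg.2 ha1)]
  have h5 : 0 ≤ (b - a) * (2 * a) := mul_nonneg (by linarith) (by linarith)
  calc 2 * (b - a) * (a ^ 2) ^ 2 = (b - a) * (2 * a) * a ^ 3 := by ring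
    _ ≤ t * (a * b) := mul_le_mul h3 h4 (by positivity) (by linarith)

/-- the parameters that do not depend on `n` -/
lemma par (hR : 40000 ≤ R) {e T θ L δ : ℝ} {J : ℕ} (he : e = 1 / (8 * R ^ 2))
    (hT : T = 2 * R ^ 3 + R ^ 3 + 1) (hθ : θ = e / (8 * (128 * T + 1)))
    (hL : L = 128 * (T + 1) + 256 / e) (hJ : J = ⌈R ^ 24⌉₊) (hδ : δ = L / (J + 1)) :
    1 ≤ L ∧ L ≤ R ^ 4 ∧ R ≤ J ∧ (J : ℝ) + 1 ≤ 3 * R ^ 24 ∧ 1 / R ^ 21 ≤ δ ∧ δ ≤ 1 / R ^ 20 ∧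
      3 * (L + 3 + 15 * L ^ 2) / θ ≤ R ^ 100 ∧ 2 * δ ≤ θ / (3 * (2 * L + 1) * T) ∧
      -((θ / 21) ^ 2 / (16 * δ)) ≤ -R ^ 7 := by
  have h1 : (1 : ℝ) ≤ R := by linarith
  have h0 : 0 < R := by linarith
  have p3 : 1 ≤ R ^ 3 := one_le_pow₀ h1
  have p23 : R ^ 2 ≤ R ^ 3 := pw h1 (by norm_num)
  have hT1 : 1 ≤ T := by linarith
  have hT4 : T ≤ 4 * R ^ 3 := by linarith
  have eL : L = 384 * R ^ 3 + 256 + 2048 * R ^ 2 := by rw [hL, hT, he]; field_simp; ring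
  have p2 : 0 ≤ R ^ 2 := by positivity
  have L1 : 3 * R ^ 3 ≤ L := by linarith
  have L2 : L ≤ R ^ 4 := by
    have : 2688 * R ^ 3 ≤ R ^ 4 := cpw h1 (by linarith) (by norm_num)
    linarith
  have L0 : 1 ≤ L := by linarith
  have J1 : R ^ 24 ≤ J := hJ ▸ Nat.le_ceil _
  have p24 : 1 ≤ R ^ 24 := one_le_pow₀ h1
  have J2 : (J : ℝ) + 1 ≤ 3 * R ^ 24 := by
    have := Nat.ceil_lt_add_one (a := R ^ 24) (by positivity)
    rw [← hJ] at this; linarith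
  have t1 : 1 / R ^ 6 ≤ θ := by
    rw [hθ, he, div_div, one_div_le_one_div (by positivity) (by positivity)]
    have a1 : 128 * T + 1 ≤ 513 * R ^ 3 := by linarith
    have a2 : 32832 * R ^ 5 ≤ R ^ 6 := cpw h1 (by linarith) (by norm_num)
    calc 8 * R ^ 2 * (8 * (128 * T + 1)) ≤ 8 * R ^ 2 * (8 * (513 * R ^ 3)) := by gcongr
      _ = 32832 * R ^ 5 := by ring
      _ ≤ _ := a2
  have t0 : 0 < θ := lt_of_lt_of_le (by positivity) t1
  have d1 : 1 / R ^ 21 ≤ δ := by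
    rw [hδ, div_le_div_iff₀ (by positivity) (by positivity)]
    calc 1 * ((J : ℝ) + 1) ≤ 3 * R ^ 3 * R ^ 21 := by
          rw [one_mul, mul_assoc, ← pow_add]; exact J2
      _ ≤ L * R ^ 21 := by gcongr
  have d2 : δ ≤ 1 / R ^ 20 := by
    rw [hδ, div_le_div_iff₀ (by positivity) (by positivity)]
    calc L * R ^ 20 ≤ R ^ 4 * R ^ 20 := by gcongr
      _ = R ^ 24 := by ring
      _ ≤ _ := by linarith
  have d0 : 0 < δ := lt_of_lt_of_le (by positivity) d1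
  refine ⟨L0, L2, ?_, J2, d1, d2, ?_, ?_, ?_⟩
  · have : R ^ 1 ≤ R ^ 24 := pw h1 (by norm_num)
    rw [pow_one] at this; linarith
  · rw [div_le_iff₀ t0]
    have a1 : L ^ 2 ≤ R ^ 8 := by
      calc L ^ 2 ≤ (R ^ 4) ^ 2 := by gcongr
        _ = _ := by ring
    have a2 : L ≤ L ^ 2 := le_self_pow₀ L0 two_ne_zero
    have a3 : 57 * R ^ 8 ≤ R ^ 94 := cpw h1 (by linarith) (by norm_num)
    calc 3 * (L + 3 + 15 * L ^ 2) ≤ R ^ 94 := by linarith
      _ = R ^ 100 * (1 / R ^ 6) := by field_simp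
      _ ≤ _ := by gcongr
  · rw [le_div_iff₀ (by positivity)]
    have a1 : 2 * L + 1 ≤ 3 * R ^ 4 := by linarith
    have a2 : 72 * R ^ 13 ≤ R ^ 20 := cpw h1 (by linarith) (by norm_num)
    calc 2 * δ * (3 * (2 * L + 1) * T) ≤ 2 * (1 / R ^ 20) * (3 * (3 * R ^ 4) * (4 * R ^ 3)) := by
          gcongr
      _ = 72 * R ^ 13 / R ^ 20 * (1 / R ^ 6) := by field_simp; ring
      _ ≤ 1 * θ := mul_le_mul ((div_le_one (by positivity)).2 a2) t1 (by positivity) zero_le_one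
      _ = θ := one_mul θ
  · rw [neg_le_neg_iff, le_div_iff₀ (by positivity)]
    have a2 : 7056 * R ^ 19 ≤ R ^ 20 := cpw h1 (by linarith) (by norm_num)
    calc R ^ 7 * (16 * δ) ≤ R ^ 7 * (16 * (1 / R ^ 20)) := by gcongr
      _ = 7056 * R ^ 19 / R ^ 20 * (1 / R ^ 6 / 21) ^ 2 := by field_simp; ring
      _ ≤ 1 * (θ / 21) ^ 2 := mul_le_mul ((div_le_one (by positivity)).2 a2) (by gcongr)
          (by positivity) zero_le_one
      _ = _ := one_mul _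

end num

theorem core (hB : BlkStmt) (hD : DetQ) (hK : KapQ) (hM : MeshStmt) :
    ∃ R0 : ℝ, ∀ R : ℝ, R0 ≤ R → ∀ K : ℕ, (K : ℝ) ≤ R → ∀ F : (Fin K → ℝ) → ℝ,
      (∀ x y, |F x - F y| ≤ R * ‖x - y‖) → F 0 = 0 → ∃ l : ℝ, ∀ n : ℕ, R ^ 300 ≤ n →
        Eqv (∫⁻ g, ex (F (LamV n K (Tm n g))) ∂gm n) (ex l) (1 / R) := by
  obtain ⟨C, hC0, hC⟩ := hK
  refine ⟨2000000 + 513 * C, fun R hR K hKR F hF h0 => ?_⟩
  have h1 : (1 : ℝ) ≤ R := by linarith
  have hR0 : 0 < R := by linarith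
  obtain ⟨e, he⟩ : ∃ e, e = 1 / (8 * R ^ 2) := ⟨_, rfl⟩
  obtain ⟨T, hT⟩ : ∃ T, T = 2 * R ^ 3 + R ^ 3 + 1 := ⟨_, rfl⟩
  obtain ⟨θ, hθ⟩ : ∃ θ, θ = e / (8 * (128 * T + 1)) := ⟨_, rfl⟩
  obtain ⟨L, hL⟩ : ∃ L, L = 128 * (T + 1) + 256 / e := ⟨_, rfl⟩
  obtain ⟨J, hJ⟩ : ∃ J, J = ⌈R ^ 24⌉₊ := ⟨_, rfl⟩
  obtain ⟨δ, hδ⟩ : ∃ δ, δ = L / ((J : ℝ) + 1) := ⟨_, rfl⟩
  obtain ⟨L0, L2, J1, J2, d1, d2, q1, q2, q3⟩ := par (by linarith) he hT hθ hL hJ hδ
  have d0 : 0 < δ := lt_of_lt_of_le (by positivity) d1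
  have hB0 : 0 ≤ 2 * R ^ 3 := by positivity
  have bd := fun ξ : Fin J → ℝ => abs_ref_le hF hR0.le h0 hB0 J δ fun j => 2 / Real.sqrt δ * ξ j
  set I := ∫⁻ ξ, ex (ref F (2 * R ^ 3) J δ fun j => 2 / Real.sqrt δ * ξ j) ∂gv (Fin J) with hI
  have I1 : I ≠ ∞ := ne_top_of_le_ne_top (ex_ne_top _) (hi bd)
  have I0 : I ≠ 0 := by
    refine ne_bot_of_le_ne_bot ?_ (lo (μ := gv (Fin J)) bd)
    exact (ENNReal.ofReal_pos.2 (Real.exp_pos _)).ne'
  refine ⟨Real.log I.toReal, fun n hn => ?_⟩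
  rw [show ex (Real.log I.toReal) = I by
    rw [ex, Real.exp_log (ENNReal.toReal_pos I0 I1), ENNReal.ofReal_toReal I1]]
  have n1 : 8 * R ^ 1 ≤ n := (cpw h1 (by linarith) (by norm_num)).trans hn
  rw [pow_one] at n1
  have n8 : 8 ≤ n := by exact_mod_cast (by linarith : (8 : ℝ) ≤ n)
  have nK : 8 * K ≤ n := by
    have : ((8 * K : ℕ) : ℝ) ≤ n := by push_cast; linarith
    exact_mod_cast this
  have hn1 : 1 ≤ n := by omega
  have hs := sx_pos hn1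
  have s6 := sx_pow_six n
  have hk := hC (8 * R) n (by positivity) hn1
  have hl := top_one_le_ceil (h := 1 / (153600 * (8 * R))) (by positivity) hn1
  have hsq := sqrt_eq n
  have a1 := @step_det hD K F R (R ^ 3) (2 * R ^ 3) e T θ L δ (1 / R ^ 4) (C * (8 * R) ^ 3 + C)
    n ⌈δ * sx n ^ 2⌉₊ J _ hF hR0.le h0 hKR (by positivity)
    (by have : 60 * R ^ 1 ≤ R ^ 3 := cpw h1 (by linarith) (by norm_num)
        rw [pow_one] at this; linarith)
    (by rw [he]; positivity)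
    (by rw [he]; exact one_div_le_one_div_of_le two_pos (by linarith [one_le_pow₀ (n := 2) h1]))
    hT hθ hL (by exact_mod_cast hKR.trans J1) n8 nK hl
  have a2 := fun ε => @step_blk hB K F R (2 * R ^ 3) (1 / R ^ 4) ((⌈δ * sx n ^ 2⌉₊ : ℕ) / sx n ^ 2) (sx n)
    (Real.sqrt (Real.sqrt (sx n))) ε n ⌈δ * sx n ^ 2⌉₊ J hF hR0.le h0 hB0
  have a3 := @step_mesh hM K F R (2 * R ^ 3) e (1 / R ^ 4) δ ((⌈δ * sx n ^ 2⌉₊ : ℕ) / sx n ^ 2)
    (2 / Real.sqrt δ) (2 * sx n / Real.sqrt (⌈δ * sx n ^ 2⌉₊ : ℕ)) (R ^ 4) J hF hR0.le h0 hB0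
    (by positivity) (by rw [he]; positivity)
  have p2 : δ * sx n ^ 2 ≤ ⌈δ * sx n ^ 2⌉₊ := Nat.le_ceil _
  have p3 := (Nat.ceil_lt_add_one (a := δ * sx n ^ 2) (by positivity)).le
  have hp := top_one_le_ceil d0 hn1
  have u4 : Real.sqrt (Real.sqrt (sx n)) ^ 4 = sx n := by
    rw [show 4 = 2 * 2 by rfl, pow_mul, Real.sq_sqrt (Real.sqrt_nonneg _), Real.sq_sqrt hs.le]
  have u0 : 0 ≤ Real.sqrt (Real.sqrt (sx n)) := Real.sqrt_nonneg _
  generalize Real.sqrt (Real.sqrt (sx n)) = u at *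
  generalize ⌈δ * sx n ^ 2⌉₊ = p at *
  generalize ⌈1 / (153600 * (8 * R)) * sx n ^ 2⌉₊ = l at *
  have s50 : R ^ 50 ≤ sx n := by
    refine le_of_pow_le_pow_left₀ (by norm_num : 6 ≠ 0) hs.le ?_
    rw [s6, ← pow_mul]; exact hn
  have s100 : R ^ 100 ≤ sx n ^ 2 := by
    calc R ^ 100 = (R ^ 50) ^ 2 := by ring
      _ ≤ _ := by gcongr
  have u12 : R ^ 12 ≤ u := by
    refine le_of_pow_le_pow_left₀ (by norm_num : 4 ≠ 0) u0 ?_
    rw [u4, ← pow_mul]; exact (pw h1 (by norm_num)).trans s50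
  have uR : R ≤ u := by
    have : R ^ 1 ≤ R ^ 12 := pw h1 (by norm_num)
    rw [pow_one] at this; linarith
  have u1 : 1 ≤ u := by linarith
  have hs2 : 0 < sx n ^ 2 := by positivity
  have p1 : 1 ≤ δ * sx n ^ 2 := by
    calc (1 : ℝ) ≤ R ^ 79 := one_le_pow₀ h1
      _ = 1 / R ^ 21 * R ^ 100 := by field_simp
      _ ≤ _ := by gcongr
  have p4 : (p : ℝ) ≤ 2 * δ * sx n ^ 2 := by linarith
  have hJ0 : (0 : ℝ) < (J : ℝ) + 1 := by positivity
  have eJ : ((J : ℝ) + 1) * δ = L := by rw [hδ]; field_simp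
  have N1 : L * sx n ^ 2 ≤ ((J : ℝ) + 1) * p := by
    rw [← eJ, mul_assoc]; exact mul_le_mul_of_nonneg_left p2 hJ0.le
  have N2 : ((J : ℝ) + 1) * p ≤ 2 * L * sx n ^ 2 := by
    have := mul_le_mul_of_nonneg_left p4 hJ0.le
    rw [← eJ]; linarith
  have N3 : ((J : ℝ) + 1) * p ≤ 2 * R ^ 4 * u ^ 8 := by
    have : sx n ^ 2 = u ^ 8 := by rw [← u4]; ring
    rw [← this]; exact N2.trans (by gcongr)
  have en : (n : ℝ) = u ^ 24 := by rw [← s6, ← u4]; ring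
  have w4 : 1 / R ^ 4 ≤ 1 / (100 * R) := by
    refine one_div_le_one_div_of_le (by positivity) ?_
    have : 100 * R ^ 1 ≤ R ^ 4 := cpw h1 (by linarith) (by norm_num)
    rwa [pow_one] at this
  have w1 : 1 / (100 * R) ≤ 1 / 100 := one_div_le_one_div_of_le (by norm_num) (by linarith)
  have c3 : C * (8 * R) ^ 3 + C + 60 * R ^ 2 ≤ R ^ 4 := by
    have b1 : (513 * C + 60) * R ^ 3 ≤ R ^ 4 := cpw h1 (by linarith) (by norm_num)
    have b2 : R ^ 2 ≤ R ^ 3 := pw h1 (by norm_num)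
    have b3 := mul_le_mul_of_nonneg_left (one_le_pow₀ (n := 3) h1) hC0
    have e : C * (8 * R) ^ 3 = 512 * (C * R ^ 3) := by ring
    linarith
  have r4 : 0 ≤ R ^ 4 := by positivity
  have r2 : 0 ≤ R ^ 2 := by positivity
  have A1 := a1 (hk (by
      have : 1228800 * R ^ 1 ≤ R ^ 100 := cpw h1 (by linarith) (by norm_num)
      rw [pow_one] at this; linarith)) (q1.trans s100) hp
    (p4.trans (mul_le_mul_of_nonneg_right q2 hs2.le)) N1 N2 d0 p4 (by linarith)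
    (by rw [← Real.exp_add]; exact exp_neg_le hR0 (by linarith))
    (by rw [← Real.exp_add]; exact exp_neg_le hR0 (by linarith))
    (by rw [← mul_assoc]; exact small (by linarith) (by positivity) (by linarith) q3)
  have t1 : u ^ 8 * Real.exp (-u ^ 2 / 2) ≤ Real.exp (-R ^ 7) := by
    refine (pow_exp_le (by linarith)).trans (Real.exp_le_exp.2 ?_)
    have b1 : 4 * R ^ 7 ≤ R ^ 24 := cpw h1 (by linarith) (by norm_num)
    have b2 : R ^ 24 ≤ u ^ 2 := by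
      calc R ^ 24 = (R ^ 12) ^ 2 := by ring
        _ ≤ _ := by gcongr
    linarith
  have t2 : ((J : ℝ) + 1) * p * Real.exp (-u ^ 2 / 2) ≤ 2 * R ^ 4 * Real.exp (-R ^ 7) := by
    refine (mul_le_mul_of_nonneg_right N3 (Real.exp_pos _).le).trans ?_
    rw [mul_assoc]; exact mul_le_mul_of_nonneg_left t1 (by positivity)
  have r24 : R ^ 4 ≤ R ^ 24 := pw h1 (by norm_num)
  have t3 : 12 * R ^ 4 * Real.exp (-R ^ 7) * Real.exp (2 * (R * (2 * R ^ 3))) ≤ 1 / R ^ 4 :=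
    small (by linarith) (by positivity) (by linarith) le_rfl
  have t4 : 12 * R ^ 4 * Real.exp (-R ^ 7) ≤ 1 / R ^ 4 :=
    (le_mul_of_one_le_right (by positivity) (Real.one_le_exp (by positivity))).trans t3
  obtain ⟨ε, hε⟩ : ∃ ε, ε = ((J : ℝ) + 1) * p * (20 * u ^ 3 / Real.sqrt n +
    4 * Real.exp (-u ^ 2 / 2)) := ⟨_, rfl⟩
  have t5 : ε ≤ 2 * (1 / R ^ 4) := by
    have b1 : ((J : ℝ) + 1) * p * (20 * u ^ 3 / Real.sqrt n) ≤ 1 / R ^ 4 := by
      have b2 : 40 * R ^ 8 ≤ u := (cpw h1 (by linarith) (by norm_num)).trans u12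
      calc _ ≤ 2 * R ^ 4 * u ^ 8 * (20 * u ^ 3 / Real.sqrt n) := by gcongr
        _ = 40 * R ^ 8 / u * (1 / R ^ 4) := by rw [hsq, ← u4]; field_simp; ring
        _ ≤ 1 * (1 / R ^ 4) :=
          mul_le_mul_of_nonneg_right ((div_le_one (by linarith)).2 b2) (by positivity)
        _ = _ := one_mul _
    have b3 : 0 ≤ R ^ 4 * Real.exp (-R ^ 7) := by positivity
    rw [hε, mul_add]; linarith
  have A2 := a2 ε hp (by
      have b1 : 4 * R ^ 4 ≤ u ^ 16 :=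
        (cpw h1 (by linarith) (by norm_num : 4 < 16)).trans (by gcongr)
      have b2 := mul_le_mul_of_nonneg_right b1 (by positivity : 0 ≤ u ^ 8)
      have : ((2 * ((J + 1) * p) : ℕ) : ℝ) ≤ n := by push_cast; rw [en]; linarith
      exact_mod_cast this) hs (by linarith)
    (by rw [en]; exact cpw u1 (by linarith) (by norm_num)) hε
    (by
      refine le_trans (mul_le_mul_of_nonneg_right ?_ (Real.exp_pos _).le) t3
      have b1 : Real.exp ε ≤ 3 :=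
        (Real.exp_le_exp.2 (by linarith : ε ≤ 1)).trans (by linarith [Real.exp_one_lt_d9])
      calc _ ≤ 3 * (((J : ℝ) + 1) * p * (2 * Real.exp (-u ^ 2 / 2))) := by gcongr
        _ ≤ _ := by linarith)
  have m1 : δ ≤ p / sx n ^ 2 := (le_div_iff₀ hs2).2 p2
  have m2 : p / sx n ^ 2 ≤ δ + 1 / R ^ 100 := by
    have : p / sx n ^ 2 ≤ δ + 1 / sx n ^ 2 := by
      rw [div_le_iff₀ hs2, add_mul, one_div_mul_cancel hs2.ne']; exact p3
    exact this.trans (by gcongr)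
  have hδ1 : δ ≤ 1 := d2.trans ((div_le_one (by positivity)).2 (one_le_pow₀ h1))
  have J3 : (J : ℝ) ≤ 3 * R ^ 24 := by linarith
  have A3 := a3 (by
      have b1 := mesh1 d0 m1 m2
      have b2 := mesh2 d0 hδ1 m1 m2
      have e1 : 2 * sx n / Real.sqrt p = 2 / Real.sqrt (p / sx n ^ 2) := by
        rw [Real.sqrt_div (Nat.cast_nonneg p), Real.sqrt_sq hs.le]; field_simp
      have b3 : |(p : ℝ) / sx n ^ 2 - δ| ≤ 1 / R ^ 100 := abs_le.2 ⟨by linarith [m1, show (0:ℝ) ≤ 1 / R ^ 100 by positivity], by linarith⟩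
      have b4 : 2 * (1 / R ^ 100) / δ ^ 3 ≤ 2 * (1 / R ^ 100) / (1 / R ^ 21) ^ 3 := by gcongr
      have b5 : (1 / R ^ 100) / δ ^ 2 ≤ (1 / R ^ 100) / (1 / R ^ 21) ^ 2 := by gcongr
      have b6 : 288 * R ^ 2 ≤ R ^ 13 := cpw h1 (by linarith) (by norm_num)
      have b7 : 1 / R ^ 52 ≤ 1 / R ^ 13 :=
        one_div_le_one_div_of_le (by positivity) (pw h1 (by norm_num))
      have b8 : 1 / R ^ 30 ≤ 1 / R ^ 13 :=
        one_div_le_one_div_of_le (by positivity) (pw h1 (by norm_num))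
      rw [e1]
      calc _ ≤ 4 * (3 * R ^ 24) * (2 * (1 / R ^ 100) / (1 / R ^ 21) ^ 3) +
            (3 * R ^ 24) ^ 2 * (1 / R ^ 100) +
            (1 / R ^ 100) / (1 / R ^ 21) ^ 2 * (3 * R ^ 24 * R ^ 4) := by
            gcongr
            · exact b1.trans b4
            · exact b2.trans b5
        _ = 24 * (1 / R ^ 13) + 9 * (1 / R ^ 52) + 3 * (1 / R ^ 30) := by field_simp; ring
        _ ≤ 36 * (1 / R ^ 13) := by linarith
        _ ≤ e := by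
            rw [he, mul_one_div, div_le_div_iff₀ (by positivity) (by positivity)]; linarith)
    (by
      rw [← mul_assoc]
      refine small (by linarith) (by positivity) (by linarith) ?_
      have : 2 * R ^ 7 ≤ R ^ 8 := cpw h1 (by linarith) (by norm_num)
      rw [← pow_mul]; linarith)
  refine ((A1.trans A2).trans A3).mono ?_
  have e1 : R * e = 1 / R / 8 := by rw [he]; field_simp
  have e2 : 1 / (100 * R) = 1 / R / 100 := by field_simp
  have e3 : 0 ≤ 1 / R := by positivity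
  linarith

theorem u2Glue : U2Glue := by
  intro hB hD hK hM
  obtain ⟨R0, h⟩ := core hB hD hK hM
  refine ⟨R0, fun R hR K hKR F hF => ?_⟩
  obtain ⟨l, hl⟩ := h R hR K hKR (fun x => F x - F 0) (fun x y => by simpa using hF x y) (sub_self _)
  refine ⟨l + F 0, fun n hn => ?_⟩
  obtain ⟨h1, h2⟩ := hl n hn
  have mF : Measurable fun x => ex (F x) := measurable_ex.comp (lip_cont hF).measurable
  have e : ∫⁻ W, ex (F (LamV n K W)) ∂GOE n =
      ex (F 0) * ∫⁻ g, ex (F (LamV n K (Tm n g)) - F 0) ∂gm n := by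
    rw [← lintegral_map mF (measurable_LamV n K), top_map_LamV triStmt,
      lintegral_map (g := fun g => LamV n K (Tm n g)) mF
        ((measurable_LamV n K).comp (measurable_Tm n)),
      ← lintegral_const_mul' _ _ (ex_ne_top _)]
    exact lintegral_congr fun g => by rw [← ex_add]; congr 1; simp
  rw [e]
  constructor
  · have := mul_le_mul_right h2 (ex (F 0 - 1 / R))
    rw [← mul_assoc, ← ex_add, ← ex_add, sub_add_cancel] at this
    exact le_trans (ex_mono (by linarith)) this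
  · have := mul_le_mul_right h1 (ex (F 0))
    rw [← ex_add, ← ex_add] at this
    exact this.trans (ex_mono (by linarith))

end Crest.Agent.T156.U2

end
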