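import Crest.Agent.T157.EdClt_80
import Crest.Agent.T157.EdTop_83

/-!
# Row 156, (U2): power-rate universality in `n` of the GOE edge, tilted form — statements (helper30)

Text: `docs/T156_30.md`.
-/

set_option autoImplicit false

noncomputable section

namespace Crest.Agent.T156.U2

open MeasureTheory ProbabilityTheory Finset
open scoped ENNReal
open Crest.Agent.T157 Crest.Agent.T157.E Crest.Agent.T157.Eig Crest.Agent.T157.Ed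
open Crest.Agent.T157.Conc (ex)

/-- `(ε, η)`-closeness, one direction -/
def Cl {X : Type*} [MeasurableSpace X] (μ ν : Measure X) (ε η : ℝ) : Prop :=
  ∀ f : X → ℝ≥0∞, Measurable f → (∀ x, f x ≤ 1) →
    ∫⁻ x, f x ∂μ ≤ ex ε * ∫⁻ x, f x ∂ν + ENNReal.ofReal η

/-- `(ε, η)`-closeness, both directions -/
def Cl2 {X : Type*} [MeasurableSpace X] (μ ν : Measure X) (ε η : ℝ) : Prop :=
  Cl μ ν ε η ∧ Cl ν μ ε η

lemma Cl.map {X Y : Type*} [MeasurableSpace X] [MeasurableSpace Y] {μ ν : Measure X} {ε η : ℝ}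
    (h : Cl μ ν ε η) {T : X → Y} (hT : Measurable T) : Cl (μ.map T) (ν.map T) ε η :=
  fun f hf h1 => by
    rw [lintegral_map hf hT, lintegral_map hf hT]
    exact h _ (hf.comp hT) fun x => h1 _

lemma Cl.mono {X : Type*} [MeasurableSpace X] {μ ν : Measure X} {ε η ε' η' : ℝ}
    (h : Cl μ ν ε η) (h1 : ε ≤ ε') (h2 : η ≤ η') : Cl μ ν ε' η' := fun f hf hf1 =>
  (h f hf hf1).trans (add_le_add (mul_le_mul_left (Conc.ex_mono h1) _)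
    (ENNReal.ofReal_le_ofReal h2))

lemma Cl.refl {X : Type*} [MeasurableSpace X] (μ : Measure X) : Cl μ μ 0 0 := fun f _ _ => by
  rw [Conc.ex_zero, one_mul, ENNReal.ofReal_zero, add_zero]

/-- **the final statement (U2a)** -/
def U2Stmt : Prop := ∃ R0 : ℝ, ∀ R : ℝ, R0 ≤ R → ∀ K : ℕ, (K : ℝ) ≤ R →
  ∀ F : (Fin K → ℝ) → ℝ, (∀ x y, |F x - F y| ≤ R * ‖x - y‖) → ∃ l : ℝ, ∀ n : ℕ, R ^ 300 ≤ n →
    ex (l - 1 / R) ≤ ∫⁻ W, ex (F (LamV n K W)) ∂GOE n ∧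
      ∫⁻ W, ex (F (LamV n K W)) ∂GOE n ≤ ex (l + 1 / R)

/-- (c2) finite products -/
def PiStmt : Prop := ∀ (n : ℕ) (μ ν : Fin n → Measure ℝ) [∀ i, IsProbabilityMeasure (μ i)]
  [∀ i, IsProbabilityMeasure (ν i)] (ε η : Fin n → ℝ), (∀ i, 0 ≤ ε i) → (∀ i, 0 ≤ η i) →
  (∀ i, Cl (μ i) (ν i) (ε i) (η i)) →
    Cl (Measure.pi μ) (Measure.pi ν) (∑ i, ε i) (Real.exp (∑ i, ε i) * ∑ i, η i)

/-- (c5) proportional densities on a set of large mass -/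
def DensStmt : Prop := ∀ (μ ν : Measure ℝ) [IsProbabilityMeasure μ] [IsProbabilityMeasure ν]
  (I : Set ℝ) (c : ℝ≥0∞) (φ : ℝ → ℝ) (e η : ℝ), MeasurableSet I → Measurable φ →
  (∀ y ∈ I, |φ y| ≤ e) → 0 ≤ η → η ≤ 1 / 2 → μ Iᶜ ≤ ENNReal.ofReal η → ν Iᶜ ≤ ENNReal.ofReal η →
  (∀ f : ℝ → ℝ≥0∞, Measurable f → ∫⁻ y in I, f y ∂μ = c * ∫⁻ y in I, ex (φ y) * f y ∂ν) →
    Cl2 μ ν (2 * e + 2 * η) η

/-- the noise of one row is close to `N(0, 4)` -/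
def RowStmt : Prop := ∀ (n : ℕ) (k : Fin n) (M : ℝ), 2 ≤ M → 2 * ((k : ℕ) + 1) ≤ n →
  64 * M ^ 2 ≤ n →
  Cl2 ((gv (Fin n)).map (Clt80.eta (univ.filter (k < ·)) k))
    ((gaussianReal 0 1).map fun u : ℝ => 2 * u)
    (20 * M ^ 3 / Real.sqrt n + 4 * Real.exp (-M ^ 2 / 2)) (2 * Real.exp (-M ^ 2 / 2))

/-- the block increments are close to independent Gaussians -/
def BlkStmt : Prop := ∀ (n p J : ℕ) (s M ε : ℝ), 1 ≤ p → 2 * ((J + 1) * p) ≤ n → 0 < s → 2 ≤ M →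
  64 * M ^ 2 ≤ n →
  ε = ((J : ℝ) + 1) * p * (20 * M ^ 3 / Real.sqrt n + 4 * Real.exp (-M ^ 2 / 2)) →
  Cl2 ((gm n).map fun g => zblk s (rowA n g) (rowX n g) p J)
    ((gv (Fin J)).map fun ξ j => 2 * s / Real.sqrt p * ξ j)
    ε (Real.exp ε * (((J : ℝ) + 1) * p * (2 * Real.exp (-M ^ 2 / 2))))

/-- `DetStmt` with its explicit constants -/
def DetQ : Prop := ∀ x0 κ e T θ L : ℝ, 0 ≤ x0 → 0 ≤ κ → 0 < e → e ≤ 1 / 2 → T = x0 + κ + 1 →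
  θ = e / (8 * (128 * T + 1)) → L = 128 * (T + 1) + 256 / e →
  ∀ (n : ℕ) (s : ℝ) (β a x : ℕ → ℝ) (p J : ℕ), Coef n s β →
    3 * (L + 3 + 15 * L ^ 2) / θ ≤ s ^ 2 → 1 ≤ p →
    (p : ℝ) ≤ θ / (3 * (2 * L + 1) * T) * s ^ 2 →
    L * s ^ 2 ≤ ((J : ℝ) + 1) * p → ((J : ℝ) + 1) * p ≤ 2 * L * s ^ 2 →
    Two n s a (bx β x) κ → (∀ j, j ≤ J → osc a p j ≤ θ / 21 * s ∧ osc x p j ≤ θ / 21 * s) →
    ∀ k, k < J → |min (-lam (Hm n s a (bx β x)) k) x0 -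
      min (Phi J (p / s ^ 2) (zblk s a x p J) k) x0| ≤ e

/-- `KapStmt` with its explicit constants -/
def KapQ : Prop := ∃ C : ℝ, 0 ≤ C ∧ ∀ (A : ℝ) (n : ℕ), 0 < A → 1 ≤ n → 153600 * A ≤ sx n ^ 2 →
  ∫⁻ g, ex (A * kap n (sx n) (rowA n g) (rowX n g) ⌈1 / (153600 * A) * sx n ^ 2⌉₊) ∂gm n ≤
    ex (C * A ^ 3 + C)

/-- dependence of the reference eigenvalues on mesh and noise -/
def MeshStmt : Prop := ∀ (J : ℕ) (δ δ' : ℝ) (z z' : Fin J → ℝ) (k : ℕ),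
  |Phi J δ' z' k - Phi J δ z k| ≤
    4 * J * |1 / δ' ^ 2 - 1 / δ ^ 2| + (J : ℝ) ^ 2 * |δ' - δ| + ∑ j, |z' j - z j|

def RowGlue : Prop := DensStmt → RowStmt
def BlkGlue : Prop := PiStmt → RowStmt → BlkStmt
def U2Glue : Prop := BlkStmt → DetQ → KapQ → MeshStmt → U2Stmt

end Crest.Agent.T156.U2

end
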