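import Crest.Agent.T156.U2B_30
import Crest.Agent.T156.U2Det_65

/-!
# Row 156, (U2b): linear statistics of the GOE edge are rigid (helper30)

For a convex `f` whose slope decays, `∑ₖ f (Lam n W k)` has Gaussian tails at the scale
`(b τ / r)^{1/2}`, up to probability `exp (C - r³ / C)`.
-/

set_option autoImplicit false

noncomputable section

namespace Crest.Agent.T156.U2

open MeasureTheory ProbabilityTheory Finset Matrix
open scoped ENNReal
open Crest.Agent.T157 Crest.Agent.T157.E Crest.Agent.T157.Eig Crest.Agent.T157.Ed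
open Crest.Agent.T157.Conc (ex ex_add ex_mono ex_ne_top ex_zero measurable_ex ELip en)

/-- **rigidity of convex linear statistics** (`L = r²`) -/
def RigStmt : Prop := ∃ C : ℝ, 0 < C ∧ ∀ (n : ℕ) (r b τ : ℝ) (f f' : ℝ → ℝ), 8 ≤ n → 0 < r →
  C * r ≤ sx n ^ 2 → 0 ≤ b → 0 ≤ τ → Measurable f → (∀ x y, f x + f' x * (y - x) ≤ f y) →
  (∀ x, -(r ^ 2 / 2) ≤ x → |f' x| * (x + r ^ 2) ≤ b) →
  (∀ A : ℕ → ℝ, (∀ k, k < n → ((k : ℝ) + 1) ^ (2 / 3 : ℝ) / 256 - r ^ 2 / 2 ≤ A k) →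
    ∑ k ∈ range n, |f' (A k)| ≤ τ) →
  ∃ m : ℝ, ∀ t : ℝ, 0 ≤ t → (GOE n).real {W | t ≤ |∑ k ∈ range n, f (Lam n W k) - m|} ≤
    2 * Real.exp (-(t ^ 2 * r / (384 * (b * τ)))) + Real.exp (C - r ^ 3 / C)

/-- Klein's inequality -/
theorem klein {ι : Type*} [Fintype ι] [DecidableEq ι] {A B : Matrix ι ι ℝ} (hA : A.IsHermitian)
    (hB : B.IsHermitian) {f f' : ℝ → ℝ} (hf : ∀ x y, f x + f' x * (y - x) ≤ f y) :
    ∑ k ∈ range (Fintype.card ι), f (lam A k) + ∑ k ∈ range (Fintype.card ι),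
      f' (lam A k) * (vec A k ⬝ᵥ B *ᵥ vec A k - vec A k ⬝ᵥ A *ᵥ vec A k) ≤
      ∑ k ∈ range (Fintype.card ι), f (lam B k) := by
  have h1 : ∀ k ∈ range (Fintype.card ι), f (lam B k) = ∑ j ∈ range (Fintype.card ι),
      (vec B k ⬝ᵥ vec A j) * (vec B k ⬝ᵥ vec A j) * f (lam B k) := fun k hk => by
    rw [← sum_mul]
    have := dot_eq hA (vec B k) (vec B k)
    rw [vec_dot_self hB (mem_range.1 hk)] at this
    simp only [dotProduct_comm (vec B k)]
    rw [← this, one_mul]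
  rw [sum_congr rfl h1, sum_comm, ← sum_add_distrib]
  refine sum_le_sum fun j hj => ?_
  have h2 := dot_eq hB (vec A j) (vec A j)
  rw [vec_dot_self hA (mem_range.1 hj)] at h2
  rw [quad_vec hA (mem_range.1 hj), quad_eq hB]
  refine le_trans (le_of_eq ?_) (sum_le_sum fun k _ =>
    mul_le_mul_of_nonneg_left (hf (lam A j) (lam B k)) (mul_self_nonneg _))
  have e : ∀ k, (vec B k ⬝ᵥ vec A j) * (vec B k ⬝ᵥ vec A j) *
      (f (lam A j) + f' (lam A j) * (lam B k - lam A j)) =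
      (f (lam A j) - f' (lam A j) * lam A j) * ((vec B k ⬝ᵥ vec A j) * (vec B k ⬝ᵥ vec A j)) +
      f' (lam A j) * (lam B k * ((vec B k ⬝ᵥ vec A j) * (vec B k ⬝ᵥ vec A j))) := fun k => by ring
  simp only [e]
  rw [sum_add_distrib, ← mul_sum, ← mul_sum, ← h2]
  ring

/-- discrete Sobolev inequality -/
lemma sobolev {n : ℕ} {u : ℕ → ℝ} (hu : Adm n u) {θ : ℝ} (hθ : 0 < θ) {i : ℕ} (hi : i ≤ n + 1) :
    u i ^ 2 ≤ θ / 2 * ∑ j ∈ range (n + 1), (u (j + 1) - u j) ^ 2 + 2 / θ * nrm n u := by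
  have h1 := sum_range_sub (fun j => u j ^ 2) i
  simp only [hu.1] at h1
  have h2 : ∀ j, u (j + 1) ^ 2 - u j ^ 2 ≤
      θ / 2 * (u (j + 1) - u j) ^ 2 + 1 / θ * (u (j + 1) ^ 2 + u j ^ 2) := fun j => by
    have a1 : 0 ≤ 1 / (2 * θ) * (θ * (u (j + 1) - u j) - (u (j + 1) + u j)) ^ 2 := by positivity
    have a2 : 0 ≤ 1 / (2 * θ) * (u (j + 1) - u j) ^ 2 := by positivity
    have e : θ / 2 * (u (j + 1) - u j) ^ 2 + 1 / θ * (u (j + 1) ^ 2 + u j ^ 2) -
        (u (j + 1) ^ 2 - u j ^ 2) =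
        1 / (2 * θ) * (θ * (u (j + 1) - u j) - (u (j + 1) + u j)) ^ 2 +
          1 / (2 * θ) * (u (j + 1) - u j) ^ 2 := by field_simp; ring
    linarith
  have h3 := sum_sq_shift hu fun _ => 1
  simp only [one_mul] at h3
  calc u i ^ 2 = ∑ j ∈ range i, (u (j + 1) ^ 2 - u j ^ 2) := by rw [h1]; ring
    _ ≤ ∑ j ∈ range (n + 1),
        (θ / 2 * (u (j + 1) - u j) ^ 2 + 1 / θ * (u (j + 1) ^ 2 + u j ^ 2)) :=
      (sum_le_sum fun j _ => h2 j).trans (sum_le_sum_of_subset_of_nonneg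
        (range_subset_range.2 hi) fun _ _ _ => by positivity)
    _ = _ := by
      rw [sum_add_distrib, ← mul_sum, ← mul_sum, sum_add_distrib, h3, nrm]; ring

/-- the diagonal of the resolvent -/
lemma res_diag {n : ℕ} {s r : ℝ} {a b : ℕ → ℝ} (hs : 0 < s) (hr : 0 < r)
    (h : Two n s a b (r ^ 2 / 2)) (hA : ∀ k, k < n → -(r ^ 2 / 2) ≤ -lam (Hm n s a b) k)
    (i : Fin n) : ∑ k ∈ range n, vec (Hm n s a b) k i ^ 2 / (-lam (Hm n s a b) k + r ^ 2) ≤
      12 / (s ^ 2 * r) := by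
  have hH := Hm_herm (n := n) s a b
  set H := Hm n s a b with hHd
  set c : ℕ → ℝ := fun k => vec H k i / (-lam H k + r ^ 2) with hc
  set u : Fin n → ℝ := ∑ k ∈ range n, c k • vec H k with hu
  set G := ∑ k ∈ range n, vec H k i ^ 2 / (-lam H k + r ^ 2) with hG
  have r2 : 0 < r ^ 2 := by positivity
  have pos : ∀ k, k < n → 0 < -lam H k + r ^ 2 := fun k hk => by linarith [hA k hk]
  have e1 : u i = G := by
    rw [hu, Finset.sum_apply]
    exact sum_congr rfl fun k _ => by simp only [hc, Pi.smul_apply, smul_eq_mul]; ring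
  have e2 : ∀ k ∈ range n, vec H k ⬝ᵥ u = c k := fun k hk => by
    rw [hu, dotProduct_sum, sum_eq_single k]
    · rw [dotProduct_smul, vec_dot_self hH (by simpa using hk), smul_eq_mul, mul_one]
    · intro l _ hl
      rw [dotProduct_smul, vec_dot_ne hH hl.symm, smul_zero]
    · exact fun h => absurd hk h
  have e3 := dot_eq hH u u
  have e4 := quad_eq hH u u
  rw [Fintype.card_fin] at e3 e4
  have e5 : Qf n s a b (ext u) + r ^ 2 * nrm n (ext u) = G := by
    rw [nrm_ext, ← neg_neg (Qf _ _ _ _ _), ← quad_Hm, e3, e4, mul_sum, ← sum_neg_distrib,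
      ← sum_add_distrib]
    refine sum_congr rfl fun k hk => ?_
    have := (pos k (mem_range.1 hk)).ne'
    rw [e2 k hk, hc]
    field_simp
  have e6 := (h _ (adm_ext u)).1
  have e7 := sobolev (adm_ext u) (θ := s ^ 2 / (3 * r)) (by positivity) (i := i + 1)
    (by have := i.2; omega)
  rw [ext_succ, e1] at e7
  have k0 := pot_nonneg n s (ext u)
  have k1 : kin n s (ext u) / 64 + r ^ 2 / 2 * nrm n (ext u) ≤ G := by linarith
  rw [kin] at k1
  have K0 : 0 ≤ ∑ j ∈ range (n + 1), (ext u (j + 1) - ext u j) ^ 2 :=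
    sum_nonneg fun _ _ => sq_nonneg _
  generalize ∑ j ∈ range (n + 1), (ext u (j + 1) - ext u j) ^ 2 = K at *
  have k2 : G ^ 2 ≤ 12 / (s ^ 2 * r) * G := by
    refine e7.trans (le_trans ?_ (mul_le_mul_of_nonneg_left k1 (by positivity)))
    have : 12 / (s ^ 2 * r) * (s ^ 4 * K / 64 + r ^ 2 / 2 * nrm n (ext u)) =
        s ^ 2 / (3 * r) / 2 * K + 2 / (s ^ 2 / (3 * r)) * nrm n (ext u) +
          s ^ 2 / r * K / 48 := by field_simp; ring
    have : 0 ≤ s ^ 2 / r * K / 48 := by positivity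
    linarith
  by_contra hc
  have h0 : 0 < G := lt_trans (by positivity) (not_le.1 hc)
  have := mul_lt_mul_of_pos_right (not_le.1 hc) h0
  rw [sq G] at k2
  linarith

lemma cs_le {N : ℕ} {x y : ℕ → ℝ} {X Y : ℝ} (hX : 0 ≤ X) (hY : 0 ≤ Y)
    (hx : ∑ i ∈ range N, x i ^ 2 ≤ X ^ 2) (hy : ∑ i ∈ range N, y i ^ 2 ≤ Y ^ 2) :
    ∑ i ∈ range N, |x i| * y i ≤ X * Y := by
  refine (Real.sum_mul_le_sqrt_mul_sqrt _ _ _).trans ?_
  simp only [sq_abs]
  exact mul_le_mul (Real.sqrt_le_iff.2 ⟨hX, hx⟩) (Real.sqrt_le_iff.2 ⟨hY, hy⟩)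
    (Real.sqrt_nonneg _) hX

/-- first-order term of Klein's inequality in the tridiagonal model -/
lemma tr_bound {n : ℕ} {s M τ D : ℝ} {a b a' b' p : ℕ → ℝ} {v : ℕ → Fin n → ℝ} (hs : 0 ≤ s)
    (hv : ∀ k, k < n → v k ⬝ᵥ v k = 1) (hM0 : 0 ≤ M) (hD : 0 ≤ D)
    (hM : ∀ i, ∑ k ∈ range n, |p k| * v k i ^ 2 ≤ M) (hτ : ∑ k ∈ range n, |p k| ≤ τ)
    (da : ∑ i ∈ range (n + 1), (a' i - a i) ^ 2 ≤ (2 * D) ^ 2)
    (db : ∑ i ∈ range (n + 1), (b' i - b i) ^ 2 ≤ D ^ 2) :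
    |∑ k ∈ range n, p k * (v k ⬝ᵥ Hm n s a' b' *ᵥ v k - v k ⬝ᵥ Hm n s a b *ᵥ v k)| ≤
      4 * s * Real.sqrt (M * τ) * D := by
  set P : ℕ → ℝ := fun i => ∑ k ∈ range n, |p k| * ext (v k) i ^ 2 with hP
  have P0 : ∀ i, 0 ≤ P i := fun i => sum_nonneg fun _ _ => by positivity
  have P1 : ∀ i, P i ≤ M := fun i => by
    simp only [hP, Ed.ext]
    split_ifs
    · exact hM _
    · simpa using hM0
  have P2 : ∑ i ∈ range (n + 1), P i ≤ τ := by
    rw [sum_comm]
    refine le_trans (le_of_eq (sum_congr rfl fun k hk => ?_)) hτ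
    rw [← mul_sum, ← nrm, nrm_ext, hv k (mem_range.1 hk), mul_one]
  have P3 : ∑ i ∈ range (n + 1), P (i + 1) ≤ τ := by
    refine le_trans (le_of_eq ?_) P2
    rw [sum_comm, sum_comm (s := range (n + 1))]
    exact sum_congr rfl fun k _ => sum_sq_shift (adm_ext (v k)) fun _ => |p k|
  have τ0 : 0 ≤ τ := (sum_nonneg fun _ _ => abs_nonneg _).trans hτ
  have P4 : ∀ φ : ℕ → ℕ, ∑ i ∈ range (n + 1), P (φ i) ≤ τ →
      ∑ i ∈ range (n + 1), P (φ i) ^ 2 ≤ Real.sqrt (M * τ) ^ 2 := fun φ h => by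
    rw [Real.sq_sqrt (by positivity)]
    refine le_trans ?_ (mul_le_mul_of_nonneg_left h hM0)
    rw [mul_sum]
    exact sum_le_sum fun i _ => by rw [sq]; exact mul_le_mul_of_nonneg_right (P1 _) (P0 _)
  have q0 := Real.sqrt_nonneg (M * τ)
  have c1 := cs_le (by positivity) q0 da (P4 id P2)
  have c2 := cs_le hD q0 db (P4 id P2)
  have c3 := cs_le hD q0 db (P4 (· + 1) P3)
  have t : ∀ k ∈ range n, |p k * (v k ⬝ᵥ Hm n s a' b' *ᵥ v k - v k ⬝ᵥ Hm n s a b *ᵥ v k)| ≤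
      s * ∑ i ∈ range (n + 1), (|a' i - a i| * (|p k| * ext (v k) i ^ 2) +
        |b' i - b i| * (|p k| * ext (v k) i ^ 2) +
        |b' i - b i| * (|p k| * ext (v k) (i + 1) ^ 2)) := fun k _ => by
    have e : p k * (v k ⬝ᵥ Hm n s a' b' *ᵥ v k - v k ⬝ᵥ Hm n s a b *ᵥ v k) =
        s * ∑ i ∈ range (n + 1), p k * ((a' i - a i) * ext (v k) i ^ 2 +
          (b' i - b i) * (2 * (ext (v k) i * ext (v k) (i + 1)))) := by
      rw [quad_Hm, quad_Hm, Qf, Qf, ← mul_sum]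
      have : ∑ i ∈ range (n + 1), ((a' i - a i) * ext (v k) i ^ 2 +
          (b' i - b i) * (2 * (ext (v k) i * ext (v k) (i + 1)))) =
          ∑ i ∈ range (n + 1), (a' i * ext (v k) i ^ 2 +
            2 * b' i * (ext (v k) i * ext (v k) (i + 1))) -
          ∑ i ∈ range (n + 1), (a i * ext (v k) i ^ 2 +
            2 * b i * (ext (v k) i * ext (v k) (i + 1))) := by
        rw [← sum_sub_distrib]; exact sum_congr rfl fun _ _ => by ring
      rw [this]; ring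
    rw [e, abs_mul, abs_of_nonneg hs]
    refine mul_le_mul_of_nonneg_left ((abs_sum_le_sum_abs _ _).trans
      (sum_le_sum fun i _ => ?_)) hs
    generalize ext (v k) i = x
    generalize ext (v k) (i + 1) = y
    have h1 : |2 * (x * y)| ≤ x ^ 2 + y ^ 2 :=
      abs_le.2 ⟨by linarith [sq_nonneg (x + y)], by linarith [sq_nonneg (x - y)]⟩
    have h2 : |(a' i - a i) * x ^ 2 + (b' i - b i) * (2 * (x * y))| ≤
        |a' i - a i| * x ^ 2 + |b' i - b i| * (x ^ 2 + y ^ 2) := by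
      refine (abs_add_le _ _).trans ?_
      rw [abs_mul, abs_mul (b' i - b i), abs_of_nonneg (sq_nonneg x)]
      exact add_le_add le_rfl (mul_le_mul_of_nonneg_left h1 (abs_nonneg _))
    rw [abs_mul]
    exact (mul_le_mul_of_nonneg_left h2 (abs_nonneg _)).trans (le_of_eq (by ring))
  refine (abs_sum_le_sum_abs _ _).trans ((sum_le_sum t).trans ?_)
  rw [← mul_sum, sum_comm]
  simp only [sum_add_distrib, ← mul_sum]
  simp only [id] at c1 c2
  have := mul_le_mul_of_nonneg_left (add_le_add (add_le_add c1 c2) c3) hs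
  exact this.trans (le_of_eq (by ring))

/-- one-sided Lipschitz bound at a good point -/
lemma lip_one {n : ℕ} {s r β τ D : ℝ} {a b a' b' : ℕ → ℝ} {f f' : ℝ → ℝ} (hs : 0 < s)
    (hn : s ^ 6 = n) (hr : 0 < r) (hβ : 0 ≤ β) (hD : 0 ≤ D)
    (hf : ∀ x y, f x + f' x * (y - x) ≤ f y)
    (h1 : ∀ x, -(r ^ 2 / 2) ≤ x → |f' x| * (x + r ^ 2) ≤ β)
    (h2 : ∀ A : ℕ → ℝ, (∀ k, k < n → ((k : ℝ) + 1) ^ (2 / 3 : ℝ) / 256 - r ^ 2 / 2 ≤ A k) →
      ∑ k ∈ range n, |f' (A k)| ≤ τ)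
    (h : Two n s a b (r ^ 2 / 2))
    (da : ∑ i ∈ range (n + 1), (a' i - a i) ^ 2 ≤ (2 * D) ^ 2)
    (db : ∑ i ∈ range (n + 1), (b' i - b i) ^ 2 ≤ D ^ 2) :
    ∑ k ∈ range n, f (-lam (Hm n s a b) k) - ∑ k ∈ range n, f (-lam (Hm n s a' b') k) ≤
      Real.sqrt (192 * (β * τ) / r) * D := by
  have hH := Hm_herm (n := n) s a b
  have c := fun k hk => (cntStmt n s a b _ hs hn h k hk).1
  have c' : ∀ k, k < n → -(r ^ 2 / 2) ≤ -lam (Hm n s a b) k := fun k hk => by
    have : 0 ≤ ((k : ℝ) + 1) ^ (2 / 3 : ℝ) / 256 := by positivity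
    linarith [c k hk]
  have k1 := klein hH (Hm_herm (n := n) s a' b') (f := fun x => f (-x)) (f' := fun x => -f' (-x))
    fun x y => by have := hf (-x) (-y); linarith
  rw [Fintype.card_fin] at k1
  have k2 := tr_bound (n := n) (s := s) (M := β * (12 / (s ^ 2 * r))) (τ := τ) (a := a) (b := b)
    (p := fun k => -f' (-lam (Hm n s a b) k)) (v := vec (Hm n s a b)) hs.le
    (fun k hk => vec_dot_self hH (by simpa using hk)) (by positivity) hD (fun i => by
      refine le_trans ?_ (mul_le_mul_of_nonneg_left (res_diag hs hr h c' i) hβ)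
      rw [mul_sum]
      refine sum_le_sum fun k hk => ?_
      have p : 0 < -lam (Hm n s a b) k + r ^ 2 := by
        linarith [c' k (mem_range.1 hk), (by positivity : 0 < r ^ 2)]
      rw [abs_neg, ← mul_div_assoc, le_div_iff₀ p, mul_right_comm]
      exact mul_le_mul_of_nonneg_right (h1 _ (c' k (mem_range.1 hk))) (sq_nonneg _))
    (by simpa only [abs_neg] using h2 _ c) da db
  have τ0 : 0 ≤ τ := (sum_nonneg fun _ _ => abs_nonneg _).trans (h2 _ c)
  have e : 4 * s * Real.sqrt (β * (12 / (s ^ 2 * r)) * τ) = Real.sqrt (192 * (β * τ) / r) := by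
    rw [show 192 * (β * τ) / r = (4 * s) ^ 2 * (β * (12 / (s ^ 2 * r)) * τ) by field_simp; ring,
      Real.sqrt_mul (sq_nonneg _), Real.sqrt_sq (by positivity)]
  rw [e] at k2
  linarith [(abs_le.1 k2).1]

lemma mcshane {ι : Type*} [Fintype ι] {S : Set (ι → ℝ)} {T : (ι → ℝ) → ℝ} {l : ℝ} (hl : 0 ≤ l)
    (h : ∀ x ∈ S, ∀ y ∈ S, T x - T y ≤ l * en (x - y)) :
    ∃ T' : (ι → ℝ) → ℝ, ELip l T' ∧ ∀ x ∈ S, T' x = T x := by
  have h1 : LipschitzOnWith ⟨l, hl⟩ (fun z : EuclideanSpace ℝ ι => T z.ofLp) {z | z.ofLp ∈ S} := by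
    refine LipschitzOnWith.of_le_add_mul _ fun x hx y hy => ?_
    have := h _ hx _ hy
    rw [Conc.en_eq_norm, WithLp.toLp_sub, ← dist_eq_norm] at this
    exact sub_le_iff_le_add'.1 this
  obtain ⟨g, hg, he⟩ := h1.extend_real
  refine ⟨fun x => g (WithLp.toLp 2 x), fun x y => ?_, fun x hx => (he (x := WithLp.toLp 2 x) hx).symm⟩
  have := hg.dist_le_mul (WithLp.toLp 2 x) (WithLp.toLp 2 y)
  rwa [Real.dist_eq, dist_eq_norm, ← WithLp.toLp_sub, ← Conc.en_eq_norm] at this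

lemma rowA_sq {n : ℕ} (x y : Fin n × Fin n → ℝ) :
    ∑ i ∈ range (n + 1), (rowA n (fun i j => y (i, j)) i - rowA n (fun i j => x (i, j)) i) ^ 2 ≤
      (2 * en (x - y)) ^ 2 := by
  rw [sum_range_succ_eq _ (by simp [rowA, ext_zero]), mul_pow, Conc.en_sq, Fintype.sum_prod_type,
    mul_sum]
  refine sum_le_sum fun i _ => ?_
  have h := single_le_sum (f := fun j => (x - y) (i, j) ^ 2) (fun _ _ => sq_nonneg _) (mem_univ i)
  simp only [rowA, ext_succ]
  rw [← mul_sub, mul_pow, Real.sq_sqrt zero_le_two, sub_sq_comm]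
  simp only [Pi.sub_apply] at h ⊢
  linarith [sq_nonneg (x (i, i) - y (i, i))]

lemma rowX_sq {n : ℕ} (x y : Fin n × Fin n → ℝ) :
    ∑ i ∈ range (n + 1), (bx (bet n) (rowX n fun i j => y (i, j)) i -
      bx (bet n) (rowX n fun i j => x (i, j)) i) ^ 2 ≤ en (x - y) ^ 2 := by
  rw [sum_range_succ_eq _ (by simp [rowX, bx]), Conc.en_sq, Fintype.sum_prod_type]
  refine sum_le_sum fun i _ => ?_
  have h := Osc7.elip_chi i (fun j => x (i, j)) fun j => y (i, j)
  rw [one_mul] at h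
  have h2 := pow_le_pow_left₀ (abs_nonneg _) h 2
  rw [sq_abs, Conc.en_sq] at h2
  simp only [bx, Osc7.rowX_eq, ext_succ]
  refine le_trans (le_of_eq (by ring)) h2

theorem rigStmt : RigStmt := by
  obtain ⟨C, hC0, hC⟩ := kapQ
  refine ⟨153600 + 16 * C, by positivity, fun n r b τ f f' hn hr hrs hb hτ mf hf h1 h2 => ?_⟩
  have hn1 : 1 ≤ n := by omega
  have hs := sx_pos hn1
  obtain ⟨c, hc⟩ : ∃ c, c = 1 + 4 * C := ⟨_, rfl⟩
  have c1 : 1 ≤ c := by linarith
  have hA : 0 < r / c := by positivity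
  have hk := hC (r / c) n hA hn1 (by
    have := div_le_self hr.le c1
    have := mul_nonneg hC0 hr.le
    linarith)
  have hl := top_one_le_ceil (h := 1 / (153600 * (r / c))) (by positivity) hn1
  generalize ⌈1 / (153600 * (r / c)) * sx n ^ 2⌉₊ = l at hk hl
  set kp : (Fin n → Fin n → ℝ) → ℝ := fun g => kap n (sx n) (rowA n g) (rowX n g) l with hkp
  have mk : Measurable kp := measurable_kap n _ _
  set T : (Fin n → Fin n → ℝ) → ℝ := fun g =>
    ∑ k ∈ range n, f (-lam (Hm n (sx n) (rowA n g) (bx (bet n) (rowX n g))) k) with hT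
  obtain ⟨T', hT1, hT2⟩ := mcshane (S := {x : Fin n × Fin n → ℝ | kp (fun i j => x (i, j)) ≤ r ^ 2 / 2})
    (T := fun x => T fun i j => x (i, j)) (Real.sqrt_nonneg (192 * (b * τ) / r)) fun x hx y _ =>
      lip_one hs (sx_pow_six n) hr hb (Conc.en_nonneg _) hf h1 h2
        ((Lb88.lbStmt n (sx n) (bet n) _ _ l hn (Osc7.betStmt n hn1) hl).mono hx)
        (rowA_sq x y) (rowX_sq x y)
  refine ⟨∫ y, T' y ∂Conc.gv _, fun t ht => ?_⟩
  have t1 := Conc.tail_lip_abs hT1 ht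
  generalize ∫ y, T' y ∂Conc.gv _ = m at t1 ⊢
  rw [Real.sq_sqrt (by positivity), show -t ^ 2 / (2 * (192 * (b * τ) / r)) =
    -(t ^ 2 * r / (384 * (b * τ))) by rw [mul_div_assoc', div_div_eq_mul_div]; ring] at t1
  have b1 : gm n {g | r ^ 2 / 2 < kp g} ≤
      ENNReal.ofReal (Real.exp (153600 + 16 * C - r ^ 3 / (153600 + 16 * C))) := by
    rw [← lintegral_indicator_one (measurableSet_lt measurable_const mk)]
    refine le_trans (lintegral_mono (g := fun g => ex (-(r / c * (r ^ 2 / 2))) * ex (r / c * kp g))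
      fun g => ?_) ?_
    · by_cases hg : g ∈ {g | r ^ 2 / 2 < kp g}
      · rw [Set.indicator_of_mem hg, Pi.one_apply, ← ex_zero]
        refine le_trans ?_ (le_of_eq (ex_add _ _))
        exact ex_mono (by linarith [mul_le_mul_of_nonneg_left (le_of_lt hg) hA.le])
      · rw [Set.indicator_of_notMem hg]; exact zero_le
    · rw [lintegral_const_mul' _ _ (ex_ne_top _)]
      refine (mul_le_mul_right hk _).trans ?_
      rw [← ex_add]
      refine ex_mono ?_
      have r3 : 0 ≤ r ^ 3 := by positivity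
      have a1 : C * (r / c) ^ 3 ≤ r ^ 3 / c / 4 := by
        have a2 : 4 * C / c ^ 2 ≤ 1 := (div_le_one (by positivity)).2
          (le_trans (by linarith) (le_self_pow₀ c1 two_ne_zero))
        calc C * (r / c) ^ 3 = 4 * C / c ^ 2 * (r ^ 3 / c / 4) := by field_simp
          _ ≤ 1 * (r ^ 3 / c / 4) := mul_le_mul_of_nonneg_right a2 (by positivity)
          _ = _ := one_mul _
      have a3 : r ^ 3 / (153600 + 16 * C) ≤ r ^ 3 / c / 4 := by
        rw [div_div]; exact div_le_div_of_nonneg_left r3 (by positivity) (by linarith)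
      have a4 : r / c * (r ^ 2 / 2) = 2 * (r ^ 3 / c / 4) := by ring
      linarith
  have mG : Measurable fun l : ℕ → ℝ => |∑ k ∈ range n, f (tau n * (2 - l k)) - m| :=
    ((Finset.measurable_sum _ fun k _ => mf.comp (by fun_prop)).sub_const m).abs
  have mS := measurableSet_le (measurable_const (a := t)) mG
  have mT : Measurable fun g => (lam (Tm n g) : ℕ → ℝ) := measurable_lam.comp (measurable_Tm n)
  have mc : Measurable fun (x : Fin n × Fin n → ℝ) (i j : Fin n) => x (i, j) := by fun_prop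
  have e0 : (Conc.gv (Fin n × Fin n)).map (fun x i j => x (i, j)) = gm n := by
    have h := Measure.infinitePi_map_curry (ι := Fin n) (κ := Fin n) (X := ℝ)
      (fun _ _ => gaussianReal 0 1)
    simp only [Measure.infinitePi_eq_pi] at h
    exact h
  have e1 := congrArg (fun μ : Measure (ℕ → ℝ) => μ _) (triStmt n) |>.trans
    (Measure.map_apply mT mS)
  rw [Measure.map_apply measurable_lam mS, ← e0, Measure.map_apply mc (mT mS)] at e1
  rw [← e0, Measure.map_apply mc (measurableSet_lt measurable_const mk)] at b1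
  refine le_trans ?_ (add_le_add t1 (ENNReal.toReal_le_of_le_ofReal (Real.exp_pos _).le b1))
  refine le_trans (le_of_eq (congrArg ENNReal.toReal e1))
    (le_trans (measureReal_mono fun x hx => ?_) (measureReal_union_le _ _))
  by_cases hg : kp (fun i j => x (i, j)) ≤ r ^ 2 / 2
  · left
    rw [Set.mem_ofPred_eq, hT2 x hg]
    have : T (fun i j => x (i, j)) =
        ∑ k ∈ range n, f (tau n * (2 - lam (Tm n fun i j => x (i, j)) k)) :=
      sum_congr rfl fun k hk => by rw [Lam_Tm _ (mem_range.1 hk)]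
    rw [this]; exact hx
  · right; exact not_le.1 hg

/-- `1 / x` above `L`, continued by its tangent line below `L` -/
def fL (L x : ℝ) : ℝ := 1 / max x L + (max x L - x) / L ^ 2

lemma fL_of_le {L x : ℝ} (h : L ≤ x) : fL L x = 1 / x := by simp [fL, max_eq_left h]

lemma fL_sub {L : ℝ} (hL : 0 < L) (x y : ℝ) : fL L x + -(1 / max x L ^ 2) * (y - x) ≤ fL L y := by
  have hX : L ≤ max x L := le_max_right _ _
  have hY : L ≤ max y L := le_max_right _ _
  have e1 : (max x L - x) / L ^ 2 = (max x L - x) / max x L ^ 2 := by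
    rcases le_total x L with h | h
    · rw [max_eq_right h]
    · rw [max_eq_left h, sub_self, zero_div, zero_div]
  have e2 : (max y L - y) / max x L ^ 2 ≤ (max y L - y) / L ^ 2 :=
    div_le_div_of_nonneg_left (sub_nonneg.2 (le_max_left _ _)) (by positivity) (by gcongr)
  rw [fL, fL, e1]
  generalize max x L = X at *
  generalize max y L = Y at *
  have X0 : 0 < X := by linarith
  have Y0 : 0 < Y := by linarith
  have e3 : 1 / Y + (Y - y) / X ^ 2 - (1 / X + (X - x) / X ^ 2 + -(1 / X ^ 2) * (y - x)) =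
      (X - Y) ^ 2 / (Y * X ^ 2) := by field_simp; ring
  have e4 : 0 ≤ (X - Y) ^ 2 / (Y * X ^ 2) := by positivity
  linarith

/-- **the sum of the inverse levels is rigid** -/
theorem rig_inv : ∃ C : ℝ, 0 < C ∧ ∀ (n : ℕ) (r : ℝ), 8 ≤ n → 0 < r → C * r ≤ sx n ^ 2 →
    ∃ m : ℝ, ∀ t : ℝ, 0 ≤ t →
      (GOE n).real {W | t ≤ |∑ k ∈ range n, fL (r ^ 2) (Lam n W k) - m|} ≤
        2 * Real.exp (-(t ^ 2 * r ^ 3 / C)) + Real.exp (C - r ^ 3 / C) := by
  obtain ⟨C, hC0, hC⟩ := rigStmt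
  have hs : Summable fun k : ℕ => 512 ^ 2 * (1 / ((k : ℝ) + 1) ^ (4 / 3 : ℝ)) := by
    have := (summable_nat_add_iff 1).2 (Real.summable_one_div_nat_rpow.2 (by norm_num : (1 : ℝ) < 4 / 3))
    push_cast at this
    exact this.mul_left _
  obtain ⟨τ, hτ⟩ : ∃ τ, τ = ∑' k : ℕ, 512 ^ 2 * (1 / ((k : ℝ) + 1) ^ (4 / 3 : ℝ)) + 1 := ⟨_, rfl⟩
  have τ0 : 0 < τ := by rw [hτ]; positivity
  refine ⟨C + 768 * τ, by positivity, fun n r hn hr hrs => ?_⟩
  have r2 : 0 < r ^ 2 := by positivity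
  obtain ⟨m, hm⟩ := hC n r (2 / r ^ 2) τ (fL (r ^ 2)) (fun x => -(1 / max x (r ^ 2) ^ 2)) hn hr
    (by linarith [mul_pos τ0 hr]) (by positivity) τ0.le (by unfold fL; fun_prop) (fL_sub r2)
    (fun x _ => by
      have h1 : r ^ 2 ≤ max x (r ^ 2) := le_max_right _ _
      have h2 : x ≤ max x (r ^ 2) := le_max_left _ _
      generalize max x (r ^ 2) = X at *
      have X0 : 0 < X := by linarith
      rw [abs_neg, abs_of_nonneg (by positivity)]
      calc 1 / X ^ 2 * (x + r ^ 2) ≤ 1 / X ^ 2 * (2 * X) := by gcongr; linarith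
        _ = 2 / X := by field_simp
        _ ≤ _ := by gcongr)
    (fun A hA => by
      refine le_trans (sum_le_sum fun k hk => ?_)
        ((hs.sum_le_tsum (range n) fun _ _ => by positivity).trans (by linarith))
      have h0 := hA k (mem_range.1 hk)
      have h1 : r ^ 2 ≤ max (A k) (r ^ 2) := le_max_right _ _
      have h2 : A k ≤ max (A k) (r ^ 2) := le_max_left _ _
      have h3 : ((k : ℝ) + 1) ^ (4 / 3 : ℝ) = (((k : ℝ) + 1) ^ (2 / 3 : ℝ)) ^ 2 := by
        rw [← Real.rpow_natCast, ← Real.rpow_mul (by positivity)]; norm_num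
      have h4 : 0 < ((k : ℝ) + 1) ^ (2 / 3 : ℝ) := by positivity
      rw [abs_neg, abs_of_nonneg (by positivity), h3]
      generalize ((k : ℝ) + 1) ^ (2 / 3 : ℝ) = y at *
      calc 1 / max (A k) (r ^ 2) ^ 2 ≤ 1 / (y / 512) ^ 2 := by gcongr; linarith
        _ = _ := by field_simp)
  refine ⟨m, fun t ht => (hm t ht).trans (add_le_add ?_ (Real.exp_le_exp.2 ?_))⟩
  · refine mul_le_mul_of_nonneg_left (Real.exp_le_exp.2 (neg_le_neg ?_)) zero_le_two
    rw [show t ^ 2 * r / (384 * (2 / r ^ 2 * τ)) = t ^ 2 * r ^ 3 / (768 * τ) by field_simp; ring]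
    exact div_le_div_of_nonneg_left (by positivity) (by positivity) (by linarith)
  · have : r ^ 3 / (C + 768 * τ) ≤ r ^ 3 / C :=
      div_le_div_of_nonneg_left (by positivity) hC0 (by linarith)
    linarith

/-- a rigid variable can be dropped from a bounded tilt -/
lemma bad_cl {Ω : Type*} [MeasurableSpace Ω] {μ : Measure Ω} [IsProbabilityMeasure μ]
    {X Y : Ω → ℝ} {D γ B t η w : ℝ} (hX : Measurable X) (hY : Measurable Y) (hD : ∀ ω, |X ω| ≤ D)
    (hγ : 0 ≤ γ) (hB : 0 ≤ B) (ht : 0 ≤ t) (hη : μ.real {ω | t ≤ |Y ω|} ≤ η)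
    (hw : η * Real.exp (2 * (D + γ * B)) ≤ w) :
    Eqv (∫⁻ ω, ex (X ω + γ * cl B (Y ω)) ∂μ) (∫⁻ ω, ex (X ω) ∂μ) (γ * t + w) := by
  have hc : ∀ ω, |γ * cl B (Y ω)| ≤ γ * B := fun ω => by
    rw [abs_mul, abs_of_nonneg hγ]; exact mul_le_mul_of_nonneg_left (abs_cl_le hB _) hγ
  refine bad (S := {ω | t ≤ |Y ω|}) (X := fun ω => X ω + γ * cl B (Y ω))
    (hX.add (((continuous_cl B).measurable.comp hY).const_mul γ)) hX
    (by positivity) (measureReal_nonneg.trans hη)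
    (by rw [← ofReal_measureReal]; exact ENNReal.ofReal_le_ofReal hη)
    (fun ω => (abs_add_le _ _).trans (add_le_add (hD ω) (hc ω)))
    (fun ω => (hD ω).trans (le_add_of_nonneg_right (by positivity))) (fun ω hω => ?_) hw
  have h := cl_lip B (Y ω) 0
  rw [cl_of_abs_le (x := 0) (by simpa using hB), sub_zero, sub_zero] at h
  rw [add_sub_cancel_left, abs_mul, abs_of_nonneg hγ]
  exact mul_le_mul_of_nonneg_left (h.trans (not_le.1 hω).le) hγ

end Crest.Agent.T156.U2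

end
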