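import Crest.Agent.T156.LKu_37
import Crest.Agent.T156.LPgA_86

/-!
# Row 156 (helper18): one pass of `TLt` from `Vt = 1` below the scale `u2`, class level
-/

set_option autoImplicit false
set_option linter.unusedSectionVars false

noncomputable section

namespace Crest.Agent.T156.Alt.Vt18

open Real Finset Plt13
open Crest.Agent.T156.Alt.L69 (GS GP Rp ap Np Far Ap Jn ds lsh)
open Crest.Agent.T156.Alt.R62 (lw sb pl ls)
open Crest.Agent.T156.Alt.Kn72 (SD)
open Crest.Agent.T156.Alt.Lk37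

/-- the cut `u` and the size `ρ` -/
structure VN (S : Sc) (u2 y Lg u ρ : ℝ) : Prop where
  u0 : 0 < u
  uU : u ≤ u2
  ue : 4 * S.ue ≤ u
  lg : 2 * log (1 + 4 / u) ≤ Lg
  w : S.w3 1 ≤ ρ ^ 3 * u
  y : y ^ 3 ≤ ρ
  θ : S.θ ≤ ρ ^ 2

theorem ap_num {w e s l R ρ u : ℝ} (w0 : 0 ≤ w) (e0 : 0 < e) (s0 : 0 < s) (s1 : s ≤ 1)
    (el : l = e * s) (u0 : 0 < u) (ρ0 : 0 ≤ ρ) (ρ1 : 4 * ρ ≤ 1) (hw : w ≤ ρ ^ 3 * u) (R0 : 0 ≤ R)
    (R3 : R ≤ 3) (l3 : l ≤ 3) (us : u / 2 ≤ s) (ul : u / 8 ≤ l * s) :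
    (w * (e + R ^ 2 / (s ^ 2 * e))) ^ ((1 : ℝ) / 3) + w / (e * s ^ 2) + √(w / l) ≤ 8 * ρ := by
  have l0 : 0 < l := el ▸ mul_pos e0 s0
  have r3 : 0 ≤ ρ ^ 3 := by positivity
  have es : e * s ^ 2 = l * s := by rw [el]; ring
  have c : w / (l * s) ≤ 8 * ρ ^ 3 := by
    rw [div_le_iff₀ (by positivity)]
    linarith [mul_le_mul_of_nonneg_left ul r3]
  have a : w * e ≤ 6 * ρ ^ 3 := by
    refine le_of_mul_le_mul_right ?_ s0
    have a1 := mul_le_mul hw l3 l0.le (by positivity)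
    have a2 := mul_le_mul_of_nonneg_left us r3
    calc w * e * s = w * l := by rw [el]; ring
      _ ≤ _ := by linarith
  have b : w * (R ^ 2 / (s ^ 2 * e)) ≤ 72 * ρ ^ 3 := by
    have := mul_le_mul c (pow_le_pow_left₀ R0 R3 2) (sq_nonneg R) (by positivity)
    rw [show w * (R ^ 2 / (s ^ 2 * e)) = w / (l * s) * R ^ 2 by rw [← es]; ring]
    linarith
  have f : (w * (e + R ^ 2 / (s ^ 2 * e))) ^ ((1 : ℝ) / 3) ≤ 5 * ρ := by
    have g : w * (e + R ^ 2 / (s ^ 2 * e)) ≤ (5 * ρ) ^ 3 := by rw [mul_add]; linarith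
    refine (rpow_le_rpow (by positivity) g (by norm_num)).trans_eq ?_
    rw [← rpow_natCast, ← rpow_mul (by positivity)]; norm_num
  have q : 4 * ρ ^ 3 ≤ ρ ^ 2 := by nlinarith [sq_nonneg ρ]
  have q' : 4 * ρ ^ 2 ≤ ρ := by nlinarith
  have d : √(w / l) ≤ 2 * ρ := sqrt_le_iff.2 ⟨by positivity, by
    have : w / l ≤ w / (l * s) :=
      div_le_div_of_nonneg_left w0 (by positivity) (mul_le_of_le_one_right l0.le s1)
    linarith [sq_nonneg ρ]⟩
  rw [es]
  linarith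

section

variable {S : Sc} {M : Md} {m : ℕ} {a la V u2 y r q Lg E K Λ u ρ : ℝ} {k : ℕ}
  (U : UN S M la V u2 y r q Lg E K) (W : VN S u2 y Lg u ρ)
include U W

theorem ρ0 : 0 < ρ := (pow_pos U.y0 3).trans_le W.y

theorem y6 : y ^ 6 ≤ ρ ^ 2 :=
  (show y ^ 6 = (y ^ 3) ^ 2 by ring).trans_le (pow_le_pow_left₀ (pow_pos U.y0 3).le W.y 2)

theorem uy : u ≤ y ^ 6 := W.uU.trans (U.uV.trans U.VX)

theorem uu0 : u ≤ S.u0 ^ 2 ∧ S.u0 ^ 2 ≤ S.u0 := by
  have a := U.sd.u0p
  have b := U.sd.u0_le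
  have c := W.uU.trans (U.sd.nu.u2_sq.trans_eq U.sd.u0_cube.symm)
  exact ⟨by nlinarith [sq_nonneg S.u0], by nlinarith⟩

theorem ltJ (h1 : k ≤ S.Jp) (h2 : u / 2 ≤ R62.du M k) : k < S.Jp :=
  lt_of_le_of_ne h1 fun e => by
    subst e
    have := U.sd.cl.last
    unfold R62.du at h2
    linarith [W.ue, W.u0]

theorem nd (h0 : S.J ≤ k) (h2 : u / 2 ≤ R62.du M k) : Lp86.Nd S M la V u2 S.u0 k :=
  ⟨U.sd, h0, (half_pos W.u0).trans_le h2, le_rfl, U.sd.uC⟩

theorem ds_ge (h0 : S.J ≤ k) (h2 : u / 2 ≤ R62.du M k) : u / 2 ≤ ds M S k :=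
  le_min (by linarith [(nd U W h0 h2).A0, uu0 U W, W.u0]) h2

theorem R_le : Rp M S (y ^ 6) 1 0 k + (y ^ 6) ^ ((1 : ℝ) / 3) ≤ 3 := by
  have y0 := U.y0
  have r1 : Rp M S (y ^ 6) 1 0 k ≤ y ^ 2 + 1 + 0 := by
    refine add_le_add (add_le_add ?_ (min_le_left _ _)) le_rfl
    rw [U.x3]
    refine sqrt_le_iff.2 ⟨by positivity, (div_le_div_of_nonneg_left (by positivity)
      (by positivity) (le_max_right _ _)).trans (le_of_eq ?_)⟩
    field_simp
  rw [U.x3]
  linarith [U.y1]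

theorem R0 : 0 ≤ Rp M S (y ^ 6) 1 0 k :=
  add_nonneg (add_nonneg (sqrt_nonneg _) (le_min zero_le_one (sqrt_nonneg _))) le_rfl

variable (ρ1 : 4 * ρ ≤ 1)
include ρ1

theorem ap_le (h0 : S.J ≤ k) (h2 : u / 2 ≤ R62.du M k) : ap M S (y ^ 6) 1 0 k ≤ 8 * ρ := by
  have N := nd U W h0 h2
  have u0 := W.u0
  have y0 := U.y0
  have l3 := N.L_up (half_pos u0) h2
  have d := N.dL_ge (u := u / 2) (dm := u / 8) h2 (by positivity) (by linarith [uu0 U W])
    (by linarith) (by nlinarith [W.uU])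
  exact ap_num (U.w0 one_pos).le N.den0 N.d0 N.d1 rfl u0 (ρ0 U W).le ρ1 W.w
    (add_nonneg (R0 U W) (by positivity)) (R_le U W)
    (l3.trans (by linarith [U.sd.u0_le, U.sd.nu.V1, min_le_left 1 (√u2 / √(u / 2))]))
    (ds_ge U W h0 h2) d

theorem hw (h0 : S.J ≤ k) (h2 : u / 2 ≤ R62.du M k) : S.w3 1 ≤ lsh M S k ^ 2 * ds M S k := by
  have N := nd U W h0 h2
  have a := N.sq_ge
  have b : u / 2 ≤ min (L69.du M k) u2 := le_min h2 (by linarith [W.uU, W.u0])
  have c : ρ ^ 3 ≤ (1 / 4) ^ 3 := pow_le_pow_left₀ (ρ0 U W).le (by linarith) 3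
  linarith [W.w, mul_le_mul_of_nonneg_right c W.u0.le, W.u0]

theorem far : Far M S (y ^ 6) 1 0 (u / 2) E := fun i k a b c d => by
  have e : R62.du M k ≤ R62.du M i := sub_le_sub_left (U.sd.cl.leg.zm (by omega)) 1
  have lk := (nd U W (a.trans b) d).L0
  have li := (nd U W a (le_trans d e)).L0
  have w := U.w0 one_pos
  have y0 := U.y0
  have dk := U.sd.cl.den0 (M.z (k - 1))
  have f : S.w3 1 * S.den (M.z (i - 1)) ≤ lsh M S i ^ 3 :=
    (mul_le_mul_of_nonneg_right (hw U W ρ1 a (le_trans d e)) (U.sd.cl.den0 _).le).trans_eq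
      (by unfold lsh; ring)
  have g : lsh M S i ≤ lsh M S k * max 1 (lsh M S i / lsh M S k) := by
    rw [← div_le_iff₀' lk]; exact le_max_right _ _
  rw [U.x3]
  refine (f.trans (pow_le_pow_left₀ li.le g 3)).trans ?_
  rw [mul_pow]
  refine mul_le_mul_of_nonneg_right (le_trans ?_ (le_mul_of_one_le_left (by positivity) U.E1))
    (by positivity)
  nlinarith [mul_pos w dk, mul_pos (pow_pos y0 2) (pow_pos lk 2)]

theorem np : Np M S (y ^ 6) 1 0 (u / 2) E 2 ≤ (13 * E * Lg * ρ) ^ 2 := by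
  have u0 := W.u0
  have y0 := U.y0
  have E1 := U.E1
  have L1 := U.L1
  have p0 := ρ0 U W
  have P := R62.K17.sp_of U.sd (u1 := u / 2) (Λ := Lg)
    (by linarith [U.v, U.sd.nu.u2l, mul_pos U.sd.cl.C0 U.sd.cl.v0]) (by positivity)
    (by linarith [W.uU])
    (le_trans (mul_le_mul_of_nonneg_left (log_le_log (by positivity) (by
      rw [one_div_div, add_le_add_iff_left]
      exact div_le_div_of_nonneg_right (by norm_num) u0.le)) two_pos.le) W.lg)
  have A0 : 0 ≤ 73 * E ^ 2 * ρ ^ 2 := by positivity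
  have s := P.sum_le (f := fun k => 73 * E ^ 2 * ρ ^ 2 / R62.dl S M k +
    73 * E ^ 2 * ρ ^ 2 / R62.du M k) A0 A0 fun _ _ => le_rfl
  have t : Np M S (y ^ 6) 1 0 (u / 2) E 2 ≤ u / 2 + ∑ k ∈ pl S M (u / 2), lw M k *
      (73 * E ^ 2 * ρ ^ 2 / R62.dl S M k + 73 * E ^ 2 * ρ ^ 2 / R62.du M k) := by
    refine add_le_add le_rfl ((sum_le_sum fun k hk => ?_).trans
      (sum_le_sum_of_subset_of_nonneg (fun k hk => ?_) fun k hk _ => ?_))
    · obtain ⟨b, c⟩ := mem_filter.1 hk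
      change u / 2 ≤ R62.du M k at c
      obtain ⟨b0, b1⟩ := mem_Icc.1 b
      refine mul_le_mul_of_nonneg_left ?_ (dx_nn U.sd.cl k)
      have N := nd U W b0 c
      have dl := U.sd.dl0 b0
      have du : 0 < R62.du M k := by linarith
      have s0 : 0 < min (R62.dl S M k) (R62.du M k) := N.d0
      have s1 := min_le_left (R62.dl S M k) (R62.du M k)
      have s2 := min_le_right (R62.dl S M k) (R62.du M k)
      have s4 : min (R62.dl S M k) (R62.du M k) ≤ 1 := N.d1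
      have s3 : 73 * E ^ 2 * ρ ^ 2 / min (R62.dl S M k) (R62.du M k) ≤
          73 * E ^ 2 * ρ ^ 2 / R62.dl S M k + 73 * E ^ 2 * ρ ^ 2 / R62.du M k := by
        rcases min_choice (R62.dl S M k) (R62.du M k) with e | e <;> rw [e] <;>
          linarith [div_nonneg A0 dl.le, div_nonneg A0 du.le]
      have mu : min 1 (√(y ^ 6 / R62.du M k)) ≤ y ^ 3 / √(min (R62.dl S M k) (R62.du M k)) := by
        refine (min_le_right _ _).trans ?_
        rw [sqrt_div' _ du.le, show y ^ 6 = (y ^ 3) ^ 2 by ring, sqrt_sq (by positivity)]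
        exact div_le_div_of_nonneg_left (by positivity) (sqrt_pos.2 s0) (sqrt_le_sqrt s2)
      have r0 := R0 U W (k := k)
      have r1 : Rp M S (y ^ 6) 1 0 k ≤ 2 * (y ^ 3 / √(min (R62.dl S M k) (R62.du M k))) +
          y ^ 3 / √(min (R62.dl S M k) (R62.du M k)) + 0 := by
        refine add_le_add (add_le_add ?_ mu) le_rfl
        have x0 : S.u0 ≤ y ^ 2 := by
          refine le_of_pow_le_pow_left₀ three_ne_zero (by positivity) ?_
          rw [U.sd.u0_cube]; linarith [U.laX, U.VX]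
        have x1 : min (R62.dl S M k) (R62.du M k) / 2 ≤
            max (L69.dl M S k - S.u0) ((y ^ 6) ^ ((1 : ℝ) / 3)) := by
          rw [U.x3]
          have := le_max_left (L69.dl M S k - S.u0) (y ^ 2)
          have := le_max_right (L69.dl M S k - S.u0) (y ^ 2)
          linarith [show L69.dl M S k = R62.dl S M k from rfl]
        refine sqrt_le_iff.2 ⟨by positivity, (div_le_div_of_nonneg_left (by positivity)
          (by positivity) x1).trans ?_⟩
        rw [mul_pow, div_pow, sq_sqrt s0.le, div_div_eq_mul_div, ← mul_div_assoc]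
        exact div_le_div_of_nonneg_right (by nlinarith [pow_pos y0 6]) s0.le
      have ha := ap_le U W ρ1 b0 c
      have a0 : 0 ≤ ap M S (y ^ 6) 1 0 k := by
        have := U.w0 one_pos
        have := N.den0
        have := N.d0
        have := N.L0
        unfold ap; positivity
      have e2 : (y ^ 3 / √(min (R62.dl S M k) (R62.du M k))) ^ 2 ≤
          ρ ^ 2 / min (R62.dl S M k) (R62.du M k) := by
        rw [div_pow, sq_sqrt s0.le]
        exact div_le_div_of_nonneg_right (pow_le_pow_left₀ (by positivity) W.y 2) s0.le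
      have e3 : ρ ^ 2 ≤ ρ ^ 2 / min (R62.dl S M k) (R62.du M k) :=
        le_div_self (sq_nonneg ρ) s0 s4
      have E23 : E ^ ((2 : ℝ) / 3) ≤ E :=
        (rpow_le_rpow_of_exponent_le E1 (by norm_num)).trans_eq (rpow_one E)
      have c1 := pow_le_pow_left₀ (by positivity) (mul_le_mul E23 ha a0 (by linarith)) 2
      have c2 := (min_le_left _ (√(S.w3 1 / (S.den (M.z (k - 1)) * L69.ds M S k ^ 2)) *
        Rp M S (y ^ 6) 1 0 k ^ (((2 : ℕ) : ℝ) - 1 / 2))).trans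
          ((div_le_self (sq_nonneg _) E1).trans
          (pow_le_pow_left₀ r0 (show Rp M S (y ^ 6) 1 0 k ≤
            3 * (y ^ 3 / √(min (R62.dl S M k) (R62.du M k))) by linarith) 2))
      refine (add_le_add c1 c2).trans (le_trans ?_ s3)
      rw [mul_pow, mul_pow, mul_pow, mul_div_assoc]
      have z0 : 0 ≤ ρ ^ 2 / min (R62.dl S M k) (R62.du M k) := by positivity
      linarith [mul_le_mul_of_nonneg_right (one_le_pow₀ (n := 2) E1) z0,
        mul_le_mul_of_nonneg_left e3 (sq_nonneg E)]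
    · obtain ⟨b, c⟩ := mem_filter.1 hk
      obtain ⟨b0, b1⟩ := mem_Icc.1 b
      exact mem_filter.2 ⟨mem_Ico.2 ⟨b0, ltJ U W b1 c⟩, c⟩
    · obtain ⟨b0, b1, -⟩ := SD.mem_pl hk
      have := U.sd.dl0 b0
      have := U.sd.du0 b0 b1
      exact mul_nonneg (dx_nn U.sd.cl k) (by positivity)
  have z : 1 ≤ E ^ 2 * Lg := one_le_mul_of_one_le_of_one_le (one_le_pow₀ E1) L1
  have z1 := mul_le_mul_of_nonneg_right z (sq_nonneg ρ)
  have z2 := mul_le_mul_of_nonneg_left L1 (show 0 ≤ E ^ 2 * Lg * ρ ^ 2 by positivity)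
  have z3 : 0 ≤ E ^ 2 * Lg * ρ ^ 2 := by positivity
  linarith [uy U W, y6 U W,
    show (13 * E * Lg * ρ) ^ 2 = 169 * (E ^ 2 * Lg * ρ ^ 2 * Lg) by ring]

omit ρ1 in
theorem apr (hm : 0 < m) (hΦ : Tot S M m a ≤ y ^ 6) :
    Ap S M m a (y ^ 2) (y ^ 6) (y ^ 6) 1 (u / 2) (3 * y ^ 3) := by
  have A := U.apr (Vt := 1) (u1 := u2 / 2) le_rfl hΦ fun k _ _ _ => U.del1 hm k
  refine ⟨A.all, A.top, fun k _ _ _ => U.del1 hm k, A.j0, A.jn.dj1, A.jn.dj2, A.jn.u03,
    fun k a b d => ?_⟩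
  have g := U.sd.ls_ge a (ltJ U W b d)
  have := mul_le_mul_of_nonneg_left g (Nat.cast_nonneg (α := ℝ) S.n)
  change 1 ≤ S.n * ls S M k
  linarith [U.nu]

omit ρ1 in
/-- the node at half the distance to the top, and the clock up to it -/
theorem half (h0 : S.J ≤ k) (h1 : k ≤ S.Jp) (hu : u ≤ R62.du M k) :
    ∃ k', k ≤ k' ∧ k' ≤ S.Jp ∧ R62.du M k' ≤ R62.du M k / 2 ∧
      ((k' : ℝ) - S.J) * S.v ≤ 9 * S.C * Lg := by
  have D := U.sd
  have u0 := W.u0
  have tp : R62.du M S.Jp ≤ R62.du M k / 2 := by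
    linarith [D.cl.last, show R62.du M S.Jp = 1 - M.z (S.Jp - 1) from rfl, W.ue]
  have ex : ∃ k', k ≤ k' ∧ R62.du M k' ≤ R62.du M k / 2 := ⟨S.Jp, h1, tp⟩
  classical
  obtain ⟨a1, a2⟩ := Nat.find_spec ex
  have a3 : Nat.find ex ≤ S.Jp := Nat.find_min' ex ⟨h1, tp⟩
  have a4 : k < Nat.find ex := lt_of_le_of_ne a1 fun e => by rw [← e] at a2; linarith
  have a5 := Nat.find_min ex (show Nat.find ex - 1 < Nat.find ex by omega)
  set q := Nat.find ex
  have a6 : R62.du M k / 2 < R62.du M (q - 1) := not_le.1 fun e => a5 ⟨by omega, e⟩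
  have s := (le_min_iff.1 (step D U.v (i := q - 1) (by omega) (by omega))).2
  have a7 : u / 4 ≤ 1 - M.z (q - 1) := by unfold R62.du at *; linarith
  refine ⟨q, a1, a3, a2, (clock D U.v (by omega) a3).2.trans ?_⟩
  have lp := D.nu.lp
  have Vp := D.nu.Vp
  have sp := D.nu.sp
  have up : 0 < 1 - M.z (q - 1) := by linarith
  have su := sqrt_pos.2 up
  have u1 : u ≤ 1 := by linarith [uu0 U W, D.u0_le]
  have b1 : u / 4 ≤ √(1 - M.z (q - 1)) := le_sqrt_of_sq_le (by nlinarith)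
  have b2 : 1 / √(1 - M.z (q - 1)) ≤ 4 / u := by
    rw [div_le_div_iff₀ su u0]; linarith
  have l0 : 0 ≤ log (1 + 4 / u) := log_nonneg (le_add_of_nonneg_right (by positivity))
  have c1 : ft V la (1 - M.z (q - 1)) ≤ Lg := by
    have : la / (V * √(1 - M.z (q - 1))) ≤ 1 / √(1 - M.z (q - 1)) := by
      rw [div_le_div_iff₀ (by positivity) su]
      linarith [mul_le_mul_of_nonneg_right D.nu.lV su.le]
    have e := log_le_log (x := 1 + la / (V * √(1 - M.z (q - 1)))) (y := 1 + 4 / u)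
      (by positivity) (by linarith)
    exact (mul_le_mul D.nu.V1 e (log_nonneg (le_add_of_nonneg_right (by positivity)))
      zero_le_one).trans (by linarith [W.lg])
  have c2 : ft 1 (√u2) (1 - M.z (q - 1)) ≤ Lg := by
    have : √u2 / (1 * √(1 - M.z (q - 1))) ≤ 1 / √(1 - M.z (q - 1)) := by
      rw [one_mul]; exact div_le_div_of_nonneg_right D.nu.s1 su.le
    have e := log_le_log (x := 1 + √u2 / (1 * √(1 - M.z (q - 1)))) (y := 1 + 4 / u)
      (by positivity) (by linarith)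
    unfold ft
    linarith [W.lg]
  have c3 := ft_nn Vp lp.le (1 - M.z (S.J - 1))
  have c4 := ft_nn one_pos sp.le (1 - M.z (S.J - 1))
  have c5 : 0 ≤ fb la (M.z (q - 1) - M.z (S.J - 1) + S.u0) := by unfold fb; positivity
  have c6 : fb la (M.z (S.J - 1) - M.z (S.J - 1) + S.u0) = S.u0 := by
    rw [sub_self, zero_add]; exact D.fb_u0
  have c7 : rho (M.z (S.J - 1)) S.u0 la V u2 0 (M.z (q - 1)) -
      rho (M.z (S.J - 1)) S.u0 la V u2 0 (M.z (S.J - 1)) ≤ 3 * Lg := by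
    unfold rho
    linarith [D.u0_le, U.L1]
  linarith [mul_le_mul_of_nonneg_left c7 D.cl.C0.le]

omit ρ1 in
theorem clk {k' : ℕ} (h0 : S.J ≤ k') (h1 : k' ≤ S.Jp)
    (h : ((k' : ℝ) - S.J) * S.v ≤ 9 * S.C * Lg) : √(M.H k' - M.H S.J) ≤ 3 * S.C * Lg * ρ := by
  have c := U.sd.cl
  have θ0 := c.θ0
  have C0 := c.C0
  have L1 := U.L1
  have p0 := ρ0 U W
  have a := (U.ce.toG c).pl S.J k' le_rfl h0 h1
  rw [U.F1] at a
  refine sqrt_le_iff.2 ⟨by positivity, ?_⟩
  have b1 := mul_le_mul_of_nonneg_left h (mul_pos C0 θ0).le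
  have b2 := mul_le_mul W.θ (le_self_pow₀ L1 two_ne_zero) (by linarith) (sq_nonneg ρ)
  linarith [mul_le_mul_of_nonneg_left b2 (sq_nonneg S.C)]

end

/-- **one pass of `TLt` from `Vt = 1`** -/
theorem vt_cl (T : L69.TLt) : CL fun E Λ S M m a => ∀ la V u2 y r q Lg K u ρ,
    UN S M la V u2 y r q Lg E K → VN S u2 y Lg u ρ → Tot S M m a ≤ y ^ 6 →
    ∀ k, S.J ≤ k → k ≤ S.Jp → u ≤ L69.du M k → M.del m a k ≤ 10 * S.C * (Λ * E * Lg) * ρ :=
  CL.mono T fun E Λ S M m a E1 Λ1 c I T la V u2 y r q Lg K u ρ U W hΦ k k0 k1 hu => by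
    have y0 := U.y0
    have u0 := W.u0
    have p0 := ρ0 U W
    have L1 := U.L1
    have C4 := U.sd.C4
    have hm : 0 < m := c.n1.trans I.m1
    have p1 : 1 ≤ E * Lg := one_le_mul_of_one_le_of_one_le E1 L1
    have p2 : E ≤ E * Lg := le_mul_of_one_le_right (by linarith) L1
    have p3 : Lg ≤ E * Lg := le_mul_of_one_le_left (by linarith) E1
    rcases le_total 1 (4 * ρ) with ρ1 | ρ1
    · have P1 : 1 ≤ Λ * E * Lg := by rw [mul_assoc]; exact one_le_mul_of_one_le_of_one_le Λ1 p1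
      have := mul_le_mul_of_nonneg_right (mul_le_mul C4 P1 zero_le_one (by linarith)) p0.le
      linarith [U.del1 (a := a) hm k]
    have yC : y ^ 2 ≤ S.C := U.y1.trans c.C1
    have EX : E * y ^ 6 ≤ 1 := le_trans (mul_le_mul_of_nonneg_left
      (pow_le_pow_of_le_one y0.le U.y1' (by norm_num)) (by linarith)) U.Ey
    have X8 : 8 * y ^ 6 ≤ (13 * E * Lg * ρ) ^ 2 := by
      linarith [mul_le_mul_of_nonneg_right (one_le_pow₀ (n := 2) p1) (sq_nonneg ρ), y6 U W,
        sq_nonneg ρ, show (13 * E * Lg * ρ) ^ 2 = 169 * ((E * Lg) ^ 2 * ρ ^ 2) by ring]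
    obtain ⟨j, j0, j1, j2, j3⟩ := half U W k0 k1 hu
    have t := T (y ^ 2) (y ^ 6) (y ^ 6) 1 _ (u / 2) _ 0 E U.HJ (by positivity) EX (by positivity)
      EX zero_le_one U.jl (by
        refine le_of_pow_le_pow_left₀ two_ne_zero (by positivity) ?_
        refine le_of_mul_le_mul_left ?_ (pow_pos (pow_pos y0 2) 3)
        exact (U.w3 _ le_rfl yC).trans_eq (by ring)) U.Ey (by
        rw [U.cl_eq le_rfl yC]
        nlinarith [pow_pos y0 6])
      (fun t a b => (min_le_right _ _).trans ((U.x2b t a b).trans X8))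
      U.sd.u0p U.rev (by linarith [W.ue])
      ((mul_le_mul_of_nonneg_left (by linarith [uy U W]) (by linarith)).trans EX)
      (by rw [U.flat _ c.i3 le_rfl, sub_self]) (by simp) le_rfl U.En (far U W ρ1) (np U W ρ1)
      (apr U W hm hΦ) k k0 k1 (by linarith) j j0 j1 j2
    have b := (min_le_left _ (S.F * (M.H j - M.H S.J) / S.θ)).trans (clk U W (k0.trans j0) j1 j3)
    have e := mul_le_mul p2 (ap_le U W ρ1 k0 (show u / 2 ≤ L69.du M k by linarith))
      (by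
        have N := nd U W k0 (show u / 2 ≤ L69.du M k by linarith)
        have := U.w0 one_pos
        have := N.den0
        have := N.d0
        have := N.L0
        have := R0 U W (k := k)
        unfold ap; positivity) (by linarith)
    have d : 1 / √(S.n : ℝ) ≤ V := by
      have n0 : (0 : ℝ) < S.n := c.N0
      rw [div_le_iff₀ (sqrt_pos.2 n0), ← div_le_iff₀' U.V0]
      exact le_sqrt_of_sq_le (by
        rw [div_pow, one_pow, div_le_iff₀ (pow_pos U.V0 2)]; exact U.nV)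
    rw [sqrt_sq (by positivity)] at t
    refine t.trans ?_
    rw [show 10 * S.C * (Λ * E * Lg) * ρ = Λ * (10 * S.C * (E * Lg * ρ)) by ring]
    refine mul_le_mul_of_nonneg_left ?_ (by linarith)
    have z1 := mul_le_mul_of_nonneg_right p1 p0.le
    have z2 := mul_le_mul_of_nonneg_right p3 (show 0 ≤ S.C * ρ by positivity)
    have z3 := mul_le_mul_of_nonneg_right C4 (show 0 ≤ E * Lg * ρ by positivity)
    linarith [U.VB, W.y]

end Crest.Agent.T156.Alt.Vt18

end
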