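import Crest.Agent.T156.Nu_87

/-!
# Row 156: weights of labels and clusters (helper90)

The law `avm` of the split matrix gives weight at most `C ∏ dm v` to a finite set of labels, and
every further cluster above a cut costs a factor `ex L i`.
-/

set_option autoImplicit false
set_option linter.unusedSectionVars false

noncomputable section

namespace Crest.Agent.T156.Cas.W90

open MeasureTheory Real Set Filter Topology
open Crest.Agent.T157.E Crest.Agent.T157.Casc Crest.Agent.T157.SL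
open Wt87 Nu87 Classical

variable {Ω : Type} {r K : ℕ}

/-- `v` is the split level of two different replicas -/
def Lab (σ : SM r) (v : ℕ) : Prop := ∃ a b, a ≠ b ∧ σ a b = v

/-- at least `V` clusters above the cut `i` -/
def Cl (σ : SM r) (i V : ℕ) : Prop :=
  ∃ A : Finset (Fin r), V ≤ A.card ∧ ∀ b ∈ A, ∀ c ∈ A, b ≠ c → σ b c ≤ i

theorem Cl.mono {σ : SM r} {i i' V V' : ℕ} (h : Cl σ i V) (hi : i ≤ i') (hV : V' ≤ V) :
    Cl σ i' V' :=
  let ⟨A, h1, h2⟩ := h
  ⟨A, hV.trans h1, fun b hb c hc e => (h2 b hb c hc e).trans hi⟩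

theorem cl_zero (σ : SM r) (i : ℕ) : Cl σ i 0 := ⟨∅, le_rfl, by simp⟩

theorem cl_two {σ : SM r} (h : Rz K σ) {i : ℕ} {a b : Fin r} (hab : a ≠ b) (e : σ a b ≤ i) :
    Cl σ i 2 :=
  ⟨{a, b}, (Finset.card_pair hab).ge, by
    simp only [Finset.mem_insert, Finset.mem_singleton]
    rintro x (rfl | rfl) y (rfl | rfl) hxy
    exacts [absurd rfl hxy, e, h.comm _ _ ▸ e, absurd rfl hxy]⟩

theorem cl_three {σ : SM r} (h : Rz K σ) {i : ℕ} {a b c : Fin r} (hab : a ≠ b) (hac : a ≠ c)
    (hbc : b ≠ c) (e1 : σ a b ≤ i) (e2 : σ a c ≤ i) (e3 : σ b c ≤ i) : Cl σ i 3 :=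
  ⟨{a, b, c}, (Finset.card_eq_three.2 ⟨a, b, c, hab, hac, hbc, rfl⟩).ge, by
    simp only [Finset.mem_insert, Finset.mem_singleton]
    rintro x (rfl | rfl | rfl) y (rfl | rfl | rfl) hxy
    exacts [absurd rfl hxy, e1, e2, h.comm _ _ ▸ e1, absurd rfl hxy, e3, h.comm _ _ ▸ e2,
      h.comm _ _ ▸ e3, absurd rfl hxy]⟩

theorem lab_gr {σ : SM r} (h : Rz K σ) (a : Fin r) {j v : ℕ} (hj : j ≤ K)
    (H : Lab (gr K σ a j) v) : v = j ∨ Lab σ v := by
  have key : ∀ b, min j (σ b a) = v → v = j ∨ Lab σ v := fun b e => by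
    by_cases hv : v = j
    · exact .inl hv
    · refine .inr ⟨b, a, fun hb => ?_, by omega⟩
      rw [hb, h.self] at e
      omega
  obtain ⟨b, c, hbc, e⟩ := H
  revert hbc e
  refine Fin.cases ?_ (fun b => ?_) b <;> refine Fin.cases ?_ (fun c => ?_) c <;> intro hbc e
  · exact absurd rfl hbc
  · exact key c e
  · exact key b e
  · exact .inr ⟨b, c, fun h' => hbc (congrArg _ h'), e⟩

theorem cl_gr {σ : SM r} (h : Rz K σ) (a : Fin r) {j i V : ℕ} (hj : j ≤ K)
    (H : Cl (gr K σ a j) i V) : Cl σ i (V - 1) ∧ (i < j → Cl σ i V) := by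
  obtain ⟨A, hA, H⟩ := H
  set B : Finset (Fin r) := Finset.univ.filter fun b => b.succ ∈ A with hB
  have hs : ∀ b ∈ B, ∀ c ∈ B, b ≠ c → σ b c ≤ i := fun b hb c hc e =>
    H _ (Finset.mem_filter.1 hb).2 _ (Finset.mem_filter.1 hc).2 fun h' => e (Fin.succ_injective _ h')
  have hc : A.card = B.card + if (0 : Fin (r + 1)) ∈ A then 1 else 0 := by
    have := Fin.sum_univ_succ fun b => if b ∈ A then 1 else 0
    rw [hB, Finset.card_filter, add_comm (∑ _, _), ← this]
    simp
  refine ⟨⟨B, by split_ifs at hc <;> omega, hs⟩, fun hij => ?_⟩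
  by_cases h0 : (0 : Fin (r + 1)) ∈ A
  · have h1 : ∀ b ∈ B, σ b a ≤ i := fun b hb => by
      have := H _ h0 _ (Finset.mem_filter.1 hb).2 (Fin.succ_ne_zero b).symm
      rw [gr_0s] at this
      omega
    have ha : a ∉ B := fun hb => by
      have := h1 a hb
      rw [h.self] at this
      omega
    refine ⟨insert a B, by rw [Finset.card_insert_of_notMem ha]; rw [if_pos h0] at hc; omega, ?_⟩
    intro b hb c hc' e
    rcases Finset.mem_insert.1 hb with e1 | e1 <;> rcases Finset.mem_insert.1 hc' with e2 | e2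
    exacts [absurd (e1.trans e2.symm) e, e1 ▸ h.comm _ _ ▸ h1 c e2, e2 ▸ h1 b e1, hs b e1 c e2 e]
  · exact ⟨B, by rw [if_neg h0] at hc; omega, hs⟩

theorem ex_le_one {L : List (Lv Ω)} (hL : Mono 0 L) (j : ℕ) : ex L j ≤ 1 := by
  have h1 := sum_dm L 0 j
  have h2 := sum_dm L 0 (max j L.length)
  have h3 : ex L (max j L.length) = 1 := by
    simp [ex]
  rw [sub_zero] at h1 h2
  rw [← h1, ← h3, ← h2]
  exact Finset.sum_le_sum_of_subset_of_nonneg
    (Finset.range_subset_range.2 (Nat.succ_le_succ (le_max_left _ _))) fun i _ _ => dm_nonneg hL i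

/-- the weight of a new label -/
theorem Ws_new {L : List (Lv Ω)} (hL : Mono 0 L) {σ : SM r} (h : Rz L.length σ) {v : ℕ}
    (hv : ¬Lab σ v) : Ws L σ (fun _ j => if j = v then 1 else 0) ≤ r * dm L 0 v := by
  have h1 : Ws L σ (fun _ j => if j = v then 1 else 0) ≤
      Ws L σ fun a j => ∑ b, if min j (σ b a) = v then 1 else 0 := by
    refine Ws_mono hL h (fun _ _ _ _ => rfl) (fun a c j e => Finset.sum_congr rfl fun b _ => ?_)
      fun a j hj => ?_
    · have h1 := h.ultra b a c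
      have h2 := h.ultra b c a
      rw [h.comm c a] at h2
      rw [show min j (σ b a) = min j (σ b c) by omega]
    · refine le_trans (le_of_eq ?_) (Finset.single_le_sum
        (f := fun b => if min j (σ b a) = v then (1 : ℝ) else 0)
        (fun b _ => by split_ifs <;> norm_num) (Finset.mem_univ a))
      rw [h.self, min_eq_left hj]
  refine h1.trans ?_
  rw [Ws_fsum]
  refine (Finset.sum_le_card_nsmul _ _ (dm L 0 v) fun b _ => ?_).trans (by simp)
  rw [Ws_gg L h b fun j => if j = v then 1 else 0,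
    Finset.sum_eq_zero (s := Finset.univ.erase b) fun c hc =>
      if_neg fun e => hv ⟨b, c, (Finset.ne_of_mem_erase hc).symm, e⟩, add_zero]
  simp only [mul_ite, mul_one, mul_zero, Finset.sum_ite_eq']
  split_ifs
  exacts [le_rfl, dm_nonneg hL v]

/-- indicator of: all of `J` are labels, at least `V` clusters above `i` -/
def ind (i : ℕ) (J : Finset ℕ) (V : ℕ) (σ : SM r) : ℝ :=
  if (∀ v ∈ J, Lab σ v) ∧ Cl σ i V then 1 else 0

theorem ind_nonneg (i : ℕ) (J : Finset ℕ) (V : ℕ) (σ : SM r) : 0 ≤ ind i J V σ := by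
  unfold ind
  split_ifs <;> norm_num

theorem ind_gr {σ : SM r} (h : Rz K σ) (i : ℕ) (J : Finset ℕ) (V : ℕ) (a : Fin r) {j : ℕ}
    (hj : j ≤ K) : ind i J V (gr K σ a j) ≤ ind i J V σ * 1 +
      ind i J (V - 1) σ * (if j ≤ i then 1 else 0) +
      ∑ v ∈ J, (if Lab σ v then 0 else ind i (J.erase v) (if v ≤ i then V - 1 else V) σ) *
        if j = v then 1 else 0 := by
  have n1 := ind_nonneg i J V σ
  have n2 : 0 ≤ ind i J (V - 1) σ * (if j ≤ i then 1 else 0) :=
    mul_nonneg (ind_nonneg _ _ _ _) (by split_ifs <;> norm_num)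
  have n3 : ∀ v ∈ J, 0 ≤ (if Lab σ v then 0 else
      ind i (J.erase v) (if v ≤ i then V - 1 else V) σ) * if j = v then (1 : ℝ) else 0 :=
    fun v _ => mul_nonneg (by split_ifs <;> first | exact le_rfl | exact ind_nonneg _ _ _ _)
      (by split_ifs <;> norm_num)
  have n4 := Finset.sum_nonneg n3
  by_cases H : (∀ v ∈ J, Lab (gr K σ a j) v) ∧ Cl (gr K σ a j) i V
  swap
  · rw [ind, if_neg H]
    linarith
  rw [ind, if_pos H]
  obtain ⟨c1, c2⟩ := cl_gr h a hj H.2
  by_cases hJ : ∀ v ∈ J, Lab σ v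
  · by_cases hi : j ≤ i
    · rw [if_pos hi, ind.eq_1 i J (V - 1), if_pos ⟨hJ, c1⟩]
      linarith
    · rw [ind.eq_1 i J V, if_pos ⟨hJ, c2 (not_le.1 hi)⟩]
      linarith
  · push Not at hJ
    obtain ⟨v, hv, hl⟩ := hJ
    obtain rfl : v = j := (lab_gr h a hj (H.1 v hv)).resolve_right hl
    have := Finset.single_le_sum n3 hv
    rw [if_neg hl, if_pos rfl, ind, if_pos ⟨fun u hu => (lab_gr h a hj
      (H.1 u (Finset.mem_of_mem_erase hu))).resolve_left (Finset.ne_of_mem_erase hu), by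
        split_ifs with hi
        exacts [c1, c2 (not_le.1 hi)]⟩] at this
    linarith

/-- **lemma W**: labels cost `dm`, further clusters cost `ex L i` -/
theorem avm_ind {L : List (Lv Ω)} (hL : Mono 0 L) (i : ℕ) : ∀ (r : ℕ) (J : Finset ℕ) (V : ℕ),
    avm L r (ind i J V) ≤ (2 + J.card : ℝ) ^ r * ex L i ^ (V - 1 - (J.filter (· ≤ i)).card) *
      ∏ v ∈ J, dm L 0 v
  | 0, J, V => by
      rw [avm, ind]
      split_ifs with H
      · obtain rfl : J = ∅ := Finset.eq_empty_of_forall_notMem fun v hv =>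
          let ⟨a, b, e, _⟩ := H.1 v hv
          e (Subsingleton.elim (α := Fin 1) a b)
        obtain ⟨A, hA, _⟩ := H.2
        have : A.card ≤ 1 := (Finset.card_le_univ A).trans (by simp)
        rw [show V - 1 - _ = 0 by omega]
        simp
      · exact mul_nonneg (mul_nonneg (by positivity) (pow_nonneg (ex_nonneg hL i) _))
          (Finset.prod_nonneg fun v _ => dm_nonneg hL v)
  | r + 1, J, V => by
      have e0 := ex_nonneg hL i
      have e1 := ex_le_one hL i
      have hP : 0 ≤ ∏ v ∈ J, dm L 0 v := Finset.prod_nonneg fun v _ => dm_nonneg hL v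
      have h1 : avm L (r + 1) (ind i J V) ≤ avm L r fun σ => ind i J V σ +
          ex L i * ind i J (V - 1) σ +
          ∑ v ∈ J, dm L 0 v * ind i (J.erase v) (if v ≤ i then V - 1 else V) σ := by
        refine avm_mono hL r fun σ hσ => ?_
        rw [div_le_iff₀ (by positivity)]
        refine (Ws_mono hL hσ (hσ.ncm (ind i J V)) (fun _ _ _ _ => rfl)
          fun a j hj => ind_gr hσ i J V a hj).trans ?_
        rw [Ws_add, Ws_add, Ws_fsum, Ws_mul, Ws_mul, Ws_const, add_mul, add_mul, Finset.sum_mul]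
        refine add_le_add (add_le_add (le_of_eq (by simp)) ?_) (Finset.sum_le_sum fun v _ => ?_)
        · have := mul_le_mul_of_nonneg_left (Ws_low hL σ i) (ind_nonneg i J (V - 1) σ)
          push_cast at this
          linarith
        · rw [Ws_mul]
          split_ifs with hl hi
          · rw [zero_mul]
            exact mul_nonneg (mul_nonneg (dm_nonneg hL v) (ind_nonneg _ _ _ _)) (by positivity)
          · rw [zero_mul]
            exact mul_nonneg (mul_nonneg (dm_nonneg hL v) (ind_nonneg _ _ _ _)) (by positivity)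
          all_goals
            refine (mul_le_mul_of_nonneg_left (Ws_new hL hσ hl) (ind_nonneg _ _ _ _)).trans
              (le_of_eq ?_)
            push_cast
            ring
      refine h1.trans ?_
      rw [avm_add, avm_add, avm_sum, avm_mul]
      set B := (2 + J.card : ℝ) ^ r * ex L i ^ (V - 1 - (J.filter (· ≤ i)).card) *
        ∏ v ∈ J, dm L 0 v with hB
      have b2 : ex L i * avm L r (ind i J (V - 1)) ≤ B := by
        refine (mul_le_mul_of_nonneg_left (avm_ind hL i r J (V - 1)) e0).trans ?_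
        rw [hB, ← mul_assoc, mul_left_comm, ← pow_succ']
        exact mul_le_mul_of_nonneg_right (mul_le_mul_of_nonneg_left
          (pow_le_pow_of_le_one e0 e1 (by omega)) (by positivity)) hP
      have b3 : ∀ v ∈ J, avm L r (fun σ => dm L 0 v *
          ind i (J.erase v) (if v ≤ i then V - 1 else V) σ) ≤ B := fun v hv => by
        rw [avm_mul]
        refine (mul_le_mul_of_nonneg_left (avm_ind hL i r _ _) (dm_nonneg hL v)).trans ?_
        rw [mul_left_comm, Finset.mul_prod_erase J (fun v => dm L 0 v) hv, hB]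
        refine mul_le_mul_of_nonneg_right (mul_le_mul (pow_le_pow_left₀ (by positivity) ?_ r)
          (le_of_eq ?_) (pow_nonneg e0 _) (by positivity)) hP
        · exact add_le_add le_rfl (by exact_mod_cast Finset.card_erase_le)
        · congr 1
          rw [Finset.filter_erase]
          split_ifs with hi
          · have hm : v ∈ J.filter (· ≤ i) := Finset.mem_filter.2 ⟨hv, hi⟩
            have := Finset.card_pos.2 ⟨v, hm⟩
            rw [Finset.card_erase_of_mem hm]
            omega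
          · have hm : v ∉ J.filter (· ≤ i) := fun hm => hi (Finset.mem_filter.1 hm).2
            rw [Finset.erase_eq_of_notMem hm]
      have b4 := Finset.sum_le_card_nsmul _ _ _ b3
      rw [nsmul_eq_mul] at b4
      have := avm_ind hL i r J V
      rw [pow_succ, mul_right_comm _ (2 + J.card : ℝ), mul_right_comm _ (2 + J.card : ℝ), ← hB]
      linarith

/-! ### marked edges -/

section edges
variable {κ : Type} [Fintype κ] [DecidableEq κ]

/-- the weight of a vector of labels: one factor `dm` per distinct label -/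
def Wl (L : List (Lv Ω)) (j : κ → ℕ) : ℝ := ∏ v ∈ Finset.univ.image j, dm L 0 v

/-- number of distinct labels below the cut -/
def lowc (j : κ → ℕ) (i : ℕ) : ℕ := ((Finset.univ.image j).filter (· ≤ i)).card

/-- all vectors of labels -/
def Lbs (κ : Type) [Fintype κ] [DecidableEq κ] (K : ℕ) : Finset (κ → ℕ) :=
  Fintype.piFinset fun _ => Finset.range (K + 1)

theorem Wl_nonneg {L : List (Lv Ω)} (hL : Mono 0 L) (j : κ → ℕ) : 0 ≤ Wl L j :=
  Finset.prod_nonneg fun v _ => dm_nonneg hL v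

theorem abs_avm_le {L : List (Lv Ω)} (hL : Mono 0 L) {φ ψ : SM (r + 1) → ℝ}
    (e : ∀ σ, Rz L.length σ → |φ σ| ≤ ψ σ) : |avm L r φ| ≤ avm L r ψ := by
  have h1 := avm_mono hL r fun σ hσ => (abs_le.1 (e σ hσ)).2
  have h2 := avm_mono hL r (φ := fun σ => -1 * ψ σ) (ψ := φ) fun σ hσ => by
    linarith [(abs_le.1 (e σ hσ)).1]
  rw [avm_mul] at h2
  exact abs_le.2 ⟨by linarith, h1⟩

/-- **lemma W for marked edges**; the cut `ι` and the number of clusters `V` may depend on the
labels of the edges -/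
theorem avm_edges {L : List (Lv Ω)} (hL : Mono 0 L) {p q : κ → Fin (r + 1)} (hpq : ∀ t, p t ≠ q t)
    (ι V : (κ → ℕ) → ℕ) {D : (κ → ℕ) → ℝ} (hD : ∀ j, 0 ≤ D j) {φ : SM (r + 1) → ℝ}
    (H : ∀ σ, Rz L.length σ → φ σ ≠ 0 → |φ σ| ≤ D (fun t => σ (p t) (q t)) ∧
      Cl σ (ι fun t => σ (p t) (q t)) (V fun t => σ (p t) (q t))) :
    |avm L r φ| ≤ (2 + Fintype.card κ : ℝ) ^ r * ∑ j ∈ Lbs κ L.length,
      ex L (ι j) ^ (V j - 1 - lowc j (ι j)) * Wl L j * D j := by
  refine (abs_avm_le hL (ψ := fun σ => ∑ j ∈ Lbs κ L.length,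
    D j * ind (ι j) (Finset.univ.image j) (V j) σ) fun σ hσ => ?_).trans ?_
  · have n : ∀ j ∈ Lbs κ L.length, 0 ≤ D j * ind (ι j) (Finset.univ.image j) (V j) σ :=
      fun j _ => mul_nonneg (hD j) (ind_nonneg _ _ _ _)
    by_cases h0 : φ σ = 0
    · rw [h0, abs_zero]
      exact Finset.sum_nonneg n
    obtain ⟨h1, h2⟩ := H σ hσ h0
    refine le_trans ?_ (Finset.single_le_sum n (a := fun t => σ (p t) (q t))
      (Fintype.mem_piFinset.2 fun t => Finset.mem_range.2 (Nat.lt_succ_of_le (hσ.le _ _))))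
    rwa [ind, if_pos ⟨fun v hv => by
      obtain ⟨t, _, rfl⟩ := Finset.mem_image.1 hv
      exact ⟨_, _, hpq t, rfl⟩, h2⟩, mul_one]
  · rw [avm_sum, Finset.mul_sum]
    refine Finset.sum_le_sum fun j _ => ?_
    rw [avm_mul, mul_comm, ← mul_assoc, ← mul_assoc]
    refine mul_le_mul_of_nonneg_right ((avm_ind hL _ r _ _).trans (mul_le_mul_of_nonneg_right
      (mul_le_mul_of_nonneg_right (pow_le_pow_left₀ (by positivity) (add_le_add le_rfl ?_) r)
        (pow_nonneg (ex_nonneg hL _) _)) (Wl_nonneg hL j))) (hD j)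
    exact_mod_cast Finset.card_image_le

/-- fixed cut `i`, all marked edges above the cut, `V` clusters: factor `ex L i ^ (V - 1)` -/
theorem avm_edges_up {L : List (Lv Ω)} (hL : Mono 0 L) {p q : κ → Fin (r + 1)}
    (hpq : ∀ t, p t ≠ q t) (i V : ℕ) {D : (κ → ℕ) → ℝ} (hD : ∀ j, 0 ≤ D j)
    {φ : SM (r + 1) → ℝ} (H : ∀ σ, Rz L.length σ → φ σ ≠ 0 →
      |φ σ| ≤ D (fun t => σ (p t) (q t)) ∧ Cl σ i V ∧ ∀ t, i < σ (p t) (q t)) :
    |avm L r φ| ≤ (2 + Fintype.card κ : ℝ) ^ r * ex L i ^ (V - 1) *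
      ∑ j ∈ Lbs κ L.length, Wl L j * D j := by
  refine (avm_edges hL hpq (fun _ => i) (fun _ => V)
    (D := fun j => if ∀ t, i < j t then D j else 0)
    (fun j => by split_ifs; exacts [hD j, le_rfl]) fun σ hσ h0 => ?_).trans ?_
  · obtain ⟨h1, h2, h3⟩ := H σ hσ h0
    exact ⟨by rwa [if_pos h3], h2⟩
  · rw [mul_assoc, Finset.mul_sum _ _ (ex L i ^ (V - 1))]
    refine mul_le_mul_of_nonneg_left (Finset.sum_le_sum fun j _ => ?_) (by positivity)
    split_ifs with h
    · rw [lowc, Finset.card_eq_zero.2 (Finset.filter_eq_empty_iff.2 fun v hv => by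
        obtain ⟨t, _, rfl⟩ := Finset.mem_image.1 hv
        exact not_le.2 (h t)), Nat.sub_zero, mul_assoc]
    · rw [mul_zero]
      exact mul_nonneg (pow_nonneg (ex_nonneg hL _) _) (mul_nonneg (Wl_nonneg hL j) (hD j))

/-- no gain -/
theorem avm_edges_zero {L : List (Lv Ω)} (hL : Mono 0 L) {p q : κ → Fin (r + 1)}
    (hpq : ∀ t, p t ≠ q t) {D : (κ → ℕ) → ℝ} (hD : ∀ j, 0 ≤ D j) {φ : SM (r + 1) → ℝ}
    (H : ∀ σ, Rz L.length σ → |φ σ| ≤ D fun t => σ (p t) (q t)) :
    |avm L r φ| ≤ (2 + Fintype.card κ : ℝ) ^ r * ∑ j ∈ Lbs κ L.length, Wl L j * D j := by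
  simpa using avm_edges hL hpq (fun _ => 0) (fun _ => 0) hD fun σ hσ _ => ⟨H σ hσ, cl_zero σ _⟩

/-- cut at a label `ι j` below all the labels (the lowest edge): three clusters gain `ex` -/
theorem avm_edges_min {L : List (Lv Ω)} (hL : Mono 0 L) {p q : κ → Fin (r + 1)}
    (hpq : ∀ t, p t ≠ q t) {ι : (κ → ℕ) → ℕ} (hι : ∀ j t, ι j ≤ j t) (V : ℕ)
    {D : (κ → ℕ) → ℝ} (hD : ∀ j, 0 ≤ D j) {φ : SM (r + 1) → ℝ}
    (H : ∀ σ, Rz L.length σ → φ σ ≠ 0 → |φ σ| ≤ D (fun t => σ (p t) (q t)) ∧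
      Cl σ (ι fun t => σ (p t) (q t)) V) :
    |avm L r φ| ≤ (2 + Fintype.card κ : ℝ) ^ r * ∑ j ∈ Lbs κ L.length,
      Wl L j * (ex L (ι j) ^ (V - 2) * D j) := by
  refine (avm_edges hL hpq ι (fun _ => V) hD H).trans
    (mul_le_mul_of_nonneg_left (Finset.sum_le_sum fun j _ => ?_) (by positivity))
  rw [← mul_assoc, mul_comm (Wl L j)]
  refine mul_le_mul_of_nonneg_right (mul_le_mul_of_nonneg_right
    (pow_le_pow_of_le_one (ex_nonneg hL _) (ex_le_one hL _) ?_) (Wl_nonneg hL j)) (hD j)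
  have : lowc j (ι j) ≤ 1 := Finset.card_le_one.2 fun a ha b hb => by
    obtain ⟨t, _, rfl⟩ := Finset.mem_image.1 (Finset.mem_filter.1 ha).1
    obtain ⟨u, _, rfl⟩ := Finset.mem_image.1 (Finset.mem_filter.1 hb).1
    have := (Finset.mem_filter.1 ha).2
    have := (Finset.mem_filter.1 hb).2
    have := hι j t
    have := hι j u
    omega
  omega

end edges

/-! ### sums over the labels: set partitions -/

/-- the integral over the labels -/
def I1 (L : List (Lv Ω)) (N : ℕ → ℝ) : ℝ := ∑ v ∈ Finset.range (L.length + 1), dm L 0 v * N v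

theorem I1_nonneg {L : List (Lv Ω)} (hL : Mono 0 L) {N : ℕ → ℝ} (h : ∀ v, 0 ≤ N v) : 0 ≤ I1 L N :=
  Finset.sum_nonneg fun v _ => mul_nonneg (dm_nonneg hL v) (h v)

theorem I1_mono {L : List (Lv Ω)} (hL : Mono 0 L) {N N' : ℕ → ℝ}
    (h : ∀ v ≤ L.length, N v ≤ N' v) : I1 L N ≤ I1 L N' :=
  Finset.sum_le_sum fun v hv => mul_le_mul_of_nonneg_left
    (h v (Nat.lt_succ_iff.1 (Finset.mem_range.1 hv))) (dm_nonneg hL v)

theorem sum_Lbs_succ (K k : ℕ) (G : (Fin (k + 1) → ℕ) → ℝ) :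
    ∑ j ∈ Lbs (Fin (k + 1)) K, G j =
      ∑ j ∈ Lbs (Fin k) K, ∑ v ∈ Finset.range (K + 1), G (Fin.cons v j) := by
  rw [← Finset.sum_product' (f := fun j v => G (Fin.cons v j))]
  refine Finset.sum_bij' (fun j _ => (Fin.tail j, j 0)) (fun z _ => Fin.cons z.2 z.1) ?_ ?_ ?_ ?_ ?_
  · intro j hj
    have := Fintype.mem_piFinset.1 hj
    exact Finset.mem_product.2 ⟨Fintype.mem_piFinset.2 fun t => this _, this 0⟩
  · intro z hz
    obtain ⟨h1, h2⟩ := Finset.mem_product.1 hz
    exact Fintype.mem_piFinset.2 fun t => Fin.cases h2 (Fintype.mem_piFinset.1 h1) t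
  · intro j _
    exact Fin.cons_self_tail j
  · intro z _
    simp
  · intro j _
    simp

/-- adding one edge: a new label, or the label of an old edge -/
theorem sum_Wl_succ {L : List (Lv Ω)} (hL : Mono 0 L) {k : ℕ} {D : (Fin (k + 1) → ℕ) → ℝ}
    (hD : ∀ j, 0 ≤ D j) : ∑ j ∈ Lbs (Fin (k + 1)) L.length, Wl L j * D j ≤
      ∑ j ∈ Lbs (Fin k) L.length, Wl L j *
        (I1 L (fun v => D (Fin.cons v j)) + ∑ t, D (Fin.cons (j t) j)) := by
  rw [sum_Lbs_succ]
  refine Finset.sum_le_sum fun j hj => ?_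
  have e : ∀ v, Wl L (Fin.cons v j : Fin (k + 1) → ℕ) ≤
      Wl L j * (dm L 0 v + ∑ t, if v = j t then 1 else 0) := fun v => by
    have h1 : Finset.univ.image (Fin.cons v j : Fin (k + 1) → ℕ) =
        insert v (Finset.univ.image j) := by
      ext u
      simp [Fin.exists_fin_succ, eq_comm]
    have h2 : (0 : ℝ) ≤ ∑ t, if v = j t then 1 else 0 :=
      Finset.sum_nonneg fun t _ => by split_ifs <;> norm_num
    rw [Wl, h1]
    by_cases hv : v ∈ Finset.univ.image j
    · obtain ⟨t, _, rfl⟩ := Finset.mem_image.1 hv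
      have h3 := Finset.single_le_sum (f := fun u => if j t = j u then (1 : ℝ) else 0)
        (fun u _ => by split_ifs <;> norm_num) (Finset.mem_univ t)
      rw [if_pos rfl] at h3
      rw [Finset.insert_eq_of_mem hv]
      exact le_mul_of_one_le_right (Wl_nonneg hL j) (by linarith [dm_nonneg hL (j t)])
    · rw [Finset.prod_insert hv, mul_comm]
      exact mul_le_mul_of_nonneg_left (le_add_of_nonneg_right h2) (Wl_nonneg hL j)
  refine (Finset.sum_le_sum fun v _ => mul_le_mul_of_nonneg_right (e v) (hD _)).trans (le_of_eq ?_)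
  simp only [mul_assoc, ← Finset.mul_sum, add_mul, Finset.sum_add_distrib, Finset.sum_mul, I1]
  congr 2
  rw [Finset.sum_comm]
  refine Finset.sum_congr rfl fun t _ => ?_
  simp only [ite_mul, one_mul, zero_mul, Finset.sum_ite_eq']
  exact if_pos (Fintype.mem_piFinset.1 hj t)

theorem sum_Wl_zero (L : List (Lv Ω)) (D : (Fin 0 → ℕ) → ℝ) :
    ∑ j ∈ Lbs (Fin 0) L.length, Wl L j * D j = D Fin.elim0 := by
  simpa [Lbs, Wl] using congrArg D (Subsingleton.elim _ _)

theorem sum_Wl_one {L : List (Lv Ω)} (hL : Mono 0 L) {D : (Fin 1 → ℕ) → ℝ} (hD : ∀ j, 0 ≤ D j) :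
    ∑ j ∈ Lbs (Fin 1) L.length, Wl L j * D j ≤ I1 L fun v => D ![v] := by
  refine (sum_Wl_succ hL hD).trans (le_of_eq ?_)
  rw [sum_Wl_zero]
  simp only [Finset.univ_eq_empty, Finset.sum_empty, add_zero]
  rfl

theorem sum_Wl_two {L : List (Lv Ω)} (hL : Mono 0 L) {D : (Fin 2 → ℕ) → ℝ} (hD : ∀ j, 0 ≤ D j) :
    ∑ j ∈ Lbs (Fin 2) L.length, Wl L j * D j ≤
      I1 L fun v => I1 L (fun u => D ![u, v]) + D ![v, v] := by
  refine (sum_Wl_succ hL hD).trans ((sum_Wl_one hL fun j => add_nonneg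
    (I1_nonneg hL fun v => hD _) (Finset.sum_nonneg fun t _ => hD _)).trans (le_of_eq ?_))
  simp only [Fin.sum_univ_one]
  rfl

theorem sum_Wl_three {L : List (Lv Ω)} (hL : Mono 0 L) {D : (Fin 3 → ℕ) → ℝ} (hD : ∀ j, 0 ≤ D j) :
    ∑ j ∈ Lbs (Fin 3) L.length, Wl L j * D j ≤
      I1 L fun v => I1 L (fun u => I1 L (fun y => D ![y, u, v]) + (D ![u, u, v] + D ![v, u, v])) +
        (I1 L (fun y => D ![y, v, v]) + (D ![v, v, v] + D ![v, v, v])) := by
  refine (sum_Wl_succ hL hD).trans ((sum_Wl_two hL fun j => add_nonneg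
    (I1_nonneg hL fun v => hD _) (Finset.sum_nonneg fun t _ => hD _)).trans (le_of_eq ?_))
  simp only [Fin.sum_univ_two]
  rfl

/-- the sum over the set partitions of `k` edges (with multiplicities) -/
def Pb (L : List (Lv Ω)) : (k : ℕ) → (Fin k → ℕ → ℝ) → ℝ
  | 0, _ => 1
  | k + 1, N => I1 L (N 0) * Pb L k (Fin.tail N) +
      ∑ t, Pb L k (Function.update (Fin.tail N) t fun v => N 0 v * N t.succ v)

theorem sum_Wl_prod {L : List (Lv Ω)} (hL : Mono 0 L) : ∀ (k : ℕ) (N : Fin k → ℕ → ℝ),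
    (∀ t v, 0 ≤ N t v) → ∑ j ∈ Lbs (Fin k) L.length, Wl L j * ∏ t, N t (j t) ≤ Pb L k N
  | 0, N, _ => by rw [sum_Wl_zero]; simp [Pb]
  | k + 1, N, hN => by
      refine (sum_Wl_succ hL fun j => Finset.prod_nonneg fun t _ => hN t _).trans ?_
      simp only [mul_add, Finset.sum_add_distrib, Finset.mul_sum, Fin.prod_univ_succ, Fin.cons_zero,
        Fin.cons_succ]
      rw [Pb, Finset.sum_comm]
      refine add_le_add (le_trans (le_of_eq ?_) (mul_le_mul_of_nonneg_left
        (sum_Wl_prod hL k _ fun t => hN t.succ) (I1_nonneg hL (hN 0))))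
        (Finset.sum_le_sum fun t _ => le_trans (le_of_eq ?_) (sum_Wl_prod hL k _ fun u v => ?_))
      · rw [Finset.mul_sum]
        refine Finset.sum_congr rfl fun j _ => ?_
        simp only [I1, ← mul_assoc, ← Finset.sum_mul, Fin.tail]
        ring
      · refine Finset.sum_congr rfl fun j _ => ?_
        congr 1
        rw [← Finset.mul_prod_erase _ _ (Finset.mem_univ t),
          ← Finset.mul_prod_erase _ _ (Finset.mem_univ t), Function.update_self, mul_assoc]
        congr 2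
        exact Finset.prod_congr rfl fun u hu => by
          rw [Function.update_of_ne (Finset.ne_of_mem_erase hu)]
          rfl
      · by_cases e : u = t
        · rw [e, Function.update_self]
          exact mul_nonneg (hN _ _) (hN _ _)
        · rw [Function.update_of_ne e]
          exact hN _ _

theorem Pb_one (L : List (Lv Ω)) (N : Fin 1 → ℕ → ℝ) : Pb L 1 N = I1 L (N 0) := by simp [Pb]

theorem Pb_two (L : List (Lv Ω)) (N : Fin 2 → ℕ → ℝ) :
    Pb L 2 N = I1 L (N 0) * I1 L (N 1) + I1 L fun v => N 0 v * N 1 v := by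
  simp [Pb, Fin.tail]

theorem Pb_three (L : List (Lv Ω)) (N : Fin 3 → ℕ → ℝ) :
    Pb L 3 N = I1 L (N 0) * I1 L (N 1) * I1 L (N 2) + I1 L (N 0) * I1 L (fun v => N 1 v * N 2 v) +
      I1 L (N 1) * I1 L (fun v => N 0 v * N 2 v) + I1 L (N 2) * I1 L (fun v => N 0 v * N 1 v) +
      2 * I1 L fun v => N 0 v * N 1 v * N 2 v := by
  rw [Pb, Fin.sum_univ_two, Pb_two, Pb_two, Pb_two]
  simp only [Fin.tail, Function.update_self, Function.update_of_ne (show (1 : Fin 2) ≠ 0 by decide),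
    Function.update_of_ne (show (0 : Fin 2) ≠ 1 by decide), Fin.succ_zero_eq_one,
    Fin.succ_one_eq_two, mul_left_comm (N 1 _) (N 0 _), mul_assoc (N 0 _)]
  ring

end Crest.Agent.T156.Cas.W90
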