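import Crest.Agent.T156.WfA_99
import Crest.Agent.T156.CavR_22
import Crest.Agent.T156.SclT_90

/-!
# Row 156 (helper99): one edge in weak form, tree laws

`sg_wf`: the signed graft sum of `c τ · E (F · K)` is bounded by the pointwise size of the kernel at
the old branching levels and by the `L²` norms of its `dm`-weighted partial sums along one path.
-/

set_option autoImplicit false
set_option linter.unusedSectionVars false

noncomputable section

namespace Crest.Agent.T156.Cas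

open MeasureTheory Real Set Filter Topology
open Crest.Agent.T157.E Crest.Agent.T157.Casc Crest.Agent.T157.SL

namespace Wf99

open Wt87

variable {Ω Θ : Type} [Fintype Ω] {w : Ω → ℝ}

/-- Cauchy–Schwarz for tree expectations -/
theorem tX_cs (hw : Wt w) (s : Sh) (L : List (Lv Ω)) (h : Ω → ℝ)
    {F G : (NT s L → ℝ) → (s.Lf → Ω) → ℝ} (hF : ∀ x, Eg fun g => F g x)
    (hG : ∀ x, Eg fun g => G g x) {A B : ℝ} (hA : 0 ≤ A) (hB : 0 ≤ B)
    (HA : tX w s L h (fun g x => F g x ^ 2) ≤ A ^ 2)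
    (HB : tX w s L h (fun g x => G g x ^ 2) ≤ B ^ 2) :
    |tX w s L h fun g x => F g x * G g x| ≤ A * B := by
  have f2 : ∀ x, Eg fun g => F g x ^ 2 := fun x => by simpa only [sq] using (hF x).mul (hF x)
  have g2 : ∀ x, Eg fun g => G g x ^ 2 := fun x => by simpa only [sq] using (hG x).mul (hG x)
  have fg := fun x => (hF x).mul (hG x)
  have key : ∀ t : ℝ, 0 ≤ A ^ 2 * (t * t) + 2 * (tX w s L h fun g x => F g x * G g x) * t +
      B ^ 2 := fun t => by
    have h1 := Sd.tX_nonneg hw s L h (F := fun g x => (t * t) * F g x ^ 2 +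
      ((2 * t) * (F g x * G g x) + G g x ^ 2)) fun g x => by nlinarith [sq_nonneg (t * F g x + G g x)]
    rw [Sd.tX_add hw s L h (fun x => (f2 x).const_mul _)
      fun x => ((fg x).const_mul _).add (g2 x), Sd.tX_add hw s L h (fun x => (fg x).const_mul _) g2,
      Sd.tX_const_mul, Sd.tX_const_mul] at h1
    nlinarith [mul_le_mul_of_nonneg_left HA (mul_self_nonneg t)]
  have := discrim_le_zero key
  rw [discrim] at this
  exact abs_le_of_sq_le_sq' (by nlinarith) (mul_nonneg hA hB) |> abs_le.2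

/-- Hölder for tree expectations of functions of the leaves -/
theorem TE_holder (hw : Wt w) (s : Sh) (L : List (Lv Ω)) (h : Ω → ℝ) {p q : ℝ}
    (hpq : p.HolderConjugate q) (F G : (s.Lf → Ω) → ℝ) :
    |TE w s L h fun x => F x * G x| ≤ TE w s L h (fun x => |F x| ^ p) ^ (1 / p) *
      TE w s L h (fun x => |G x| ^ q) ^ (1 / q) := by
  refine (Law.abs_TE_le hw s L h _).trans ?_
  have h0 := Law.PT_nonneg hw s L h
  have h1 := Real.inner_le_Lp_mul_Lq Finset.univ (fun x => PT w s L h x ^ (1 / p) * |F x|)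
    (fun x => PT w s L h x ^ (1 / q) * |G x|) hpq
  have e : ∀ {r : ℝ}, 0 < r → ∀ (F : (s.Lf → Ω) → ℝ) x,
      |PT w s L h x ^ (1 / r) * (|F x|)| ^ r = PT w s L h x * |F x| ^ r := fun {r} hr F x => by
    have h2 : 0 ≤ PT w s L h x ^ (1 / r) := rpow_nonneg (h0 x) _
    rw [abs_of_nonneg (mul_nonneg h2 (abs_nonneg _)), mul_rpow h2 (abs_nonneg _),
      ← rpow_mul (h0 x), one_div_mul_cancel hr.ne', rpow_one]
  simp only [e hpq.pos, e hpq.symm.pos] at h1
  simp only [Law.TE_eq hw]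
  refine le_of_eq_of_le (Finset.sum_congr rfl fun x _ => ?_) h1
  rw [mul_mul_mul_comm, ← rpow_add' (h0 x) (by rw [hpq.one_div_add_one_div]; simp),
    hpq.one_div_add_one_div, abs_mul]
  simp

/-- one term, pointwise -/
theorem abs_ev_le (hw : Wt w) {s : Sh} {L : List (Lv Ω)} {τ : GT s} (H : τ.Mem s L.length)
    (h : Ω → ℝ) {p q : ℝ} (hpq : p.HolderConjugate q) (K : ℕ → Ω → Ω → ℝ)
    (F : (s.Lf → Ω) → ℝ) : |TE w τ.sh L h (τ.ev K F)| ≤
      TE w s L h (fun x => |F x| ^ p) ^ (1 / p) *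
        pi2 w L τ.j (fun x y => |K τ.j x y| ^ q) h ^ (1 / q) := by
  refine (TE_holder hw τ.sh L h hpq _ _).trans (le_of_eq ?_)
  rw [H.TE_e hw L h fun x => |F x| ^ p, H.TE_pair hw h fun x y => |K τ.j x y| ^ q]

theorem g1_eq (hw : Wt w) (s : Sh) (a : s.Lf) (j : ℕ) (b : s.Lf) (L : List (Lv Ω)) (h : Ω → ℝ)
    (K : ℕ → Ω → Ω → ℝ) (F : (s.Lf → Ω) → ℝ) :
    TE w (GT.g1 s a j b).sh L h ((GT.g1 s a j b).ev K F) = tX w s L h fun g x =>
      F x * Pf w (L.drop j) (stT s L h g a j) (K (s.shr b a j) (x b)) := by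
  refine (graft_leaf hw s a j L h fun x y => F x * K (s.shr b a j) (x b) y).trans ?_
  simp only [Pf, Finset.mul_sum, mul_left_comm]

theorem g2_eq (hw : Wt w) (s : Sh) (a : s.Lf) (j : ℕ) (b : s.Lf) (k : ℕ) (L : List (Lv Ω))
    (h : Ω → ℝ) (K : ℕ → Ω → Ω → ℝ) (F : (s.Lf → Ω) → ℝ) :
    TE w (GT.g2 s a j b k).sh L h ((GT.g2 s a j b k).ev K F) = tX w s L h fun g x =>
      F x * ∑ y, ∑ y', P w (L.drop j) (stT s L h g a j) y * P w (L.drop k) (stT s L h g b k) y' *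
        K (s.shr a b (min j k)) y y' := by
  refine (graft_leaf hw (s.graft b k) (s.emb b k a) j L h fun x y =>
    F (fun c => x (s.emb b k c)) * K (s.shr a b (min j k)) y (x (s.nw b k))).trans ?_
  refine (tX_graft hw s b k L h (fun p x y' => ∑ y, P w (L.drop j) (p a j) y *
    (F x * K (s.shr a b (min j k)) y y')) fun x y' =>
      Gf.egP_new hw (F := fun _ y => F x * K (s.shr a b (min j k)) y y')
        (fun y => .const _) _ a j).trans ?_
  congr 1
  funext g x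
  simp only [Finset.mul_sum]
  rw [Finset.sum_comm]
  exact Finset.sum_congr rfl fun y _ => Finset.sum_congr rfl fun y' _ => by ring

theorem gq_eq (hw : Wt w) (s : Sh) (a : s.Lf) {j k : ℕ} (hk : k ≤ j) (L : List (Lv Ω))
    (h : Ω → ℝ) (K : ℕ → Ω → Ω → ℝ) (F : (s.Lf → Ω) → ℝ) :
    TE w (gq s a j k).sh L h ((gq s a j k).ev K F) = tX w s L h fun g x =>
      F x * ∑ y, ∑ y', P w (L.drop j) (stT s L h g a j) y * P w (L.drop k) (stT s L h g a k) y' *
        K k y y' := by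
  refine (graft_leaf hw (s.graft a j) (s.nw a j) k L h fun x y =>
    F (fun c => x (s.emb a j c)) * K k (x (s.nw a j)) y).trans ?_
  have e : ∀ g, stT (s.graft a j) L h g (s.nw a j) k = stT (s.graft a j) L h g (s.emb a j a) k :=
    fun g => stT_of_shr _ L h g _ _ k (by rw [shr_nw', shr_self, min_eq_right hk])
  simp only [e]
  refine (tX_graft hw s a j L h (fun p x y => ∑ y', P w (L.drop k) (p a k) y' *
    (F x * K k y y')) fun x y => Gf.egP_new hw (F := fun _ y' => F x * K k y y')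
      (fun y => .const _) _ a k).trans ?_
  congr 1
  funext g x
  simp only [Finset.mul_sum]
  exact Finset.sum_congr rfl fun y _ => Finset.sum_congr rfl fun y' _ => by ring

/-- tree expectations of a symmetric kernel are invariant -/
theorem inv_TE (hw : Wt w) (s : Sh) (L : List (Lv Ω)) (h : Ω → ℝ) {K : ℕ → Ω → Ω → ℝ}
    (hK : ∀ j x y, K j x y = K j y x) (F : (s.Lf → Ω) → ℝ) (n : ℕ) :
    Inv n fun τ : GT s => TE w τ.sh L h (τ.ev K F) := by
  refine ⟨fun a j b _ e => ?_, fun a j b _ => ?_, fun a j b k hk _ e => ?_,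
    fun a j b k _ _ => ?_, fun a b j _ e => ?_⟩
  · rw [g1_eq hw, g1_eq hw, e, shr_self]
    simp only [fun g => stT_of_shr s L h g b a j e]
  · refine congrArg (TE w (s.graft a j) L h) (funext fun x => ?_)
    show _ * K (s.shr a b j) _ _ = _ * K (s.shr b a j) _ _
    rw [shr_comm s a b, hK]
    rfl
  · rw [g2_eq hw, gq_eq hw s a hk, min_eq_right hk, e]
    simp only [fun g => stT_of_shr s L h g a b k e]
  · rw [g2_eq hw, g2_eq hw, shr_comm s b a, min_comm k j]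
    congr 1
    funext g x
    rw [Finset.sum_comm]
    simp only [hK _ _ _, mul_comm (P w (L.drop j) _ _)]
  · rw [gq_eq hw s a le_rfl, gq_eq hw s b le_rfl]
    simp only [fun g => stT_of_shr s L h g a b j e]

/-- second moment of the partial sums of the kernel between a leaf and the nodes of its path -/
def G1 (w : Ω → ℝ) (L : List (Lv Ω)) (h : Ω → ℝ) (K : ℕ → Ω → Ω → ℝ) (m : ℕ) : ℝ :=
  pE w L h fun g x => (∑ j ∈ Finset.range m, dm L 0 j * Pf w (L.drop j) (st L j h g) (K j x)) ^ 2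

/-- second moment of the partial sums of the node values of the kernel along a path -/
def G2 (w : Ω → ℝ) (L : List (Lv Ω)) (h : Ω → ℝ) (K : ℕ → Ω → Ω → ℝ) (m : ℕ) : ℝ :=
  pE w L h fun g _ => (∑ j ∈ Finset.range m, dm L 0 j * qf (P w (L.drop j) (st L j h g)) (K j)) ^ 2

/-- a function of the leaves against a path functional of one leaf -/
theorem abs_path_le (hw : Wt w) (s : Sh) (a : s.Lf) (L : List (Lv Ω)) (h : Ω → ℝ)
    (F : (s.Lf → Ω) → ℝ) (J : Finset ℕ) (c : ℕ → ℝ) {Y : ℕ → Ω → (Ω → ℝ) → ℝ}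
    (hY : ∀ j x, Eg (Y j x)) {A Γ : ℝ} (hA : 0 ≤ A) (hΓ : 0 ≤ Γ)
    (HA : TE w s L h (fun x => F x ^ 2) ≤ A ^ 2)
    (HΓ : pE w L h (fun g x => (∑ j ∈ J, c j * Y j x (st L j h g)) ^ 2) ≤ Γ ^ 2) :
    |∑ j ∈ J, c j * tX w s L h fun g x => F x * Y j (x a) (stT s L h g a j)| ≤ A * Γ := by
  have e1 : ∀ j x, Eg fun g => Y j x (stT s L h g a j) := fun j x =>
    Sp38.eg_node s L h (hY j x) a j
  simp only [← Sd.tX_const_mul]
  rw [← Sd.tX_sum hw s L h J fun j _ x => ((e1 j (x a)).const_mul _).const_mul _]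
  simp only [mul_left_comm (c _), ← Finset.mul_sum]
  refine tX_cs hw s L h (F := fun _ x => F x) (fun x => Eg.const _) (fun x => Eg.sum _ fun j _ => (e1 j _).const_mul _)
    hA hΓ HA (le_of_eq_of_le ?_ HΓ)
  have e2 : ∀ y, EgP fun p : Pa Unit Ω => ∑ j ∈ J, c j * Y j y (p () j) := fun y =>
    .sum _ fun j _ => (EgP.const _).mul (.state (hY j y) () j)
  refine (tF_marg hw s a L h (fun p y => (∑ j ∈ J, c j * Y j y (p () j)) ^ 2) fun y => ?_).trans
    (Tr.tX_one w L h _)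
  simpa only [sq] using (e2 y).mul (e2 y)

theorem wk1 (hw : Wt w) (s : Sh) (b : s.Lf) (L : List (Lv Ω)) (h : Ω → ℝ) (K : ℕ → Ω → Ω → ℝ)
    (F : (s.Lf → Ω) → ℝ) {A Γ : ℝ} (hA : 0 ≤ A) (hΓ : 0 ≤ Γ)
    (HA : TE w s L h (fun x => F x ^ 2) ≤ A ^ 2) (H : ∀ m ≤ L.length + 1, G1 w L h K m ≤ Γ ^ 2) :
    Wk L (A * Γ) fun j => TE w (GT.g1 s b j b).sh L h ((GT.g1 s b j b).ev K F) := fun m hm => by
  simp only [g1_eq hw, shr_self]
  exact abs_path_le hw s b L h F _ _ (Y := fun j x z => Pf w (L.drop j) z (K j x))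
    (fun j x => Eg.sum _ fun y _ => (eg_P hw _ y).mul_const _) hA hΓ HA (H m hm)

theorem wk2 (hw : Wt w) (s : Sh) (a : s.Lf) (j : ℕ) (L : List (Lv Ω)) (h : Ω → ℝ)
    (K : ℕ → Ω → Ω → ℝ) (F : (s.Lf → Ω) → ℝ) {A Γ : ℝ} (hA : 0 ≤ A) (hΓ : 0 ≤ Γ)
    (HA : TE w s L h (fun x => F x ^ 2) ≤ A ^ 2) (H : ∀ m ≤ L.length + 1, G1 w L h K m ≤ Γ ^ 2) :
    Wk L (A * Γ) fun k => TE w (gq s a j k).sh L h ((gq s a j k).ev K F) := by
  refine (wk1 hw (s.graft a j) (s.nw a j) L h K (fun x => F fun c => x (s.emb a j c)) hA hΓ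
    ((TE_emb hw s a j L h fun x => F x ^ 2).trans_le HA) H).congr fun k _ => ?_
  refine congrArg (TE w ((s.graft a j).graft (s.nw a j) k) L h) (funext fun x => ?_)
  show _ * K k _ _ = _ * K ((s.graft a j).shr (s.nw a j) (s.nw a j) k) _ _
  rw [shr_self]
  rfl

theorem wk3 (hw : Wt w) (s : Sh) (a : s.Lf) (L : List (Lv Ω)) (h : Ω → ℝ) (K : ℕ → Ω → Ω → ℝ)
    (F : (s.Lf → Ω) → ℝ) {A Γ : ℝ} (hA : 0 ≤ A) (hΓ : 0 ≤ Γ)
    (HA : TE w s L h (fun x => F x ^ 2) ≤ A ^ 2) (H : ∀ m ≤ L.length + 1, G2 w L h K m ≤ Γ ^ 2) :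
    Wk L (A * Γ) fun j => TE w (gq s a j j).sh L h ((gq s a j j).ev K F) := fun m hm => by
  simp only [gq_eq hw s a le_rfl]
  exact abs_path_le hw s a L h F _ _ (Y := fun j _ z => qf (P w (L.drop j) z) (K j))
    (fun j _ => eg_qf hw _ _) hA hΓ HA (H m hm)

/-- the coefficient is invariant, bounded by `B`, of variation at most `V` along paths -/
structure Cf {s : Sh} (n : ℕ) (B V : ℝ) (c : GT s → ℝ) : Prop where
  inv : Inv n c
  bd : ∀ τ : GT s, τ.Mem s n → |c τ| ≤ B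
  v1 : ∀ b, BV n B V fun j => c (.g1 s b j b)
  v2 : ∀ a j, j ≤ n → BV n B V fun k => c (gq s a j k)
  v3 : ∀ a, BV n B V fun j => c (gq s a j j)

theorem cf_const (s : Sh) (n : ℕ) (c : ℝ) : Cf n |c| 0 fun _ : GT s => c :=
  ⟨inv_lev s n fun _ => c, fun _ _ => le_rfl, fun _ => ⟨fun _ _ => le_rfl, by simp⟩,
    fun _ _ _ => ⟨fun _ _ => le_rfl, by simp⟩, fun _ => ⟨fun _ _ => le_rfl, by simp⟩⟩

/-- **one edge in weak form** -/
theorem sg_wf (hw : Wt w) {s : Sh} {M : List (Lv Θ)} (hM : Mono 0 M) {L : List (Lv Ω)}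
    (e : M.map Lv.m = L.map Lv.m) (h : Ω → ℝ) {K : ℕ → Ω → Ω → ℝ}
    (hK : ∀ j x y, K j x y = K j y x) (F : (s.Lf → Ω) → ℝ) {c : GT s → ℝ} {B V A Γ α : ℝ}
    (hc : Cf L.length B V c) (hA : 0 ≤ A) (hΓ : 0 ≤ Γ) (hα : 0 ≤ α)
    (HA : TE w s L h (fun x => F x ^ 2) ≤ A ^ 2)
    (H1 : ∀ m ≤ L.length + 1, G1 w L h K m ≤ Γ ^ 2) (H2 : ∀ m ≤ L.length + 1, G2 w L h K m ≤ Γ ^ 2)
    (HO : ∀ τ : GT s, τ.Mem s L.length → Old s L.length τ.j → |TE w τ.sh L h (τ.ev K F)| ≤ α) :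
    |sg (-1) M s fun τ => c τ * TE w τ.sh L h (τ.ev K F)| ≤
      (Fintype.card s.Lf : ℝ) ^ 2 * (14 * ((B + V) * (A * Γ)) + 9 * (B * α)) := by
  have hB : 0 ≤ B := (abs_nonneg _).trans ((hc.v1 s.fst).1 0 (Nat.zero_le _))
  rw [sg_tilt _ e]
  refine sg_weak (Cav22.mono_tilt e hM) (hc.inv.mul (inv_TE hw s L h hK F _)) (mul_nonneg hB hα)
    (fun τ hτ ho => ?_) (fun b => (wk1 hw s b L h K F hA hΓ HA H1).mul (hc.v1 b))
    (fun a j hj => (wk2 hw s a j L h K F hA hΓ HA H1).mul (hc.v2 a j hj))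
    fun a => (wk3 hw s a L h K F hA hΓ HA H2).mul (hc.v3 a)
  rw [abs_mul]
  exact mul_le_mul (hc.bd τ hτ) (HO τ hτ ho) (abs_nonneg _) hB

end Wf99

end Crest.Agent.T156.Cas

end
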