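import Crest.Agent.T156.WfB_99
import Crest.Agent.T156.LpT_43

/-!
# Row 156 (helper99): one edge in weak form, the site factor

`cf_site`: the site factor of a rank-one edge is an admissible coefficient (martingale
orthogonality along the path).  Closure properties of admissible coefficients.
-/

set_option autoImplicit false
set_option linter.unusedSectionVars false

noncomputable section

namespace Crest.Agent.T156.Cas

open MeasureTheory Real Set Filter Topology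
open Crest.Agent.T157.E Crest.Agent.T157.Casc Crest.Agent.T157.SL

namespace Wf99

open Wt87

/-! ### closure -/

theorem BV.mono {n : ℕ} {B V B' V' : ℝ} {β : ℕ → ℝ} (h : BV n B V β) (hB : B ≤ B') (hV : V ≤ V') :
    BV n B' V' β := ⟨fun k hk => (h.1 k hk).trans hB, h.2.trans hV⟩

theorem BV.congr {n : ℕ} {B V : ℝ} {β β' : ℕ → ℝ} (h : BV n B V β) (e : ∀ k ≤ n, β' k = β k) :
    BV n B V β' := by
  refine ⟨fun k hk => e k hk ▸ h.1 k hk, le_of_eq_of_le (Finset.sum_congr rfl fun k hk => ?_) h.2⟩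
  have := Finset.mem_range.1 hk
  rw [e k (by omega), e (k + 1) (by omega)]

theorem BV.add {n : ℕ} {B V B' V' : ℝ} {β β' : ℕ → ℝ} (h : BV n B V β) (h' : BV n B' V' β') :
    BV n (B + B') (V + V') fun k => β k + β' k := by
  refine ⟨fun k hk => (abs_add_le _ _).trans (add_le_add (h.1 k hk) (h'.1 k hk)), ?_⟩
  refine le_trans ?_ (add_le_add h.2 h'.2)
  rw [← Finset.sum_add_distrib]
  exact Finset.sum_le_sum fun k _ => by
    rw [add_sub_add_comm]; exact abs_add_le _ _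

theorem BV.mul {n : ℕ} {B V B' V' : ℝ} {β β' : ℕ → ℝ} (h : BV n B V β) (h' : BV n B' V' β') :
    BV n (B * B') (V * B' + B * V') fun k => β k * β' k := by
  have hB : 0 ≤ B := (abs_nonneg _).trans (h.1 0 (Nat.zero_le _))
  have hB' : 0 ≤ B' := (abs_nonneg _).trans (h'.1 0 (Nat.zero_le _))
  refine ⟨fun k hk => by
    rw [abs_mul]; exact mul_le_mul (h.1 k hk) (h'.1 k hk) (abs_nonneg _) hB, ?_⟩
  refine le_trans ?_ (add_le_add (mul_le_mul_of_nonneg_right h.2 hB')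
    (mul_le_mul_of_nonneg_left h'.2 hB))
  rw [Finset.sum_mul, Finset.mul_sum, ← Finset.sum_add_distrib]
  refine Finset.sum_le_sum fun k hk => ?_
  have := Finset.mem_range.1 hk
  rw [show β (k + 1) * β' (k + 1) - β k * β' k =
    (β (k + 1) - β k) * β' (k + 1) + β k * (β' (k + 1) - β' k) by ring]
  refine (abs_add_le _ _).trans (add_le_add ?_ ?_) <;> rw [abs_mul]
  · exact mul_le_mul_of_nonneg_left (h'.1 _ (by omega)) (abs_nonneg _)
  · exact mul_le_mul_of_nonneg_right (h.1 _ (by omega)) (abs_nonneg _)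

/-- a monotone sequence in `[0, B]` -/
theorem bv_mono {n : ℕ} {B : ℝ} {β : ℕ → ℝ} (h0 : 0 ≤ β 0) (hm : ∀ k < n, β k ≤ β (k + 1))
    (h1 : β n ≤ B) : BV n B B β := by
  have key : ∀ {i j}, i ≤ j → j ≤ n → β i ≤ β j := fun {i j} hij hj => by
    induction hij with
    | refl => exact le_rfl
    | step _ ih => exact (ih (Nat.le_of_succ_le hj)).trans (hm _ hj)
  refine ⟨fun k hk => ?_, ?_⟩
  · rw [abs_of_nonneg (h0.trans (key (Nat.zero_le k) hk))]
    exact (key hk le_rfl).trans h1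
  · rw [Finset.sum_congr rfl fun k hk => abs_of_nonneg (sub_nonneg.2 (hm k (Finset.mem_range.1 hk))),
      Finset.sum_range_sub]
    linarith

theorem Cf.mono {s : Sh} {n : ℕ} {B V B' V' : ℝ} {c : GT s → ℝ} (h : Cf n B V c) (hB : B ≤ B')
    (hV : V ≤ V') : Cf n B' V' c :=
  ⟨h.inv, fun τ hτ => (h.bd τ hτ).trans hB, fun b => (h.v1 b).mono hB hV,
    fun a j hj => (h.v2 a j hj).mono hB hV, fun a => (h.v3 a).mono hB hV⟩

theorem Cf.add {s : Sh} {n : ℕ} {B V B' V' : ℝ} {c c' : GT s → ℝ} (h : Cf n B V c)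
    (h' : Cf n B' V' c') : Cf n (B + B') (V + V') fun τ => c τ + c' τ :=
  ⟨h.inv.comp₂ h'.inv (· + ·),
    fun τ hτ => (abs_add_le _ _).trans (add_le_add (h.bd τ hτ) (h'.bd τ hτ)),
    fun b => (h.v1 b).add (h'.v1 b), fun a j hj => (h.v2 a j hj).add (h'.v2 a j hj),
    fun a => (h.v3 a).add (h'.v3 a)⟩

theorem Cf.mul {s : Sh} {n : ℕ} {B V B' V' : ℝ} {c c' : GT s → ℝ} (h : Cf n B V c)
    (h' : Cf n B' V' c') : Cf n (B * B') (V * B' + B * V') fun τ => c τ * c' τ :=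
  ⟨h.inv.mul h'.inv, fun τ hτ => by
      rw [abs_mul]
      exact mul_le_mul (h.bd τ hτ) (h'.bd τ hτ) (abs_nonneg _) ((abs_nonneg _).trans (h.bd τ hτ)),
    fun b => (h.v1 b).mul (h'.v1 b), fun a j hj => (h.v2 a j hj).mul (h'.v2 a j hj),
    fun a => (h.v3 a).mul (h'.v3 a)⟩

/-- functions of the level -/
theorem cf_lev (s : Sh) {n : ℕ} {B V : ℝ} {β : ℕ → ℝ} (h : BV n B V β) :
    Cf n B V fun τ : GT s => β τ.j :=
  ⟨inv_lev s n β, fun _ hτ => h.1 _ hτ.le,
    fun b => h.congr fun k _ => congrArg β (shr_self s b k), fun _ _ _ => h, fun _ => h⟩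

theorem sum_abs_le_of_sign {n : ℕ} {d : ℕ → ℝ} {V : ℝ}
    (H : ∀ ε : ℕ → ℝ, (∀ k, |ε k| ≤ 1) → ∑ k ∈ Finset.range n, ε k * d k ≤ V) :
    ∑ k ∈ Finset.range n, |d k| ≤ V := by
  refine le_of_eq_of_le (Finset.sum_congr rfl fun k _ => ?_)
    (H (fun k => if 0 ≤ d k then 1 else -1) fun k => by split_ifs <;> simp)
  split_ifs with h
  · rw [abs_of_nonneg h, one_mul]
  · rw [abs_of_neg (not_le.1 h), neg_one_mul]

/-! ### the martingale of a function of one leaf -/

variable {Ω Θ : Type} [Fintype Ω] {w : Ω → ℝ}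

/-- the mean of `f` at the node `j` of a path -/
def Mt (w : Ω → ℝ) (L : List (Lv Ω)) (f : Ω → ℝ) (p : ℕ → Ω → ℝ) (j : ℕ) : ℝ :=
  Pf w (L.drop j) (p j) f

/-- martingale transform -/
def Tr' (w : Ω → ℝ) (L : List (Lv Ω)) (f : Ω → ℝ) (H : ℕ → (Ω → ℝ) → ℝ) (m : ℕ)
    (p : ℕ → Ω → ℝ) : ℝ :=
  ∑ j ∈ Finset.range m, H j (p j) * (Mt w L f p (j + 1) - Mt w L f p j)

theorem abs_Pf_le' (hw : Wt w) (L : List (Lv Ω)) (z : Ω → ℝ) {f : Ω → ℝ} {κ : ℝ}
    (hf : ∀ y, |f y| ≤ κ) : |Pf w L z f| ≤ κ := by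
  refine (Finset.abs_sum_le_sum_abs _ _).trans ((Finset.sum_le_sum (g := fun y => P w L z y * κ)
    fun y _ => ?_).trans_eq (by rw [← Finset.sum_mul, sum_P hw, one_mul]))
  rw [abs_mul, abs_of_nonneg (P_nonneg hw L z y)]
  exact mul_le_mul_of_nonneg_left (hf y) (P_nonneg hw L z y)

theorem egP_Mt (hw : Wt w) (L : List (Lv Ω)) (f : Ω → ℝ) {κ : Type} (a : κ) (j : ℕ) :
    EgP fun p : Pa κ Ω => Mt w L f (p a) j := .state (eg_Pf hw _ f) a j

theorem egP_Tr (hw : Wt w) (L : List (Lv Ω)) (f : Ω → ℝ) {H : ℕ → (Ω → ℝ) → ℝ}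
    (hH : ∀ j, Eg (H j)) (m : ℕ) {κ : Type} (a : κ) :
    EgP fun p : Pa κ Ω => Tr' w L f H m (p a) :=
  .sum _ fun j _ => (EgP.state (hH j) a j).mul ((egP_Mt hw L f a (j + 1)).sub (egP_Mt hw L f a j))

theorem eg_one {L : List (Lv Ω)} {h : Ω → ℝ} {φ : (ℕ → Ω → ℝ) → ℝ}
    (hφ : EgP fun p : Pa Unit Ω => φ (p ())) : Eg fun g : NI L → ℝ => φ fun j => st L j h g :=
  hφ.stT (s := .one) L h

theorem pE_mart (hw : Wt w) (L : List (Lv Ω)) (h f : Ω → ℝ) (i : ℕ) {G : (NI L → ℝ) → ℝ}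
    (hG : Eg G) (aG : LpR43.Ad L i G) :
    pE w L h (fun g _ => G g * Mt w L f (fun j => st L j h g) (i + 1)) =
      pE w L h fun g _ => G g * Mt w L f (fun j => st L j h g) i := by
  refine (LpR43.pE_markov hw (Nat.le_succ i) L h hG aG (eg_Pf hw (L.drop (i + 1)) f)).trans ?_
  congr 1
  funext g x
  congr 1
  rw [Nat.succ_sub (le_refl i), Nat.sub_self]
  have := node_sum_P hw f (L.drop i) 1 (st L i h g)
  rw [List.drop_drop] at this
  exact this

theorem pE_incr (hw : Wt w) (L : List (Lv Ω)) (h f : Ω → ℝ) (i : ℕ) {G : (NI L → ℝ) → ℝ}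
    (hG : Eg G) (aG : LpR43.Ad L i G) :
    pE w L h (fun g _ => G g * (Mt w L f (fun j => st L j h g) (i + 1) -
      Mt w L f (fun j => st L j h g) i)) = 0 := by
  have e := fun k => eg_one (L := L) (h := h) (φ := fun p => Mt w L f p k) (egP_Mt hw L f () k)
  have h1 := LpR43.pE_add' hw L h (F := fun g _ => G g * (Mt w L f (fun j => st L j h g) (i + 1) -
      Mt w L f (fun j => st L j h g) i)) (G := fun g _ => G g * Mt w L f (fun j => st L j h g) i)
    (fun _ => hG.mul ((e _).sub (e _))) fun _ => hG.mul (e _)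
  simp only [← mul_add, sub_add_cancel] at h1
  rw [pE_mart hw L h f i hG aG] at h1
  linarith

theorem pE_qv (hw : Wt w) (L : List (Lv Ω)) (h f : Ω → ℝ) (i : ℕ) :
    pE w L h (fun g _ => (Mt w L f (fun j => st L j h g) (i + 1) -
      Mt w L f (fun j => st L j h g) i) ^ 2) =
      pE w L h (fun g _ => Mt w L f (fun j => st L j h g) (i + 1) ^ 2) -
        pE w L h fun g _ => Mt w L f (fun j => st L j h g) i ^ 2 := by
  have e := fun k => eg_one (L := L) (h := h) (φ := fun p => Mt w L f p k) (egP_Mt hw L f () k)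
  have h0 := pE_incr hw L h f i (G := fun g => 2 * Mt w L f (fun j => st L j h g) i)
    ((e i).const_mul 2) (LpR43.Ad.st L le_rfl h fun z => 2 * Pf w (L.drop i) z f)
  have d := (e (i + 1)).sub (e i)
  have h1 := LpR43.pE_add' hw L h (fun _ => d.mul d) fun _ => ((e i).const_mul 2).mul d
  have h2 := LpR43.pE_add' hw L h (fun _ => (d.mul d).add (((e i).const_mul 2).mul d))
    fun _ => (e i).mul (e i)
  rw [h1, h0] at h2
  simp only [sq]
  rw [eq_sub_iff_add_eq, ← add_zero (pE w L h _), ← h2]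
  congr 1
  funext g x
  ring

theorem pE_sum_qv (hw : Wt w) (L : List (Lv Ω)) (h : Ω → ℝ) {f : Ω → ℝ} (hf : ∀ y, |f y| ≤ 1)
    (m : ℕ) : ∑ i ∈ Finset.range m, pE w L h (fun g _ => (Mt w L f (fun j => st L j h g) (i + 1) -
      Mt w L f (fun j => st L j h g) i) ^ 2) ≤ 1 := by
  have e := fun k => eg_one (L := L) (h := h) (φ := fun p => Mt w L f p k) (egP_Mt hw L f () k)
  simp only [pE_qv hw]
  rw [Finset.sum_range_sub fun i => pE w L h fun g _ => Mt w L f (fun j => st L j h g) i ^ 2]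
  have h0 := LpR43.pE_nonneg hw L h
    (F := fun g _ => Mt w L f (fun j => st L j h g) 0 ^ 2) fun _ _ => sq_nonneg _
  have h1 := LpR43.pE_mono' hw L h (F := fun g _ => Mt w L f (fun j => st L j h g) m ^ 2)
    (G := fun _ _ => 1) (fun _ => by simpa only [sq] using (e m).mul (e m)) (fun _ => Eg.const 1)
    fun g _ => (sq_le_one_iff_abs_le_one _).2 (abs_Pf_le' hw _ _ hf)
  have h2 : pE w L h (fun _ _ => 1) = 1 := by simpa using Pe.pE_node1 hw (Eg.const 1) L 0 h
  linarith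

theorem pE_Tr (hw : Wt w) (L : List (Lv Ω)) (h f : Ω → ℝ) {H : ℕ → (Ω → ℝ) → ℝ}
    (hH : ∀ j, Eg (H j)) (H1 : ∀ j z, |H j z| ≤ 1) : ∀ m : ℕ,
    pE w L h (fun g _ => Tr' w L f H m (fun j => st L j h g) ^ 2) ≤
      ∑ i ∈ Finset.range m, pE w L h fun g _ => (Mt w L f (fun j => st L j h g) (i + 1) -
        Mt w L f (fun j => st L j h g) i) ^ 2
  | 0 => by simp [Tr', pE]
  | m + 1 => by
      have e := fun k => eg_one (L := L) (h := h) (φ := fun p => Mt w L f p k) (egP_Mt hw L f () k)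
      have t := eg_one (L := L) (h := h) (φ := Tr' w L f H m) (egP_Tr hw L f hH m ())
      have u := Pe.eg_st L h m (hH m)
      have d := (e (m + 1)).sub (e m)
      have a : LpR43.Ad L m fun g => 2 * (Tr' w L f H m (fun j => st L j h g) * H m (st L m h g)) := by
        refine LpR43.Ad.comp₂ (F := fun g => Tr' w L f H m fun j => st L j h g) ?_
          (LpR43.Ad.st L le_rfl h (H m)) fun x y => 2 * (x * y)
        refine LpR43.Ad.sum _ fun j hj => ?_
        have := Finset.mem_range.1 hj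
        exact (LpR43.Ad.st L (j := j) (by omega) h fun z => (H j z, Pf w (L.drop j) z f)).comp₂
          (LpR43.Ad.st L (j := j + 1) (by omega) h fun z => Pf w (L.drop (j + 1)) z f)
          fun x y => x.1 * (y - x.2)
      have h0 := pE_incr hw L h f m ((t.mul u).const_mul 2) a
      have h1 := LpR43.pE_add' hw L h (fun _ => t.mul t) fun _ => ((t.mul u).const_mul 2).mul d
      have h2 := LpR43.pE_add' hw L h (fun _ => (t.mul t).add (((t.mul u).const_mul 2).mul d))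
        fun _ => d.mul d
      have ih := pE_Tr hw L h f hH H1 m
      have t' := eg_one (L := L) (h := h) (φ := Tr' w L f H (m + 1)) (egP_Tr hw L f hH (m + 1) ())
      have h3 := LpR43.pE_mono' hw L h (fun _ => t'.mul t')
        (fun _ => ((t.mul t).add (((t.mul u).const_mul 2).mul d)).add (d.mul d)) fun g _ => by
          have h4 := (sq_le_one_iff_abs_le_one _).2 (H1 m (st L m h g))
          simp only [Tr', Finset.sum_range_succ]
          nlinarith [mul_le_mul_of_nonneg_right h4 (mul_self_nonneg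
            (Mt w L f (fun j => st L j h g) (m + 1) - Mt w L f (fun j => st L j h g) m))]
      rw [h2, h1, h0] at h3
      simp only [sq, Finset.sum_range_succ] at ih ⊢
      linarith

theorem tX_path (hw : Wt w) (s : Sh) (a : s.Lf) (L : List (Lv Ω)) (h : Ω → ℝ)
    {φ : (ℕ → Ω → ℝ) → ℝ} (hφ : EgP fun p : Pa Unit Ω => φ (p ())) :
    tX w s L h (fun g _ => φ (stT s L h g a)) = pE w L h fun g _ => φ fun j => st L j h g :=
  (tF_marg hw s a L h (fun p _ => φ (p ())) fun _ => hφ).trans (Tr.tX_one w L h _)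

theorem abs_Tr_le (hw : Wt w) (s : Sh) (a : s.Lf) (L : List (Lv Ω)) (h : Ω → ℝ) {f : Ω → ℝ}
    (hf : ∀ y, |f y| ≤ 1) {H : ℕ → (Ω → ℝ) → ℝ} (hH : ∀ j, Eg (H j)) (H1 : ∀ j z, |H j z| ≤ 1)
    (m : ℕ) {ξ : (s.Lf → Ω) → ℝ} {A : ℝ} (hξ : ∀ x, |ξ x| ≤ A) :
    |tX w s L h fun g x => ξ x * Tr' w L f H m (stT s L h g a)| ≤ A := by
  obtain ⟨y, -⟩ := Finset.exists_ne_zero_of_sum_ne_zero hw.pos.ne'
  have hA : 0 ≤ A := (abs_nonneg _).trans (hξ fun _ => y)
  refine (tX_cs hw s L h (F := fun _ x => ξ x) (B := 1) (fun x => Eg.const _)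
    (fun _ => (egP_Tr hw L f hH m a).stT L h) hA zero_le_one ?_ ?_).trans (mul_one A).le
  · exact (Law.TE_mono hw s L h (G := fun _ => A ^ 2) fun x => sq_le_sq' (abs_le.1 (hξ x)).1
      (abs_le.1 (hξ x)).2).trans (Law.TE_const hw s L h _).le
  · rw [tX_path hw s a L h (φ := fun p => Tr' w L f H m p ^ 2)
      (by simpa only [sq] using (egP_Tr hw L f hH m ()).mul (egP_Tr hw L f hH m ())), one_pow]
    exact (pE_Tr hw L h f hH H1 m).trans (pE_sum_qv hw L h hf m)

theorem abs_ev_site (hw : Wt w) {s : Sh} (τ : GT s) (L : List (Lv Ω)) (h : Ω → ℝ) {f : Ω → ℝ}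
    (hf : ∀ y, |f y| ≤ 1) {ξ : (s.Lf → Ω) → ℝ} {A : ℝ} (hξ : ∀ x, |ξ x| ≤ A) :
    |TE w τ.sh L h (τ.ev (fun _ x y => f x * f y) ξ)| ≤ A := by
  refine (abs_TE_le' hw _ L h (F' := fun _ => A) fun x => ?_).trans (Law.TE_const hw _ L h _).le
  rw [GT.ev, abs_mul, abs_mul]
  exact (mul_le_of_le_one_right (abs_nonneg _)
    (mul_le_one₀ (hf _) (abs_nonneg _) (hf _))).trans (hξ _)

theorem bv_g1 (hw : Wt w) (s : Sh) (b : s.Lf) (L : List (Lv Ω)) (h : Ω → ℝ) {f : Ω → ℝ}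
    (hf : ∀ y, |f y| ≤ 1) {ξ : (s.Lf → Ω) → ℝ} {A : ℝ} (hξ : ∀ x, |ξ x| ≤ A) (n : ℕ) :
    BV n A A fun j => TE w (GT.g1 s b j b).sh L h
      ((GT.g1 s b j b).ev (fun _ x y => f x * f y) ξ) := by
  refine ⟨fun k _ => abs_ev_site hw _ L h hf hξ, sum_abs_le_of_sign fun ε hε => ?_⟩
  have e : ∀ j x, Eg fun g => ξ x * f (x b) * Mt w L f (stT s L h g b) j := fun j x =>
    ((egP_Mt hw L f b j).stT L h).const_mul _
  have e1 : ∀ j, TE w (GT.g1 s b j b).sh L h ((GT.g1 s b j b).ev (fun _ x y => f x * f y) ξ) =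
      tX w s L h fun g x => ξ x * f (x b) * Mt w L f (stT s L h g b) j := fun j => by
    rw [g1_eq hw]
    simp only [Mt, Pf, Finset.mul_sum, mul_assoc, mul_left_comm]
  refine le_trans (le_of_eq ?_) ((le_abs_self _).trans (abs_Tr_le hw s b L h hf
    (H := fun j _ => ε j) (fun j => Eg.const _) (fun j _ => hε j) n (ξ := fun x => ξ x * f (x b))
    fun x => ?_))
  · simp only [e1, fun j => (Sd.tX_sub hw s L h (e (j + 1)) (e j)).symm, ← Sd.tX_const_mul]
    rw [← Sd.tX_sum hw s L h _ fun j _ x => ((e (j + 1) x).sub (e j x)).const_mul _]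
    congr 1
    funext g x
    simp only [Tr', Finset.mul_sum]
    exact Finset.sum_congr rfl fun j _ => by ring
  · rw [abs_mul]
    exact (mul_le_of_le_one_right (abs_nonneg _) (hf _)).trans (hξ x)

theorem bv_gq (hw : Wt w) (s : Sh) (a : s.Lf) (L : List (Lv Ω)) (h : Ω → ℝ) {f : Ω → ℝ}
    (hf : ∀ y, |f y| ≤ 1) {ξ : (s.Lf → Ω) → ℝ} {A : ℝ} (hξ : ∀ x, |ξ x| ≤ A) (n : ℕ) :
    BV n A (3 * A) fun j => TE w (gq s a j j).sh L h
      ((gq s a j j).ev (fun _ x y => f x * f y) ξ) := by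
  refine ⟨fun k _ => abs_ev_site hw _ L h hf hξ, sum_abs_le_of_sign fun ε hε => ?_⟩
  have m : ∀ j, Eg fun g => Mt w L f (stT s L h g a) j := fun j => (egP_Mt hw L f a j).stT L h
  have e : ∀ j x, Eg fun g => ξ x * (Mt w L f (stT s L h g a) j * Mt w L f (stT s L h g a) j) :=
    fun j x => ((m j).mul (m j)).const_mul _
  have e1 : ∀ j, TE w (gq s a j j).sh L h ((gq s a j j).ev (fun _ x y => f x * f y) ξ) =
      tX w s L h fun g x => ξ x * (Mt w L f (stT s L h g a) j * Mt w L f (stT s L h g a) j) :=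
    fun j => by
      rw [gq_eq hw s a le_rfl]
      simp only [Mt, Pf, Finset.sum_mul_sum, mul_mul_mul_comm]
  have hH : ∀ j, Eg fun z => ε j * Pf w (L.drop j) z f := fun j => (eg_Pf hw _ f).const_mul _
  have h1 := abs_Tr_le hw s a L h hf (H := fun j z => ε j * Pf w (L.drop j) z f) hH
    (fun j z => by rw [abs_mul]; exact mul_le_one₀ (hε j) (abs_nonneg _) (abs_Pf_le' hw _ _ hf))
    n hξ
  have q : ∀ {κ : Type} (a : κ) j, EgP fun p : Pa κ Ω =>
      (Mt w L f (p a) (j + 1) - Mt w L f (p a) j) ^ 2 := fun a j => by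
    simpa only [sq] using ((egP_Mt hw L f a (j + 1)).sub (egP_Mt hw L f a j)).mul
      ((egP_Mt hw L f a (j + 1)).sub (egP_Mt hw L f a j))
  obtain ⟨y, -⟩ := Finset.exists_ne_zero_of_sum_ne_zero hw.pos.ne'
  have hA : 0 ≤ A := (abs_nonneg _).trans (hξ fun _ => y)
  have h2 : tX w s L h (fun g _ => A * ∑ j ∈ Finset.range n,
      (Mt w L f (stT s L h g a) (j + 1) - Mt w L f (stT s L h g a) j) ^ 2) ≤ A := by
    rw [Sd.tX_const_mul, Sd.tX_sum hw s L h _ fun j _ _ => (q a j).stT L h]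
    simp only [fun j => tX_path hw s a L h
      (φ := fun p => (Mt w L f p (j + 1) - Mt w L f p j) ^ 2) (q () j)]
    exact mul_le_of_le_one_right hA (pE_sum_qv hw L h hf n)
  have t : ∀ x, Eg fun g => ξ x * Tr' w L f (fun j z => ε j * Pf w (L.drop j) z f) n
      (stT s L h g a) := fun x => ((egP_Tr hw L f hH n a).stT L h).const_mul _
  have u : Eg fun g => A * ∑ j ∈ Finset.range n,
      (Mt w L f (stT s L h g a) (j + 1) - Mt w L f (stT s L h g a) j) ^ 2 :=
    (Eg.sum _ fun j _ => (q a j).stT L h).const_mul _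
  simp only [e1, fun j => (Sd.tX_sub hw s L h (e (j + 1)) (e j)).symm, ← Sd.tX_const_mul]
  rw [← Sd.tX_sum hw s L h _ fun j _ x => ((e (j + 1) x).sub (e j x)).const_mul _]
  refine (Sd.tX_mono hw s L h (fun x => Eg.sum _ fun j _ => ((e (j + 1) x).sub (e j x)).const_mul _)
    (fun x => u.add ((t x).const_mul 2)) fun g x => ?_).trans ?_
  · simp only [Tr', Finset.mul_sum, ← Finset.sum_add_distrib]
    refine Finset.sum_le_sum fun j _ => ?_
    have h3 : ε j * ξ x ≤ A := (le_abs_self _).trans (by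
      rw [abs_mul]; exact (mul_le_of_le_one_left (abs_nonneg _) (hε j)).trans (hξ x))
    have h4 := mul_le_mul_of_nonneg_right h3
      (sq_nonneg (Mt w L f (stT s L h g a) (j + 1) - Mt w L f (stT s L h g a) j))
    show _ ≤ _ + 2 * (ξ x * (ε j * Mt w L f (stT s L h g a) j * _))
    nlinarith
  · rw [Sd.tX_add hw s L h (fun _ => u) fun x => (t x).const_mul 2, Sd.tX_const_mul _ _ _ _ 2]
    linarith [(abs_le.1 h1).2]

/-- **the site factor of a rank-one edge is admissible** -/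
theorem cf_site (hw : Wt w) (s : Sh) (L : List (Lv Ω)) (h : Ω → ℝ) {f : Ω → ℝ}
    (hf : ∀ y, |f y| ≤ 1) {ξ : (s.Lf → Ω) → ℝ} {A : ℝ} (hξ : ∀ x, |ξ x| ≤ A) (n : ℕ) :
    Cf n A (3 * A) fun τ : GT s => TE w τ.sh L h (τ.ev (fun _ x y => f x * f y) ξ) := by
  obtain ⟨y, -⟩ := Finset.exists_ne_zero_of_sum_ne_zero hw.pos.ne'
  have hA : 0 ≤ A := (abs_nonneg _).trans (hξ fun _ => y)
  exact ⟨inv_TE hw s L h (fun _ _ _ => mul_comm _ _) ξ n, fun τ _ => abs_ev_site hw τ L h hf hξ,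
    fun b => (bv_g1 hw s b L h hf hξ n).mono le_rfl (by linarith),
    fun a j _ => (bv_g1 hw (s.graft a j) (s.nw a j) L h hf
      (ξ := fun x => ξ fun c => x (s.emb a j c)) (fun x => hξ _) n).mono le_rfl (by linarith),
    fun a => bv_gq hw s a L h hf hξ n⟩

end Wf99

end Crest.Agent.T156.Cas

end
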