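import Crest.Agent.T156.Nu_87

/-!
# Row 156 (helper38): weights of multigraphs under the law of the split matrix (lemma W)
-/

set_option autoImplicit false
set_option linter.unusedSectionVars false

noncomputable section

namespace Crest.Agent.T156.Cas.W38

open MeasureTheory Real Set Filter Topology
open Crest.Agent.T157.E Crest.Agent.T157.Casc Crest.Agent.T157.SL
open Nu87

variable {Ω : Type} {L : List (Lv Ω)} {r : ℕ}

/-- integral against the tilts -/
def Id (L : List (Lv Ω)) (g : ℕ → ℝ) : ℝ := ∑ j ∈ Finset.range (L.length + 1), dm L 0 j * g j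

theorem Id_nonneg (hL : Mono 0 L) {g : ℕ → ℝ} (hg : ∀ j, 0 ≤ g j) : 0 ≤ Id L g :=
  Finset.sum_nonneg fun j _ => mul_nonneg (dm_nonneg hL j) (hg j)

theorem Id_mono (hL : Mono 0 L) {g g' : ℕ → ℝ} (h : ∀ j ≤ L.length, g j ≤ g' j) :
    Id L g ≤ Id L g' := Finset.sum_le_sum fun j hj =>
  mul_le_mul_of_nonneg_left (h j (Nat.lt_succ_iff.1 (Finset.mem_range.1 hj))) (dm_nonneg hL j)

theorem Id_const (c : ℝ) : Id L (fun _ => c) = c := by
  rw [Id, ← Finset.sum_mul, sum_dm, ex_length, sub_zero, one_mul]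

theorem Id_add (g g' : ℕ → ℝ) : Id L (fun j => g j + g' j) = Id L g + Id L g' := by
  simp only [Id, mul_add, Finset.sum_add_distrib]

theorem Id_mul (c : ℝ) (g : ℕ → ℝ) : Id L (fun j => c * g j) = c * Id L g := by
  simp only [Id, Finset.mul_sum, mul_left_comm c]

theorem avm_nonneg (hL : Mono 0 L) {φ : SM (r + 1) → ℝ} (h : ∀ σ, Rz L.length σ → 0 ≤ φ σ) :
    0 ≤ avm L r φ := (avm_const L 0 r).symm.trans_le (avm_mono hL r h)

theorem abs_avm_le (hL : Mono 0 L) {φ ψ : SM (r + 1) → ℝ} (h : ∀ σ, Rz L.length σ → |φ σ| ≤ ψ σ) :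
    |avm L r φ| ≤ avm L r ψ := by
  refine abs_le.2 ⟨?_, avm_mono hL r fun σ hσ => (abs_le.1 (h σ hσ)).2⟩
  have := avm_mono hL r (φ := fun σ => -1 * ψ σ) (ψ := φ) fun σ hσ => by
    simpa using (abs_le.1 (h σ hσ)).1
  rwa [avm_mul, neg_one_mul] at this

/-- the level of the graft: a new level, or an old split level -/
theorem Ws_level (hL : Mono 0 L) {σ : SM r} (h : Rz L.length σ) {g : ℕ → ℝ} (hg : ∀ j, 0 ≤ g j) :
    Ws L σ (fun _ j => g j) ≤ r * Id L g + ∑ c, ∑ d, if c = d then 0 else g (σ c d) := by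
  refine (Ws_mono hL h (G' := fun a j => ∑ b, g (min j (σ b a))) (fun _ _ _ _ => rfl)
    (fun a b j e => Finset.sum_congr rfl fun c _ => congrArg g ?_) fun a j hj => ?_).trans ?_
  · have h1 := h.ultra c a b
    have h2 := h.ultra c b a
    rw [h.comm b a] at h2
    omega
  · refine le_trans ?_ (Finset.single_le_sum (f := fun b => g (min j (σ b a))) (fun _ _ => hg _)
      (Finset.mem_univ a))
    rw [h.self, min_eq_left hj]
  · rw [Ws_fsum L σ Finset.univ fun b a j => g (min j (σ b a))]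
    simp only [Ws_gg L h, Finset.sum_add_distrib, Finset.sum_const, Finset.card_univ,
      Fintype.card_fin, nsmul_eq_mul]
    refine add_le_add le_rfl (Finset.sum_le_sum fun c _ => le_of_eq ?_)
    rw [← Finset.add_sum_erase _ _ (Finset.mem_univ c), if_pos rfl, zero_add]
    exact Finset.sum_congr rfl fun d hd => (if_neg (Finset.ne_of_mem_erase hd).symm).symm

/-- the constant of lemma W (`k` edges, `r + 1` replicas) -/
def Cw (k r : ℕ) : ℝ := (2 ^ k * ((r : ℝ) + 2) ^ 3) ^ r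

theorem one_le_Cw (k r : ℕ) : 1 ≤ Cw k r :=
  one_le_pow₀ (one_le_mul_of_one_le_of_one_le (one_le_pow₀ one_le_two)
    (one_le_pow₀ (by have := Nat.cast_nonneg (α := ℝ) r; linarith)))

theorem Cw_nonneg (k r : ℕ) : 0 ≤ Cw k r := zero_le_one.trans (one_le_Cw k r)

variable {ι : Type} [Fintype ι] [DecidableEq ι]

/-- the weight of the edge `(c, d)` -/
def ed {r : ℕ} (g : ℕ → ℝ) (σ : SM r) (c d : Fin r) : ℝ := if c = d then 0 else g (σ c d)

theorem ed_nonneg {g : ℕ → ℝ} (hg : ∀ j, 0 ≤ g j) (σ : SM r) (c d : Fin r) : 0 ≤ ed g σ c d := by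
  unfold ed
  split_ifs
  exacts [le_rfl, hg _]

theorem ed_of_ne (g : ℕ → ℝ) (σ : SM r) {c d : Fin r} (h : c ≠ d) : ed g σ c d = g (σ c d) :=
  if_neg h

theorem ed_gr {g : ℕ → ℝ} (hg : ∀ j, 0 ≤ g j) {K : ℕ} {σ : SM r} (h : Rz K σ) (a : Fin r) {j : ℕ}
    (hj : j ≤ K) (c d : Fin (r + 1)) :
    ed g (gr K σ a j) c d ≤ g j + ed g σ (Fin.cons (α := fun _ => Fin r) a id c)
      (Fin.cons (α := fun _ => Fin r) a id d) := by
  have key : ∀ b, g (min j (σ b a)) ≤ g j + ed g σ a b ∧ g (min j (σ b a)) ≤ g j + ed g σ b a :=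
    fun b => by
      by_cases hb : b = a
      · subst hb
        rw [h.self, min_eq_left hj]
        exact ⟨le_add_of_nonneg_right (ed_nonneg hg _ _ _), le_add_of_nonneg_right (ed_nonneg hg _ _ _)⟩
      · rw [ed_of_ne g σ hb, ed_of_ne g σ (Ne.symm hb), h.comm a b]
        rcases min_choice j (σ b a) with e | e <;> rw [e] <;>
          constructor <;> linarith [hg j, hg (σ b a)]
  refine Fin.cases ?_ (fun c => ?_) c <;> refine Fin.cases ?_ (fun d => ?_) d
  · rw [ed, if_pos rfl]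
    exact add_nonneg (hg _) (ed_nonneg hg _ _ _)
  · rw [ed_of_ne _ _ (Fin.succ_ne_zero d).symm]
    exact (key d).1
  · rw [ed_of_ne _ _ (Fin.succ_ne_zero c)]
    exact (key c).2
  · simp only [ed, Fin.succ_inj, gr_ss, Fin.cons_succ, id]
    exact le_add_of_nonneg_left (hg _)

/-- **lemma W, extension form**: base replicas `ι₀`, weight `χ` of the base, edge weights `ft`
depending on the base and dominated by `f` -/
theorem ext (hL : Mono 0 L) {r₀ : ℕ} {χ : SM (r₀ + 1) → ℝ} (hχ : ∀ β, 0 ≤ χ β)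
    {ft : ι → SM (r₀ + 1) → ℕ → ℝ} {f : ι → ℕ → ℝ} (h0 : ∀ e β j, 0 ≤ ft e β j)
    (h1 : ∀ e β j, ft e β j ≤ f e j) {Θ : Finset ι → ℝ} (hΘ0 : ∀ B, 0 ≤ Θ B)
    (hΘ : ∀ A B, A ⊆ B → A.Nonempty → Id L (fun j => ∏ e ∈ A, f e j) * Θ (B \ A) ≤ Θ B)
    (base : ∀ (B : Finset ι) (p q : ι → Fin (r₀ + 1)),
      avm L r₀ (fun σ => χ σ * ∏ e ∈ B, ed (ft e σ) σ (p e) (q e)) ≤ Θ B) :
    ∀ (r : ℕ) (ι₀ : Fin (r₀ + 1) → Fin (r + 1)), Function.Injective ι₀ →
      ∀ (B : Finset ι) (p q : ι → Fin (r + 1)),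
      avm L r (fun σ => χ (fun a b => σ (ι₀ a) (ι₀ b)) *
        ∏ e ∈ B, ed (ft e fun a b => σ (ι₀ a) (ι₀ b)) σ (p e) (q e)) ≤
        Cw (Fintype.card ι) r * Θ B := by
  have surj : ∀ (ι₀ : Fin (r₀ + 1) ≃ Fin (r₀ + 1)) (B : Finset ι) (p q : ι → Fin (r₀ + 1)),
      avm L r₀ (fun σ => χ (fun a b => σ (ι₀ a) (ι₀ b)) *
        ∏ e ∈ B, ed (ft e fun a b => σ (ι₀ a) (ι₀ b)) σ (p e) (q e)) ≤
        Cw (Fintype.card ι) r₀ * Θ B := fun μ B p q => by
    refine le_trans (le_of_eq ?_) ((base B (fun e => μ.symm (p e)) fun e => μ.symm (q e)).trans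
      (le_mul_of_one_le_left (hΘ0 B) (one_le_Cw _ _)))
    refine Eq.trans ?_ (exch L r₀ μ fun σ =>
      χ σ * ∏ e ∈ B, ed (ft e σ) σ (μ.symm (p e)) (μ.symm (q e)))
    simp only [ed, Equiv.apply_symm_apply, EmbeddingLike.apply_eq_iff_eq]
  have hΘ' : ∀ A B, A ⊆ B → Id L (fun j => ∏ e ∈ A, f e j) * Θ (B \ A) ≤ Θ B := fun A B hAB => by
    rcases A.eq_empty_or_nonempty with rfl | hA
    · simp [Id_const]
    · exact hΘ A B hAB hA
  intro r
  induction r with
  | zero =>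
    intro ι₀ hι
    obtain rfl : r₀ = 0 := by simpa using Fintype.card_le_of_injective ι₀ hι
    exact surj (Equiv.ofBijective ι₀ (Finite.injective_iff_bijective.1 hι))
  | succ r ih =>
    intro ι₀ hι B p q
    by_cases hs : Function.Surjective ι₀
    · obtain rfl : r₀ = r + 1 := by simpa using Fintype.card_of_bijective ⟨hι, hs⟩
      exact surj (Equiv.ofBijective ι₀ ⟨hι, hs⟩) B p q
    obtain ⟨z, hz⟩ := not_forall.1 hs
    have hne : ∀ a, Equiv.swap 0 z (ι₀ a) ≠ 0 := fun a h =>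
      hz ⟨a, by rw [Equiv.swap_apply_eq_iff, Equiv.swap_apply_left] at h; exact h⟩
    choose ι' hι' using fun a => Fin.exists_succ_eq.2 (hne a)
    have hi : Function.Injective ι' := fun a b h => hι ((Equiv.swap 0 z).injective
      (by rw [← hι', ← hι', h]))
    rw [← exch L _ (Equiv.swap 0 z)]
    have e0 : ∀ (g : ℕ → ℝ) (σ : SM (r + 2)) (c d : Fin (r + 2)),
        ed g (fun a b => σ (Equiv.swap 0 z a) (Equiv.swap 0 z b)) c d =
          ed g σ (Equiv.swap 0 z c) (Equiv.swap 0 z d) := fun g σ c d => by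
      simp only [ed, EmbeddingLike.apply_eq_iff_eq]
    simp only [e0, ← hι']
    generalize hp : (fun e => Equiv.swap 0 z (p e)) = p₁
    generalize hq : (fun e => Equiv.swap 0 z (q e)) = q₁
    simp only [show ∀ e, Equiv.swap 0 z (p e) = p₁ e from congrFun hp,
      show ∀ e, Equiv.swap 0 z (q e) = q₁ e from congrFun hq]
    set C := Cw (Fintype.card ι) r with hC
    set cs : Fin (r + 1) → Fin (r + 2) → Fin (r + 1) :=
      fun a => Fin.cons (α := fun _ => Fin (r + 1)) a id with hcs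
    set bs : SM (r + 1) → SM (r₀ + 1) := fun σ a b => σ (ι' a) (ι' b) with hbs
    set G : Finset ι → Fin (r + 1) → SM (r + 1) → ℝ := fun A a σ =>
      χ (bs σ) * ∏ e ∈ B \ A, ed (ft e (bs σ)) σ (cs a (p₁ e)) (cs a (q₁ e)) with hG
    have G0 : ∀ A a σ, 0 ≤ G A a σ := fun A a σ =>
      mul_nonneg (hχ _) (Finset.prod_nonneg fun e _ => ed_nonneg (h0 e _) _ _ _)
    have hr1 : (1 : ℝ) ≤ r + 1 := by have := Nat.cast_nonneg (α := ℝ) r; linarith
    refine le_trans (avm_mono hL r (ψ := fun σ => ∑ A ∈ B.powerset, ∑ a,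
      (Id L (fun j => ∏ e ∈ A, f e j) * G A a σ +
        ∑ c, ∑ d, G A a σ * if c = d then 0 else ∏ e ∈ A, ft e (bs σ) (σ c d))) fun σ hσ => ?_) ?_
    · rw [div_le_iff₀ (by positivity)]
      refine (Ws_mono hL hσ (hσ.ncm fun σ => χ (fun a b => σ (ι' a).succ (ι' b).succ) *
          ∏ e ∈ B, ed (ft e fun a b => σ (ι' a).succ (ι' b).succ) σ (p₁ e) (q₁ e))
        (G' := fun _ j => ∑ A ∈ B.powerset, ∑ a, G A a σ * ∏ e ∈ A, ft e (bs σ) j)
        (fun _ _ _ _ => rfl) fun a j hj => ?_).trans ?_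
      · refine le_trans (mul_le_mul_of_nonneg_left (Finset.prod_le_prod
          (fun e _ => ed_nonneg (h0 e _) _ _ _) fun e _ => ed_gr (h0 e _) hσ a hj _ _) (hχ _)) ?_
        rw [Finset.prod_add, Finset.mul_sum]
        refine Finset.sum_le_sum fun A _ => le_trans (le_of_eq ?_) (Finset.single_le_sum
          (f := fun a => G A a σ * ∏ e ∈ A, ft e (bs σ) j) (fun a _ => mul_nonneg (G0 _ _ _)
            (Finset.prod_nonneg fun e _ => h0 e _ _)) (Finset.mem_univ a))
        simp only [hG, gr_ss]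
        ring
      · rw [Ws_fsum, Finset.sum_mul]
        refine Finset.sum_le_sum fun A _ => ?_
        rw [Ws_fsum, Finset.sum_mul]
        refine Finset.sum_le_sum fun a _ => ?_
        rw [Ws_mul]
        have hg : ∀ j, 0 ≤ ∏ e ∈ A, ft e (bs σ) j := fun j => Finset.prod_nonneg fun e _ => h0 e _ _
        have h2 := mul_le_mul_of_nonneg_left (Ws_level hL hσ hg) (G0 A a σ)
        have h3 := mul_le_mul_of_nonneg_left (Id_mono hL (g := fun j => ∏ e ∈ A, ft e (bs σ) j)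
          (g' := fun j => ∏ e ∈ A, f e j) fun j _ =>
            Finset.prod_le_prod (fun e _ => h0 e _ _) fun e _ => h1 e _ _) (G0 A a σ)
        simp only [← Finset.mul_sum]
        have h4 : 0 ≤ ∑ c, ∑ d, if c = d then 0 else ∏ e ∈ A, ft e (bs σ) (σ c d) :=
          Finset.sum_nonneg fun c _ => Finset.sum_nonneg fun d _ => by
            split_ifs
            exacts [le_rfl, hg _]
        have h5 := mul_nonneg (mul_nonneg (G0 A a σ) h4) (sub_nonneg.2 hr1)
        push_cast at h2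
        nlinarith
    · have hC0 : 0 ≤ C := Cw_nonneg _ _
      have hB := mul_nonneg hC0 (hΘ0 B)
      rw [avm_sum]
      refine (Finset.sum_le_card_nsmul _ _ ((r + 1) * ((1 + (r + 1) * (r + 1)) * (C * Θ B)))
        fun A hA => ?_).trans ?_
      · have hA' := Finset.mem_powerset.1 hA
        rw [avm_sum]
        refine (Finset.sum_le_card_nsmul _ _ ((1 + (r + 1) * (r + 1)) * (C * Θ B))
          fun a _ => ?_).trans (by simp)
        rw [avm_add, avm_mul, avm_sum, add_mul, one_mul]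
        refine add_le_add ?_ ((Finset.sum_le_card_nsmul _ _ ((r + 1) * (C * Θ B))
          fun c _ => ?_).trans (by simp [mul_assoc]))
        · refine (mul_le_mul_of_nonneg_left (ih ι' hi (B \ A) _ _) (Id_nonneg hL fun j =>
            Finset.prod_nonneg fun e _ => (h0 e (fun _ _ => 0) j).trans (h1 e _ j))).trans ?_
          rw [mul_left_comm]
          exact mul_le_mul_of_nonneg_left (hΘ' A B hA') hC0
        · rw [avm_sum]
          refine (Finset.sum_le_card_nsmul _ _ (C * Θ B) fun d _ => ?_).trans (by simp)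
          by_cases hcd : c = d
          · simp only [if_pos hcd, mul_zero, avm_const]
            exact hB
          refine le_trans (le_of_eq ?_) (ih ι' hi B (fun e => if e ∈ A then c else cs a (p₁ e))
            fun e => if e ∈ A then d else cs a (q₁ e))
          congr 1
          funext σ
          rw [if_neg hcd, ← Finset.prod_sdiff hA', mul_assoc]
          congr 2
          · exact Finset.prod_congr rfl fun e he => by
              simp only [if_neg (Finset.mem_sdiff.1 he).2]; rfl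
          · exact Finset.prod_congr rfl fun e he => by
              simp only [if_pos he, ed_of_ne _ _ hcd]; rfl
      · rw [Finset.card_powerset, nsmul_eq_mul, Cw, pow_succ', mul_assoc _ (_ ^ r)]
        have h2 : ((2 ^ B.card : ℕ) : ℝ) ≤ 2 ^ Fintype.card ι := by
          exact_mod_cast Nat.pow_le_pow_right two_pos (Finset.card_le_univ B)
        have h3 : ((r : ℝ) + 1) * (1 + (r + 1) * (r + 1)) ≤ ((r + 1 : ℕ) + 2) ^ 3 := by
          push_cast
          nlinarith
        have h4 : C ≤ (2 ^ Fintype.card ι * (((r + 1 : ℕ) : ℝ) + 2) ^ 3) ^ r := by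
          rw [hC, Cw]
          gcongr
          omega
        rw [← mul_assoc (_ + _), ← mul_assoc ((2 ^ B.card : ℕ) : ℝ)]
        gcongr
        exact hΘ0 B

/-- sum over the ordered partitions of the edges into blocks of cost `β` -/
def PB (β : Finset ι → ℝ) (B : Finset ι) : ℝ :=
  if B = ∅ then 1 else ∑ A ∈ B.powerset.attach,
    if h : A.1.Nonempty then
      have : (B \ A.1).card < B.card := Finset.card_lt_card (Finset.sdiff_ssubset
        (Finset.mem_powerset.1 A.2) h)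
      β A.1 * PB β (B \ A.1)
    else 0
termination_by B.card

theorem PB_empty (β : Finset ι → ℝ) : PB β ∅ = 1 := by rw [PB, if_pos rfl]

theorem PB_eq (β : Finset ι → ℝ) {B : Finset ι} (hB : B.Nonempty) :
    PB β B = ∑ A ∈ B.powerset, if A.Nonempty then β A * PB β (B \ A) else 0 := by
  rw [PB, if_neg hB.ne_empty, ← Finset.sum_attach B.powerset]
  exact Finset.sum_congr rfl fun A _ => by split_ifs <;> rfl

theorem PB_nonneg {β : Finset ι → ℝ} (hβ : ∀ A, 0 ≤ β A) (B : Finset ι) : 0 ≤ PB β B := by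
  induction B using Finset.strongInduction with
  | H B ih =>
    rcases B.eq_empty_or_nonempty with rfl | hB
    · rw [PB_empty]; exact zero_le_one
    · rw [PB_eq β hB]
      refine Finset.sum_nonneg fun A hA => ?_
      split_ifs with h
      · exact mul_nonneg (hβ A) (ih _ (Finset.sdiff_ssubset (Finset.mem_powerset.1 hA) h))
      · exact le_rfl

theorem le_PB {β : Finset ι → ℝ} (hβ : ∀ A, 0 ≤ β A) {A B : Finset ι} (hAB : A ⊆ B)
    (hA : A.Nonempty) : β A * PB β (B \ A) ≤ PB β B := by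
  rw [PB_eq β (hA.mono hAB)]
  refine le_trans ?_ (Finset.single_le_sum
    (f := fun A => if A.Nonempty then β A * PB β (B \ A) else 0) (fun A _ => ?_)
    (Finset.mem_powerset.2 hAB))
  · rw [if_pos hA]
  · split_ifs
    exacts [mul_nonneg (hβ A) (PB_nonneg hβ _), le_rfl]

/-- the same when the cost of a block depends on its size only -/
def Tn (S : ℕ → ℝ) : ℕ → ℝ
  | 0 => 1
  | n + 1 => ∑ i : Fin (n + 1), S (i + 1) * Tn S (n - i)
decreasing_by omega

theorem Tn_nonneg {S : ℕ → ℝ} (hS : ∀ i, 0 ≤ S i) (n : ℕ) : 0 ≤ Tn S n := by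
  induction n using Nat.strong_induction_on with
  | h n ih =>
    cases n with
    | zero => rw [Tn]; exact zero_le_one
    | succ n =>
      rw [Tn]
      exact Finset.sum_nonneg fun i _ => mul_nonneg (hS _) (ih _ (by omega))

theorem le_Tn {S : ℕ → ℝ} (hS : ∀ i, 0 ≤ S i) {a n : ℕ} (ha : 0 < a) (han : a ≤ n) :
    S a * Tn S (n - a) ≤ Tn S n := by
  obtain ⟨a, rfl⟩ := Nat.exists_eq_add_one_of_ne_zero ha.ne'
  obtain ⟨n, rfl⟩ := Nat.exists_eq_add_one_of_ne_zero (show n ≠ 0 by omega)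
  rw [Tn.eq_2, Nat.add_sub_add_right]
  exact Finset.single_le_sum (f := fun i : Fin (n + 1) => S (i + 1) * Tn S (n - i))
    (fun i _ => mul_nonneg (hS _) (Tn_nonneg hS _)) (Finset.mem_univ ⟨a, han⟩)

theorem Tn_zero (S : ℕ → ℝ) : Tn S 0 = 1 := by rw [Tn]
theorem Tn_one (S : ℕ → ℝ) : Tn S 1 = S 1 := by simp [Tn]
theorem Tn_two (S : ℕ → ℝ) : Tn S 2 = S 1 ^ 2 + S 2 := by
  rw [Tn]; simp [Fin.sum_univ_succ, Tn_one, Tn_zero]; ring
theorem Tn_three (S : ℕ → ℝ) : Tn S 3 = S 1 ^ 3 + 2 * S 1 * S 2 + S 3 := by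
  rw [Tn]; simp [Fin.sum_univ_succ, Tn_two, Tn_one, Tn_zero]; ring
theorem Tn_four (S : ℕ → ℝ) :
    Tn S 4 = S 1 ^ 4 + 3 * S 1 ^ 2 * S 2 + S 2 ^ 2 + 2 * S 1 * S 3 + S 4 := by
  rw [Tn]; simp [Fin.sum_univ_succ, Tn_three, Tn_two, Tn_one, Tn_zero]; ring

theorem Tn_card {f : ι → ℕ → ℝ} {S : ℕ → ℝ}
    (hS0 : ∀ i, 0 ≤ S i)
    (hS : ∀ A : Finset ι, A.Nonempty → Id L (fun j => ∏ e ∈ A, f e j) ≤ S A.card)
    (A B : Finset ι) (hAB : A ⊆ B) (hA : A.Nonempty) :
    Id L (fun j => ∏ e ∈ A, f e j) * Tn S (B \ A).card ≤ Tn S B.card := by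
  rw [Finset.card_sdiff_of_subset hAB]
  exact (mul_le_mul_of_nonneg_right (hS A hA) (Tn_nonneg hS0 _)).trans
    (le_Tn hS0 hA.card_pos (Finset.card_le_card hAB))

/-- **`V + 1` replicas in different clusters above depth `c`, upper edges anywhere** -/
theorem wcl (hL : Mono 0 L) (c : ℕ) {f : ι → ℕ → ℝ} (hf : ∀ e j, 0 ≤ f e j)
    (hc : ∀ e j, j ≤ c → f e j = 0) {Θ : Finset ι → ℝ} (hΘ0 : ∀ B, 0 ≤ Θ B) (hΘ1 : 1 ≤ Θ ∅)
    (hΘ : ∀ A B, A ⊆ B → A.Nonempty → Id L (fun j => ∏ e ∈ A, f e j) * Θ (B \ A) ≤ Θ B)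
    {V : ℕ} (ι₀ : Fin (V + 1) → Fin (r + 1)) (hι : Function.Injective ι₀) (B : Finset ι)
    (p q : ι → Fin (r + 1)) :
    avm L r (fun σ => (if ∀ a b, a ≠ b → σ (ι₀ a) (ι₀ b) ≤ c then 1 else 0) *
        ∏ e ∈ B, ed (f e) σ (p e) (q e)) ≤ Cw (Fintype.card ι) r * (ex L c ^ V * Θ B) := by
  have hx : 0 ≤ ex L c ^ V := pow_nonneg (ex_nonneg hL c) V
  refine ext hL (χ := fun σ => if ∀ a b, a ≠ b → σ a b ≤ c then 1 else 0)
    (fun _ => by split_ifs <;> norm_num) (ft := fun e _ => f e) (fun e _ => hf e)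
    (fun _ _ _ => le_rfl) (Θ := fun B => ex L c ^ V * Θ B) (fun B => mul_nonneg hx (hΘ0 B))
    (fun A B hAB hA => by
      rw [mul_left_comm]; exact mul_le_mul_of_nonneg_left (hΘ A B hAB hA) hx)
    (fun B p q => ?_) r ι₀ hι B p q
  rcases B.eq_empty_or_nonempty with rfl | ⟨e, he⟩
  · simp only [Finset.prod_empty, mul_one]
    exact (avm_low hL c V).trans (le_mul_of_one_le_right hx hΘ1)
  · refine le_trans (le_of_eq ((congrArg _ (funext fun σ => ?_)).trans (avm_const L 0 V)))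
      (mul_nonneg hx (hΘ0 B))
    split_ifs with h
    · rw [Finset.prod_eq_zero he, mul_zero]
      unfold ed
      split_ifs with h'
      exacts [rfl, hc _ _ (h _ _ h')]
    · rw [zero_mul]

/-- **any multigraph** -/
theorem w0 (hL : Mono 0 L) {f : ι → ℕ → ℝ} (hf : ∀ e j, 0 ≤ f e j) {Θ : Finset ι → ℝ}
    (hΘ0 : ∀ B, 0 ≤ Θ B) (hΘ1 : 1 ≤ Θ ∅)
    (hΘ : ∀ A B, A ⊆ B → A.Nonempty → Id L (fun j => ∏ e ∈ A, f e j) * Θ (B \ A) ≤ Θ B)
    (B : Finset ι) (p q : ι → Fin (r + 1)) :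
    avm L r (fun σ => ∏ e ∈ B, ed (f e) σ (p e) (q e)) ≤ Cw (Fintype.card ι) r * Θ B := by
  have := ext hL (r₀ := 0) (χ := fun _ => 1) (fun _ => zero_le_one) (ft := fun e _ => f e)
    (fun e _ => hf e) (fun _ _ _ => le_rfl) hΘ0 hΘ (fun B p q => ?_) r (fun _ => 0)
    (fun a b _ => Subsingleton.elim (α := Fin 1) a b) B p q
  · simpa only [one_mul] using this
  · rcases B.eq_empty_or_nonempty with rfl | ⟨e, he⟩
    · simpa [avm_const] using hΘ1
    · have e0 : ∀ σ : SM (0 + 1), ed (f e) σ (p e) (q e) = 0 := fun σ =>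
        if_pos (Subsingleton.elim (α := Fin 1) _ _)
      rw [avm, Finset.prod_eq_zero he (e0 _), mul_zero]
      exact hΘ0 B

/-- **one more label**: `c` is outside the branches of `a` and `b` at their split node -/
theorem avm_out (hL : Mono 0 L) {g : ℕ → ℝ} (hg : ∀ j, 0 ≤ g j) {a b c : Fin (r + 1)} (hab : a ≠ b)
    (hac : a ≠ c) (hbc : b ≠ c) :
    avm L r (fun σ => if σ a c ≤ σ a b ∧ σ b c ≤ σ a b then g (σ a b) else 0) ≤
      Id L fun j => ex L j * g j := by
  have hi : Function.Injective (![c, a, b] : Fin 3 → Fin (r + 1)) := by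
    intro i j h
    fin_cases i <;> fin_cases j <;> simp_all [eq_comm]
  refine (avm_inj L 2 (fun σ => if σ 1 0 ≤ σ 1 2 ∧ σ 2 0 ≤ σ 1 2 then g (σ 1 2) else 0) r _
    hi).le.trans ?_
  rw [Id, ← avm_pair L (fun j => ex L j * g j) 1 (a := 0) (b := 1) zero_ne_one]
  rw [avm]
  refine avm_mono hL 1 fun σ hσ => ?_
  rw [div_le_iff₀ (by positivity)]
  refine (Ws_mono hL hσ (hσ.ncm fun σ : SM 3 =>
      if σ 1 0 ≤ σ 1 2 ∧ σ 2 0 ≤ σ 1 2 then g (σ 1 2) else 0)
    (G' := fun _ j => g (σ 0 1) * if j ≤ σ 0 1 then 1 else 0) (fun _ _ _ _ => rfl)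
    fun x j hj => ?_).trans ?_
  · change (if min j (σ 0 x) ≤ σ 0 1 ∧ min j (σ 1 x) ≤ σ 0 1 then g (σ 0 1) else 0) ≤ _
    have h0 := hσ.self 0
    have h1 := hσ.self 1
    split_ifs with h h'
    · rw [mul_one]
    · exfalso
      fin_cases x <;> simp only [Fin.zero_eta, Fin.mk_one] at h <;> omega
    · exact mul_nonneg (hg _) zero_le_one
    · rw [mul_zero]
  · rw [Ws_mul]
    have := mul_le_mul_of_nonneg_left (Ws_low hL σ (σ 0 1)) (hg (σ 0 1))
    push_cast at this ⊢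
    linarith

/-- the same with further edges, all at or above the split level of `a, b` -/
theorem wx (hL : Mono 0 L) {g : ℕ → ℝ} (hg : ∀ j, 0 ≤ g j) {ft : ι → ℕ → ℕ → ℝ} {f : ι → ℕ → ℝ}
    (h0 : ∀ e i j, 0 ≤ ft e i j) (h1 : ∀ e i j, ft e i j ≤ f e j)
    (h2 : ∀ e i j, j < i → ft e i j = 0) {Θ : Finset ι → ℝ}
    (hΘ1 : ∀ B, Id L (fun j => ex L j * (g j * ∏ e ∈ B, ft e j j)) ≤ Θ B)
    (hΘ : ∀ A B, A ⊆ B → A.Nonempty → Id L (fun j => ∏ e ∈ A, f e j) * Θ (B \ A) ≤ Θ B)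
    {a b c : Fin (r + 1)} (hab : a ≠ b) (hac : a ≠ c) (hbc : b ≠ c) (B : Finset ι)
    (p q : ι → Fin (r + 1)) :
    avm L r (fun σ => (if σ a c ≤ σ a b ∧ σ b c ≤ σ a b then g (σ a b) else 0) *
        ∏ e ∈ B, ed (ft e (σ a b)) σ (p e) (q e)) ≤ Cw (Fintype.card ι) r * Θ B := by
  have hi : Function.Injective (![a, b, c] : Fin 3 → Fin (r + 1)) := by
    intro i j h
    fin_cases i <;> fin_cases j <;> simp_all [eq_comm]
  have hp : ∀ B j, 0 ≤ g j * ∏ e ∈ B, ft e j j := fun B j =>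
    mul_nonneg (hg j) (Finset.prod_nonneg fun e _ => h0 e j j)
  refine ext hL (r₀ := 2) (χ := fun σ => if σ 0 2 ≤ σ 0 1 ∧ σ 1 2 ≤ σ 0 1 then g (σ 0 1) else 0)
    (fun σ => by split_ifs; exacts [hg _, le_rfl]) (ft := fun e σ => ft e (σ 0 1))
    (fun e _ => h0 e _) (fun e _ => h1 e _)
    (fun B => (Id_nonneg hL fun j => mul_nonneg (ex_nonneg hL j) (hp B j)).trans (hΘ1 B)) hΘ
    (fun B p q => ?_) r _ hi B p q
  refine le_trans (avm_mono hL 2 fun σ hσ => ?_) ((avm_out hL (hp B) (a := (0 : Fin 3)) (b := 1)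
    (c := 2) (by decide) (by decide) (by decide)).trans (hΘ1 B))
  split_ifs with h
  · refine mul_le_mul_of_nonneg_left (Finset.prod_le_prod (fun e _ => ed_nonneg (h0 e _) _ _ _)
      fun e _ => ?_) (hg _)
    unfold ed
    split_ifs with h'
    · exact h0 _ _ _
    · have hle : σ (p e) (q e) ≤ σ 0 1 := by
        have c1 := hσ.comm 1 0
        have c2 := hσ.comm 2 0
        have c3 := hσ.comm 2 1
        revert h'
        generalize p e = x
        generalize q e = y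
        fin_cases x <;> fin_cases y <;> simp <;> omega
      rcases hle.eq_or_lt with e1 | e1
      · rw [e1]
      · rw [h2 _ _ _ e1]
        exact h0 _ _ _
  · rw [zero_mul]

/-- two edges: `ν(a∧b = j, c∧d = k) ≤ C (dm_j dm_k + δ_jk dm_j)` -/
theorem w2 (hL : Mono 0 L) {f g : ℕ → ℝ} (hf : ∀ j, 0 ≤ f j) (hg : ∀ j, 0 ≤ g j)
    {a b c d : Fin (r + 1)} (hab : a ≠ b) (hcd : c ≠ d) :
    avm L r (fun σ => f (σ a b) * g (σ c d)) ≤
      Cw 2 r * (2 * (Id L f * Id L g) + Id L fun j => f j * g j) := by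
  have hF : ∀ (e : Bool) j, 0 ≤ (cond e f g) j := fun e j => by cases e; exacts [hg j, hf j]
  have hβ : ∀ A : Finset Bool, 0 ≤ Id L fun j => ∏ e ∈ A, (cond e f g) j :=
    fun A => Id_nonneg hL fun j => Finset.prod_nonneg fun e _ => hF e j
  have := w0 hL (r := r) hF (PB_nonneg hβ) (PB_empty _).ge (fun A B hAB hA => le_PB hβ hAB hA)
    Finset.univ (fun e => cond e a c) fun e => cond e b d
  simp only [Fintype.prod_bool, cond_true, cond_false, ed_of_ne _ _ hab, ed_of_ne _ _ hcd,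
    Fintype.card_bool] at this
  refine this.trans (le_of_eq ?_)
  have p1 : ∀ e : Bool, PB (fun A : Finset Bool => Id L fun j => ∏ e ∈ A, (cond e f g) j) {e} =
      Id L (cond e f g) := fun e => by
    rw [PB_eq _ (Finset.singleton_nonempty e),
      show ({e} : Finset Bool).powerset = {∅, {e}} by cases e <;> decide,
      Finset.sum_pair (Finset.singleton_ne_empty e).symm]
    simp [PB_empty]
  rw [PB_eq _ Finset.univ_nonempty, show (Finset.univ : Finset Bool).powerset =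
    {∅, {true}, {false}, Finset.univ} by decide, Finset.sum_insert (by decide),
    Finset.sum_insert (by decide), Finset.sum_pair (by decide),
    show (Finset.univ : Finset Bool) \ {true} = {false} by decide,
    show (Finset.univ : Finset Bool) \ {false} = {true} by decide, p1, p1]
  simp [PB_empty]
  ring_nf
  simp

end Crest.Agent.T156.Cas.W38

end
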