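import Crest.Agent.T156.Kid_68
import Crest.Agent.T156.Ker_15
import Crest.Agent.T156.Mul_55

/-!
# Row 156 (helper50): derivatives in the field, finite differences, the Euler identity with a field
-/

set_option autoImplicit false
set_option linter.all false

noncomputable section

namespace Crest.Agent.T156.Cas.Yd50

open MeasureTheory Real Set Filter Topology
open Crest.Agent.T157.E Crest.Agent.T157.Casc Crest.Agent.T157.SL
open Crest.ProbabilityR.SpinGlassDynamics (spin)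

/-! ### chains of derivatives -/

/-- `g (i + 1)` is the derivative of `g i` -/
def Ch (g : ℕ → ℝ → ℝ) : Prop := ∀ i y, HasDerivAt (g i) (g (i + 1) y) y

variable {g g' : ℕ → ℝ → ℝ}

theorem Ch.itD (H : Ch g) : ∀ i, iteratedDeriv i (g 0) = g i
  | 0 => iteratedDeriv_zero
  | i + 1 => by rw [iteratedDeriv_succ, H.itD i]; exact funext fun y => (H i y).deriv

theorem Ch.sub (H : Ch g) (H' : Ch g') : Ch fun i y => g i y - g' i y :=
  fun i y => (H i y).sub (H' i y)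

theorem Ch.sum {ι : Type*} (A : Finset ι) (a : ι → ℝ) {g : ι → ℕ → ℝ → ℝ} (H : ∀ j, Ch (g j)) :
    Ch fun i y => ∑ j ∈ A, a j * g j i y :=
  fun i y => HasDerivAt.fun_sum fun j _ => (H j i y).const_mul (a j)

theorem step_le {f f' : ℝ → ℝ} (hd : ∀ y, HasDerivAt f (f' y) y) (h0 : f 0 = 0) {c : ℝ} {k : ℕ}
    (hc : 0 ≤ c) (hb : ∀ y, |y| ≤ 2 → |f' y| ≤ c * |y| ^ k) (y : ℝ) (hy : |y| ≤ 2) :
    |f y| ≤ c * |y| ^ (k + 1) := by
  have := Convex.norm_image_sub_le_of_norm_hasDerivWithin_le (f := f) (s := Icc (-|y|) |y|)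
    (C := c * |y| ^ k) (fun x _ => (hd x).hasDerivWithinAt) (fun x hx => by
      have a : |x| ≤ |y| := abs_le.2 hx
      exact (hb x (a.trans hy)).trans (by gcongr)) (convex_Icc _ _)
    (x := 0) (y := y) ⟨by simp, abs_nonneg y⟩ ⟨neg_abs_le y, le_abs_self y⟩
  simpa only [h0, sub_zero, Real.norm_eq_abs, mul_assoc, ← pow_succ] using this

theorem Ch.tay {c : ℝ} : ∀ (r : ℕ) {g : ℕ → ℝ → ℝ}, Ch g → (∀ y, |y| ≤ 2 → |g r y| ≤ c) →
    ∀ y, |y| ≤ 2 → |g 0 y - ∑ i ∈ Finset.range r, g i 0 * y ^ i / i.factorial| ≤ c * |y| ^ r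
  | 0, g, _, hb => fun y hy => by simpa using hb y hy
  | r + 1, g, H, hb => by
    have ih := Ch.tay r (g := fun i => g (i + 1)) (fun i y => H (i + 1) y) hb
    refine step_le (fun y => ?_) (by simp [Finset.sum_range_succ'])
      ((abs_nonneg _).trans (hb 0 (by simp))) ih
    simp only [Finset.sum_range_succ', pow_zero]
    refine (H 0 y).sub (HasDerivAt.add_const _ (HasDerivAt.fun_sum fun i _ => ?_))
    refine ((((hasDerivAt_id y).fun_pow (i + 1)).const_mul _).div_const _).congr_deriv ?_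
    have : (i.factorial : ℝ) ≠ 0 := by positivity
    simp only [id, Nat.factorial_succ, Nat.add_sub_cancel]
    push_cast
    field_simp

/-- second difference -/
def D2 (h : ℝ) (f : ℝ → ℝ) : ℝ := f h - 2 * f 0 + f (-h)

/-- fourth difference -/
def D4 (h : ℝ) (f : ℝ → ℝ) : ℝ := f (2 * h) - 4 * f h + 6 * f 0 - 4 * f (-h) + f (-(2 * h))

theorem Ch.d2 (H : Ch g) {c h : ℝ} (hb : ∀ y, |y| ≤ 2 → |g 3 y| ≤ c) (h0 : 0 ≤ h) (h1 : h ≤ 1) :
    |D2 h (g 0) - h ^ 2 * g 2 0| ≤ 2 * c * h ^ 3 := by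
  have a := abs_le.1 (H.tay 3 hb h (by rw [abs_of_nonneg h0]; linarith))
  have b := abs_le.1 (H.tay 3 hb (-h) (by rw [abs_neg, abs_of_nonneg h0]; linarith))
  rw [abs_neg] at b
  rw [abs_of_nonneg h0] at a b
  simp only [Finset.sum_range_succ, Finset.sum_range_zero, Nat.factorial] at a b
  push_cast at a b
  rw [D2]
  exact abs_le.2 ⟨by linarith [a.1, b.1], by linarith [a.2, b.2]⟩

theorem Ch.d4 (H : Ch g) {c h : ℝ} (hb : ∀ y, |y| ≤ 2 → |g 5 y| ≤ c) (h0 : 0 ≤ h) (h1 : h ≤ 1) :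
    |D4 h (g 0) - h ^ 4 * g 4 0| ≤ 72 * c * h ^ 5 := by
  have h2 : 0 ≤ 2 * h := by linarith
  have a := abs_le.1 (H.tay 5 hb h (by rw [abs_of_nonneg h0]; linarith))
  have b := abs_le.1 (H.tay 5 hb (-h) (by rw [abs_neg, abs_of_nonneg h0]; linarith))
  have a' := abs_le.1 (H.tay 5 hb (2 * h) (by rw [abs_of_nonneg h2]; linarith))
  have b' := abs_le.1 (H.tay 5 hb (-(2 * h)) (by rw [abs_neg, abs_of_nonneg h2]; linarith))
  rw [abs_neg] at b b'
  rw [abs_of_nonneg h0] at a b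
  rw [abs_of_nonneg h2] at a' b'
  simp only [Finset.sum_range_succ, Finset.sum_range_zero, Nat.factorial] at a b a' b'
  push_cast at a b a' b'
  rw [D4]
  exact abs_le.2 ⟨by linarith [a.2, b.2, a'.1, b'.1], by linarith [a.1, b.1, a'.2, b'.2]⟩

/-! ### the response to the field -/

section gen
variable {Ω : Type} [Fintype Ω] {w : Ω → ℝ} {M : List (Lv Ω)} {f : Ω → ℝ}

/-- one leg -/
def Lp (M : List (Lv Ω)) (f : Ω → ℝ) (Λ : Fn Ω) : Fn Ω := fun s F =>
  ∑ a, Λ s (fun x => F x * f (x a)) - ∑ a, ∑ j ∈ Finset.range (M.length + 1), cw s M a j *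
    Λ (s.graft a j) fun x => F (fun b => x (s.emb a j b)) * f (x (s.nw a j))

theorem fl_lp {Φ : Fn Ω → ℝ} (h : FL Φ) : FL fun Λ => Φ (Lp M f Λ) :=
  fun R H _ _ e => h R H _ _ fun s F => H.sub (H.sum _ fun _ _ => e _ _)
    (H.sum _ fun _ _ => H.sum _ fun _ _ => H.smul _ (e _ _))

theorem fl_it : ∀ (r : ℕ) {Φ : Fn Ω → ℝ}, FL Φ → FL fun Λ => Φ ((Lp M f)^[r] Λ)
  | 0, _, h => h
  | r + 1, _, h => by
    simpa only [Function.iterate_succ_apply'] using fl_it r (fl_lp h)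

/-- curves of functionals moved by the leg -/
def Cv (M : List (Lv Ω)) (f : Ω → ℝ) (Λ : ℝ → Fn Ω) : Prop :=
  ∀ e s F, HasDerivAt (fun e => Λ e s F) (Lp M f (Λ e) s F) e

theorem Cv.ch {Λ : ℝ → Fn Ω} (H : Cv M f Λ) (s : Sh) (F : (s.Lf → Ω) → ℝ) :
    Ch fun i e => (Lp M f)^[i] (Λ e) s F := fun i e => (fl_it i (FL.ev s F)).der (H e)

theorem cv_TE (hw : Wt w) (M : List (Lv Ω)) (h f : Ω → ℝ) :
    Cv M f fun e => TEf w M (h + e • f) := fun e s F => One15.hasDerivAt_TE hw s M h f F e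

theorem Lp_tilt {M M' : List (Lv Ω)} (H : M.map Lv.m = M'.map Lv.m) : Lp M f = Lp M' f := by
  funext Λ s F
  simp only [Lp, Sch6.len_congr H, Sch6.cw_congr _ H]

/-- bounded functionals on shapes with at most `N` leaves -/
def Bn (N : ℕ) (c : ℝ) (Λ : Fn Ω) : Prop := ∀ s : Sh, Fintype.card s.Lf ≤ N →
  ∀ (F : (s.Lf → Ω) → ℝ) (b : ℝ), (∀ x, |F x| ≤ b) → |Λ s F| ≤ c * b

theorem Bn.lp [Nonempty Ω] (hM : Mono 0 M) (hf : ∀ y, |f y| ≤ 1) {N N' : ℕ} {c : ℝ} {Λ : Fn Ω}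
    (H : Bn (N + 1) c Λ) (hc : 0 ≤ c) (hN : N ≤ N') : Bn N (2 * N' * c) (Lp M f Λ) := by
  intro s hs F b hF
  obtain ⟨y⟩ := ‹Nonempty Ω›
  have b0 : 0 ≤ b := (abs_nonneg _).trans (hF fun _ => y)
  have e : ∀ x y, |F x * f y| ≤ b := fun x y => by
    rw [abs_mul]
    exact (mul_le_mul (hF x) (hf y) (abs_nonneg _) b0).trans_eq (mul_one _)
  have h1 : |∑ a, Λ s (fun x => F x * f (x a))| ≤ Fintype.card s.Lf * (c * b) := by
    refine (Finset.abs_sum_le_sum_abs _ _).trans ((Finset.sum_le_sum fun a _ =>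
      H s (by omega) _ b fun x => e x _).trans_eq ?_)
    simp
  have h2 : |∑ a, ∑ j ∈ Finset.range (M.length + 1), cw s M a j *
      Λ (s.graft a j) fun x => F (fun b => x (s.emb a j b)) * f (x (s.nw a j))| ≤
      Fintype.card s.Lf * (c * b) := by
    rw [← sum_cw s M, Finset.sum_mul]
    refine (Finset.abs_sum_le_sum_abs _ _).trans (Finset.sum_le_sum fun a _ => ?_)
    rw [Finset.sum_mul]
    refine (Finset.abs_sum_le_sum_abs _ _).trans (Finset.sum_le_sum fun j _ => ?_)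
    rw [abs_mul, abs_of_nonneg (cw_nonneg s hM a j)]
    exact mul_le_mul_of_nonneg_left (H _ (by rw [Wt87.card_graft]; omega) _ b fun x => e _ _)
      (cw_nonneg s hM a j)
  have h3 : (Fintype.card s.Lf : ℝ) * (c * b) ≤ N' * (c * b) :=
    mul_le_mul_of_nonneg_right (by exact_mod_cast hs.trans hN) (mul_nonneg hc b0)
  exact (abs_sub _ _).trans (by linarith)

theorem Bn.it [Nonempty Ω] (hM : Mono 0 M) (hf : ∀ y, |f y| ≤ 1) {N' : ℕ} {Λ : Fn Ω} {c : ℝ}
    (hc : 0 ≤ c) : ∀ (r N : ℕ), N + r ≤ N' → Bn (N + r) c Λ →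
      Bn N ((2 * N') ^ r * c) ((Lp M f)^[r] Λ)
  | 0, N, _, H => by simpa using H
  | r + 1, N, hN, H => by
    have := (Bn.it hM hf (N' := N') hc r (N + 1) (by omega) (by rwa [add_right_comm])).lp hM hf
      (by positivity) (N' := N') (by omega)
    rwa [Function.iterate_succ_apply', pow_succ', mul_assoc]

theorem bn_TE (hw : Wt w) (M : List (Lv Ω)) (h : Ω → ℝ) (N : ℕ) : Bn N 1 (TEf w M h) :=
  fun s _ F b hF => (One15.abs_TE_le hw s M h hF).trans_eq (one_mul b).symm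

end gen

/-! ### one site -/

open Ker15 (R1 tm z0)
open Eul43 (ins)

/-- the field `y ε` -/
def fd (y : ℝ) : Bool → ℝ := fun b => y * spin b

/-- `ε ε'` -/
def ee (a b : Bool) : ℝ := spin a * spin b

theorem fd_eq (y : ℝ) : 0 + y • spin = fd y := by funext b; simp [fd]

theorem cv_fd (L : List (Lv Bool)) : Cv L spin fun y => TEf (fun _ => 1) L (fd y) := by
  simpa only [fd_eq] using cv_TE One15.w1 L 0 spin

/-- derivatives of `Γ_j` -/
def gam (L : List (Lv Bool)) (j i : ℕ) (y : ℝ) : ℝ :=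
  (Lp L spin)^[i] (TEf (fun _ => 1) L (fd y)) (Sh.two j) fun x => ee (x (Sh.twoL j)) (x (Sh.twoR j))

/-- derivatives of the magnetisation -/
def mg (L : List (Lv Bool)) (i : ℕ) (y : ℝ) : ℝ :=
  (Lp L spin)^[i] (TEf (fun _ => 1) L (fd y)) .one fun x => spin (x ())

/-- derivatives of the value -/
def xc (L : List (Lv Bool)) : ℕ → ℝ → ℝ
  | 0 => fun y => X (fun _ => 1) L (fd y)
  | i + 1 => mg L i

/-- derivatives of `y m - Φ` -/
def ec (L : List (Lv Bool)) : ℕ → ℝ → ℝ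
  | 0 => fun y => y * mg L 0 y - X (fun _ => 1) L (fd y)
  | i + 1 => fun y => i * mg L i y + y * mg L (i + 1) y

variable {L : List (Lv Bool)}

theorem ch_gam (L : List (Lv Bool)) (j : ℕ) : Ch (gam L j) := (cv_fd L).ch _ _

theorem ch_mg (L : List (Lv Bool)) : Ch (mg L) := (cv_fd L).ch _ _

theorem gam_zero (L : List (Lv Bool)) (j : ℕ) (y : ℝ) :
    gam L j 0 y = pi2 (fun _ => 1) L j ee (fd y) := twoF_TEf One15.w1 j ee L _

theorem mg_zero (L : List (Lv Bool)) (y : ℝ) : mg L 0 y = Pf (fun _ => 1) L (fd y) spin :=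
  Law.TE_one One15.w1 L _ _

theorem ch_xc (L : List (Lv Bool)) : Ch (xc L)
  | 0, y => by
    have := (gr_X One15.w1 L).line 0 spin y
    simp only [fd_eq] at this
    exact this.congr_deriv (mg_zero L y).symm
  | i + 1, y => ch_mg L i y

theorem ch_ec (L : List (Lv Bool)) : Ch (ec L)
  | 0, y => (((hasDerivAt_id y).mul (ch_mg L 0 y)).sub (ch_xc L 0 y)).congr_deriv (by
      simp only [ec, xc, id]; push_cast; ring)
  | i + 1, y => (((ch_mg L i y).const_mul (i : ℝ)).add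
      ((hasDerivAt_id y).mul (ch_mg L (i + 1) y))).congr_deriv (by
      simp only [ec, id]; push_cast; ring)

theorem abs_ee (a b : Bool) : |ee a b| ≤ 1 := (OneP.abs_spin2 a b).le

theorem pw_le {i : ℕ} (hi : i ≤ 5) : (2 * ((7 : ℕ) : ℝ)) ^ i * 1 * 1 ≤ 14 ^ 5 := by
  rw [mul_one, mul_one, show (2 * ((7 : ℕ) : ℝ)) = 14 by norm_num]
  exact pow_le_pow_right₀ (by norm_num) hi

theorem abs_gam (hM : Mono 0 L) (j : ℕ) {i : ℕ} (hi : i ≤ 5) (y : ℝ) : |gam L j i y| ≤ 14 ^ 5 :=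
  (Bn.it hM (fun b => (One15.abs_spin b).le) (N' := 7) zero_le_one i 2 (by omega)
    (bn_TE One15.w1 L _ _) _ (Wt87.card_two j).le _ 1 fun _ => abs_ee _ _).trans (pw_le hi)

theorem abs_mg (hM : Mono 0 L) {i : ℕ} (hi : i ≤ 5) (y : ℝ) : |mg L i y| ≤ 14 ^ 5 :=
  (Bn.it hM (fun b => (One15.abs_spin b).le) (N' := 7) zero_le_one i 1 (by omega)
    (bn_TE One15.w1 L _ _) _ (Fintype.card_le_one_iff.2 fun _ _ => rfl) _ 1 fun _ => (One15.abs_spin _).le).trans (pw_le hi)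

theorem abs_ec (hM : Mono 0 L) {i : ℕ} (hi : i ≤ 4) (y : ℝ) (hy : |y| ≤ 2) :
    |ec L (i + 1) y| ≤ 6 * 14 ^ 5 := by
  have a := abs_mg hM (i := i) (by omega) y
  have b := abs_mg hM (i := i + 1) (by omega) y
  have c : (i : ℝ) ≤ 4 := by exact_mod_cast hi
  refine (abs_add_le _ _).trans ?_
  rw [abs_mul, abs_mul, Nat.abs_cast]
  nlinarith [mul_le_mul c a (abs_nonneg _) (by norm_num), mul_le_mul hy b (abs_nonneg _) (by norm_num)]

theorem mg00 (H : R1 L) : mg L 0 0 = 0 := by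
  have := One15.TE_flip (One15.fl_of H.rk) .one (fun x => spin (x ())) 0
  simp only [One15.spin_not, neg_zero, ← neg_one_mul (spin _), Law.TE_const_mul One15.w1] at this
  have e : mg L 0 0 = TE (fun _ => 1) .one L ((0 : ℝ) • spin) fun x => spin (x ()) := by
    rw [← zero_add ((0 : ℝ) • spin), fd_eq]; rfl
  linarith

theorem gam00 (L : List (Lv Bool)) : gam L 0 0 = fun y => mg L 0 y * mg L 0 y := by
  funext y
  rw [gam_zero, pi2_zero, mg_zero]
  exact qf_mul _ _ _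

theorem gam02 (H : R1 L) : gam L 0 2 0 = 2 * mg L 1 0 ^ 2 := by
  have e1 : gam L 0 1 = fun y => mg L 1 y * mg L 0 y + mg L 0 y * mg L 1 y := funext fun y =>
    (ch_gam L 0 0 y).unique (by rw [gam00]; exact (ch_mg L 0 y).mul (ch_mg L 0 y))
  have e2 := (ch_gam L 0 1 0).unique (by
    rw [e1]; exact ((ch_mg L 1 0).mul (ch_mg L 0 0)).add ((ch_mg L 0 0).mul (ch_mg L 1 0)))
  rw [e2, mg00 H]
  ring

/-- inside the first level -/
theorem gam_spl {l : Lv Bool} (H : R1 (l :: L)) (hM : Mono 0 (l :: L)) {ρ : ℝ}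
    (hρ : ρ ∈ Icc (0 : ℝ) 1) : Mono 0 (Gir68.spl (l :: L) 0 l ρ) ∧
      |gam (Gir68.spl (l :: L) 0 l ρ) 1 2 0 - 2 * mg (l :: L) 1 0 ^ 2| ≤
        14 ^ 5 * tm (l :: L) 1 := by
  refine ⟨⟨hM.1, le_rfl, hM.2⟩, ?_⟩
  obtain ⟨v, v0, hv⟩ := H l List.mem_cons_self
  have et : tm (l :: L) 1 = v := by simp [tm, cacc, hv, spin]
  set A := z0 Bool l.m :: l :: L with hA
  set B := Gir68.spl (l :: L) 0 l ρ with hB
  have mA : Mono 0 A := ⟨hM.1, le_rfl, hM.2⟩
  have st : Ker15.ST A B := rfl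
  have c2 : ∀ j x y, Ker15.dC A B (j + 2) x y = 0 := fun j x y => by
    simp only [Ker15.dC, hA, hB, Gir68.spl, List.take_zero, List.nil_append, zero_add,
      List.drop_one, List.tail_cons, Sd.cacc_cons, Ker15.z0_cov, Gir68.lv_cov l hρ.1,
      Gir68.lv_cov l (sub_nonneg.2 hρ.2)]
    ring
  have c1 : ∀ j x y, |Ker15.dC A B j x y| ≤ v
    | 0, x, y => by simpa [Ker15.dC, cacc] using v0
    | 1, x, y => by
      have : Ker15.dC A B 1 x y = ρ * (v * (spin x * spin y)) := by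
        simp [Ker15.dC, hA, hB, Gir68.spl, cacc, Ker15.z0_cov, Gir68.lv_cov l hρ.1, hv]
      rw [this, abs_mul, abs_mul, OneP.abs_spin2, abs_of_nonneg hρ.1, abs_of_nonneg v0]
      nlinarith [hρ.2]
    | j + 2, x, y => by rw [c2, abs_zero]; exact v0
  have b : Bn (2 + 2) (32 * v) fun s F =>
      1 * TEf (fun _ => 1) B (fd 0) s F + -1 * TEf (fun _ => 1) A (fd 0) s F := fun s hs F b hF => by
    have := Ker15.ker1 One15.w1 mA st (c := 0) (fun y => c2 L.length y y) s hs (fd 0) hF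
      fun j _ => c1 j
    simp only [one_mul, neg_one_mul, ← sub_eq_add_neg]
    exact this.trans_eq (by push_cast; ring)
  have k := Bn.it mA (fun b => (One15.abs_spin b).le) (N' := 7) (by positivity) 2 2 (by omega) b
    _ (Wt87.card_two 1).le (fun x => ee (x (Sh.twoL 1)) (x (Sh.twoR 1))) 1 fun _ => abs_ee _ _
  rw [(fl_it (M := A) (f := spin) 2 (FL.ev _ _)).lin] at k
  have e0 : gam A 1 0 = gam (l :: L) 0 0 := funext fun y => by
    rw [gam_zero, gam_zero, ← twoF_TEf One15.w1, ← twoF_TEf One15.w1]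
    exact Ker15.TE_rf One15.w1 (L := l :: L) (j := 0) (by simp) false _ _ _
  have e2 : gam A 1 2 = gam (l :: L) 0 2 := by
    rw [← (ch_gam A 1).itD, e0, (ch_gam _ 0).itD]
  rw [← gam02 H, ← e2, et, gam, gam, ← Lp_tilt st]
  refine le_trans (le_of_eq (congrArg _ (by ring))) (k.trans ?_)
  push_cast
  linarith

/-! ### the Euler identity with a field -/

/-- the Euler weights -/
def wt (L : List (Lv Bool)) (j : ℕ) : ℝ :=
  dm L 0 j * tm L j + ex L j * (tm L (j + 1) - tm L j) / 2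

/-- the tested overlap above the first level -/
def AA (L : List (Lv Bool)) (i : ℕ) (y : ℝ) : ℝ := ∑ j ∈ Finset.Ico 1 L.length, wt L j * gam L j i y

/-- thin levels above the first one, small entropy -/
structure Eu (L : List (Lv Bool)) (ε : ℝ) : Prop where
  r1 : R1 L
  mono : Mono 0 L
  pos : 0 < L.length
  top : dm L 0 L.length = 0
  mesh : ∀ j ∈ Finset.Ico 1 L.length, tm L (j + 1) - tm L j ≤ ε
  ent : ∀ h, |node (fun _ => 1) L L.length (Gir68.Sn fun _ => 1) h| ≤ ε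

theorem tm0 (L : List (Lv Bool)) : tm L 0 = 0 := by simp [tm, cacc]

theorem ql (H : R1 L) : Eul43.QL L ee (fun _ => 0) fun j => tm L (j + 1) - tm L j :=
  fun j hj x y => by rw [← Ker15.cv_eq L j hj, Ker15.cv, H.cacc, H.cacc, ee]; ring

theorem ee_cov : (C.sl spin (0, 1)).cov = ee := funext fun x => funext fun y => by
  rw [(C.rk1_sl spin (p := (0, 1)) zero_le_one).2.2, one_mul, ee]

variable {ε : ℝ}

theorem Eu.id (H : Eu L ε) (y : ℝ) : |AA L 0 y - ec L 0 y +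
    ex L 0 / 2 * tm L 1 * ins (fun _ => 1) L 0 ee (fd y) - tm L L.length| ≤ 2 * ε := by
  have e := Eul43.euler_QL One15.w1 (R := ee) (fun x => by rw [ee, ← sq, One15.spin_sq]) (ql H.r1)
    (fd y) (Nat.zero_le _)
  have e0 : 0 ≤ ε := (abs_nonneg _).trans (H.ent 0)
  have p : Pf (fun _ => 1) L (fd y) (fd y) = y * mg L 0 y := by
    rw [mg_zero]
    simp only [Pf, fd, Finset.mul_sum, mul_left_comm]
  simp only [Finset.sum_range_sub (tm L), tm0, Finset.sum_const_zero, zero_mul, zero_add, sub_zero,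
    node_zero, List.drop_zero, p] at e
  rw [Finset.sum_range_succ, H.top, zero_mul, add_zero, Finset.range_eq_Ico,
    Finset.sum_eq_sum_Ico_succ_bot H.pos, Finset.sum_eq_sum_Ico_succ_bot H.pos] at e
  have k := Kid68.ins_sum One15.w1 (C.sl spin (0, 1)) L (fd y) (J := Finset.Ico 1 L.length)
    (fun j hj => Finset.mem_range.2 (Finset.mem_Ico.1 hj).2)
    (c := fun j => ex L j / 2 * (tm L (j + 1) - tm L j)) e0 (fun j hj => by
      have a := Kid68.ex_mem H.mono j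
      have b := sub_nonneg.2 (H.r1.tm_mono (Nat.le_succ j))
      rw [abs_of_nonneg (mul_nonneg (by linarith [a.1]) b)]
      nlinarith [H.mesh j hj, a.2])
    fun j _ => ⟨le_rfl, Kkt28.pi2_succ One15.w1 _ L j _⟩
  have k0 := Kid68.pi2_cov_nonneg One15.w1 (C.sl spin (0, 1)) L 0 (fd y)
  have k1 := Kid68.pi2_le_one One15.w1 (fun a b => (le_abs_self _).trans (abs_ee a b)) L L.length
    (fd y)
  rw [ee_cov] at k k0
  have k2 := abs_le.1 (k.trans (mul_le_of_le_one_right e0 (by linarith)))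
  have k3 := abs_le.1 (H.ent (fd y))
  have a : AA L 0 y = ∑ j ∈ Finset.Ico 1 L.length,
      dm L 0 j * (tm L j * pi2 (fun _ => 1) L j ee (fd y)) + (∑ j ∈ Finset.Ico 1 L.length,
      ex L j / 2 * ((tm L (j + 1) - tm L j) * ins (fun _ => 1) L j ee (fd y)) -
      ∑ j ∈ Finset.Ico 1 L.length, ex L j / 2 * (tm L (j + 1) - tm L j) *
        (ins (fun _ => 1) L j ee (fd y) - pi2 (fun _ => 1) L j ee (fd y))) := by
    rw [← Finset.sum_sub_distrib, ← Finset.sum_add_distrib]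
    exact Finset.sum_congr rfl fun j _ => by rw [wt, gam_zero]; ring
  simp only [tm0, zero_add, zero_mul, mul_zero, sub_zero] at e
  simp only [a, ec]
  exact abs_le.2 ⟨by linarith [k2.2, k3.1], by linarith [k2.1, k3.2]⟩

theorem Eu.abs_AA (H : Eu L ε) {i : ℕ} (hi : i ≤ 5) (y : ℝ) :
    |AA L i y| ≤ 2 * tm L L.length * 14 ^ 5 := by
  have t0 : ∀ j, 0 ≤ tm L j := fun j => tm0 L ▸ H.r1.tm_mono (Nat.zero_le j)
  have s : Finset.Ico 1 L.length ⊆ Finset.range L.length := fun j hj =>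
    Finset.mem_range.2 (Finset.mem_Ico.1 hj).2
  have d := fun j => sub_nonneg.2 (H.r1.tm_mono (Nat.le_succ j))
  have b : ∀ j ∈ Finset.range L.length, 0 ≤ wt L j ∧
      wt L j ≤ dm L 0 j * tm L L.length + (tm L (j + 1) - tm L j) := fun j hj => by
    have a := Kid68.ex_mem H.mono j
    have c := mul_le_mul_of_nonneg_left (H.r1.tm_mono (Finset.mem_range.1 hj).le)
      (dm_nonneg H.mono j)
    have := mul_nonneg (dm_nonneg H.mono j) (t0 j)
    have := mul_nonneg a.1 (d j)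
    have := mul_le_of_le_one_left (d j) a.2
    rw [wt]
    constructor <;> linarith
  have u : ∑ j ∈ Finset.range L.length, dm L 0 j = 1 := by
    have := sum_dm L 0 L.length
    rwa [Finset.sum_range_succ, H.top, add_zero, ex_length, sub_zero] at this
  refine (Finset.abs_sum_le_sum_abs _ _).trans ((Finset.sum_le_sum fun j hj => ?_).trans
    ((Finset.sum_mul _ _ _).ge.trans (mul_le_mul_of_nonneg_right
      ((Finset.sum_le_sum_of_subset_of_nonneg s fun j hj _ => (b j hj).1).trans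
        ((Finset.sum_le_sum fun j hj => (b j hj).2).trans_eq ?_)) (by norm_num))))
  · rw [abs_mul, abs_of_nonneg (b j (s hj)).1]
    exact mul_le_mul_of_nonneg_left (abs_gam H.mono j hi y) (b j (s hj)).1
  · rw [Finset.sum_add_distrib, ← Finset.sum_mul, u, Finset.sum_range_sub (tm L), tm0]
    ring

theorem ch_AA (L : List (Lv Bool)) : Ch (AA L) := Ch.sum _ _ (ch_gam L)

theorem int_le {f : ℝ → ℝ} (hf : IntervalIntegrable f volume 0 1) {v e : ℝ}
    (h : ∀ ρ ∈ Icc (0 : ℝ) 1, |f ρ - v| ≤ e) : |(∫ ρ in (0 : ℝ)..1, f ρ) - v| ≤ e := by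
  have a := intervalIntegral.integral_mono_on zero_le_one hf intervalIntegrable_const
    (g := fun _ => v + e) fun ρ hρ => by linarith [(abs_le.1 (h ρ hρ)).2]
  have b := intervalIntegral.integral_mono_on zero_le_one intervalIntegrable_const hf
    (f := fun _ => v - e) fun ρ hρ => by linarith [(abs_le.1 (h ρ hρ)).1]
  simp only [intervalIntegral.integral_const, sub_zero, one_smul] at a b
  exact abs_le.2 ⟨by linarith, by linarith⟩

theorem ins_d {l : Lv Bool} (H : R1 (l :: L)) (hM : Mono 0 (l :: L)) {h : ℝ} (h0 : 0 ≤ h)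
    (h1 : h ≤ 1) : |D2 h (fun y => ins (fun _ => 1) (l :: L) 0 ee (fd y)) -
      h ^ 2 * (2 * mg (l :: L) 1 0 ^ 2)| ≤ 14 ^ 5 * (2 * h ^ 3 + h ^ 2 * tm (l :: L) 1) ∧
    |D4 h fun y => ins (fun _ => 1) (l :: L) 0 ee (fd y)| ≤ 14 ^ 5 * (73 * h ^ 4) := by
  have I := fun y => Eul43.int_spl One15.w1 (l :: L) 0 l ee (fd y)
  have e : ∀ y, ins (fun _ => 1) (l :: L) 0 ee (fd y) =
      ∫ ρ in (0 : ℝ)..1, pi2 (fun _ => 1) (Gir68.spl (l :: L) 0 l ρ) (0 + 1) ee (fd y) := fun _ => rfl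
  constructor
  · have i2 := ((I h).sub ((I 0).const_mul 2)).add (I (-h))
    rw [D2, e, e, e, ← intervalIntegral.integral_const_mul,
      ← intervalIntegral.integral_sub (I h) ((I 0).const_mul 2),
      ← intervalIntegral.integral_add ((I h).sub ((I 0).const_mul 2)) (I (-h))]
    refine int_le i2 fun ρ hρ => ?_
    obtain ⟨m, k⟩ := gam_spl H hM hρ
    have d := (ch_gam _ 1).d2 (fun y _ => abs_gam m 1 (by norm_num) y) h0 h1
    simp only [D2, gam_zero] at d
    have k' := mul_le_mul_of_nonneg_left k (sq_nonneg h)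
    rw [← abs_of_nonneg (sq_nonneg h), ← abs_mul, abs_of_nonneg (sq_nonneg h)] at k'
    have a := abs_le.1 d
    have b := abs_le.1 k'
    exact abs_le.2 ⟨by linarith [a.1, b.1], by linarith [a.2, b.2]⟩
  · have j1 := (I (2 * h)).sub ((I h).const_mul 4)
    have j2 := j1.add ((I 0).const_mul 6)
    have j3 := j2.sub ((I (-h)).const_mul 4)
    rw [D4, e, e, e, e, e, ← intervalIntegral.integral_const_mul,
      ← intervalIntegral.integral_const_mul, ← intervalIntegral.integral_const_mul,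
      ← intervalIntegral.integral_sub (I _) ((I h).const_mul 4),
      ← intervalIntegral.integral_add j1 ((I 0).const_mul 6),
      ← intervalIntegral.integral_sub j2 ((I (-h)).const_mul 4),
      ← intervalIntegral.integral_add j3 (I _), ← sub_zero (intervalIntegral _ _ _ _)]
    refine int_le (j3.add (I _)) fun ρ hρ => ?_
    have m := (gam_spl H hM hρ).1
    have d := (ch_gam _ 1).d4 (fun y _ => abs_gam m 1 le_rfl y) h0 h1
    simp only [D4, gam_zero] at d
    have p : 0 ≤ h ^ 4 := by positivity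
    have k' := mul_le_mul_of_nonneg_left (abs_gam m 1 (i := 4) (by norm_num) 0) p
    rw [← abs_of_nonneg p, ← abs_mul, abs_of_nonneg p] at k'
    have q : h ^ 5 ≤ h ^ 4 := pow_le_pow_of_le_one h0 h1 (by norm_num)
    have a := abs_le.1 d
    have b := abs_le.1 k'
    exact abs_le.2 ⟨by linarith [a.1, b.1], by linarith [a.2, b.2]⟩

/-- **second and fourth derivative of the Euler identity** -/
theorem Eu.der (H : Eu L ε) {h : ℝ} (h0 : 0 ≤ h) (h1 : h ≤ 1) :
    h ^ 2 * |AA L 2 0 - mg L 1 0 + ex L 0 * tm L 1 * mg L 1 0 ^ 2| ≤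
      8 * ε + 14 ^ 5 * (13 * (1 + tm L L.length) * h ^ 3 + h ^ 2 * (ex L 0 * tm L 1 ^ 2)) ∧
    h ^ 4 * |AA L 4 0 - 3 * mg L 3 0| ≤
      32 * ε + 14 ^ 5 * (432 * (1 + tm L L.length) * h ^ 5 + 37 * h ^ 4 * (ex L 0 * tm L 1)) := by
  obtain ⟨l, L, rfl⟩ := List.exists_cons_of_length_pos H.pos
  set N := l :: L
  have t0 : ∀ j, 0 ≤ tm N j := fun j => tm0 N ▸ H.r1.tm_mono (Nat.zero_le j)
  have t1 : tm N 1 ≤ tm N N.length := H.r1.tm_mono H.pos
  have x := Kid68.ex_mem H.mono 0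
  have κ0 : 0 ≤ ex N 0 / 2 * tm N 1 := mul_nonneg (by linarith [x.1]) (t0 1)
  have κ1 : ex N 0 * tm N 1 ≤ tm N N.length := (mul_le_of_le_one_left (t0 1) x.2).trans t1
  have c := (ch_AA N).sub (ch_ec N)
  have b : ∀ i ≤ 4, ∀ y, |y| ≤ 2 → |AA N (i + 1) y - ec N (i + 1) y| ≤
      (2 * tm N N.length + 6) * 14 ^ 5 := fun i hi y hy =>
    (abs_sub _ _).trans (by linarith [H.abs_AA (i := i + 1) (by omega) y, abs_ec H.mono hi y hy])
  obtain ⟨i2, i4⟩ := ins_d H.r1 H.mono h0 h1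
  have i2' := mul_le_mul_of_nonneg_left i2 κ0
  have i4' := mul_le_mul_of_nonneg_left i4 κ0
  rw [← abs_of_nonneg κ0, ← abs_mul, abs_of_nonneg κ0] at i2' i4'
  have r := fun y => abs_le.1 (H.id y)
  constructor
  · have d := abs_le.1 (c.d2 (b 2 (by norm_num)) h0 h1)
    have k := abs_le.1 i2'
    have p3 : 0 ≤ h ^ 3 := by positivity
    have := mul_le_mul_of_nonneg_left κ1 p3
    have := mul_nonneg (t0 N.length) p3
    have := mul_nonneg (sq_nonneg h) (mul_nonneg x.1 (sq_nonneg (tm N 1)))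
    simp only [D2, ec] at d k r
    rw [← abs_of_nonneg (sq_nonneg h), ← abs_mul, abs_of_nonneg (sq_nonneg h)]
    push_cast at d
    exact abs_le.2 ⟨by linarith [d.2, k.2, (r h).1, (r 0).2, (r (-h)).1],
      by linarith [d.1, k.1, (r h).2, (r 0).1, (r (-h)).2]⟩
  · have d := abs_le.1 (c.d4 (b 4 le_rfl) h0 h1)
    have k := abs_le.1 i4'
    have p4 : 0 ≤ h ^ 4 := by positivity
    have := mul_nonneg (t0 N.length) (by positivity : 0 ≤ h ^ 5)
    have := mul_nonneg p4 κ0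
    simp only [D4, ec] at d k r
    rw [← abs_of_nonneg p4, ← abs_mul, abs_of_nonneg p4]
    push_cast at d
    exact abs_le.2 ⟨by linarith [d.2, k.2, (r (2 * h)).1, (r h).2, (r 0).1, (r (-h)).2,
      (r (-(2 * h))).1], by linarith [d.1, k.1, (r (2 * h)).2, (r h).1, (r 0).2, (r (-h)).1,
      (r (-(2 * h))).2]⟩

end Crest.Agent.T156.Cas.Yd50

end
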